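import Vale.Agent.P348.G.G10_10_0

set_option maxRecDepth 1000000
set_option maxHeartbeats 0
set_option linter.all false

namespace Vale.Agent.P348.R10_10_0_6

theorem run_ok : run (K := A10_10.KK) A10_10.ap G10_10_0.step (A10_10.fin A10_10.sq6 844493403743611935852864911448437760249605651334612759929820458889037776214645590524914602927097054215130) 10 164 cf10 A10_10.ch6 = true := by
  decide +kernel

theorem res : sumL (fun s => sqF 164 A10_10.ch6 (finalX 9 false A10_10.mask 164 cf10 A10_10.ch6 s)) (secL 10 10 0 []) = 844493403743611935852864911448437760249605651334612759929820458889037776214645590524914602927097054215130 := by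
  have h := ((run_final (K := A10_10.KK) A10_10.ap G10_10_0.step _ 9 164 A10_10.mask false cf10 A10_10.ch6 G10_10_0.step_eq).symm.trans run_ok)
  have h2 := (A10_10.fin_eq A10_10.sq6 _ _).symm.trans h
  rw [A10_10.sq_eq6] at h2
  exact Nat.eq_of_beq_eq_true h2

end Vale.Agent.P348.R10_10_0_6
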