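import Vale.Agent.P348.G.G10_10_1

set_option maxRecDepth 1000000
set_option maxHeartbeats 0
set_option linter.all false

namespace Vale.Agent.P348.R10_10_1_0

theorem run_ok : run (K := A10_10.KK) A10_10.ap G10_10_1.step (A10_10.fin2 A10_10.sq0 660907881190652819363111669829212162835225575285551522246312830192551878947610052853099986542613392159680 660907881190652819363111669829212162835228477787704927709816790833644965479209834505467467537166574776480) 10 164 cf10 A10_10.ch0 = true := by
  decide +kernel

theorem res : sumL (fun s => sqF 164 A10_10.ch0 (finalX 9 true A10_10.mask 164 cf10 A10_10.ch0 s)) (secL 10 10 0 []) = 660907881190652819363111669829212162835225575285551522246312830192551878947610052853099986542613392159680 ∧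
    sumL (fun s => sqF 164 A10_10.ch0 (Nat.add (finalX 9 true A10_10.mask 164 cf10 A10_10.ch0 s) (finalX 9 true A10_10.mask 164 cf10 A10_10.ch0 (Nat.sub 59048 s)))) (secL 10 10 0 []) = 660907881190652819363111669829212162835228477787704927709816790833644965479209834505467467537166574776480 := by
  have h := ((run_final (K := A10_10.KK) A10_10.ap G10_10_1.step _ 9 164 A10_10.mask true cf10 A10_10.ch0 G10_10_1.step_eq).symm.trans run_ok)
  have h2 := (A10_10.fin2_eq A10_10.sq0 _ _ _).symm.trans h
  rw [A10_10.sq_eq0, Bool.and_eq_true] at h2
  exact ⟨Nat.eq_of_beq_eq_true h2.1, Nat.eq_of_beq_eq_true h2.2⟩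

end Vale.Agent.P348.R10_10_1_0
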