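import Vale.Agent.P348.G.G10_6_0

set_option maxRecDepth 1000000
set_option maxHeartbeats 0
set_option linter.all false

namespace Vale.Agent.P348.R10_6_0_1

theorem run_ok : run (K := A10_6.KK) A10_6.ap G10_6_0.step (A10_6.fin A10_6.sq1 1051930895450329797377900289854381025399539921421988336011049090260993284732491956881909579712817913805860) 10 164 cf10 A10_6.ch1 = true := by
  decide +kernel

theorem res : sumL (fun s => sqF 164 A10_6.ch1 (finalX 9 false A10_6.mask 164 cf10 A10_6.ch1 s)) (secL 10 6 0 []) = 1051930895450329797377900289854381025399539921421988336011049090260993284732491956881909579712817913805860 := by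
  have h := ((run_final (K := A10_6.KK) A10_6.ap G10_6_0.step _ 9 164 A10_6.mask false cf10 A10_6.ch1 G10_6_0.step_eq).symm.trans run_ok)
  have h2 := (A10_6.fin_eq A10_6.sq1 _ _).symm.trans h
  rw [A10_6.sq_eq1] at h2
  exact Nat.eq_of_beq_eq_true h2

end Vale.Agent.P348.R10_6_0_1
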