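import Vale.Agent.P348.G.G10_7_1

set_option maxRecDepth 1000000
set_option maxHeartbeats 0
set_option linter.all false

namespace Vale.Agent.P348.R10_7_1_3

theorem run_ok : run (K := A10_7.KK) A10_7.ap G10_7_1.step (A10_7.fin A10_7.sq3 971959540825450923893030677175392994228814659539269493322268911111058478431228312150611384417120487226340) 10 164 cf10 A10_7.ch3 = true := by
  decide +kernel

theorem res : sumL (fun s => sqF 164 A10_7.ch3 (finalX 9 true A10_7.mask 164 cf10 A10_7.ch3 s)) (secL 10 7 0 []) = 971959540825450923893030677175392994228814659539269493322268911111058478431228312150611384417120487226340 := by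
  have h := ((run_final (K := A10_7.KK) A10_7.ap G10_7_1.step _ 9 164 A10_7.mask true cf10 A10_7.ch3 G10_7_1.step_eq).symm.trans run_ok)
  have h2 := (A10_7.fin_eq A10_7.sq3 _ _).symm.trans h
  rw [A10_7.sq_eq3] at h2
  exact Nat.eq_of_beq_eq_true h2

end Vale.Agent.P348.R10_7_1_3
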