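import Vale.Agent.P348.G.G10_8_0

set_option maxRecDepth 1000000
set_option maxHeartbeats 0
set_option linter.all false

namespace Vale.Agent.P348.R10_8_0_3

theorem run_ok : run (K := A10_8.KK) A10_8.ap G10_8_0.step (A10_8.fin A10_8.sq3 1072764458603887985957548373567676368904411723865838997151967420797934779669662639043060273036483462925040) 10 164 cf10 A10_8.ch3 = true := by
  decide +kernel

theorem res : sumL (fun s => sqF 164 A10_8.ch3 (finalX 9 false A10_8.mask 164 cf10 A10_8.ch3 s)) (secL 10 8 0 []) = 1072764458603887985957548373567676368904411723865838997151967420797934779669662639043060273036483462925040 := by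
  have h := ((run_final (K := A10_8.KK) A10_8.ap G10_8_0.step _ 9 164 A10_8.mask false cf10 A10_8.ch3 G10_8_0.step_eq).symm.trans run_ok)
  have h2 := (A10_8.fin_eq A10_8.sq3 _ _).symm.trans h
  rw [A10_8.sq_eq3] at h2
  exact Nat.eq_of_beq_eq_true h2

end Vale.Agent.P348.R10_8_0_3
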