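import Vale.Agent.P348.G.G10_9_1

set_option maxRecDepth 1000000
set_option maxHeartbeats 0
set_option linter.all false

namespace Vale.Agent.P348.R10_9_1_4

theorem run_ok : run (K := A10_9.KK) A10_9.ap G10_9_1.step (A10_9.fin A10_9.sq4 981665465916675539307433655808227439034867601035332497111143608573155406630171437028397776042241527532460) 10 164 cf10 A10_9.ch4 = true := by
  decide +kernel

theorem res : sumL (fun s => sqF 164 A10_9.ch4 (finalX 9 true A10_9.mask 164 cf10 A10_9.ch4 s)) (secL 10 9 0 []) = 981665465916675539307433655808227439034867601035332497111143608573155406630171437028397776042241527532460 := by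
  have h := ((run_final (K := A10_9.KK) A10_9.ap G10_9_1.step _ 9 164 A10_9.mask true cf10 A10_9.ch4 G10_9_1.step_eq).symm.trans run_ok)
  have h2 := (A10_9.fin_eq A10_9.sq4 _ _).symm.trans h
  rw [A10_9.sq_eq4] at h2
  exact Nat.eq_of_beq_eq_true h2

end Vale.Agent.P348.R10_9_1_4
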