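import Vale.Agent.P348.G.GS10_0

set_option maxRecDepth 1000000
set_option maxHeartbeats 0
set_option linter.all false


namespace Vale.Agent.P348.R10_0_0_0

theorem run_ok : run (K := A10_0.KK) A10_0.ap G10_0_0.step (A10_0.fin A10_0.sq0 273406340597876490546562778389702670669146173026877750803047443116003716217700832319916570606173070) 10 164 cf10 A10_0.ch0 = true := by
  decide +kernel

theorem res : sumL (fun s => sqF 164 A10_0.ch0 (finalX 9 false A10_0.mask 164 cf10 A10_0.ch0 s)) (secL 10 0 0 []) = 273406340597876490546562778389702670669146173026877750803047443116003716217700832319916570606173070 := by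
  have h := ((run_final (K := A10_0.KK) A10_0.ap G10_0_0.step _ 9 164 A10_0.mask false cf10 A10_0.ch0 G10_0_0.step_eq).symm.trans run_ok)
  have h2 := (A10_0.fin_eq A10_0.sq0 _ _).symm.trans h
  rw [A10_0.sq_eq0] at h2
  exact Nat.eq_of_beq_eq_true h2

end Vale.Agent.P348.R10_0_0_0

namespace Vale.Agent.P348.R10_1_0_0

theorem run_ok : run (K := A10_1.KK) A10_1.ap G10_1_0.step (A10_1.fin A10_1.sq0 27340634059787649054656277838970267066914610325355817802887337794743301254039409262466091739338628140) 10 164 cf10 A10_1.ch0 = true := by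
  decide +kernel

theorem res : sumL (fun s => sqF 164 A10_1.ch0 (finalX 9 false A10_1.mask 164 cf10 A10_1.ch0 s)) (secL 10 1 0 []) = 27340634059787649054656277838970267066914610325355817802887337794743301254039409262466091739338628140 := by
  have h := ((run_final (K := A10_1.KK) A10_1.ap G10_1_0.step _ 9 164 A10_1.mask false cf10 A10_1.ch0 G10_1_0.step_eq).symm.trans run_ok)
  have h2 := (A10_1.fin_eq A10_1.sq0 _ _).symm.trans h
  rw [A10_1.sq_eq0] at h2
  exact Nat.eq_of_beq_eq_true h2

end Vale.Agent.P348.R10_1_0_0

namespace Vale.Agent.P348.R10_2_0_0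

theorem run_ok : run (K := A10_2.KK) A10_2.ap G10_2_0.step (A10_2.fin A10_2.sq0 827054180308576383903352404628850578774167133659533375188117628191889570148317403741768690049279524390) 10 164 cf10 A10_2.ch0 = true := by
  decide +kernel

theorem res : sumL (fun s => sqF 164 A10_2.ch0 (finalX 9 false A10_2.mask 164 cf10 A10_2.ch0 s)) (secL 10 2 0 []) = 827054180308576383903352404628850578774167133659533375188117628191889570148317403741768690049279524390 := by
  have h := ((run_final (K := A10_2.KK) A10_2.ap G10_2_0.step _ 9 164 A10_2.mask false cf10 A10_2.ch0 G10_2_0.step_eq).symm.trans run_ok)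
  have h2 := (A10_2.fin_eq A10_2.sq0 _ _).symm.trans h
  rw [A10_2.sq_eq0] at h2
  exact Nat.eq_of_beq_eq_true h2

end Vale.Agent.P348.R10_2_0_0

namespace Vale.Agent.P348.R10_3_0_0

theorem run_ok : run (K := A10_3.KK) A10_3.ap G10_3_0.step (A10_3.fin A10_3.sq0 12057219620366353233103418526985887776509346273214813137642149008602798842456363638805497991272407765580) 10 164 cf10 A10_3.ch0 = true := by
  decide +kernel

theorem res : sumL (fun s => sqF 164 A10_3.ch0 (finalX 9 false A10_3.mask 164 cf10 A10_3.ch0 s)) (secL 10 3 0 []) = 12057219620366353233103418526985887776509346273214813137642149008602798842456363638805497991272407765580 := by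
  have h := ((run_final (K := A10_3.KK) A10_3.ap G10_3_0.step _ 9 164 A10_3.mask false cf10 A10_3.ch0 G10_3_0.step_eq).symm.trans run_ok)
  have h2 := (A10_3.fin_eq A10_3.sq0 _ _).symm.trans h
  rw [A10_3.sq_eq0] at h2
  exact Nat.eq_of_beq_eq_true h2

end Vale.Agent.P348.R10_3_0_0

namespace Vale.Agent.P348.R10_4_0_0

theorem run_ok : run (K := A10_4.KK) A10_4.ap G10_4_0.step (A10_4.fin A10_4.sq0 103409113172631835636973706856445292613837812797778164704516372163861765448526175519039250714852248587270) 10 164 cf10 A10_4.ch0 = true := by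
  decide +kernel

theorem res : sumL (fun s => sqF 164 A10_4.ch0 (finalX 9 false A10_4.mask 164 cf10 A10_4.ch0 s)) (secL 10 4 0 []) = 103409113172631835636973706856445292613837812797778164704516372163861765448526175519039250714852248587270 := by
  have h := ((run_final (K := A10_4.KK) A10_4.ap G10_4_0.step _ 9 164 A10_4.mask false cf10 A10_4.ch0 G10_4_0.step_eq).symm.trans run_ok)
  have h2 := (A10_4.fin_eq A10_4.sq0 _ _).symm.trans h
  rw [A10_4.sq_eq0] at h2
  exact Nat.eq_of_beq_eq_true h2

end Vale.Agent.P348.R10_4_0_0
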