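import Vale.Agent.P348.G.R10_5_0_0
import Vale.Agent.P348.G.R10_5_1_0
import Vale.Agent.P348.G.R10_6_0_0
import Vale.Agent.P348.G.R10_6_0_1
import Vale.Agent.P348.G.R10_6_1_0
import Vale.Agent.P348.G.R10_6_1_1
import Vale.Agent.P348.G.R10_7_0_0
import Vale.Agent.P348.G.R10_7_0_1
import Vale.Agent.P348.G.R10_7_0_2
import Vale.Agent.P348.G.R10_7_0_3
import Vale.Agent.P348.G.R10_7_0_4
import Vale.Agent.P348.G.R10_7_0_5
import Vale.Agent.P348.G.R10_7_1_0
import Vale.Agent.P348.G.R10_7_1_1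
import Vale.Agent.P348.G.R10_7_1_2
import Vale.Agent.P348.G.R10_7_1_3
import Vale.Agent.P348.G.R10_7_1_4
import Vale.Agent.P348.G.R10_7_1_5
import Vale.Agent.P348.G.R10_8_0_0
import Vale.Agent.P348.G.R10_8_0_1
import Vale.Agent.P348.G.R10_8_0_2
import Vale.Agent.P348.G.R10_8_0_3
import Vale.Agent.P348.G.R10_8_0_4
import Vale.Agent.P348.G.R10_8_0_5
import Vale.Agent.P348.G.R10_8_0_6
import Vale.Agent.P348.G.R10_8_0_7
import Vale.Agent.P348.G.R10_8_0_8
import Vale.Agent.P348.G.R10_8_0_9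
import Vale.Agent.P348.G.R10_8_0_10
import Vale.Agent.P348.G.R10_8_0_11
import Vale.Agent.P348.G.R10_8_1_0
import Vale.Agent.P348.G.R10_8_1_1
import Vale.Agent.P348.G.R10_8_1_2
import Vale.Agent.P348.G.R10_8_1_3
import Vale.Agent.P348.G.R10_8_1_4
import Vale.Agent.P348.G.R10_8_1_5
import Vale.Agent.P348.G.R10_8_1_6
import Vale.Agent.P348.G.R10_8_1_7
import Vale.Agent.P348.G.R10_8_1_8
import Vale.Agent.P348.G.R10_8_1_9
import Vale.Agent.P348.G.R10_8_1_10
import Vale.Agent.P348.G.R10_8_1_11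
import Vale.Agent.P348.G.R10_9_0_0
import Vale.Agent.P348.G.R10_9_0_1
import Vale.Agent.P348.G.R10_9_0_2
import Vale.Agent.P348.G.R10_9_0_3
import Vale.Agent.P348.G.R10_9_0_4
import Vale.Agent.P348.G.R10_9_0_5
import Vale.Agent.P348.G.R10_9_0_6
import Vale.Agent.P348.G.R10_9_0_7
import Vale.Agent.P348.G.R10_9_0_8
import Vale.Agent.P348.G.R10_9_0_9
import Vale.Agent.P348.G.R10_9_0_10
import Vale.Agent.P348.G.R10_9_0_11
import Vale.Agent.P348.G.R10_9_0_12
import Vale.Agent.P348.G.R10_9_0_13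
import Vale.Agent.P348.G.R10_9_0_14
import Vale.Agent.P348.G.R10_9_0_15
import Vale.Agent.P348.G.R10_9_0_16
import Vale.Agent.P348.G.R10_9_0_17
import Vale.Agent.P348.G.R10_9_0_18
import Vale.Agent.P348.G.R10_9_1_0
import Vale.Agent.P348.G.R10_9_1_1
import Vale.Agent.P348.G.R10_9_1_2
import Vale.Agent.P348.G.R10_9_1_3
import Vale.Agent.P348.G.R10_9_1_4
import Vale.Agent.P348.G.R10_9_1_5
import Vale.Agent.P348.G.R10_9_1_6
import Vale.Agent.P348.G.R10_9_1_7
import Vale.Agent.P348.G.R10_9_1_8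
import Vale.Agent.P348.G.R10_9_1_9
import Vale.Agent.P348.G.R10_9_1_10
import Vale.Agent.P348.G.R10_9_1_11
import Vale.Agent.P348.G.R10_9_1_12
import Vale.Agent.P348.G.R10_9_1_13
import Vale.Agent.P348.G.R10_9_1_14
import Vale.Agent.P348.G.R10_9_1_15
import Vale.Agent.P348.G.R10_9_1_16
import Vale.Agent.P348.G.R10_9_1_17
import Vale.Agent.P348.G.R10_9_1_18
import Vale.Agent.P348.G.R10_10_0_0
import Vale.Agent.P348.G.R10_10_0_1
import Vale.Agent.P348.G.R10_10_0_2
import Vale.Agent.P348.G.R10_10_0_3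
import Vale.Agent.P348.G.R10_10_0_4
import Vale.Agent.P348.G.R10_10_0_5
import Vale.Agent.P348.G.R10_10_0_6
import Vale.Agent.P348.G.R10_10_0_7
import Vale.Agent.P348.G.R10_10_0_8
import Vale.Agent.P348.G.R10_10_0_9
import Vale.Agent.P348.G.R10_10_0_10
import Vale.Agent.P348.G.R10_10_0_11
import Vale.Agent.P348.G.R10_10_0_12
import Vale.Agent.P348.G.R10_10_0_13
import Vale.Agent.P348.G.R10_10_0_14
import Vale.Agent.P348.G.R10_10_1_0
import Vale.Agent.P348.G.R10_10_1_1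
import Vale.Agent.P348.G.R10_10_1_2
import Vale.Agent.P348.G.R10_10_1_3
import Vale.Agent.P348.G.R10_10_1_4
import Vale.Agent.P348.G.R10_10_1_5
import Vale.Agent.P348.G.R10_10_1_6
import Vale.Agent.P348.G.R10_10_1_7
import Vale.Agent.P348.G.R10_10_1_8
import Vale.Agent.P348.G.R10_10_1_9
import Vale.Agent.P348.G.R10_10_1_10
import Vale.Agent.P348.G.R10_10_1_11
import Vale.Agent.P348.G.R10_10_1_12
import Vale.Agent.P348.G.R10_10_1_13
import Vale.Agent.P348.G.R10_10_1_14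
import Vale.Agent.P348.G.RS10_0
import Vale.Agent.P348.G.RS10_1

set_option maxRecDepth 1000000
set_option maxHeartbeats 0
set_option linter.all false

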