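import Vale.Agent.P348.G.GS5_1

set_option maxRecDepth 1000000
set_option maxHeartbeats 0
set_option linter.all false


namespace Vale.Agent.P348.R5_0_1_0

theorem run_ok : run (K := A5_0.KK) A5_0.ap G5_0_1.step (A5_0.fin A5_0.sq0 3064991081731777716716694054300401634551975045600041710) 5 91 cf5 A5_0.ch0 = true := by
  decide +kernel

theorem res : sumL (fun s => sqF 91 A5_0.ch0 (finalX 4 true A5_0.mask 91 cf5 A5_0.ch0 s)) (secL 5 0 0 []) = 3064991081731777716716694054300401634551975045600041710 := by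
  have h := ((run_final (K := A5_0.KK) A5_0.ap G5_0_1.step _ 4 91 A5_0.mask true cf5 A5_0.ch0 G5_0_1.step_eq).symm.trans run_ok)
  have h2 := (A5_0.fin_eq A5_0.sq0 _ _).symm.trans h
  rw [A5_0.sq_eq0] at h2
  exact Nat.eq_of_beq_eq_true h2

end Vale.Agent.P348.R5_0_1_0

namespace Vale.Agent.P348.R5_1_1_0

theorem run_ok : run (K := A5_1.KK) A5_1.ap G5_1_1.step (A5_1.fin A5_1.sq0 76624777043294442917917351357348404257745374156958687350) 5 91 cf5 A5_1.ch0 = true := by
  decide +kernel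

theorem res : sumL (fun s => sqF 91 A5_1.ch0 (finalX 4 true A5_1.mask 91 cf5 A5_1.ch0 s)) (secL 5 1 0 []) = 76624777043294442917917351357348404257745374156958687350 := by
  have h := ((run_final (K := A5_1.KK) A5_1.ap G5_1_1.step _ 4 91 A5_1.mask true cf5 A5_1.ch0 G5_1_1.step_eq).symm.trans run_ok)
  have h2 := (A5_1.fin_eq A5_1.sq0 _ _).symm.trans h
  rw [A5_1.sq_eq0] at h2
  exact Nat.eq_of_beq_eq_true h2

end Vale.Agent.P348.R5_1_1_0

namespace Vale.Agent.P348.R5_2_1_0

theorem run_ok : run (K := A5_2.KK) A5_2.ap G5_2_1.step (A5_2.fin A5_2.sq0 689622993389649986261256162217142735493711168709945292500) 5 91 cf5 A5_2.ch0 = true := by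
  decide +kernel

theorem res : sumL (fun s => sqF 91 A5_2.ch0 (finalX 4 true A5_2.mask 91 cf5 A5_2.ch0 s)) (secL 5 2 0 []) = 689622993389649986261256162217142735493711168709945292500 := by
  have h := ((run_final (K := A5_2.KK) A5_2.ap G5_2_1.step _ 4 91 A5_2.mask true cf5 A5_2.ch0 G5_2_1.step_eq).symm.trans run_ok)
  have h2 := (A5_2.fin_eq A5_2.sq0 _ _).symm.trans h
  rw [A5_2.sq_eq0] at h2
  exact Nat.eq_of_beq_eq_true h2

end Vale.Agent.P348.R5_2_1_0

namespace Vale.Agent.P348.R5_3_1_0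

theorem run_ok : run (K := A5_3.KK) A5_3.ap G5_3_1.step (A5_3.fin A5_3.sq0 2758491973558599945045024438856422043363099359388093207870) 5 91 cf5 A5_3.ch0 = true := by
  decide +kernel

theorem res : sumL (fun s => sqF 91 A5_3.ch0 (finalX 4 true A5_3.mask 91 cf5 A5_3.ch0 s)) (secL 5 3 0 []) = 2758491973558599945045024438856422043363099359388093207870 := by
  have h := ((run_final (K := A5_3.KK) A5_3.ap G5_3_1.step _ 4 91 A5_3.mask true cf5 A5_3.ch0 G5_3_1.step_eq).symm.trans run_ok)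
  have h2 := (A5_3.fin_eq A5_3.sq0 _ _).symm.trans h
  rw [A5_3.sq_eq0] at h2
  exact Nat.eq_of_beq_eq_true h2

end Vale.Agent.P348.R5_3_1_0

namespace Vale.Agent.P348.R5_4_1_0

theorem run_ok : run (K := A5_4.KK) A5_4.ap G5_4_1.step (A5_4.fin A5_4.sq0 6206606940506849876321845460722822855550753570491775122970) 5 91 cf5 A5_4.ch0 = true := by
  decide +kernel

theorem res : sumL (fun s => sqF 91 A5_4.ch0 (finalX 4 true A5_4.mask 91 cf5 A5_4.ch0 s)) (secL 5 4 0 []) = 6206606940506849876321845460722822855550753570491775122970 := by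
  have h := ((run_final (K := A5_4.KK) A5_4.ap G5_4_1.step _ 4 91 A5_4.mask true cf5 A5_4.ch0 G5_4_1.step_eq).symm.trans run_ok)
  have h2 := (A5_4.fin_eq A5_4.sq0 _ _).symm.trans h
  rw [A5_4.sq_eq0] at h2
  exact Nat.eq_of_beq_eq_true h2

end Vale.Agent.P348.R5_4_1_0

namespace Vale.Agent.P348.R5_5_1_0

theorem run_ok : run (K := A5_5.KK) A5_5.ap G5_5_1.step (A5_5.fin2 A5_5.sq0 3986020901792176919565448687342552318081268944476057718680 3986020901792176916491726997606984857779661209389871150992) 5 91 cf5 A5_5.ch0 = true := by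
  decide +kernel

theorem res : sumL (fun s => sqF 91 A5_5.ch0 (finalX 4 true A5_5.mask 91 cf5 A5_5.ch0 s)) (secL 5 5 0 []) = 3986020901792176919565448687342552318081268944476057718680 ∧
    sumL (fun s => sqF 91 A5_5.ch0 (Nat.add (finalX 4 true A5_5.mask 91 cf5 A5_5.ch0 s) (finalX 4 true A5_5.mask 91 cf5 A5_5.ch0 (Nat.sub 242 s)))) (secL 5 5 0 []) = 3986020901792176916491726997606984857779661209389871150992 := by
  have h := ((run_final (K := A5_5.KK) A5_5.ap G5_5_1.step _ 4 91 A5_5.mask true cf5 A5_5.ch0 G5_5_1.step_eq).symm.trans run_ok)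
  have h2 := (A5_5.fin2_eq A5_5.sq0 _ _ _).symm.trans h
  rw [A5_5.sq_eq0, Bool.and_eq_true] at h2
  exact ⟨Nat.eq_of_beq_eq_true h2.1, Nat.eq_of_beq_eq_true h2.2⟩

end Vale.Agent.P348.R5_5_1_0
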