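import Vale.Agent.P348.G.GS6_1

set_option maxRecDepth 1000000
set_option maxHeartbeats 0
set_option linter.all false


namespace Vale.Agent.P348.R6_0_1_0

theorem run_ok : run (K := A6_0.KK) A6_0.ap G6_0_1.step (A6_0.fin A6_0.sq0 13479973333575319897333507543509815295367789055022247791310166565710) 6 112 cf6 A6_0.ch0 = true := by
  decide +kernel

theorem res : sumL (fun s => sqF 112 A6_0.ch0 (finalX 5 true A6_0.mask 112 cf6 A6_0.ch0 s)) (secL 6 0 0 []) = 13479973333575319897333507543509815295367789055022247791310166565710 := by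
  have h := ((run_final (K := A6_0.KK) A6_0.ap G6_0_1.step _ 5 112 A6_0.mask true cf6 A6_0.ch0 G6_0_1.step_eq).symm.trans run_ok)
  have h2 := (A6_0.fin_eq A6_0.sq0 _ _).symm.trans h
  rw [A6_0.sq_eq0] at h2
  exact Nat.eq_of_beq_eq_true h2

end Vale.Agent.P348.R6_0_1_0

namespace Vale.Agent.P348.R6_1_1_0

theorem run_ok : run (K := A6_1.KK) A6_1.ap G6_1_1.step (A6_1.fin A6_1.sq0 485279040008711516304006271566353316038563570380392400186147493751604) 6 112 cf6 A6_1.ch0 = true := by
  decide +kernel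

theorem res : sumL (fun s => sqF 112 A6_1.ch0 (finalX 5 true A6_1.mask 112 cf6 A6_1.ch0 s)) (secL 6 1 0 []) = 485279040008711516304006271566353316038563570380392400186147493751604 := by
  have h := ((run_final (K := A6_1.KK) A6_1.ap G6_1_1.step _ 5 112 A6_1.mask true cf6 A6_1.ch0 G6_1_1.step_eq).symm.trans run_ok)
  have h2 := (A6_1.fin_eq A6_1.sq0 _ _).symm.trans h
  rw [A6_1.sq_eq0] at h2
  exact Nat.eq_of_beq_eq_true h2

end Vale.Agent.P348.R6_1_1_0

namespace Vale.Agent.P348.R6_2_1_0

theorem run_ok : run (K := A6_2.KK) A6_2.ap G6_2_1.step (A6_2.fin A6_2.sq0 5944668240106716074724076826687828463172572751534828936893180311108550) 6 112 cf6 A6_2.ch0 = true := by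
  decide +kernel

theorem res : sumL (fun s => sqF 112 A6_2.ch0 (finalX 5 true A6_2.mask 112 cf6 A6_2.ch0 s)) (secL 6 2 0 []) = 5944668240106716074724076826687828463172572751534828936893180311108550 := by
  have h := ((run_final (K := A6_2.KK) A6_2.ap G6_2_1.step _ 5 112 A6_2.mask true cf6 A6_2.ch0 G6_2_1.step_eq).symm.trans run_ok)
  have h2 := (A6_2.fin_eq A6_2.sq0 _ _).symm.trans h
  rw [A6_2.sq_eq0] at h2
  exact Nat.eq_of_beq_eq_true h2

end Vale.Agent.P348.R6_2_1_0

namespace Vale.Agent.P348.R6_3_1_0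

theorem run_ok : run (K := A6_3.KK) A6_3.ap G6_3_1.step (A6_3.fin A6_3.sq0 33699933333938299743333768858774537991884266832236097192714606852817052) 6 112 cf6 A6_3.ch0 = true := by
  decide +kernel

theorem res : sumL (fun s => sqF 112 A6_3.ch0 (finalX 5 true A6_3.mask 112 cf6 A6_3.ch0 s)) (secL 6 3 0 []) = 33699933333938299743333768858774537991884266832236097192714606852817052 := by
  have h := ((run_final (K := A6_3.KK) A6_3.ap G6_3_1.step _ 5 112 A6_3.mask true cf6 A6_3.ch0 G6_3_1.step_eq).symm.trans run_ok)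
  have h2 := (A6_3.fin_eq A6_3.sq0 _ _).symm.trans h
  rw [A6_3.sq_eq0] at h2
  exact Nat.eq_of_beq_eq_true h2

end Vale.Agent.P348.R6_3_1_0

namespace Vale.Agent.P348.R6_4_1_0

theorem run_ok : run (K := A6_4.KK) A6_4.ap G6_4_1.step (A6_4.fin A6_4.sq0 109187784001960091168401411102392004067753006715001646089325018282640420) 6 112 cf6 A6_4.ch0 = true := by
  decide +kernel

theorem res : sumL (fun s => sqF 112 A6_4.ch0 (finalX 5 true A6_4.mask 112 cf6 A6_4.ch0 s)) (secL 6 4 0 []) = 109187784001960091168401411102392004067753006715001646089325018282640420 := by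
  have h := ((run_final (K := A6_4.KK) A6_4.ap G6_4_1.step _ 5 112 A6_4.mask true cf6 A6_4.ch0 G6_4_1.step_eq).symm.trans run_ok)
  have h2 := (A6_4.fin_eq A6_4.sq0 _ _).symm.trans h
  rw [A6_4.sq_eq0] at h2
  exact Nat.eq_of_beq_eq_true h2

end Vale.Agent.P348.R6_4_1_0

namespace Vale.Agent.P348.R6_5_1_0

theorem run_ok : run (K := A6_5.KK) A6_5.ap G6_5_1.step (A6_5.fin A6_5.sq0 214008056643841778690066764872028575037685747911403138278982384522580276) 6 112 cf6 A6_5.ch0 = true := by
  decide +kernel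

theorem res : sumL (fun s => sqF 112 A6_5.ch0 (finalX 5 true A6_5.mask 112 cf6 A6_5.ch0 s)) (secL 6 5 0 []) = 214008056643841778690066764872028575037685747911403138278982384522580276 := by
  have h := ((run_final (K := A6_5.KK) A6_5.ap G6_5_1.step _ 5 112 A6_5.mask true cf6 A6_5.ch0 G6_5_1.step_eq).symm.trans run_ok)
  have h2 := (A6_5.fin_eq A6_5.sq0 _ _).symm.trans h
  rw [A6_5.sq_eq0] at h2
  exact Nat.eq_of_beq_eq_true h2

end Vale.Agent.P348.R6_5_1_0

namespace Vale.Agent.P348.R6_6_1_0

theorem run_ok : run (K := A6_6.KK) A6_6.ap G6_6_1.step (A6_6.fin2 A6_6.sq0 133997674922405467439442912157983541201193376119998504701768694955572371 133997674922405467439443491589727728534047729709041889778243991229066932) 6 112 cf6 A6_6.ch0 = true := by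
  decide +kernel

theorem res : sumL (fun s => sqF 112 A6_6.ch0 (finalX 5 true A6_6.mask 112 cf6 A6_6.ch0 s)) (secL 6 6 0 []) = 133997674922405467439442912157983541201193376119998504701768694955572371 ∧
    sumL (fun s => sqF 112 A6_6.ch0 (Nat.add (finalX 5 true A6_6.mask 112 cf6 A6_6.ch0 s) (finalX 5 true A6_6.mask 112 cf6 A6_6.ch0 (Nat.sub 728 s)))) (secL 6 6 0 []) = 133997674922405467439443491589727728534047729709041889778243991229066932 := by
  have h := ((run_final (K := A6_6.KK) A6_6.ap G6_6_1.step _ 5 112 A6_6.mask true cf6 A6_6.ch0 G6_6_1.step_eq).symm.trans run_ok)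
  have h2 := (A6_6.fin2_eq A6_6.sq0 _ _ _).symm.trans h
  rw [A6_6.sq_eq0, Bool.and_eq_true] at h2
  exact ⟨Nat.eq_of_beq_eq_true h2.1, Nat.eq_of_beq_eq_true h2.2⟩

end Vale.Agent.P348.R6_6_1_0
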