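import Vale.Agent.P348.G.GS7_1

set_option maxRecDepth 1000000
set_option maxHeartbeats 0
set_option linter.all false


namespace Vale.Agent.P348.R7_0_1_0

theorem run_ok : run (K := A7_0.KK) A7_0.ap G7_0_1.step (A7_0.fin A7_0.sq0 14134776518227074636666380005943348125294414752964161723165633341835087360) 7 122 cf7 A7_0.ch0 = true := by
  decide +kernel

theorem res : sumL (fun s => sqF 122 A7_0.ch0 (finalX 6 true A7_0.mask 122 cf7 A7_0.ch0 s)) (secL 7 0 0 []) = 14134776518227074636666380005943348125294414752964161723165633341835087360 := by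
  have h := ((run_final (K := A7_0.KK) A7_0.ap G7_0_1.step _ 6 122 A7_0.mask true cf7 A7_0.ch0 G7_0_1.step_eq).symm.trans run_ok)
  have h2 := (A7_0.fin_eq A7_0.sq0 _ _).symm.trans h
  rw [A7_0.sq_eq0] at h2
  exact Nat.eq_of_beq_eq_true h2

end Vale.Agent.P348.R7_0_1_0

namespace Vale.Agent.P348.R7_1_1_0

theorem run_ok : run (K := A7_1.KK) A7_1.ap G7_1_1.step (A7_1.fin A7_1.sq0 692604049393126657196652620291224056695061616444195495016566127424851621388) 7 122 cf7 A7_1.ch0 = true := by
  decide +kernel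

theorem res : sumL (fun s => sqF 122 A7_1.ch0 (finalX 6 true A7_1.mask 122 cf7 A7_1.ch0 s)) (secL 7 1 0 []) = 692604049393126657196652620291224056695061616444195495016566127424851621388 := by
  have h := ((run_final (K := A7_1.KK) A7_1.ap G7_1_1.step _ 6 122 A7_1.mask true cf7 A7_1.ch0 G7_1_1.step_eq).symm.trans run_ok)
  have h2 := (A7_1.fin_eq A7_1.sq0 _ _).symm.trans h
  rw [A7_1.sq_eq0] at h2
  exact Nat.eq_of_beq_eq_true h2

end Vale.Agent.P348.R7_1_1_0

namespace Vale.Agent.P348.R7_2_1_0

theorem run_ok : run (K := A7_2.KK) A7_2.ap G7_2_1.step (A7_2.fin A7_2.sq0 11081664790290026515146441924659584924856563918249831883100643362642688507930) 7 122 cf7 A7_2.ch0 = true := by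
  decide +kernel

theorem res : sumL (fun s => sqF 122 A7_2.ch0 (finalX 6 true A7_2.mask 122 cf7 A7_2.ch0 s)) (secL 7 2 0 []) = 11081664790290026515146441924659584924856563918249831883100643362642688507930 := by
  have h := ((run_final (K := A7_2.KK) A7_2.ap G7_2_1.step _ 6 122 A7_2.mask true cf7 A7_2.ch0 G7_2_1.step_eq).symm.trans run_ok)
  have h2 := (A7_2.fin_eq A7_2.sq0 _ _).symm.trans h
  rw [A7_2.sq_eq0] at h2
  exact Nat.eq_of_beq_eq_true h2

end Vale.Agent.P348.R7_2_1_0

namespace Vale.Agent.P348.R7_3_1_0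

theorem run_ok : run (K := A7_3.KK) A7_3.ap G7_3_1.step (A7_3.fin A7_3.sq0 83805089976568325520794967055238111027222045124761800093281092968033462769014) 7 122 cf7 A7_3.ch0 = true := by
  decide +kernel

theorem res : sumL (fun s => sqF 122 A7_3.ch0 (finalX 6 true A7_3.mask 122 cf7 A7_3.ch0 s)) (secL 7 3 0 []) = 83805089976568325520794967055238111027222045124761800093281092968033462769014 := by
  have h := ((run_final (K := A7_3.KK) A7_3.ap G7_3_1.step _ 6 122 A7_3.mask true cf7 A7_3.ch0 G7_3_1.step_eq).symm.trans run_ok)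
  have h2 := (A7_3.fin_eq A7_3.sq0 _ _).symm.trans h
  rw [A7_3.sq_eq0] at h2
  exact Nat.eq_of_beq_eq_true h2

end Vale.Agent.P348.R7_3_1_0

namespace Vale.Agent.P348.R7_4_1_0

theorem run_ok : run (K := A7_4.KK) A7_4.ap G7_4_1.step (A7_4.fin A7_4.sq0 366387542128964001657029236134057526437087430525910854743553514464375948018570) 7 122 cf7 A7_4.ch0 = true := by
  decide +kernel

theorem res : sumL (fun s => sqF 122 A7_4.ch0 (finalX 6 true A7_4.mask 122 cf7 A7_4.ch0 s)) (secL 7 4 0 []) = 366387542128964001657029236134057526437087430525910854743553514464375948018570 := by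
  have h := ((run_final (K := A7_4.KK) A7_4.ap G7_4_1.step _ 6 122 A7_4.mask true cf7 A7_4.ch0 G7_4_1.step_eq).symm.trans run_ok)
  have h2 := (A7_4.fin_eq A7_4.sq0 _ _).symm.trans h
  rw [A7_4.sq_eq0] at h2
  exact Nat.eq_of_beq_eq_true h2

end Vale.Agent.P348.R7_4_1_0

namespace Vale.Agent.P348.R7_5_1_0

theorem run_ok : run (K := A7_5.KK) A7_5.ap G7_5_1.step (A7_5.fin A7_5.sq0 1000120247323674892991966383700308002510104327495505208357580522390101491523596) 7 122 cf7 A7_5.ch0 = true := by
  decide +kernel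

theorem res : sumL (fun s => sqF 122 A7_5.ch0 (finalX 6 true A7_5.mask 122 cf7 A7_5.ch0 s)) (secL 7 5 0 []) = 1000120247323674892991966383700308002510104327495505208357580522390101491523596 := by
  have h := ((run_final (K := A7_5.KK) A7_5.ap G7_5_1.step _ 6 122 A7_5.mask true cf7 A7_5.ch0 G7_5_1.step_eq).symm.trans run_ok)
  have h2 := (A7_5.fin_eq A7_5.sq0 _ _).symm.trans h
  rw [A7_5.sq_eq0] at h2
  exact Nat.eq_of_beq_eq_true h2

end Vale.Agent.P348.R7_5_1_0

namespace Vale.Agent.P348.R7_6_1_0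

theorem run_ok : run (K := A7_6.KK) A7_6.ap G7_6_1.step (A7_6.fin A7_6.sq0 1801463132471522435368493463541142817445025607768461427365685559550659596414954) 7 122 cf7 A7_6.ch0 = true := by
  decide +kernel

theorem res : sumL (fun s => sqF 122 A7_6.ch0 (finalX 6 true A7_6.mask 122 cf7 A7_6.ch0 s)) (secL 7 6 0 []) = 1801463132471522435368493463541142817445025607768461427365685559550659596414954 := by
  have h := ((run_final (K := A7_6.KK) A7_6.ap G7_6_1.step _ 6 122 A7_6.mask true cf7 A7_6.ch0 G7_6_1.step_eq).symm.trans run_ok)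
  have h2 := (A7_6.fin_eq A7_6.sq0 _ _).symm.trans h
  rw [A7_6.sq_eq0] at h2
  exact Nat.eq_of_beq_eq_true h2

end Vale.Agent.P348.R7_6_1_0

namespace Vale.Agent.P348.R7_7_1_0

theorem run_ok : run (K := A7_7.KK) A7_7.ap G7_7_1.step (A7_7.fin2 A7_7.sq0 1091551049231826725279242827333879718624562707214386986392448539511298574708225 1091551049231826725279242721096017888807314176920759681943104769210351191278016) 7 122 cf7 A7_7.ch0 = true := by
  decide +kernel

theorem res : sumL (fun s => sqF 122 A7_7.ch0 (finalX 6 true A7_7.mask 122 cf7 A7_7.ch0 s)) (secL 7 7 0 []) = 1091551049231826725279242827333879718624562707214386986392448539511298574708225 ∧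
    sumL (fun s => sqF 122 A7_7.ch0 (Nat.add (finalX 6 true A7_7.mask 122 cf7 A7_7.ch0 s) (finalX 6 true A7_7.mask 122 cf7 A7_7.ch0 (Nat.sub 2186 s)))) (secL 7 7 0 []) = 1091551049231826725279242721096017888807314176920759681943104769210351191278016 := by
  have h := ((run_final (K := A7_7.KK) A7_7.ap G7_7_1.step _ 6 122 A7_7.mask true cf7 A7_7.ch0 G7_7_1.step_eq).symm.trans run_ok)
  have h2 := (A7_7.fin2_eq A7_7.sq0 _ _ _).symm.trans h
  rw [A7_7.sq_eq0, Bool.and_eq_true] at h2
  exact ⟨Nat.eq_of_beq_eq_true h2.1, Nat.eq_of_beq_eq_true h2.2⟩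

end Vale.Agent.P348.R7_7_1_0
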