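import Vale.Agent.P348.G.GS8_1

set_option maxRecDepth 1000000
set_option maxHeartbeats 0
set_option linter.all false


namespace Vale.Agent.P348.R8_0_1_0

theorem run_ok : run (K := A8_0.KK) A8_0.ap G8_0_1.step (A8_0.fin A8_0.sq0 971334446112864535459730953411759453321139305790999011283730757941777535516343590206) 8 140 cf8 A8_0.ch0 = true := by
  decide +kernel

theorem res : sumL (fun s => sqF 140 A8_0.ch0 (finalX 7 true A8_0.mask 140 cf8 A8_0.ch0 s)) (secL 8 0 0 []) = 971334446112864535459730953411759453321139305790999011283730757941777535516343590206 := by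
  have h := ((run_final (K := A8_0.KK) A8_0.ap G8_0_1.step _ 7 140 A8_0.mask true cf8 A8_0.ch0 G8_0_1.step_eq).symm.trans run_ok)
  have h2 := (A8_0.fin_eq A8_0.sq0 _ _).symm.trans h
  rw [A8_0.sq_eq0] at h2
  exact Nat.eq_of_beq_eq_true h2

end Vale.Agent.P348.R8_0_1_0

namespace Vale.Agent.P348.R8_1_1_0

theorem run_ok : run (K := A8_1.KK) A8_1.ap G8_1_1.step (A8_1.fin A8_1.sq0 62165404551223330269422781018352605012504242439595699795522523833532808785540005105360) 8 140 cf8 A8_1.ch0 = true := by
  decide +kernel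

theorem res : sumL (fun s => sqF 140 A8_1.ch0 (finalX 7 true A8_1.mask 140 cf8 A8_1.ch0 s)) (secL 8 1 0 []) = 62165404551223330269422781018352605012504242439595699795522523833532808785540005105360 := by
  have h := ((run_final (K := A8_1.KK) A8_1.ap G8_1_1.step _ 7 140 A8_1.mask true cf8 A8_1.ch0 G8_1_1.step_eq).symm.trans run_ok)
  have h2 := (A8_1.fin_eq A8_1.sq0 _ _).symm.trans h
  rw [A8_1.sq_eq0] at h2
  exact Nat.eq_of_beq_eq_true h2

end Vale.Agent.P348.R8_1_1_0

namespace Vale.Agent.P348.R8_2_1_0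

theorem run_ok : run (K := A8_2.KK) A8_2.ap G8_2_1.step (A8_2.fin A8_2.sq0 1258849442162272437955811315621640251503921269556129784386528986584066923777279365528632) 8 140 cf8 A8_2.ch0 = true := by
  decide +kernel

theorem res : sumL (fun s => sqF 140 A8_2.ch0 (finalX 7 true A8_2.mask 140 cf8 A8_2.ch0 s)) (secL 8 2 0 []) = 1258849442162272437955811315621640251503921269556129784386528986584066923777279365528632 := by
  have h := ((run_final (K := A8_2.KK) A8_2.ap G8_2_1.step _ 7 140 A8_2.mask true cf8 A8_2.ch0 G8_2_1.step_eq).symm.trans run_ok)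
  have h2 := (A8_2.fin_eq A8_2.sq0 _ _).symm.trans h
  rw [A8_2.sq_eq0] at h2
  exact Nat.eq_of_beq_eq_true h2

end Vale.Agent.P348.R8_2_1_0

namespace Vale.Agent.P348.R8_3_1_0

theorem run_ok : run (K := A8_3.KK) A8_3.ap G8_3_1.step (A8_3.fin A8_3.sq0 12184419292039772732806865079597110582459976350644980205098792357544359150371568114141120) 8 140 cf8 A8_3.ch0 = true := by
  decide +kernel

theorem res : sumL (fun s => sqF 140 A8_3.ch0 (finalX 7 true A8_3.mask 140 cf8 A8_3.ch0 s)) (secL 8 3 0 []) = 12184419292039772732806865079597110582459976350644980205098792357544359150371568114141120 := by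
  have h := ((run_final (K := A8_3.KK) A8_3.ap G8_3_1.step _ 7 140 A8_3.mask true cf8 A8_3.ch0 G8_3_1.step_eq).symm.trans run_ok)
  have h2 := (A8_3.fin_eq A8_3.sq0 _ _).symm.trans h
  rw [A8_3.sq_eq0] at h2
  exact Nat.eq_of_beq_eq_true h2

end Vale.Agent.P348.R8_3_1_0

namespace Vale.Agent.P348.R8_4_1_0

theorem run_ok : run (K := A8_4.KK) A8_4.ap G8_4_1.step (A8_4.fin A8_4.sq0 68727740069161843070988723339602451879191947401529769294966670339541931640259940716491756) 8 140 cf8 A8_4.ch0 = true := by
  decide +kernel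

theorem res : sumL (fun s => sqF 140 A8_4.ch0 (finalX 7 true A8_4.mask 140 cf8 A8_4.ch0 s)) (secL 8 4 0 []) = 68727740069161843070988723339602451879191947401529769294966670339541931640259940716491756 := by
  have h := ((run_final (K := A8_4.KK) A8_4.ap G8_4_1.step _ 7 140 A8_4.mask true cf8 A8_4.ch0 G8_4_1.step_eq).symm.trans run_ok)
  have h2 := (A8_4.fin_eq A8_4.sq0 _ _).symm.trans h
  rw [A8_4.sq_eq0] at h2
  exact Nat.eq_of_beq_eq_true h2

end Vale.Agent.P348.R8_4_1_0

namespace Vale.Agent.P348.R8_5_1_0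

theorem run_ok : run (K := A8_5.KK) A8_5.ap G8_5_1.step (A8_5.fin A8_5.sq0 246734490663805397839339017861841489294808519106027107757321990196937391305818415254142256) 8 140 cf8 A8_5.ch0 = true := by
  decide +kernel

theorem res : sumL (fun s => sqF 140 A8_5.ch0 (finalX 7 true A8_5.mask 140 cf8 A8_5.ch0 s)) (secL 8 5 0 []) = 246734490663805397839339017861841489294808519106027107757321990196937391305818415254142256 := by
  have h := ((run_final (K := A8_5.KK) A8_5.ap G8_5_1.step _ 7 140 A8_5.mask true cf8 A8_5.ch0 G8_5_1.step_eq).symm.trans run_ok)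
  have h2 := (A8_5.fin_eq A8_5.sq0 _ _).symm.trans h
  rw [A8_5.sq_eq0] at h2
  exact Nat.eq_of_beq_eq_true h2

end Vale.Agent.P348.R8_5_1_0

namespace Vale.Agent.P348.R8_6_1_0

theorem run_ok : run (K := A8_6.KK) A8_6.ap G8_6_1.step (A8_6.fin A8_6.sq0 597036545309948863907536388900258415082575206282586129569845150070013305767206861814670496) 8 140 cf8 A8_6.ch0 = true := by
  decide +kernel

theorem res : sumL (fun s => sqF 140 A8_6.ch0 (finalX 7 true A8_6.mask 140 cf8 A8_6.ch0 s)) (secL 8 6 0 []) = 597036545309948863907536388900258415082575206282586129569845150070013305767206861814670496 := by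
  have h := ((run_final (K := A8_6.KK) A8_6.ap G8_6_1.step _ 7 140 A8_6.mask true cf8 A8_6.ch0 G8_6_1.step_eq).symm.trans run_ok)
  have h2 := (A8_6.fin_eq A8_6.sq0 _ _).symm.trans h
  rw [A8_6.sq_eq0] at h2
  exact Nat.eq_of_beq_eq_true h2

end Vale.Agent.P348.R8_6_1_0

namespace Vale.Agent.P348.R8_7_1_0

theorem run_ok : run (K := A8_7.KK) A8_7.ap G8_7_1.step (A8_7.fin A8_7.sq0 1002665810006681093915520035044994704886467569466643968291144824302861653492116957615943664) 8 140 cf8 A8_7.ch0 = true := by
  decide +kernel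

theorem res : sumL (fun s => sqF 140 A8_7.ch0 (finalX 7 true A8_7.mask 140 cf8 A8_7.ch0 s)) (secL 8 7 0 []) = 1002665810006681093915520035044994704886467569466643968291144824302861653492116957615943664 := by
  have h := ((run_final (K := A8_7.KK) A8_7.ap G8_7_1.step _ 7 140 A8_7.mask true cf8 A8_7.ch0 G8_7_1.step_eq).symm.trans run_ok)
  have h2 := (A8_7.fin_eq A8_7.sq0 _ _).symm.trans h
  rw [A8_7.sq_eq0] at h2
  exact Nat.eq_of_beq_eq_true h2

end Vale.Agent.P348.R8_7_1_0

namespace Vale.Agent.P348.R8_8_1_0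

theorem run_ok : run (K := A8_8.KK) A8_8.ap G8_8_1.step (A8_8.fin2 A8_8.sq0 595160412827281866057295918560840436225569600309584009415001034504910630154122657887690621 595160412827281866057295918563013573016110055620687168253999229624522672720396529201119896) 8 140 cf8 A8_8.ch0 = true := by
  decide +kernel

theorem res : sumL (fun s => sqF 140 A8_8.ch0 (finalX 7 true A8_8.mask 140 cf8 A8_8.ch0 s)) (secL 8 8 0 []) = 595160412827281866057295918560840436225569600309584009415001034504910630154122657887690621 ∧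
    sumL (fun s => sqF 140 A8_8.ch0 (Nat.add (finalX 7 true A8_8.mask 140 cf8 A8_8.ch0 s) (finalX 7 true A8_8.mask 140 cf8 A8_8.ch0 (Nat.sub 6560 s)))) (secL 8 8 0 []) = 595160412827281866057295918563013573016110055620687168253999229624522672720396529201119896 := by
  have h := ((run_final (K := A8_8.KK) A8_8.ap G8_8_1.step _ 7 140 A8_8.mask true cf8 A8_8.ch0 G8_8_1.step_eq).symm.trans run_ok)
  have h2 := (A8_8.fin2_eq A8_8.sq0 _ _ _).symm.trans h
  rw [A8_8.sq_eq0, Bool.and_eq_true] at h2
  exact ⟨Nat.eq_of_beq_eq_true h2.1, Nat.eq_of_beq_eq_true h2.2⟩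

end Vale.Agent.P348.R8_8_1_0
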