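import Vale.Agent.P348.G.RS8_0
import Vale.Agent.P348.G.RS8_1

set_option maxRecDepth 1000000
set_option maxHeartbeats 0
set_option linter.all false

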