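import Vale.Agent.P348.G.G9_6_1

set_option maxRecDepth 1000000
set_option maxHeartbeats 0
set_option linter.all false

namespace Vale.Agent.P348.R9_6_1_1

theorem run_ok : run (K := A9_6.KK) A9_6.ap G9_6_1.step (A9_6.fin A9_6.sq1 4655590023709990054062611218047841343148450487323980929703305962024199656966435107123964064848) 9 146 cf9 A9_6.ch1 = true := by
  decide +kernel

theorem res : sumL (fun s => sqF 146 A9_6.ch1 (finalX 8 true A9_6.mask 146 cf9 A9_6.ch1 s)) (secL 9 6 0 []) = 4655590023709990054062611218047841343148450487323980929703305962024199656966435107123964064848 := by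
  have h := ((run_final (K := A9_6.KK) A9_6.ap G9_6_1.step _ 8 146 A9_6.mask true cf9 A9_6.ch1 G9_6_1.step_eq).symm.trans run_ok)
  have h2 := (A9_6.fin_eq A9_6.sq1 _ _).symm.trans h
  rw [A9_6.sq_eq1] at h2
  exact Nat.eq_of_beq_eq_true h2

end Vale.Agent.P348.R9_6_1_1
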