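import Vale.Agent.P348.G.G9_7_0

set_option maxRecDepth 1000000
set_option maxHeartbeats 0
set_option linter.all false

namespace Vale.Agent.P348.R9_7_0_0

theorem run_ok : run (K := A9_7.KK) A9_7.ap G9_7_0.step (A9_7.fin A9_7.sq0 10889994329484162617191110650236535648899234291465053494358717007542064700716318351664788692210) 9 146 cf9 A9_7.ch0 = true := by
  decide +kernel

theorem res : sumL (fun s => sqF 146 A9_7.ch0 (finalX 8 false A9_7.mask 146 cf9 A9_7.ch0 s)) (secL 9 7 0 []) = 10889994329484162617191110650236535648899234291465053494358717007542064700716318351664788692210 := by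
  have h := ((run_final (K := A9_7.KK) A9_7.ap G9_7_0.step _ 8 146 A9_7.mask false cf9 A9_7.ch0 G9_7_0.step_eq).symm.trans run_ok)
  have h2 := (A9_7.fin_eq A9_7.sq0 _ _).symm.trans h
  rw [A9_7.sq_eq0] at h2
  exact Nat.eq_of_beq_eq_true h2

end Vale.Agent.P348.R9_7_0_0
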