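import Vale.Agent.P348.G.G9_8_0

set_option maxRecDepth 1000000
set_option maxHeartbeats 0
set_option linter.all false

namespace Vale.Agent.P348.R9_8_0_1

theorem run_ok : run (K := A9_8.KK) A9_8.ap G9_8_0.step (A9_8.fin A9_8.sq1 16342403599741695385901349792381178946828592182750528232531877457847200804214667891143507116790) 9 146 cf9 A9_8.ch1 = true := by
  decide +kernel

theorem res : sumL (fun s => sqF 146 A9_8.ch1 (finalX 8 false A9_8.mask 146 cf9 A9_8.ch1 s)) (secL 9 8 0 []) = 16342403599741695385901349792381178946828592182750528232531877457847200804214667891143507116790 := by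
  have h := ((run_final (K := A9_8.KK) A9_8.ap G9_8_0.step _ 8 146 A9_8.mask false cf9 A9_8.ch1 G9_8_0.step_eq).symm.trans run_ok)
  have h2 := (A9_8.fin_eq A9_8.sq1 _ _).symm.trans h
  rw [A9_8.sq_eq1] at h2
  exact Nat.eq_of_beq_eq_true h2

end Vale.Agent.P348.R9_8_0_1
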