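import Vale.Agent.P348.G.G9_9_0

set_option maxRecDepth 1000000
set_option maxHeartbeats 0
set_option linter.all false

namespace Vale.Agent.P348.R9_9_0_0

theorem run_ok : run (K := A9_9.KK) A9_9.ap G9_9_0.step (A9_9.fin A9_9.sq0 10790306881392293704344348589359996494139787110361648760939352670671589239333077655147548835024) 9 146 cf9 A9_9.ch0 = true := by
  decide +kernel

theorem res : sumL (fun s => sqF 146 A9_9.ch0 (finalX 8 false A9_9.mask 146 cf9 A9_9.ch0 s)) (secL 9 9 0 []) = 10790306881392293704344348589359996494139787110361648760939352670671589239333077655147548835024 := by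
  have h := ((run_final (K := A9_9.KK) A9_9.ap G9_9_0.step _ 8 146 A9_9.mask false cf9 A9_9.ch0 G9_9_0.step_eq).symm.trans run_ok)
  have h2 := (A9_9.fin_eq A9_9.sq0 _ _).symm.trans h
  rw [A9_9.sq_eq0] at h2
  exact Nat.eq_of_beq_eq_true h2

end Vale.Agent.P348.R9_9_0_0
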