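import Vale.Agent.P348.G.G9_9_1

set_option maxRecDepth 1000000
set_option maxHeartbeats 0
set_option linter.all false

namespace Vale.Agent.P348.R9_9_1_0

theorem run_ok : run (K := A9_9.KK) A9_9.ap G9_9_1.step (A9_9.fin2 A9_9.sq0 10790306881392293704344348589359978065763326232271727560177647049009476265689381753368321843808 10790306881392293704344348589359907242664593494876016091123866879851460101099104406156112458112) 9 146 cf9 A9_9.ch0 = true := by
  decide +kernel

theorem res : sumL (fun s => sqF 146 A9_9.ch0 (finalX 8 true A9_9.mask 146 cf9 A9_9.ch0 s)) (secL 9 9 0 []) = 10790306881392293704344348589359978065763326232271727560177647049009476265689381753368321843808 ∧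
    sumL (fun s => sqF 146 A9_9.ch0 (Nat.add (finalX 8 true A9_9.mask 146 cf9 A9_9.ch0 s) (finalX 8 true A9_9.mask 146 cf9 A9_9.ch0 (Nat.sub 19682 s)))) (secL 9 9 0 []) = 10790306881392293704344348589359907242664593494876016091123866879851460101099104406156112458112 := by
  have h := ((run_final (K := A9_9.KK) A9_9.ap G9_9_1.step _ 8 146 A9_9.mask true cf9 A9_9.ch0 G9_9_1.step_eq).symm.trans run_ok)
  have h2 := (A9_9.fin2_eq A9_9.sq0 _ _ _).symm.trans h
  rw [A9_9.sq_eq0, Bool.and_eq_true] at h2
  exact ⟨Nat.eq_of_beq_eq_true h2.1, Nat.eq_of_beq_eq_true h2.2⟩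

end Vale.Agent.P348.R9_9_1_0
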