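import Vale.Agent.P348.G.GS9_0

set_option maxRecDepth 1000000
set_option maxHeartbeats 0
set_option linter.all false


namespace Vale.Agent.P348.R9_0_0_0

theorem run_ok : run (K := A9_0.KK) A9_0.ap G9_0_0.step (A9_0.fin A9_0.sq0 3978585891278293137243057985174566720803523917196428214460699618773746560484464199160270) 9 146 cf9 A9_0.ch0 = true := by
  decide +kernel

theorem res : sumL (fun s => sqF 146 A9_0.ch0 (finalX 8 false A9_0.mask 146 cf9 A9_0.ch0 s)) (secL 9 0 0 []) = 3978585891278293137243057985174566720803523917196428214460699618773746560484464199160270 := by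
  have h := ((run_final (K := A9_0.KK) A9_0.ap G9_0_0.step _ 8 146 A9_0.mask false cf9 A9_0.ch0 G9_0_0.step_eq).symm.trans run_ok)
  have h2 := (A9_0.fin_eq A9_0.sq0 _ _).symm.trans h
  rw [A9_0.sq_eq0] at h2
  exact Nat.eq_of_beq_eq_true h2

end Vale.Agent.P348.R9_0_0_0

namespace Vale.Agent.P348.R9_1_0_0

theorem run_ok : run (K := A9_1.KK) A9_1.ap G9_1_0.step (A9_1.fin A9_1.sq0 322265457193541744116687696799139904385042465072468956094073059016001972095815191411143174) 9 146 cf9 A9_1.ch0 = true := by
  decide +kernel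

theorem res : sumL (fun s => sqF 146 A9_1.ch0 (finalX 8 false A9_1.mask 146 cf9 A9_1.ch0 s)) (secL 9 1 0 []) = 322265457193541744116687696799139904385042465072468956094073059016001972095815191411143174 := by
  have h := ((run_final (K := A9_1.KK) A9_1.ap G9_1_0.step _ 8 146 A9_1.mask false cf9 A9_1.ch0 G9_1_0.step_eq).symm.trans run_ok)
  have h2 := (A9_1.fin_eq A9_1.sq0 _ _).symm.trans h
  rw [A9_1.sq_eq0] at h2
  exact Nat.eq_of_beq_eq_true h2

end Vale.Agent.P348.R9_1_0_0

namespace Vale.Agent.P348.R9_2_0_0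

theorem run_ok : run (K := A9_2.KK) A9_2.ap G9_2_0.step (A9_2.fin A9_2.sq0 8056636429838543602917192419978497609626480113932545329464010387410224450743911095569322084) 9 146 cf9 A9_2.ch0 = true := by
  decide +kernel

theorem res : sumL (fun s => sqF 146 A9_2.ch0 (finalX 8 false A9_2.mask 146 cf9 A9_2.ch0 s)) (secL 9 2 0 []) = 8056636429838543602917192419978497609626480113932545329464010387410224450743911095569322084 := by
  have h := ((run_final (K := A9_2.KK) A9_2.ap G9_2_0.step _ 8 146 A9_2.mask false cf9 A9_2.ch0 G9_2_0.step_eq).symm.trans run_ok)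
  have h2 := (A9_2.fin_eq A9_2.sq0 _ _).symm.trans h
  rw [A9_2.sq_eq0] at h2
  exact Nat.eq_of_beq_eq_true h2

end Vale.Agent.P348.R9_2_0_0

namespace Vale.Agent.P348.R9_3_0_0

theorem run_ok : run (K := A9_3.KK) A9_3.ap G9_3_0.step (A9_3.fin A9_3.sq0 96822866250148541787947059127208255717474596776899168012136876530859028419533529375215134634) 9 146 cf9 A9_3.ch0 = true := by
  decide +kernel

theorem res : sumL (fun s => sqF 146 A9_3.ch0 (finalX 8 false A9_3.mask 146 cf9 A9_3.ch0 s)) (secL 9 3 0 []) = 96822866250148541787947059127208255717474596776899168012136876530859028419533529375215134634 := by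
  have h := ((run_final (K := A9_3.KK) A9_3.ap G9_3_0.step _ 8 146 A9_3.mask false cf9 A9_3.ch0 G9_3_0.step_eq).symm.trans run_ok)
  have h2 := (A9_3.fin_eq A9_3.sq0 _ _).symm.trans h
  rw [A9_3.sq_eq0] at h2
  exact Nat.eq_of_beq_eq_true h2

end Vale.Agent.P348.R9_3_0_0

namespace Vale.Agent.P348.R9_4_0_0

theorem run_ok : run (K := A9_4.KK) A9_4.ap G9_4_0.step (A9_4.fin A9_4.sq0 681913707421534330550911166426980037678853523863755593416284593999027949896817426963893478436) 9 146 cf9 A9_4.ch0 = true := by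
  decide +kernel

theorem res : sumL (fun s => sqF 146 A9_4.ch0 (finalX 8 false A9_4.mask 146 cf9 A9_4.ch0 s)) (secL 9 4 0 []) = 681913707421534330550911166426980037678853523863755593416284593999027949896817426963893478436 := by
  have h := ((run_final (K := A9_4.KK) A9_4.ap G9_4_0.step _ 8 146 A9_4.mask false cf9 A9_4.ch0 G9_4_0.step_eq).symm.trans run_ok)
  have h2 := (A9_4.fin_eq A9_4.sq0 _ _).symm.trans h
  rw [A9_4.sq_eq0] at h2
  exact Nat.eq_of_beq_eq_true h2

end Vale.Agent.P348.R9_4_0_0

namespace Vale.Agent.P348.R9_5_0_0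

theorem run_ok : run (K := A9_5.KK) A9_5.ap G9_5_0.step (A9_5.fin A9_5.sq0 3095037450886774910496668640058939641714437186714194555941299435055616949525829295687788503610) 9 146 cf9 A9_5.ch0 = true := by
  decide +kernel

theorem res : sumL (fun s => sqF 146 A9_5.ch0 (finalX 8 false A9_5.mask 146 cf9 A9_5.ch0 s)) (secL 9 5 0 []) = 3095037450886774910496668640058939641714437186714194555941299435055616949525829295687788503610 := by
  have h := ((run_final (K := A9_5.KK) A9_5.ap G9_5_0.step _ 8 146 A9_5.mask false cf9 A9_5.ch0 G9_5_0.step_eq).symm.trans run_ok)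
  have h2 := (A9_5.fin_eq A9_5.sq0 _ _).symm.trans h
  rw [A9_5.sq_eq0] at h2
  exact Nat.eq_of_beq_eq_true h2

end Vale.Agent.P348.R9_5_0_0
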