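import Vale.Agent.P348.G.R9_6_0_0
import Vale.Agent.P348.G.R9_6_0_1
import Vale.Agent.P348.G.R9_6_1_0
import Vale.Agent.P348.G.R9_6_1_1
import Vale.Agent.P348.G.R9_7_0_0
import Vale.Agent.P348.G.R9_7_0_1
import Vale.Agent.P348.G.R9_7_1_0
import Vale.Agent.P348.G.R9_7_1_1
import Vale.Agent.P348.G.R9_8_0_0
import Vale.Agent.P348.G.R9_8_0_1
import Vale.Agent.P348.G.R9_8_1_0
import Vale.Agent.P348.G.R9_8_1_1
import Vale.Agent.P348.G.R9_9_0_0
import Vale.Agent.P348.G.R9_9_0_1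
import Vale.Agent.P348.G.R9_9_1_0
import Vale.Agent.P348.G.R9_9_1_1
import Vale.Agent.P348.G.RS9_0
import Vale.Agent.P348.G.RS9_1

set_option maxRecDepth 1000000
set_option maxHeartbeats 0
set_option linter.all false

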