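import Vale.Agent.P348.KCore2
import Vale.Agent.P348.Poly

set_option maxRecDepth 1000000
set_option maxHeartbeats 0
set_option linter.all false

namespace Vale.Agent.P348.A10_10

def mask : Nat := nat_lit 406997726621084049853717144962338176880709183813874298294675674205546715667176160963002040349953449133053173373154733899926298041683296605024446773709853266204162218980994359473554728475707076355133914524620821604891300442473642813700673652452118245371596244240255375538949507793370465811184406217770015936471959546605357143079609934818700052304289270540436679848962645057582767794781988118822333642080443269108090380417961965963601249658417369126116309460205513938599551667902535175163030350229268676985020287843581063747751472492825033138162411712704178856351403452440353957370039801026331489979295981200054958727814154506906670883183014578739623591244703949332799892390431059570167637886986729258752028809358205554268727019261100778145124714161890942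07254193374530510455368482810947005976411328245827489500459908094999001075311016443070974278754331431037586390001367689107339682864416540654680702398188940647549238547458304007678271442264239729818153023999214129422931425925335816257546976544027861044470485064965880886612039193788904817445056036118345061322312843108891133571511133174689801164977955855755455189046585187117711958460958536749847141812620034875363732450144946017662990910620995365349463717779344784979414405384851712940924486204152020666709651825991731842766451047853183781373597706501855186276563946074993301214058974983269602294630298268860431724525593167162285253376393468608040251438303134187650460939515552356311561611141475869128040731667779395884548799111070415809580344186705557598111760926685964204321603563665781269288355251851315043565294838781297672235427572143404865991233637350805246200553828483155040276953338331754868137551716076631068879435987592709047177330853691346945846933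74901418245937917529824492514063940634850377592852786899750961598712880668776451887396862100458039033330283068332394559095103291097652000876076540011941438855287365158304864218453846581011379821907743271165759156733204890477867513606750106033028546662564022869128125806917052935358146032788247780789986227868296249199813993575865047980479696737068387180897553857859386317525224376661473705552796075869819618543443325164935275690971233513999442540512468986418827963387184055241399186279712156182035859433683207474384982601571864100390375202830024041456360900630509228563241586096499577066709162313467878934722860529450403753558681469367744897636309254677983442142186661785419885751396208887406061040561509591281147447168643364415945262140337105069971434165228492005252399285438242191397194983084682744892292714192299061397540906122592797335943773910561770361597069468901165332884272692777948055665452140500933419053000982821188551092826468584055704150224349236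43624534673161590625662372272757768304919010741929108849414538978136783695066048733719350835538296472648580747853566752400190214306275371571543392016517611287803413235557646889158702508480059032495468813761119712186675157623986937612532204980842867981299523498515069847758806368019156294947044657839991889766596658408100581525632521397249767901363843065156156938500145460200082793054305486788848128461969391023694042745648687810402912518029588147216677704662008980162880312907222552878521853735492032011415825096110680308275852082505664657100982046088222228955489513486004796514644451597818391643730411663885598963558336483298977290545290498354924217220606504347496363436976302767546448360842870633709320207620303516544779763214578402363482798084991594194459055061266522946331299943279112059908246162311296807292338075718547201725844949788687591204476167797409970326287567112405282180937414727952256642792133839209498857296093927690901770361065618668436698151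78783653755001362055339222958344811258729645436218885012935338254830078385140353547320671120754774767972725034133587820354941841648446432149436677956159070707643129071264686244237265960905601629834234920572296310888021579677811090590864629489019840436802645890128912200285280459028977599121067171079272285048798871394253798006109031705017476585753378427463067518848360757003118709288676770136526362176679572996610233374913392296613469755040462507376355881652507101667365669256900421780552781458339139805249821530476728698164371401010573223751459757930846366105941526703102945555633299844511886386026407980964114184865518194904051607478688180242688908801155164841038890761091871615900641282722594233261082587280407767179877768505947816174348490141822716172314264469522055149931825080375993855327620884985281547975176979121851665146879970266345580158223177826706879017628411843791943462478238509098373181795744044215788496552819072920233687411813788406690496276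77171215236765932321010531967328980453229605634645255185498891855939463670700004277838484940421606064260973953171450052433304374716836134876572686581874286072679713034756351857346773162799815089481920828337645638511409022226234443330856468980770637164402666377319836300674419234934489727570297407344477022493770903381275493742035478113491490368138008373220243586465265281157184209627030125187812121074754486857661218099854695909528292243671641529399229092709488863865321822275502478183655713633028597979668835070456375687755146978270056996647269604607532679486684821820622796668872866358572363692059382456588234838549082155244892762098667355526950587076883956925984539506369618893392596410098828709114712795373904194922700817391975152208485816844328517593959595513960284768552401826956087054463769383932741263467117665326155929451857749579180738984638541156026848294350760460126487753821139364740795239729904244457870225402740410365607827087701223177534263188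96166703533025258151339555820934965989475457409241349078028913706837802854204013450151205196673065678481991747389646305969780967002257021964524399743548769950249592953236562892613032920837802317154246916720455674910894345175505486354615515806862162277389220700656950635625129356227412086884156114020750571795213036733187459575058677288408112552085503541327056019945018459776740790465766894431234850756362523004117987066843679094330415099657123806212613191531437357041162196351173185254642498253058842335447950437088935546086404534406234105037536616030374813161059821962114769551833747405691597756332414748138328861828186856884486271297336688545570896475917607844640126335512397531984531930532806596135195271439046653081465678999014528939120832330112073078481906467094627334531605885820638590258479189904964426870859635767130729820462042727949400649241366155464482959972874298140679999351009392433990440013702733009304943497795684789765296100957180424237455759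82217767548574312884152209732048781467728356149253913290227208942012685932951165639597463609444397148891698130874042754282642058298318154032308358238553435395350629840229648668551510834438221037654515262895776439368958584471277136329324325048274139435462900039131914490089787729964439313977177643777534841391513851339835435367315148285896759643839914897373185553028866998431645862445954943127143970136012070002172673185163204770923136626387211267422796026377321102869066548184389159386589973224772866065428971702230594006596499043231905200014943093305433828750654755604105824277487829390040246387037691620824278553632361058736311190658608402834727250200697747921719472390378725952977142502578342252457171180940751108907809439769652814464512928320288060639527157045437231223526966365417437105915820770107887662903715147371636017772292491428260765109310157949676974403324828621823077173253038586885088179445886477403057916142793600746526055669599576756312959140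440709965461703774047600277575899996834385768490467468470316665140536727585607548585175977015820158429542763381901103608286936347443747392946571830081286118922647149090399032137946616520576105854912758660436545404454330992191362312324099203877299539949389927017794588562509167573208108738511981251132906537423485083844379345792478430694361519005305761996820176852543114644043816120450917409211348922111484866609873117078508507170666217729962324247676132577452408676950681632861705830587661786425102171570680308771533283778062086901368841495377702034859431137004209204641223068153663140565864588913881731741860588023315956992785197757665244215142981809005698164993139242479577267493640416330132424606630677153074085194991720425634145744903660742096384740927081974311478585542429651952050070322765896489256764965115485036855838682471314478236921439053438134189342415169359107445501919718334964577404221025320063729413664734556214120200634840113594418767868298734153876682754518217559331279243695132240704999132856526612705701914633873440174969375240504677961877944698131380347780831767267144223975953502533027912416373605195985151952839500343083061723229962683427883263625476807993565065368321960598763993110127287664645099489913569221455638109816128309640578770350720544291097872278110988795658143512251421761651921061501041218741667568726972679504830308725034872626524557797736739481090888376536892946930659986014239457280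

def KK : Type :=
    Nat → Nat → Nat → Nat → Nat → Nat → Nat → Nat → Nat → Nat → Nat → Nat → Nat → Nat → Nat → Nat →
    Nat → Nat → Nat → Nat → Nat → Nat → Nat → Nat → Nat → Nat → Nat → Nat → Nat → Nat → Nat → Nat →
    Nat → Nat → Nat → Nat → Nat → Nat → Nat → Nat → Nat → Nat → Nat → Nat → Nat → Nat → Nat → Nat →
    Nat → Nat → Nat → Nat → Nat → Nat → Nat → Nat → Nat → Nat → Nat → Nat → Nat → Nat → Nat → Nat →
    Nat → Nat → Nat → Nat → Nat → Nat → Nat → Nat → Nat → Nat → Nat → Nat → Nat → Nat → Nat → Nat →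
    Nat → Nat → Nat → Nat → Nat → Nat → Nat → Nat → Nat → Nat → Nat → Nat → Nat → Nat → Nat → Nat →
    Nat → Nat → Nat → Nat → Nat → Nat → Nat → Nat → Nat → Nat → Nat → Nat → Nat → Nat → Nat → Nat →
    Nat → Nat → Nat → Nat → Nat → Nat → Nat → Nat → Nat → Nat → Nat → Nat → Nat → Nat → Nat → Nat →
    Nat → Nat → Nat → Nat → Nat → Nat → Nat → Nat → Nat → Nat → Nat → Nat → Nat → Nat → Nat → Nat →
    Nat → Nat → Nat → Nat → Nat → Nat → Nat → Nat → Nat → Nat → Nat → Nat → Nat → Nat → Nat → Nat →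
    Nat → Nat → Nat → Nat → Nat → Nat → Nat → Nat → Nat → Nat → Nat → Nat → Nat → Nat → Nat → Nat →
    Nat → Nat → Nat → Nat → Nat → Nat → Nat → Nat → Nat → Nat → Nat → Nat → Nat → Nat → Nat → Nat →
    Nat → Nat → Nat → Nat → Nat → Nat → Nat → Nat → Nat → Nat → Nat → Nat → Nat → Nat → Nat → Nat →
    Nat → Nat → Nat → Nat → Nat → Nat → Nat → Nat → Nat → Nat → Nat → Nat → Nat → Nat → Nat → Nat →
    Nat → Nat → Nat → Nat → Nat → Nat → Nat → Nat → Nat → Nat → Nat → Nat → Nat → Nat → Nat → Nat →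
    Nat → Nat → Nat → Nat → Nat → Nat → Nat → Nat → Nat → Nat → Nat → Nat → Nat → Nat → Nat → Nat →
    Nat → Nat → Nat → Nat → Nat → Nat → Nat → Nat → Nat → Nat → Nat → Nat → Nat → Nat → Nat → Nat →
    Nat → Nat → Nat → Nat → Nat → Nat → Nat → Nat → Nat → Nat → Nat → Nat → Nat → Nat → Nat → Nat →
    Nat → Nat → Nat → Nat → Nat → Nat → Nat → Nat → Nat → Nat → Nat → Nat → Nat → Nat → Nat → Nat →
    Nat → Nat → Nat → Nat → Nat → Nat → Nat → Nat → Nat → Nat → Nat → Nat → Nat → Nat → Nat → Nat →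
    Nat → Nat → Nat → Nat → Nat → Nat → Nat → Nat → Nat → Nat → Nat → Nat → Nat → Nat → Nat → Nat →
    Nat → Nat → Nat → Nat → Nat → Nat → Nat → Nat → Nat → Nat → Nat → Nat → Nat → Nat → Nat → Nat →
    Nat → Nat → Nat → Nat → Nat → Nat → Nat → Nat → Nat → Nat → Nat → Nat → Nat → Nat → Nat → Nat →
    Nat → Nat → Nat → Nat → Nat → Nat → Nat → Nat → Nat → Nat → Nat → Nat → Nat → Nat → Nat → Nat →
    Nat → Nat → Nat → Nat → Nat → Nat → Nat → Nat → Nat → Nat → Nat → Nat → Nat → Nat → Nat → Nat →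
    Nat → Nat → Nat → Nat → Nat → Nat → Nat → Nat → Nat → Nat → Nat → Nat → Nat → Nat → Nat → Nat →
    Nat → Nat → Nat → Nat → Nat → Nat → Nat → Nat → Nat → Nat → Nat → Nat → Nat → Nat → Nat → Nat →
    Nat → Nat → Nat → Nat → Nat → Nat → Nat → Nat → Nat → Nat → Nat → Nat → Nat → Nat → Nat → Nat →
    Nat → Nat → Nat → Nat → Nat → Nat → Nat → Nat → Nat → Nat → Nat → Nat → Nat → Nat → Nat → Nat →
    Nat → Nat → Nat → Nat → Nat → Nat → Nat → Nat → Nat → Nat → Nat → Nat → Nat → Nat → Nat → Nat →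
    Nat → Nat → Nat → Nat → Nat → Nat → Nat → Nat → Nat → Nat → Nat → Nat → Nat → Nat → Nat → Nat →
    Nat → Nat → Nat → Nat → Nat → Nat → Nat → Nat → Nat → Nat → Nat → Nat → Nat → Nat → Nat → Nat →
    Nat → Nat → Nat → Nat → Nat → Nat → Nat → Nat → Nat → Nat → Nat → Nat → Nat → Nat → Nat → Nat →
    Nat → Nat → Nat → Nat → Nat → Nat → Nat → Nat → Nat → Nat → Nat → Nat → Nat → Nat → Nat → Nat →
    Nat → Nat → Nat → Nat → Nat → Nat → Nat → Nat → Nat → Nat → Nat → Nat → Nat → Nat → Nat → Nat →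
    Nat → Nat → Nat → Nat → Nat → Nat → Nat → Nat → Nat → Nat → Nat → Nat → Nat → Nat → Nat → Nat →
    Nat → Nat → Nat → Nat → Nat → Nat → Nat → Nat → Nat → Nat → Nat → Nat → Nat → Nat → Nat → Nat →
    Nat → Nat → Nat → Nat → Nat → Nat → Nat → Nat → Nat → Nat → Nat → Nat → Nat → Nat → Nat → Nat →
    Nat → Nat → Nat → Nat → Nat → Nat → Nat → Nat → Nat → Nat → Nat → Nat → Nat → Nat → Nat → Nat →
    Nat → Nat → Nat → Nat → Nat → Nat → Nat → Nat → Nat → Nat → Nat → Nat → Nat → Nat → Nat → Nat →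
    Nat → Nat → Nat → Nat → Nat → Nat → Nat → Nat → Nat → Nat → Nat → Nat → Nat → Nat → Nat → Nat →
    Nat → Nat → Nat → Nat → Nat → Nat → Nat → Nat → Nat → Nat → Nat → Nat → Nat → Nat → Nat → Nat →
    Nat → Nat → Nat → Nat → Nat → Nat → Nat → Nat → Nat → Nat → Nat → Nat → Nat → Nat → Nat → Nat →
    Nat → Nat → Nat → Nat → Nat → Nat → Nat → Nat → Nat → Nat → Nat → Nat → Nat → Nat → Nat → Nat →
    Nat → Nat → Nat → Nat → Nat → Nat → Nat → Nat → Nat → Nat → Nat → Nat → Nat → Nat → Nat → Nat →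
    Nat → Nat → Nat → Nat → Nat → Nat → Nat → Nat → Nat → Nat → Nat → Nat → Nat → Nat → Nat → Nat →
    Nat → Nat → Nat → Nat → Nat → Nat → Nat → Nat → Nat → Nat → Nat → Nat → Nat → Nat → Nat → Nat →
    Nat → Nat → Nat → Nat → Nat → Nat → Nat → Nat → Nat → Nat → Nat → Nat → Nat → Nat → Nat → Nat →
    Nat → Nat → Nat → Nat → Nat → Nat → Nat → Nat → Nat → Nat → Nat → Nat → Nat → Nat → Nat → Nat →
    Nat → Nat → Nat → Nat → Nat → Nat → Nat → Nat → Nat → Nat → Nat → Nat → Nat → Nat → Nat → Nat →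
    Nat → Nat → Nat → Nat → Nat → Nat → Nat → Nat → Nat → Nat → Nat → Nat → Nat → Nat → Nat → Nat →
    Nat → Nat → Nat → Nat → Nat → Nat → Nat → Nat → Nat → Nat → Nat → Nat → Nat → Nat → Nat → Nat →
    Nat → Nat → Nat → Nat → Nat → Nat → Nat → Nat → Nat → Nat → Nat → Nat → Nat → Nat → Nat → Nat →
    Nat → Nat → Nat → Nat → Nat → Nat → Nat → Nat → Nat → Nat → Nat → Nat → Nat → Nat → Nat → Nat →
    Nat → Nat → Nat → Nat → Nat → Nat → Nat → Nat → Nat → Nat → Nat → Nat → Nat → Nat → Nat → Nat →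
    Nat → Nat → Nat → Nat → Nat → Nat → Nat → Nat → Nat → Nat → Nat → Nat → Nat → Nat → Nat → Nat →
    Nat → Nat → Nat → Nat → Nat → Nat → Nat → Nat → Nat → Nat → Nat → Nat → Nat → Nat → Nat → Nat →
    Nat → Nat → Nat → Nat → Nat → Nat → Nat → Nat → Nat → Nat → Nat → Nat → Nat → Nat → Nat → Nat →
    Nat → Nat → Nat → Nat → Nat → Nat → Nat → Nat → Nat → Nat → Nat → Nat → Nat → Nat → Nat → Nat →
    Nat → Nat → Nat → Nat → Nat → Nat → Nat → Nat → Nat → Nat → Nat → Nat → Nat → Nat → Nat → Nat →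
    Nat → Nat → Nat → Nat → Nat → Nat → Nat → Nat → Nat → Nat → Nat → Nat → Nat → Nat → Nat → Nat →
    Nat → Nat → Nat → Nat → Nat → Nat → Nat → Nat → Nat → Nat → Nat → Nat → Nat → Nat → Nat → Nat →
    Nat → Nat → Nat → Nat → Nat → Nat → Nat → Nat → Nat → Nat → Nat → Nat → Nat → Nat → Nat → Nat →
    Nat → Nat → Nat → Nat → Nat → Nat → Nat → Nat → Nat → Nat → Nat → Nat → Nat → Nat → Nat → Nat →
    Nat → Nat → Nat → Nat → Nat → Nat → Nat → Nat → Nat → Nat → Nat → Nat → Nat → Nat → Nat → Nat →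
    Nat → Nat → Nat → Nat → Nat → Nat → Nat → Nat → Nat → Nat → Nat → Nat → Nat → Nat → Nat → Nat →
    Nat → Nat → Nat → Nat → Nat → Nat → Nat → Nat → Nat → Nat → Nat → Nat → Nat → Nat → Nat → Nat →
    Nat → Nat → Nat → Nat → Nat → Nat → Nat → Nat → Nat → Nat → Nat → Nat → Nat → Nat → Nat → Nat →
    Nat → Nat → Nat → Nat → Nat → Nat → Nat → Nat → Nat → Nat → Nat → Nat → Nat → Nat → Nat → Nat →
    Nat → Nat → Nat → Nat → Nat → Nat → Nat → Nat → Nat → Nat → Nat → Nat → Nat → Nat → Nat → Nat →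
    Nat → Nat → Nat → Nat → Nat → Nat → Nat → Nat → Nat → Nat → Nat → Nat → Nat → Nat → Nat → Nat →
    Nat → Nat → Nat → Nat → Nat → Nat → Nat → Nat → Nat → Nat → Nat → Nat → Nat → Nat → Nat → Nat →
    Nat → Nat → Nat → Nat → Nat → Nat → Nat → Nat → Nat → Nat → Nat → Nat → Nat → Nat → Nat → Nat →
    Nat → Nat → Nat → Nat → Nat → Nat → Nat → Nat → Nat → Nat → Nat → Nat → Nat → Nat → Nat → Nat →
    Nat → Nat → Nat → Nat → Nat → Nat → Nat → Nat → Nat → Nat → Nat → Nat → Nat → Nat → Nat → Nat →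
    Nat → Nat → Nat → Nat → Nat → Nat → Nat → Nat → Nat → Nat → Nat → Nat → Nat → Nat → Nat → Nat →
    Nat → Nat → Nat → Nat → Nat → Nat → Nat → Nat → Nat → Nat → Nat → Nat → Nat → Nat → Nat → Nat →
    Nat → Nat → Nat → Nat → Nat → Nat → Nat → Nat → Nat → Nat → Nat → Nat → Nat → Nat → Nat → Nat →
    Nat → Nat → Nat → Nat → Nat → Nat → Nat → Nat → Nat → Nat → Nat → Nat → Nat → Nat → Nat → Nat →
    Nat → Nat → Nat → Nat → Nat → Nat → Nat → Nat → Nat → Nat → Nat → Nat → Nat → Nat → Nat → Nat →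
    Nat → Nat → Nat → Nat → Nat → Nat → Nat → Nat → Nat → Nat → Nat → Nat → Nat → Nat → Nat → Nat →
    Nat → Nat → Nat → Nat → Nat → Nat → Nat → Nat → Nat → Nat → Nat → Nat → Nat → Nat → Nat → Nat →
    Nat → Nat → Nat → Nat → Nat → Nat → Nat → Nat → Nat → Nat → Nat → Nat → Nat → Nat → Nat → Nat →
    Nat → Nat → Nat → Nat → Nat → Nat → Nat → Nat → Nat → Nat → Nat → Nat → Nat → Nat → Nat → Nat →
    Nat → Nat → Nat → Nat → Nat → Nat → Nat → Nat → Nat → Nat → Nat → Nat → Nat → Nat → Nat → Nat →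
    Nat → Nat → Nat → Nat → Nat → Nat → Nat → Nat → Nat → Nat → Nat → Nat → Nat → Nat → Nat → Nat →
    Nat → Nat → Nat → Nat → Nat → Nat → Nat → Nat → Nat → Nat → Nat → Nat → Nat → Nat → Nat → Nat →
    Nat → Nat → Nat → Nat → Nat → Nat → Nat → Nat → Nat → Nat → Nat → Nat → Nat → Nat → Nat → Nat →
    Nat → Nat → Nat → Nat → Nat → Nat → Nat → Nat → Nat → Nat → Nat → Nat → Nat → Nat → Nat → Nat →
    Nat → Nat → Nat → Nat → Nat → Nat → Nat → Nat → Nat → Nat → Nat → Nat → Nat → Nat → Nat → Nat →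
    Nat → Nat → Nat → Nat → Nat → Nat → Nat → Nat → Nat → Nat → Nat → Nat → Nat → Nat → Nat → Nat →
    Nat → Nat → Nat → Nat → Nat → Nat → Nat → Nat → Nat → Nat → Nat → Nat → Nat → Nat → Nat → Nat →
    Nat → Nat → Nat → Nat → Nat → Nat → Nat → Nat → Nat → Nat → Nat → Nat → Nat → Nat → Nat → Nat →
    Nat → Nat → Nat → Nat → Nat → Nat → Nat → Nat → Nat → Nat → Nat → Nat → Nat → Nat → Nat → Nat →
    Nat → Nat → Nat → Nat → Nat → Nat → Nat → Nat → Nat → Nat → Nat → Nat → Nat → Nat → Nat → Nat →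
    Nat → Nat → Nat → Nat → Nat → Nat → Nat → Nat → Nat → Nat → Nat → Nat → Nat → Nat → Nat → Nat →
    Nat → Nat → Nat → Nat → Nat → Nat → Nat → Nat → Nat → Nat → Nat → Nat → Nat → Nat → Nat → Nat →
    Nat → Nat → Nat → Nat → Nat → Nat → Nat → Nat → Nat → Nat → Nat → Nat → Nat → Nat → Nat → Nat →
    Nat → Nat → Nat → Nat → Nat → Nat → Nat → Nat → Nat → Nat → Nat → Nat → Nat → Nat → Nat → Nat →
    Nat → Nat → Nat → Nat → Nat → Nat → Nat → Nat → Nat → Nat → Nat → Nat → Nat → Nat → Nat → Nat →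
    Nat → Nat → Nat → Nat → Nat → Nat → Nat → Nat → Nat → Nat → Nat → Nat → Nat → Nat → Nat → Nat →
    Nat → Nat → Nat → Nat → Nat → Nat → Nat → Nat → Nat → Nat → Nat → Nat → Nat → Nat → Nat → Nat →
    Nat → Nat → Nat → Nat → Nat → Nat → Nat → Nat → Nat → Nat → Nat → Nat → Nat → Nat → Nat → Nat →
    Nat → Nat → Nat → Nat → Nat → Nat → Nat → Nat → Nat → Nat → Nat → Nat → Nat → Nat → Nat → Nat →
    Nat → Nat → Nat → Nat → Nat → Nat → Nat → Nat → Nat → Nat → Nat → Nat → Nat → Nat → Nat → Nat →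
    Nat → Nat → Nat → Nat → Nat → Nat → Nat → Nat → Nat → Nat → Nat → Nat → Nat → Nat → Nat → Nat →
    Nat → Nat → Nat → Nat → Nat → Nat → Nat → Nat → Nat → Nat → Nat → Nat → Nat → Nat → Nat → Nat →
    Nat → Nat → Nat → Nat → Nat → Nat → Nat → Nat → Nat → Nat → Nat → Nat → Nat → Nat → Nat → Nat →
    Nat → Nat → Nat → Nat → Nat → Nat → Nat → Nat → Nat → Nat → Nat → Nat → Nat → Nat → Nat → Nat →
    Nat → Nat → Nat → Nat → Nat → Nat → Nat → Nat → Nat → Nat → Nat → Nat → Nat → Nat → Nat → Nat →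
    Nat → Nat → Nat → Nat → Nat → Nat → Nat → Nat → Nat → Nat → Nat → Nat → Nat → Nat → Nat → Nat →
    Nat → Nat → Nat → Nat → Nat → Nat → Nat → Nat → Nat → Nat → Nat → Nat → Nat → Nat → Nat → Nat →
    Nat → Nat → Nat → Nat → Nat → Nat → Nat → Nat → Nat → Nat → Nat → Nat → Nat → Nat → Nat → Nat →
    Nat → Nat → Nat → Nat → Nat → Nat → Nat → Nat → Nat → Nat → Nat → Nat → Nat → Nat → Nat → Nat →
    Nat → Nat → Nat → Nat → Nat → Nat → Nat → Nat → Nat → Nat → Nat → Nat → Nat → Nat → Nat → Nat →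
    Nat → Nat → Nat → Nat → Nat → Nat → Nat → Nat → Nat → Nat → Nat → Nat → Nat → Nat → Nat → Nat →
    Nat → Nat → Nat → Nat → Nat → Nat → Nat → Nat → Nat → Nat → Nat → Nat → Nat → Nat → Nat → Nat →
    Nat → Nat → Nat → Nat → Nat → Nat → Nat → Nat → Nat → Nat → Nat → Nat → Nat → Nat → Nat → Nat →
    Nat → Nat → Nat → Nat → Nat → Nat → Nat → Nat → Nat → Nat → Nat → Nat → Nat → Nat → Nat → Nat →
    Nat → Nat → Nat → Nat → Nat → Nat → Nat → Nat → Nat → Nat → Nat → Nat → Nat → Nat → Nat → Nat →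
    Nat → Nat → Nat → Nat → Nat → Nat → Nat → Nat → Nat → Nat → Nat → Nat → Nat → Nat → Nat → Nat →
    Nat → Nat → Nat → Nat → Nat → Nat → Nat → Nat → Nat → Nat → Nat → Nat → Nat → Nat → Nat → Nat →
    Nat → Nat → Nat → Nat → Nat → Nat → Nat → Nat → Nat → Nat → Nat → Nat → Nat → Nat → Nat → Nat →
    Nat → Nat → Nat → Nat → Nat → Nat → Nat → Nat → Nat → Nat → Nat → Nat → Nat → Nat → Nat → Nat →
    Nat → Nat → Nat → Nat → Nat → Nat → Nat → Nat → Nat → Nat → Nat → Nat → Nat → Nat → Nat → Nat →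
    Nat → Nat → Nat → Nat → Nat → Nat → Nat → Nat → Nat → Nat → Nat → Nat → Nat → Nat → Nat → Nat →
    Nat → Nat → Nat → Nat → Nat → Nat → Nat → Nat → Nat → Nat → Nat → Nat → Nat → Nat → Nat → Nat →
    Nat → Nat → Nat → Nat → Nat → Nat → Nat → Nat → Nat → Nat → Nat → Nat → Nat → Nat → Nat → Nat →
    Nat → Nat → Nat → Nat → Nat → Nat → Nat → Nat → Nat → Nat → Nat → Nat → Nat → Nat → Nat → Nat →
    Nat → Nat → Nat → Nat → Nat → Nat → Nat → Nat → Nat → Nat → Nat → Nat → Nat → Nat → Nat → Nat →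
    Nat → Nat → Nat → Nat → Nat → Nat → Nat → Nat → Nat → Nat → Nat → Nat → Nat → Nat → Nat → Nat →
    Nat → Nat → Nat → Nat → Nat → Nat → Nat → Nat → Nat → Nat → Nat → Nat → Nat → Nat → Nat → Nat →
    Nat → Nat → Nat → Nat → Nat → Nat → Nat → Nat → Nat → Nat → Nat → Nat → Nat → Nat → Nat → Nat →
    Nat → Nat → Nat → Nat → Nat → Nat → Nat → Nat → Nat → Nat → Nat → Nat → Nat → Nat → Nat → Nat →
    Nat → Nat → Nat → Nat → Nat → Nat → Nat → Nat → Nat → Nat → Nat → Nat → Nat → Nat → Nat → Nat →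
    Nat → Nat → Nat → Nat → Nat → Nat → Nat → Nat → Nat → Nat → Nat → Nat → Nat → Nat → Nat → Nat →
    Nat → Nat → Nat → Nat → Nat → Nat → Nat → Nat → Nat → Nat → Nat → Nat → Nat → Nat → Nat → Nat →
    Nat → Nat → Nat → Nat → Nat → Nat → Nat → Nat → Nat → Nat → Nat → Nat → Nat → Nat → Nat → Nat →
    Nat → Nat → Nat → Nat → Nat → Nat → Nat → Nat → Nat → Nat → Nat → Nat → Nat → Nat → Nat → Nat →
    Nat → Nat → Nat → Nat → Nat → Nat → Nat → Nat → Nat → Nat → Nat → Nat → Nat → Nat → Nat → Nat →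
    Nat → Nat → Nat → Nat → Nat → Nat → Nat → Nat → Nat → Nat → Nat → Nat → Nat → Nat → Nat → Nat →
    Nat → Nat → Nat → Nat → Nat → Nat → Nat → Nat → Nat → Nat → Nat → Nat → Nat → Nat → Nat → Nat →
    Nat → Nat → Nat → Nat → Nat → Nat → Nat → Nat → Nat → Nat → Nat → Nat → Nat → Nat → Nat → Nat →
    Nat → Nat → Nat → Nat → Nat → Nat → Nat → Nat → Nat → Nat → Nat → Nat → Nat → Nat → Nat → Nat →
    Nat → Nat → Nat → Nat → Nat → Nat → Nat → Nat → Nat → Nat → Nat → Nat → Nat → Nat → Nat → Nat →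
    Nat → Nat → Nat → Nat → Nat → Nat → Nat → Nat → Nat → Nat → Nat → Nat → Nat → Nat → Nat → Nat →
    Nat → Nat → Nat → Nat → Nat → Nat → Nat → Nat → Nat → Nat → Nat → Nat → Nat → Nat → Nat → Nat →
    Nat → Nat → Nat → Nat → Nat → Nat → Nat → Nat → Nat → Nat → Nat → Nat → Nat → Nat → Nat → Nat →
    Nat → Nat → Nat → Nat → Nat → Nat → Nat → Nat → Nat → Nat → Nat → Nat → Nat → Nat → Nat → Nat →
    Nat → Nat → Nat → Nat → Nat → Nat → Nat → Nat → Nat → Nat → Nat → Nat → Nat → Nat → Nat → Nat →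
    Nat → Nat → Nat → Nat → Nat → Nat → Nat → Nat → Nat → Nat → Nat → Nat → Nat → Nat → Nat → Nat →
    Nat → Nat → Nat → Nat → Nat → Nat → Nat → Nat → Nat → Nat → Nat → Nat → Nat → Nat → Nat → Nat →
    Nat → Nat → Nat → Nat → Nat → Nat → Nat → Nat → Nat → Nat → Nat → Nat → Nat → Nat → Nat → Nat →
    Nat → Nat → Nat → Nat → Nat → Nat → Nat → Nat → Nat → Nat → Nat → Nat → Nat → Nat → Nat → Nat →
    Nat → Nat → Nat → Nat → Nat → Nat → Nat → Nat → Nat → Nat → Nat → Nat → Nat → Nat → Nat → Nat →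
    Nat → Nat → Nat → Nat → Nat → Nat → Nat → Nat → Nat → Nat → Nat → Nat → Nat → Nat → Nat → Nat →
    Nat → Nat → Nat → Nat → Nat → Nat → Nat → Nat → Nat → Nat → Nat → Nat → Nat → Nat → Nat → Nat →
    Nat → Nat → Nat → Nat → Nat → Nat → Nat → Nat → Nat → Nat → Nat → Nat → Nat → Nat → Nat → Nat →
    Nat → Nat → Nat → Nat → Nat → Nat → Nat → Nat → Nat → Nat → Nat → Nat → Nat → Nat → Nat → Nat →
    Nat → Nat → Nat → Nat → Nat → Nat → Nat → Nat → Nat → Nat → Nat → Nat → Nat → Nat → Nat → Nat →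
    Nat → Nat → Nat → Nat → Nat → Nat → Nat → Nat → Nat → Nat → Nat → Nat → Nat → Nat → Nat → Nat →
    Nat → Nat → Nat → Nat → Nat → Nat → Nat → Nat → Nat → Nat → Nat → Nat → Nat → Nat → Nat → Nat →
    Nat → Nat → Nat → Nat → Nat → Nat → Nat → Nat → Nat → Nat → Nat → Nat → Nat → Nat → Nat → Nat →
    Nat → Nat → Nat → Nat → Nat → Nat → Nat → Nat → Nat → Nat → Nat → Nat → Nat → Nat → Nat → Nat →
    Nat → Nat → Nat → Nat → Nat → Nat → Nat → Nat → Nat → Nat → Nat → Nat → Nat → Nat → Nat → Nat →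
    Nat → Nat → Nat → Nat → Nat → Nat → Nat → Nat → Nat → Nat → Nat → Nat → Nat → Nat → Nat → Nat →
    Nat → Nat → Nat → Nat → Nat → Nat → Nat → Nat → Nat → Nat → Nat → Nat → Nat → Nat → Nat → Nat →
    Nat → Nat → Nat → Nat → Nat → Nat → Nat → Nat → Nat → Nat → Nat → Nat → Nat → Nat → Nat → Nat →
    Nat → Nat → Nat → Nat → Nat → Nat → Nat → Nat → Nat → Nat → Nat → Nat → Nat → Nat → Nat → Nat →
    Nat → Nat → Nat → Nat → Nat → Nat → Nat → Nat → Nat → Nat → Nat → Nat → Nat → Nat → Nat → Nat →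
    Nat → Nat → Nat → Nat → Nat → Nat → Nat → Nat → Nat → Nat → Nat → Nat → Nat → Nat → Nat → Nat →
    Nat → Nat → Nat → Nat → Nat → Nat → Nat → Nat → Nat → Nat → Nat → Nat → Nat → Nat → Nat → Nat →
    Nat → Nat → Nat → Nat → Nat → Nat → Nat → Nat → Nat → Nat → Nat → Nat → Nat → Nat → Nat → Nat →
    Nat → Nat → Nat → Nat → Nat → Nat → Nat → Nat → Nat → Nat → Nat → Nat → Nat → Nat → Nat → Nat →
    Nat → Nat → Nat → Nat → Nat → Nat → Nat → Nat → Nat → Nat → Nat → Nat → Nat → Nat → Nat → Nat →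
    Nat → Nat → Nat → Nat → Nat → Nat → Nat → Nat → Nat → Nat → Nat → Nat → Nat → Nat → Nat → Nat →
    Nat → Nat → Nat → Nat → Nat → Nat → Nat → Nat → Nat → Nat → Nat → Nat → Nat → Nat → Nat → Nat →
    Nat → Nat → Nat → Nat → Nat → Nat → Nat → Nat → Nat → Nat → Nat → Nat → Nat → Nat → Nat → Nat →
    Nat → Nat → Nat → Nat → Nat → Nat → Nat → Nat → Nat → Nat → Nat → Nat → Nat → Nat → Nat → Nat →
    Nat → Nat → Nat → Nat → Nat → Nat → Nat → Nat → Nat → Nat → Nat → Nat → Nat → Nat → Nat → Nat →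
    Nat → Nat → Nat → Nat → Nat → Nat → Nat → Nat → Nat → Nat → Nat → Nat → Nat → Nat → Nat → Nat →
    Nat → Nat → Nat → Nat → Nat → Nat → Nat → Nat → Nat → Nat → Nat → Nat → Nat → Nat → Nat → Nat →
    Nat → Nat → Nat → Nat → Nat → Nat → Nat → Nat → Nat → Nat → Nat → Nat → Nat → Nat → Nat → Nat →
    Nat → Nat → Nat → Nat → Nat → Nat → Nat → Nat → Nat → Nat → Nat → Nat → Nat → Nat → Nat → Nat →
    Nat → Nat → Nat → Nat → Nat → Nat → Nat → Nat → Nat → Nat → Nat → Nat → Nat → Nat → Nat → Nat →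
    Nat → Nat → Nat → Nat → Nat → Nat → Nat → Nat → Nat → Nat → Nat → Nat → Nat → Nat → Nat → Nat →
    Nat → Nat → Nat → Nat → Nat → Nat → Nat → Nat → Nat → Nat → Nat → Nat → Nat → Nat → Nat → Nat →
    Nat → Nat → Nat → Nat → Nat → Nat → Nat → Nat → Nat → Nat → Nat → Nat → Nat → Nat → Nat → Nat →
    Nat → Nat → Nat → Nat → Nat → Nat → Nat → Nat → Nat → Nat → Nat → Nat → Nat → Nat → Nat → Nat →
    Nat → Nat → Nat → Nat → Nat → Nat → Nat → Nat → Nat → Nat → Nat → Nat → Nat → Nat → Nat → Nat →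
    Nat → Nat → Nat → Nat → Nat → Nat → Nat → Nat → Nat → Nat → Nat → Nat → Nat → Nat → Nat → Nat →
    Nat → Nat → Nat → Nat → Nat → Nat → Nat → Nat → Nat → Nat → Nat → Nat → Nat → Nat → Nat → Nat →
    Nat → Nat → Nat → Nat → Nat → Nat → Nat → Nat → Nat → Nat → Nat → Nat → Nat → Nat → Nat → Nat →
    Nat → Nat → Nat → Nat → Nat → Nat → Nat → Nat → Nat → Nat → Nat → Nat → Nat → Nat → Nat → Nat →
    Nat → Nat → Nat → Nat → Nat → Nat → Nat → Nat → Nat → Nat → Nat → Nat → Nat → Nat → Nat → Nat →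
    Nat → Nat → Nat → Nat → Nat → Nat → Nat → Nat → Nat → Nat → Nat → Nat → Nat → Nat → Nat → Nat →
    Nat → Nat → Nat → Nat → Nat → Nat → Nat → Nat → Nat → Nat → Nat → Nat → Nat → Nat → Nat → Nat →
    Nat → Nat → Nat → Nat → Nat → Nat → Nat → Nat → Nat → Nat → Nat → Nat → Nat → Nat → Nat → Nat →
    Nat → Nat → Nat → Nat → Nat → Nat → Nat → Nat → Nat → Nat → Nat → Nat → Nat → Nat → Nat → Nat →
    Nat → Nat → Nat → Nat → Nat → Nat → Nat → Nat → Nat → Nat → Nat → Nat → Nat → Nat → Nat → Nat →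
    Nat → Nat → Nat → Nat → Nat → Nat → Nat → Nat → Nat → Nat → Nat → Nat → Nat → Nat → Nat → Nat →
    Nat → Nat → Nat → Nat → Nat → Nat → Nat → Nat → Nat → Nat → Nat → Nat → Nat → Nat → Nat → Nat →
    Nat → Nat → Nat → Nat → Nat → Nat → Nat → Nat → Nat → Nat → Nat → Nat → Nat → Nat → Nat → Nat →
    Nat → Nat → Nat → Nat → Nat → Nat → Nat → Nat → Nat → Nat → Nat → Nat → Nat → Nat → Nat → Nat →
    Nat → Nat → Nat → Nat → Nat → Nat → Nat → Nat → Nat → Nat → Nat → Nat → Nat → Nat → Nat → Nat →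
    Nat → Nat → Nat → Nat → Nat → Nat → Nat → Nat → Nat → Nat → Nat → Nat → Nat → Nat → Nat → Nat →
    Nat → Nat → Nat → Nat → Nat → Nat → Nat → Nat → Nat → Nat → Nat → Nat → Nat → Nat → Nat → Nat →
    Nat → Nat → Nat → Nat → Nat → Nat → Nat → Nat → Nat → Nat → Nat → Nat → Nat → Nat → Nat → Nat →
    Nat → Nat → Nat → Nat → Nat → Nat → Nat → Nat → Nat → Nat → Nat → Nat → Nat → Nat → Nat → Nat →
    Nat → Nat → Nat → Nat → Nat → Nat → Nat → Nat → Nat → Nat → Nat → Nat → Nat → Nat → Nat → Nat →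
    Nat → Nat → Nat → Nat → Nat → Nat → Nat → Nat → Nat → Nat → Nat → Nat → Nat → Nat → Nat → Nat →
    Nat → Nat → Nat → Nat → Nat → Nat → Nat → Nat → Nat → Nat → Nat → Nat → Nat → Nat → Nat → Nat →
    Nat → Nat → Nat → Nat → Nat → Nat → Nat → Nat → Nat → Nat → Nat → Nat → Nat → Nat → Nat → Nat →
    Nat → Nat → Nat → Nat → Nat → Nat → Nat → Nat → Nat → Nat → Nat → Nat → Nat → Nat → Nat → Nat →
    Nat → Nat → Nat → Nat → Nat → Nat → Nat → Nat → Nat → Nat → Nat → Nat → Nat → Nat → Nat → Nat →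
    Nat → Nat → Nat → Nat → Nat → Nat → Nat → Nat → Nat → Nat → Nat → Nat → Nat → Nat → Nat → Nat →
    Nat → Nat → Nat → Nat → Nat → Nat → Nat → Nat → Nat → Nat → Nat → Nat → Nat → Nat → Nat → Nat →
    Nat → Nat → Nat → Nat → Nat → Nat → Nat → Nat → Nat → Nat → Nat → Nat → Nat → Nat → Nat → Nat →
    Nat → Nat → Nat → Nat → Nat → Nat → Nat → Nat → Nat → Nat → Nat → Nat → Nat → Nat → Nat → Nat →
    Nat → Nat → Nat → Nat → Nat → Nat → Nat → Nat → Nat → Nat → Nat → Nat → Nat → Nat → Nat → Nat →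
    Nat → Nat → Nat → Nat → Nat → Nat → Nat → Nat → Nat → Nat → Nat → Nat → Nat → Nat → Nat → Nat →
    Nat → Nat → Nat → Nat → Nat → Nat → Nat → Nat → Nat → Nat → Nat → Nat → Nat → Nat → Nat → Nat →
    Nat → Nat → Nat → Nat → Nat → Nat → Nat → Nat → Nat → Nat → Nat → Nat → Nat → Nat → Nat → Nat →
    Nat → Nat → Nat → Nat → Nat → Nat → Nat → Nat → Nat → Nat → Nat → Nat → Nat → Nat → Nat → Nat →
    Nat → Nat → Nat → Nat → Nat → Nat → Nat → Nat → Nat → Nat → Nat → Nat → Nat → Nat → Nat → Nat →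
    Nat → Nat → Nat → Nat → Nat → Nat → Nat → Nat → Nat → Nat → Nat → Nat → Nat → Nat → Nat → Nat →
    Nat → Nat → Nat → Nat → Nat → Nat → Nat → Nat → Nat → Nat → Nat → Nat → Nat → Nat → Nat → Nat →
    Nat → Nat → Nat → Nat → Nat → Nat → Nat → Nat → Nat → Nat → Nat → Nat → Nat → Nat → Nat → Nat →
    Nat → Nat → Nat → Nat → Nat → Nat → Nat → Nat → Nat → Nat → Nat → Nat → Nat → Nat → Nat → Nat →
    Nat → Nat → Nat → Nat → Nat → Nat → Nat → Nat → Nat → Nat → Nat → Nat → Nat → Nat → Nat → Nat →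
    Nat → Nat → Nat → Nat → Nat → Nat → Nat → Nat → Nat → Nat → Nat → Nat → Nat → Nat → Nat → Nat →
    Nat → Nat → Nat → Nat → Nat → Nat → Nat → Nat → Nat → Nat → Nat → Nat → Nat → Nat → Nat → Nat →
    Nat → Nat → Nat → Nat → Nat → Nat → Nat → Nat → Nat → Nat → Nat → Nat → Nat → Nat → Nat → Nat →
    Nat → Nat → Nat → Nat → Nat → Nat → Nat → Nat → Nat → Nat → Nat → Nat → Nat → Nat → Nat → Nat →
    Nat → Nat → Nat → Nat → Nat → Nat → Nat → Nat → Nat → Nat → Nat → Nat → Nat → Nat → Nat → Nat →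
    Nat → Nat → Nat → Nat → Nat → Nat → Nat → Nat → Nat → Nat → Nat → Nat → Nat → Nat → Nat → Nat →
    Nat → Nat → Nat → Nat → Nat → Nat → Nat → Nat → Nat → Nat → Nat → Nat → Nat → Nat → Nat → Nat →
    Nat → Nat → Nat → Nat → Nat → Nat → Nat → Nat → Nat → Nat → Nat → Nat → Nat → Nat → Nat → Nat →
    Nat → Nat → Nat → Nat → Nat → Nat → Nat → Nat → Nat → Nat → Nat → Nat → Nat → Nat → Nat → Nat →
    Nat → Nat → Nat → Nat → Nat → Nat → Nat → Nat → Nat → Nat → Nat → Nat → Nat → Nat → Nat → Nat →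
    Nat → Nat → Nat → Nat → Nat → Nat → Nat → Nat → Nat → Nat → Nat → Nat → Nat → Nat → Nat → Nat →
    Nat → Nat → Nat → Nat → Nat → Nat → Nat → Nat → Nat → Nat → Nat → Nat → Nat → Nat → Nat → Nat →
    Nat → Nat → Nat → Nat → Nat → Nat → Nat → Nat → Nat → Nat → Nat → Nat → Nat → Nat → Nat → Nat →
    Nat → Nat → Nat → Nat → Nat → Nat → Nat → Nat → Nat → Nat → Nat → Nat → Nat → Nat → Nat → Nat →
    Nat → Nat → Nat → Nat → Nat → Nat → Nat → Nat → Nat → Nat → Nat → Nat → Nat → Nat → Nat → Nat →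
    Nat → Nat → Nat → Nat → Nat → Nat → Nat → Nat → Nat → Nat → Nat → Nat → Nat → Nat → Nat → Nat →
    Nat → Nat → Nat → Nat → Nat → Nat → Nat → Nat → Nat → Nat → Nat → Nat → Nat → Nat → Nat → Nat →
    Nat → Nat → Nat → Nat → Nat → Nat → Nat → Nat → Nat → Nat → Nat → Nat → Nat → Nat → Nat → Nat →
    Nat → Nat → Nat → Nat → Nat → Nat → Nat → Nat → Nat → Nat → Nat → Nat → Nat → Nat → Nat → Nat →
    Nat → Nat → Nat → Nat → Nat → Nat → Nat → Nat → Nat → Nat → Nat → Nat → Nat → Nat → Nat → Nat →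
    Nat → Nat → Nat → Nat → Nat → Nat → Nat → Nat → Nat → Nat → Nat → Nat → Nat → Nat → Nat → Nat →
    Nat → Nat → Nat → Nat → Nat → Nat → Nat → Nat → Nat → Nat → Nat → Nat → Nat → Nat → Nat → Nat →
    Nat → Nat → Nat → Nat → Nat → Nat → Nat → Nat → Nat → Nat → Nat → Nat → Nat → Nat → Nat → Nat →
    Nat → Nat → Nat → Nat → Nat → Nat → Nat → Nat → Nat → Nat → Nat → Nat → Nat → Nat → Nat → Nat →
    Nat → Nat → Nat → Nat → Nat → Nat → Nat → Nat → Nat → Nat → Nat → Nat → Nat → Nat → Nat → Nat →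
    Nat → Nat → Nat → Nat → Nat → Nat → Nat → Nat → Nat → Nat → Nat → Nat → Nat → Nat → Nat → Nat →
    Nat → Nat → Nat → Nat → Nat → Nat → Nat → Nat → Nat → Nat → Nat → Nat → Nat → Nat → Nat → Nat →
    Nat → Nat → Nat → Nat → Nat → Nat → Nat → Nat → Nat → Nat → Nat → Nat → Nat → Nat → Nat → Nat →
    Nat → Nat → Nat → Nat → Nat → Nat → Nat → Nat → Nat → Nat → Nat → Nat → Nat → Nat → Nat → Nat →
    Nat → Nat → Nat → Nat → Nat → Nat → Nat → Nat → Nat → Nat → Nat → Nat → Nat → Nat → Nat → Nat →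
    Nat → Nat → Nat → Nat → Nat → Nat → Nat → Nat → Nat → Nat → Nat → Nat → Nat → Nat → Nat → Nat →
    Nat → Nat → Nat → Nat → Nat → Nat → Nat → Nat → Nat → Nat → Nat → Nat → Nat → Nat → Nat → Nat →
    Nat → Nat → Nat → Nat → Nat → Nat → Nat → Nat → Nat → Nat → Nat → Nat → Nat → Nat → Nat → Nat →
    Nat → Nat → Nat → Nat → Nat → Nat → Nat → Nat → Nat → Nat → Nat → Nat → Nat → Nat → Nat → Nat →
    Nat → Nat → Nat → Nat → Nat → Nat → Nat → Nat → Nat → Nat → Nat → Nat → Nat → Nat → Nat → Nat →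
    Nat → Nat → Nat → Nat → Nat → Nat → Nat → Nat → Nat → Nat → Nat → Nat → Nat → Nat → Nat → Nat →
    Nat → Nat → Nat → Nat → Nat → Nat → Nat → Nat → Nat → Nat → Nat → Nat → Nat → Nat → Nat → Nat →
    Nat → Nat → Nat → Nat → Nat → Nat → Nat → Nat → Nat → Nat → Nat → Nat → Nat → Nat → Nat → Nat →
    Nat → Nat → Nat → Nat → Nat → Nat → Nat → Nat → Nat → Nat → Nat → Nat → Nat → Nat → Nat → Nat →
    Nat → Nat → Nat → Nat → Nat → Nat → Nat → Nat → Nat → Nat → Nat → Nat → Nat → Nat → Nat → Nat →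
    Nat → Nat → Nat → Nat → Nat → Nat → Nat → Nat → Nat → Nat → Nat → Nat → Nat → Nat → Nat → Nat →
    Nat → Nat → Nat → Nat → Nat → Nat → Nat → Nat → Nat → Nat → Nat → Nat → Nat → Nat → Nat → Nat →
    Nat → Nat → Nat → Nat → Nat → Nat → Nat → Nat → Nat → Nat → Nat → Nat → Nat → Nat → Nat → Nat →
    Nat → Nat → Nat → Nat → Nat → Nat → Nat → Nat → Nat → Nat → Nat → Nat → Nat → Nat → Nat → Nat →
    Nat → Nat → Nat → Nat → Nat → Nat → Nat → Nat → Nat → Nat → Nat → Nat → Nat → Nat → Nat → Nat →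
    Nat → Nat → Nat → Nat → Nat → Nat → Nat → Nat → Nat → Nat → Nat → Nat → Nat → Nat → Nat → Nat →
    Nat → Nat → Nat → Nat → Nat → Nat → Nat → Nat → Nat → Nat → Nat → Nat → Nat → Nat → Nat → Nat →
    Nat → Nat → Nat → Nat → Nat → Nat → Nat → Nat → Nat → Nat → Nat → Nat → Nat → Nat → Nat → Nat →
    Nat → Nat → Nat → Nat → Nat → Nat → Nat → Nat → Nat → Nat → Nat → Nat → Nat → Nat → Nat → Nat →
    Nat → Nat → Nat → Nat → Nat → Nat → Nat → Nat → Nat → Nat → Nat → Nat → Nat → Nat → Nat → Nat →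
    Nat → Nat → Nat → Nat → Nat → Nat → Nat → Nat → Nat → Nat → Nat → Nat → Nat → Nat → Nat → Nat →
    Nat → Nat → Nat → Nat → Nat → Nat → Nat → Nat → Nat → Nat → Nat → Nat → Nat → Nat → Nat → Nat →
    Nat → Nat → Nat → Nat → Nat → Nat → Nat → Nat → Nat → Nat → Nat → Nat → Nat → Nat → Nat → Nat →
    Nat → Nat → Nat → Nat → Nat → Nat → Nat → Nat → Nat → Nat → Nat → Nat → Nat → Nat → Nat → Nat →
    Nat → Nat → Nat → Nat → Nat → Nat → Nat → Nat → Nat → Nat → Nat → Nat → Nat → Nat → Nat → Nat →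
    Nat → Nat → Nat → Nat → Nat → Nat → Nat → Nat → Nat → Nat → Nat → Nat → Nat → Nat → Nat → Nat →
    Nat → Nat → Nat → Nat → Nat → Nat → Nat → Nat → Nat → Nat → Nat → Nat → Nat → Nat → Nat → Nat →
    Nat → Nat → Nat → Nat → Nat → Nat → Nat → Nat → Nat → Nat → Nat → Nat → Nat → Nat → Nat → Nat →
    Nat → Nat → Nat → Nat → Nat → Nat → Nat → Nat → Nat → Nat → Nat → Nat → Nat → Nat → Nat → Nat →
    Nat → Nat → Nat → Nat → Nat → Nat → Nat → Nat → Nat → Nat → Nat → Nat → Nat → Nat → Nat → Nat →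
    Nat → Nat → Nat → Nat → Nat → Nat → Nat → Nat → Nat → Nat → Nat → Nat → Nat → Nat → Nat → Nat →
    Nat → Nat → Nat → Nat → Nat → Nat → Nat → Nat → Nat → Nat → Nat → Nat → Nat → Nat → Nat → Nat →
    Nat → Nat → Nat → Nat → Nat → Nat → Nat → Nat → Nat → Nat → Nat → Nat → Nat → Nat → Nat → Nat →
    Nat → Nat → Nat → Nat → Nat → Nat → Nat → Nat → Nat → Nat → Nat → Nat → Nat → Nat → Nat → Nat →
    Nat → Nat → Nat → Nat → Nat → Nat → Nat → Nat → Nat → Nat → Nat → Nat → Nat → Nat → Nat → Nat →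
    Nat → Nat → Nat → Nat → Nat → Nat → Nat → Nat → Nat → Nat → Nat → Nat → Nat → Nat → Nat → Nat →
    Nat → Nat → Nat → Nat → Nat → Nat → Nat → Nat → Nat → Nat → Nat → Nat → Nat → Nat → Nat → Nat →
    Nat → Nat → Nat → Nat → Nat → Nat → Nat → Nat → Nat → Nat → Nat → Nat → Nat → Nat → Nat → Nat →
    Nat → Nat → Nat → Nat → Nat → Nat → Nat → Nat → Nat → Nat → Nat → Nat → Nat → Nat → Nat → Nat →
    Nat → Nat → Nat → Nat → Nat → Nat → Nat → Nat → Nat → Nat → Nat → Nat → Nat → Nat → Nat → Nat →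
    Nat → Nat → Nat → Nat → Nat → Nat → Nat → Nat → Nat → Nat → Nat → Nat → Nat → Nat → Nat → Nat →
    Nat → Nat → Nat → Nat → Nat → Nat → Nat → Nat → Nat → Nat → Nat → Nat → Nat → Nat → Nat → Nat →
    Nat → Nat → Nat → Nat → Nat → Nat → Nat → Nat → Nat → Nat → Nat → Nat → Nat → Nat → Nat → Nat →
    Nat → Nat → Nat → Nat → Nat → Nat → Nat → Nat → Nat → Nat → Nat → Nat → Nat → Nat → Nat → Nat →
    Nat → Nat → Nat → Nat → Nat → Nat → Nat → Nat → Nat → Nat → Nat → Nat → Nat → Nat → Nat → Nat →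
    Nat → Nat → Nat → Nat → Nat → Nat → Nat → Nat → Nat → Nat → Nat → Nat → Nat → Nat → Nat → Nat →
    Nat → Nat → Nat → Nat → Nat → Nat → Nat → Nat → Nat → Nat → Nat → Nat → Nat → Nat → Nat → Nat →
    Nat → Nat → Nat → Nat → Nat → Nat → Nat → Nat → Nat → Nat → Nat → Nat → Nat → Nat → Nat → Nat →
    Nat → Nat → Nat → Nat → Nat → Nat → Nat → Nat → Nat → Nat → Nat → Nat → Nat → Nat → Nat → Nat →
    Nat → Nat → Nat → Nat → Nat → Nat → Nat → Nat → Nat → Nat → Nat → Nat → Nat → Nat → Nat → Nat →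
    Nat → Nat → Nat → Nat → Nat → Nat → Nat → Nat → Nat → Nat → Nat → Nat → Nat → Nat → Nat → Nat →
    Nat → Nat → Nat → Nat → Nat → Nat → Nat → Nat → Nat → Nat → Nat → Nat → Nat → Nat → Nat → Nat →
    Nat → Nat → Nat → Nat → Nat → Nat → Nat → Nat → Nat → Nat → Nat → Nat → Nat → Nat → Nat → Nat →
    Nat → Nat → Nat → Nat → Nat → Nat → Nat → Nat → Nat → Nat → Nat → Nat → Nat → Nat → Nat → Nat →
    Nat → Nat → Nat → Nat → Nat → Nat → Nat → Nat → Nat → Nat → Nat → Nat → Nat → Nat → Nat → Nat →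
    Nat → Nat → Nat → Nat → Nat → Nat → Nat → Nat → Nat → Nat → Nat → Nat → Nat → Nat → Nat → Nat →
    Nat → Nat → Nat → Nat → Nat → Nat → Nat → Nat → Nat → Nat → Nat → Nat → Nat → Nat → Nat → Nat →
    Nat → Nat → Nat → Nat → Nat → Nat → Nat → Nat → Nat → Nat → Nat → Nat → Nat → Nat → Nat → Nat →
    Nat → Nat → Nat → Nat → Nat → Nat → Nat → Nat → Nat → Nat → Nat → Nat → Nat → Nat → Nat → Nat →
    Nat → Nat → Nat → Nat → Nat → Nat → Nat → Nat → Nat → Nat → Nat → Nat → Nat → Nat → Nat → Nat →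
    Nat → Nat → Nat → Nat → Nat → Nat → Nat → Nat → Nat → Nat → Nat → Nat → Nat → Nat → Nat → Nat →
    Nat → Nat → Nat → Nat → Nat → Nat → Nat → Nat → Nat → Nat → Nat → Nat → Nat → Nat → Nat → Nat →
    Nat → Nat → Nat → Nat → Nat → Nat → Nat → Nat → Nat → Nat → Nat → Nat → Nat → Nat → Nat → Nat →
    Nat → Nat → Nat → Nat → Nat → Nat → Nat → Nat → Nat → Nat → Nat → Nat → Nat → Nat → Nat → Nat →
    Nat → Nat → Nat → Nat → Nat → Nat → Nat → Nat → Nat → Nat → Nat → Nat → Nat → Nat → Nat → Nat →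
    Nat → Nat → Nat → Nat → Nat → Nat → Nat → Nat → Nat → Nat → Nat → Nat → Nat → Nat → Nat → Nat →
    Nat → Nat → Nat → Nat → Nat → Nat → Nat → Nat → Nat → Nat → Nat → Nat → Nat → Nat → Nat → Nat →
    Nat → Nat → Nat → Nat → Nat → Nat → Nat → Nat → Nat → Nat → Nat → Nat → Nat → Nat → Nat → Nat →
    Nat → Nat → Nat → Nat → Nat → Nat → Nat → Nat → Nat → Nat → Nat → Nat → Nat → Nat → Nat → Nat →
    Nat → Nat → Nat → Nat → Nat → Nat → Nat → Nat → Nat → Nat → Nat → Nat → Nat → Nat → Nat → Nat →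
    Nat → Nat → Nat → Nat → Nat → Nat → Nat → Nat → Nat → Nat → Nat → Nat → Nat → Nat → Nat → Nat →
    Nat → Nat → Nat → Nat → Nat → Nat → Nat → Nat → Nat → Nat → Nat → Nat → Nat → Nat → Nat → Nat →
    Nat → Nat → Nat → Nat → Nat → Nat → Nat → Nat → Nat → Nat → Nat → Nat → Nat → Nat → Nat → Nat →
    Nat → Nat → Nat → Nat → Nat → Nat → Nat → Nat → Nat → Nat → Nat → Nat → Nat → Nat → Nat → Nat →
    Nat → Nat → Nat → Nat → Nat → Nat → Nat → Nat → Nat → Nat → Nat → Nat → Nat → Nat → Nat → Nat →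
    Nat → Nat → Nat → Nat → Nat → Nat → Nat → Nat → Nat → Nat → Nat → Nat → Nat → Nat → Nat → Nat →
    Nat → Nat → Nat → Nat → Nat → Nat → Nat → Nat → Nat → Nat → Nat → Nat → Nat → Nat → Nat → Nat →
    Nat → Nat → Nat → Nat → Nat → Nat → Nat → Nat → Nat → Nat → Nat → Nat → Nat → Nat → Nat → Nat →
    Nat → Nat → Nat → Nat → Nat → Nat → Nat → Nat → Nat → Nat → Nat → Nat → Nat → Nat → Nat → Nat →
    Nat → Nat → Nat → Nat → Nat → Nat → Nat → Nat → Nat → Nat → Nat → Nat → Nat → Nat → Nat → Nat →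
    Nat → Nat → Nat → Nat → Nat → Nat → Nat → Nat → Nat → Nat → Nat → Nat → Nat → Nat → Nat → Nat →
    Nat → Nat → Nat → Nat → Nat → Nat → Nat → Nat → Nat → Nat → Nat → Nat → Nat → Nat → Nat → Nat →
    Nat → Nat → Nat → Nat → Nat → Nat → Nat → Nat → Nat → Nat → Nat → Nat → Nat → Nat → Nat → Nat →
    Nat → Nat → Nat → Nat → Nat → Nat → Nat → Nat → Nat → Nat → Nat → Nat → Nat → Nat → Nat → Nat →
    Nat → Nat → Nat → Nat → Nat → Nat → Nat → Nat → Nat → Nat → Nat → Nat → Nat → Nat → Nat → Nat →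
    Nat → Nat → Nat → Nat → Nat → Nat → Nat → Nat → Nat → Nat → Nat → Nat → Nat → Nat → Nat → Nat →
    Nat → Nat → Nat → Nat → Nat → Nat → Nat → Nat → Nat → Nat → Nat → Nat → Nat → Nat → Nat → Nat →
    Nat → Nat → Nat → Nat → Nat → Nat → Nat → Nat → Nat → Nat → Nat → Nat → Nat → Nat → Nat → Nat →
    Nat → Nat → Nat → Nat → Nat → Nat → Nat → Nat → Nat → Nat → Nat → Nat → Nat → Nat → Nat → Nat →
    Nat → Nat → Nat → Nat → Nat → Nat → Nat → Nat → Nat → Nat → Nat → Nat → Nat → Nat → Nat → Nat →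
    Nat → Nat → Nat → Nat → Nat → Nat → Nat → Nat → Nat → Nat → Nat → Nat → Nat → Nat → Nat → Nat →
    Nat → Nat → Nat → Nat → Nat → Nat → Nat → Nat → Nat → Nat → Nat → Nat → Nat → Nat → Nat → Nat →
    Nat → Nat → Nat → Nat → Nat → Nat → Nat → Nat → Nat → Nat → Nat → Nat → Nat → Nat → Nat → Nat →
    Nat → Nat → Nat → Nat → Nat → Nat → Nat → Nat → Nat → Nat → Nat → Nat → Nat → Nat → Nat → Nat →
    Nat → Nat → Nat → Nat → Nat → Nat → Nat → Nat → Nat → Nat → Nat → Nat → Nat → Nat → Nat → Nat →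
    Nat → Nat → Nat → Nat → Nat → Nat → Nat → Nat → Nat → Nat → Nat → Nat → Nat → Nat → Nat → Nat →
    Nat → Nat → Nat → Nat → Nat → Nat → Nat → Nat → Nat → Nat → Nat → Nat → Nat → Nat → Nat → Nat →
    Nat → Nat → Nat → Nat → Nat → Nat → Nat → Nat → Nat → Nat → Nat → Nat → Nat → Nat → Nat → Nat →
    Nat → Nat → Nat → Nat → Nat → Nat → Nat → Nat → Nat → Nat → Nat → Nat → Nat → Nat → Nat → Nat →
    Nat → Nat → Nat → Nat → Nat → Nat → Nat → Nat → Nat → Nat → Nat → Nat → Nat → Nat → Nat → Nat →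
    Nat → Nat → Nat → Nat → Nat → Nat → Nat → Nat → Nat → Nat → Nat → Nat → Nat → Nat → Nat → Nat →
    Nat → Nat → Nat → Nat → Nat → Nat → Nat → Nat → Nat → Nat → Nat → Nat → Nat → Nat → Nat → Nat →
    Nat → Nat → Nat → Nat → Nat → Nat → Nat → Nat → Nat → Nat → Nat → Nat → Nat → Nat → Nat → Nat →
    Nat → Nat → Nat → Nat → Nat → Nat → Nat → Nat → Nat → Nat → Nat → Nat → Nat → Nat → Nat → Nat →
    Nat → Nat → Nat → Nat → Nat → Nat → Nat → Nat → Nat → Nat → Nat → Nat → Nat → Nat → Nat → Nat →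
    Nat → Nat → Nat → Nat → Nat → Nat → Nat → Nat → Nat → Nat → Nat → Nat → Nat → Nat → Nat → Nat →
    Nat → Nat → Nat → Nat → Nat → Nat → Nat → Nat → Nat → Nat → Nat → Nat → Nat → Nat → Nat → Nat →
    Nat → Nat → Nat → Nat → Nat → Nat → Nat → Nat → Nat → Nat → Nat → Nat → Nat → Nat → Nat → Nat →
    Nat → Nat → Nat → Nat → Nat → Nat → Nat → Nat → Nat → Nat → Nat → Nat → Nat → Nat → Nat → Nat →
    Nat → Nat → Nat → Nat → Nat → Nat → Nat → Nat → Nat → Nat → Nat → Nat → Nat → Nat → Nat → Nat →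
    Nat → Nat → Nat → Nat → Nat → Nat → Nat → Nat → Nat → Nat → Nat → Nat → Nat → Nat → Nat → Nat →
    Nat → Nat → Nat → Nat → Nat → Nat → Nat → Nat → Nat → Nat → Nat → Nat → Nat → Nat → Nat → Nat →
    Nat → Nat → Nat → Nat → Nat → Nat → Nat → Nat → Nat → Nat → Nat → Nat → Nat → Nat → Nat → Nat →
    Nat → Nat → Nat → Nat → Nat → Nat → Nat → Nat → Nat → Nat → Nat → Nat → Nat → Nat → Nat → Nat →
    Nat → Nat → Nat → Nat → Nat → Nat → Nat → Nat → Nat → Nat → Nat → Nat → Nat → Nat → Nat → Nat →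
    Nat → Nat → Nat → Nat → Nat → Nat → Nat → Nat → Nat → Nat → Nat → Nat → Nat → Nat → Nat → Nat →
    Nat → Nat → Nat → Nat → Nat → Nat → Nat → Nat → Nat → Nat → Nat → Nat → Nat → Nat → Nat → Nat →
    Nat → Nat → Nat → Nat → Nat → Nat → Nat → Nat → Nat → Nat → Nat → Nat → Nat → Nat → Nat → Nat →
    Nat → Nat → Nat → Nat → Nat → Nat → Nat → Nat → Nat → Nat → Nat → Nat → Nat → Nat → Nat → Nat →
    Nat → Nat → Nat → Nat → Nat → Nat → Nat → Nat → Nat → Nat → Nat → Nat → Nat → Nat → Nat → Nat →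
    Nat → Nat → Nat → Nat → Nat → Nat → Nat → Nat → Nat → Nat → Nat → Nat → Nat → Nat → Nat → Nat →
    Nat → Nat → Nat → Nat → Nat → Nat → Nat → Nat → Nat → Nat → Nat → Nat → Nat → Nat → Nat → Nat →
    Nat → Nat → Nat → Nat → Nat → Nat → Nat → Nat → Nat → Nat → Nat → Nat → Nat → Nat → Nat → Nat →
    Nat → Nat → Nat → Nat → Nat → Nat → Nat → Nat → Nat → Nat → Nat → Nat → Nat → Nat → Nat → Nat →
    Nat → Nat → Nat → Nat → Nat → Nat → Nat → Nat → Nat → Nat → Nat → Nat → Nat → Nat → Nat → Nat →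
    Nat → Nat → Nat → Nat → Nat → Nat → Nat → Nat → Nat → Nat → Nat → Nat → Nat → Nat → Nat → Nat →
    Nat → Nat → Nat → Nat → Nat → Nat → Nat → Nat → Nat → Nat → Nat → Nat → Nat → Nat → Nat → Nat →
    Nat → Nat → Nat → Nat → Nat → Nat → Nat → Nat → Nat → Nat → Nat → Nat → Nat → Nat → Nat → Nat →
    Nat → Nat → Nat → Nat → Nat → Nat → Nat → Nat → Nat → Nat → Nat → Nat → Nat → Nat → Nat → Nat →
    Nat → Nat → Nat → Nat → Nat → Nat → Nat → Nat → Nat → Nat → Nat → Nat → Nat → Nat → Nat → Nat →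
    Nat → Nat → Nat → Nat → Nat → Nat → Nat → Nat → Nat → Nat → Nat → Nat → Nat → Nat → Nat → Nat →
    Nat → Nat → Nat → Nat → Nat → Nat → Nat → Nat → Nat → Nat → Nat → Nat → Nat → Nat → Nat → Nat →
    Nat → Nat → Nat → Nat → Nat → Nat → Nat → Nat → Nat → Nat → Nat → Nat → Nat → Nat → Nat → Nat →
    Nat → Nat → Nat → Nat → Nat → Nat → Nat → Nat → Nat → Nat → Nat → Nat → Nat → Nat → Nat → Nat →
    Nat → Nat → Nat → Nat → Nat → Nat → Nat → Nat → Nat → Nat → Nat → Nat → Nat → Nat → Nat → Nat →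
    Nat → Nat → Nat → Nat → Nat → Nat → Nat → Nat → Nat → Nat → Nat → Nat → Nat → Nat → Nat → Nat →
    Nat → Nat → Nat → Nat → Nat → Nat → Nat → Nat → Nat → Nat → Nat → Nat → Nat → Nat → Nat → Nat →
    Nat → Nat → Nat → Nat → Nat → Nat → Nat → Nat → Nat → Nat → Nat → Nat → Nat → Nat → Nat → Nat →
    Nat → Nat → Nat → Nat → Nat → Nat → Nat → Nat → Nat → Nat → Nat → Nat → Nat → Nat → Nat → Nat →
    Nat → Nat → Nat → Nat → Nat → Nat → Nat → Nat → Nat → Nat → Nat → Nat → Nat → Nat → Nat → Nat →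
    Nat → Nat → Nat → Nat → Nat → Nat → Nat → Nat → Nat → Nat → Nat → Nat → Nat → Nat → Nat → Nat →
    Nat → Nat → Nat → Nat → Nat → Nat → Nat → Nat → Nat → Nat → Nat → Nat → Nat → Nat → Nat → Nat →
    Nat → Nat → Nat → Nat → Nat → Nat → Nat → Nat → Nat → Nat → Nat → Nat → Nat → Nat → Nat → Nat →
    Nat → Nat → Nat → Nat → Nat → Nat → Nat → Nat → Nat → Nat → Nat → Nat → Nat → Nat → Nat → Nat →
    Nat → Nat → Nat → Nat → Nat → Nat → Nat → Nat → Nat → Nat → Nat → Nat → Nat → Nat → Nat → Nat →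
    Nat → Nat → Nat → Nat → Nat → Nat → Nat → Nat → Nat → Nat → Nat → Nat → Nat → Nat → Nat → Nat →
    Nat → Nat → Nat → Nat → Nat → Nat → Nat → Nat → Nat → Nat → Nat → Nat → Nat → Nat → Nat → Nat →
    Nat → Nat → Nat → Nat → Nat → Nat → Nat → Nat → Nat → Nat → Nat → Nat → Nat → Nat → Nat → Nat →
    Nat → Nat → Nat → Nat → Nat → Nat → Nat → Nat → Nat → Nat → Nat → Nat → Nat → Nat → Nat → Nat →
    Nat → Nat → Nat → Nat → Nat → Nat → Nat → Nat → Nat → Nat → Nat → Nat → Nat → Nat → Nat → Nat →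
    Nat → Nat → Nat → Nat → Nat → Nat → Nat → Nat → Nat → Nat → Nat → Nat → Nat → Nat → Nat → Nat →
    Nat → Nat → Nat → Nat → Nat → Nat → Nat → Nat → Nat → Nat → Nat → Nat → Nat → Nat → Nat → Nat →
    Nat → Nat → Nat → Nat → Nat → Nat → Nat → Nat → Nat → Nat → Nat → Nat → Nat → Nat → Nat → Nat →
    Nat → Nat → Nat → Nat → Nat → Nat → Nat → Nat → Nat → Nat → Nat → Nat → Nat → Nat → Nat → Nat →
    Nat → Nat → Nat → Nat → Nat → Nat → Nat → Nat → Nat → Nat → Nat → Nat → Nat → Nat → Nat → Nat →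
    Nat → Nat → Nat → Nat → Nat → Nat → Nat → Nat → Nat → Nat → Nat → Nat → Nat → Nat → Nat → Nat →
    Nat → Nat → Nat → Nat → Nat → Nat → Nat → Nat → Nat → Nat → Nat → Nat → Nat → Nat → Nat → Nat →
    Nat → Nat → Nat → Nat → Nat → Nat → Nat → Nat → Nat → Nat → Nat → Nat → Nat → Nat → Nat → Nat →
    Nat → Nat → Nat → Nat → Nat → Nat → Nat → Nat → Nat → Nat → Nat → Nat → Nat → Nat → Nat → Nat →
    Nat → Nat → Nat → Nat → Nat → Nat → Nat → Nat → Nat → Nat → Nat → Nat → Nat → Nat → Nat → Nat →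
    Nat → Nat → Nat → Nat → Nat → Nat → Nat → Nat → Nat → Nat → Nat → Nat → Nat → Nat → Nat → Nat →
    Nat → Nat → Nat → Nat → Nat → Nat → Nat → Nat → Nat → Nat → Nat → Nat → Nat → Nat → Nat → Nat →
    Nat → Nat → Nat → Nat → Nat → Nat → Nat → Nat → Nat → Nat → Nat → Nat → Nat → Nat → Nat → Nat →
    Nat → Nat → Nat → Nat → Nat → Nat → Nat → Nat → Nat → Nat → Nat → Nat → Nat → Nat → Nat → Nat →
    Nat → Nat → Nat → Nat → Nat → Nat → Nat → Nat → Nat → Nat → Nat → Nat → Nat → Nat → Nat → Nat →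
    Nat → Nat → Nat → Nat → Nat → Nat → Nat → Nat → Nat → Nat → Nat → Nat → Nat → Nat → Nat → Nat →
    Nat → Nat → Nat → Nat → Nat → Nat → Nat → Nat → Nat → Nat → Nat → Nat → Nat → Nat → Nat → Nat →
    Nat → Nat → Nat → Nat → Nat → Nat → Nat → Nat → Nat → Nat → Nat → Nat → Nat → Nat → Nat → Nat →
    Nat → Nat → Nat → Nat → Nat → Nat → Nat → Nat → Nat → Nat → Nat → Nat → Nat → Nat → Nat → Nat →
    Nat → Nat → Nat → Nat → Nat → Nat → Nat → Nat → Nat → Nat → Nat → Nat → Nat → Nat → Nat → Nat →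
    Nat → Nat → Nat → Nat → Nat → Nat → Nat → Nat → Nat → Nat → Nat → Nat → Nat → Nat → Nat → Nat →
    Nat → Nat → Nat → Nat → Nat → Nat → Nat → Nat → Nat → Nat → Nat → Nat → Nat → Nat → Nat → Nat →
    Nat → Nat → Nat → Nat → Nat → Nat → Nat → Nat → Nat → Nat → Nat → Nat → Nat → Nat → Nat → Nat →
    Nat → Nat → Nat → Nat → Nat → Nat → Nat → Nat → Nat → Nat → Nat → Nat → Nat → Nat → Nat → Nat →
    Nat → Nat → Nat → Nat → Nat → Nat → Nat → Nat → Nat → Nat → Nat → Nat → Nat → Nat → Nat → Nat →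
    Nat → Nat → Nat → Nat → Nat → Nat → Nat → Nat → Nat → Nat → Nat → Nat → Nat → Nat → Nat → Nat →
    Nat → Nat → Nat → Nat → Nat → Nat → Nat → Nat → Nat → Nat → Nat → Nat → Nat → Nat → Nat → Nat →
    Nat → Nat → Nat → Nat → Nat → Nat → Nat → Nat → Nat → Nat → Nat → Nat → Nat → Nat → Nat → Nat →
    Nat → Nat → Nat → Nat → Nat → Nat → Nat → Nat → Nat → Nat → Nat → Nat → Nat → Nat → Nat → Nat →
    Nat → Nat → Nat → Nat → Nat → Nat → Nat → Nat → Nat → Nat → Nat → Nat → Nat → Nat → Nat → Nat →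
    Nat → Nat → Nat → Nat → Nat → Nat → Nat → Nat → Nat → Nat → Nat → Nat → Nat → Nat → Nat → Nat →
    Nat → Nat → Nat → Nat → Nat → Nat → Nat → Nat → Nat → Nat → Nat → Nat → Nat → Nat → Nat → Nat →
    Nat → Nat → Nat → Nat → Nat → Nat → Nat → Nat → Nat → Nat → Nat → Nat → Nat → Nat → Nat → Nat →
    Nat → Nat → Nat → Nat → Nat → Nat → Nat → Nat → Nat → Nat → Nat → Nat → Nat → Nat → Nat → Nat →
    Nat → Nat → Nat → Nat → Nat → Nat → Nat → Nat → Nat → Nat → Nat → Nat → Nat → Nat → Nat → Nat →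
    Nat → Nat → Nat → Nat → Nat → Nat → Nat → Nat → Nat → Nat → Nat → Nat → Nat → Nat → Nat → Nat →
    Nat → Nat → Nat → Nat → Nat → Nat → Nat → Nat → Nat → Nat → Nat → Nat → Nat → Nat → Nat → Nat →
    Nat → Nat → Nat → Nat → Nat → Nat → Nat → Nat → Nat → Nat → Nat → Nat → Nat → Nat → Nat → Nat →
    Nat → Nat → Nat → Nat → Nat → Nat → Nat → Nat → Nat → Nat → Nat → Nat → Nat → Nat → Nat → Nat →
    Nat → Nat → Nat → Nat → Nat → Nat → Nat → Nat → Nat → Nat → Nat → Nat → Nat → Nat → Nat → Nat →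
    Nat → Nat → Nat → Nat → Nat → Nat → Nat → Nat → Nat → Nat → Nat → Nat → Nat → Nat → Nat → Nat →
    Nat → Nat → Nat → Nat → Nat → Nat → Nat → Nat → Nat → Nat → Nat → Nat → Nat → Nat → Nat → Nat →
    Nat → Nat → Nat → Nat → Nat → Nat → Nat → Nat → Nat → Nat → Nat → Nat → Nat → Nat → Nat → Nat →
    Nat → Nat → Nat → Nat → Nat → Nat → Nat → Nat → Nat → Nat → Nat → Nat → Nat → Nat → Nat → Nat →
    Nat → Nat → Nat → Nat → Nat → Nat → Nat → Nat → Nat → Nat → Nat → Nat → Nat → Nat → Nat → Nat →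
    Nat → Nat → Nat → Nat → Nat → Nat → Nat → Nat → Nat → Nat → Nat → Nat → Nat → Nat → Nat → Nat →
    Nat → Nat → Nat → Nat → Nat → Nat → Nat → Nat → Nat → Nat → Nat → Nat → Nat → Nat → Nat → Nat →
    Nat → Nat → Nat → Nat → Nat → Nat → Nat → Nat → Nat → Nat → Nat → Nat → Nat → Nat → Nat → Nat →
    Nat → Nat → Nat → Nat → Nat → Nat → Nat → Nat → Nat → Nat → Nat → Nat → Nat → Nat → Nat → Nat →
    Nat → Nat → Nat → Nat → Nat → Nat → Nat → Nat → Nat → Nat → Nat → Nat → Nat → Nat → Nat → Nat →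
    Nat → Nat → Nat → Nat → Nat → Nat → Nat → Nat → Nat → Nat → Nat → Nat → Nat → Nat → Nat → Nat →
    Nat → Nat → Nat → Nat → Nat → Nat → Nat → Nat → Nat → Nat → Nat → Nat → Nat → Nat → Nat → Nat →
    Nat → Nat → Nat → Nat → Nat → Nat → Nat → Nat → Nat → Nat → Nat → Nat → Nat → Nat → Nat → Nat →
    Nat → Nat → Nat → Nat → Nat → Nat → Nat → Nat → Nat → Nat → Nat → Nat → Nat → Nat → Nat → Nat →
    Nat → Nat → Nat → Nat → Nat → Nat → Nat → Nat → Nat → Nat → Nat → Nat → Nat → Nat → Nat → Nat →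
    Nat → Nat → Nat → Nat → Nat → Nat → Nat → Nat → Nat → Nat → Nat → Nat → Nat → Nat → Nat → Nat →
    Nat → Nat → Nat → Nat → Nat → Nat → Nat → Nat → Nat → Nat → Nat → Nat → Nat → Nat → Nat → Nat →
    Nat → Nat → Nat → Nat → Nat → Nat → Nat → Nat → Nat → Nat → Nat → Nat → Nat → Nat → Nat → Nat →
    Nat → Nat → Nat → Nat → Nat → Nat → Nat → Nat → Nat → Nat → Nat → Nat → Nat → Nat → Nat → Nat →
    Nat → Nat → Nat → Nat → Nat → Nat → Nat → Nat → Nat → Nat → Nat → Nat → Nat → Nat → Nat → Nat →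
    Nat → Nat → Nat → Nat → Nat → Nat → Nat → Nat → Nat → Nat → Nat → Nat → Nat → Nat → Nat → Nat →
    Nat → Nat → Nat → Nat → Nat → Nat → Nat → Nat → Nat → Nat → Nat → Nat → Nat → Nat → Nat → Nat →
    Nat → Nat → Nat → Nat → Nat → Nat → Nat → Nat → Nat → Nat → Nat → Nat → Nat → Nat → Nat → Nat →
    Nat → Nat → Nat → Nat → Nat → Nat → Nat → Nat → Nat → Nat → Nat → Nat → Nat → Nat → Nat → Nat →
    Nat → Nat → Nat → Nat → Nat → Nat → Nat → Nat → Nat → Nat → Nat → Nat → Nat → Nat → Nat → Nat →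
    Nat → Nat → Nat → Nat → Nat → Nat → Nat → Nat → Nat → Nat → Nat → Nat → Nat → Nat → Nat → Nat →
    Nat → Nat → Nat → Nat → Nat → Nat → Nat → Nat → Nat → Nat → Nat → Nat → Nat → Nat → Nat → Nat →
    Nat → Nat → Nat → Nat → Nat → Nat → Nat → Nat → Nat → Nat → Nat → Nat → Nat → Nat → Nat → Nat →
    Nat → Nat → Nat → Nat → Nat → Nat → Nat → Nat → Nat → Nat → Nat → Nat → Nat → Nat → Nat → Nat →
    Nat → Nat → Nat → Nat → Nat → Nat → Nat → Nat → Nat → Nat → Nat → Nat → Nat → Nat → Nat → Nat →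
    Nat → Nat → Nat → Nat → Nat → Nat → Nat → Nat → Nat → Nat → Nat → Nat → Nat → Nat → Nat → Nat →
    Nat → Nat → Nat → Nat → Nat → Nat → Nat → Nat → Nat → Nat → Nat → Nat → Nat → Nat → Nat → Nat →
    Nat → Nat → Nat → Nat → Nat → Nat → Nat → Nat → Nat → Nat → Nat → Nat → Nat → Nat → Nat → Nat →
    Nat → Nat → Nat → Nat → Nat → Nat → Nat → Nat → Nat → Nat → Nat → Nat → Nat → Nat → Nat → Nat →
    Nat → Nat → Nat → Nat → Nat → Nat → Nat → Nat → Nat → Nat → Nat → Nat → Nat → Nat → Nat → Nat →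
    Nat → Nat → Nat → Nat → Nat → Nat → Nat → Nat → Nat → Nat → Nat → Nat → Nat → Nat → Nat → Nat →
    Nat → Nat → Nat → Nat → Nat → Nat → Nat → Nat → Nat → Nat → Nat → Nat → Nat → Nat → Nat → Nat →
    Nat → Nat → Nat → Nat → Nat → Nat → Nat → Nat → Nat → Nat → Nat → Nat → Nat → Nat → Nat → Nat →
    Nat → Nat → Nat → Nat → Nat → Nat → Nat → Nat → Nat → Nat → Nat → Nat → Nat → Nat → Nat → Nat →
    Nat → Nat → Nat → Nat → Nat → Nat → Nat → Nat → Nat → Nat → Nat → Nat → Nat → Nat → Nat → Nat →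
    Nat → Nat → Nat → Nat → Nat → Nat → Nat → Nat → Nat → Nat → Nat → Nat → Nat → Nat → Nat → Nat →
    Nat → Nat → Nat → Nat → Nat → Nat → Nat → Nat → Nat → Nat → Nat → Nat → Nat → Nat → Nat → Nat →
    Nat → Nat → Nat → Nat → Nat → Nat → Nat → Nat → Nat → Nat → Nat → Nat → Nat → Nat → Nat → Nat →
    Nat → Nat → Nat → Nat → Nat → Nat → Nat → Nat → Nat → Nat → Nat → Nat → Nat → Nat → Nat → Nat →
    Nat → Nat → Nat → Nat → Nat → Nat → Nat → Nat → Nat → Nat → Nat → Nat → Nat → Nat → Nat → Nat →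
    Nat → Nat → Nat → Nat → Nat → Nat → Nat → Nat → Nat → Nat → Nat → Nat → Nat → Nat → Nat → Nat →
    Nat → Nat → Nat → Nat → Nat → Nat → Nat → Nat → Nat → Nat → Nat → Nat → Nat → Nat → Nat → Nat →
    Nat → Nat → Nat → Nat → Nat → Nat → Nat → Nat → Nat → Nat → Nat → Nat → Nat → Nat → Nat → Nat →
    Nat → Nat → Nat → Nat → Nat → Nat → Nat → Nat → Nat → Nat → Nat → Nat → Nat → Nat → Nat → Nat →
    Nat → Nat → Nat → Nat → Nat → Nat → Nat → Nat → Nat → Nat → Nat → Nat → Nat → Nat → Nat → Nat →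
    Nat → Nat → Nat → Nat → Nat → Nat → Nat → Nat → Nat → Nat → Nat → Nat → Nat → Nat → Nat → Nat →
    Nat → Nat → Nat → Nat → Nat → Nat → Nat → Nat → Nat → Nat → Nat → Nat → Nat → Nat → Nat → Nat →
    Nat → Nat → Nat → Nat → Nat → Nat → Nat → Nat → Nat → Nat → Nat → Nat → Nat → Nat → Nat → Nat →
    Nat → Nat → Nat → Nat → Nat → Nat → Nat → Nat → Nat → Nat → Nat → Nat → Nat → Nat → Nat → Nat →
    Nat → Nat → Nat → Nat → Nat → Nat → Nat → Nat → Nat → Nat → Nat → Nat → Nat → Nat → Nat → Nat →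
    Nat → Nat → Nat → Nat → Nat → Nat → Nat → Nat → Nat → Nat → Nat → Nat → Nat → Nat → Nat → Nat →
    Nat → Nat → Nat → Nat → Nat → Nat → Nat → Nat → Nat → Nat → Nat → Nat → Nat → Nat → Nat → Nat →
    Nat → Nat → Nat → Nat → Nat → Nat → Nat → Nat → Nat → Nat → Nat → Nat → Nat → Nat → Nat → Nat →
    Nat → Nat → Nat → Nat → Nat → Nat → Nat → Nat → Nat → Nat → Nat → Nat → Nat → Nat → Nat → Nat →
    Nat → Nat → Nat → Nat → Nat → Nat → Nat → Nat → Nat → Nat → Nat → Nat → Nat → Nat → Nat → Nat →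
    Nat → Nat → Nat → Nat → Nat → Nat → Nat → Nat → Nat → Nat → Nat → Nat → Nat → Nat → Nat → Nat →
    Nat → Nat → Nat → Nat → Nat → Nat → Nat → Nat → Nat → Nat → Nat → Nat → Nat → Nat → Nat → Nat →
    Nat → Nat → Nat → Nat → Nat → Nat → Nat → Nat → Nat → Nat → Nat → Nat → Nat → Nat → Nat → Nat →
    Nat → Nat → Nat → Nat → Nat → Nat → Nat → Nat → Nat → Nat → Nat → Nat → Nat → Nat → Nat → Nat →
    Nat → Nat → Nat → Nat → Nat → Nat → Nat → Nat → Nat → Nat → Nat → Nat → Nat → Nat → Nat → Nat →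
    Nat → Nat → Nat → Nat → Nat → Nat → Nat → Nat → Nat → Nat → Nat → Nat → Nat → Nat → Nat → Nat →
    Nat → Nat → Nat → Nat → Nat → Nat → Nat → Nat → Nat → Nat → Nat → Nat → Nat → Nat → Nat → Nat →
    Nat → Nat → Nat → Nat → Nat → Nat → Nat → Nat → Nat → Nat → Nat → Nat → Nat → Nat → Nat → Nat →
    Nat → Nat → Nat → Nat → Nat → Nat → Nat → Nat → Nat → Nat → Nat → Nat → Nat → Nat → Nat → Nat →
    Nat → Nat → Nat → Nat → Nat → Nat → Nat → Nat → Nat → Nat → Nat → Nat → Nat → Nat → Nat → Nat →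
    Nat → Nat → Nat → Nat → Nat → Nat → Nat → Nat → Nat → Nat → Nat → Nat → Nat → Nat → Nat → Nat →
    Nat → Nat → Nat → Nat → Nat → Nat → Nat → Nat → Nat → Nat → Nat → Nat → Nat → Nat → Nat → Nat →
    Nat → Nat → Nat → Nat → Nat → Nat → Nat → Nat → Nat → Nat → Nat → Nat → Nat → Nat → Nat → Nat →
    Nat → Nat → Nat → Nat → Nat → Nat → Nat → Nat → Nat → Nat → Nat → Nat → Nat → Nat → Nat → Nat →
    Nat → Nat → Nat → Nat → Nat → Nat → Nat → Nat → Nat → Nat → Nat → Nat → Nat → Nat → Nat → Nat →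
    Nat → Nat → Nat → Nat → Nat → Nat → Nat → Nat → Nat → Nat → Nat → Nat → Nat → Nat → Nat → Nat →
    Nat → Nat → Nat → Nat → Nat → Nat → Nat → Nat → Nat → Nat → Nat → Nat → Nat → Nat → Nat → Nat →
    Nat → Nat → Nat → Nat → Nat → Nat → Nat → Nat → Nat → Nat → Nat → Nat → Nat → Nat → Nat → Nat →
    Nat → Nat → Nat → Nat → Nat → Nat → Nat → Nat → Nat → Nat → Nat → Nat → Nat → Nat → Nat → Nat →
    Nat → Nat → Nat → Nat → Nat → Nat → Nat → Nat → Nat → Nat → Nat → Nat → Nat → Nat → Nat → Nat →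
    Nat → Nat → Nat → Nat → Nat → Nat → Nat → Nat → Nat → Nat → Nat → Nat → Nat → Nat → Nat → Nat →
    Nat → Nat → Nat → Nat → Nat → Nat → Nat → Nat → Nat → Nat → Nat → Nat → Nat → Nat → Nat → Nat →
    Nat → Nat → Nat → Nat → Nat → Nat → Nat → Nat → Nat → Nat → Nat → Nat → Nat → Nat → Nat → Nat →
    Nat → Nat → Nat → Nat → Nat → Nat → Nat → Nat → Nat → Nat → Nat → Nat → Nat → Nat → Nat → Nat →
    Nat → Nat → Nat → Nat → Nat → Nat → Nat → Nat → Nat → Nat → Nat → Nat → Nat → Nat → Nat → Nat →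
    Nat → Nat → Nat → Nat → Nat → Nat → Nat → Nat → Nat → Nat → Nat → Nat → Nat → Nat → Nat → Nat →
    Nat → Nat → Nat → Nat → Nat → Nat → Nat → Nat → Nat → Nat → Nat → Nat → Nat → Nat → Nat → Nat →
    Nat → Nat → Nat → Nat → Nat → Nat → Nat → Nat → Nat → Nat → Nat → Nat → Nat → Nat → Nat → Nat →
    Nat → Nat → Nat → Nat → Nat → Nat → Nat → Nat → Nat → Nat → Nat → Nat → Nat → Nat → Nat → Nat →
    Nat → Nat → Nat → Nat → Nat → Nat → Nat → Nat → Nat → Nat → Nat → Nat → Nat → Nat → Nat → Nat →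
    Nat → Nat → Nat → Nat → Nat → Nat → Nat → Nat → Nat → Nat → Nat → Nat → Nat → Nat → Nat → Nat →
    Nat → Nat → Nat → Nat → Nat → Nat → Nat → Nat → Nat → Nat → Nat → Nat → Nat → Nat → Nat → Nat →
    Nat → Nat → Nat → Nat → Nat → Nat → Nat → Nat → Nat → Nat → Nat → Nat → Nat → Nat → Nat → Nat →
    Nat → Nat → Nat → Nat → Nat → Nat → Nat → Nat → Nat → Nat → Nat → Nat → Nat → Nat → Nat → Nat →
    Nat → Nat → Nat → Nat → Nat → Nat → Nat → Nat → Nat → Nat → Nat → Nat → Nat → Nat → Nat → Nat →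
    Nat → Nat → Nat → Nat → Nat → Nat → Nat → Nat → Nat → Nat → Nat → Nat → Nat → Nat → Nat → Nat →
    Nat → Nat → Nat → Nat → Nat → Nat → Nat → Nat → Nat → Nat → Nat → Nat → Nat → Nat → Nat → Nat →
    Nat → Nat → Nat → Nat → Nat → Nat → Nat → Nat → Nat → Nat → Nat → Nat → Nat → Nat → Nat → Nat →
    Nat → Nat → Nat → Nat → Nat → Nat → Nat → Nat → Nat → Nat → Nat → Nat → Nat → Nat → Nat → Nat →
    Nat → Nat → Nat → Nat → Nat → Nat → Nat → Nat → Nat → Nat → Nat → Nat → Nat → Nat → Nat → Nat →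
    Nat → Nat → Nat → Nat → Nat → Nat → Nat → Nat → Nat → Nat → Nat → Nat → Nat → Nat → Nat → Nat →
    Nat → Nat → Nat → Nat → Nat → Nat → Nat → Nat → Nat → Nat → Nat → Nat → Nat → Nat → Nat → Nat →
    Nat → Nat → Nat → Nat → Nat → Nat → Nat → Nat → Nat → Nat → Nat → Nat → Nat → Nat → Nat → Nat →
    Nat → Nat → Nat → Nat → Nat → Nat → Nat → Nat → Nat → Nat → Nat → Nat → Nat → Nat → Nat → Nat →
    Nat → Nat → Nat → Nat → Nat → Nat → Nat → Nat → Nat → Nat → Nat → Nat → Nat → Nat → Nat → Nat →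
    Nat → Nat → Nat → Nat → Nat → Nat → Nat → Nat → Nat → Nat → Nat → Nat → Nat → Nat → Nat → Nat →
    Nat → Nat → Nat → Nat → Nat → Nat → Nat → Nat → Nat → Nat → Nat → Nat → Nat → Nat → Nat → Nat →
    Nat → Nat → Nat → Nat → Nat → Nat → Nat → Nat → Nat → Nat → Nat → Nat → Nat → Nat → Nat → Nat →
    Nat → Nat → Nat → Nat → Nat → Nat → Nat → Nat → Nat → Nat → Nat → Nat → Nat → Nat → Nat → Nat →
    Nat → Nat → Nat → Nat → Nat → Nat → Nat → Nat → Nat → Bool

noncomputable def cd0 : List Spec :=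
  [Spec.mk (nat_lit 242) (nat_lit 0) [] (nat_lit 0) [] false,
   Spec.mk (nat_lit 404) (nat_lit 0) [] (nat_lit 0) [] false,
   Spec.mk (nat_lit 458) (nat_lit 0) [] (nat_lit 0) [] false,
   Spec.mk (nat_lit 476) (nat_lit 0) [] (nat_lit 0) [] false,
   Spec.mk (nat_lit 482) (nat_lit 0) [] (nat_lit 0) [] false,
   Spec.mk (nat_lit 484) (nat_lit 0) [] (nat_lit 0) [] false,
   Spec.mk (nat_lit 566) (nat_lit 0) [] (nat_lit 0) [] false,
   Spec.mk (nat_lit 620) (nat_lit 0) [] (nat_lit 0) [] false,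
   Spec.mk (nat_lit 638) (nat_lit 0) [] (nat_lit 0) [] false,
   Spec.mk (nat_lit 644) (nat_lit 0) [] (nat_lit 0) [] false,
   Spec.mk (nat_lit 646) (nat_lit 0) [] (nat_lit 0) [] false,
   Spec.mk (nat_lit 674) (nat_lit 0) [] (nat_lit 0) [] false,
   Spec.mk (nat_lit 692) (nat_lit 0) [] (nat_lit 0) [] false,
   Spec.mk (nat_lit 698) (nat_lit 0) [] (nat_lit 0) [] false,
   Spec.mk (nat_lit 700) (nat_lit 0) [] (nat_lit 0) [] false,
   Spec.mk (nat_lit 710) (nat_lit 0) [] (nat_lit 0) [] false,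
   Spec.mk (nat_lit 716) (nat_lit 0) [] (nat_lit 0) [] false,
   Spec.mk (nat_lit 718) (nat_lit 0) [] (nat_lit 0) [] false,
   Spec.mk (nat_lit 722) (nat_lit 0) [] (nat_lit 0) [] false,
   Spec.mk (nat_lit 724) (nat_lit 0) [] (nat_lit 0) [] false,
   Spec.mk (nat_lit 726) (nat_lit 0) [] (nat_lit 0) [] false,
   Spec.mk (nat_lit 890) (nat_lit 0) [] (nat_lit 0) [] false,
   Spec.mk (nat_lit 944) (nat_lit 0) [] (nat_lit 0) [] false,
   Spec.mk (nat_lit 962) (nat_lit 0) [] (nat_lit 0) [] false,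
   Spec.mk (nat_lit 968) (nat_lit 0) [] (nat_lit 0) [] false,
   Spec.mk (nat_lit 970) (nat_lit 0) [] (nat_lit 0) [] false,
   Spec.mk (nat_lit 1052) (nat_lit 0) [] (nat_lit 0) [] false,
   Spec.mk (nat_lit 1106) (nat_lit 0) [] (nat_lit 0) [] false,
   Spec.mk (nat_lit 1124) (nat_lit 0) [] (nat_lit 0) [] false,
   Spec.mk (nat_lit 1130) (nat_lit 0) [] (nat_lit 0) [] false,
   Spec.mk (nat_lit 1132) (nat_lit 0) [] (nat_lit 0) [] false,
   Spec.mk (nat_lit 1160) (nat_lit 0) [] (nat_lit 0) [] false,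
   Spec.mk (nat_lit 1178) (nat_lit 0) [] (nat_lit 0) [] false,
   Spec.mk (nat_lit 1184) (nat_lit 0) [] (nat_lit 0) [] false,
   Spec.mk (nat_lit 1186) (nat_lit 0) [] (nat_lit 0) [] false,
   Spec.mk (nat_lit 1196) (nat_lit 0) [] (nat_lit 0) [] false,
   Spec.mk (nat_lit 1202) (nat_lit 0) [] (nat_lit 0) [] false,
   Spec.mk (nat_lit 1204) (nat_lit 0) [] (nat_lit 0) [] false,
   Spec.mk (nat_lit 1208) (nat_lit 0) [] (nat_lit 0) [] false,
   Spec.mk (nat_lit 1210) (nat_lit 0) [] (nat_lit 0) [] false,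
   Spec.mk (nat_lit 1212) (nat_lit 0) [] (nat_lit 0) [] false,
   Spec.mk (nat_lit 1268) (nat_lit 0) [] (nat_lit 0) [] false,
   Spec.mk (nat_lit 1286) (nat_lit 0) [] (nat_lit 0) [] false,
   Spec.mk (nat_lit 1292) (nat_lit 0) [] (nat_lit 0) [] false,
   Spec.mk (nat_lit 1294) (nat_lit 0) [] (nat_lit 0) [] false,
   Spec.mk (nat_lit 1322) (nat_lit 0) [] (nat_lit 0) [] false,
   Spec.mk (nat_lit 1340) (nat_lit 0) [] (nat_lit 0) [] false,
   Spec.mk (nat_lit 1346) (nat_lit 0) [] (nat_lit 0) [] false,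
   Spec.mk (nat_lit 1348) (nat_lit 0) [] (nat_lit 0) [] false,
   Spec.mk (nat_lit 1358) (nat_lit 0) [] (nat_lit 0) [] false,
   Spec.mk (nat_lit 1364) (nat_lit 0) [] (nat_lit 0) [] false,
   Spec.mk (nat_lit 1366) (nat_lit 0) [] (nat_lit 0) [] false,
   Spec.mk (nat_lit 1370) (nat_lit 0) [] (nat_lit 0) [] false,
   Spec.mk (nat_lit 1372) (nat_lit 0) [] (nat_lit 0) [] false,
   Spec.mk (nat_lit 1374) (nat_lit 0) [] (nat_lit 0) [] false,
   Spec.mk (nat_lit 1394) (nat_lit 0) [] (nat_lit 0) [] false,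
   Spec.mk (nat_lit 1400) (nat_lit 0) [] (nat_lit 0) [] false,
   Spec.mk (nat_lit 1402) (nat_lit 0) [] (nat_lit 0) [] false,
   Spec.mk (nat_lit 1412) (nat_lit 0) [] (nat_lit 0) [] false,
   Spec.mk (nat_lit 1418) (nat_lit 0) [] (nat_lit 0) [] false]

noncomputable def cd1 : List Spec :=
  [Spec.mk (nat_lit 1420) (nat_lit 0) [] (nat_lit 0) [] false,
   Spec.mk (nat_lit 1424) (nat_lit 0) [] (nat_lit 0) [] false,
   Spec.mk (nat_lit 1426) (nat_lit 0) [] (nat_lit 0) [] false,
   Spec.mk (nat_lit 1428) (nat_lit 0) [] (nat_lit 0) [] false,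
   Spec.mk (nat_lit 1436) (nat_lit 0) [] (nat_lit 0) [] false,
   Spec.mk (nat_lit 1438) (nat_lit 0) [] (nat_lit 0) [] false,
   Spec.mk (nat_lit 1442) (nat_lit 0) [] (nat_lit 0) [] false,
   Spec.mk (nat_lit 1444) (nat_lit 0) [] (nat_lit 0) [] false,
   Spec.mk (nat_lit 1446) (nat_lit 0) [] (nat_lit 0) [] false,
   Spec.mk (nat_lit 1450) (nat_lit 0) [] (nat_lit 0) [] false,
   Spec.mk (nat_lit 1452) (nat_lit 0) [] (nat_lit 0) [] false,
   Spec.mk (nat_lit 1538) (nat_lit 0) [] (nat_lit 0) [] false,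
   Spec.mk (nat_lit 1592) (nat_lit 0) [] (nat_lit 0) [] false,
   Spec.mk (nat_lit 1610) (nat_lit 0) [] (nat_lit 0) [] false,
   Spec.mk (nat_lit 1616) (nat_lit 0) [] (nat_lit 0) [] false,
   Spec.mk (nat_lit 1618) (nat_lit 0) [] (nat_lit 0) [] false,
   Spec.mk (nat_lit 1646) (nat_lit 0) [] (nat_lit 0) [] false,
   Spec.mk (nat_lit 1664) (nat_lit 0) [] (nat_lit 0) [] false,
   Spec.mk (nat_lit 1670) (nat_lit 0) [] (nat_lit 0) [] false,
   Spec.mk (nat_lit 1672) (nat_lit 0) [] (nat_lit 0) [] false,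
   Spec.mk (nat_lit 1682) (nat_lit 0) [] (nat_lit 0) [] false,
   Spec.mk (nat_lit 1688) (nat_lit 0) [] (nat_lit 0) [] false,
   Spec.mk (nat_lit 1690) (nat_lit 0) [] (nat_lit 0) [] false,
   Spec.mk (nat_lit 1694) (nat_lit 0) [] (nat_lit 0) [] false,
   Spec.mk (nat_lit 1696) (nat_lit 0) [] (nat_lit 0) [] false,
   Spec.mk (nat_lit 1698) (nat_lit 0) [] (nat_lit 0) [] false,
   Spec.mk (nat_lit 1754) (nat_lit 0) [] (nat_lit 0) [] false,
   Spec.mk (nat_lit 1772) (nat_lit 0) [] (nat_lit 0) [] false,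
   Spec.mk (nat_lit 1778) (nat_lit 0) [] (nat_lit 0) [] false,
   Spec.mk (nat_lit 1780) (nat_lit 0) [] (nat_lit 0) [] false,
   Spec.mk (nat_lit 1808) (nat_lit 0) [] (nat_lit 0) [] false,
   Spec.mk (nat_lit 1826) (nat_lit 0) [] (nat_lit 0) [] false,
   Spec.mk (nat_lit 1832) (nat_lit 0) [] (nat_lit 0) [] false,
   Spec.mk (nat_lit 1834) (nat_lit 0) [] (nat_lit 0) [] false,
   Spec.mk (nat_lit 1844) (nat_lit 0) [] (nat_lit 0) [] false,
   Spec.mk (nat_lit 1850) (nat_lit 0) [] (nat_lit 0) [] false,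
   Spec.mk (nat_lit 1852) (nat_lit 0) [] (nat_lit 0) [] false,
   Spec.mk (nat_lit 1856) (nat_lit 0) [] (nat_lit 0) [] false,
   Spec.mk (nat_lit 1858) (nat_lit 0) [] (nat_lit 0) [] false,
   Spec.mk (nat_lit 1860) (nat_lit 0) [] (nat_lit 0) [] false,
   Spec.mk (nat_lit 1880) (nat_lit 0) [] (nat_lit 0) [] false,
   Spec.mk (nat_lit 1886) (nat_lit 0) [] (nat_lit 0) [] false,
   Spec.mk (nat_lit 1888) (nat_lit 0) [] (nat_lit 0) [] false,
   Spec.mk (nat_lit 1898) (nat_lit 0) [] (nat_lit 0) [] false,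
   Spec.mk (nat_lit 1904) (nat_lit 0) [] (nat_lit 0) [] false,
   Spec.mk (nat_lit 1906) (nat_lit 0) [] (nat_lit 0) [] false,
   Spec.mk (nat_lit 1910) (nat_lit 0) [] (nat_lit 0) [] false,
   Spec.mk (nat_lit 1912) (nat_lit 0) [] (nat_lit 0) [] false,
   Spec.mk (nat_lit 1914) (nat_lit 0) [] (nat_lit 0) [] false,
   Spec.mk (nat_lit 1922) (nat_lit 0) [] (nat_lit 0) [] false,
   Spec.mk (nat_lit 1924) (nat_lit 0) [] (nat_lit 0) [] false,
   Spec.mk (nat_lit 1928) (nat_lit 0) [] (nat_lit 0) [] false,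
   Spec.mk (nat_lit 1930) (nat_lit 0) [] (nat_lit 0) [] false,
   Spec.mk (nat_lit 1932) (nat_lit 0) [] (nat_lit 0) [] false,
   Spec.mk (nat_lit 1936) (nat_lit 0) [] (nat_lit 0) [] false,
   Spec.mk (nat_lit 1938) (nat_lit 0) [] (nat_lit 0) [] false,
   Spec.mk (nat_lit 1970) (nat_lit 0) [] (nat_lit 0) [] false,
   Spec.mk (nat_lit 1988) (nat_lit 0) [] (nat_lit 0) [] false,
   Spec.mk (nat_lit 1994) (nat_lit 0) [] (nat_lit 0) [] false,
   Spec.mk (nat_lit 1996) (nat_lit 0) [] (nat_lit 0) [] false]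

noncomputable def cd2 : List Spec :=
  [Spec.mk (nat_lit 2006) (nat_lit 0) [] (nat_lit 0) [] false,
   Spec.mk (nat_lit 2012) (nat_lit 0) [] (nat_lit 0) [] false,
   Spec.mk (nat_lit 2014) (nat_lit 0) [] (nat_lit 0) [] false,
   Spec.mk (nat_lit 2018) (nat_lit 0) [] (nat_lit 0) [] false,
   Spec.mk (nat_lit 2020) (nat_lit 0) [] (nat_lit 0) [] false,
   Spec.mk (nat_lit 2022) (nat_lit 0) [] (nat_lit 0) [] false,
   Spec.mk (nat_lit 2042) (nat_lit 0) [] (nat_lit 0) [] false,
   Spec.mk (nat_lit 2048) (nat_lit 0) [] (nat_lit 0) [] false,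
   Spec.mk (nat_lit 2050) (nat_lit 0) [] (nat_lit 0) [] false,
   Spec.mk (nat_lit 2060) (nat_lit 0) [] (nat_lit 0) [] false,
   Spec.mk (nat_lit 2066) (nat_lit 0) [] (nat_lit 0) [] false,
   Spec.mk (nat_lit 2068) (nat_lit 0) [] (nat_lit 0) [] false,
   Spec.mk (nat_lit 2072) (nat_lit 0) [] (nat_lit 0) [] false,
   Spec.mk (nat_lit 2074) (nat_lit 0) [] (nat_lit 0) [] false,
   Spec.mk (nat_lit 2076) (nat_lit 0) [] (nat_lit 0) [] false,
   Spec.mk (nat_lit 2084) (nat_lit 0) [] (nat_lit 0) [] false,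
   Spec.mk (nat_lit 2086) (nat_lit 0) [] (nat_lit 0) [] false,
   Spec.mk (nat_lit 2090) (nat_lit 0) [] (nat_lit 0) [] false,
   Spec.mk (nat_lit 2092) (nat_lit 0) [] (nat_lit 0) [] false,
   Spec.mk (nat_lit 2094) (nat_lit 0) [] (nat_lit 0) [] false,
   Spec.mk (nat_lit 2098) (nat_lit 0) [] (nat_lit 0) [] false,
   Spec.mk (nat_lit 2100) (nat_lit 0) [] (nat_lit 0) [] false,
   Spec.mk (nat_lit 2114) (nat_lit 0) [] (nat_lit 0) [] false,
   Spec.mk (nat_lit 2120) (nat_lit 0) [] (nat_lit 0) [] false,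
   Spec.mk (nat_lit 2122) (nat_lit 0) [] (nat_lit 0) [] false,
   Spec.mk (nat_lit 2126) (nat_lit 0) [] (nat_lit 0) [] false,
   Spec.mk (nat_lit 2128) (nat_lit 0) [] (nat_lit 0) [] false,
   Spec.mk (nat_lit 2130) (nat_lit 0) [] (nat_lit 0) [] false,
   Spec.mk (nat_lit 2138) (nat_lit 0) [] (nat_lit 0) [] false,
   Spec.mk (nat_lit 2140) (nat_lit 0) [] (nat_lit 0) [] false,
   Spec.mk (nat_lit 2144) (nat_lit 0) [] (nat_lit 0) [] false,
   Spec.mk (nat_lit 2146) (nat_lit 0) [] (nat_lit 0) [] false,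
   Spec.mk (nat_lit 2148) (nat_lit 0) [] (nat_lit 0) [] false,
   Spec.mk (nat_lit 2152) (nat_lit 0) [] (nat_lit 0) [] false,
   Spec.mk (nat_lit 2154) (nat_lit 0) [] (nat_lit 0) [] false,
   Spec.mk (nat_lit 2162) (nat_lit 0) [] (nat_lit 0) [] false,
   Spec.mk (nat_lit 2164) (nat_lit 0) [] (nat_lit 0) [] false,
   Spec.mk (nat_lit 2166) (nat_lit 0) [] (nat_lit 0) [] false,
   Spec.mk (nat_lit 2170) (nat_lit 0) [] (nat_lit 0) [] false,
   Spec.mk (nat_lit 2172) (nat_lit 0) [] (nat_lit 0) [] false,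
   Spec.mk (nat_lit 2178) (nat_lit 0) [] (nat_lit 0) [] false,
   Spec.mk (nat_lit 2348) (nat_lit 0) [] (nat_lit 0) [] false,
   Spec.mk (nat_lit 2402) (nat_lit 0) [] (nat_lit 0) [] false,
   Spec.mk (nat_lit 2420) (nat_lit 0) [] (nat_lit 0) [] false,
   Spec.mk (nat_lit 2426) (nat_lit 0) [] (nat_lit 0) [] false,
   Spec.mk (nat_lit 2428) (nat_lit 0) [] (nat_lit 0) [] false,
   Spec.mk (nat_lit 2510) (nat_lit 0) [] (nat_lit 0) [] false,
   Spec.mk (nat_lit 2564) (nat_lit 0) [] (nat_lit 0) [] false,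
   Spec.mk (nat_lit 2582) (nat_lit 0) [] (nat_lit 0) [] false,
   Spec.mk (nat_lit 2588) (nat_lit 0) [] (nat_lit 0) [] false,
   Spec.mk (nat_lit 2590) (nat_lit 0) [] (nat_lit 0) [] false,
   Spec.mk (nat_lit 2618) (nat_lit 0) [] (nat_lit 0) [] false,
   Spec.mk (nat_lit 2636) (nat_lit 0) [] (nat_lit 0) [] false,
   Spec.mk (nat_lit 2642) (nat_lit 0) [] (nat_lit 0) [] false,
   Spec.mk (nat_lit 2644) (nat_lit 0) [] (nat_lit 0) [] false,
   Spec.mk (nat_lit 2654) (nat_lit 0) [] (nat_lit 0) [] false,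
   Spec.mk (nat_lit 2660) (nat_lit 0) [] (nat_lit 0) [] false,
   Spec.mk (nat_lit 2662) (nat_lit 0) [] (nat_lit 0) [] false,
   Spec.mk (nat_lit 2666) (nat_lit 0) [] (nat_lit 0) [] false,
   Spec.mk (nat_lit 2668) (nat_lit 0) [] (nat_lit 0) [] false]

noncomputable def cd3 : List Spec :=
  [Spec.mk (nat_lit 2670) (nat_lit 0) [] (nat_lit 0) [] false,
   Spec.mk (nat_lit 2726) (nat_lit 0) [] (nat_lit 0) [] false,
   Spec.mk (nat_lit 2744) (nat_lit 0) [] (nat_lit 0) [] false,
   Spec.mk (nat_lit 2750) (nat_lit 0) [] (nat_lit 0) [] false,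
   Spec.mk (nat_lit 2752) (nat_lit 0) [] (nat_lit 0) [] false,
   Spec.mk (nat_lit 2780) (nat_lit 0) [] (nat_lit 0) [] false,
   Spec.mk (nat_lit 2798) (nat_lit 0) [] (nat_lit 0) [] false,
   Spec.mk (nat_lit 2804) (nat_lit 0) [] (nat_lit 0) [] false,
   Spec.mk (nat_lit 2806) (nat_lit 0) [] (nat_lit 0) [] false,
   Spec.mk (nat_lit 2816) (nat_lit 0) [] (nat_lit 0) [] false,
   Spec.mk (nat_lit 2822) (nat_lit 0) [] (nat_lit 0) [] false,
   Spec.mk (nat_lit 2824) (nat_lit 0) [] (nat_lit 0) [] false,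
   Spec.mk (nat_lit 2828) (nat_lit 0) [] (nat_lit 0) [] false,
   Spec.mk (nat_lit 2830) (nat_lit 0) [] (nat_lit 0) [] false,
   Spec.mk (nat_lit 2832) (nat_lit 0) [] (nat_lit 0) [] false,
   Spec.mk (nat_lit 2852) (nat_lit 0) [] (nat_lit 0) [] false,
   Spec.mk (nat_lit 2858) (nat_lit 0) [] (nat_lit 0) [] false,
   Spec.mk (nat_lit 2860) (nat_lit 0) [] (nat_lit 0) [] false,
   Spec.mk (nat_lit 2870) (nat_lit 0) [] (nat_lit 0) [] false,
   Spec.mk (nat_lit 2876) (nat_lit 0) [] (nat_lit 0) [] false,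
   Spec.mk (nat_lit 2878) (nat_lit 0) [] (nat_lit 0) [] false,
   Spec.mk (nat_lit 2882) (nat_lit 0) [] (nat_lit 0) [] false,
   Spec.mk (nat_lit 2884) (nat_lit 0) [] (nat_lit 0) [] false,
   Spec.mk (nat_lit 2886) (nat_lit 0) [] (nat_lit 0) [] false,
   Spec.mk (nat_lit 2894) (nat_lit 0) [] (nat_lit 0) [] false,
   Spec.mk (nat_lit 2896) (nat_lit 0) [] (nat_lit 0) [] false,
   Spec.mk (nat_lit 2900) (nat_lit 0) [] (nat_lit 0) [] false,
   Spec.mk (nat_lit 2902) (nat_lit 0) [] (nat_lit 0) [] false,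
   Spec.mk (nat_lit 2904) (nat_lit 0) [] (nat_lit 0) [] false,
   Spec.mk (nat_lit 2908) (nat_lit 0) [] (nat_lit 0) [] false,
   Spec.mk (nat_lit 2910) (nat_lit 0) [] (nat_lit 0) [] false,
   Spec.mk (nat_lit 2996) (nat_lit 0) [] (nat_lit 0) [] false,
   Spec.mk (nat_lit 3050) (nat_lit 0) [] (nat_lit 0) [] false,
   Spec.mk (nat_lit 3068) (nat_lit 0) [] (nat_lit 0) [] false,
   Spec.mk (nat_lit 3074) (nat_lit 0) [] (nat_lit 0) [] false,
   Spec.mk (nat_lit 3076) (nat_lit 0) [] (nat_lit 0) [] false,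
   Spec.mk (nat_lit 3104) (nat_lit 0) [] (nat_lit 0) [] false,
   Spec.mk (nat_lit 3122) (nat_lit 0) [] (nat_lit 0) [] false,
   Spec.mk (nat_lit 3128) (nat_lit 0) [] (nat_lit 0) [] false,
   Spec.mk (nat_lit 3130) (nat_lit 0) [] (nat_lit 0) [] false,
   Spec.mk (nat_lit 3140) (nat_lit 0) [] (nat_lit 0) [] false,
   Spec.mk (nat_lit 3146) (nat_lit 0) [] (nat_lit 0) [] false,
   Spec.mk (nat_lit 3148) (nat_lit 0) [] (nat_lit 0) [] false,
   Spec.mk (nat_lit 3152) (nat_lit 0) [] (nat_lit 0) [] false,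
   Spec.mk (nat_lit 3154) (nat_lit 0) [] (nat_lit 0) [] false,
   Spec.mk (nat_lit 3156) (nat_lit 0) [] (nat_lit 0) [] false,
   Spec.mk (nat_lit 3212) (nat_lit 0) [] (nat_lit 0) [] false,
   Spec.mk (nat_lit 3230) (nat_lit 0) [] (nat_lit 0) [] false,
   Spec.mk (nat_lit 3236) (nat_lit 0) [] (nat_lit 0) [] false,
   Spec.mk (nat_lit 3238) (nat_lit 0) [] (nat_lit 0) [] false,
   Spec.mk (nat_lit 3266) (nat_lit 0) [] (nat_lit 0) [] false,
   Spec.mk (nat_lit 3284) (nat_lit 0) [] (nat_lit 0) [] false,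
   Spec.mk (nat_lit 3290) (nat_lit 0) [] (nat_lit 0) [] false,
   Spec.mk (nat_lit 3292) (nat_lit 0) [] (nat_lit 0) [] false,
   Spec.mk (nat_lit 3302) (nat_lit 0) [] (nat_lit 0) [] false,
   Spec.mk (nat_lit 3308) (nat_lit 0) [] (nat_lit 0) [] false,
   Spec.mk (nat_lit 3310) (nat_lit 0) [] (nat_lit 0) [] false,
   Spec.mk (nat_lit 3314) (nat_lit 0) [] (nat_lit 0) [] false,
   Spec.mk (nat_lit 3316) (nat_lit 0) [] (nat_lit 0) [] false,
   Spec.mk (nat_lit 3318) (nat_lit 0) [] (nat_lit 0) [] false]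

noncomputable def cd4 : List Spec :=
  [Spec.mk (nat_lit 3338) (nat_lit 0) [] (nat_lit 0) [] false,
   Spec.mk (nat_lit 3344) (nat_lit 0) [] (nat_lit 0) [] false,
   Spec.mk (nat_lit 3346) (nat_lit 0) [] (nat_lit 0) [] false,
   Spec.mk (nat_lit 3356) (nat_lit 0) [] (nat_lit 0) [] false,
   Spec.mk (nat_lit 3362) (nat_lit 0) [] (nat_lit 0) [] false,
   Spec.mk (nat_lit 3364) (nat_lit 0) [] (nat_lit 0) [] false,
   Spec.mk (nat_lit 3368) (nat_lit 0) [] (nat_lit 0) [] false,
   Spec.mk (nat_lit 3370) (nat_lit 0) [] (nat_lit 0) [] false,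
   Spec.mk (nat_lit 3372) (nat_lit 0) [] (nat_lit 0) [] false,
   Spec.mk (nat_lit 3380) (nat_lit 0) [] (nat_lit 0) [] false,
   Spec.mk (nat_lit 3382) (nat_lit 0) [] (nat_lit 0) [] false,
   Spec.mk (nat_lit 3386) (nat_lit 0) [] (nat_lit 0) [] false,
   Spec.mk (nat_lit 3388) (nat_lit 0) [] (nat_lit 0) [] false,
   Spec.mk (nat_lit 3390) (nat_lit 0) [] (nat_lit 0) [] false,
   Spec.mk (nat_lit 3394) (nat_lit 0) [] (nat_lit 0) [] false,
   Spec.mk (nat_lit 3396) (nat_lit 0) [] (nat_lit 0) [] false,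
   Spec.mk (nat_lit 3428) (nat_lit 0) [] (nat_lit 0) [] false,
   Spec.mk (nat_lit 3446) (nat_lit 0) [] (nat_lit 0) [] false,
   Spec.mk (nat_lit 3452) (nat_lit 0) [] (nat_lit 0) [] false,
   Spec.mk (nat_lit 3454) (nat_lit 0) [] (nat_lit 0) [] false,
   Spec.mk (nat_lit 3464) (nat_lit 0) [] (nat_lit 0) [] false,
   Spec.mk (nat_lit 3470) (nat_lit 0) [] (nat_lit 0) [] false,
   Spec.mk (nat_lit 3472) (nat_lit 0) [] (nat_lit 0) [] false,
   Spec.mk (nat_lit 3476) (nat_lit 0) [] (nat_lit 0) [] false,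
   Spec.mk (nat_lit 3478) (nat_lit 0) [] (nat_lit 0) [] false,
   Spec.mk (nat_lit 3480) (nat_lit 0) [] (nat_lit 0) [] false,
   Spec.mk (nat_lit 3500) (nat_lit 0) [] (nat_lit 0) [] false,
   Spec.mk (nat_lit 3506) (nat_lit 0) [] (nat_lit 0) [] false,
   Spec.mk (nat_lit 3508) (nat_lit 0) [] (nat_lit 0) [] false,
   Spec.mk (nat_lit 3518) (nat_lit 0) [] (nat_lit 0) [] false,
   Spec.mk (nat_lit 3524) (nat_lit 0) [] (nat_lit 0) [] false,
   Spec.mk (nat_lit 3526) (nat_lit 0) [] (nat_lit 0) [] false,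
   Spec.mk (nat_lit 3530) (nat_lit 0) [] (nat_lit 0) [] false,
   Spec.mk (nat_lit 3532) (nat_lit 0) [] (nat_lit 0) [] false,
   Spec.mk (nat_lit 3534) (nat_lit 0) [] (nat_lit 0) [] false,
   Spec.mk (nat_lit 3542) (nat_lit 0) [] (nat_lit 0) [] false,
   Spec.mk (nat_lit 3544) (nat_lit 0) [] (nat_lit 0) [] false,
   Spec.mk (nat_lit 3548) (nat_lit 0) [] (nat_lit 0) [] false,
   Spec.mk (nat_lit 3550) (nat_lit 0) [] (nat_lit 0) [] false,
   Spec.mk (nat_lit 3552) (nat_lit 0) [] (nat_lit 0) [] false,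
   Spec.mk (nat_lit 3556) (nat_lit 0) [] (nat_lit 0) [] false,
   Spec.mk (nat_lit 3558) (nat_lit 0) [] (nat_lit 0) [] false,
   Spec.mk (nat_lit 3572) (nat_lit 0) [] (nat_lit 0) [] false,
   Spec.mk (nat_lit 3578) (nat_lit 0) [] (nat_lit 0) [] false,
   Spec.mk (nat_lit 3580) (nat_lit 0) [] (nat_lit 0) [] false,
   Spec.mk (nat_lit 3584) (nat_lit 0) [] (nat_lit 0) [] false,
   Spec.mk (nat_lit 3586) (nat_lit 0) [] (nat_lit 0) [] false,
   Spec.mk (nat_lit 3588) (nat_lit 0) [] (nat_lit 0) [] false,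
   Spec.mk (nat_lit 3596) (nat_lit 0) [] (nat_lit 0) [] false,
   Spec.mk (nat_lit 3598) (nat_lit 0) [] (nat_lit 0) [] false,
   Spec.mk (nat_lit 3602) (nat_lit 0) [] (nat_lit 0) [] false,
   Spec.mk (nat_lit 3604) (nat_lit 0) [] (nat_lit 0) [] false,
   Spec.mk (nat_lit 3606) (nat_lit 0) [] (nat_lit 0) [] false,
   Spec.mk (nat_lit 3610) (nat_lit 0) [] (nat_lit 0) [] false,
   Spec.mk (nat_lit 3612) (nat_lit 0) [] (nat_lit 0) [] false,
   Spec.mk (nat_lit 3620) (nat_lit 0) [] (nat_lit 0) [] false,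
   Spec.mk (nat_lit 3622) (nat_lit 0) [] (nat_lit 0) [] false,
   Spec.mk (nat_lit 3624) (nat_lit 0) [] (nat_lit 0) [] false,
   Spec.mk (nat_lit 3628) (nat_lit 0) [] (nat_lit 0) [] false,
   Spec.mk (nat_lit 3630) (nat_lit 0) [] (nat_lit 0) [] false]

noncomputable def cd5 : List Spec :=
  [Spec.mk (nat_lit 3636) (nat_lit 0) [] (nat_lit 0) [] false,
   Spec.mk (nat_lit 3698) (nat_lit 0) [] (nat_lit 0) [] false,
   Spec.mk (nat_lit 3716) (nat_lit 0) [] (nat_lit 0) [] false,
   Spec.mk (nat_lit 3722) (nat_lit 0) [] (nat_lit 0) [] false,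
   Spec.mk (nat_lit 3724) (nat_lit 0) [] (nat_lit 0) [] false,
   Spec.mk (nat_lit 3752) (nat_lit 0) [] (nat_lit 0) [] false,
   Spec.mk (nat_lit 3770) (nat_lit 0) [] (nat_lit 0) [] false,
   Spec.mk (nat_lit 3776) (nat_lit 0) [] (nat_lit 0) [] false,
   Spec.mk (nat_lit 3778) (nat_lit 0) [] (nat_lit 0) [] false,
   Spec.mk (nat_lit 3788) (nat_lit 0) [] (nat_lit 0) [] false,
   Spec.mk (nat_lit 3794) (nat_lit 0) [] (nat_lit 0) [] false,
   Spec.mk (nat_lit 3796) (nat_lit 0) [] (nat_lit 0) [] false,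
   Spec.mk (nat_lit 3800) (nat_lit 0) [] (nat_lit 0) [] false,
   Spec.mk (nat_lit 3802) (nat_lit 0) [] (nat_lit 0) [] false,
   Spec.mk (nat_lit 3804) (nat_lit 0) [] (nat_lit 0) [] false,
   Spec.mk (nat_lit 3824) (nat_lit 0) [] (nat_lit 0) [] false,
   Spec.mk (nat_lit 3830) (nat_lit 0) [] (nat_lit 0) [] false,
   Spec.mk (nat_lit 3832) (nat_lit 0) [] (nat_lit 0) [] false,
   Spec.mk (nat_lit 3842) (nat_lit 0) [] (nat_lit 0) [] false,
   Spec.mk (nat_lit 3848) (nat_lit 0) [] (nat_lit 0) [] false,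
   Spec.mk (nat_lit 3850) (nat_lit 0) [] (nat_lit 0) [] false,
   Spec.mk (nat_lit 3854) (nat_lit 0) [] (nat_lit 0) [] false,
   Spec.mk (nat_lit 3856) (nat_lit 0) [] (nat_lit 0) [] false,
   Spec.mk (nat_lit 3858) (nat_lit 0) [] (nat_lit 0) [] false,
   Spec.mk (nat_lit 3866) (nat_lit 0) [] (nat_lit 0) [] false,
   Spec.mk (nat_lit 3868) (nat_lit 0) [] (nat_lit 0) [] false,
   Spec.mk (nat_lit 3872) (nat_lit 0) [] (nat_lit 0) [] false,
   Spec.mk (nat_lit 3874) (nat_lit 0) [] (nat_lit 0) [] false,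
   Spec.mk (nat_lit 3876) (nat_lit 0) [] (nat_lit 0) [] false,
   Spec.mk (nat_lit 3880) (nat_lit 0) [] (nat_lit 0) [] false,
   Spec.mk (nat_lit 3882) (nat_lit 0) [] (nat_lit 0) [] false,
   Spec.mk (nat_lit 3914) (nat_lit 0) [] (nat_lit 0) [] false,
   Spec.mk (nat_lit 3932) (nat_lit 0) [] (nat_lit 0) [] false,
   Spec.mk (nat_lit 3938) (nat_lit 0) [] (nat_lit 0) [] false,
   Spec.mk (nat_lit 3940) (nat_lit 0) [] (nat_lit 0) [] false,
   Spec.mk (nat_lit 3950) (nat_lit 0) [] (nat_lit 0) [] false,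
   Spec.mk (nat_lit 3956) (nat_lit 0) [] (nat_lit 0) [] false,
   Spec.mk (nat_lit 3958) (nat_lit 0) [] (nat_lit 0) [] false,
   Spec.mk (nat_lit 3962) (nat_lit 0) [] (nat_lit 0) [] false,
   Spec.mk (nat_lit 3964) (nat_lit 0) [] (nat_lit 0) [] false,
   Spec.mk (nat_lit 3966) (nat_lit 0) [] (nat_lit 0) [] false,
   Spec.mk (nat_lit 3986) (nat_lit 0) [] (nat_lit 0) [] false,
   Spec.mk (nat_lit 3992) (nat_lit 0) [] (nat_lit 0) [] false,
   Spec.mk (nat_lit 3994) (nat_lit 0) [] (nat_lit 0) [] false,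
   Spec.mk (nat_lit 4004) (nat_lit 0) [] (nat_lit 0) [] false,
   Spec.mk (nat_lit 4010) (nat_lit 0) [] (nat_lit 0) [] false,
   Spec.mk (nat_lit 4012) (nat_lit 0) [] (nat_lit 0) [] false,
   Spec.mk (nat_lit 4016) (nat_lit 0) [] (nat_lit 0) [] false,
   Spec.mk (nat_lit 4018) (nat_lit 0) [] (nat_lit 0) [] false,
   Spec.mk (nat_lit 4020) (nat_lit 0) [] (nat_lit 0) [] false,
   Spec.mk (nat_lit 4028) (nat_lit 0) [] (nat_lit 0) [] false,
   Spec.mk (nat_lit 4030) (nat_lit 0) [] (nat_lit 0) [] false,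
   Spec.mk (nat_lit 4034) (nat_lit 0) [] (nat_lit 0) [] false,
   Spec.mk (nat_lit 4036) (nat_lit 0) [] (nat_lit 0) [] false,
   Spec.mk (nat_lit 4038) (nat_lit 0) [] (nat_lit 0) [] false,
   Spec.mk (nat_lit 4042) (nat_lit 0) [] (nat_lit 0) [] false,
   Spec.mk (nat_lit 4044) (nat_lit 0) [] (nat_lit 0) [] false,
   Spec.mk (nat_lit 4058) (nat_lit 0) [] (nat_lit 0) [] false,
   Spec.mk (nat_lit 4064) (nat_lit 0) [] (nat_lit 0) [] false,
   Spec.mk (nat_lit 4066) (nat_lit 0) [] (nat_lit 0) [] false]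

noncomputable def cd6 : List Spec :=
  [Spec.mk (nat_lit 4070) (nat_lit 0) [] (nat_lit 0) [] false,
   Spec.mk (nat_lit 4072) (nat_lit 0) [] (nat_lit 0) [] false,
   Spec.mk (nat_lit 4074) (nat_lit 0) [] (nat_lit 0) [] false,
   Spec.mk (nat_lit 4082) (nat_lit 0) [] (nat_lit 0) [] false,
   Spec.mk (nat_lit 4084) (nat_lit 0) [] (nat_lit 0) [] false,
   Spec.mk (nat_lit 4088) (nat_lit 0) [] (nat_lit 0) [] false,
   Spec.mk (nat_lit 4090) (nat_lit 0) [] (nat_lit 0) [] false,
   Spec.mk (nat_lit 4092) (nat_lit 0) [] (nat_lit 0) [] false,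
   Spec.mk (nat_lit 4096) (nat_lit 0) [] (nat_lit 0) [] false,
   Spec.mk (nat_lit 4098) (nat_lit 0) [] (nat_lit 0) [] false,
   Spec.mk (nat_lit 4106) (nat_lit 0) [] (nat_lit 0) [] false,
   Spec.mk (nat_lit 4108) (nat_lit 0) [] (nat_lit 0) [] false,
   Spec.mk (nat_lit 4110) (nat_lit 0) [] (nat_lit 0) [] false,
   Spec.mk (nat_lit 4114) (nat_lit 0) [] (nat_lit 0) [] false,
   Spec.mk (nat_lit 4116) (nat_lit 0) [] (nat_lit 0) [] false,
   Spec.mk (nat_lit 4122) (nat_lit 0) [] (nat_lit 0) [] false,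
   Spec.mk (nat_lit 4148) (nat_lit 0) [] (nat_lit 0) [] false,
   Spec.mk (nat_lit 4154) (nat_lit 0) [] (nat_lit 0) [] false,
   Spec.mk (nat_lit 4156) (nat_lit 0) [] (nat_lit 0) [] false,
   Spec.mk (nat_lit 4166) (nat_lit 0) [] (nat_lit 0) [] false,
   Spec.mk (nat_lit 4172) (nat_lit 0) [] (nat_lit 0) [] false,
   Spec.mk (nat_lit 4174) (nat_lit 0) [] (nat_lit 0) [] false,
   Spec.mk (nat_lit 4178) (nat_lit 0) [] (nat_lit 0) [] false,
   Spec.mk (nat_lit 4180) (nat_lit 0) [] (nat_lit 0) [] false,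
   Spec.mk (nat_lit 4182) (nat_lit 0) [] (nat_lit 0) [] false,
   Spec.mk (nat_lit 4190) (nat_lit 0) [] (nat_lit 0) [] false,
   Spec.mk (nat_lit 4192) (nat_lit 0) [] (nat_lit 0) [] false,
   Spec.mk (nat_lit 4196) (nat_lit 0) [] (nat_lit 0) [] false,
   Spec.mk (nat_lit 4198) (nat_lit 0) [] (nat_lit 0) [] false,
   Spec.mk (nat_lit 4200) (nat_lit 0) [] (nat_lit 0) [] false,
   Spec.mk (nat_lit 4204) (nat_lit 0) [] (nat_lit 0) [] false,
   Spec.mk (nat_lit 4206) (nat_lit 0) [] (nat_lit 0) [] false,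
   Spec.mk (nat_lit 4220) (nat_lit 0) [] (nat_lit 0) [] false,
   Spec.mk (nat_lit 4226) (nat_lit 0) [] (nat_lit 0) [] false,
   Spec.mk (nat_lit 4228) (nat_lit 0) [] (nat_lit 0) [] false,
   Spec.mk (nat_lit 4232) (nat_lit 0) [] (nat_lit 0) [] false,
   Spec.mk (nat_lit 4234) (nat_lit 0) [] (nat_lit 0) [] false,
   Spec.mk (nat_lit 4236) (nat_lit 0) [] (nat_lit 0) [] false,
   Spec.mk (nat_lit 4244) (nat_lit 0) [] (nat_lit 0) [] false,
   Spec.mk (nat_lit 4246) (nat_lit 0) [] (nat_lit 0) [] false,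
   Spec.mk (nat_lit 4250) (nat_lit 0) [] (nat_lit 0) [] false,
   Spec.mk (nat_lit 4252) (nat_lit 0) [] (nat_lit 0) [] false,
   Spec.mk (nat_lit 4254) (nat_lit 0) [] (nat_lit 0) [] false,
   Spec.mk (nat_lit 4258) (nat_lit 0) [] (nat_lit 0) [] false,
   Spec.mk (nat_lit 4260) (nat_lit 0) [] (nat_lit 0) [] false,
   Spec.mk (nat_lit 4268) (nat_lit 0) [] (nat_lit 0) [] false,
   Spec.mk (nat_lit 4270) (nat_lit 0) [] (nat_lit 0) [] false,
   Spec.mk (nat_lit 4272) (nat_lit 0) [] (nat_lit 0) [] false,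
   Spec.mk (nat_lit 4276) (nat_lit 0) [] (nat_lit 0) [] false,
   Spec.mk (nat_lit 4278) (nat_lit 0) [] (nat_lit 0) [] false,
   Spec.mk (nat_lit 4284) (nat_lit 0) [] (nat_lit 0) [] false,
   Spec.mk (nat_lit 4298) (nat_lit 0) [] (nat_lit 0) [] false,
   Spec.mk (nat_lit 4300) (nat_lit 0) [] (nat_lit 0) [] false,
   Spec.mk (nat_lit 4304) (nat_lit 0) [] (nat_lit 0) [] false,
   Spec.mk (nat_lit 4306) (nat_lit 0) [] (nat_lit 0) [] false,
   Spec.mk (nat_lit 4308) (nat_lit 0) [] (nat_lit 0) [] false,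
   Spec.mk (nat_lit 4312) (nat_lit 0) [] (nat_lit 0) [] false,
   Spec.mk (nat_lit 4314) (nat_lit 0) [] (nat_lit 0) [] false,
   Spec.mk (nat_lit 4322) (nat_lit 0) [] (nat_lit 0) [] false,
   Spec.mk (nat_lit 4324) (nat_lit 0) [] (nat_lit 0) [] false]

noncomputable def cd7 : List Spec :=
  [Spec.mk (nat_lit 4326) (nat_lit 0) [] (nat_lit 0) [] false,
   Spec.mk (nat_lit 4330) (nat_lit 0) [] (nat_lit 0) [] false,
   Spec.mk (nat_lit 4332) (nat_lit 0) [] (nat_lit 0) [] false,
   Spec.mk (nat_lit 4338) (nat_lit 0) [] (nat_lit 0) [] false,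
   Spec.mk (nat_lit 4348) (nat_lit 0) [] (nat_lit 0) [] false,
   Spec.mk (nat_lit 4350) (nat_lit 0) [] (nat_lit 0) [] false,
   Spec.mk (nat_lit 4356) (nat_lit 0) [] (nat_lit 0) [] false,
   Spec.mk (nat_lit 4454) (nat_lit 0) [] (nat_lit 0) [] false,
   Spec.mk (nat_lit 4508) (nat_lit 0) [] (nat_lit 0) [] false,
   Spec.mk (nat_lit 4526) (nat_lit 0) [] (nat_lit 0) [] false,
   Spec.mk (nat_lit 4532) (nat_lit 0) [] (nat_lit 0) [] false,
   Spec.mk (nat_lit 4534) (nat_lit 0) [] (nat_lit 0) [] false,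
   Spec.mk (nat_lit 4562) (nat_lit 0) [] (nat_lit 0) [] false,
   Spec.mk (nat_lit 4580) (nat_lit 0) [] (nat_lit 0) [] false,
   Spec.mk (nat_lit 4586) (nat_lit 0) [] (nat_lit 0) [] false,
   Spec.mk (nat_lit 4588) (nat_lit 0) [] (nat_lit 0) [] false,
   Spec.mk (nat_lit 4598) (nat_lit 0) [] (nat_lit 0) [] false,
   Spec.mk (nat_lit 4604) (nat_lit 0) [] (nat_lit 0) [] false,
   Spec.mk (nat_lit 4606) (nat_lit 0) [] (nat_lit 0) [] false,
   Spec.mk (nat_lit 4610) (nat_lit 0) [] (nat_lit 0) [] false,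
   Spec.mk (nat_lit 4612) (nat_lit 0) [] (nat_lit 0) [] false,
   Spec.mk (nat_lit 4614) (nat_lit 0) [] (nat_lit 0) [] false,
   Spec.mk (nat_lit 4670) (nat_lit 0) [] (nat_lit 0) [] false,
   Spec.mk (nat_lit 4688) (nat_lit 0) [] (nat_lit 0) [] false,
   Spec.mk (nat_lit 4694) (nat_lit 0) [] (nat_lit 0) [] false,
   Spec.mk (nat_lit 4696) (nat_lit 0) [] (nat_lit 0) [] false,
   Spec.mk (nat_lit 4724) (nat_lit 0) [] (nat_lit 0) [] false,
   Spec.mk (nat_lit 4742) (nat_lit 0) [] (nat_lit 0) [] false,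
   Spec.mk (nat_lit 4748) (nat_lit 0) [] (nat_lit 0) [] false,
   Spec.mk (nat_lit 4750) (nat_lit 0) [] (nat_lit 0) [] false,
   Spec.mk (nat_lit 4760) (nat_lit 0) [] (nat_lit 0) [] false,
   Spec.mk (nat_lit 4766) (nat_lit 0) [] (nat_lit 0) [] false,
   Spec.mk (nat_lit 4768) (nat_lit 0) [] (nat_lit 0) [] false,
   Spec.mk (nat_lit 4772) (nat_lit 0) [] (nat_lit 0) [] false,
   Spec.mk (nat_lit 4774) (nat_lit 0) [] (nat_lit 0) [] false,
   Spec.mk (nat_lit 4776) (nat_lit 0) [] (nat_lit 0) [] false,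
   Spec.mk (nat_lit 4796) (nat_lit 0) [] (nat_lit 0) [] false,
   Spec.mk (nat_lit 4802) (nat_lit 0) [] (nat_lit 0) [] false,
   Spec.mk (nat_lit 4804) (nat_lit 0) [] (nat_lit 0) [] false,
   Spec.mk (nat_lit 4814) (nat_lit 0) [] (nat_lit 0) [] false,
   Spec.mk (nat_lit 4820) (nat_lit 0) [] (nat_lit 0) [] false,
   Spec.mk (nat_lit 4822) (nat_lit 0) [] (nat_lit 0) [] false,
   Spec.mk (nat_lit 4826) (nat_lit 0) [] (nat_lit 0) [] false,
   Spec.mk (nat_lit 4828) (nat_lit 0) [] (nat_lit 0) [] false,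
   Spec.mk (nat_lit 4830) (nat_lit 0) [] (nat_lit 0) [] false,
   Spec.mk (nat_lit 4838) (nat_lit 0) [] (nat_lit 0) [] false,
   Spec.mk (nat_lit 4840) (nat_lit 0) [] (nat_lit 0) [] false,
   Spec.mk (nat_lit 4844) (nat_lit 0) [] (nat_lit 0) [] false,
   Spec.mk (nat_lit 4846) (nat_lit 0) [] (nat_lit 0) [] false,
   Spec.mk (nat_lit 4848) (nat_lit 0) [] (nat_lit 0) [] false,
   Spec.mk (nat_lit 4852) (nat_lit 0) [] (nat_lit 0) [] false,
   Spec.mk (nat_lit 4854) (nat_lit 0) [] (nat_lit 0) [] false,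
   Spec.mk (nat_lit 4886) (nat_lit 0) [] (nat_lit 0) [] false,
   Spec.mk (nat_lit 4904) (nat_lit 0) [] (nat_lit 0) [] false,
   Spec.mk (nat_lit 4910) (nat_lit 0) [] (nat_lit 0) [] false,
   Spec.mk (nat_lit 4912) (nat_lit 0) [] (nat_lit 0) [] false,
   Spec.mk (nat_lit 4922) (nat_lit 0) [] (nat_lit 0) [] false,
   Spec.mk (nat_lit 4928) (nat_lit 0) [] (nat_lit 0) [] false,
   Spec.mk (nat_lit 4930) (nat_lit 0) [] (nat_lit 0) [] false,
   Spec.mk (nat_lit 4934) (nat_lit 0) [] (nat_lit 0) [] false]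

noncomputable def cd8 : List Spec :=
  [Spec.mk (nat_lit 4936) (nat_lit 0) [] (nat_lit 0) [] false,
   Spec.mk (nat_lit 4938) (nat_lit 0) [] (nat_lit 0) [] false,
   Spec.mk (nat_lit 4958) (nat_lit 0) [] (nat_lit 0) [] false,
   Spec.mk (nat_lit 4964) (nat_lit 0) [] (nat_lit 0) [] false,
   Spec.mk (nat_lit 4966) (nat_lit 0) [] (nat_lit 0) [] false,
   Spec.mk (nat_lit 4976) (nat_lit 0) [] (nat_lit 0) [] false,
   Spec.mk (nat_lit 4982) (nat_lit 0) [] (nat_lit 0) [] false,
   Spec.mk (nat_lit 4984) (nat_lit 0) [] (nat_lit 0) [] false,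
   Spec.mk (nat_lit 4988) (nat_lit 0) [] (nat_lit 0) [] false,
   Spec.mk (nat_lit 4990) (nat_lit 0) [] (nat_lit 0) [] false,
   Spec.mk (nat_lit 4992) (nat_lit 0) [] (nat_lit 0) [] false,
   Spec.mk (nat_lit 5000) (nat_lit 0) [] (nat_lit 0) [] false,
   Spec.mk (nat_lit 5002) (nat_lit 0) [] (nat_lit 0) [] false,
   Spec.mk (nat_lit 5006) (nat_lit 0) [] (nat_lit 0) [] false,
   Spec.mk (nat_lit 5008) (nat_lit 0) [] (nat_lit 0) [] false,
   Spec.mk (nat_lit 5010) (nat_lit 0) [] (nat_lit 0) [] false,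
   Spec.mk (nat_lit 5014) (nat_lit 0) [] (nat_lit 0) [] false,
   Spec.mk (nat_lit 5016) (nat_lit 0) [] (nat_lit 0) [] false,
   Spec.mk (nat_lit 5030) (nat_lit 0) [] (nat_lit 0) [] false,
   Spec.mk (nat_lit 5036) (nat_lit 0) [] (nat_lit 0) [] false,
   Spec.mk (nat_lit 5038) (nat_lit 0) [] (nat_lit 0) [] false,
   Spec.mk (nat_lit 5042) (nat_lit 0) [] (nat_lit 0) [] false,
   Spec.mk (nat_lit 5044) (nat_lit 0) [] (nat_lit 0) [] false,
   Spec.mk (nat_lit 5046) (nat_lit 0) [] (nat_lit 0) [] false,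
   Spec.mk (nat_lit 5054) (nat_lit 0) [] (nat_lit 0) [] false,
   Spec.mk (nat_lit 5056) (nat_lit 0) [] (nat_lit 0) [] false,
   Spec.mk (nat_lit 5060) (nat_lit 0) [] (nat_lit 0) [] false,
   Spec.mk (nat_lit 5062) (nat_lit 0) [] (nat_lit 0) [] false,
   Spec.mk (nat_lit 5064) (nat_lit 0) [] (nat_lit 0) [] false,
   Spec.mk (nat_lit 5068) (nat_lit 0) [] (nat_lit 0) [] false,
   Spec.mk (nat_lit 5070) (nat_lit 0) [] (nat_lit 0) [] false,
   Spec.mk (nat_lit 5078) (nat_lit 0) [] (nat_lit 0) [] false,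
   Spec.mk (nat_lit 5080) (nat_lit 0) [] (nat_lit 0) [] false,
   Spec.mk (nat_lit 5082) (nat_lit 0) [] (nat_lit 0) [] false,
   Spec.mk (nat_lit 5086) (nat_lit 0) [] (nat_lit 0) [] false,
   Spec.mk (nat_lit 5088) (nat_lit 0) [] (nat_lit 0) [] false,
   Spec.mk (nat_lit 5094) (nat_lit 0) [] (nat_lit 0) [] false,
   Spec.mk (nat_lit 5156) (nat_lit 0) [] (nat_lit 0) [] false,
   Spec.mk (nat_lit 5174) (nat_lit 0) [] (nat_lit 0) [] false,
   Spec.mk (nat_lit 5180) (nat_lit 0) [] (nat_lit 0) [] false,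
   Spec.mk (nat_lit 5182) (nat_lit 0) [] (nat_lit 0) [] false,
   Spec.mk (nat_lit 5210) (nat_lit 0) [] (nat_lit 0) [] false,
   Spec.mk (nat_lit 5228) (nat_lit 0) [] (nat_lit 0) [] false,
   Spec.mk (nat_lit 5234) (nat_lit 0) [] (nat_lit 0) [] false,
   Spec.mk (nat_lit 5236) (nat_lit 0) [] (nat_lit 0) [] false,
   Spec.mk (nat_lit 5246) (nat_lit 0) [] (nat_lit 0) [] false,
   Spec.mk (nat_lit 5252) (nat_lit 0) [] (nat_lit 0) [] false,
   Spec.mk (nat_lit 5254) (nat_lit 0) [] (nat_lit 0) [] false,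
   Spec.mk (nat_lit 5258) (nat_lit 0) [] (nat_lit 0) [] false,
   Spec.mk (nat_lit 5260) (nat_lit 0) [] (nat_lit 0) [] false,
   Spec.mk (nat_lit 5262) (nat_lit 0) [] (nat_lit 0) [] false,
   Spec.mk (nat_lit 5282) (nat_lit 0) [] (nat_lit 0) [] false,
   Spec.mk (nat_lit 5288) (nat_lit 0) [] (nat_lit 0) [] false,
   Spec.mk (nat_lit 5290) (nat_lit 0) [] (nat_lit 0) [] false,
   Spec.mk (nat_lit 5300) (nat_lit 0) [] (nat_lit 0) [] false,
   Spec.mk (nat_lit 5306) (nat_lit 0) [] (nat_lit 0) [] false,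
   Spec.mk (nat_lit 5308) (nat_lit 0) [] (nat_lit 0) [] false,
   Spec.mk (nat_lit 5312) (nat_lit 0) [] (nat_lit 0) [] false,
   Spec.mk (nat_lit 5314) (nat_lit 0) [] (nat_lit 0) [] false,
   Spec.mk (nat_lit 5316) (nat_lit 0) [] (nat_lit 0) [] false]

noncomputable def cd9 : List Spec :=
  [Spec.mk (nat_lit 5324) (nat_lit 0) [] (nat_lit 0) [] false,
   Spec.mk (nat_lit 5326) (nat_lit 0) [] (nat_lit 0) [] false,
   Spec.mk (nat_lit 5330) (nat_lit 0) [] (nat_lit 0) [] false,
   Spec.mk (nat_lit 5332) (nat_lit 0) [] (nat_lit 0) [] false,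
   Spec.mk (nat_lit 5334) (nat_lit 0) [] (nat_lit 0) [] false,
   Spec.mk (nat_lit 5338) (nat_lit 0) [] (nat_lit 0) [] false,
   Spec.mk (nat_lit 5340) (nat_lit 0) [] (nat_lit 0) [] false,
   Spec.mk (nat_lit 5372) (nat_lit 0) [] (nat_lit 0) [] false,
   Spec.mk (nat_lit 5390) (nat_lit 0) [] (nat_lit 0) [] false,
   Spec.mk (nat_lit 5396) (nat_lit 0) [] (nat_lit 0) [] false,
   Spec.mk (nat_lit 5398) (nat_lit 0) [] (nat_lit 0) [] false,
   Spec.mk (nat_lit 5408) (nat_lit 0) [] (nat_lit 0) [] false,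
   Spec.mk (nat_lit 5414) (nat_lit 0) [] (nat_lit 0) [] false,
   Spec.mk (nat_lit 5416) (nat_lit 0) [] (nat_lit 0) [] false,
   Spec.mk (nat_lit 5420) (nat_lit 0) [] (nat_lit 0) [] false,
   Spec.mk (nat_lit 5422) (nat_lit 0) [] (nat_lit 0) [] false,
   Spec.mk (nat_lit 5424) (nat_lit 0) [] (nat_lit 0) [] false,
   Spec.mk (nat_lit 5444) (nat_lit 0) [] (nat_lit 0) [] false,
   Spec.mk (nat_lit 5450) (nat_lit 0) [] (nat_lit 0) [] false,
   Spec.mk (nat_lit 5452) (nat_lit 0) [] (nat_lit 0) [] false,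
   Spec.mk (nat_lit 5462) (nat_lit 0) [] (nat_lit 0) [] false,
   Spec.mk (nat_lit 5468) (nat_lit 0) [] (nat_lit 0) [] false,
   Spec.mk (nat_lit 5470) (nat_lit 0) [] (nat_lit 0) [] false,
   Spec.mk (nat_lit 5474) (nat_lit 0) [] (nat_lit 0) [] false,
   Spec.mk (nat_lit 5476) (nat_lit 0) [] (nat_lit 0) [] false,
   Spec.mk (nat_lit 5478) (nat_lit 0) [] (nat_lit 0) [] false,
   Spec.mk (nat_lit 5486) (nat_lit 0) [] (nat_lit 0) [] false,
   Spec.mk (nat_lit 5488) (nat_lit 0) [] (nat_lit 0) [] false,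
   Spec.mk (nat_lit 5492) (nat_lit 0) [] (nat_lit 0) [] false,
   Spec.mk (nat_lit 5494) (nat_lit 0) [] (nat_lit 0) [] false,
   Spec.mk (nat_lit 5496) (nat_lit 0) [] (nat_lit 0) [] false,
   Spec.mk (nat_lit 5500) (nat_lit 0) [] (nat_lit 0) [] false,
   Spec.mk (nat_lit 5502) (nat_lit 0) [] (nat_lit 0) [] false,
   Spec.mk (nat_lit 5516) (nat_lit 0) [] (nat_lit 0) [] false,
   Spec.mk (nat_lit 5522) (nat_lit 0) [] (nat_lit 0) [] false,
   Spec.mk (nat_lit 5524) (nat_lit 0) [] (nat_lit 0) [] false,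
   Spec.mk (nat_lit 5528) (nat_lit 0) [] (nat_lit 0) [] false,
   Spec.mk (nat_lit 5530) (nat_lit 0) [] (nat_lit 0) [] false,
   Spec.mk (nat_lit 5532) (nat_lit 0) [] (nat_lit 0) [] false,
   Spec.mk (nat_lit 5540) (nat_lit 0) [] (nat_lit 0) [] false,
   Spec.mk (nat_lit 5542) (nat_lit 0) [] (nat_lit 0) [] false,
   Spec.mk (nat_lit 5546) (nat_lit 0) [] (nat_lit 0) [] false,
   Spec.mk (nat_lit 5548) (nat_lit 0) [] (nat_lit 0) [] false,
   Spec.mk (nat_lit 5550) (nat_lit 0) [] (nat_lit 0) [] false,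
   Spec.mk (nat_lit 5554) (nat_lit 0) [] (nat_lit 0) [] false,
   Spec.mk (nat_lit 5556) (nat_lit 0) [] (nat_lit 0) [] false,
   Spec.mk (nat_lit 5564) (nat_lit 0) [] (nat_lit 0) [] false,
   Spec.mk (nat_lit 5566) (nat_lit 0) [] (nat_lit 0) [] false,
   Spec.mk (nat_lit 5568) (nat_lit 0) [] (nat_lit 0) [] false,
   Spec.mk (nat_lit 5572) (nat_lit 0) [] (nat_lit 0) [] false,
   Spec.mk (nat_lit 5574) (nat_lit 0) [] (nat_lit 0) [] false,
   Spec.mk (nat_lit 5580) (nat_lit 0) [] (nat_lit 0) [] false,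
   Spec.mk (nat_lit 5606) (nat_lit 0) [] (nat_lit 0) [] false,
   Spec.mk (nat_lit 5612) (nat_lit 0) [] (nat_lit 0) [] false,
   Spec.mk (nat_lit 5614) (nat_lit 0) [] (nat_lit 0) [] false,
   Spec.mk (nat_lit 5624) (nat_lit 0) [] (nat_lit 0) [] false,
   Spec.mk (nat_lit 5630) (nat_lit 0) [] (nat_lit 0) [] false,
   Spec.mk (nat_lit 5632) (nat_lit 0) [] (nat_lit 0) [] false,
   Spec.mk (nat_lit 5636) (nat_lit 0) [] (nat_lit 0) [] false,
   Spec.mk (nat_lit 5638) (nat_lit 0) [] (nat_lit 0) [] false]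

noncomputable def cd10 : List Spec :=
  [Spec.mk (nat_lit 5640) (nat_lit 0) [] (nat_lit 0) [] false,
   Spec.mk (nat_lit 5648) (nat_lit 0) [] (nat_lit 0) [] false,
   Spec.mk (nat_lit 5650) (nat_lit 0) [] (nat_lit 0) [] false,
   Spec.mk (nat_lit 5654) (nat_lit 0) [] (nat_lit 0) [] false,
   Spec.mk (nat_lit 5656) (nat_lit 0) [] (nat_lit 0) [] false,
   Spec.mk (nat_lit 5658) (nat_lit 0) [] (nat_lit 0) [] false,
   Spec.mk (nat_lit 5662) (nat_lit 0) [] (nat_lit 0) [] false,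
   Spec.mk (nat_lit 5664) (nat_lit 0) [] (nat_lit 0) [] false,
   Spec.mk (nat_lit 5678) (nat_lit 0) [] (nat_lit 0) [] false,
   Spec.mk (nat_lit 5684) (nat_lit 0) [] (nat_lit 0) [] false,
   Spec.mk (nat_lit 5686) (nat_lit 0) [] (nat_lit 0) [] false,
   Spec.mk (nat_lit 5690) (nat_lit 0) [] (nat_lit 0) [] false,
   Spec.mk (nat_lit 5692) (nat_lit 0) [] (nat_lit 0) [] false,
   Spec.mk (nat_lit 5694) (nat_lit 0) [] (nat_lit 0) [] false,
   Spec.mk (nat_lit 5702) (nat_lit 0) [] (nat_lit 0) [] false,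
   Spec.mk (nat_lit 5704) (nat_lit 0) [] (nat_lit 0) [] false,
   Spec.mk (nat_lit 5708) (nat_lit 0) [] (nat_lit 0) [] false,
   Spec.mk (nat_lit 5710) (nat_lit 0) [] (nat_lit 0) [] false,
   Spec.mk (nat_lit 5712) (nat_lit 0) [] (nat_lit 0) [] false,
   Spec.mk (nat_lit 5716) (nat_lit 0) [] (nat_lit 0) [] false,
   Spec.mk (nat_lit 5718) (nat_lit 0) [] (nat_lit 0) [] false,
   Spec.mk (nat_lit 5726) (nat_lit 0) [] (nat_lit 0) [] false,
   Spec.mk (nat_lit 5728) (nat_lit 0) [] (nat_lit 0) [] false,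
   Spec.mk (nat_lit 5730) (nat_lit 0) [] (nat_lit 0) [] false,
   Spec.mk (nat_lit 5734) (nat_lit 0) [] (nat_lit 0) [] false,
   Spec.mk (nat_lit 5736) (nat_lit 0) [] (nat_lit 0) [] false,
   Spec.mk (nat_lit 5742) (nat_lit 0) [] (nat_lit 0) [] false,
   Spec.mk (nat_lit 5756) (nat_lit 0) [] (nat_lit 0) [] false,
   Spec.mk (nat_lit 5758) (nat_lit 0) [] (nat_lit 0) [] false,
   Spec.mk (nat_lit 5762) (nat_lit 0) [] (nat_lit 0) [] false,
   Spec.mk (nat_lit 5764) (nat_lit 0) [] (nat_lit 0) [] false,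
   Spec.mk (nat_lit 5766) (nat_lit 0) [] (nat_lit 0) [] false,
   Spec.mk (nat_lit 5770) (nat_lit 0) [] (nat_lit 0) [] false,
   Spec.mk (nat_lit 5772) (nat_lit 0) [] (nat_lit 0) [] false,
   Spec.mk (nat_lit 5780) (nat_lit 0) [] (nat_lit 0) [] false,
   Spec.mk (nat_lit 5782) (nat_lit 0) [] (nat_lit 0) [] false,
   Spec.mk (nat_lit 5784) (nat_lit 0) [] (nat_lit 0) [] false,
   Spec.mk (nat_lit 5788) (nat_lit 0) [] (nat_lit 0) [] false,
   Spec.mk (nat_lit 5790) (nat_lit 0) [] (nat_lit 0) [] false,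
   Spec.mk (nat_lit 5796) (nat_lit 0) [] (nat_lit 0) [] false,
   Spec.mk (nat_lit 5806) (nat_lit 0) [] (nat_lit 0) [] false,
   Spec.mk (nat_lit 5808) (nat_lit 0) [] (nat_lit 0) [] false,
   Spec.mk (nat_lit 5814) (nat_lit 0) [] (nat_lit 0) [] false,
   Spec.mk (nat_lit 5858) (nat_lit 0) [] (nat_lit 0) [] false,
   Spec.mk (nat_lit 5876) (nat_lit 0) [] (nat_lit 0) [] false,
   Spec.mk (nat_lit 5882) (nat_lit 0) [] (nat_lit 0) [] false,
   Spec.mk (nat_lit 5884) (nat_lit 0) [] (nat_lit 0) [] false,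
   Spec.mk (nat_lit 5894) (nat_lit 0) [] (nat_lit 0) [] false,
   Spec.mk (nat_lit 5900) (nat_lit 0) [] (nat_lit 0) [] false,
   Spec.mk (nat_lit 5902) (nat_lit 0) [] (nat_lit 0) [] false,
   Spec.mk (nat_lit 5906) (nat_lit 0) [] (nat_lit 0) [] false,
   Spec.mk (nat_lit 5908) (nat_lit 0) [] (nat_lit 0) [] false,
   Spec.mk (nat_lit 5910) (nat_lit 0) [] (nat_lit 0) [] false,
   Spec.mk (nat_lit 5930) (nat_lit 0) [] (nat_lit 0) [] false,
   Spec.mk (nat_lit 5936) (nat_lit 0) [] (nat_lit 0) [] false,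
   Spec.mk (nat_lit 5938) (nat_lit 0) [] (nat_lit 0) [] false,
   Spec.mk (nat_lit 5948) (nat_lit 0) [] (nat_lit 0) [] false,
   Spec.mk (nat_lit 5954) (nat_lit 0) [] (nat_lit 0) [] false,
   Spec.mk (nat_lit 5956) (nat_lit 0) [] (nat_lit 0) [] false,
   Spec.mk (nat_lit 5960) (nat_lit 0) [] (nat_lit 0) [] false]

noncomputable def cd11 : List Spec :=
  [Spec.mk (nat_lit 5962) (nat_lit 0) [] (nat_lit 0) [] false,
   Spec.mk (nat_lit 5964) (nat_lit 0) [] (nat_lit 0) [] false,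
   Spec.mk (nat_lit 5972) (nat_lit 0) [] (nat_lit 0) [] false,
   Spec.mk (nat_lit 5974) (nat_lit 0) [] (nat_lit 0) [] false,
   Spec.mk (nat_lit 5978) (nat_lit 0) [] (nat_lit 0) [] false,
   Spec.mk (nat_lit 5980) (nat_lit 0) [] (nat_lit 0) [] false,
   Spec.mk (nat_lit 5982) (nat_lit 0) [] (nat_lit 0) [] false,
   Spec.mk (nat_lit 5986) (nat_lit 0) [] (nat_lit 0) [] false,
   Spec.mk (nat_lit 5988) (nat_lit 0) [] (nat_lit 0) [] false,
   Spec.mk (nat_lit 6002) (nat_lit 0) [] (nat_lit 0) [] false,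
   Spec.mk (nat_lit 6008) (nat_lit 0) [] (nat_lit 0) [] false,
   Spec.mk (nat_lit 6010) (nat_lit 0) [] (nat_lit 0) [] false,
   Spec.mk (nat_lit 6014) (nat_lit 0) [] (nat_lit 0) [] false,
   Spec.mk (nat_lit 6016) (nat_lit 0) [] (nat_lit 0) [] false,
   Spec.mk (nat_lit 6018) (nat_lit 0) [] (nat_lit 0) [] false,
   Spec.mk (nat_lit 6026) (nat_lit 0) [] (nat_lit 0) [] false,
   Spec.mk (nat_lit 6028) (nat_lit 0) [] (nat_lit 0) [] false,
   Spec.mk (nat_lit 6032) (nat_lit 0) [] (nat_lit 0) [] false,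
   Spec.mk (nat_lit 6034) (nat_lit 0) [] (nat_lit 0) [] false,
   Spec.mk (nat_lit 6036) (nat_lit 0) [] (nat_lit 0) [] false,
   Spec.mk (nat_lit 6040) (nat_lit 0) [] (nat_lit 0) [] false,
   Spec.mk (nat_lit 6042) (nat_lit 0) [] (nat_lit 0) [] false,
   Spec.mk (nat_lit 6050) (nat_lit 0) [] (nat_lit 0) [] false,
   Spec.mk (nat_lit 6052) (nat_lit 0) [] (nat_lit 0) [] false,
   Spec.mk (nat_lit 6054) (nat_lit 0) [] (nat_lit 0) [] false,
   Spec.mk (nat_lit 6058) (nat_lit 0) [] (nat_lit 0) [] false,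
   Spec.mk (nat_lit 6060) (nat_lit 0) [] (nat_lit 0) [] false,
   Spec.mk (nat_lit 6066) (nat_lit 0) [] (nat_lit 0) [] false,
   Spec.mk (nat_lit 6092) (nat_lit 0) [] (nat_lit 0) [] false,
   Spec.mk (nat_lit 6098) (nat_lit 0) [] (nat_lit 0) [] false,
   Spec.mk (nat_lit 6100) (nat_lit 0) [] (nat_lit 0) [] false,
   Spec.mk (nat_lit 6110) (nat_lit 0) [] (nat_lit 0) [] false,
   Spec.mk (nat_lit 6116) (nat_lit 0) [] (nat_lit 0) [] false,
   Spec.mk (nat_lit 6118) (nat_lit 0) [] (nat_lit 0) [] false,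
   Spec.mk (nat_lit 6122) (nat_lit 0) [] (nat_lit 0) [] false,
   Spec.mk (nat_lit 6124) (nat_lit 0) [] (nat_lit 0) [] false,
   Spec.mk (nat_lit 6126) (nat_lit 0) [] (nat_lit 0) [] false,
   Spec.mk (nat_lit 6134) (nat_lit 0) [] (nat_lit 0) [] false,
   Spec.mk (nat_lit 6136) (nat_lit 0) [] (nat_lit 0) [] false,
   Spec.mk (nat_lit 6140) (nat_lit 0) [] (nat_lit 0) [] false,
   Spec.mk (nat_lit 6142) (nat_lit 0) [] (nat_lit 0) [] false,
   Spec.mk (nat_lit 6144) (nat_lit 0) [] (nat_lit 0) [] false,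
   Spec.mk (nat_lit 6148) (nat_lit 0) [] (nat_lit 0) [] false,
   Spec.mk (nat_lit 6150) (nat_lit 0) [] (nat_lit 0) [] false,
   Spec.mk (nat_lit 6164) (nat_lit 0) [] (nat_lit 0) [] false,
   Spec.mk (nat_lit 6170) (nat_lit 0) [] (nat_lit 0) [] false,
   Spec.mk (nat_lit 6172) (nat_lit 0) [] (nat_lit 0) [] false,
   Spec.mk (nat_lit 6176) (nat_lit 0) [] (nat_lit 0) [] false,
   Spec.mk (nat_lit 6178) (nat_lit 0) [] (nat_lit 0) [] false,
   Spec.mk (nat_lit 6180) (nat_lit 0) [] (nat_lit 0) [] false,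
   Spec.mk (nat_lit 6188) (nat_lit 0) [] (nat_lit 0) [] false,
   Spec.mk (nat_lit 6190) (nat_lit 0) [] (nat_lit 0) [] false,
   Spec.mk (nat_lit 6194) (nat_lit 0) [] (nat_lit 0) [] false,
   Spec.mk (nat_lit 6196) (nat_lit 0) [] (nat_lit 0) [] false,
   Spec.mk (nat_lit 6198) (nat_lit 0) [] (nat_lit 0) [] false,
   Spec.mk (nat_lit 6202) (nat_lit 0) [] (nat_lit 0) [] false,
   Spec.mk (nat_lit 6204) (nat_lit 0) [] (nat_lit 0) [] false,
   Spec.mk (nat_lit 6212) (nat_lit 0) [] (nat_lit 0) [] false,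
   Spec.mk (nat_lit 6214) (nat_lit 0) [] (nat_lit 0) [] false,
   Spec.mk (nat_lit 6216) (nat_lit 0) [] (nat_lit 0) [] false]

noncomputable def cd12 : List Spec :=
  [Spec.mk (nat_lit 6220) (nat_lit 0) [] (nat_lit 0) [] false,
   Spec.mk (nat_lit 6222) (nat_lit 0) [] (nat_lit 0) [] false,
   Spec.mk (nat_lit 6228) (nat_lit 0) [] (nat_lit 0) [] false,
   Spec.mk (nat_lit 6242) (nat_lit 0) [] (nat_lit 0) [] false,
   Spec.mk (nat_lit 6244) (nat_lit 0) [] (nat_lit 0) [] false,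
   Spec.mk (nat_lit 6248) (nat_lit 0) [] (nat_lit 0) [] false,
   Spec.mk (nat_lit 6250) (nat_lit 0) [] (nat_lit 0) [] false,
   Spec.mk (nat_lit 6252) (nat_lit 0) [] (nat_lit 0) [] false,
   Spec.mk (nat_lit 6256) (nat_lit 0) [] (nat_lit 0) [] false,
   Spec.mk (nat_lit 6258) (nat_lit 0) [] (nat_lit 0) [] false,
   Spec.mk (nat_lit 6266) (nat_lit 0) [] (nat_lit 0) [] false,
   Spec.mk (nat_lit 6268) (nat_lit 0) [] (nat_lit 0) [] false,
   Spec.mk (nat_lit 6270) (nat_lit 0) [] (nat_lit 0) [] false,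
   Spec.mk (nat_lit 6274) (nat_lit 0) [] (nat_lit 0) [] false,
   Spec.mk (nat_lit 6276) (nat_lit 0) [] (nat_lit 0) [] false,
   Spec.mk (nat_lit 6282) (nat_lit 0) [] (nat_lit 0) [] false,
   Spec.mk (nat_lit 6292) (nat_lit 0) [] (nat_lit 0) [] false,
   Spec.mk (nat_lit 6294) (nat_lit 0) [] (nat_lit 0) [] false,
   Spec.mk (nat_lit 6300) (nat_lit 0) [] (nat_lit 0) [] false,
   Spec.mk (nat_lit 6326) (nat_lit 0) [] (nat_lit 0) [] false,
   Spec.mk (nat_lit 6332) (nat_lit 0) [] (nat_lit 0) [] false,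
   Spec.mk (nat_lit 6334) (nat_lit 0) [] (nat_lit 0) [] false,
   Spec.mk (nat_lit 6338) (nat_lit 0) [] (nat_lit 0) [] false,
   Spec.mk (nat_lit 6340) (nat_lit 0) [] (nat_lit 0) [] false,
   Spec.mk (nat_lit 6342) (nat_lit 0) [] (nat_lit 0) [] false,
   Spec.mk (nat_lit 6350) (nat_lit 0) [] (nat_lit 0) [] false,
   Spec.mk (nat_lit 6352) (nat_lit 0) [] (nat_lit 0) [] false,
   Spec.mk (nat_lit 6356) (nat_lit 0) [] (nat_lit 0) [] false,
   Spec.mk (nat_lit 6358) (nat_lit 0) [] (nat_lit 0) [] false,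
   Spec.mk (nat_lit 6360) (nat_lit 0) [] (nat_lit 0) [] false,
   Spec.mk (nat_lit 6364) (nat_lit 0) [] (nat_lit 0) [] false,
   Spec.mk (nat_lit 6366) (nat_lit 0) [] (nat_lit 0) [] false,
   Spec.mk (nat_lit 6374) (nat_lit 0) [] (nat_lit 0) [] false,
   Spec.mk (nat_lit 6376) (nat_lit 0) [] (nat_lit 0) [] false,
   Spec.mk (nat_lit 6378) (nat_lit 0) [] (nat_lit 0) [] false,
   Spec.mk (nat_lit 6382) (nat_lit 0) [] (nat_lit 0) [] false,
   Spec.mk (nat_lit 6384) (nat_lit 0) [] (nat_lit 0) [] false,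
   Spec.mk (nat_lit 6390) (nat_lit 0) [] (nat_lit 0) [] false,
   Spec.mk (nat_lit 6404) (nat_lit 0) [] (nat_lit 0) [] false,
   Spec.mk (nat_lit 6406) (nat_lit 0) [] (nat_lit 0) [] false,
   Spec.mk (nat_lit 6410) (nat_lit 0) [] (nat_lit 0) [] false,
   Spec.mk (nat_lit 6412) (nat_lit 0) [] (nat_lit 0) [] false,
   Spec.mk (nat_lit 6414) (nat_lit 0) [] (nat_lit 0) [] false,
   Spec.mk (nat_lit 6418) (nat_lit 0) [] (nat_lit 0) [] false,
   Spec.mk (nat_lit 6420) (nat_lit 0) [] (nat_lit 0) [] false,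
   Spec.mk (nat_lit 6428) (nat_lit 0) [] (nat_lit 0) [] false,
   Spec.mk (nat_lit 6430) (nat_lit 0) [] (nat_lit 0) [] false,
   Spec.mk (nat_lit 6432) (nat_lit 0) [] (nat_lit 0) [] false,
   Spec.mk (nat_lit 6436) (nat_lit 0) [] (nat_lit 0) [] false,
   Spec.mk (nat_lit 6438) (nat_lit 0) [] (nat_lit 0) [] false,
   Spec.mk (nat_lit 6444) (nat_lit 0) [] (nat_lit 0) [] false,
   Spec.mk (nat_lit 6454) (nat_lit 0) [] (nat_lit 0) [] false,
   Spec.mk (nat_lit 6456) (nat_lit 0) [] (nat_lit 0) [] false,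
   Spec.mk (nat_lit 6462) (nat_lit 0) [] (nat_lit 0) [] false,
   Spec.mk (nat_lit 6482) (nat_lit 0) [] (nat_lit 0) [] false,
   Spec.mk (nat_lit 6484) (nat_lit 0) [] (nat_lit 0) [] false,
   Spec.mk (nat_lit 6486) (nat_lit 0) [] (nat_lit 0) [] false,
   Spec.mk (nat_lit 6490) (nat_lit 0) [] (nat_lit 0) [] false,
   Spec.mk (nat_lit 6492) (nat_lit 0) [] (nat_lit 0) [] false,
   Spec.mk (nat_lit 6498) (nat_lit 0) [] (nat_lit 0) [] false]

noncomputable def cd13 : List Spec :=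
  [Spec.mk (nat_lit 6508) (nat_lit 0) [] (nat_lit 0) [] false,
   Spec.mk (nat_lit 6510) (nat_lit 0) [] (nat_lit 0) [] false,
   Spec.mk (nat_lit 6516) (nat_lit 0) [] (nat_lit 0) [] false,
   Spec.mk (nat_lit 6534) (nat_lit 0) [] (nat_lit 0) [] false,
   Spec.mk (nat_lit 6722) (nat_lit 0) [] (nat_lit 0) [] false,
   Spec.mk (nat_lit 6776) (nat_lit 0) [] (nat_lit 0) [] false,
   Spec.mk (nat_lit 6794) (nat_lit 0) [] (nat_lit 0) [] false,
   Spec.mk (nat_lit 6800) (nat_lit 0) [] (nat_lit 0) [] false,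
   Spec.mk (nat_lit 6802) (nat_lit 0) [] (nat_lit 0) [] false,
   Spec.mk (nat_lit 6884) (nat_lit 0) [] (nat_lit 0) [] false,
   Spec.mk (nat_lit 6938) (nat_lit 0) [] (nat_lit 0) [] false,
   Spec.mk (nat_lit 6956) (nat_lit 0) [] (nat_lit 0) [] false,
   Spec.mk (nat_lit 6962) (nat_lit 0) [] (nat_lit 0) [] false,
   Spec.mk (nat_lit 6964) (nat_lit 0) [] (nat_lit 0) [] false,
   Spec.mk (nat_lit 6992) (nat_lit 0) [] (nat_lit 0) [] false,
   Spec.mk (nat_lit 7010) (nat_lit 0) [] (nat_lit 0) [] false,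
   Spec.mk (nat_lit 7016) (nat_lit 0) [] (nat_lit 0) [] false,
   Spec.mk (nat_lit 7018) (nat_lit 0) [] (nat_lit 0) [] false,
   Spec.mk (nat_lit 7028) (nat_lit 0) [] (nat_lit 0) [] false,
   Spec.mk (nat_lit 7034) (nat_lit 0) [] (nat_lit 0) [] false,
   Spec.mk (nat_lit 7036) (nat_lit 0) [] (nat_lit 0) [] false,
   Spec.mk (nat_lit 7040) (nat_lit 0) [] (nat_lit 0) [] false,
   Spec.mk (nat_lit 7042) (nat_lit 0) [] (nat_lit 0) [] false,
   Spec.mk (nat_lit 7044) (nat_lit 0) [] (nat_lit 0) [] false,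
   Spec.mk (nat_lit 7100) (nat_lit 0) [] (nat_lit 0) [] false,
   Spec.mk (nat_lit 7118) (nat_lit 0) [] (nat_lit 0) [] false,
   Spec.mk (nat_lit 7124) (nat_lit 0) [] (nat_lit 0) [] false,
   Spec.mk (nat_lit 7126) (nat_lit 0) [] (nat_lit 0) [] false,
   Spec.mk (nat_lit 7154) (nat_lit 0) [] (nat_lit 0) [] false,
   Spec.mk (nat_lit 7172) (nat_lit 0) [] (nat_lit 0) [] false,
   Spec.mk (nat_lit 7178) (nat_lit 0) [] (nat_lit 0) [] false,
   Spec.mk (nat_lit 7180) (nat_lit 0) [] (nat_lit 0) [] false,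
   Spec.mk (nat_lit 7190) (nat_lit 0) [] (nat_lit 0) [] false,
   Spec.mk (nat_lit 7196) (nat_lit 0) [] (nat_lit 0) [] false,
   Spec.mk (nat_lit 7198) (nat_lit 0) [] (nat_lit 0) [] false,
   Spec.mk (nat_lit 7202) (nat_lit 0) [] (nat_lit 0) [] false,
   Spec.mk (nat_lit 7204) (nat_lit 0) [] (nat_lit 0) [] false,
   Spec.mk (nat_lit 7206) (nat_lit 0) [] (nat_lit 0) [] false,
   Spec.mk (nat_lit 7226) (nat_lit 0) [] (nat_lit 0) [] false,
   Spec.mk (nat_lit 7232) (nat_lit 0) [] (nat_lit 0) [] false,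
   Spec.mk (nat_lit 7234) (nat_lit 0) [] (nat_lit 0) [] false,
   Spec.mk (nat_lit 7244) (nat_lit 0) [] (nat_lit 0) [] false,
   Spec.mk (nat_lit 7250) (nat_lit 0) [] (nat_lit 0) [] false,
   Spec.mk (nat_lit 7252) (nat_lit 0) [] (nat_lit 0) [] false,
   Spec.mk (nat_lit 7256) (nat_lit 0) [] (nat_lit 0) [] false,
   Spec.mk (nat_lit 7258) (nat_lit 0) [] (nat_lit 0) [] false,
   Spec.mk (nat_lit 7260) (nat_lit 0) [] (nat_lit 0) [] false,
   Spec.mk (nat_lit 7268) (nat_lit 0) [] (nat_lit 0) [] false,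
   Spec.mk (nat_lit 7270) (nat_lit 0) [] (nat_lit 0) [] false,
   Spec.mk (nat_lit 7274) (nat_lit 0) [] (nat_lit 0) [] false,
   Spec.mk (nat_lit 7276) (nat_lit 0) [] (nat_lit 0) [] false,
   Spec.mk (nat_lit 7278) (nat_lit 0) [] (nat_lit 0) [] false,
   Spec.mk (nat_lit 7282) (nat_lit 0) [] (nat_lit 0) [] false,
   Spec.mk (nat_lit 7284) (nat_lit 0) [] (nat_lit 0) [] false,
   Spec.mk (nat_lit 7370) (nat_lit 0) [] (nat_lit 0) [] false,
   Spec.mk (nat_lit 7424) (nat_lit 0) [] (nat_lit 0) [] false,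
   Spec.mk (nat_lit 7442) (nat_lit 0) [] (nat_lit 0) [] false,
   Spec.mk (nat_lit 7448) (nat_lit 0) [] (nat_lit 0) [] false,
   Spec.mk (nat_lit 7450) (nat_lit 0) [] (nat_lit 0) [] false,
   Spec.mk (nat_lit 7478) (nat_lit 0) [] (nat_lit 0) [] false]

noncomputable def cd14 : List Spec :=
  [Spec.mk (nat_lit 7496) (nat_lit 0) [] (nat_lit 0) [] false,
   Spec.mk (nat_lit 7502) (nat_lit 0) [] (nat_lit 0) [] false,
   Spec.mk (nat_lit 7504) (nat_lit 0) [] (nat_lit 0) [] false,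
   Spec.mk (nat_lit 7514) (nat_lit 0) [] (nat_lit 0) [] false,
   Spec.mk (nat_lit 7520) (nat_lit 0) [] (nat_lit 0) [] false,
   Spec.mk (nat_lit 7522) (nat_lit 0) [] (nat_lit 0) [] false,
   Spec.mk (nat_lit 7526) (nat_lit 0) [] (nat_lit 0) [] false,
   Spec.mk (nat_lit 7528) (nat_lit 0) [] (nat_lit 0) [] false,
   Spec.mk (nat_lit 7530) (nat_lit 0) [] (nat_lit 0) [] false,
   Spec.mk (nat_lit 7586) (nat_lit 0) [] (nat_lit 0) [] false,
   Spec.mk (nat_lit 7604) (nat_lit 0) [] (nat_lit 0) [] false,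
   Spec.mk (nat_lit 7610) (nat_lit 0) [] (nat_lit 0) [] false,
   Spec.mk (nat_lit 7612) (nat_lit 0) [] (nat_lit 0) [] false,
   Spec.mk (nat_lit 7640) (nat_lit 0) [] (nat_lit 0) [] false,
   Spec.mk (nat_lit 7658) (nat_lit 0) [] (nat_lit 0) [] false,
   Spec.mk (nat_lit 7664) (nat_lit 0) [] (nat_lit 0) [] false,
   Spec.mk (nat_lit 7666) (nat_lit 0) [] (nat_lit 0) [] false,
   Spec.mk (nat_lit 7676) (nat_lit 0) [] (nat_lit 0) [] false,
   Spec.mk (nat_lit 7682) (nat_lit 0) [] (nat_lit 0) [] false,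
   Spec.mk (nat_lit 7684) (nat_lit 0) [] (nat_lit 0) [] false,
   Spec.mk (nat_lit 7688) (nat_lit 0) [] (nat_lit 0) [] false,
   Spec.mk (nat_lit 7690) (nat_lit 0) [] (nat_lit 0) [] false,
   Spec.mk (nat_lit 7692) (nat_lit 0) [] (nat_lit 0) [] false,
   Spec.mk (nat_lit 7712) (nat_lit 0) [] (nat_lit 0) [] false,
   Spec.mk (nat_lit 7718) (nat_lit 0) [] (nat_lit 0) [] false,
   Spec.mk (nat_lit 7720) (nat_lit 0) [] (nat_lit 0) [] false,
   Spec.mk (nat_lit 7730) (nat_lit 0) [] (nat_lit 0) [] false,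
   Spec.mk (nat_lit 7736) (nat_lit 0) [] (nat_lit 0) [] false,
   Spec.mk (nat_lit 7738) (nat_lit 0) [] (nat_lit 0) [] false,
   Spec.mk (nat_lit 7742) (nat_lit 0) [] (nat_lit 0) [] false,
   Spec.mk (nat_lit 7744) (nat_lit 0) [] (nat_lit 0) [] false,
   Spec.mk (nat_lit 7746) (nat_lit 0) [] (nat_lit 0) [] false,
   Spec.mk (nat_lit 7754) (nat_lit 0) [] (nat_lit 0) [] false,
   Spec.mk (nat_lit 7756) (nat_lit 0) [] (nat_lit 0) [] false,
   Spec.mk (nat_lit 7760) (nat_lit 0) [] (nat_lit 0) [] false,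
   Spec.mk (nat_lit 7762) (nat_lit 0) [] (nat_lit 0) [] false,
   Spec.mk (nat_lit 7764) (nat_lit 0) [] (nat_lit 0) [] false,
   Spec.mk (nat_lit 7768) (nat_lit 0) [] (nat_lit 0) [] false,
   Spec.mk (nat_lit 7770) (nat_lit 0) [] (nat_lit 0) [] false,
   Spec.mk (nat_lit 7802) (nat_lit 0) [] (nat_lit 0) [] false,
   Spec.mk (nat_lit 7820) (nat_lit 0) [] (nat_lit 0) [] false,
   Spec.mk (nat_lit 7826) (nat_lit 0) [] (nat_lit 0) [] false,
   Spec.mk (nat_lit 7828) (nat_lit 0) [] (nat_lit 0) [] false,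
   Spec.mk (nat_lit 7838) (nat_lit 0) [] (nat_lit 0) [] false,
   Spec.mk (nat_lit 7844) (nat_lit 0) [] (nat_lit 0) [] false,
   Spec.mk (nat_lit 7846) (nat_lit 0) [] (nat_lit 0) [] false,
   Spec.mk (nat_lit 7850) (nat_lit 0) [] (nat_lit 0) [] false,
   Spec.mk (nat_lit 7852) (nat_lit 0) [] (nat_lit 0) [] false,
   Spec.mk (nat_lit 7854) (nat_lit 0) [] (nat_lit 0) [] false,
   Spec.mk (nat_lit 7874) (nat_lit 0) [] (nat_lit 0) [] false,
   Spec.mk (nat_lit 7880) (nat_lit 0) [] (nat_lit 0) [] false,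
   Spec.mk (nat_lit 7882) (nat_lit 0) [] (nat_lit 0) [] false,
   Spec.mk (nat_lit 7892) (nat_lit 0) [] (nat_lit 0) [] false,
   Spec.mk (nat_lit 7898) (nat_lit 0) [] (nat_lit 0) [] false,
   Spec.mk (nat_lit 7900) (nat_lit 0) [] (nat_lit 0) [] false,
   Spec.mk (nat_lit 7904) (nat_lit 0) [] (nat_lit 0) [] false,
   Spec.mk (nat_lit 7906) (nat_lit 0) [] (nat_lit 0) [] false,
   Spec.mk (nat_lit 7908) (nat_lit 0) [] (nat_lit 0) [] false,
   Spec.mk (nat_lit 7916) (nat_lit 0) [] (nat_lit 0) [] false,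
   Spec.mk (nat_lit 7918) (nat_lit 0) [] (nat_lit 0) [] false]

noncomputable def cd15 : List Spec :=
  [Spec.mk (nat_lit 7922) (nat_lit 0) [] (nat_lit 0) [] false,
   Spec.mk (nat_lit 7924) (nat_lit 0) [] (nat_lit 0) [] false,
   Spec.mk (nat_lit 7926) (nat_lit 0) [] (nat_lit 0) [] false,
   Spec.mk (nat_lit 7930) (nat_lit 0) [] (nat_lit 0) [] false,
   Spec.mk (nat_lit 7932) (nat_lit 0) [] (nat_lit 0) [] false,
   Spec.mk (nat_lit 7946) (nat_lit 0) [] (nat_lit 0) [] false,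
   Spec.mk (nat_lit 7952) (nat_lit 0) [] (nat_lit 0) [] false,
   Spec.mk (nat_lit 7954) (nat_lit 0) [] (nat_lit 0) [] false,
   Spec.mk (nat_lit 7958) (nat_lit 0) [] (nat_lit 0) [] false,
   Spec.mk (nat_lit 7960) (nat_lit 0) [] (nat_lit 0) [] false,
   Spec.mk (nat_lit 7962) (nat_lit 0) [] (nat_lit 0) [] false,
   Spec.mk (nat_lit 7970) (nat_lit 0) [] (nat_lit 0) [] false,
   Spec.mk (nat_lit 7972) (nat_lit 0) [] (nat_lit 0) [] false,
   Spec.mk (nat_lit 7976) (nat_lit 0) [] (nat_lit 0) [] false,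
   Spec.mk (nat_lit 7978) (nat_lit 0) [] (nat_lit 0) [] false,
   Spec.mk (nat_lit 7980) (nat_lit 0) [] (nat_lit 0) [] false,
   Spec.mk (nat_lit 7984) (nat_lit 0) [] (nat_lit 0) [] false,
   Spec.mk (nat_lit 7986) (nat_lit 0) [] (nat_lit 0) [] false,
   Spec.mk (nat_lit 7994) (nat_lit 0) [] (nat_lit 0) [] false,
   Spec.mk (nat_lit 7996) (nat_lit 0) [] (nat_lit 0) [] false,
   Spec.mk (nat_lit 7998) (nat_lit 0) [] (nat_lit 0) [] false,
   Spec.mk (nat_lit 8002) (nat_lit 0) [] (nat_lit 0) [] false,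
   Spec.mk (nat_lit 8004) (nat_lit 0) [] (nat_lit 0) [] false,
   Spec.mk (nat_lit 8010) (nat_lit 0) [] (nat_lit 0) [] false,
   Spec.mk (nat_lit 8072) (nat_lit 0) [] (nat_lit 0) [] false,
   Spec.mk (nat_lit 8090) (nat_lit 0) [] (nat_lit 0) [] false,
   Spec.mk (nat_lit 8096) (nat_lit 0) [] (nat_lit 0) [] false,
   Spec.mk (nat_lit 8098) (nat_lit 0) [] (nat_lit 0) [] false,
   Spec.mk (nat_lit 8126) (nat_lit 0) [] (nat_lit 0) [] false,
   Spec.mk (nat_lit 8144) (nat_lit 0) [] (nat_lit 0) [] false,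
   Spec.mk (nat_lit 8150) (nat_lit 0) [] (nat_lit 0) [] false,
   Spec.mk (nat_lit 8152) (nat_lit 0) [] (nat_lit 0) [] false,
   Spec.mk (nat_lit 8162) (nat_lit 0) [] (nat_lit 0) [] false,
   Spec.mk (nat_lit 8168) (nat_lit 0) [] (nat_lit 0) [] false,
   Spec.mk (nat_lit 8170) (nat_lit 0) [] (nat_lit 0) [] false,
   Spec.mk (nat_lit 8174) (nat_lit 0) [] (nat_lit 0) [] false,
   Spec.mk (nat_lit 8176) (nat_lit 0) [] (nat_lit 0) [] false,
   Spec.mk (nat_lit 8178) (nat_lit 0) [] (nat_lit 0) [] false,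
   Spec.mk (nat_lit 8198) (nat_lit 0) [] (nat_lit 0) [] false,
   Spec.mk (nat_lit 8204) (nat_lit 0) [] (nat_lit 0) [] false,
   Spec.mk (nat_lit 8206) (nat_lit 0) [] (nat_lit 0) [] false,
   Spec.mk (nat_lit 8216) (nat_lit 0) [] (nat_lit 0) [] false,
   Spec.mk (nat_lit 8222) (nat_lit 0) [] (nat_lit 0) [] false,
   Spec.mk (nat_lit 8224) (nat_lit 0) [] (nat_lit 0) [] false,
   Spec.mk (nat_lit 8228) (nat_lit 0) [] (nat_lit 0) [] false,
   Spec.mk (nat_lit 8230) (nat_lit 0) [] (nat_lit 0) [] false,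
   Spec.mk (nat_lit 8232) (nat_lit 0) [] (nat_lit 0) [] false,
   Spec.mk (nat_lit 8240) (nat_lit 0) [] (nat_lit 0) [] false,
   Spec.mk (nat_lit 8242) (nat_lit 0) [] (nat_lit 0) [] false,
   Spec.mk (nat_lit 8246) (nat_lit 0) [] (nat_lit 0) [] false,
   Spec.mk (nat_lit 8248) (nat_lit 0) [] (nat_lit 0) [] false,
   Spec.mk (nat_lit 8250) (nat_lit 0) [] (nat_lit 0) [] false,
   Spec.mk (nat_lit 8254) (nat_lit 0) [] (nat_lit 0) [] false,
   Spec.mk (nat_lit 8256) (nat_lit 0) [] (nat_lit 0) [] false,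
   Spec.mk (nat_lit 8288) (nat_lit 0) [] (nat_lit 0) [] false,
   Spec.mk (nat_lit 8306) (nat_lit 0) [] (nat_lit 0) [] false,
   Spec.mk (nat_lit 8312) (nat_lit 0) [] (nat_lit 0) [] false,
   Spec.mk (nat_lit 8314) (nat_lit 0) [] (nat_lit 0) [] false,
   Spec.mk (nat_lit 8324) (nat_lit 0) [] (nat_lit 0) [] false,
   Spec.mk (nat_lit 8330) (nat_lit 0) [] (nat_lit 0) [] false]

noncomputable def cd16 : List Spec :=
  [Spec.mk (nat_lit 8332) (nat_lit 0) [] (nat_lit 0) [] false,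
   Spec.mk (nat_lit 8336) (nat_lit 0) [] (nat_lit 0) [] false,
   Spec.mk (nat_lit 8338) (nat_lit 0) [] (nat_lit 0) [] false,
   Spec.mk (nat_lit 8340) (nat_lit 0) [] (nat_lit 0) [] false,
   Spec.mk (nat_lit 8360) (nat_lit 0) [] (nat_lit 0) [] false,
   Spec.mk (nat_lit 8366) (nat_lit 0) [] (nat_lit 0) [] false,
   Spec.mk (nat_lit 8368) (nat_lit 0) [] (nat_lit 0) [] false,
   Spec.mk (nat_lit 8378) (nat_lit 0) [] (nat_lit 0) [] false,
   Spec.mk (nat_lit 8384) (nat_lit 0) [] (nat_lit 0) [] false,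
   Spec.mk (nat_lit 8386) (nat_lit 0) [] (nat_lit 0) [] false,
   Spec.mk (nat_lit 8390) (nat_lit 0) [] (nat_lit 0) [] false,
   Spec.mk (nat_lit 8392) (nat_lit 0) [] (nat_lit 0) [] false,
   Spec.mk (nat_lit 8394) (nat_lit 0) [] (nat_lit 0) [] false,
   Spec.mk (nat_lit 8402) (nat_lit 0) [] (nat_lit 0) [] false,
   Spec.mk (nat_lit 8404) (nat_lit 0) [] (nat_lit 0) [] false,
   Spec.mk (nat_lit 8408) (nat_lit 0) [] (nat_lit 0) [] false,
   Spec.mk (nat_lit 8410) (nat_lit 0) [] (nat_lit 0) [] false,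
   Spec.mk (nat_lit 8412) (nat_lit 0) [] (nat_lit 0) [] false,
   Spec.mk (nat_lit 8416) (nat_lit 0) [] (nat_lit 0) [] false,
   Spec.mk (nat_lit 8418) (nat_lit 0) [] (nat_lit 0) [] false,
   Spec.mk (nat_lit 8432) (nat_lit 0) [] (nat_lit 0) [] false,
   Spec.mk (nat_lit 8438) (nat_lit 0) [] (nat_lit 0) [] false,
   Spec.mk (nat_lit 8440) (nat_lit 0) [] (nat_lit 0) [] false,
   Spec.mk (nat_lit 8444) (nat_lit 0) [] (nat_lit 0) [] false,
   Spec.mk (nat_lit 8446) (nat_lit 0) [] (nat_lit 0) [] false,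
   Spec.mk (nat_lit 8448) (nat_lit 0) [] (nat_lit 0) [] false,
   Spec.mk (nat_lit 8456) (nat_lit 0) [] (nat_lit 0) [] false,
   Spec.mk (nat_lit 8458) (nat_lit 0) [] (nat_lit 0) [] false,
   Spec.mk (nat_lit 8462) (nat_lit 0) [] (nat_lit 0) [] false,
   Spec.mk (nat_lit 8464) (nat_lit 0) [] (nat_lit 0) [] false,
   Spec.mk (nat_lit 8466) (nat_lit 0) [] (nat_lit 0) [] false,
   Spec.mk (nat_lit 8470) (nat_lit 0) [] (nat_lit 0) [] false,
   Spec.mk (nat_lit 8472) (nat_lit 0) [] (nat_lit 0) [] false,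
   Spec.mk (nat_lit 8480) (nat_lit 0) [] (nat_lit 0) [] false,
   Spec.mk (nat_lit 8482) (nat_lit 0) [] (nat_lit 0) [] false,
   Spec.mk (nat_lit 8484) (nat_lit 0) [] (nat_lit 0) [] false,
   Spec.mk (nat_lit 8488) (nat_lit 0) [] (nat_lit 0) [] false,
   Spec.mk (nat_lit 8490) (nat_lit 0) [] (nat_lit 0) [] false,
   Spec.mk (nat_lit 8496) (nat_lit 0) [] (nat_lit 0) [] false,
   Spec.mk (nat_lit 8522) (nat_lit 0) [] (nat_lit 0) [] false,
   Spec.mk (nat_lit 8528) (nat_lit 0) [] (nat_lit 0) [] false,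
   Spec.mk (nat_lit 8530) (nat_lit 0) [] (nat_lit 0) [] false,
   Spec.mk (nat_lit 8540) (nat_lit 0) [] (nat_lit 0) [] false,
   Spec.mk (nat_lit 8546) (nat_lit 0) [] (nat_lit 0) [] false,
   Spec.mk (nat_lit 8548) (nat_lit 0) [] (nat_lit 0) [] false,
   Spec.mk (nat_lit 8552) (nat_lit 0) [] (nat_lit 0) [] false,
   Spec.mk (nat_lit 8554) (nat_lit 0) [] (nat_lit 0) [] false,
   Spec.mk (nat_lit 8556) (nat_lit 0) [] (nat_lit 0) [] false,
   Spec.mk (nat_lit 8564) (nat_lit 0) [] (nat_lit 0) [] false,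
   Spec.mk (nat_lit 8566) (nat_lit 0) [] (nat_lit 0) [] false,
   Spec.mk (nat_lit 8570) (nat_lit 0) [] (nat_lit 0) [] false,
   Spec.mk (nat_lit 8572) (nat_lit 0) [] (nat_lit 0) [] false,
   Spec.mk (nat_lit 8574) (nat_lit 0) [] (nat_lit 0) [] false,
   Spec.mk (nat_lit 8578) (nat_lit 0) [] (nat_lit 0) [] false,
   Spec.mk (nat_lit 8580) (nat_lit 0) [] (nat_lit 0) [] false,
   Spec.mk (nat_lit 8594) (nat_lit 0) [] (nat_lit 0) [] false,
   Spec.mk (nat_lit 8600) (nat_lit 0) [] (nat_lit 0) [] false,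
   Spec.mk (nat_lit 8602) (nat_lit 0) [] (nat_lit 0) [] false,
   Spec.mk (nat_lit 8606) (nat_lit 0) [] (nat_lit 0) [] false,
   Spec.mk (nat_lit 8608) (nat_lit 0) [] (nat_lit 0) [] false]

noncomputable def cd17 : List Spec :=
  [Spec.mk (nat_lit 8610) (nat_lit 0) [] (nat_lit 0) [] false,
   Spec.mk (nat_lit 8618) (nat_lit 0) [] (nat_lit 0) [] false,
   Spec.mk (nat_lit 8620) (nat_lit 0) [] (nat_lit 0) [] false,
   Spec.mk (nat_lit 8624) (nat_lit 0) [] (nat_lit 0) [] false,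
   Spec.mk (nat_lit 8626) (nat_lit 0) [] (nat_lit 0) [] false,
   Spec.mk (nat_lit 8628) (nat_lit 0) [] (nat_lit 0) [] false,
   Spec.mk (nat_lit 8632) (nat_lit 0) [] (nat_lit 0) [] false,
   Spec.mk (nat_lit 8634) (nat_lit 0) [] (nat_lit 0) [] false,
   Spec.mk (nat_lit 8642) (nat_lit 0) [] (nat_lit 0) [] false,
   Spec.mk (nat_lit 8644) (nat_lit 0) [] (nat_lit 0) [] false,
   Spec.mk (nat_lit 8646) (nat_lit 0) [] (nat_lit 0) [] false,
   Spec.mk (nat_lit 8650) (nat_lit 0) [] (nat_lit 0) [] false,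
   Spec.mk (nat_lit 8652) (nat_lit 0) [] (nat_lit 0) [] false,
   Spec.mk (nat_lit 8658) (nat_lit 0) [] (nat_lit 0) [] false,
   Spec.mk (nat_lit 8672) (nat_lit 0) [] (nat_lit 0) [] false,
   Spec.mk (nat_lit 8674) (nat_lit 0) [] (nat_lit 0) [] false,
   Spec.mk (nat_lit 8678) (nat_lit 0) [] (nat_lit 0) [] false,
   Spec.mk (nat_lit 8680) (nat_lit 0) [] (nat_lit 0) [] false,
   Spec.mk (nat_lit 8682) (nat_lit 0) [] (nat_lit 0) [] false,
   Spec.mk (nat_lit 8686) (nat_lit 0) [] (nat_lit 0) [] false,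
   Spec.mk (nat_lit 8688) (nat_lit 0) [] (nat_lit 0) [] false,
   Spec.mk (nat_lit 8696) (nat_lit 0) [] (nat_lit 0) [] false,
   Spec.mk (nat_lit 8698) (nat_lit 0) [] (nat_lit 0) [] false,
   Spec.mk (nat_lit 8700) (nat_lit 0) [] (nat_lit 0) [] false,
   Spec.mk (nat_lit 8704) (nat_lit 0) [] (nat_lit 0) [] false,
   Spec.mk (nat_lit 8706) (nat_lit 0) [] (nat_lit 0) [] false,
   Spec.mk (nat_lit 8712) (nat_lit 0) [] (nat_lit 0) [] false,
   Spec.mk (nat_lit 8722) (nat_lit 0) [] (nat_lit 0) [] false,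
   Spec.mk (nat_lit 8724) (nat_lit 0) [] (nat_lit 0) [] false,
   Spec.mk (nat_lit 8730) (nat_lit 0) [] (nat_lit 0) [] false,
   Spec.mk (nat_lit 8828) (nat_lit 0) [] (nat_lit 0) [] false,
   Spec.mk (nat_lit 8882) (nat_lit 0) [] (nat_lit 0) [] false,
   Spec.mk (nat_lit 8900) (nat_lit 0) [] (nat_lit 0) [] false,
   Spec.mk (nat_lit 8906) (nat_lit 0) [] (nat_lit 0) [] false,
   Spec.mk (nat_lit 8908) (nat_lit 0) [] (nat_lit 0) [] false,
   Spec.mk (nat_lit 8936) (nat_lit 0) [] (nat_lit 0) [] false,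
   Spec.mk (nat_lit 8954) (nat_lit 0) [] (nat_lit 0) [] false,
   Spec.mk (nat_lit 8960) (nat_lit 0) [] (nat_lit 0) [] false,
   Spec.mk (nat_lit 8962) (nat_lit 0) [] (nat_lit 0) [] false,
   Spec.mk (nat_lit 8972) (nat_lit 0) [] (nat_lit 0) [] false,
   Spec.mk (nat_lit 8978) (nat_lit 0) [] (nat_lit 0) [] false,
   Spec.mk (nat_lit 8980) (nat_lit 0) [] (nat_lit 0) [] false,
   Spec.mk (nat_lit 8984) (nat_lit 0) [] (nat_lit 0) [] false,
   Spec.mk (nat_lit 8986) (nat_lit 0) [] (nat_lit 0) [] false,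
   Spec.mk (nat_lit 8988) (nat_lit 0) [] (nat_lit 0) [] false,
   Spec.mk (nat_lit 9044) (nat_lit 0) [] (nat_lit 0) [] false,
   Spec.mk (nat_lit 9062) (nat_lit 0) [] (nat_lit 0) [] false,
   Spec.mk (nat_lit 9068) (nat_lit 0) [] (nat_lit 0) [] false,
   Spec.mk (nat_lit 9070) (nat_lit 0) [] (nat_lit 0) [] false,
   Spec.mk (nat_lit 9098) (nat_lit 0) [] (nat_lit 0) [] false,
   Spec.mk (nat_lit 9116) (nat_lit 0) [] (nat_lit 0) [] false,
   Spec.mk (nat_lit 9122) (nat_lit 0) [] (nat_lit 0) [] false,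
   Spec.mk (nat_lit 9124) (nat_lit 0) [] (nat_lit 0) [] false,
   Spec.mk (nat_lit 9134) (nat_lit 0) [] (nat_lit 0) [] false,
   Spec.mk (nat_lit 9140) (nat_lit 0) [] (nat_lit 0) [] false,
   Spec.mk (nat_lit 9142) (nat_lit 0) [] (nat_lit 0) [] false,
   Spec.mk (nat_lit 9146) (nat_lit 0) [] (nat_lit 0) [] false,
   Spec.mk (nat_lit 9148) (nat_lit 0) [] (nat_lit 0) [] false,
   Spec.mk (nat_lit 9150) (nat_lit 0) [] (nat_lit 0) [] false,
   Spec.mk (nat_lit 9170) (nat_lit 0) [] (nat_lit 0) [] false]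

noncomputable def cd18 : List Spec :=
  [Spec.mk (nat_lit 9176) (nat_lit 0) [] (nat_lit 0) [] false,
   Spec.mk (nat_lit 9178) (nat_lit 0) [] (nat_lit 0) [] false,
   Spec.mk (nat_lit 9188) (nat_lit 0) [] (nat_lit 0) [] false,
   Spec.mk (nat_lit 9194) (nat_lit 0) [] (nat_lit 0) [] false,
   Spec.mk (nat_lit 9196) (nat_lit 0) [] (nat_lit 0) [] false,
   Spec.mk (nat_lit 9200) (nat_lit 0) [] (nat_lit 0) [] false,
   Spec.mk (nat_lit 9202) (nat_lit 0) [] (nat_lit 0) [] false,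
   Spec.mk (nat_lit 9204) (nat_lit 0) [] (nat_lit 0) [] false,
   Spec.mk (nat_lit 9212) (nat_lit 0) [] (nat_lit 0) [] false,
   Spec.mk (nat_lit 9214) (nat_lit 0) [] (nat_lit 0) [] false,
   Spec.mk (nat_lit 9218) (nat_lit 0) [] (nat_lit 0) [] false,
   Spec.mk (nat_lit 9220) (nat_lit 0) [] (nat_lit 0) [] false,
   Spec.mk (nat_lit 9222) (nat_lit 0) [] (nat_lit 0) [] false,
   Spec.mk (nat_lit 9226) (nat_lit 0) [] (nat_lit 0) [] false,
   Spec.mk (nat_lit 9228) (nat_lit 0) [] (nat_lit 0) [] false,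
   Spec.mk (nat_lit 9260) (nat_lit 0) [] (nat_lit 0) [] false,
   Spec.mk (nat_lit 9278) (nat_lit 0) [] (nat_lit 0) [] false,
   Spec.mk (nat_lit 9284) (nat_lit 0) [] (nat_lit 0) [] false,
   Spec.mk (nat_lit 9286) (nat_lit 0) [] (nat_lit 0) [] false,
   Spec.mk (nat_lit 9296) (nat_lit 0) [] (nat_lit 0) [] false,
   Spec.mk (nat_lit 9302) (nat_lit 0) [] (nat_lit 0) [] false,
   Spec.mk (nat_lit 9304) (nat_lit 0) [] (nat_lit 0) [] false,
   Spec.mk (nat_lit 9308) (nat_lit 0) [] (nat_lit 0) [] false,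
   Spec.mk (nat_lit 9310) (nat_lit 0) [] (nat_lit 0) [] false,
   Spec.mk (nat_lit 9312) (nat_lit 0) [] (nat_lit 0) [] false,
   Spec.mk (nat_lit 9332) (nat_lit 0) [] (nat_lit 0) [] false,
   Spec.mk (nat_lit 9338) (nat_lit 0) [] (nat_lit 0) [] false,
   Spec.mk (nat_lit 9340) (nat_lit 0) [] (nat_lit 0) [] false,
   Spec.mk (nat_lit 9350) (nat_lit 0) [] (nat_lit 0) [] false,
   Spec.mk (nat_lit 9356) (nat_lit 0) [] (nat_lit 0) [] false,
   Spec.mk (nat_lit 9358) (nat_lit 0) [] (nat_lit 0) [] false,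
   Spec.mk (nat_lit 9362) (nat_lit 0) [] (nat_lit 0) [] false,
   Spec.mk (nat_lit 9364) (nat_lit 0) [] (nat_lit 0) [] false,
   Spec.mk (nat_lit 9366) (nat_lit 0) [] (nat_lit 0) [] false,
   Spec.mk (nat_lit 9374) (nat_lit 0) [] (nat_lit 0) [] false,
   Spec.mk (nat_lit 9376) (nat_lit 0) [] (nat_lit 0) [] false,
   Spec.mk (nat_lit 9380) (nat_lit 0) [] (nat_lit 0) [] false,
   Spec.mk (nat_lit 9382) (nat_lit 0) [] (nat_lit 0) [] false,
   Spec.mk (nat_lit 9384) (nat_lit 0) [] (nat_lit 0) [] false,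
   Spec.mk (nat_lit 9388) (nat_lit 0) [] (nat_lit 0) [] false,
   Spec.mk (nat_lit 9390) (nat_lit 0) [] (nat_lit 0) [] false,
   Spec.mk (nat_lit 9404) (nat_lit 0) [] (nat_lit 0) [] false,
   Spec.mk (nat_lit 9410) (nat_lit 0) [] (nat_lit 0) [] false,
   Spec.mk (nat_lit 9412) (nat_lit 0) [] (nat_lit 0) [] false,
   Spec.mk (nat_lit 9416) (nat_lit 0) [] (nat_lit 0) [] false,
   Spec.mk (nat_lit 9418) (nat_lit 0) [] (nat_lit 0) [] false,
   Spec.mk (nat_lit 9420) (nat_lit 0) [] (nat_lit 0) [] false,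
   Spec.mk (nat_lit 9428) (nat_lit 0) [] (nat_lit 0) [] false,
   Spec.mk (nat_lit 9430) (nat_lit 0) [] (nat_lit 0) [] false,
   Spec.mk (nat_lit 9434) (nat_lit 0) [] (nat_lit 0) [] false,
   Spec.mk (nat_lit 9436) (nat_lit 0) [] (nat_lit 0) [] false,
   Spec.mk (nat_lit 9438) (nat_lit 0) [] (nat_lit 0) [] false,
   Spec.mk (nat_lit 9442) (nat_lit 0) [] (nat_lit 0) [] false,
   Spec.mk (nat_lit 9444) (nat_lit 0) [] (nat_lit 0) [] false,
   Spec.mk (nat_lit 9452) (nat_lit 0) [] (nat_lit 0) [] false,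
   Spec.mk (nat_lit 9454) (nat_lit 0) [] (nat_lit 0) [] false,
   Spec.mk (nat_lit 9456) (nat_lit 0) [] (nat_lit 0) [] false,
   Spec.mk (nat_lit 9460) (nat_lit 0) [] (nat_lit 0) [] false,
   Spec.mk (nat_lit 9462) (nat_lit 0) [] (nat_lit 0) [] false,
   Spec.mk (nat_lit 9468) (nat_lit 0) [] (nat_lit 0) [] false]

noncomputable def cd19 : List Spec :=
  [Spec.mk (nat_lit 9530) (nat_lit 0) [] (nat_lit 0) [] false,
   Spec.mk (nat_lit 9548) (nat_lit 0) [] (nat_lit 0) [] false,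
   Spec.mk (nat_lit 9554) (nat_lit 0) [] (nat_lit 0) [] false,
   Spec.mk (nat_lit 9556) (nat_lit 0) [] (nat_lit 0) [] false,
   Spec.mk (nat_lit 9584) (nat_lit 0) [] (nat_lit 0) [] false,
   Spec.mk (nat_lit 9602) (nat_lit 0) [] (nat_lit 0) [] false,
   Spec.mk (nat_lit 9608) (nat_lit 0) [] (nat_lit 0) [] false,
   Spec.mk (nat_lit 9610) (nat_lit 0) [] (nat_lit 0) [] false,
   Spec.mk (nat_lit 9620) (nat_lit 0) [] (nat_lit 0) [] false,
   Spec.mk (nat_lit 9626) (nat_lit 0) [] (nat_lit 0) [] false,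
   Spec.mk (nat_lit 9628) (nat_lit 0) [] (nat_lit 0) [] false,
   Spec.mk (nat_lit 9632) (nat_lit 0) [] (nat_lit 0) [] false,
   Spec.mk (nat_lit 9634) (nat_lit 0) [] (nat_lit 0) [] false,
   Spec.mk (nat_lit 9636) (nat_lit 0) [] (nat_lit 0) [] false,
   Spec.mk (nat_lit 9656) (nat_lit 0) [] (nat_lit 0) [] false,
   Spec.mk (nat_lit 9662) (nat_lit 0) [] (nat_lit 0) [] false,
   Spec.mk (nat_lit 9664) (nat_lit 0) [] (nat_lit 0) [] false,
   Spec.mk (nat_lit 9674) (nat_lit 0) [] (nat_lit 0) [] false,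
   Spec.mk (nat_lit 9680) (nat_lit 0) [] (nat_lit 0) [] false,
   Spec.mk (nat_lit 9682) (nat_lit 0) [] (nat_lit 0) [] false,
   Spec.mk (nat_lit 9686) (nat_lit 0) [] (nat_lit 0) [] false,
   Spec.mk (nat_lit 9688) (nat_lit 0) [] (nat_lit 0) [] false,
   Spec.mk (nat_lit 9690) (nat_lit 0) [] (nat_lit 0) [] false,
   Spec.mk (nat_lit 9698) (nat_lit 0) [] (nat_lit 0) [] false,
   Spec.mk (nat_lit 9700) (nat_lit 0) [] (nat_lit 0) [] false,
   Spec.mk (nat_lit 9704) (nat_lit 0) [] (nat_lit 0) [] false,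
   Spec.mk (nat_lit 9706) (nat_lit 0) [] (nat_lit 0) [] false,
   Spec.mk (nat_lit 9708) (nat_lit 0) [] (nat_lit 0) [] false,
   Spec.mk (nat_lit 9712) (nat_lit 0) [] (nat_lit 0) [] false,
   Spec.mk (nat_lit 9714) (nat_lit 0) [] (nat_lit 0) [] false,
   Spec.mk (nat_lit 9746) (nat_lit 0) [] (nat_lit 0) [] false,
   Spec.mk (nat_lit 9764) (nat_lit 0) [] (nat_lit 0) [] false,
   Spec.mk (nat_lit 9770) (nat_lit 0) [] (nat_lit 0) [] false,
   Spec.mk (nat_lit 9772) (nat_lit 0) [] (nat_lit 0) [] false,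
   Spec.mk (nat_lit 9782) (nat_lit 0) [] (nat_lit 0) [] false,
   Spec.mk (nat_lit 9788) (nat_lit 0) [] (nat_lit 0) [] false,
   Spec.mk (nat_lit 9790) (nat_lit 0) [] (nat_lit 0) [] false,
   Spec.mk (nat_lit 9794) (nat_lit 0) [] (nat_lit 0) [] false,
   Spec.mk (nat_lit 9796) (nat_lit 0) [] (nat_lit 0) [] false,
   Spec.mk (nat_lit 9798) (nat_lit 0) [] (nat_lit 0) [] false,
   Spec.mk (nat_lit 9818) (nat_lit 0) [] (nat_lit 0) [] false,
   Spec.mk (nat_lit 9824) (nat_lit 0) [] (nat_lit 0) [] false,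
   Spec.mk (nat_lit 9826) (nat_lit 0) [] (nat_lit 0) [] false,
   Spec.mk (nat_lit 9836) (nat_lit 0) [] (nat_lit 0) [] false,
   Spec.mk (nat_lit 9842) (nat_lit 0) [] (nat_lit 0) [] false,
   Spec.mk (nat_lit 9844) (nat_lit 0) [] (nat_lit 0) [] false,
   Spec.mk (nat_lit 9848) (nat_lit 0) [] (nat_lit 0) [] false,
   Spec.mk (nat_lit 9850) (nat_lit 0) [] (nat_lit 0) [] false,
   Spec.mk (nat_lit 9852) (nat_lit 0) [] (nat_lit 0) [] false,
   Spec.mk (nat_lit 9860) (nat_lit 0) [] (nat_lit 0) [] false,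
   Spec.mk (nat_lit 9862) (nat_lit 0) [] (nat_lit 0) [] false,
   Spec.mk (nat_lit 9866) (nat_lit 0) [] (nat_lit 0) [] false,
   Spec.mk (nat_lit 9868) (nat_lit 0) [] (nat_lit 0) [] false,
   Spec.mk (nat_lit 9870) (nat_lit 0) [] (nat_lit 0) [] false,
   Spec.mk (nat_lit 9874) (nat_lit 0) [] (nat_lit 0) [] false,
   Spec.mk (nat_lit 9876) (nat_lit 0) [] (nat_lit 0) [] false,
   Spec.mk (nat_lit 9890) (nat_lit 0) [] (nat_lit 0) [] false,
   Spec.mk (nat_lit 9896) (nat_lit 0) [] (nat_lit 0) [] false,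
   Spec.mk (nat_lit 9898) (nat_lit 0) [] (nat_lit 0) [] false,
   Spec.mk (nat_lit 9902) (nat_lit 0) [] (nat_lit 0) [] false]

noncomputable def cd20 : List Spec :=
  [Spec.mk (nat_lit 9904) (nat_lit 0) [] (nat_lit 0) [] false,
   Spec.mk (nat_lit 9906) (nat_lit 0) [] (nat_lit 0) [] false,
   Spec.mk (nat_lit 9914) (nat_lit 0) [] (nat_lit 0) [] false,
   Spec.mk (nat_lit 9916) (nat_lit 0) [] (nat_lit 0) [] false,
   Spec.mk (nat_lit 9920) (nat_lit 0) [] (nat_lit 0) [] false,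
   Spec.mk (nat_lit 9922) (nat_lit 0) [] (nat_lit 0) [] false,
   Spec.mk (nat_lit 9924) (nat_lit 0) [] (nat_lit 0) [] false,
   Spec.mk (nat_lit 9928) (nat_lit 0) [] (nat_lit 0) [] false,
   Spec.mk (nat_lit 9930) (nat_lit 0) [] (nat_lit 0) [] false,
   Spec.mk (nat_lit 9938) (nat_lit 0) [] (nat_lit 0) [] false,
   Spec.mk (nat_lit 9940) (nat_lit 0) [] (nat_lit 0) [] false,
   Spec.mk (nat_lit 9942) (nat_lit 0) [] (nat_lit 0) [] false,
   Spec.mk (nat_lit 9946) (nat_lit 0) [] (nat_lit 0) [] false,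
   Spec.mk (nat_lit 9948) (nat_lit 0) [] (nat_lit 0) [] false,
   Spec.mk (nat_lit 9954) (nat_lit 0) [] (nat_lit 0) [] false,
   Spec.mk (nat_lit 9980) (nat_lit 0) [] (nat_lit 0) [] false,
   Spec.mk (nat_lit 9986) (nat_lit 0) [] (nat_lit 0) [] false,
   Spec.mk (nat_lit 9988) (nat_lit 0) [] (nat_lit 0) [] false,
   Spec.mk (nat_lit 9998) (nat_lit 0) [] (nat_lit 0) [] false,
   Spec.mk (nat_lit 10004) (nat_lit 0) [] (nat_lit 0) [] false,
   Spec.mk (nat_lit 10006) (nat_lit 0) [] (nat_lit 0) [] false,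
   Spec.mk (nat_lit 10010) (nat_lit 0) [] (nat_lit 0) [] false,
   Spec.mk (nat_lit 10012) (nat_lit 0) [] (nat_lit 0) [] false,
   Spec.mk (nat_lit 10014) (nat_lit 0) [] (nat_lit 0) [] false,
   Spec.mk (nat_lit 10022) (nat_lit 0) [] (nat_lit 0) [] false,
   Spec.mk (nat_lit 10024) (nat_lit 0) [] (nat_lit 0) [] false,
   Spec.mk (nat_lit 10028) (nat_lit 0) [] (nat_lit 0) [] false,
   Spec.mk (nat_lit 10030) (nat_lit 0) [] (nat_lit 0) [] false,
   Spec.mk (nat_lit 10032) (nat_lit 0) [] (nat_lit 0) [] false,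
   Spec.mk (nat_lit 10036) (nat_lit 0) [] (nat_lit 0) [] false,
   Spec.mk (nat_lit 10038) (nat_lit 0) [] (nat_lit 0) [] false,
   Spec.mk (nat_lit 10052) (nat_lit 0) [] (nat_lit 0) [] false,
   Spec.mk (nat_lit 10058) (nat_lit 0) [] (nat_lit 0) [] false,
   Spec.mk (nat_lit 10060) (nat_lit 0) [] (nat_lit 0) [] false,
   Spec.mk (nat_lit 10064) (nat_lit 0) [] (nat_lit 0) [] false,
   Spec.mk (nat_lit 10066) (nat_lit 0) [] (nat_lit 0) [] false,
   Spec.mk (nat_lit 10068) (nat_lit 0) [] (nat_lit 0) [] false,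
   Spec.mk (nat_lit 10076) (nat_lit 0) [] (nat_lit 0) [] false,
   Spec.mk (nat_lit 10078) (nat_lit 0) [] (nat_lit 0) [] false,
   Spec.mk (nat_lit 10082) (nat_lit 0) [] (nat_lit 0) [] false,
   Spec.mk (nat_lit 10084) (nat_lit 0) [] (nat_lit 0) [] false,
   Spec.mk (nat_lit 10086) (nat_lit 0) [] (nat_lit 0) [] false,
   Spec.mk (nat_lit 10090) (nat_lit 0) [] (nat_lit 0) [] false,
   Spec.mk (nat_lit 10092) (nat_lit 0) [] (nat_lit 0) [] false,
   Spec.mk (nat_lit 10100) (nat_lit 0) [] (nat_lit 0) [] false,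
   Spec.mk (nat_lit 10102) (nat_lit 0) [] (nat_lit 0) [] false,
   Spec.mk (nat_lit 10104) (nat_lit 0) [] (nat_lit 0) [] false,
   Spec.mk (nat_lit 10108) (nat_lit 0) [] (nat_lit 0) [] false,
   Spec.mk (nat_lit 10110) (nat_lit 0) [] (nat_lit 0) [] false,
   Spec.mk (nat_lit 10116) (nat_lit 0) [] (nat_lit 0) [] false,
   Spec.mk (nat_lit 10130) (nat_lit 0) [] (nat_lit 0) [] false,
   Spec.mk (nat_lit 10132) (nat_lit 0) [] (nat_lit 0) [] false,
   Spec.mk (nat_lit 10136) (nat_lit 0) [] (nat_lit 0) [] false,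
   Spec.mk (nat_lit 10138) (nat_lit 0) [] (nat_lit 0) [] false,
   Spec.mk (nat_lit 10140) (nat_lit 0) [] (nat_lit 0) [] false,
   Spec.mk (nat_lit 10144) (nat_lit 0) [] (nat_lit 0) [] false,
   Spec.mk (nat_lit 10146) (nat_lit 0) [] (nat_lit 0) [] false,
   Spec.mk (nat_lit 10154) (nat_lit 0) [] (nat_lit 0) [] false,
   Spec.mk (nat_lit 10156) (nat_lit 0) [] (nat_lit 0) [] false,
   Spec.mk (nat_lit 10158) (nat_lit 0) [] (nat_lit 0) [] false]

noncomputable def cd21 : List Spec :=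
  [Spec.mk (nat_lit 10162) (nat_lit 0) [] (nat_lit 0) [] false,
   Spec.mk (nat_lit 10164) (nat_lit 0) [] (nat_lit 0) [] false,
   Spec.mk (nat_lit 10170) (nat_lit 0) [] (nat_lit 0) [] false,
   Spec.mk (nat_lit 10180) (nat_lit 0) [] (nat_lit 0) [] false,
   Spec.mk (nat_lit 10182) (nat_lit 0) [] (nat_lit 0) [] false,
   Spec.mk (nat_lit 10188) (nat_lit 0) [] (nat_lit 0) [] false,
   Spec.mk (nat_lit 10232) (nat_lit 0) [] (nat_lit 0) [] false,
   Spec.mk (nat_lit 10250) (nat_lit 0) [] (nat_lit 0) [] false,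
   Spec.mk (nat_lit 10256) (nat_lit 0) [] (nat_lit 0) [] false,
   Spec.mk (nat_lit 10258) (nat_lit 0) [] (nat_lit 0) [] false,
   Spec.mk (nat_lit 10268) (nat_lit 0) [] (nat_lit 0) [] false,
   Spec.mk (nat_lit 10274) (nat_lit 0) [] (nat_lit 0) [] false,
   Spec.mk (nat_lit 10276) (nat_lit 0) [] (nat_lit 0) [] false,
   Spec.mk (nat_lit 10280) (nat_lit 0) [] (nat_lit 0) [] false,
   Spec.mk (nat_lit 10282) (nat_lit 0) [] (nat_lit 0) [] false,
   Spec.mk (nat_lit 10284) (nat_lit 0) [] (nat_lit 0) [] false,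
   Spec.mk (nat_lit 10304) (nat_lit 0) [] (nat_lit 0) [] false,
   Spec.mk (nat_lit 10310) (nat_lit 0) [] (nat_lit 0) [] false,
   Spec.mk (nat_lit 10312) (nat_lit 0) [] (nat_lit 0) [] false,
   Spec.mk (nat_lit 10322) (nat_lit 0) [] (nat_lit 0) [] false,
   Spec.mk (nat_lit 10328) (nat_lit 0) [] (nat_lit 0) [] false,
   Spec.mk (nat_lit 10330) (nat_lit 0) [] (nat_lit 0) [] false,
   Spec.mk (nat_lit 10334) (nat_lit 0) [] (nat_lit 0) [] false,
   Spec.mk (nat_lit 10336) (nat_lit 0) [] (nat_lit 0) [] false,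
   Spec.mk (nat_lit 10338) (nat_lit 0) [] (nat_lit 0) [] false,
   Spec.mk (nat_lit 10346) (nat_lit 0) [] (nat_lit 0) [] false,
   Spec.mk (nat_lit 10348) (nat_lit 0) [] (nat_lit 0) [] false,
   Spec.mk (nat_lit 10352) (nat_lit 0) [] (nat_lit 0) [] false,
   Spec.mk (nat_lit 10354) (nat_lit 0) [] (nat_lit 0) [] false,
   Spec.mk (nat_lit 10356) (nat_lit 0) [] (nat_lit 0) [] false,
   Spec.mk (nat_lit 10360) (nat_lit 0) [] (nat_lit 0) [] false,
   Spec.mk (nat_lit 10362) (nat_lit 0) [] (nat_lit 0) [] false,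
   Spec.mk (nat_lit 10376) (nat_lit 0) [] (nat_lit 0) [] false,
   Spec.mk (nat_lit 10382) (nat_lit 0) [] (nat_lit 0) [] false,
   Spec.mk (nat_lit 10384) (nat_lit 0) [] (nat_lit 0) [] false,
   Spec.mk (nat_lit 10388) (nat_lit 0) [] (nat_lit 0) [] false,
   Spec.mk (nat_lit 10390) (nat_lit 0) [] (nat_lit 0) [] false,
   Spec.mk (nat_lit 10392) (nat_lit 0) [] (nat_lit 0) [] false,
   Spec.mk (nat_lit 10400) (nat_lit 0) [] (nat_lit 0) [] false,
   Spec.mk (nat_lit 10402) (nat_lit 0) [] (nat_lit 0) [] false,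
   Spec.mk (nat_lit 10406) (nat_lit 0) [] (nat_lit 0) [] false,
   Spec.mk (nat_lit 10408) (nat_lit 0) [] (nat_lit 0) [] false,
   Spec.mk (nat_lit 10410) (nat_lit 0) [] (nat_lit 0) [] false,
   Spec.mk (nat_lit 10414) (nat_lit 0) [] (nat_lit 0) [] false,
   Spec.mk (nat_lit 10416) (nat_lit 0) [] (nat_lit 0) [] false,
   Spec.mk (nat_lit 10424) (nat_lit 0) [] (nat_lit 0) [] false,
   Spec.mk (nat_lit 10426) (nat_lit 0) [] (nat_lit 0) [] false,
   Spec.mk (nat_lit 10428) (nat_lit 0) [] (nat_lit 0) [] false,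
   Spec.mk (nat_lit 10432) (nat_lit 0) [] (nat_lit 0) [] false,
   Spec.mk (nat_lit 10434) (nat_lit 0) [] (nat_lit 0) [] false,
   Spec.mk (nat_lit 10440) (nat_lit 0) [] (nat_lit 0) [] false,
   Spec.mk (nat_lit 10466) (nat_lit 0) [] (nat_lit 0) [] false,
   Spec.mk (nat_lit 10472) (nat_lit 0) [] (nat_lit 0) [] false,
   Spec.mk (nat_lit 10474) (nat_lit 0) [] (nat_lit 0) [] false,
   Spec.mk (nat_lit 10484) (nat_lit 0) [] (nat_lit 0) [] false,
   Spec.mk (nat_lit 10490) (nat_lit 0) [] (nat_lit 0) [] false,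
   Spec.mk (nat_lit 10492) (nat_lit 0) [] (nat_lit 0) [] false,
   Spec.mk (nat_lit 10496) (nat_lit 0) [] (nat_lit 0) [] false,
   Spec.mk (nat_lit 10498) (nat_lit 0) [] (nat_lit 0) [] false,
   Spec.mk (nat_lit 10500) (nat_lit 0) [] (nat_lit 0) [] false]

noncomputable def cd22 : List Spec :=
  [Spec.mk (nat_lit 10508) (nat_lit 0) [] (nat_lit 0) [] false,
   Spec.mk (nat_lit 10510) (nat_lit 0) [] (nat_lit 0) [] false,
   Spec.mk (nat_lit 10514) (nat_lit 0) [] (nat_lit 0) [] false,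
   Spec.mk (nat_lit 10516) (nat_lit 0) [] (nat_lit 0) [] false,
   Spec.mk (nat_lit 10518) (nat_lit 0) [] (nat_lit 0) [] false,
   Spec.mk (nat_lit 10522) (nat_lit 0) [] (nat_lit 0) [] false,
   Spec.mk (nat_lit 10524) (nat_lit 0) [] (nat_lit 0) [] false,
   Spec.mk (nat_lit 10538) (nat_lit 0) [] (nat_lit 0) [] false,
   Spec.mk (nat_lit 10544) (nat_lit 0) [] (nat_lit 0) [] false,
   Spec.mk (nat_lit 10546) (nat_lit 0) [] (nat_lit 0) [] false,
   Spec.mk (nat_lit 10550) (nat_lit 0) [] (nat_lit 0) [] false,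
   Spec.mk (nat_lit 10552) (nat_lit 0) [] (nat_lit 0) [] false,
   Spec.mk (nat_lit 10554) (nat_lit 0) [] (nat_lit 0) [] false,
   Spec.mk (nat_lit 10562) (nat_lit 0) [] (nat_lit 0) [] false,
   Spec.mk (nat_lit 10564) (nat_lit 0) [] (nat_lit 0) [] false,
   Spec.mk (nat_lit 10568) (nat_lit 0) [] (nat_lit 0) [] false,
   Spec.mk (nat_lit 10570) (nat_lit 0) [] (nat_lit 0) [] false,
   Spec.mk (nat_lit 10572) (nat_lit 0) [] (nat_lit 0) [] false,
   Spec.mk (nat_lit 10576) (nat_lit 0) [] (nat_lit 0) [] false,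
   Spec.mk (nat_lit 10578) (nat_lit 0) [] (nat_lit 0) [] false,
   Spec.mk (nat_lit 10586) (nat_lit 0) [] (nat_lit 0) [] false,
   Spec.mk (nat_lit 10588) (nat_lit 0) [] (nat_lit 0) [] false,
   Spec.mk (nat_lit 10590) (nat_lit 0) [] (nat_lit 0) [] false,
   Spec.mk (nat_lit 10594) (nat_lit 0) [] (nat_lit 0) [] false,
   Spec.mk (nat_lit 10596) (nat_lit 0) [] (nat_lit 0) [] false,
   Spec.mk (nat_lit 10602) (nat_lit 0) [] (nat_lit 0) [] false,
   Spec.mk (nat_lit 10616) (nat_lit 0) [] (nat_lit 0) [] false,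
   Spec.mk (nat_lit 10618) (nat_lit 0) [] (nat_lit 0) [] false,
   Spec.mk (nat_lit 10622) (nat_lit 0) [] (nat_lit 0) [] false,
   Spec.mk (nat_lit 10624) (nat_lit 0) [] (nat_lit 0) [] false,
   Spec.mk (nat_lit 10626) (nat_lit 0) [] (nat_lit 0) [] false,
   Spec.mk (nat_lit 10630) (nat_lit 0) [] (nat_lit 0) [] false,
   Spec.mk (nat_lit 10632) (nat_lit 0) [] (nat_lit 0) [] false,
   Spec.mk (nat_lit 10640) (nat_lit 0) [] (nat_lit 0) [] false,
   Spec.mk (nat_lit 10642) (nat_lit 0) [] (nat_lit 0) [] false,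
   Spec.mk (nat_lit 10644) (nat_lit 0) [] (nat_lit 0) [] false,
   Spec.mk (nat_lit 10648) (nat_lit 0) [] (nat_lit 0) [] false,
   Spec.mk (nat_lit 10650) (nat_lit 0) [] (nat_lit 0) [] false,
   Spec.mk (nat_lit 10656) (nat_lit 0) [] (nat_lit 0) [] false,
   Spec.mk (nat_lit 10666) (nat_lit 0) [] (nat_lit 0) [] false,
   Spec.mk (nat_lit 10668) (nat_lit 0) [] (nat_lit 0) [] false,
   Spec.mk (nat_lit 10674) (nat_lit 0) [] (nat_lit 0) [] false,
   Spec.mk (nat_lit 10700) (nat_lit 0) [] (nat_lit 0) [] false,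
   Spec.mk (nat_lit 10706) (nat_lit 0) [] (nat_lit 0) [] false,
   Spec.mk (nat_lit 10708) (nat_lit 0) [] (nat_lit 0) [] false,
   Spec.mk (nat_lit 10712) (nat_lit 0) [] (nat_lit 0) [] false,
   Spec.mk (nat_lit 10714) (nat_lit 0) [] (nat_lit 0) [] false,
   Spec.mk (nat_lit 10716) (nat_lit 0) [] (nat_lit 0) [] false,
   Spec.mk (nat_lit 10724) (nat_lit 0) [] (nat_lit 0) [] false,
   Spec.mk (nat_lit 10726) (nat_lit 0) [] (nat_lit 0) [] false,
   Spec.mk (nat_lit 10730) (nat_lit 0) [] (nat_lit 0) [] false,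
   Spec.mk (nat_lit 10732) (nat_lit 0) [] (nat_lit 0) [] false,
   Spec.mk (nat_lit 10734) (nat_lit 0) [] (nat_lit 0) [] false,
   Spec.mk (nat_lit 10738) (nat_lit 0) [] (nat_lit 0) [] false,
   Spec.mk (nat_lit 10740) (nat_lit 0) [] (nat_lit 0) [] false,
   Spec.mk (nat_lit 10748) (nat_lit 0) [] (nat_lit 0) [] false,
   Spec.mk (nat_lit 10750) (nat_lit 0) [] (nat_lit 0) [] false,
   Spec.mk (nat_lit 10752) (nat_lit 0) [] (nat_lit 0) [] false,
   Spec.mk (nat_lit 10756) (nat_lit 0) [] (nat_lit 0) [] false,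
   Spec.mk (nat_lit 10758) (nat_lit 0) [] (nat_lit 0) [] false]

noncomputable def cd23 : List Spec :=
  [Spec.mk (nat_lit 10764) (nat_lit 0) [] (nat_lit 0) [] false,
   Spec.mk (nat_lit 10778) (nat_lit 0) [] (nat_lit 0) [] false,
   Spec.mk (nat_lit 10780) (nat_lit 0) [] (nat_lit 0) [] false,
   Spec.mk (nat_lit 10784) (nat_lit 0) [] (nat_lit 0) [] false,
   Spec.mk (nat_lit 10786) (nat_lit 0) [] (nat_lit 0) [] false,
   Spec.mk (nat_lit 10788) (nat_lit 0) [] (nat_lit 0) [] false,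
   Spec.mk (nat_lit 10792) (nat_lit 0) [] (nat_lit 0) [] false,
   Spec.mk (nat_lit 10794) (nat_lit 0) [] (nat_lit 0) [] false,
   Spec.mk (nat_lit 10802) (nat_lit 0) [] (nat_lit 0) [] false,
   Spec.mk (nat_lit 10804) (nat_lit 0) [] (nat_lit 0) [] false,
   Spec.mk (nat_lit 10806) (nat_lit 0) [] (nat_lit 0) [] false,
   Spec.mk (nat_lit 10810) (nat_lit 0) [] (nat_lit 0) [] false,
   Spec.mk (nat_lit 10812) (nat_lit 0) [] (nat_lit 0) [] false,
   Spec.mk (nat_lit 10818) (nat_lit 0) [] (nat_lit 0) [] false,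
   Spec.mk (nat_lit 10828) (nat_lit 0) [] (nat_lit 0) [] false,
   Spec.mk (nat_lit 10830) (nat_lit 0) [] (nat_lit 0) [] false,
   Spec.mk (nat_lit 10836) (nat_lit 0) [] (nat_lit 0) [] false,
   Spec.mk (nat_lit 10856) (nat_lit 0) [] (nat_lit 0) [] false,
   Spec.mk (nat_lit 10858) (nat_lit 0) [] (nat_lit 0) [] false,
   Spec.mk (nat_lit 10860) (nat_lit 0) [] (nat_lit 0) [] false,
   Spec.mk (nat_lit 10864) (nat_lit 0) [] (nat_lit 0) [] false,
   Spec.mk (nat_lit 10866) (nat_lit 0) [] (nat_lit 0) [] false,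
   Spec.mk (nat_lit 10872) (nat_lit 0) [] (nat_lit 0) [] false,
   Spec.mk (nat_lit 10882) (nat_lit 0) [] (nat_lit 0) [] false,
   Spec.mk (nat_lit 10884) (nat_lit 0) [] (nat_lit 0) [] false,
   Spec.mk (nat_lit 10890) (nat_lit 0) [] (nat_lit 0) [] false,
   Spec.mk (nat_lit 10908) (nat_lit 0) [] (nat_lit 0) [] false,
   Spec.mk (nat_lit 10988) (nat_lit 0) [] (nat_lit 0) [] false,
   Spec.mk (nat_lit 11006) (nat_lit 0) [] (nat_lit 0) [] false,
   Spec.mk (nat_lit 11012) (nat_lit 0) [] (nat_lit 0) [] false,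
   Spec.mk (nat_lit 11014) (nat_lit 0) [] (nat_lit 0) [] false,
   Spec.mk (nat_lit 11042) (nat_lit 0) [] (nat_lit 0) [] false,
   Spec.mk (nat_lit 11060) (nat_lit 0) [] (nat_lit 0) [] false,
   Spec.mk (nat_lit 11066) (nat_lit 0) [] (nat_lit 0) [] false,
   Spec.mk (nat_lit 11068) (nat_lit 0) [] (nat_lit 0) [] false,
   Spec.mk (nat_lit 11078) (nat_lit 0) [] (nat_lit 0) [] false,
   Spec.mk (nat_lit 11084) (nat_lit 0) [] (nat_lit 0) [] false,
   Spec.mk (nat_lit 11086) (nat_lit 0) [] (nat_lit 0) [] false,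
   Spec.mk (nat_lit 11090) (nat_lit 0) [] (nat_lit 0) [] false,
   Spec.mk (nat_lit 11092) (nat_lit 0) [] (nat_lit 0) [] false,
   Spec.mk (nat_lit 11094) (nat_lit 0) [] (nat_lit 0) [] false,
   Spec.mk (nat_lit 11114) (nat_lit 0) [] (nat_lit 0) [] false,
   Spec.mk (nat_lit 11120) (nat_lit 0) [] (nat_lit 0) [] false,
   Spec.mk (nat_lit 11122) (nat_lit 0) [] (nat_lit 0) [] false,
   Spec.mk (nat_lit 11132) (nat_lit 0) [] (nat_lit 0) [] false,
   Spec.mk (nat_lit 11138) (nat_lit 0) [] (nat_lit 0) [] false,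
   Spec.mk (nat_lit 11140) (nat_lit 0) [] (nat_lit 0) [] false,
   Spec.mk (nat_lit 11144) (nat_lit 0) [] (nat_lit 0) [] false,
   Spec.mk (nat_lit 11146) (nat_lit 0) [] (nat_lit 0) [] false,
   Spec.mk (nat_lit 11148) (nat_lit 0) [] (nat_lit 0) [] false,
   Spec.mk (nat_lit 11156) (nat_lit 0) [] (nat_lit 0) [] false,
   Spec.mk (nat_lit 11158) (nat_lit 0) [] (nat_lit 0) [] false,
   Spec.mk (nat_lit 11162) (nat_lit 0) [] (nat_lit 0) [] false,
   Spec.mk (nat_lit 11164) (nat_lit 0) [] (nat_lit 0) [] false,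
   Spec.mk (nat_lit 11166) (nat_lit 0) [] (nat_lit 0) [] false,
   Spec.mk (nat_lit 11170) (nat_lit 0) [] (nat_lit 0) [] false,
   Spec.mk (nat_lit 11172) (nat_lit 0) [] (nat_lit 0) [] false,
   Spec.mk (nat_lit 11204) (nat_lit 0) [] (nat_lit 0) [] false,
   Spec.mk (nat_lit 11222) (nat_lit 0) [] (nat_lit 0) [] false,
   Spec.mk (nat_lit 11228) (nat_lit 0) [] (nat_lit 0) [] false]

noncomputable def cd24 : List Spec :=
  [Spec.mk (nat_lit 11230) (nat_lit 0) [] (nat_lit 0) [] false,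
   Spec.mk (nat_lit 11240) (nat_lit 0) [] (nat_lit 0) [] false,
   Spec.mk (nat_lit 11246) (nat_lit 0) [] (nat_lit 0) [] false,
   Spec.mk (nat_lit 11248) (nat_lit 0) [] (nat_lit 0) [] false,
   Spec.mk (nat_lit 11252) (nat_lit 0) [] (nat_lit 0) [] false,
   Spec.mk (nat_lit 11254) (nat_lit 0) [] (nat_lit 0) [] false,
   Spec.mk (nat_lit 11256) (nat_lit 0) [] (nat_lit 0) [] false,
   Spec.mk (nat_lit 11276) (nat_lit 0) [] (nat_lit 0) [] false,
   Spec.mk (nat_lit 11282) (nat_lit 0) [] (nat_lit 0) [] false,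
   Spec.mk (nat_lit 11284) (nat_lit 0) [] (nat_lit 0) [] false,
   Spec.mk (nat_lit 11294) (nat_lit 0) [] (nat_lit 0) [] false,
   Spec.mk (nat_lit 11300) (nat_lit 0) [] (nat_lit 0) [] false,
   Spec.mk (nat_lit 11302) (nat_lit 0) [] (nat_lit 0) [] false,
   Spec.mk (nat_lit 11306) (nat_lit 0) [] (nat_lit 0) [] false,
   Spec.mk (nat_lit 11308) (nat_lit 0) [] (nat_lit 0) [] false,
   Spec.mk (nat_lit 11310) (nat_lit 0) [] (nat_lit 0) [] false,
   Spec.mk (nat_lit 11318) (nat_lit 0) [] (nat_lit 0) [] false,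
   Spec.mk (nat_lit 11320) (nat_lit 0) [] (nat_lit 0) [] false,
   Spec.mk (nat_lit 11324) (nat_lit 0) [] (nat_lit 0) [] false,
   Spec.mk (nat_lit 11326) (nat_lit 0) [] (nat_lit 0) [] false,
   Spec.mk (nat_lit 11328) (nat_lit 0) [] (nat_lit 0) [] false,
   Spec.mk (nat_lit 11332) (nat_lit 0) [] (nat_lit 0) [] false,
   Spec.mk (nat_lit 11334) (nat_lit 0) [] (nat_lit 0) [] false,
   Spec.mk (nat_lit 11348) (nat_lit 0) [] (nat_lit 0) [] false,
   Spec.mk (nat_lit 11354) (nat_lit 0) [] (nat_lit 0) [] false,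
   Spec.mk (nat_lit 11356) (nat_lit 0) [] (nat_lit 0) [] false,
   Spec.mk (nat_lit 11360) (nat_lit 0) [] (nat_lit 0) [] false,
   Spec.mk (nat_lit 11362) (nat_lit 0) [] (nat_lit 0) [] false,
   Spec.mk (nat_lit 11364) (nat_lit 0) [] (nat_lit 0) [] false,
   Spec.mk (nat_lit 11372) (nat_lit 0) [] (nat_lit 0) [] false,
   Spec.mk (nat_lit 11374) (nat_lit 0) [] (nat_lit 0) [] false,
   Spec.mk (nat_lit 11378) (nat_lit 0) [] (nat_lit 0) [] false,
   Spec.mk (nat_lit 11380) (nat_lit 0) [] (nat_lit 0) [] false,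
   Spec.mk (nat_lit 11382) (nat_lit 0) [] (nat_lit 0) [] false,
   Spec.mk (nat_lit 11386) (nat_lit 0) [] (nat_lit 0) [] false,
   Spec.mk (nat_lit 11388) (nat_lit 0) [] (nat_lit 0) [] false,
   Spec.mk (nat_lit 11396) (nat_lit 0) [] (nat_lit 0) [] false,
   Spec.mk (nat_lit 11398) (nat_lit 0) [] (nat_lit 0) [] false,
   Spec.mk (nat_lit 11400) (nat_lit 0) [] (nat_lit 0) [] false,
   Spec.mk (nat_lit 11404) (nat_lit 0) [] (nat_lit 0) [] false,
   Spec.mk (nat_lit 11406) (nat_lit 0) [] (nat_lit 0) [] false,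
   Spec.mk (nat_lit 11412) (nat_lit 0) [] (nat_lit 0) [] false,
   Spec.mk (nat_lit 11438) (nat_lit 0) [] (nat_lit 0) [] false,
   Spec.mk (nat_lit 11444) (nat_lit 0) [] (nat_lit 0) [] false,
   Spec.mk (nat_lit 11446) (nat_lit 0) [] (nat_lit 0) [] false,
   Spec.mk (nat_lit 11456) (nat_lit 0) [] (nat_lit 0) [] false,
   Spec.mk (nat_lit 11462) (nat_lit 0) [] (nat_lit 0) [] false,
   Spec.mk (nat_lit 11464) (nat_lit 0) [] (nat_lit 0) [] false,
   Spec.mk (nat_lit 11468) (nat_lit 0) [] (nat_lit 0) [] false,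
   Spec.mk (nat_lit 11470) (nat_lit 0) [] (nat_lit 0) [] false,
   Spec.mk (nat_lit 11472) (nat_lit 0) [] (nat_lit 0) [] false,
   Spec.mk (nat_lit 11480) (nat_lit 0) [] (nat_lit 0) [] false,
   Spec.mk (nat_lit 11482) (nat_lit 0) [] (nat_lit 0) [] false,
   Spec.mk (nat_lit 11486) (nat_lit 0) [] (nat_lit 0) [] false,
   Spec.mk (nat_lit 11488) (nat_lit 0) [] (nat_lit 0) [] false,
   Spec.mk (nat_lit 11490) (nat_lit 0) [] (nat_lit 0) [] false,
   Spec.mk (nat_lit 11494) (nat_lit 0) [] (nat_lit 0) [] false,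
   Spec.mk (nat_lit 11496) (nat_lit 0) [] (nat_lit 0) [] false,
   Spec.mk (nat_lit 11510) (nat_lit 0) [] (nat_lit 0) [] false,
   Spec.mk (nat_lit 11516) (nat_lit 0) [] (nat_lit 0) [] false]

noncomputable def cd25 : List Spec :=
  [Spec.mk (nat_lit 11518) (nat_lit 0) [] (nat_lit 0) [] false,
   Spec.mk (nat_lit 11522) (nat_lit 0) [] (nat_lit 0) [] false,
   Spec.mk (nat_lit 11524) (nat_lit 0) [] (nat_lit 0) [] false,
   Spec.mk (nat_lit 11526) (nat_lit 0) [] (nat_lit 0) [] false,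
   Spec.mk (nat_lit 11534) (nat_lit 0) [] (nat_lit 0) [] false,
   Spec.mk (nat_lit 11536) (nat_lit 0) [] (nat_lit 0) [] false,
   Spec.mk (nat_lit 11540) (nat_lit 0) [] (nat_lit 0) [] false,
   Spec.mk (nat_lit 11542) (nat_lit 0) [] (nat_lit 0) [] false,
   Spec.mk (nat_lit 11544) (nat_lit 0) [] (nat_lit 0) [] false,
   Spec.mk (nat_lit 11548) (nat_lit 0) [] (nat_lit 0) [] false,
   Spec.mk (nat_lit 11550) (nat_lit 0) [] (nat_lit 0) [] false,
   Spec.mk (nat_lit 11558) (nat_lit 0) [] (nat_lit 0) [] false,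
   Spec.mk (nat_lit 11560) (nat_lit 0) [] (nat_lit 0) [] false,
   Spec.mk (nat_lit 11562) (nat_lit 0) [] (nat_lit 0) [] false,
   Spec.mk (nat_lit 11566) (nat_lit 0) [] (nat_lit 0) [] false,
   Spec.mk (nat_lit 11568) (nat_lit 0) [] (nat_lit 0) [] false,
   Spec.mk (nat_lit 11574) (nat_lit 0) [] (nat_lit 0) [] false,
   Spec.mk (nat_lit 11588) (nat_lit 0) [] (nat_lit 0) [] false,
   Spec.mk (nat_lit 11590) (nat_lit 0) [] (nat_lit 0) [] false,
   Spec.mk (nat_lit 11594) (nat_lit 0) [] (nat_lit 0) [] false,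
   Spec.mk (nat_lit 11596) (nat_lit 0) [] (nat_lit 0) [] false,
   Spec.mk (nat_lit 11598) (nat_lit 0) [] (nat_lit 0) [] false,
   Spec.mk (nat_lit 11602) (nat_lit 0) [] (nat_lit 0) [] false,
   Spec.mk (nat_lit 11604) (nat_lit 0) [] (nat_lit 0) [] false,
   Spec.mk (nat_lit 11612) (nat_lit 0) [] (nat_lit 0) [] false,
   Spec.mk (nat_lit 11614) (nat_lit 0) [] (nat_lit 0) [] false,
   Spec.mk (nat_lit 11616) (nat_lit 0) [] (nat_lit 0) [] false,
   Spec.mk (nat_lit 11620) (nat_lit 0) [] (nat_lit 0) [] false,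
   Spec.mk (nat_lit 11622) (nat_lit 0) [] (nat_lit 0) [] false,
   Spec.mk (nat_lit 11628) (nat_lit 0) [] (nat_lit 0) [] false,
   Spec.mk (nat_lit 11638) (nat_lit 0) [] (nat_lit 0) [] false,
   Spec.mk (nat_lit 11640) (nat_lit 0) [] (nat_lit 0) [] false,
   Spec.mk (nat_lit 11646) (nat_lit 0) [] (nat_lit 0) [] false,
   Spec.mk (nat_lit 11690) (nat_lit 0) [] (nat_lit 0) [] false,
   Spec.mk (nat_lit 11708) (nat_lit 0) [] (nat_lit 0) [] false,
   Spec.mk (nat_lit 11714) (nat_lit 0) [] (nat_lit 0) [] false,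
   Spec.mk (nat_lit 11716) (nat_lit 0) [] (nat_lit 0) [] false,
   Spec.mk (nat_lit 11726) (nat_lit 0) [] (nat_lit 0) [] false,
   Spec.mk (nat_lit 11732) (nat_lit 0) [] (nat_lit 0) [] false,
   Spec.mk (nat_lit 11734) (nat_lit 0) [] (nat_lit 0) [] false,
   Spec.mk (nat_lit 11738) (nat_lit 0) [] (nat_lit 0) [] false,
   Spec.mk (nat_lit 11740) (nat_lit 0) [] (nat_lit 0) [] false,
   Spec.mk (nat_lit 11742) (nat_lit 0) [] (nat_lit 0) [] false,
   Spec.mk (nat_lit 11762) (nat_lit 0) [] (nat_lit 0) [] false,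
   Spec.mk (nat_lit 11768) (nat_lit 0) [] (nat_lit 0) [] false,
   Spec.mk (nat_lit 11770) (nat_lit 0) [] (nat_lit 0) [] false,
   Spec.mk (nat_lit 11780) (nat_lit 0) [] (nat_lit 0) [] false,
   Spec.mk (nat_lit 11786) (nat_lit 0) [] (nat_lit 0) [] false,
   Spec.mk (nat_lit 11788) (nat_lit 0) [] (nat_lit 0) [] false,
   Spec.mk (nat_lit 11792) (nat_lit 0) [] (nat_lit 0) [] false,
   Spec.mk (nat_lit 11794) (nat_lit 0) [] (nat_lit 0) [] false,
   Spec.mk (nat_lit 11796) (nat_lit 0) [] (nat_lit 0) [] false,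
   Spec.mk (nat_lit 11804) (nat_lit 0) [] (nat_lit 0) [] false,
   Spec.mk (nat_lit 11806) (nat_lit 0) [] (nat_lit 0) [] false,
   Spec.mk (nat_lit 11810) (nat_lit 0) [] (nat_lit 0) [] false,
   Spec.mk (nat_lit 11812) (nat_lit 0) [] (nat_lit 0) [] false,
   Spec.mk (nat_lit 11814) (nat_lit 0) [] (nat_lit 0) [] false,
   Spec.mk (nat_lit 11818) (nat_lit 0) [] (nat_lit 0) [] false,
   Spec.mk (nat_lit 11820) (nat_lit 0) [] (nat_lit 0) [] false,
   Spec.mk (nat_lit 11834) (nat_lit 0) [] (nat_lit 0) [] false]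

noncomputable def cd26 : List Spec :=
  [Spec.mk (nat_lit 11840) (nat_lit 0) [] (nat_lit 0) [] false,
   Spec.mk (nat_lit 11842) (nat_lit 0) [] (nat_lit 0) [] false,
   Spec.mk (nat_lit 11846) (nat_lit 0) [] (nat_lit 0) [] false,
   Spec.mk (nat_lit 11848) (nat_lit 0) [] (nat_lit 0) [] false,
   Spec.mk (nat_lit 11850) (nat_lit 0) [] (nat_lit 0) [] false,
   Spec.mk (nat_lit 11858) (nat_lit 0) [] (nat_lit 0) [] false,
   Spec.mk (nat_lit 11860) (nat_lit 0) [] (nat_lit 0) [] false,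
   Spec.mk (nat_lit 11864) (nat_lit 0) [] (nat_lit 0) [] false,
   Spec.mk (nat_lit 11866) (nat_lit 0) [] (nat_lit 0) [] false,
   Spec.mk (nat_lit 11868) (nat_lit 0) [] (nat_lit 0) [] false,
   Spec.mk (nat_lit 11872) (nat_lit 0) [] (nat_lit 0) [] false,
   Spec.mk (nat_lit 11874) (nat_lit 0) [] (nat_lit 0) [] false,
   Spec.mk (nat_lit 11882) (nat_lit 0) [] (nat_lit 0) [] false,
   Spec.mk (nat_lit 11884) (nat_lit 0) [] (nat_lit 0) [] false,
   Spec.mk (nat_lit 11886) (nat_lit 0) [] (nat_lit 0) [] false,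
   Spec.mk (nat_lit 11890) (nat_lit 0) [] (nat_lit 0) [] false,
   Spec.mk (nat_lit 11892) (nat_lit 0) [] (nat_lit 0) [] false,
   Spec.mk (nat_lit 11898) (nat_lit 0) [] (nat_lit 0) [] false,
   Spec.mk (nat_lit 11924) (nat_lit 0) [] (nat_lit 0) [] false,
   Spec.mk (nat_lit 11930) (nat_lit 0) [] (nat_lit 0) [] false,
   Spec.mk (nat_lit 11932) (nat_lit 0) [] (nat_lit 0) [] false,
   Spec.mk (nat_lit 11942) (nat_lit 0) [] (nat_lit 0) [] false,
   Spec.mk (nat_lit 11948) (nat_lit 0) [] (nat_lit 0) [] false,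
   Spec.mk (nat_lit 11950) (nat_lit 0) [] (nat_lit 0) [] false,
   Spec.mk (nat_lit 11954) (nat_lit 0) [] (nat_lit 0) [] false,
   Spec.mk (nat_lit 11956) (nat_lit 0) [] (nat_lit 0) [] false,
   Spec.mk (nat_lit 11958) (nat_lit 0) [] (nat_lit 0) [] false,
   Spec.mk (nat_lit 11966) (nat_lit 0) [] (nat_lit 0) [] false,
   Spec.mk (nat_lit 11968) (nat_lit 0) [] (nat_lit 0) [] false,
   Spec.mk (nat_lit 11972) (nat_lit 0) [] (nat_lit 0) [] false,
   Spec.mk (nat_lit 11974) (nat_lit 0) [] (nat_lit 0) [] false,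
   Spec.mk (nat_lit 11976) (nat_lit 0) [] (nat_lit 0) [] false,
   Spec.mk (nat_lit 11980) (nat_lit 0) [] (nat_lit 0) [] false,
   Spec.mk (nat_lit 11982) (nat_lit 0) [] (nat_lit 0) [] false,
   Spec.mk (nat_lit 11996) (nat_lit 0) [] (nat_lit 0) [] false,
   Spec.mk (nat_lit 12002) (nat_lit 0) [] (nat_lit 0) [] false,
   Spec.mk (nat_lit 12004) (nat_lit 0) [] (nat_lit 0) [] false,
   Spec.mk (nat_lit 12008) (nat_lit 0) [] (nat_lit 0) [] false,
   Spec.mk (nat_lit 12010) (nat_lit 0) [] (nat_lit 0) [] false,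
   Spec.mk (nat_lit 12012) (nat_lit 0) [] (nat_lit 0) [] false,
   Spec.mk (nat_lit 12020) (nat_lit 0) [] (nat_lit 0) [] false,
   Spec.mk (nat_lit 12022) (nat_lit 0) [] (nat_lit 0) [] false,
   Spec.mk (nat_lit 12026) (nat_lit 0) [] (nat_lit 0) [] false,
   Spec.mk (nat_lit 12028) (nat_lit 0) [] (nat_lit 0) [] false,
   Spec.mk (nat_lit 12030) (nat_lit 0) [] (nat_lit 0) [] false,
   Spec.mk (nat_lit 12034) (nat_lit 0) [] (nat_lit 0) [] false,
   Spec.mk (nat_lit 12036) (nat_lit 0) [] (nat_lit 0) [] false,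
   Spec.mk (nat_lit 12044) (nat_lit 0) [] (nat_lit 0) [] false,
   Spec.mk (nat_lit 12046) (nat_lit 0) [] (nat_lit 0) [] false,
   Spec.mk (nat_lit 12048) (nat_lit 0) [] (nat_lit 0) [] false,
   Spec.mk (nat_lit 12052) (nat_lit 0) [] (nat_lit 0) [] false,
   Spec.mk (nat_lit 12054) (nat_lit 0) [] (nat_lit 0) [] false,
   Spec.mk (nat_lit 12060) (nat_lit 0) [] (nat_lit 0) [] false,
   Spec.mk (nat_lit 12074) (nat_lit 0) [] (nat_lit 0) [] false,
   Spec.mk (nat_lit 12076) (nat_lit 0) [] (nat_lit 0) [] false,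
   Spec.mk (nat_lit 12080) (nat_lit 0) [] (nat_lit 0) [] false,
   Spec.mk (nat_lit 12082) (nat_lit 0) [] (nat_lit 0) [] false,
   Spec.mk (nat_lit 12084) (nat_lit 0) [] (nat_lit 0) [] false,
   Spec.mk (nat_lit 12088) (nat_lit 0) [] (nat_lit 0) [] false,
   Spec.mk (nat_lit 12090) (nat_lit 0) [] (nat_lit 0) [] false]

noncomputable def cd27 : List Spec :=
  [Spec.mk (nat_lit 12098) (nat_lit 0) [] (nat_lit 0) [] false,
   Spec.mk (nat_lit 12100) (nat_lit 0) [] (nat_lit 0) [] false,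
   Spec.mk (nat_lit 12102) (nat_lit 0) [] (nat_lit 0) [] false,
   Spec.mk (nat_lit 12106) (nat_lit 0) [] (nat_lit 0) [] false,
   Spec.mk (nat_lit 12108) (nat_lit 0) [] (nat_lit 0) [] false,
   Spec.mk (nat_lit 12114) (nat_lit 0) [] (nat_lit 0) [] false,
   Spec.mk (nat_lit 12124) (nat_lit 0) [] (nat_lit 0) [] false,
   Spec.mk (nat_lit 12126) (nat_lit 0) [] (nat_lit 0) [] false,
   Spec.mk (nat_lit 12132) (nat_lit 0) [] (nat_lit 0) [] false,
   Spec.mk (nat_lit 12158) (nat_lit 0) [] (nat_lit 0) [] false,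
   Spec.mk (nat_lit 12164) (nat_lit 0) [] (nat_lit 0) [] false,
   Spec.mk (nat_lit 12166) (nat_lit 0) [] (nat_lit 0) [] false,
   Spec.mk (nat_lit 12170) (nat_lit 0) [] (nat_lit 0) [] false,
   Spec.mk (nat_lit 12172) (nat_lit 0) [] (nat_lit 0) [] false,
   Spec.mk (nat_lit 12174) (nat_lit 0) [] (nat_lit 0) [] false,
   Spec.mk (nat_lit 12182) (nat_lit 0) [] (nat_lit 0) [] false,
   Spec.mk (nat_lit 12184) (nat_lit 0) [] (nat_lit 0) [] false,
   Spec.mk (nat_lit 12188) (nat_lit 0) [] (nat_lit 0) [] false,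
   Spec.mk (nat_lit 12190) (nat_lit 0) [] (nat_lit 0) [] false,
   Spec.mk (nat_lit 12192) (nat_lit 0) [] (nat_lit 0) [] false,
   Spec.mk (nat_lit 12196) (nat_lit 0) [] (nat_lit 0) [] false,
   Spec.mk (nat_lit 12198) (nat_lit 0) [] (nat_lit 0) [] false,
   Spec.mk (nat_lit 12206) (nat_lit 0) [] (nat_lit 0) [] false,
   Spec.mk (nat_lit 12208) (nat_lit 0) [] (nat_lit 0) [] false,
   Spec.mk (nat_lit 12210) (nat_lit 0) [] (nat_lit 0) [] false,
   Spec.mk (nat_lit 12214) (nat_lit 0) [] (nat_lit 0) [] false,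
   Spec.mk (nat_lit 12216) (nat_lit 0) [] (nat_lit 0) [] false,
   Spec.mk (nat_lit 12222) (nat_lit 0) [] (nat_lit 0) [] false,
   Spec.mk (nat_lit 12236) (nat_lit 0) [] (nat_lit 0) [] false,
   Spec.mk (nat_lit 12238) (nat_lit 0) [] (nat_lit 0) [] false,
   Spec.mk (nat_lit 12242) (nat_lit 0) [] (nat_lit 0) [] false,
   Spec.mk (nat_lit 12244) (nat_lit 0) [] (nat_lit 0) [] false,
   Spec.mk (nat_lit 12246) (nat_lit 0) [] (nat_lit 0) [] false,
   Spec.mk (nat_lit 12250) (nat_lit 0) [] (nat_lit 0) [] false,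
   Spec.mk (nat_lit 12252) (nat_lit 0) [] (nat_lit 0) [] false,
   Spec.mk (nat_lit 12260) (nat_lit 0) [] (nat_lit 0) [] false,
   Spec.mk (nat_lit 12262) (nat_lit 0) [] (nat_lit 0) [] false,
   Spec.mk (nat_lit 12264) (nat_lit 0) [] (nat_lit 0) [] false,
   Spec.mk (nat_lit 12268) (nat_lit 0) [] (nat_lit 0) [] false,
   Spec.mk (nat_lit 12270) (nat_lit 0) [] (nat_lit 0) [] false,
   Spec.mk (nat_lit 12276) (nat_lit 0) [] (nat_lit 0) [] false,
   Spec.mk (nat_lit 12286) (nat_lit 0) [] (nat_lit 0) [] false,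
   Spec.mk (nat_lit 12288) (nat_lit 0) [] (nat_lit 0) [] false,
   Spec.mk (nat_lit 12294) (nat_lit 0) [] (nat_lit 0) [] false,
   Spec.mk (nat_lit 12314) (nat_lit 0) [] (nat_lit 0) [] false,
   Spec.mk (nat_lit 12316) (nat_lit 0) [] (nat_lit 0) [] false,
   Spec.mk (nat_lit 12318) (nat_lit 0) [] (nat_lit 0) [] false,
   Spec.mk (nat_lit 12322) (nat_lit 0) [] (nat_lit 0) [] false,
   Spec.mk (nat_lit 12324) (nat_lit 0) [] (nat_lit 0) [] false,
   Spec.mk (nat_lit 12330) (nat_lit 0) [] (nat_lit 0) [] false,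
   Spec.mk (nat_lit 12340) (nat_lit 0) [] (nat_lit 0) [] false,
   Spec.mk (nat_lit 12342) (nat_lit 0) [] (nat_lit 0) [] false,
   Spec.mk (nat_lit 12348) (nat_lit 0) [] (nat_lit 0) [] false,
   Spec.mk (nat_lit 12366) (nat_lit 0) [] (nat_lit 0) [] false,
   Spec.mk (nat_lit 12410) (nat_lit 0) [] (nat_lit 0) [] false,
   Spec.mk (nat_lit 12416) (nat_lit 0) [] (nat_lit 0) [] false,
   Spec.mk (nat_lit 12418) (nat_lit 0) [] (nat_lit 0) [] false,
   Spec.mk (nat_lit 12428) (nat_lit 0) [] (nat_lit 0) [] false,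
   Spec.mk (nat_lit 12434) (nat_lit 0) [] (nat_lit 0) [] false,
   Spec.mk (nat_lit 12436) (nat_lit 0) [] (nat_lit 0) [] false]

noncomputable def cd28 : List Spec :=
  [Spec.mk (nat_lit 12440) (nat_lit 0) [] (nat_lit 0) [] false,
   Spec.mk (nat_lit 12442) (nat_lit 0) [] (nat_lit 0) [] false,
   Spec.mk (nat_lit 12444) (nat_lit 0) [] (nat_lit 0) [] false,
   Spec.mk (nat_lit 12452) (nat_lit 0) [] (nat_lit 0) [] false,
   Spec.mk (nat_lit 12454) (nat_lit 0) [] (nat_lit 0) [] false,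
   Spec.mk (nat_lit 12458) (nat_lit 0) [] (nat_lit 0) [] false,
   Spec.mk (nat_lit 12460) (nat_lit 0) [] (nat_lit 0) [] false,
   Spec.mk (nat_lit 12462) (nat_lit 0) [] (nat_lit 0) [] false,
   Spec.mk (nat_lit 12466) (nat_lit 0) [] (nat_lit 0) [] false,
   Spec.mk (nat_lit 12468) (nat_lit 0) [] (nat_lit 0) [] false,
   Spec.mk (nat_lit 12482) (nat_lit 0) [] (nat_lit 0) [] false,
   Spec.mk (nat_lit 12488) (nat_lit 0) [] (nat_lit 0) [] false,
   Spec.mk (nat_lit 12490) (nat_lit 0) [] (nat_lit 0) [] false,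
   Spec.mk (nat_lit 12494) (nat_lit 0) [] (nat_lit 0) [] false,
   Spec.mk (nat_lit 12496) (nat_lit 0) [] (nat_lit 0) [] false,
   Spec.mk (nat_lit 12498) (nat_lit 0) [] (nat_lit 0) [] false,
   Spec.mk (nat_lit 12506) (nat_lit 0) [] (nat_lit 0) [] false,
   Spec.mk (nat_lit 12508) (nat_lit 0) [] (nat_lit 0) [] false,
   Spec.mk (nat_lit 12512) (nat_lit 0) [] (nat_lit 0) [] false,
   Spec.mk (nat_lit 12514) (nat_lit 0) [] (nat_lit 0) [] false,
   Spec.mk (nat_lit 12516) (nat_lit 0) [] (nat_lit 0) [] false,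
   Spec.mk (nat_lit 12520) (nat_lit 0) [] (nat_lit 0) [] false,
   Spec.mk (nat_lit 12522) (nat_lit 0) [] (nat_lit 0) [] false,
   Spec.mk (nat_lit 12530) (nat_lit 0) [] (nat_lit 0) [] false,
   Spec.mk (nat_lit 12532) (nat_lit 0) [] (nat_lit 0) [] false,
   Spec.mk (nat_lit 12534) (nat_lit 0) [] (nat_lit 0) [] false,
   Spec.mk (nat_lit 12538) (nat_lit 0) [] (nat_lit 0) [] false,
   Spec.mk (nat_lit 12540) (nat_lit 0) [] (nat_lit 0) [] false,
   Spec.mk (nat_lit 12546) (nat_lit 0) [] (nat_lit 0) [] false,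
   Spec.mk (nat_lit 12560) (nat_lit 0) [] (nat_lit 0) [] false,
   Spec.mk (nat_lit 12562) (nat_lit 0) [] (nat_lit 0) [] false,
   Spec.mk (nat_lit 12566) (nat_lit 0) [] (nat_lit 0) [] false,
   Spec.mk (nat_lit 12568) (nat_lit 0) [] (nat_lit 0) [] false,
   Spec.mk (nat_lit 12570) (nat_lit 0) [] (nat_lit 0) [] false,
   Spec.mk (nat_lit 12574) (nat_lit 0) [] (nat_lit 0) [] false,
   Spec.mk (nat_lit 12576) (nat_lit 0) [] (nat_lit 0) [] false,
   Spec.mk (nat_lit 12584) (nat_lit 0) [] (nat_lit 0) [] false,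
   Spec.mk (nat_lit 12586) (nat_lit 0) [] (nat_lit 0) [] false,
   Spec.mk (nat_lit 12588) (nat_lit 0) [] (nat_lit 0) [] false,
   Spec.mk (nat_lit 12592) (nat_lit 0) [] (nat_lit 0) [] false,
   Spec.mk (nat_lit 12594) (nat_lit 0) [] (nat_lit 0) [] false,
   Spec.mk (nat_lit 12600) (nat_lit 0) [] (nat_lit 0) [] false,
   Spec.mk (nat_lit 12610) (nat_lit 0) [] (nat_lit 0) [] false,
   Spec.mk (nat_lit 12612) (nat_lit 0) [] (nat_lit 0) [] false,
   Spec.mk (nat_lit 12618) (nat_lit 0) [] (nat_lit 0) [] false,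
   Spec.mk (nat_lit 12644) (nat_lit 0) [] (nat_lit 0) [] false,
   Spec.mk (nat_lit 12650) (nat_lit 0) [] (nat_lit 0) [] false,
   Spec.mk (nat_lit 12652) (nat_lit 0) [] (nat_lit 0) [] false,
   Spec.mk (nat_lit 12656) (nat_lit 0) [] (nat_lit 0) [] false,
   Spec.mk (nat_lit 12658) (nat_lit 0) [] (nat_lit 0) [] false,
   Spec.mk (nat_lit 12660) (nat_lit 0) [] (nat_lit 0) [] false,
   Spec.mk (nat_lit 12668) (nat_lit 0) [] (nat_lit 0) [] false,
   Spec.mk (nat_lit 12670) (nat_lit 0) [] (nat_lit 0) [] false,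
   Spec.mk (nat_lit 12674) (nat_lit 0) [] (nat_lit 0) [] false,
   Spec.mk (nat_lit 12676) (nat_lit 0) [] (nat_lit 0) [] false,
   Spec.mk (nat_lit 12678) (nat_lit 0) [] (nat_lit 0) [] false,
   Spec.mk (nat_lit 12682) (nat_lit 0) [] (nat_lit 0) [] false,
   Spec.mk (nat_lit 12684) (nat_lit 0) [] (nat_lit 0) [] false,
   Spec.mk (nat_lit 12692) (nat_lit 0) [] (nat_lit 0) [] false,
   Spec.mk (nat_lit 12694) (nat_lit 0) [] (nat_lit 0) [] false]

noncomputable def cd29 : List Spec :=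
  [Spec.mk (nat_lit 12696) (nat_lit 0) [] (nat_lit 0) [] false,
   Spec.mk (nat_lit 12700) (nat_lit 0) [] (nat_lit 0) [] false,
   Spec.mk (nat_lit 12702) (nat_lit 0) [] (nat_lit 0) [] false,
   Spec.mk (nat_lit 12708) (nat_lit 0) [] (nat_lit 0) [] false,
   Spec.mk (nat_lit 12722) (nat_lit 0) [] (nat_lit 0) [] false,
   Spec.mk (nat_lit 12724) (nat_lit 0) [] (nat_lit 0) [] false,
   Spec.mk (nat_lit 12728) (nat_lit 0) [] (nat_lit 0) [] false,
   Spec.mk (nat_lit 12730) (nat_lit 0) [] (nat_lit 0) [] false,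
   Spec.mk (nat_lit 12732) (nat_lit 0) [] (nat_lit 0) [] false,
   Spec.mk (nat_lit 12736) (nat_lit 0) [] (nat_lit 0) [] false,
   Spec.mk (nat_lit 12738) (nat_lit 0) [] (nat_lit 0) [] false,
   Spec.mk (nat_lit 12746) (nat_lit 0) [] (nat_lit 0) [] false,
   Spec.mk (nat_lit 12748) (nat_lit 0) [] (nat_lit 0) [] false,
   Spec.mk (nat_lit 12750) (nat_lit 0) [] (nat_lit 0) [] false,
   Spec.mk (nat_lit 12754) (nat_lit 0) [] (nat_lit 0) [] false,
   Spec.mk (nat_lit 12756) (nat_lit 0) [] (nat_lit 0) [] false,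
   Spec.mk (nat_lit 12762) (nat_lit 0) [] (nat_lit 0) [] false,
   Spec.mk (nat_lit 12772) (nat_lit 0) [] (nat_lit 0) [] false,
   Spec.mk (nat_lit 12774) (nat_lit 0) [] (nat_lit 0) [] false,
   Spec.mk (nat_lit 12780) (nat_lit 0) [] (nat_lit 0) [] false,
   Spec.mk (nat_lit 12800) (nat_lit 0) [] (nat_lit 0) [] false,
   Spec.mk (nat_lit 12802) (nat_lit 0) [] (nat_lit 0) [] false,
   Spec.mk (nat_lit 12804) (nat_lit 0) [] (nat_lit 0) [] false,
   Spec.mk (nat_lit 12808) (nat_lit 0) [] (nat_lit 0) [] false,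
   Spec.mk (nat_lit 12810) (nat_lit 0) [] (nat_lit 0) [] false,
   Spec.mk (nat_lit 12816) (nat_lit 0) [] (nat_lit 0) [] false,
   Spec.mk (nat_lit 12826) (nat_lit 0) [] (nat_lit 0) [] false,
   Spec.mk (nat_lit 12828) (nat_lit 0) [] (nat_lit 0) [] false,
   Spec.mk (nat_lit 12834) (nat_lit 0) [] (nat_lit 0) [] false,
   Spec.mk (nat_lit 12852) (nat_lit 0) [] (nat_lit 0) [] false,
   Spec.mk (nat_lit 12884) (nat_lit 0) [] (nat_lit 0) [] false,
   Spec.mk (nat_lit 12886) (nat_lit 0) [] (nat_lit 0) [] false,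
   Spec.mk (nat_lit 12890) (nat_lit 0) [] (nat_lit 0) [] false,
   Spec.mk (nat_lit 12892) (nat_lit 0) [] (nat_lit 0) [] false,
   Spec.mk (nat_lit 12894) (nat_lit 0) [] (nat_lit 0) [] false,
   Spec.mk (nat_lit 12898) (nat_lit 0) [] (nat_lit 0) [] false,
   Spec.mk (nat_lit 12900) (nat_lit 0) [] (nat_lit 0) [] false,
   Spec.mk (nat_lit 12908) (nat_lit 0) [] (nat_lit 0) [] false,
   Spec.mk (nat_lit 12910) (nat_lit 0) [] (nat_lit 0) [] false,
   Spec.mk (nat_lit 12912) (nat_lit 0) [] (nat_lit 0) [] false,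
   Spec.mk (nat_lit 12916) (nat_lit 0) [] (nat_lit 0) [] false,
   Spec.mk (nat_lit 12918) (nat_lit 0) [] (nat_lit 0) [] false,
   Spec.mk (nat_lit 12924) (nat_lit 0) [] (nat_lit 0) [] false,
   Spec.mk (nat_lit 12934) (nat_lit 0) [] (nat_lit 0) [] false,
   Spec.mk (nat_lit 12936) (nat_lit 0) [] (nat_lit 0) [] false,
   Spec.mk (nat_lit 12942) (nat_lit 0) [] (nat_lit 0) [] false,
   Spec.mk (nat_lit 12962) (nat_lit 0) [] (nat_lit 0) [] false,
   Spec.mk (nat_lit 12964) (nat_lit 0) [] (nat_lit 0) [] false,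
   Spec.mk (nat_lit 12966) (nat_lit 0) [] (nat_lit 0) [] false,
   Spec.mk (nat_lit 12970) (nat_lit 0) [] (nat_lit 0) [] false,
   Spec.mk (nat_lit 12972) (nat_lit 0) [] (nat_lit 0) [] false,
   Spec.mk (nat_lit 12978) (nat_lit 0) [] (nat_lit 0) [] false,
   Spec.mk (nat_lit 12988) (nat_lit 0) [] (nat_lit 0) [] false,
   Spec.mk (nat_lit 12990) (nat_lit 0) [] (nat_lit 0) [] false,
   Spec.mk (nat_lit 12996) (nat_lit 0) [] (nat_lit 0) [] false,
   Spec.mk (nat_lit 13014) (nat_lit 0) [] (nat_lit 0) [] false,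
   Spec.mk (nat_lit 13042) (nat_lit 0) [] (nat_lit 0) [] false,
   Spec.mk (nat_lit 13044) (nat_lit 0) [] (nat_lit 0) [] false,
   Spec.mk (nat_lit 13050) (nat_lit 0) [] (nat_lit 0) [] false,
   Spec.mk (nat_lit 13068) (nat_lit 0) [] (nat_lit 0) [] false]

noncomputable def cd30 : List Spec :=
  [Spec.mk (nat_lit 13202) (nat_lit 0) [] (nat_lit 0) [] false,
   Spec.mk (nat_lit 13256) (nat_lit 0) [] (nat_lit 0) [] false,
   Spec.mk (nat_lit 13274) (nat_lit 0) [] (nat_lit 0) [] false,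
   Spec.mk (nat_lit 13280) (nat_lit 0) [] (nat_lit 0) [] false,
   Spec.mk (nat_lit 13282) (nat_lit 0) [] (nat_lit 0) [] false,
   Spec.mk (nat_lit 13310) (nat_lit 0) [] (nat_lit 0) [] false,
   Spec.mk (nat_lit 13328) (nat_lit 0) [] (nat_lit 0) [] false,
   Spec.mk (nat_lit 13334) (nat_lit 0) [] (nat_lit 0) [] false,
   Spec.mk (nat_lit 13336) (nat_lit 0) [] (nat_lit 0) [] false,
   Spec.mk (nat_lit 13346) (nat_lit 0) [] (nat_lit 0) [] false,
   Spec.mk (nat_lit 13352) (nat_lit 0) [] (nat_lit 0) [] false,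
   Spec.mk (nat_lit 13354) (nat_lit 0) [] (nat_lit 0) [] false,
   Spec.mk (nat_lit 13358) (nat_lit 0) [] (nat_lit 0) [] false,
   Spec.mk (nat_lit 13360) (nat_lit 0) [] (nat_lit 0) [] false,
   Spec.mk (nat_lit 13362) (nat_lit 0) [] (nat_lit 0) [] false,
   Spec.mk (nat_lit 13418) (nat_lit 0) [] (nat_lit 0) [] false,
   Spec.mk (nat_lit 13436) (nat_lit 0) [] (nat_lit 0) [] false,
   Spec.mk (nat_lit 13442) (nat_lit 0) [] (nat_lit 0) [] false,
   Spec.mk (nat_lit 13444) (nat_lit 0) [] (nat_lit 0) [] false,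
   Spec.mk (nat_lit 13472) (nat_lit 0) [] (nat_lit 0) [] false,
   Spec.mk (nat_lit 13490) (nat_lit 0) [] (nat_lit 0) [] false,
   Spec.mk (nat_lit 13496) (nat_lit 0) [] (nat_lit 0) [] false,
   Spec.mk (nat_lit 13498) (nat_lit 0) [] (nat_lit 0) [] false,
   Spec.mk (nat_lit 13508) (nat_lit 0) [] (nat_lit 0) [] false,
   Spec.mk (nat_lit 13514) (nat_lit 0) [] (nat_lit 0) [] false,
   Spec.mk (nat_lit 13516) (nat_lit 0) [] (nat_lit 0) [] false,
   Spec.mk (nat_lit 13520) (nat_lit 0) [] (nat_lit 0) [] false,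
   Spec.mk (nat_lit 13522) (nat_lit 0) [] (nat_lit 0) [] false,
   Spec.mk (nat_lit 13524) (nat_lit 0) [] (nat_lit 0) [] false,
   Spec.mk (nat_lit 13544) (nat_lit 0) [] (nat_lit 0) [] false,
   Spec.mk (nat_lit 13550) (nat_lit 0) [] (nat_lit 0) [] false,
   Spec.mk (nat_lit 13552) (nat_lit 0) [] (nat_lit 0) [] false,
   Spec.mk (nat_lit 13562) (nat_lit 0) [] (nat_lit 0) [] false,
   Spec.mk (nat_lit 13568) (nat_lit 0) [] (nat_lit 0) [] false,
   Spec.mk (nat_lit 13570) (nat_lit 0) [] (nat_lit 0) [] false,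
   Spec.mk (nat_lit 13574) (nat_lit 0) [] (nat_lit 0) [] false,
   Spec.mk (nat_lit 13576) (nat_lit 0) [] (nat_lit 0) [] false,
   Spec.mk (nat_lit 13578) (nat_lit 0) [] (nat_lit 0) [] false,
   Spec.mk (nat_lit 13586) (nat_lit 0) [] (nat_lit 0) [] false,
   Spec.mk (nat_lit 13588) (nat_lit 0) [] (nat_lit 0) [] false,
   Spec.mk (nat_lit 13592) (nat_lit 0) [] (nat_lit 0) [] false,
   Spec.mk (nat_lit 13594) (nat_lit 0) [] (nat_lit 0) [] false,
   Spec.mk (nat_lit 13596) (nat_lit 0) [] (nat_lit 0) [] false,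
   Spec.mk (nat_lit 13600) (nat_lit 0) [] (nat_lit 0) [] false,
   Spec.mk (nat_lit 13602) (nat_lit 0) [] (nat_lit 0) [] false,
   Spec.mk (nat_lit 13634) (nat_lit 0) [] (nat_lit 0) [] false,
   Spec.mk (nat_lit 13652) (nat_lit 0) [] (nat_lit 0) [] false,
   Spec.mk (nat_lit 13658) (nat_lit 0) [] (nat_lit 0) [] false,
   Spec.mk (nat_lit 13660) (nat_lit 0) [] (nat_lit 0) [] false,
   Spec.mk (nat_lit 13670) (nat_lit 0) [] (nat_lit 0) [] false,
   Spec.mk (nat_lit 13676) (nat_lit 0) [] (nat_lit 0) [] false,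
   Spec.mk (nat_lit 13678) (nat_lit 0) [] (nat_lit 0) [] false,
   Spec.mk (nat_lit 13682) (nat_lit 0) [] (nat_lit 0) [] false,
   Spec.mk (nat_lit 13684) (nat_lit 0) [] (nat_lit 0) [] false,
   Spec.mk (nat_lit 13686) (nat_lit 0) [] (nat_lit 0) [] false,
   Spec.mk (nat_lit 13706) (nat_lit 0) [] (nat_lit 0) [] false,
   Spec.mk (nat_lit 13712) (nat_lit 0) [] (nat_lit 0) [] false,
   Spec.mk (nat_lit 13714) (nat_lit 0) [] (nat_lit 0) [] false,
   Spec.mk (nat_lit 13724) (nat_lit 0) [] (nat_lit 0) [] false,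
   Spec.mk (nat_lit 13730) (nat_lit 0) [] (nat_lit 0) [] false]

noncomputable def cd31 : List Spec :=
  [Spec.mk (nat_lit 13732) (nat_lit 0) [] (nat_lit 0) [] false,
   Spec.mk (nat_lit 13736) (nat_lit 0) [] (nat_lit 0) [] false,
   Spec.mk (nat_lit 13738) (nat_lit 0) [] (nat_lit 0) [] false,
   Spec.mk (nat_lit 13740) (nat_lit 0) [] (nat_lit 0) [] false,
   Spec.mk (nat_lit 13748) (nat_lit 0) [] (nat_lit 0) [] false,
   Spec.mk (nat_lit 13750) (nat_lit 0) [] (nat_lit 0) [] false,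
   Spec.mk (nat_lit 13754) (nat_lit 0) [] (nat_lit 0) [] false,
   Spec.mk (nat_lit 13756) (nat_lit 0) [] (nat_lit 0) [] false,
   Spec.mk (nat_lit 13758) (nat_lit 0) [] (nat_lit 0) [] false,
   Spec.mk (nat_lit 13762) (nat_lit 0) [] (nat_lit 0) [] false,
   Spec.mk (nat_lit 13764) (nat_lit 0) [] (nat_lit 0) [] false,
   Spec.mk (nat_lit 13778) (nat_lit 0) [] (nat_lit 0) [] false,
   Spec.mk (nat_lit 13784) (nat_lit 0) [] (nat_lit 0) [] false,
   Spec.mk (nat_lit 13786) (nat_lit 0) [] (nat_lit 0) [] false,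
   Spec.mk (nat_lit 13790) (nat_lit 0) [] (nat_lit 0) [] false,
   Spec.mk (nat_lit 13792) (nat_lit 0) [] (nat_lit 0) [] false,
   Spec.mk (nat_lit 13794) (nat_lit 0) [] (nat_lit 0) [] false,
   Spec.mk (nat_lit 13802) (nat_lit 0) [] (nat_lit 0) [] false,
   Spec.mk (nat_lit 13804) (nat_lit 0) [] (nat_lit 0) [] false,
   Spec.mk (nat_lit 13808) (nat_lit 0) [] (nat_lit 0) [] false,
   Spec.mk (nat_lit 13810) (nat_lit 0) [] (nat_lit 0) [] false,
   Spec.mk (nat_lit 13812) (nat_lit 0) [] (nat_lit 0) [] false,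
   Spec.mk (nat_lit 13816) (nat_lit 0) [] (nat_lit 0) [] false,
   Spec.mk (nat_lit 13818) (nat_lit 0) [] (nat_lit 0) [] false,
   Spec.mk (nat_lit 13826) (nat_lit 0) [] (nat_lit 0) [] false,
   Spec.mk (nat_lit 13828) (nat_lit 0) [] (nat_lit 0) [] false,
   Spec.mk (nat_lit 13830) (nat_lit 0) [] (nat_lit 0) [] false,
   Spec.mk (nat_lit 13834) (nat_lit 0) [] (nat_lit 0) [] false,
   Spec.mk (nat_lit 13836) (nat_lit 0) [] (nat_lit 0) [] false,
   Spec.mk (nat_lit 13842) (nat_lit 0) [] (nat_lit 0) [] false,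
   Spec.mk (nat_lit 13904) (nat_lit 0) [] (nat_lit 0) [] false,
   Spec.mk (nat_lit 13922) (nat_lit 0) [] (nat_lit 0) [] false,
   Spec.mk (nat_lit 13928) (nat_lit 0) [] (nat_lit 0) [] false,
   Spec.mk (nat_lit 13930) (nat_lit 0) [] (nat_lit 0) [] false,
   Spec.mk (nat_lit 13958) (nat_lit 0) [] (nat_lit 0) [] false,
   Spec.mk (nat_lit 13976) (nat_lit 0) [] (nat_lit 0) [] false,
   Spec.mk (nat_lit 13982) (nat_lit 0) [] (nat_lit 0) [] false,
   Spec.mk (nat_lit 13984) (nat_lit 0) [] (nat_lit 0) [] false,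
   Spec.mk (nat_lit 13994) (nat_lit 0) [] (nat_lit 0) [] false,
   Spec.mk (nat_lit 14000) (nat_lit 0) [] (nat_lit 0) [] false,
   Spec.mk (nat_lit 14002) (nat_lit 0) [] (nat_lit 0) [] false,
   Spec.mk (nat_lit 14006) (nat_lit 0) [] (nat_lit 0) [] false,
   Spec.mk (nat_lit 14008) (nat_lit 0) [] (nat_lit 0) [] false,
   Spec.mk (nat_lit 14010) (nat_lit 0) [] (nat_lit 0) [] false,
   Spec.mk (nat_lit 14030) (nat_lit 0) [] (nat_lit 0) [] false,
   Spec.mk (nat_lit 14036) (nat_lit 0) [] (nat_lit 0) [] false,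
   Spec.mk (nat_lit 14038) (nat_lit 0) [] (nat_lit 0) [] false,
   Spec.mk (nat_lit 14048) (nat_lit 0) [] (nat_lit 0) [] false,
   Spec.mk (nat_lit 14054) (nat_lit 0) [] (nat_lit 0) [] false,
   Spec.mk (nat_lit 14056) (nat_lit 0) [] (nat_lit 0) [] false,
   Spec.mk (nat_lit 14060) (nat_lit 0) [] (nat_lit 0) [] false,
   Spec.mk (nat_lit 14062) (nat_lit 0) [] (nat_lit 0) [] false,
   Spec.mk (nat_lit 14064) (nat_lit 0) [] (nat_lit 0) [] false,
   Spec.mk (nat_lit 14072) (nat_lit 0) [] (nat_lit 0) [] false,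
   Spec.mk (nat_lit 14074) (nat_lit 0) [] (nat_lit 0) [] false,
   Spec.mk (nat_lit 14078) (nat_lit 0) [] (nat_lit 0) [] false,
   Spec.mk (nat_lit 14080) (nat_lit 0) [] (nat_lit 0) [] false,
   Spec.mk (nat_lit 14082) (nat_lit 0) [] (nat_lit 0) [] false,
   Spec.mk (nat_lit 14086) (nat_lit 0) [] (nat_lit 0) [] false,
   Spec.mk (nat_lit 14088) (nat_lit 0) [] (nat_lit 0) [] false]

noncomputable def cd32 : List Spec :=
  [Spec.mk (nat_lit 14120) (nat_lit 0) [] (nat_lit 0) [] false,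
   Spec.mk (nat_lit 14138) (nat_lit 0) [] (nat_lit 0) [] false,
   Spec.mk (nat_lit 14144) (nat_lit 0) [] (nat_lit 0) [] false,
   Spec.mk (nat_lit 14146) (nat_lit 0) [] (nat_lit 0) [] false,
   Spec.mk (nat_lit 14156) (nat_lit 0) [] (nat_lit 0) [] false,
   Spec.mk (nat_lit 14162) (nat_lit 0) [] (nat_lit 0) [] false,
   Spec.mk (nat_lit 14164) (nat_lit 0) [] (nat_lit 0) [] false,
   Spec.mk (nat_lit 14168) (nat_lit 0) [] (nat_lit 0) [] false,
   Spec.mk (nat_lit 14170) (nat_lit 0) [] (nat_lit 0) [] false,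
   Spec.mk (nat_lit 14172) (nat_lit 0) [] (nat_lit 0) [] false,
   Spec.mk (nat_lit 14192) (nat_lit 0) [] (nat_lit 0) [] false,
   Spec.mk (nat_lit 14198) (nat_lit 0) [] (nat_lit 0) [] false,
   Spec.mk (nat_lit 14200) (nat_lit 0) [] (nat_lit 0) [] false,
   Spec.mk (nat_lit 14210) (nat_lit 0) [] (nat_lit 0) [] false,
   Spec.mk (nat_lit 14216) (nat_lit 0) [] (nat_lit 0) [] false,
   Spec.mk (nat_lit 14218) (nat_lit 0) [] (nat_lit 0) [] false,
   Spec.mk (nat_lit 14222) (nat_lit 0) [] (nat_lit 0) [] false,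
   Spec.mk (nat_lit 14224) (nat_lit 0) [] (nat_lit 0) [] false,
   Spec.mk (nat_lit 14226) (nat_lit 0) [] (nat_lit 0) [] false,
   Spec.mk (nat_lit 14234) (nat_lit 0) [] (nat_lit 0) [] false,
   Spec.mk (nat_lit 14236) (nat_lit 0) [] (nat_lit 0) [] false,
   Spec.mk (nat_lit 14240) (nat_lit 0) [] (nat_lit 0) [] false,
   Spec.mk (nat_lit 14242) (nat_lit 0) [] (nat_lit 0) [] false,
   Spec.mk (nat_lit 14244) (nat_lit 0) [] (nat_lit 0) [] false,
   Spec.mk (nat_lit 14248) (nat_lit 0) [] (nat_lit 0) [] false,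
   Spec.mk (nat_lit 14250) (nat_lit 0) [] (nat_lit 0) [] false,
   Spec.mk (nat_lit 14264) (nat_lit 0) [] (nat_lit 0) [] false,
   Spec.mk (nat_lit 14270) (nat_lit 0) [] (nat_lit 0) [] false,
   Spec.mk (nat_lit 14272) (nat_lit 0) [] (nat_lit 0) [] false,
   Spec.mk (nat_lit 14276) (nat_lit 0) [] (nat_lit 0) [] false,
   Spec.mk (nat_lit 14278) (nat_lit 0) [] (nat_lit 0) [] false,
   Spec.mk (nat_lit 14280) (nat_lit 0) [] (nat_lit 0) [] false,
   Spec.mk (nat_lit 14288) (nat_lit 0) [] (nat_lit 0) [] false,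
   Spec.mk (nat_lit 14290) (nat_lit 0) [] (nat_lit 0) [] false,
   Spec.mk (nat_lit 14294) (nat_lit 0) [] (nat_lit 0) [] false,
   Spec.mk (nat_lit 14296) (nat_lit 0) [] (nat_lit 0) [] false,
   Spec.mk (nat_lit 14298) (nat_lit 0) [] (nat_lit 0) [] false,
   Spec.mk (nat_lit 14302) (nat_lit 0) [] (nat_lit 0) [] false,
   Spec.mk (nat_lit 14304) (nat_lit 0) [] (nat_lit 0) [] false,
   Spec.mk (nat_lit 14312) (nat_lit 0) [] (nat_lit 0) [] false,
   Spec.mk (nat_lit 14314) (nat_lit 0) [] (nat_lit 0) [] false,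
   Spec.mk (nat_lit 14316) (nat_lit 0) [] (nat_lit 0) [] false,
   Spec.mk (nat_lit 14320) (nat_lit 0) [] (nat_lit 0) [] false,
   Spec.mk (nat_lit 14322) (nat_lit 0) [] (nat_lit 0) [] false,
   Spec.mk (nat_lit 14328) (nat_lit 0) [] (nat_lit 0) [] false,
   Spec.mk (nat_lit 14354) (nat_lit 0) [] (nat_lit 0) [] false,
   Spec.mk (nat_lit 14360) (nat_lit 0) [] (nat_lit 0) [] false,
   Spec.mk (nat_lit 14362) (nat_lit 0) [] (nat_lit 0) [] false,
   Spec.mk (nat_lit 14372) (nat_lit 0) [] (nat_lit 0) [] false,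
   Spec.mk (nat_lit 14378) (nat_lit 0) [] (nat_lit 0) [] false,
   Spec.mk (nat_lit 14380) (nat_lit 0) [] (nat_lit 0) [] false,
   Spec.mk (nat_lit 14384) (nat_lit 0) [] (nat_lit 0) [] false,
   Spec.mk (nat_lit 14386) (nat_lit 0) [] (nat_lit 0) [] false,
   Spec.mk (nat_lit 14388) (nat_lit 0) [] (nat_lit 0) [] false,
   Spec.mk (nat_lit 14396) (nat_lit 0) [] (nat_lit 0) [] false,
   Spec.mk (nat_lit 14398) (nat_lit 0) [] (nat_lit 0) [] false,
   Spec.mk (nat_lit 14402) (nat_lit 0) [] (nat_lit 0) [] false,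
   Spec.mk (nat_lit 14404) (nat_lit 0) [] (nat_lit 0) [] false,
   Spec.mk (nat_lit 14406) (nat_lit 0) [] (nat_lit 0) [] false,
   Spec.mk (nat_lit 14410) (nat_lit 0) [] (nat_lit 0) [] false]

noncomputable def cd33 : List Spec :=
  [Spec.mk (nat_lit 14412) (nat_lit 0) [] (nat_lit 0) [] false,
   Spec.mk (nat_lit 14426) (nat_lit 0) [] (nat_lit 0) [] false,
   Spec.mk (nat_lit 14432) (nat_lit 0) [] (nat_lit 0) [] false,
   Spec.mk (nat_lit 14434) (nat_lit 0) [] (nat_lit 0) [] false,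
   Spec.mk (nat_lit 14438) (nat_lit 0) [] (nat_lit 0) [] false,
   Spec.mk (nat_lit 14440) (nat_lit 0) [] (nat_lit 0) [] false,
   Spec.mk (nat_lit 14442) (nat_lit 0) [] (nat_lit 0) [] false,
   Spec.mk (nat_lit 14450) (nat_lit 0) [] (nat_lit 0) [] false,
   Spec.mk (nat_lit 14452) (nat_lit 0) [] (nat_lit 0) [] false,
   Spec.mk (nat_lit 14456) (nat_lit 0) [] (nat_lit 0) [] false,
   Spec.mk (nat_lit 14458) (nat_lit 0) [] (nat_lit 0) [] false,
   Spec.mk (nat_lit 14460) (nat_lit 0) [] (nat_lit 0) [] false,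
   Spec.mk (nat_lit 14464) (nat_lit 0) [] (nat_lit 0) [] false,
   Spec.mk (nat_lit 14466) (nat_lit 0) [] (nat_lit 0) [] false,
   Spec.mk (nat_lit 14474) (nat_lit 0) [] (nat_lit 0) [] false,
   Spec.mk (nat_lit 14476) (nat_lit 0) [] (nat_lit 0) [] false,
   Spec.mk (nat_lit 14478) (nat_lit 0) [] (nat_lit 0) [] false,
   Spec.mk (nat_lit 14482) (nat_lit 0) [] (nat_lit 0) [] false,
   Spec.mk (nat_lit 14484) (nat_lit 0) [] (nat_lit 0) [] false,
   Spec.mk (nat_lit 14490) (nat_lit 0) [] (nat_lit 0) [] false,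
   Spec.mk (nat_lit 14504) (nat_lit 0) [] (nat_lit 0) [] false,
   Spec.mk (nat_lit 14506) (nat_lit 0) [] (nat_lit 0) [] false,
   Spec.mk (nat_lit 14510) (nat_lit 0) [] (nat_lit 0) [] false,
   Spec.mk (nat_lit 14512) (nat_lit 0) [] (nat_lit 0) [] false,
   Spec.mk (nat_lit 14514) (nat_lit 0) [] (nat_lit 0) [] false,
   Spec.mk (nat_lit 14518) (nat_lit 0) [] (nat_lit 0) [] false,
   Spec.mk (nat_lit 14520) (nat_lit 0) [] (nat_lit 0) [] false,
   Spec.mk (nat_lit 14528) (nat_lit 0) [] (nat_lit 0) [] false,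
   Spec.mk (nat_lit 14530) (nat_lit 0) [] (nat_lit 0) [] false,
   Spec.mk (nat_lit 14532) (nat_lit 0) [] (nat_lit 0) [] false,
   Spec.mk (nat_lit 14536) (nat_lit 0) [] (nat_lit 0) [] false,
   Spec.mk (nat_lit 14538) (nat_lit 0) [] (nat_lit 0) [] false,
   Spec.mk (nat_lit 14544) (nat_lit 0) [] (nat_lit 0) [] false,
   Spec.mk (nat_lit 14554) (nat_lit 0) [] (nat_lit 0) [] false,
   Spec.mk (nat_lit 14556) (nat_lit 0) [] (nat_lit 0) [] false,
   Spec.mk (nat_lit 14562) (nat_lit 0) [] (nat_lit 0) [] false,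
   Spec.mk (nat_lit 14606) (nat_lit 0) [] (nat_lit 0) [] false,
   Spec.mk (nat_lit 14624) (nat_lit 0) [] (nat_lit 0) [] false,
   Spec.mk (nat_lit 14630) (nat_lit 0) [] (nat_lit 0) [] false,
   Spec.mk (nat_lit 14632) (nat_lit 0) [] (nat_lit 0) [] false,
   Spec.mk (nat_lit 14642) (nat_lit 0) [] (nat_lit 0) [] false,
   Spec.mk (nat_lit 14648) (nat_lit 0) [] (nat_lit 0) [] false,
   Spec.mk (nat_lit 14650) (nat_lit 0) [] (nat_lit 0) [] false,
   Spec.mk (nat_lit 14654) (nat_lit 0) [] (nat_lit 0) [] false,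
   Spec.mk (nat_lit 14656) (nat_lit 0) [] (nat_lit 0) [] false,
   Spec.mk (nat_lit 14658) (nat_lit 0) [] (nat_lit 0) [] false,
   Spec.mk (nat_lit 14678) (nat_lit 0) [] (nat_lit 0) [] false,
   Spec.mk (nat_lit 14684) (nat_lit 0) [] (nat_lit 0) [] false,
   Spec.mk (nat_lit 14686) (nat_lit 0) [] (nat_lit 0) [] false,
   Spec.mk (nat_lit 14696) (nat_lit 0) [] (nat_lit 0) [] false,
   Spec.mk (nat_lit 14702) (nat_lit 0) [] (nat_lit 0) [] false,
   Spec.mk (nat_lit 14704) (nat_lit 0) [] (nat_lit 0) [] false,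
   Spec.mk (nat_lit 14708) (nat_lit 0) [] (nat_lit 0) [] false,
   Spec.mk (nat_lit 14710) (nat_lit 0) [] (nat_lit 0) [] false,
   Spec.mk (nat_lit 14712) (nat_lit 0) [] (nat_lit 0) [] false,
   Spec.mk (nat_lit 14720) (nat_lit 0) [] (nat_lit 0) [] false,
   Spec.mk (nat_lit 14722) (nat_lit 0) [] (nat_lit 0) [] false,
   Spec.mk (nat_lit 14726) (nat_lit 0) [] (nat_lit 0) [] false,
   Spec.mk (nat_lit 14728) (nat_lit 0) [] (nat_lit 0) [] false,
   Spec.mk (nat_lit 14730) (nat_lit 0) [] (nat_lit 0) [] false]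

noncomputable def cd34 : List Spec :=
  [Spec.mk (nat_lit 14734) (nat_lit 0) [] (nat_lit 0) [] false,
   Spec.mk (nat_lit 14736) (nat_lit 0) [] (nat_lit 0) [] false,
   Spec.mk (nat_lit 14750) (nat_lit 0) [] (nat_lit 0) [] false,
   Spec.mk (nat_lit 14756) (nat_lit 0) [] (nat_lit 0) [] false,
   Spec.mk (nat_lit 14758) (nat_lit 0) [] (nat_lit 0) [] false,
   Spec.mk (nat_lit 14762) (nat_lit 0) [] (nat_lit 0) [] false,
   Spec.mk (nat_lit 14764) (nat_lit 0) [] (nat_lit 0) [] false,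
   Spec.mk (nat_lit 14766) (nat_lit 0) [] (nat_lit 0) [] false,
   Spec.mk (nat_lit 14774) (nat_lit 0) [] (nat_lit 0) [] false,
   Spec.mk (nat_lit 14776) (nat_lit 0) [] (nat_lit 0) [] false,
   Spec.mk (nat_lit 14780) (nat_lit 0) [] (nat_lit 0) [] false,
   Spec.mk (nat_lit 14782) (nat_lit 0) [] (nat_lit 0) [] false,
   Spec.mk (nat_lit 14784) (nat_lit 0) [] (nat_lit 0) [] false,
   Spec.mk (nat_lit 14788) (nat_lit 0) [] (nat_lit 0) [] false,
   Spec.mk (nat_lit 14790) (nat_lit 0) [] (nat_lit 0) [] false,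
   Spec.mk (nat_lit 14798) (nat_lit 0) [] (nat_lit 0) [] false,
   Spec.mk (nat_lit 14800) (nat_lit 0) [] (nat_lit 0) [] false,
   Spec.mk (nat_lit 14802) (nat_lit 0) [] (nat_lit 0) [] false,
   Spec.mk (nat_lit 14806) (nat_lit 0) [] (nat_lit 0) [] false,
   Spec.mk (nat_lit 14808) (nat_lit 0) [] (nat_lit 0) [] false,
   Spec.mk (nat_lit 14814) (nat_lit 0) [] (nat_lit 0) [] false,
   Spec.mk (nat_lit 14840) (nat_lit 0) [] (nat_lit 0) [] false,
   Spec.mk (nat_lit 14846) (nat_lit 0) [] (nat_lit 0) [] false,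
   Spec.mk (nat_lit 14848) (nat_lit 0) [] (nat_lit 0) [] false,
   Spec.mk (nat_lit 14858) (nat_lit 0) [] (nat_lit 0) [] false,
   Spec.mk (nat_lit 14864) (nat_lit 0) [] (nat_lit 0) [] false,
   Spec.mk (nat_lit 14866) (nat_lit 0) [] (nat_lit 0) [] false,
   Spec.mk (nat_lit 14870) (nat_lit 0) [] (nat_lit 0) [] false,
   Spec.mk (nat_lit 14872) (nat_lit 0) [] (nat_lit 0) [] false,
   Spec.mk (nat_lit 14874) (nat_lit 0) [] (nat_lit 0) [] false,
   Spec.mk (nat_lit 14882) (nat_lit 0) [] (nat_lit 0) [] false,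
   Spec.mk (nat_lit 14884) (nat_lit 0) [] (nat_lit 0) [] false,
   Spec.mk (nat_lit 14888) (nat_lit 0) [] (nat_lit 0) [] false,
   Spec.mk (nat_lit 14890) (nat_lit 0) [] (nat_lit 0) [] false,
   Spec.mk (nat_lit 14892) (nat_lit 0) [] (nat_lit 0) [] false,
   Spec.mk (nat_lit 14896) (nat_lit 0) [] (nat_lit 0) [] false,
   Spec.mk (nat_lit 14898) (nat_lit 0) [] (nat_lit 0) [] false,
   Spec.mk (nat_lit 14912) (nat_lit 0) [] (nat_lit 0) [] false,
   Spec.mk (nat_lit 14918) (nat_lit 0) [] (nat_lit 0) [] false,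
   Spec.mk (nat_lit 14920) (nat_lit 0) [] (nat_lit 0) [] false,
   Spec.mk (nat_lit 14924) (nat_lit 0) [] (nat_lit 0) [] false,
   Spec.mk (nat_lit 14926) (nat_lit 0) [] (nat_lit 0) [] false,
   Spec.mk (nat_lit 14928) (nat_lit 0) [] (nat_lit 0) [] false,
   Spec.mk (nat_lit 14936) (nat_lit 0) [] (nat_lit 0) [] false,
   Spec.mk (nat_lit 14938) (nat_lit 0) [] (nat_lit 0) [] false,
   Spec.mk (nat_lit 14942) (nat_lit 0) [] (nat_lit 0) [] false,
   Spec.mk (nat_lit 14944) (nat_lit 0) [] (nat_lit 0) [] false,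
   Spec.mk (nat_lit 14946) (nat_lit 0) [] (nat_lit 0) [] false,
   Spec.mk (nat_lit 14950) (nat_lit 0) [] (nat_lit 0) [] false,
   Spec.mk (nat_lit 14952) (nat_lit 0) [] (nat_lit 0) [] false,
   Spec.mk (nat_lit 14960) (nat_lit 0) [] (nat_lit 0) [] false,
   Spec.mk (nat_lit 14962) (nat_lit 0) [] (nat_lit 0) [] false,
   Spec.mk (nat_lit 14964) (nat_lit 0) [] (nat_lit 0) [] false,
   Spec.mk (nat_lit 14968) (nat_lit 0) [] (nat_lit 0) [] false,
   Spec.mk (nat_lit 14970) (nat_lit 0) [] (nat_lit 0) [] false,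
   Spec.mk (nat_lit 14976) (nat_lit 0) [] (nat_lit 0) [] false,
   Spec.mk (nat_lit 14990) (nat_lit 0) [] (nat_lit 0) [] false,
   Spec.mk (nat_lit 14992) (nat_lit 0) [] (nat_lit 0) [] false,
   Spec.mk (nat_lit 14996) (nat_lit 0) [] (nat_lit 0) [] false,
   Spec.mk (nat_lit 14998) (nat_lit 0) [] (nat_lit 0) [] false]

noncomputable def cd35 : List Spec :=
  [Spec.mk (nat_lit 15000) (nat_lit 0) [] (nat_lit 0) [] false,
   Spec.mk (nat_lit 15004) (nat_lit 0) [] (nat_lit 0) [] false,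
   Spec.mk (nat_lit 15006) (nat_lit 0) [] (nat_lit 0) [] false,
   Spec.mk (nat_lit 15014) (nat_lit 0) [] (nat_lit 0) [] false,
   Spec.mk (nat_lit 15016) (nat_lit 0) [] (nat_lit 0) [] false,
   Spec.mk (nat_lit 15018) (nat_lit 0) [] (nat_lit 0) [] false,
   Spec.mk (nat_lit 15022) (nat_lit 0) [] (nat_lit 0) [] false,
   Spec.mk (nat_lit 15024) (nat_lit 0) [] (nat_lit 0) [] false,
   Spec.mk (nat_lit 15030) (nat_lit 0) [] (nat_lit 0) [] false,
   Spec.mk (nat_lit 15040) (nat_lit 0) [] (nat_lit 0) [] false,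
   Spec.mk (nat_lit 15042) (nat_lit 0) [] (nat_lit 0) [] false,
   Spec.mk (nat_lit 15048) (nat_lit 0) [] (nat_lit 0) [] false,
   Spec.mk (nat_lit 15074) (nat_lit 0) [] (nat_lit 0) [] false,
   Spec.mk (nat_lit 15080) (nat_lit 0) [] (nat_lit 0) [] false,
   Spec.mk (nat_lit 15082) (nat_lit 0) [] (nat_lit 0) [] false,
   Spec.mk (nat_lit 15086) (nat_lit 0) [] (nat_lit 0) [] false,
   Spec.mk (nat_lit 15088) (nat_lit 0) [] (nat_lit 0) [] false,
   Spec.mk (nat_lit 15090) (nat_lit 0) [] (nat_lit 0) [] false,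
   Spec.mk (nat_lit 15098) (nat_lit 0) [] (nat_lit 0) [] false,
   Spec.mk (nat_lit 15100) (nat_lit 0) [] (nat_lit 0) [] false,
   Spec.mk (nat_lit 15104) (nat_lit 0) [] (nat_lit 0) [] false,
   Spec.mk (nat_lit 15106) (nat_lit 0) [] (nat_lit 0) [] false,
   Spec.mk (nat_lit 15108) (nat_lit 0) [] (nat_lit 0) [] false,
   Spec.mk (nat_lit 15112) (nat_lit 0) [] (nat_lit 0) [] false,
   Spec.mk (nat_lit 15114) (nat_lit 0) [] (nat_lit 0) [] false,
   Spec.mk (nat_lit 15122) (nat_lit 0) [] (nat_lit 0) [] false,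
   Spec.mk (nat_lit 15124) (nat_lit 0) [] (nat_lit 0) [] false,
   Spec.mk (nat_lit 15126) (nat_lit 0) [] (nat_lit 0) [] false,
   Spec.mk (nat_lit 15130) (nat_lit 0) [] (nat_lit 0) [] false,
   Spec.mk (nat_lit 15132) (nat_lit 0) [] (nat_lit 0) [] false,
   Spec.mk (nat_lit 15138) (nat_lit 0) [] (nat_lit 0) [] false,
   Spec.mk (nat_lit 15152) (nat_lit 0) [] (nat_lit 0) [] false,
   Spec.mk (nat_lit 15154) (nat_lit 0) [] (nat_lit 0) [] false,
   Spec.mk (nat_lit 15158) (nat_lit 0) [] (nat_lit 0) [] false,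
   Spec.mk (nat_lit 15160) (nat_lit 0) [] (nat_lit 0) [] false,
   Spec.mk (nat_lit 15162) (nat_lit 0) [] (nat_lit 0) [] false,
   Spec.mk (nat_lit 15166) (nat_lit 0) [] (nat_lit 0) [] false,
   Spec.mk (nat_lit 15168) (nat_lit 0) [] (nat_lit 0) [] false,
   Spec.mk (nat_lit 15176) (nat_lit 0) [] (nat_lit 0) [] false,
   Spec.mk (nat_lit 15178) (nat_lit 0) [] (nat_lit 0) [] false,
   Spec.mk (nat_lit 15180) (nat_lit 0) [] (nat_lit 0) [] false,
   Spec.mk (nat_lit 15184) (nat_lit 0) [] (nat_lit 0) [] false,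
   Spec.mk (nat_lit 15186) (nat_lit 0) [] (nat_lit 0) [] false,
   Spec.mk (nat_lit 15192) (nat_lit 0) [] (nat_lit 0) [] false,
   Spec.mk (nat_lit 15202) (nat_lit 0) [] (nat_lit 0) [] false,
   Spec.mk (nat_lit 15204) (nat_lit 0) [] (nat_lit 0) [] false,
   Spec.mk (nat_lit 15210) (nat_lit 0) [] (nat_lit 0) [] false,
   Spec.mk (nat_lit 15230) (nat_lit 0) [] (nat_lit 0) [] false,
   Spec.mk (nat_lit 15232) (nat_lit 0) [] (nat_lit 0) [] false,
   Spec.mk (nat_lit 15234) (nat_lit 0) [] (nat_lit 0) [] false,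
   Spec.mk (nat_lit 15238) (nat_lit 0) [] (nat_lit 0) [] false,
   Spec.mk (nat_lit 15240) (nat_lit 0) [] (nat_lit 0) [] false,
   Spec.mk (nat_lit 15246) (nat_lit 0) [] (nat_lit 0) [] false,
   Spec.mk (nat_lit 15256) (nat_lit 0) [] (nat_lit 0) [] false,
   Spec.mk (nat_lit 15258) (nat_lit 0) [] (nat_lit 0) [] false,
   Spec.mk (nat_lit 15264) (nat_lit 0) [] (nat_lit 0) [] false,
   Spec.mk (nat_lit 15282) (nat_lit 0) [] (nat_lit 0) [] false,
   Spec.mk (nat_lit 15362) (nat_lit 0) [] (nat_lit 0) [] false,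
   Spec.mk (nat_lit 15380) (nat_lit 0) [] (nat_lit 0) [] false,
   Spec.mk (nat_lit 15386) (nat_lit 0) [] (nat_lit 0) [] false]

noncomputable def cd36 : List Spec :=
  [Spec.mk (nat_lit 15388) (nat_lit 0) [] (nat_lit 0) [] false,
   Spec.mk (nat_lit 15416) (nat_lit 0) [] (nat_lit 0) [] false,
   Spec.mk (nat_lit 15434) (nat_lit 0) [] (nat_lit 0) [] false,
   Spec.mk (nat_lit 15440) (nat_lit 0) [] (nat_lit 0) [] false,
   Spec.mk (nat_lit 15442) (nat_lit 0) [] (nat_lit 0) [] false,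
   Spec.mk (nat_lit 15452) (nat_lit 0) [] (nat_lit 0) [] false,
   Spec.mk (nat_lit 15458) (nat_lit 0) [] (nat_lit 0) [] false,
   Spec.mk (nat_lit 15460) (nat_lit 0) [] (nat_lit 0) [] false,
   Spec.mk (nat_lit 15464) (nat_lit 0) [] (nat_lit 0) [] false,
   Spec.mk (nat_lit 15466) (nat_lit 0) [] (nat_lit 0) [] false,
   Spec.mk (nat_lit 15468) (nat_lit 0) [] (nat_lit 0) [] false,
   Spec.mk (nat_lit 15488) (nat_lit 0) [] (nat_lit 0) [] false,
   Spec.mk (nat_lit 15494) (nat_lit 0) [] (nat_lit 0) [] false,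
   Spec.mk (nat_lit 15496) (nat_lit 0) [] (nat_lit 0) [] false,
   Spec.mk (nat_lit 15506) (nat_lit 0) [] (nat_lit 0) [] false,
   Spec.mk (nat_lit 15512) (nat_lit 0) [] (nat_lit 0) [] false,
   Spec.mk (nat_lit 15514) (nat_lit 0) [] (nat_lit 0) [] false,
   Spec.mk (nat_lit 15518) (nat_lit 0) [] (nat_lit 0) [] false,
   Spec.mk (nat_lit 15520) (nat_lit 0) [] (nat_lit 0) [] false,
   Spec.mk (nat_lit 15522) (nat_lit 0) [] (nat_lit 0) [] false,
   Spec.mk (nat_lit 15530) (nat_lit 0) [] (nat_lit 0) [] false,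
   Spec.mk (nat_lit 15532) (nat_lit 0) [] (nat_lit 0) [] false,
   Spec.mk (nat_lit 15536) (nat_lit 0) [] (nat_lit 0) [] false,
   Spec.mk (nat_lit 15538) (nat_lit 0) [] (nat_lit 0) [] false,
   Spec.mk (nat_lit 15540) (nat_lit 0) [] (nat_lit 0) [] false,
   Spec.mk (nat_lit 15544) (nat_lit 0) [] (nat_lit 0) [] false,
   Spec.mk (nat_lit 15546) (nat_lit 0) [] (nat_lit 0) [] false,
   Spec.mk (nat_lit 15578) (nat_lit 0) [] (nat_lit 0) [] false,
   Spec.mk (nat_lit 15596) (nat_lit 0) [] (nat_lit 0) [] false,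
   Spec.mk (nat_lit 15602) (nat_lit 0) [] (nat_lit 0) [] false,
   Spec.mk (nat_lit 15604) (nat_lit 0) [] (nat_lit 0) [] false,
   Spec.mk (nat_lit 15614) (nat_lit 0) [] (nat_lit 0) [] false,
   Spec.mk (nat_lit 15620) (nat_lit 0) [] (nat_lit 0) [] false,
   Spec.mk (nat_lit 15622) (nat_lit 0) [] (nat_lit 0) [] false,
   Spec.mk (nat_lit 15626) (nat_lit 0) [] (nat_lit 0) [] false,
   Spec.mk (nat_lit 15628) (nat_lit 0) [] (nat_lit 0) [] false,
   Spec.mk (nat_lit 15630) (nat_lit 0) [] (nat_lit 0) [] false,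
   Spec.mk (nat_lit 15650) (nat_lit 0) [] (nat_lit 0) [] false,
   Spec.mk (nat_lit 15656) (nat_lit 0) [] (nat_lit 0) [] false,
   Spec.mk (nat_lit 15658) (nat_lit 0) [] (nat_lit 0) [] false,
   Spec.mk (nat_lit 15668) (nat_lit 0) [] (nat_lit 0) [] false,
   Spec.mk (nat_lit 15674) (nat_lit 0) [] (nat_lit 0) [] false,
   Spec.mk (nat_lit 15676) (nat_lit 0) [] (nat_lit 0) [] false,
   Spec.mk (nat_lit 15680) (nat_lit 0) [] (nat_lit 0) [] false,
   Spec.mk (nat_lit 15682) (nat_lit 0) [] (nat_lit 0) [] false,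
   Spec.mk (nat_lit 15684) (nat_lit 0) [] (nat_lit 0) [] false,
   Spec.mk (nat_lit 15692) (nat_lit 0) [] (nat_lit 0) [] false,
   Spec.mk (nat_lit 15694) (nat_lit 0) [] (nat_lit 0) [] false,
   Spec.mk (nat_lit 15698) (nat_lit 0) [] (nat_lit 0) [] false,
   Spec.mk (nat_lit 15700) (nat_lit 0) [] (nat_lit 0) [] false,
   Spec.mk (nat_lit 15702) (nat_lit 0) [] (nat_lit 0) [] false,
   Spec.mk (nat_lit 15706) (nat_lit 0) [] (nat_lit 0) [] false,
   Spec.mk (nat_lit 15708) (nat_lit 0) [] (nat_lit 0) [] false,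
   Spec.mk (nat_lit 15722) (nat_lit 0) [] (nat_lit 0) [] false,
   Spec.mk (nat_lit 15728) (nat_lit 0) [] (nat_lit 0) [] false,
   Spec.mk (nat_lit 15730) (nat_lit 0) [] (nat_lit 0) [] false,
   Spec.mk (nat_lit 15734) (nat_lit 0) [] (nat_lit 0) [] false,
   Spec.mk (nat_lit 15736) (nat_lit 0) [] (nat_lit 0) [] false,
   Spec.mk (nat_lit 15738) (nat_lit 0) [] (nat_lit 0) [] false,
   Spec.mk (nat_lit 15746) (nat_lit 0) [] (nat_lit 0) [] false]

noncomputable def cd37 : List Spec :=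
  [Spec.mk (nat_lit 15748) (nat_lit 0) [] (nat_lit 0) [] false,
   Spec.mk (nat_lit 15752) (nat_lit 0) [] (nat_lit 0) [] false,
   Spec.mk (nat_lit 15754) (nat_lit 0) [] (nat_lit 0) [] false,
   Spec.mk (nat_lit 15756) (nat_lit 0) [] (nat_lit 0) [] false,
   Spec.mk (nat_lit 15760) (nat_lit 0) [] (nat_lit 0) [] false,
   Spec.mk (nat_lit 15762) (nat_lit 0) [] (nat_lit 0) [] false,
   Spec.mk (nat_lit 15770) (nat_lit 0) [] (nat_lit 0) [] false,
   Spec.mk (nat_lit 15772) (nat_lit 0) [] (nat_lit 0) [] false,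
   Spec.mk (nat_lit 15774) (nat_lit 0) [] (nat_lit 0) [] false,
   Spec.mk (nat_lit 15778) (nat_lit 0) [] (nat_lit 0) [] false,
   Spec.mk (nat_lit 15780) (nat_lit 0) [] (nat_lit 0) [] false,
   Spec.mk (nat_lit 15786) (nat_lit 0) [] (nat_lit 0) [] false,
   Spec.mk (nat_lit 15812) (nat_lit 0) [] (nat_lit 0) [] false,
   Spec.mk (nat_lit 15818) (nat_lit 0) [] (nat_lit 0) [] false,
   Spec.mk (nat_lit 15820) (nat_lit 0) [] (nat_lit 0) [] false,
   Spec.mk (nat_lit 15830) (nat_lit 0) [] (nat_lit 0) [] false,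
   Spec.mk (nat_lit 15836) (nat_lit 0) [] (nat_lit 0) [] false,
   Spec.mk (nat_lit 15838) (nat_lit 0) [] (nat_lit 0) [] false,
   Spec.mk (nat_lit 15842) (nat_lit 0) [] (nat_lit 0) [] false,
   Spec.mk (nat_lit 15844) (nat_lit 0) [] (nat_lit 0) [] false,
   Spec.mk (nat_lit 15846) (nat_lit 0) [] (nat_lit 0) [] false,
   Spec.mk (nat_lit 15854) (nat_lit 0) [] (nat_lit 0) [] false,
   Spec.mk (nat_lit 15856) (nat_lit 0) [] (nat_lit 0) [] false,
   Spec.mk (nat_lit 15860) (nat_lit 0) [] (nat_lit 0) [] false,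
   Spec.mk (nat_lit 15862) (nat_lit 0) [] (nat_lit 0) [] false,
   Spec.mk (nat_lit 15864) (nat_lit 0) [] (nat_lit 0) [] false,
   Spec.mk (nat_lit 15868) (nat_lit 0) [] (nat_lit 0) [] false,
   Spec.mk (nat_lit 15870) (nat_lit 0) [] (nat_lit 0) [] false,
   Spec.mk (nat_lit 15884) (nat_lit 0) [] (nat_lit 0) [] false,
   Spec.mk (nat_lit 15890) (nat_lit 0) [] (nat_lit 0) [] false,
   Spec.mk (nat_lit 15892) (nat_lit 0) [] (nat_lit 0) [] false,
   Spec.mk (nat_lit 15896) (nat_lit 0) [] (nat_lit 0) [] false,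
   Spec.mk (nat_lit 15898) (nat_lit 0) [] (nat_lit 0) [] false,
   Spec.mk (nat_lit 15900) (nat_lit 0) [] (nat_lit 0) [] false,
   Spec.mk (nat_lit 15908) (nat_lit 0) [] (nat_lit 0) [] false,
   Spec.mk (nat_lit 15910) (nat_lit 0) [] (nat_lit 0) [] false,
   Spec.mk (nat_lit 15914) (nat_lit 0) [] (nat_lit 0) [] false,
   Spec.mk (nat_lit 15916) (nat_lit 0) [] (nat_lit 0) [] false,
   Spec.mk (nat_lit 15918) (nat_lit 0) [] (nat_lit 0) [] false,
   Spec.mk (nat_lit 15922) (nat_lit 0) [] (nat_lit 0) [] false,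
   Spec.mk (nat_lit 15924) (nat_lit 0) [] (nat_lit 0) [] false,
   Spec.mk (nat_lit 15932) (nat_lit 0) [] (nat_lit 0) [] false,
   Spec.mk (nat_lit 15934) (nat_lit 0) [] (nat_lit 0) [] false,
   Spec.mk (nat_lit 15936) (nat_lit 0) [] (nat_lit 0) [] false,
   Spec.mk (nat_lit 15940) (nat_lit 0) [] (nat_lit 0) [] false,
   Spec.mk (nat_lit 15942) (nat_lit 0) [] (nat_lit 0) [] false,
   Spec.mk (nat_lit 15948) (nat_lit 0) [] (nat_lit 0) [] false,
   Spec.mk (nat_lit 15962) (nat_lit 0) [] (nat_lit 0) [] false,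
   Spec.mk (nat_lit 15964) (nat_lit 0) [] (nat_lit 0) [] false,
   Spec.mk (nat_lit 15968) (nat_lit 0) [] (nat_lit 0) [] false,
   Spec.mk (nat_lit 15970) (nat_lit 0) [] (nat_lit 0) [] false,
   Spec.mk (nat_lit 15972) (nat_lit 0) [] (nat_lit 0) [] false,
   Spec.mk (nat_lit 15976) (nat_lit 0) [] (nat_lit 0) [] false,
   Spec.mk (nat_lit 15978) (nat_lit 0) [] (nat_lit 0) [] false,
   Spec.mk (nat_lit 15986) (nat_lit 0) [] (nat_lit 0) [] false,
   Spec.mk (nat_lit 15988) (nat_lit 0) [] (nat_lit 0) [] false,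
   Spec.mk (nat_lit 15990) (nat_lit 0) [] (nat_lit 0) [] false,
   Spec.mk (nat_lit 15994) (nat_lit 0) [] (nat_lit 0) [] false,
   Spec.mk (nat_lit 15996) (nat_lit 0) [] (nat_lit 0) [] false,
   Spec.mk (nat_lit 16002) (nat_lit 0) [] (nat_lit 0) [] false]

noncomputable def cd38 : List Spec :=
  [Spec.mk (nat_lit 16012) (nat_lit 0) [] (nat_lit 0) [] false,
   Spec.mk (nat_lit 16014) (nat_lit 0) [] (nat_lit 0) [] false,
   Spec.mk (nat_lit 16020) (nat_lit 0) [] (nat_lit 0) [] false,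
   Spec.mk (nat_lit 16064) (nat_lit 0) [] (nat_lit 0) [] false,
   Spec.mk (nat_lit 16082) (nat_lit 0) [] (nat_lit 0) [] false,
   Spec.mk (nat_lit 16088) (nat_lit 0) [] (nat_lit 0) [] false,
   Spec.mk (nat_lit 16090) (nat_lit 0) [] (nat_lit 0) [] false,
   Spec.mk (nat_lit 16100) (nat_lit 0) [] (nat_lit 0) [] false,
   Spec.mk (nat_lit 16106) (nat_lit 0) [] (nat_lit 0) [] false,
   Spec.mk (nat_lit 16108) (nat_lit 0) [] (nat_lit 0) [] false,
   Spec.mk (nat_lit 16112) (nat_lit 0) [] (nat_lit 0) [] false,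
   Spec.mk (nat_lit 16114) (nat_lit 0) [] (nat_lit 0) [] false,
   Spec.mk (nat_lit 16116) (nat_lit 0) [] (nat_lit 0) [] false,
   Spec.mk (nat_lit 16136) (nat_lit 0) [] (nat_lit 0) [] false,
   Spec.mk (nat_lit 16142) (nat_lit 0) [] (nat_lit 0) [] false,
   Spec.mk (nat_lit 16144) (nat_lit 0) [] (nat_lit 0) [] false,
   Spec.mk (nat_lit 16154) (nat_lit 0) [] (nat_lit 0) [] false,
   Spec.mk (nat_lit 16160) (nat_lit 0) [] (nat_lit 0) [] false,
   Spec.mk (nat_lit 16162) (nat_lit 0) [] (nat_lit 0) [] false,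
   Spec.mk (nat_lit 16166) (nat_lit 0) [] (nat_lit 0) [] false,
   Spec.mk (nat_lit 16168) (nat_lit 0) [] (nat_lit 0) [] false,
   Spec.mk (nat_lit 16170) (nat_lit 0) [] (nat_lit 0) [] false,
   Spec.mk (nat_lit 16178) (nat_lit 0) [] (nat_lit 0) [] false,
   Spec.mk (nat_lit 16180) (nat_lit 0) [] (nat_lit 0) [] false,
   Spec.mk (nat_lit 16184) (nat_lit 0) [] (nat_lit 0) [] false,
   Spec.mk (nat_lit 16186) (nat_lit 0) [] (nat_lit 0) [] false,
   Spec.mk (nat_lit 16188) (nat_lit 0) [] (nat_lit 0) [] false,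
   Spec.mk (nat_lit 16192) (nat_lit 0) [] (nat_lit 0) [] false,
   Spec.mk (nat_lit 16194) (nat_lit 0) [] (nat_lit 0) [] false,
   Spec.mk (nat_lit 16208) (nat_lit 0) [] (nat_lit 0) [] false,
   Spec.mk (nat_lit 16214) (nat_lit 0) [] (nat_lit 0) [] false,
   Spec.mk (nat_lit 16216) (nat_lit 0) [] (nat_lit 0) [] false,
   Spec.mk (nat_lit 16220) (nat_lit 0) [] (nat_lit 0) [] false,
   Spec.mk (nat_lit 16222) (nat_lit 0) [] (nat_lit 0) [] false,
   Spec.mk (nat_lit 16224) (nat_lit 0) [] (nat_lit 0) [] false,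
   Spec.mk (nat_lit 16232) (nat_lit 0) [] (nat_lit 0) [] false,
   Spec.mk (nat_lit 16234) (nat_lit 0) [] (nat_lit 0) [] false,
   Spec.mk (nat_lit 16238) (nat_lit 0) [] (nat_lit 0) [] false,
   Spec.mk (nat_lit 16240) (nat_lit 0) [] (nat_lit 0) [] false,
   Spec.mk (nat_lit 16242) (nat_lit 0) [] (nat_lit 0) [] false,
   Spec.mk (nat_lit 16246) (nat_lit 0) [] (nat_lit 0) [] false,
   Spec.mk (nat_lit 16248) (nat_lit 0) [] (nat_lit 0) [] false,
   Spec.mk (nat_lit 16256) (nat_lit 0) [] (nat_lit 0) [] false,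
   Spec.mk (nat_lit 16258) (nat_lit 0) [] (nat_lit 0) [] false,
   Spec.mk (nat_lit 16260) (nat_lit 0) [] (nat_lit 0) [] false,
   Spec.mk (nat_lit 16264) (nat_lit 0) [] (nat_lit 0) [] false,
   Spec.mk (nat_lit 16266) (nat_lit 0) [] (nat_lit 0) [] false,
   Spec.mk (nat_lit 16272) (nat_lit 0) [] (nat_lit 0) [] false,
   Spec.mk (nat_lit 16298) (nat_lit 0) [] (nat_lit 0) [] false,
   Spec.mk (nat_lit 16304) (nat_lit 0) [] (nat_lit 0) [] false,
   Spec.mk (nat_lit 16306) (nat_lit 0) [] (nat_lit 0) [] false,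
   Spec.mk (nat_lit 16316) (nat_lit 0) [] (nat_lit 0) [] false,
   Spec.mk (nat_lit 16322) (nat_lit 0) [] (nat_lit 0) [] false,
   Spec.mk (nat_lit 16324) (nat_lit 0) [] (nat_lit 0) [] false,
   Spec.mk (nat_lit 16328) (nat_lit 0) [] (nat_lit 0) [] false,
   Spec.mk (nat_lit 16330) (nat_lit 0) [] (nat_lit 0) [] false,
   Spec.mk (nat_lit 16332) (nat_lit 0) [] (nat_lit 0) [] false,
   Spec.mk (nat_lit 16340) (nat_lit 0) [] (nat_lit 0) [] false,
   Spec.mk (nat_lit 16342) (nat_lit 0) [] (nat_lit 0) [] false,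
   Spec.mk (nat_lit 16346) (nat_lit 0) [] (nat_lit 0) [] false]

noncomputable def cd39 : List Spec :=
  [Spec.mk (nat_lit 16348) (nat_lit 0) [] (nat_lit 0) [] false,
   Spec.mk (nat_lit 16350) (nat_lit 0) [] (nat_lit 0) [] false,
   Spec.mk (nat_lit 16354) (nat_lit 0) [] (nat_lit 0) [] false,
   Spec.mk (nat_lit 16356) (nat_lit 0) [] (nat_lit 0) [] false,
   Spec.mk (nat_lit 16370) (nat_lit 0) [] (nat_lit 0) [] false,
   Spec.mk (nat_lit 16376) (nat_lit 0) [] (nat_lit 0) [] false,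
   Spec.mk (nat_lit 16378) (nat_lit 0) [] (nat_lit 0) [] false,
   Spec.mk (nat_lit 16382) (nat_lit 0) [] (nat_lit 0) [] false,
   Spec.mk (nat_lit 16384) (nat_lit 0) [] (nat_lit 0) [] false,
   Spec.mk (nat_lit 16386) (nat_lit 0) [] (nat_lit 0) [] false,
   Spec.mk (nat_lit 16394) (nat_lit 0) [] (nat_lit 0) [] false,
   Spec.mk (nat_lit 16396) (nat_lit 0) [] (nat_lit 0) [] false,
   Spec.mk (nat_lit 16400) (nat_lit 0) [] (nat_lit 0) [] false,
   Spec.mk (nat_lit 16402) (nat_lit 0) [] (nat_lit 0) [] false,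
   Spec.mk (nat_lit 16404) (nat_lit 0) [] (nat_lit 0) [] false,
   Spec.mk (nat_lit 16408) (nat_lit 0) [] (nat_lit 0) [] false,
   Spec.mk (nat_lit 16410) (nat_lit 0) [] (nat_lit 0) [] false,
   Spec.mk (nat_lit 16418) (nat_lit 0) [] (nat_lit 0) [] false,
   Spec.mk (nat_lit 16420) (nat_lit 0) [] (nat_lit 0) [] false,
   Spec.mk (nat_lit 16422) (nat_lit 0) [] (nat_lit 0) [] false,
   Spec.mk (nat_lit 16426) (nat_lit 0) [] (nat_lit 0) [] false,
   Spec.mk (nat_lit 16428) (nat_lit 0) [] (nat_lit 0) [] false,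
   Spec.mk (nat_lit 16434) (nat_lit 0) [] (nat_lit 0) [] false,
   Spec.mk (nat_lit 16448) (nat_lit 0) [] (nat_lit 0) [] false,
   Spec.mk (nat_lit 16450) (nat_lit 0) [] (nat_lit 0) [] false,
   Spec.mk (nat_lit 16454) (nat_lit 0) [] (nat_lit 0) [] false,
   Spec.mk (nat_lit 16456) (nat_lit 0) [] (nat_lit 0) [] false,
   Spec.mk (nat_lit 16458) (nat_lit 0) [] (nat_lit 0) [] false,
   Spec.mk (nat_lit 16462) (nat_lit 0) [] (nat_lit 0) [] false,
   Spec.mk (nat_lit 16464) (nat_lit 0) [] (nat_lit 0) [] false,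
   Spec.mk (nat_lit 16472) (nat_lit 0) [] (nat_lit 0) [] false,
   Spec.mk (nat_lit 16474) (nat_lit 0) [] (nat_lit 0) [] false,
   Spec.mk (nat_lit 16476) (nat_lit 0) [] (nat_lit 0) [] false,
   Spec.mk (nat_lit 16480) (nat_lit 0) [] (nat_lit 0) [] false,
   Spec.mk (nat_lit 16482) (nat_lit 0) [] (nat_lit 0) [] false,
   Spec.mk (nat_lit 16488) (nat_lit 0) [] (nat_lit 0) [] false,
   Spec.mk (nat_lit 16498) (nat_lit 0) [] (nat_lit 0) [] false,
   Spec.mk (nat_lit 16500) (nat_lit 0) [] (nat_lit 0) [] false,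
   Spec.mk (nat_lit 16506) (nat_lit 0) [] (nat_lit 0) [] false,
   Spec.mk (nat_lit 16532) (nat_lit 0) [] (nat_lit 0) [] false,
   Spec.mk (nat_lit 16538) (nat_lit 0) [] (nat_lit 0) [] false,
   Spec.mk (nat_lit 16540) (nat_lit 0) [] (nat_lit 0) [] false,
   Spec.mk (nat_lit 16544) (nat_lit 0) [] (nat_lit 0) [] false,
   Spec.mk (nat_lit 16546) (nat_lit 0) [] (nat_lit 0) [] false,
   Spec.mk (nat_lit 16548) (nat_lit 0) [] (nat_lit 0) [] false,
   Spec.mk (nat_lit 16556) (nat_lit 0) [] (nat_lit 0) [] false,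
   Spec.mk (nat_lit 16558) (nat_lit 0) [] (nat_lit 0) [] false,
   Spec.mk (nat_lit 16562) (nat_lit 0) [] (nat_lit 0) [] false,
   Spec.mk (nat_lit 16564) (nat_lit 0) [] (nat_lit 0) [] false,
   Spec.mk (nat_lit 16566) (nat_lit 0) [] (nat_lit 0) [] false,
   Spec.mk (nat_lit 16570) (nat_lit 0) [] (nat_lit 0) [] false,
   Spec.mk (nat_lit 16572) (nat_lit 0) [] (nat_lit 0) [] false,
   Spec.mk (nat_lit 16580) (nat_lit 0) [] (nat_lit 0) [] false,
   Spec.mk (nat_lit 16582) (nat_lit 0) [] (nat_lit 0) [] false,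
   Spec.mk (nat_lit 16584) (nat_lit 0) [] (nat_lit 0) [] false,
   Spec.mk (nat_lit 16588) (nat_lit 0) [] (nat_lit 0) [] false,
   Spec.mk (nat_lit 16590) (nat_lit 0) [] (nat_lit 0) [] false,
   Spec.mk (nat_lit 16596) (nat_lit 0) [] (nat_lit 0) [] false,
   Spec.mk (nat_lit 16610) (nat_lit 0) [] (nat_lit 0) [] false,
   Spec.mk (nat_lit 16612) (nat_lit 0) [] (nat_lit 0) [] false]

noncomputable def cd40 : List Spec :=
  [Spec.mk (nat_lit 16616) (nat_lit 0) [] (nat_lit 0) [] false,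
   Spec.mk (nat_lit 16618) (nat_lit 0) [] (nat_lit 0) [] false,
   Spec.mk (nat_lit 16620) (nat_lit 0) [] (nat_lit 0) [] false,
   Spec.mk (nat_lit 16624) (nat_lit 0) [] (nat_lit 0) [] false,
   Spec.mk (nat_lit 16626) (nat_lit 0) [] (nat_lit 0) [] false,
   Spec.mk (nat_lit 16634) (nat_lit 0) [] (nat_lit 0) [] false,
   Spec.mk (nat_lit 16636) (nat_lit 0) [] (nat_lit 0) [] false,
   Spec.mk (nat_lit 16638) (nat_lit 0) [] (nat_lit 0) [] false,
   Spec.mk (nat_lit 16642) (nat_lit 0) [] (nat_lit 0) [] false,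
   Spec.mk (nat_lit 16644) (nat_lit 0) [] (nat_lit 0) [] false,
   Spec.mk (nat_lit 16650) (nat_lit 0) [] (nat_lit 0) [] false,
   Spec.mk (nat_lit 16660) (nat_lit 0) [] (nat_lit 0) [] false,
   Spec.mk (nat_lit 16662) (nat_lit 0) [] (nat_lit 0) [] false,
   Spec.mk (nat_lit 16668) (nat_lit 0) [] (nat_lit 0) [] false,
   Spec.mk (nat_lit 16688) (nat_lit 0) [] (nat_lit 0) [] false,
   Spec.mk (nat_lit 16690) (nat_lit 0) [] (nat_lit 0) [] false,
   Spec.mk (nat_lit 16692) (nat_lit 0) [] (nat_lit 0) [] false,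
   Spec.mk (nat_lit 16696) (nat_lit 0) [] (nat_lit 0) [] false,
   Spec.mk (nat_lit 16698) (nat_lit 0) [] (nat_lit 0) [] false,
   Spec.mk (nat_lit 16704) (nat_lit 0) [] (nat_lit 0) [] false,
   Spec.mk (nat_lit 16714) (nat_lit 0) [] (nat_lit 0) [] false,
   Spec.mk (nat_lit 16716) (nat_lit 0) [] (nat_lit 0) [] false,
   Spec.mk (nat_lit 16722) (nat_lit 0) [] (nat_lit 0) [] false,
   Spec.mk (nat_lit 16740) (nat_lit 0) [] (nat_lit 0) [] false,
   Spec.mk (nat_lit 16784) (nat_lit 0) [] (nat_lit 0) [] false,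
   Spec.mk (nat_lit 16790) (nat_lit 0) [] (nat_lit 0) [] false,
   Spec.mk (nat_lit 16792) (nat_lit 0) [] (nat_lit 0) [] false,
   Spec.mk (nat_lit 16802) (nat_lit 0) [] (nat_lit 0) [] false,
   Spec.mk (nat_lit 16808) (nat_lit 0) [] (nat_lit 0) [] false,
   Spec.mk (nat_lit 16810) (nat_lit 0) [] (nat_lit 0) [] false,
   Spec.mk (nat_lit 16814) (nat_lit 0) [] (nat_lit 0) [] false,
   Spec.mk (nat_lit 16816) (nat_lit 0) [] (nat_lit 0) [] false,
   Spec.mk (nat_lit 16818) (nat_lit 0) [] (nat_lit 0) [] false,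
   Spec.mk (nat_lit 16826) (nat_lit 0) [] (nat_lit 0) [] false,
   Spec.mk (nat_lit 16828) (nat_lit 0) [] (nat_lit 0) [] false,
   Spec.mk (nat_lit 16832) (nat_lit 0) [] (nat_lit 0) [] false,
   Spec.mk (nat_lit 16834) (nat_lit 0) [] (nat_lit 0) [] false,
   Spec.mk (nat_lit 16836) (nat_lit 0) [] (nat_lit 0) [] false,
   Spec.mk (nat_lit 16840) (nat_lit 0) [] (nat_lit 0) [] false,
   Spec.mk (nat_lit 16842) (nat_lit 0) [] (nat_lit 0) [] false,
   Spec.mk (nat_lit 16856) (nat_lit 0) [] (nat_lit 0) [] false,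
   Spec.mk (nat_lit 16862) (nat_lit 0) [] (nat_lit 0) [] false,
   Spec.mk (nat_lit 16864) (nat_lit 0) [] (nat_lit 0) [] false,
   Spec.mk (nat_lit 16868) (nat_lit 0) [] (nat_lit 0) [] false,
   Spec.mk (nat_lit 16870) (nat_lit 0) [] (nat_lit 0) [] false,
   Spec.mk (nat_lit 16872) (nat_lit 0) [] (nat_lit 0) [] false,
   Spec.mk (nat_lit 16880) (nat_lit 0) [] (nat_lit 0) [] false,
   Spec.mk (nat_lit 16882) (nat_lit 0) [] (nat_lit 0) [] false,
   Spec.mk (nat_lit 16886) (nat_lit 0) [] (nat_lit 0) [] false,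
   Spec.mk (nat_lit 16888) (nat_lit 0) [] (nat_lit 0) [] false,
   Spec.mk (nat_lit 16890) (nat_lit 0) [] (nat_lit 0) [] false,
   Spec.mk (nat_lit 16894) (nat_lit 0) [] (nat_lit 0) [] false,
   Spec.mk (nat_lit 16896) (nat_lit 0) [] (nat_lit 0) [] false,
   Spec.mk (nat_lit 16904) (nat_lit 0) [] (nat_lit 0) [] false,
   Spec.mk (nat_lit 16906) (nat_lit 0) [] (nat_lit 0) [] false,
   Spec.mk (nat_lit 16908) (nat_lit 0) [] (nat_lit 0) [] false,
   Spec.mk (nat_lit 16912) (nat_lit 0) [] (nat_lit 0) [] false,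
   Spec.mk (nat_lit 16914) (nat_lit 0) [] (nat_lit 0) [] false,
   Spec.mk (nat_lit 16920) (nat_lit 0) [] (nat_lit 0) [] false,
   Spec.mk (nat_lit 16934) (nat_lit 0) [] (nat_lit 0) [] false]

noncomputable def cd41 : List Spec :=
  [Spec.mk (nat_lit 16936) (nat_lit 0) [] (nat_lit 0) [] false,
   Spec.mk (nat_lit 16940) (nat_lit 0) [] (nat_lit 0) [] false,
   Spec.mk (nat_lit 16942) (nat_lit 0) [] (nat_lit 0) [] false,
   Spec.mk (nat_lit 16944) (nat_lit 0) [] (nat_lit 0) [] false,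
   Spec.mk (nat_lit 16948) (nat_lit 0) [] (nat_lit 0) [] false,
   Spec.mk (nat_lit 16950) (nat_lit 0) [] (nat_lit 0) [] false,
   Spec.mk (nat_lit 16958) (nat_lit 0) [] (nat_lit 0) [] false,
   Spec.mk (nat_lit 16960) (nat_lit 0) [] (nat_lit 0) [] false,
   Spec.mk (nat_lit 16962) (nat_lit 0) [] (nat_lit 0) [] false,
   Spec.mk (nat_lit 16966) (nat_lit 0) [] (nat_lit 0) [] false,
   Spec.mk (nat_lit 16968) (nat_lit 0) [] (nat_lit 0) [] false,
   Spec.mk (nat_lit 16974) (nat_lit 0) [] (nat_lit 0) [] false,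
   Spec.mk (nat_lit 16984) (nat_lit 0) [] (nat_lit 0) [] false,
   Spec.mk (nat_lit 16986) (nat_lit 0) [] (nat_lit 0) [] false,
   Spec.mk (nat_lit 16992) (nat_lit 0) [] (nat_lit 0) [] false,
   Spec.mk (nat_lit 17018) (nat_lit 0) [] (nat_lit 0) [] false,
   Spec.mk (nat_lit 17024) (nat_lit 0) [] (nat_lit 0) [] false,
   Spec.mk (nat_lit 17026) (nat_lit 0) [] (nat_lit 0) [] false,
   Spec.mk (nat_lit 17030) (nat_lit 0) [] (nat_lit 0) [] false,
   Spec.mk (nat_lit 17032) (nat_lit 0) [] (nat_lit 0) [] false,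
   Spec.mk (nat_lit 17034) (nat_lit 0) [] (nat_lit 0) [] false,
   Spec.mk (nat_lit 17042) (nat_lit 0) [] (nat_lit 0) [] false,
   Spec.mk (nat_lit 17044) (nat_lit 0) [] (nat_lit 0) [] false,
   Spec.mk (nat_lit 17048) (nat_lit 0) [] (nat_lit 0) [] false,
   Spec.mk (nat_lit 17050) (nat_lit 0) [] (nat_lit 0) [] false,
   Spec.mk (nat_lit 17052) (nat_lit 0) [] (nat_lit 0) [] false,
   Spec.mk (nat_lit 17056) (nat_lit 0) [] (nat_lit 0) [] false,
   Spec.mk (nat_lit 17058) (nat_lit 0) [] (nat_lit 0) [] false,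
   Spec.mk (nat_lit 17066) (nat_lit 0) [] (nat_lit 0) [] false,
   Spec.mk (nat_lit 17068) (nat_lit 0) [] (nat_lit 0) [] false,
   Spec.mk (nat_lit 17070) (nat_lit 0) [] (nat_lit 0) [] false,
   Spec.mk (nat_lit 17074) (nat_lit 0) [] (nat_lit 0) [] false,
   Spec.mk (nat_lit 17076) (nat_lit 0) [] (nat_lit 0) [] false,
   Spec.mk (nat_lit 17082) (nat_lit 0) [] (nat_lit 0) [] false,
   Spec.mk (nat_lit 17096) (nat_lit 0) [] (nat_lit 0) [] false,
   Spec.mk (nat_lit 17098) (nat_lit 0) [] (nat_lit 0) [] false,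
   Spec.mk (nat_lit 17102) (nat_lit 0) [] (nat_lit 0) [] false,
   Spec.mk (nat_lit 17104) (nat_lit 0) [] (nat_lit 0) [] false,
   Spec.mk (nat_lit 17106) (nat_lit 0) [] (nat_lit 0) [] false,
   Spec.mk (nat_lit 17110) (nat_lit 0) [] (nat_lit 0) [] false,
   Spec.mk (nat_lit 17112) (nat_lit 0) [] (nat_lit 0) [] false,
   Spec.mk (nat_lit 17120) (nat_lit 0) [] (nat_lit 0) [] false,
   Spec.mk (nat_lit 17122) (nat_lit 0) [] (nat_lit 0) [] false,
   Spec.mk (nat_lit 17124) (nat_lit 0) [] (nat_lit 0) [] false,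
   Spec.mk (nat_lit 17128) (nat_lit 0) [] (nat_lit 0) [] false,
   Spec.mk (nat_lit 17130) (nat_lit 0) [] (nat_lit 0) [] false,
   Spec.mk (nat_lit 17136) (nat_lit 0) [] (nat_lit 0) [] false,
   Spec.mk (nat_lit 17146) (nat_lit 0) [] (nat_lit 0) [] false,
   Spec.mk (nat_lit 17148) (nat_lit 0) [] (nat_lit 0) [] false,
   Spec.mk (nat_lit 17154) (nat_lit 0) [] (nat_lit 0) [] false,
   Spec.mk (nat_lit 17174) (nat_lit 0) [] (nat_lit 0) [] false,
   Spec.mk (nat_lit 17176) (nat_lit 0) [] (nat_lit 0) [] false,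
   Spec.mk (nat_lit 17178) (nat_lit 0) [] (nat_lit 0) [] false,
   Spec.mk (nat_lit 17182) (nat_lit 0) [] (nat_lit 0) [] false,
   Spec.mk (nat_lit 17184) (nat_lit 0) [] (nat_lit 0) [] false,
   Spec.mk (nat_lit 17190) (nat_lit 0) [] (nat_lit 0) [] false,
   Spec.mk (nat_lit 17200) (nat_lit 0) [] (nat_lit 0) [] false,
   Spec.mk (nat_lit 17202) (nat_lit 0) [] (nat_lit 0) [] false,
   Spec.mk (nat_lit 17208) (nat_lit 0) [] (nat_lit 0) [] false,
   Spec.mk (nat_lit 17226) (nat_lit 0) [] (nat_lit 0) [] false]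

noncomputable def cd42 : List Spec :=
  [Spec.mk (nat_lit 17258) (nat_lit 0) [] (nat_lit 0) [] false,
   Spec.mk (nat_lit 17260) (nat_lit 0) [] (nat_lit 0) [] false,
   Spec.mk (nat_lit 17264) (nat_lit 0) [] (nat_lit 0) [] false,
   Spec.mk (nat_lit 17266) (nat_lit 0) [] (nat_lit 0) [] false,
   Spec.mk (nat_lit 17268) (nat_lit 0) [] (nat_lit 0) [] false,
   Spec.mk (nat_lit 17272) (nat_lit 0) [] (nat_lit 0) [] false,
   Spec.mk (nat_lit 17274) (nat_lit 0) [] (nat_lit 0) [] false,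
   Spec.mk (nat_lit 17282) (nat_lit 0) [] (nat_lit 0) [] false,
   Spec.mk (nat_lit 17284) (nat_lit 0) [] (nat_lit 0) [] false,
   Spec.mk (nat_lit 17286) (nat_lit 0) [] (nat_lit 0) [] false,
   Spec.mk (nat_lit 17290) (nat_lit 0) [] (nat_lit 0) [] false,
   Spec.mk (nat_lit 17292) (nat_lit 0) [] (nat_lit 0) [] false,
   Spec.mk (nat_lit 17298) (nat_lit 0) [] (nat_lit 0) [] false,
   Spec.mk (nat_lit 17308) (nat_lit 0) [] (nat_lit 0) [] false,
   Spec.mk (nat_lit 17310) (nat_lit 0) [] (nat_lit 0) [] false,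
   Spec.mk (nat_lit 17316) (nat_lit 0) [] (nat_lit 0) [] false,
   Spec.mk (nat_lit 17336) (nat_lit 0) [] (nat_lit 0) [] false,
   Spec.mk (nat_lit 17338) (nat_lit 0) [] (nat_lit 0) [] false,
   Spec.mk (nat_lit 17340) (nat_lit 0) [] (nat_lit 0) [] false,
   Spec.mk (nat_lit 17344) (nat_lit 0) [] (nat_lit 0) [] false,
   Spec.mk (nat_lit 17346) (nat_lit 0) [] (nat_lit 0) [] false,
   Spec.mk (nat_lit 17352) (nat_lit 0) [] (nat_lit 0) [] false,
   Spec.mk (nat_lit 17362) (nat_lit 0) [] (nat_lit 0) [] false,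
   Spec.mk (nat_lit 17364) (nat_lit 0) [] (nat_lit 0) [] false,
   Spec.mk (nat_lit 17370) (nat_lit 0) [] (nat_lit 0) [] false,
   Spec.mk (nat_lit 17388) (nat_lit 0) [] (nat_lit 0) [] false,
   Spec.mk (nat_lit 17416) (nat_lit 0) [] (nat_lit 0) [] false,
   Spec.mk (nat_lit 17418) (nat_lit 0) [] (nat_lit 0) [] false,
   Spec.mk (nat_lit 17424) (nat_lit 0) [] (nat_lit 0) [] false,
   Spec.mk (nat_lit 17442) (nat_lit 0) [] (nat_lit 0) [] false,
   Spec.mk (nat_lit 17522) (nat_lit 0) [] (nat_lit 0) [] false,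
   Spec.mk (nat_lit 17540) (nat_lit 0) [] (nat_lit 0) [] false,
   Spec.mk (nat_lit 17546) (nat_lit 0) [] (nat_lit 0) [] false,
   Spec.mk (nat_lit 17548) (nat_lit 0) [] (nat_lit 0) [] false,
   Spec.mk (nat_lit 17558) (nat_lit 0) [] (nat_lit 0) [] false,
   Spec.mk (nat_lit 17564) (nat_lit 0) [] (nat_lit 0) [] false,
   Spec.mk (nat_lit 17566) (nat_lit 0) [] (nat_lit 0) [] false,
   Spec.mk (nat_lit 17570) (nat_lit 0) [] (nat_lit 0) [] false,
   Spec.mk (nat_lit 17572) (nat_lit 0) [] (nat_lit 0) [] false,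
   Spec.mk (nat_lit 17574) (nat_lit 0) [] (nat_lit 0) [] false,
   Spec.mk (nat_lit 17594) (nat_lit 0) [] (nat_lit 0) [] false,
   Spec.mk (nat_lit 17600) (nat_lit 0) [] (nat_lit 0) [] false,
   Spec.mk (nat_lit 17602) (nat_lit 0) [] (nat_lit 0) [] false,
   Spec.mk (nat_lit 17612) (nat_lit 0) [] (nat_lit 0) [] false,
   Spec.mk (nat_lit 17618) (nat_lit 0) [] (nat_lit 0) [] false,
   Spec.mk (nat_lit 17620) (nat_lit 0) [] (nat_lit 0) [] false,
   Spec.mk (nat_lit 17624) (nat_lit 0) [] (nat_lit 0) [] false,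
   Spec.mk (nat_lit 17626) (nat_lit 0) [] (nat_lit 0) [] false,
   Spec.mk (nat_lit 17628) (nat_lit 0) [] (nat_lit 0) [] false,
   Spec.mk (nat_lit 17636) (nat_lit 0) [] (nat_lit 0) [] false,
   Spec.mk (nat_lit 17638) (nat_lit 0) [] (nat_lit 0) [] false,
   Spec.mk (nat_lit 17642) (nat_lit 0) [] (nat_lit 0) [] false,
   Spec.mk (nat_lit 17644) (nat_lit 0) [] (nat_lit 0) [] false,
   Spec.mk (nat_lit 17646) (nat_lit 0) [] (nat_lit 0) [] false,
   Spec.mk (nat_lit 17650) (nat_lit 0) [] (nat_lit 0) [] false,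
   Spec.mk (nat_lit 17652) (nat_lit 0) [] (nat_lit 0) [] false,
   Spec.mk (nat_lit 17666) (nat_lit 0) [] (nat_lit 0) [] false,
   Spec.mk (nat_lit 17672) (nat_lit 0) [] (nat_lit 0) [] false,
   Spec.mk (nat_lit 17674) (nat_lit 0) [] (nat_lit 0) [] false,
   Spec.mk (nat_lit 17678) (nat_lit 0) [] (nat_lit 0) [] false]

noncomputable def cd43 : List Spec :=
  [Spec.mk (nat_lit 17680) (nat_lit 0) [] (nat_lit 0) [] false,
   Spec.mk (nat_lit 17682) (nat_lit 0) [] (nat_lit 0) [] false,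
   Spec.mk (nat_lit 17690) (nat_lit 0) [] (nat_lit 0) [] false,
   Spec.mk (nat_lit 17692) (nat_lit 0) [] (nat_lit 0) [] false,
   Spec.mk (nat_lit 17696) (nat_lit 0) [] (nat_lit 0) [] false,
   Spec.mk (nat_lit 17698) (nat_lit 0) [] (nat_lit 0) [] false,
   Spec.mk (nat_lit 17700) (nat_lit 0) [] (nat_lit 0) [] false,
   Spec.mk (nat_lit 17704) (nat_lit 0) [] (nat_lit 0) [] false,
   Spec.mk (nat_lit 17706) (nat_lit 0) [] (nat_lit 0) [] false,
   Spec.mk (nat_lit 17714) (nat_lit 0) [] (nat_lit 0) [] false,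
   Spec.mk (nat_lit 17716) (nat_lit 0) [] (nat_lit 0) [] false,
   Spec.mk (nat_lit 17718) (nat_lit 0) [] (nat_lit 0) [] false,
   Spec.mk (nat_lit 17722) (nat_lit 0) [] (nat_lit 0) [] false,
   Spec.mk (nat_lit 17724) (nat_lit 0) [] (nat_lit 0) [] false,
   Spec.mk (nat_lit 17730) (nat_lit 0) [] (nat_lit 0) [] false,
   Spec.mk (nat_lit 17756) (nat_lit 0) [] (nat_lit 0) [] false,
   Spec.mk (nat_lit 17762) (nat_lit 0) [] (nat_lit 0) [] false,
   Spec.mk (nat_lit 17764) (nat_lit 0) [] (nat_lit 0) [] false,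
   Spec.mk (nat_lit 17774) (nat_lit 0) [] (nat_lit 0) [] false,
   Spec.mk (nat_lit 17780) (nat_lit 0) [] (nat_lit 0) [] false,
   Spec.mk (nat_lit 17782) (nat_lit 0) [] (nat_lit 0) [] false,
   Spec.mk (nat_lit 17786) (nat_lit 0) [] (nat_lit 0) [] false,
   Spec.mk (nat_lit 17788) (nat_lit 0) [] (nat_lit 0) [] false,
   Spec.mk (nat_lit 17790) (nat_lit 0) [] (nat_lit 0) [] false,
   Spec.mk (nat_lit 17798) (nat_lit 0) [] (nat_lit 0) [] false,
   Spec.mk (nat_lit 17800) (nat_lit 0) [] (nat_lit 0) [] false,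
   Spec.mk (nat_lit 17804) (nat_lit 0) [] (nat_lit 0) [] false,
   Spec.mk (nat_lit 17806) (nat_lit 0) [] (nat_lit 0) [] false,
   Spec.mk (nat_lit 17808) (nat_lit 0) [] (nat_lit 0) [] false,
   Spec.mk (nat_lit 17812) (nat_lit 0) [] (nat_lit 0) [] false,
   Spec.mk (nat_lit 17814) (nat_lit 0) [] (nat_lit 0) [] false,
   Spec.mk (nat_lit 17828) (nat_lit 0) [] (nat_lit 0) [] false,
   Spec.mk (nat_lit 17834) (nat_lit 0) [] (nat_lit 0) [] false,
   Spec.mk (nat_lit 17836) (nat_lit 0) [] (nat_lit 0) [] false,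
   Spec.mk (nat_lit 17840) (nat_lit 0) [] (nat_lit 0) [] false,
   Spec.mk (nat_lit 17842) (nat_lit 0) [] (nat_lit 0) [] false,
   Spec.mk (nat_lit 17844) (nat_lit 0) [] (nat_lit 0) [] false,
   Spec.mk (nat_lit 17852) (nat_lit 0) [] (nat_lit 0) [] false,
   Spec.mk (nat_lit 17854) (nat_lit 0) [] (nat_lit 0) [] false,
   Spec.mk (nat_lit 17858) (nat_lit 0) [] (nat_lit 0) [] false,
   Spec.mk (nat_lit 17860) (nat_lit 0) [] (nat_lit 0) [] false,
   Spec.mk (nat_lit 17862) (nat_lit 0) [] (nat_lit 0) [] false,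
   Spec.mk (nat_lit 17866) (nat_lit 0) [] (nat_lit 0) [] false,
   Spec.mk (nat_lit 17868) (nat_lit 0) [] (nat_lit 0) [] false,
   Spec.mk (nat_lit 17876) (nat_lit 0) [] (nat_lit 0) [] false,
   Spec.mk (nat_lit 17878) (nat_lit 0) [] (nat_lit 0) [] false,
   Spec.mk (nat_lit 17880) (nat_lit 0) [] (nat_lit 0) [] false,
   Spec.mk (nat_lit 17884) (nat_lit 0) [] (nat_lit 0) [] false,
   Spec.mk (nat_lit 17886) (nat_lit 0) [] (nat_lit 0) [] false,
   Spec.mk (nat_lit 17892) (nat_lit 0) [] (nat_lit 0) [] false,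
   Spec.mk (nat_lit 17906) (nat_lit 0) [] (nat_lit 0) [] false,
   Spec.mk (nat_lit 17908) (nat_lit 0) [] (nat_lit 0) [] false,
   Spec.mk (nat_lit 17912) (nat_lit 0) [] (nat_lit 0) [] false,
   Spec.mk (nat_lit 17914) (nat_lit 0) [] (nat_lit 0) [] false,
   Spec.mk (nat_lit 17916) (nat_lit 0) [] (nat_lit 0) [] false,
   Spec.mk (nat_lit 17920) (nat_lit 0) [] (nat_lit 0) [] false,
   Spec.mk (nat_lit 17922) (nat_lit 0) [] (nat_lit 0) [] false,
   Spec.mk (nat_lit 17930) (nat_lit 0) [] (nat_lit 0) [] false,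
   Spec.mk (nat_lit 17932) (nat_lit 0) [] (nat_lit 0) [] false,
   Spec.mk (nat_lit 17934) (nat_lit 0) [] (nat_lit 0) [] false]

noncomputable def cd44 : List Spec :=
  [Spec.mk (nat_lit 17938) (nat_lit 0) [] (nat_lit 0) [] false,
   Spec.mk (nat_lit 17940) (nat_lit 0) [] (nat_lit 0) [] false,
   Spec.mk (nat_lit 17946) (nat_lit 0) [] (nat_lit 0) [] false,
   Spec.mk (nat_lit 17956) (nat_lit 0) [] (nat_lit 0) [] false,
   Spec.mk (nat_lit 17958) (nat_lit 0) [] (nat_lit 0) [] false,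
   Spec.mk (nat_lit 17964) (nat_lit 0) [] (nat_lit 0) [] false,
   Spec.mk (nat_lit 17990) (nat_lit 0) [] (nat_lit 0) [] false,
   Spec.mk (nat_lit 17996) (nat_lit 0) [] (nat_lit 0) [] false,
   Spec.mk (nat_lit 17998) (nat_lit 0) [] (nat_lit 0) [] false,
   Spec.mk (nat_lit 18002) (nat_lit 0) [] (nat_lit 0) [] false,
   Spec.mk (nat_lit 18004) (nat_lit 0) [] (nat_lit 0) [] false,
   Spec.mk (nat_lit 18006) (nat_lit 0) [] (nat_lit 0) [] false,
   Spec.mk (nat_lit 18014) (nat_lit 0) [] (nat_lit 0) [] false,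
   Spec.mk (nat_lit 18016) (nat_lit 0) [] (nat_lit 0) [] false,
   Spec.mk (nat_lit 18020) (nat_lit 0) [] (nat_lit 0) [] false,
   Spec.mk (nat_lit 18022) (nat_lit 0) [] (nat_lit 0) [] false,
   Spec.mk (nat_lit 18024) (nat_lit 0) [] (nat_lit 0) [] false,
   Spec.mk (nat_lit 18028) (nat_lit 0) [] (nat_lit 0) [] false,
   Spec.mk (nat_lit 18030) (nat_lit 0) [] (nat_lit 0) [] false,
   Spec.mk (nat_lit 18038) (nat_lit 0) [] (nat_lit 0) [] false,
   Spec.mk (nat_lit 18040) (nat_lit 0) [] (nat_lit 0) [] false,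
   Spec.mk (nat_lit 18042) (nat_lit 0) [] (nat_lit 0) [] false,
   Spec.mk (nat_lit 18046) (nat_lit 0) [] (nat_lit 0) [] false,
   Spec.mk (nat_lit 18048) (nat_lit 0) [] (nat_lit 0) [] false,
   Spec.mk (nat_lit 18054) (nat_lit 0) [] (nat_lit 0) [] false,
   Spec.mk (nat_lit 18068) (nat_lit 0) [] (nat_lit 0) [] false,
   Spec.mk (nat_lit 18070) (nat_lit 0) [] (nat_lit 0) [] false,
   Spec.mk (nat_lit 18074) (nat_lit 0) [] (nat_lit 0) [] false,
   Spec.mk (nat_lit 18076) (nat_lit 0) [] (nat_lit 0) [] false,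
   Spec.mk (nat_lit 18078) (nat_lit 0) [] (nat_lit 0) [] false,
   Spec.mk (nat_lit 18082) (nat_lit 0) [] (nat_lit 0) [] false,
   Spec.mk (nat_lit 18084) (nat_lit 0) [] (nat_lit 0) [] false,
   Spec.mk (nat_lit 18092) (nat_lit 0) [] (nat_lit 0) [] false,
   Spec.mk (nat_lit 18094) (nat_lit 0) [] (nat_lit 0) [] false,
   Spec.mk (nat_lit 18096) (nat_lit 0) [] (nat_lit 0) [] false,
   Spec.mk (nat_lit 18100) (nat_lit 0) [] (nat_lit 0) [] false,
   Spec.mk (nat_lit 18102) (nat_lit 0) [] (nat_lit 0) [] false,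
   Spec.mk (nat_lit 18108) (nat_lit 0) [] (nat_lit 0) [] false,
   Spec.mk (nat_lit 18118) (nat_lit 0) [] (nat_lit 0) [] false,
   Spec.mk (nat_lit 18120) (nat_lit 0) [] (nat_lit 0) [] false,
   Spec.mk (nat_lit 18126) (nat_lit 0) [] (nat_lit 0) [] false,
   Spec.mk (nat_lit 18146) (nat_lit 0) [] (nat_lit 0) [] false,
   Spec.mk (nat_lit 18148) (nat_lit 0) [] (nat_lit 0) [] false,
   Spec.mk (nat_lit 18150) (nat_lit 0) [] (nat_lit 0) [] false,
   Spec.mk (nat_lit 18154) (nat_lit 0) [] (nat_lit 0) [] false,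
   Spec.mk (nat_lit 18156) (nat_lit 0) [] (nat_lit 0) [] false,
   Spec.mk (nat_lit 18162) (nat_lit 0) [] (nat_lit 0) [] false,
   Spec.mk (nat_lit 18172) (nat_lit 0) [] (nat_lit 0) [] false,
   Spec.mk (nat_lit 18174) (nat_lit 0) [] (nat_lit 0) [] false,
   Spec.mk (nat_lit 18180) (nat_lit 0) [] (nat_lit 0) [] false,
   Spec.mk (nat_lit 18198) (nat_lit 0) [] (nat_lit 0) [] false,
   Spec.mk (nat_lit 18242) (nat_lit 0) [] (nat_lit 0) [] false,
   Spec.mk (nat_lit 18248) (nat_lit 0) [] (nat_lit 0) [] false,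
   Spec.mk (nat_lit 18250) (nat_lit 0) [] (nat_lit 0) [] false,
   Spec.mk (nat_lit 18260) (nat_lit 0) [] (nat_lit 0) [] false,
   Spec.mk (nat_lit 18266) (nat_lit 0) [] (nat_lit 0) [] false,
   Spec.mk (nat_lit 18268) (nat_lit 0) [] (nat_lit 0) [] false,
   Spec.mk (nat_lit 18272) (nat_lit 0) [] (nat_lit 0) [] false,
   Spec.mk (nat_lit 18274) (nat_lit 0) [] (nat_lit 0) [] false,
   Spec.mk (nat_lit 18276) (nat_lit 0) [] (nat_lit 0) [] false]

noncomputable def cd45 : List Spec :=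
  [Spec.mk (nat_lit 18284) (nat_lit 0) [] (nat_lit 0) [] false,
   Spec.mk (nat_lit 18286) (nat_lit 0) [] (nat_lit 0) [] false,
   Spec.mk (nat_lit 18290) (nat_lit 0) [] (nat_lit 0) [] false,
   Spec.mk (nat_lit 18292) (nat_lit 0) [] (nat_lit 0) [] false,
   Spec.mk (nat_lit 18294) (nat_lit 0) [] (nat_lit 0) [] false,
   Spec.mk (nat_lit 18298) (nat_lit 0) [] (nat_lit 0) [] false,
   Spec.mk (nat_lit 18300) (nat_lit 0) [] (nat_lit 0) [] false,
   Spec.mk (nat_lit 18314) (nat_lit 0) [] (nat_lit 0) [] false,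
   Spec.mk (nat_lit 18320) (nat_lit 0) [] (nat_lit 0) [] false,
   Spec.mk (nat_lit 18322) (nat_lit 0) [] (nat_lit 0) [] false,
   Spec.mk (nat_lit 18326) (nat_lit 0) [] (nat_lit 0) [] false,
   Spec.mk (nat_lit 18328) (nat_lit 0) [] (nat_lit 0) [] false,
   Spec.mk (nat_lit 18330) (nat_lit 0) [] (nat_lit 0) [] false,
   Spec.mk (nat_lit 18338) (nat_lit 0) [] (nat_lit 0) [] false,
   Spec.mk (nat_lit 18340) (nat_lit 0) [] (nat_lit 0) [] false,
   Spec.mk (nat_lit 18344) (nat_lit 0) [] (nat_lit 0) [] false,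
   Spec.mk (nat_lit 18346) (nat_lit 0) [] (nat_lit 0) [] false,
   Spec.mk (nat_lit 18348) (nat_lit 0) [] (nat_lit 0) [] false,
   Spec.mk (nat_lit 18352) (nat_lit 0) [] (nat_lit 0) [] false,
   Spec.mk (nat_lit 18354) (nat_lit 0) [] (nat_lit 0) [] false,
   Spec.mk (nat_lit 18362) (nat_lit 0) [] (nat_lit 0) [] false,
   Spec.mk (nat_lit 18364) (nat_lit 0) [] (nat_lit 0) [] false,
   Spec.mk (nat_lit 18366) (nat_lit 0) [] (nat_lit 0) [] false,
   Spec.mk (nat_lit 18370) (nat_lit 0) [] (nat_lit 0) [] false,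
   Spec.mk (nat_lit 18372) (nat_lit 0) [] (nat_lit 0) [] false,
   Spec.mk (nat_lit 18378) (nat_lit 0) [] (nat_lit 0) [] false,
   Spec.mk (nat_lit 18392) (nat_lit 0) [] (nat_lit 0) [] false,
   Spec.mk (nat_lit 18394) (nat_lit 0) [] (nat_lit 0) [] false,
   Spec.mk (nat_lit 18398) (nat_lit 0) [] (nat_lit 0) [] false,
   Spec.mk (nat_lit 18400) (nat_lit 0) [] (nat_lit 0) [] false,
   Spec.mk (nat_lit 18402) (nat_lit 0) [] (nat_lit 0) [] false,
   Spec.mk (nat_lit 18406) (nat_lit 0) [] (nat_lit 0) [] false,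
   Spec.mk (nat_lit 18408) (nat_lit 0) [] (nat_lit 0) [] false,
   Spec.mk (nat_lit 18416) (nat_lit 0) [] (nat_lit 0) [] false,
   Spec.mk (nat_lit 18418) (nat_lit 0) [] (nat_lit 0) [] false,
   Spec.mk (nat_lit 18420) (nat_lit 0) [] (nat_lit 0) [] false,
   Spec.mk (nat_lit 18424) (nat_lit 0) [] (nat_lit 0) [] false,
   Spec.mk (nat_lit 18426) (nat_lit 0) [] (nat_lit 0) [] false,
   Spec.mk (nat_lit 18432) (nat_lit 0) [] (nat_lit 0) [] false,
   Spec.mk (nat_lit 18442) (nat_lit 0) [] (nat_lit 0) [] false,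
   Spec.mk (nat_lit 18444) (nat_lit 0) [] (nat_lit 0) [] false,
   Spec.mk (nat_lit 18450) (nat_lit 0) [] (nat_lit 0) [] false,
   Spec.mk (nat_lit 18476) (nat_lit 0) [] (nat_lit 0) [] false,
   Spec.mk (nat_lit 18482) (nat_lit 0) [] (nat_lit 0) [] false,
   Spec.mk (nat_lit 18484) (nat_lit 0) [] (nat_lit 0) [] false,
   Spec.mk (nat_lit 18488) (nat_lit 0) [] (nat_lit 0) [] false,
   Spec.mk (nat_lit 18490) (nat_lit 0) [] (nat_lit 0) [] false,
   Spec.mk (nat_lit 18492) (nat_lit 0) [] (nat_lit 0) [] false,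
   Spec.mk (nat_lit 18500) (nat_lit 0) [] (nat_lit 0) [] false,
   Spec.mk (nat_lit 18502) (nat_lit 0) [] (nat_lit 0) [] false,
   Spec.mk (nat_lit 18506) (nat_lit 0) [] (nat_lit 0) [] false,
   Spec.mk (nat_lit 18508) (nat_lit 0) [] (nat_lit 0) [] false,
   Spec.mk (nat_lit 18510) (nat_lit 0) [] (nat_lit 0) [] false,
   Spec.mk (nat_lit 18514) (nat_lit 0) [] (nat_lit 0) [] false,
   Spec.mk (nat_lit 18516) (nat_lit 0) [] (nat_lit 0) [] false,
   Spec.mk (nat_lit 18524) (nat_lit 0) [] (nat_lit 0) [] false,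
   Spec.mk (nat_lit 18526) (nat_lit 0) [] (nat_lit 0) [] false,
   Spec.mk (nat_lit 18528) (nat_lit 0) [] (nat_lit 0) [] false,
   Spec.mk (nat_lit 18532) (nat_lit 0) [] (nat_lit 0) [] false,
   Spec.mk (nat_lit 18534) (nat_lit 0) [] (nat_lit 0) [] false]

noncomputable def cd46 : List Spec :=
  [Spec.mk (nat_lit 18540) (nat_lit 0) [] (nat_lit 0) [] false,
   Spec.mk (nat_lit 18554) (nat_lit 0) [] (nat_lit 0) [] false,
   Spec.mk (nat_lit 18556) (nat_lit 0) [] (nat_lit 0) [] false,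
   Spec.mk (nat_lit 18560) (nat_lit 0) [] (nat_lit 0) [] false,
   Spec.mk (nat_lit 18562) (nat_lit 0) [] (nat_lit 0) [] false,
   Spec.mk (nat_lit 18564) (nat_lit 0) [] (nat_lit 0) [] false,
   Spec.mk (nat_lit 18568) (nat_lit 0) [] (nat_lit 0) [] false,
   Spec.mk (nat_lit 18570) (nat_lit 0) [] (nat_lit 0) [] false,
   Spec.mk (nat_lit 18578) (nat_lit 0) [] (nat_lit 0) [] false,
   Spec.mk (nat_lit 18580) (nat_lit 0) [] (nat_lit 0) [] false,
   Spec.mk (nat_lit 18582) (nat_lit 0) [] (nat_lit 0) [] false,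
   Spec.mk (nat_lit 18586) (nat_lit 0) [] (nat_lit 0) [] false,
   Spec.mk (nat_lit 18588) (nat_lit 0) [] (nat_lit 0) [] false,
   Spec.mk (nat_lit 18594) (nat_lit 0) [] (nat_lit 0) [] false,
   Spec.mk (nat_lit 18604) (nat_lit 0) [] (nat_lit 0) [] false,
   Spec.mk (nat_lit 18606) (nat_lit 0) [] (nat_lit 0) [] false,
   Spec.mk (nat_lit 18612) (nat_lit 0) [] (nat_lit 0) [] false,
   Spec.mk (nat_lit 18632) (nat_lit 0) [] (nat_lit 0) [] false,
   Spec.mk (nat_lit 18634) (nat_lit 0) [] (nat_lit 0) [] false,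
   Spec.mk (nat_lit 18636) (nat_lit 0) [] (nat_lit 0) [] false,
   Spec.mk (nat_lit 18640) (nat_lit 0) [] (nat_lit 0) [] false,
   Spec.mk (nat_lit 18642) (nat_lit 0) [] (nat_lit 0) [] false,
   Spec.mk (nat_lit 18648) (nat_lit 0) [] (nat_lit 0) [] false,
   Spec.mk (nat_lit 18658) (nat_lit 0) [] (nat_lit 0) [] false,
   Spec.mk (nat_lit 18660) (nat_lit 0) [] (nat_lit 0) [] false,
   Spec.mk (nat_lit 18666) (nat_lit 0) [] (nat_lit 0) [] false,
   Spec.mk (nat_lit 18684) (nat_lit 0) [] (nat_lit 0) [] false,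
   Spec.mk (nat_lit 18716) (nat_lit 0) [] (nat_lit 0) [] false,
   Spec.mk (nat_lit 18718) (nat_lit 0) [] (nat_lit 0) [] false,
   Spec.mk (nat_lit 18722) (nat_lit 0) [] (nat_lit 0) [] false,
   Spec.mk (nat_lit 18724) (nat_lit 0) [] (nat_lit 0) [] false,
   Spec.mk (nat_lit 18726) (nat_lit 0) [] (nat_lit 0) [] false,
   Spec.mk (nat_lit 18730) (nat_lit 0) [] (nat_lit 0) [] false,
   Spec.mk (nat_lit 18732) (nat_lit 0) [] (nat_lit 0) [] false,
   Spec.mk (nat_lit 18740) (nat_lit 0) [] (nat_lit 0) [] false,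
   Spec.mk (nat_lit 18742) (nat_lit 0) [] (nat_lit 0) [] false,
   Spec.mk (nat_lit 18744) (nat_lit 0) [] (nat_lit 0) [] false,
   Spec.mk (nat_lit 18748) (nat_lit 0) [] (nat_lit 0) [] false,
   Spec.mk (nat_lit 18750) (nat_lit 0) [] (nat_lit 0) [] false,
   Spec.mk (nat_lit 18756) (nat_lit 0) [] (nat_lit 0) [] false,
   Spec.mk (nat_lit 18766) (nat_lit 0) [] (nat_lit 0) [] false,
   Spec.mk (nat_lit 18768) (nat_lit 0) [] (nat_lit 0) [] false,
   Spec.mk (nat_lit 18774) (nat_lit 0) [] (nat_lit 0) [] false,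
   Spec.mk (nat_lit 18794) (nat_lit 0) [] (nat_lit 0) [] false,
   Spec.mk (nat_lit 18796) (nat_lit 0) [] (nat_lit 0) [] false,
   Spec.mk (nat_lit 18798) (nat_lit 0) [] (nat_lit 0) [] false,
   Spec.mk (nat_lit 18802) (nat_lit 0) [] (nat_lit 0) [] false,
   Spec.mk (nat_lit 18804) (nat_lit 0) [] (nat_lit 0) [] false,
   Spec.mk (nat_lit 18810) (nat_lit 0) [] (nat_lit 0) [] false,
   Spec.mk (nat_lit 18820) (nat_lit 0) [] (nat_lit 0) [] false,
   Spec.mk (nat_lit 18822) (nat_lit 0) [] (nat_lit 0) [] false,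
   Spec.mk (nat_lit 18828) (nat_lit 0) [] (nat_lit 0) [] false,
   Spec.mk (nat_lit 18846) (nat_lit 0) [] (nat_lit 0) [] false,
   Spec.mk (nat_lit 18874) (nat_lit 0) [] (nat_lit 0) [] false,
   Spec.mk (nat_lit 18876) (nat_lit 0) [] (nat_lit 0) [] false,
   Spec.mk (nat_lit 18882) (nat_lit 0) [] (nat_lit 0) [] false,
   Spec.mk (nat_lit 18900) (nat_lit 0) [] (nat_lit 0) [] false,
   Spec.mk (nat_lit 18962) (nat_lit 0) [] (nat_lit 0) [] false,
   Spec.mk (nat_lit 18968) (nat_lit 0) [] (nat_lit 0) [] false,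
   Spec.mk (nat_lit 18970) (nat_lit 0) [] (nat_lit 0) [] false]

noncomputable def cd47 : List Spec :=
  [Spec.mk (nat_lit 18974) (nat_lit 0) [] (nat_lit 0) [] false,
   Spec.mk (nat_lit 18976) (nat_lit 0) [] (nat_lit 0) [] false,
   Spec.mk (nat_lit 18978) (nat_lit 0) [] (nat_lit 0) [] false,
   Spec.mk (nat_lit 18986) (nat_lit 0) [] (nat_lit 0) [] false,
   Spec.mk (nat_lit 18988) (nat_lit 0) [] (nat_lit 0) [] false,
   Spec.mk (nat_lit 18992) (nat_lit 0) [] (nat_lit 0) [] false,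
   Spec.mk (nat_lit 18994) (nat_lit 0) [] (nat_lit 0) [] false,
   Spec.mk (nat_lit 18996) (nat_lit 0) [] (nat_lit 0) [] false,
   Spec.mk (nat_lit 19000) (nat_lit 0) [] (nat_lit 0) [] false,
   Spec.mk (nat_lit 19002) (nat_lit 0) [] (nat_lit 0) [] false,
   Spec.mk (nat_lit 19010) (nat_lit 0) [] (nat_lit 0) [] false,
   Spec.mk (nat_lit 19012) (nat_lit 0) [] (nat_lit 0) [] false,
   Spec.mk (nat_lit 19014) (nat_lit 0) [] (nat_lit 0) [] false,
   Spec.mk (nat_lit 19018) (nat_lit 0) [] (nat_lit 0) [] false,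
   Spec.mk (nat_lit 19020) (nat_lit 0) [] (nat_lit 0) [] false,
   Spec.mk (nat_lit 19026) (nat_lit 0) [] (nat_lit 0) [] false,
   Spec.mk (nat_lit 19040) (nat_lit 0) [] (nat_lit 0) [] false,
   Spec.mk (nat_lit 19042) (nat_lit 0) [] (nat_lit 0) [] false,
   Spec.mk (nat_lit 19046) (nat_lit 0) [] (nat_lit 0) [] false,
   Spec.mk (nat_lit 19048) (nat_lit 0) [] (nat_lit 0) [] false,
   Spec.mk (nat_lit 19050) (nat_lit 0) [] (nat_lit 0) [] false,
   Spec.mk (nat_lit 19054) (nat_lit 0) [] (nat_lit 0) [] false,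
   Spec.mk (nat_lit 19056) (nat_lit 0) [] (nat_lit 0) [] false,
   Spec.mk (nat_lit 19064) (nat_lit 0) [] (nat_lit 0) [] false,
   Spec.mk (nat_lit 19066) (nat_lit 0) [] (nat_lit 0) [] false,
   Spec.mk (nat_lit 19068) (nat_lit 0) [] (nat_lit 0) [] false,
   Spec.mk (nat_lit 19072) (nat_lit 0) [] (nat_lit 0) [] false,
   Spec.mk (nat_lit 19074) (nat_lit 0) [] (nat_lit 0) [] false,
   Spec.mk (nat_lit 19080) (nat_lit 0) [] (nat_lit 0) [] false,
   Spec.mk (nat_lit 19090) (nat_lit 0) [] (nat_lit 0) [] false,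
   Spec.mk (nat_lit 19092) (nat_lit 0) [] (nat_lit 0) [] false,
   Spec.mk (nat_lit 19098) (nat_lit 0) [] (nat_lit 0) [] false,
   Spec.mk (nat_lit 19118) (nat_lit 0) [] (nat_lit 0) [] false,
   Spec.mk (nat_lit 19120) (nat_lit 0) [] (nat_lit 0) [] false,
   Spec.mk (nat_lit 19122) (nat_lit 0) [] (nat_lit 0) [] false,
   Spec.mk (nat_lit 19126) (nat_lit 0) [] (nat_lit 0) [] false,
   Spec.mk (nat_lit 19128) (nat_lit 0) [] (nat_lit 0) [] false,
   Spec.mk (nat_lit 19134) (nat_lit 0) [] (nat_lit 0) [] false,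
   Spec.mk (nat_lit 19144) (nat_lit 0) [] (nat_lit 0) [] false,
   Spec.mk (nat_lit 19146) (nat_lit 0) [] (nat_lit 0) [] false,
   Spec.mk (nat_lit 19152) (nat_lit 0) [] (nat_lit 0) [] false,
   Spec.mk (nat_lit 19170) (nat_lit 0) [] (nat_lit 0) [] false,
   Spec.mk (nat_lit 19202) (nat_lit 0) [] (nat_lit 0) [] false,
   Spec.mk (nat_lit 19204) (nat_lit 0) [] (nat_lit 0) [] false,
   Spec.mk (nat_lit 19208) (nat_lit 0) [] (nat_lit 0) [] false,
   Spec.mk (nat_lit 19210) (nat_lit 0) [] (nat_lit 0) [] false,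
   Spec.mk (nat_lit 19212) (nat_lit 0) [] (nat_lit 0) [] false,
   Spec.mk (nat_lit 19216) (nat_lit 0) [] (nat_lit 0) [] false,
   Spec.mk (nat_lit 19218) (nat_lit 0) [] (nat_lit 0) [] false,
   Spec.mk (nat_lit 19226) (nat_lit 0) [] (nat_lit 0) [] false,
   Spec.mk (nat_lit 19228) (nat_lit 0) [] (nat_lit 0) [] false,
   Spec.mk (nat_lit 19230) (nat_lit 0) [] (nat_lit 0) [] false,
   Spec.mk (nat_lit 19234) (nat_lit 0) [] (nat_lit 0) [] false,
   Spec.mk (nat_lit 19236) (nat_lit 0) [] (nat_lit 0) [] false,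
   Spec.mk (nat_lit 19242) (nat_lit 0) [] (nat_lit 0) [] false,
   Spec.mk (nat_lit 19252) (nat_lit 0) [] (nat_lit 0) [] false,
   Spec.mk (nat_lit 19254) (nat_lit 0) [] (nat_lit 0) [] false,
   Spec.mk (nat_lit 19260) (nat_lit 0) [] (nat_lit 0) [] false,
   Spec.mk (nat_lit 19280) (nat_lit 0) [] (nat_lit 0) [] false,
   Spec.mk (nat_lit 19282) (nat_lit 0) [] (nat_lit 0) [] false]

noncomputable def cd48 : List Spec :=
  [Spec.mk (nat_lit 19284) (nat_lit 0) [] (nat_lit 0) [] false,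
   Spec.mk (nat_lit 19288) (nat_lit 0) [] (nat_lit 0) [] false,
   Spec.mk (nat_lit 19290) (nat_lit 0) [] (nat_lit 0) [] false,
   Spec.mk (nat_lit 19296) (nat_lit 0) [] (nat_lit 0) [] false,
   Spec.mk (nat_lit 19306) (nat_lit 0) [] (nat_lit 0) [] false,
   Spec.mk (nat_lit 19308) (nat_lit 0) [] (nat_lit 0) [] false,
   Spec.mk (nat_lit 19314) (nat_lit 0) [] (nat_lit 0) [] false,
   Spec.mk (nat_lit 19332) (nat_lit 0) [] (nat_lit 0) [] false,
   Spec.mk (nat_lit 19360) (nat_lit 0) [] (nat_lit 0) [] false,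
   Spec.mk (nat_lit 19362) (nat_lit 0) [] (nat_lit 0) [] false,
   Spec.mk (nat_lit 19368) (nat_lit 0) [] (nat_lit 0) [] false,
   Spec.mk (nat_lit 19386) (nat_lit 0) [] (nat_lit 0) [] false,
   Spec.mk (nat_lit 19442) (nat_lit 0) [] (nat_lit 0) [] false,
   Spec.mk (nat_lit 19444) (nat_lit 0) [] (nat_lit 0) [] false,
   Spec.mk (nat_lit 19446) (nat_lit 0) [] (nat_lit 0) [] false,
   Spec.mk (nat_lit 19450) (nat_lit 0) [] (nat_lit 0) [] false,
   Spec.mk (nat_lit 19452) (nat_lit 0) [] (nat_lit 0) [] false,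
   Spec.mk (nat_lit 19458) (nat_lit 0) [] (nat_lit 0) [] false,
   Spec.mk (nat_lit 19468) (nat_lit 0) [] (nat_lit 0) [] false,
   Spec.mk (nat_lit 19470) (nat_lit 0) [] (nat_lit 0) [] false,
   Spec.mk (nat_lit 19476) (nat_lit 0) [] (nat_lit 0) [] false,
   Spec.mk (nat_lit 19494) (nat_lit 0) [] (nat_lit 0) [] false,
   Spec.mk (nat_lit 19522) (nat_lit 0) [] (nat_lit 0) [] false,
   Spec.mk (nat_lit 19524) (nat_lit 0) [] (nat_lit 0) [] false,
   Spec.mk (nat_lit 19530) (nat_lit 0) [] (nat_lit 0) [] false,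
   Spec.mk (nat_lit 19548) (nat_lit 0) [] (nat_lit 0) [] false,
   Spec.mk (nat_lit 19602) (nat_lit 0) [] (nat_lit 0) [] false,
   Spec.mk (nat_lit 19844) (nat_lit 0) [] (nat_lit 0) [] false,
   Spec.mk (nat_lit 19898) (nat_lit 0) [] (nat_lit 0) [] false,
   Spec.mk (nat_lit 19916) (nat_lit 0) [] (nat_lit 0) [] false,
   Spec.mk (nat_lit 19922) (nat_lit 0) [] (nat_lit 0) [] false,
   Spec.mk (nat_lit 19924) (nat_lit 0) [] (nat_lit 0) [] false,
   Spec.mk (nat_lit 20006) (nat_lit 0) [] (nat_lit 0) [] false,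
   Spec.mk (nat_lit 20060) (nat_lit 0) [] (nat_lit 0) [] false,
   Spec.mk (nat_lit 20078) (nat_lit 0) [] (nat_lit 0) [] false,
   Spec.mk (nat_lit 20084) (nat_lit 0) [] (nat_lit 0) [] false,
   Spec.mk (nat_lit 20086) (nat_lit 0) [] (nat_lit 0) [] false,
   Spec.mk (nat_lit 20114) (nat_lit 0) [] (nat_lit 0) [] false,
   Spec.mk (nat_lit 20132) (nat_lit 0) [] (nat_lit 0) [] false,
   Spec.mk (nat_lit 20138) (nat_lit 0) [] (nat_lit 0) [] false,
   Spec.mk (nat_lit 20140) (nat_lit 0) [] (nat_lit 0) [] false,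
   Spec.mk (nat_lit 20150) (nat_lit 0) [] (nat_lit 0) [] false,
   Spec.mk (nat_lit 20156) (nat_lit 0) [] (nat_lit 0) [] false,
   Spec.mk (nat_lit 20158) (nat_lit 0) [] (nat_lit 0) [] false,
   Spec.mk (nat_lit 20162) (nat_lit 0) [] (nat_lit 0) [] false,
   Spec.mk (nat_lit 20164) (nat_lit 0) [] (nat_lit 0) [] false,
   Spec.mk (nat_lit 20166) (nat_lit 0) [] (nat_lit 0) [] false,
   Spec.mk (nat_lit 20222) (nat_lit 0) [] (nat_lit 0) [] false,
   Spec.mk (nat_lit 20240) (nat_lit 0) [] (nat_lit 0) [] false,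
   Spec.mk (nat_lit 20246) (nat_lit 0) [] (nat_lit 0) [] false,
   Spec.mk (nat_lit 20248) (nat_lit 0) [] (nat_lit 0) [] false,
   Spec.mk (nat_lit 20276) (nat_lit 0) [] (nat_lit 0) [] false,
   Spec.mk (nat_lit 20294) (nat_lit 0) [] (nat_lit 0) [] false,
   Spec.mk (nat_lit 20300) (nat_lit 0) [] (nat_lit 0) [] false,
   Spec.mk (nat_lit 20302) (nat_lit 0) [] (nat_lit 0) [] false,
   Spec.mk (nat_lit 20312) (nat_lit 0) [] (nat_lit 0) [] false,
   Spec.mk (nat_lit 20318) (nat_lit 0) [] (nat_lit 0) [] false,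
   Spec.mk (nat_lit 20320) (nat_lit 0) [] (nat_lit 0) [] false,
   Spec.mk (nat_lit 20324) (nat_lit 0) [] (nat_lit 0) [] false,
   Spec.mk (nat_lit 20326) (nat_lit 0) [] (nat_lit 0) [] false]

noncomputable def cd49 : List Spec :=
  [Spec.mk (nat_lit 20328) (nat_lit 0) [] (nat_lit 0) [] false,
   Spec.mk (nat_lit 20348) (nat_lit 0) [] (nat_lit 0) [] false,
   Spec.mk (nat_lit 20354) (nat_lit 0) [] (nat_lit 0) [] false,
   Spec.mk (nat_lit 20356) (nat_lit 0) [] (nat_lit 0) [] false,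
   Spec.mk (nat_lit 20366) (nat_lit 0) [] (nat_lit 0) [] false,
   Spec.mk (nat_lit 20372) (nat_lit 0) [] (nat_lit 0) [] false,
   Spec.mk (nat_lit 20374) (nat_lit 0) [] (nat_lit 0) [] false,
   Spec.mk (nat_lit 20378) (nat_lit 0) [] (nat_lit 0) [] false,
   Spec.mk (nat_lit 20380) (nat_lit 0) [] (nat_lit 0) [] false,
   Spec.mk (nat_lit 20382) (nat_lit 0) [] (nat_lit 0) [] false,
   Spec.mk (nat_lit 20390) (nat_lit 0) [] (nat_lit 0) [] false,
   Spec.mk (nat_lit 20392) (nat_lit 0) [] (nat_lit 0) [] false,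
   Spec.mk (nat_lit 20396) (nat_lit 0) [] (nat_lit 0) [] false,
   Spec.mk (nat_lit 20398) (nat_lit 0) [] (nat_lit 0) [] false,
   Spec.mk (nat_lit 20400) (nat_lit 0) [] (nat_lit 0) [] false,
   Spec.mk (nat_lit 20404) (nat_lit 0) [] (nat_lit 0) [] false,
   Spec.mk (nat_lit 20406) (nat_lit 0) [] (nat_lit 0) [] false,
   Spec.mk (nat_lit 20492) (nat_lit 0) [] (nat_lit 0) [] false,
   Spec.mk (nat_lit 20546) (nat_lit 0) [] (nat_lit 0) [] false,
   Spec.mk (nat_lit 20564) (nat_lit 0) [] (nat_lit 0) [] false,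
   Spec.mk (nat_lit 20570) (nat_lit 0) [] (nat_lit 0) [] false,
   Spec.mk (nat_lit 20572) (nat_lit 0) [] (nat_lit 0) [] false,
   Spec.mk (nat_lit 20600) (nat_lit 0) [] (nat_lit 0) [] false,
   Spec.mk (nat_lit 20618) (nat_lit 0) [] (nat_lit 0) [] false,
   Spec.mk (nat_lit 20624) (nat_lit 0) [] (nat_lit 0) [] false,
   Spec.mk (nat_lit 20626) (nat_lit 0) [] (nat_lit 0) [] false,
   Spec.mk (nat_lit 20636) (nat_lit 0) [] (nat_lit 0) [] false,
   Spec.mk (nat_lit 20642) (nat_lit 0) [] (nat_lit 0) [] false,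
   Spec.mk (nat_lit 20644) (nat_lit 0) [] (nat_lit 0) [] false,
   Spec.mk (nat_lit 20648) (nat_lit 0) [] (nat_lit 0) [] false,
   Spec.mk (nat_lit 20650) (nat_lit 0) [] (nat_lit 0) [] false,
   Spec.mk (nat_lit 20652) (nat_lit 0) [] (nat_lit 0) [] false,
   Spec.mk (nat_lit 20708) (nat_lit 0) [] (nat_lit 0) [] false,
   Spec.mk (nat_lit 20726) (nat_lit 0) [] (nat_lit 0) [] false,
   Spec.mk (nat_lit 20732) (nat_lit 0) [] (nat_lit 0) [] false,
   Spec.mk (nat_lit 20734) (nat_lit 0) [] (nat_lit 0) [] false,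
   Spec.mk (nat_lit 20762) (nat_lit 0) [] (nat_lit 0) [] false,
   Spec.mk (nat_lit 20780) (nat_lit 0) [] (nat_lit 0) [] false,
   Spec.mk (nat_lit 20786) (nat_lit 0) [] (nat_lit 0) [] false,
   Spec.mk (nat_lit 20788) (nat_lit 0) [] (nat_lit 0) [] false,
   Spec.mk (nat_lit 20798) (nat_lit 0) [] (nat_lit 0) [] false,
   Spec.mk (nat_lit 20804) (nat_lit 0) [] (nat_lit 0) [] false,
   Spec.mk (nat_lit 20806) (nat_lit 0) [] (nat_lit 0) [] false,
   Spec.mk (nat_lit 20810) (nat_lit 0) [] (nat_lit 0) [] false,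
   Spec.mk (nat_lit 20812) (nat_lit 0) [] (nat_lit 0) [] false,
   Spec.mk (nat_lit 20814) (nat_lit 0) [] (nat_lit 0) [] false,
   Spec.mk (nat_lit 20834) (nat_lit 0) [] (nat_lit 0) [] false,
   Spec.mk (nat_lit 20840) (nat_lit 0) [] (nat_lit 0) [] false,
   Spec.mk (nat_lit 20842) (nat_lit 0) [] (nat_lit 0) [] false,
   Spec.mk (nat_lit 20852) (nat_lit 0) [] (nat_lit 0) [] false,
   Spec.mk (nat_lit 20858) (nat_lit 0) [] (nat_lit 0) [] false,
   Spec.mk (nat_lit 20860) (nat_lit 0) [] (nat_lit 0) [] false,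
   Spec.mk (nat_lit 20864) (nat_lit 0) [] (nat_lit 0) [] false,
   Spec.mk (nat_lit 20866) (nat_lit 0) [] (nat_lit 0) [] false,
   Spec.mk (nat_lit 20868) (nat_lit 0) [] (nat_lit 0) [] false,
   Spec.mk (nat_lit 20876) (nat_lit 0) [] (nat_lit 0) [] false,
   Spec.mk (nat_lit 20878) (nat_lit 0) [] (nat_lit 0) [] false,
   Spec.mk (nat_lit 20882) (nat_lit 0) [] (nat_lit 0) [] false,
   Spec.mk (nat_lit 20884) (nat_lit 0) [] (nat_lit 0) [] false,
   Spec.mk (nat_lit 20886) (nat_lit 0) [] (nat_lit 0) [] false]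

noncomputable def cd50 : List Spec :=
  [Spec.mk (nat_lit 20890) (nat_lit 0) [] (nat_lit 0) [] false,
   Spec.mk (nat_lit 20892) (nat_lit 0) [] (nat_lit 0) [] false,
   Spec.mk (nat_lit 20924) (nat_lit 0) [] (nat_lit 0) [] false,
   Spec.mk (nat_lit 20942) (nat_lit 0) [] (nat_lit 0) [] false,
   Spec.mk (nat_lit 20948) (nat_lit 0) [] (nat_lit 0) [] false,
   Spec.mk (nat_lit 20950) (nat_lit 0) [] (nat_lit 0) [] false,
   Spec.mk (nat_lit 20960) (nat_lit 0) [] (nat_lit 0) [] false,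
   Spec.mk (nat_lit 20966) (nat_lit 0) [] (nat_lit 0) [] false,
   Spec.mk (nat_lit 20968) (nat_lit 0) [] (nat_lit 0) [] false,
   Spec.mk (nat_lit 20972) (nat_lit 0) [] (nat_lit 0) [] false,
   Spec.mk (nat_lit 20974) (nat_lit 0) [] (nat_lit 0) [] false,
   Spec.mk (nat_lit 20976) (nat_lit 0) [] (nat_lit 0) [] false,
   Spec.mk (nat_lit 20996) (nat_lit 0) [] (nat_lit 0) [] false,
   Spec.mk (nat_lit 21002) (nat_lit 0) [] (nat_lit 0) [] false,
   Spec.mk (nat_lit 21004) (nat_lit 0) [] (nat_lit 0) [] false,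
   Spec.mk (nat_lit 21014) (nat_lit 0) [] (nat_lit 0) [] false,
   Spec.mk (nat_lit 21020) (nat_lit 0) [] (nat_lit 0) [] false,
   Spec.mk (nat_lit 21022) (nat_lit 0) [] (nat_lit 0) [] false,
   Spec.mk (nat_lit 21026) (nat_lit 0) [] (nat_lit 0) [] false,
   Spec.mk (nat_lit 21028) (nat_lit 0) [] (nat_lit 0) [] false,
   Spec.mk (nat_lit 21030) (nat_lit 0) [] (nat_lit 0) [] false,
   Spec.mk (nat_lit 21038) (nat_lit 0) [] (nat_lit 0) [] false,
   Spec.mk (nat_lit 21040) (nat_lit 0) [] (nat_lit 0) [] false,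
   Spec.mk (nat_lit 21044) (nat_lit 0) [] (nat_lit 0) [] false,
   Spec.mk (nat_lit 21046) (nat_lit 0) [] (nat_lit 0) [] false,
   Spec.mk (nat_lit 21048) (nat_lit 0) [] (nat_lit 0) [] false,
   Spec.mk (nat_lit 21052) (nat_lit 0) [] (nat_lit 0) [] false,
   Spec.mk (nat_lit 21054) (nat_lit 0) [] (nat_lit 0) [] false,
   Spec.mk (nat_lit 21068) (nat_lit 0) [] (nat_lit 0) [] false,
   Spec.mk (nat_lit 21074) (nat_lit 0) [] (nat_lit 0) [] false,
   Spec.mk (nat_lit 21076) (nat_lit 0) [] (nat_lit 0) [] false,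
   Spec.mk (nat_lit 21080) (nat_lit 0) [] (nat_lit 0) [] false,
   Spec.mk (nat_lit 21082) (nat_lit 0) [] (nat_lit 0) [] false,
   Spec.mk (nat_lit 21084) (nat_lit 0) [] (nat_lit 0) [] false,
   Spec.mk (nat_lit 21092) (nat_lit 0) [] (nat_lit 0) [] false,
   Spec.mk (nat_lit 21094) (nat_lit 0) [] (nat_lit 0) [] false,
   Spec.mk (nat_lit 21098) (nat_lit 0) [] (nat_lit 0) [] false,
   Spec.mk (nat_lit 21100) (nat_lit 0) [] (nat_lit 0) [] false,
   Spec.mk (nat_lit 21102) (nat_lit 0) [] (nat_lit 0) [] false,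
   Spec.mk (nat_lit 21106) (nat_lit 0) [] (nat_lit 0) [] false,
   Spec.mk (nat_lit 21108) (nat_lit 0) [] (nat_lit 0) [] false,
   Spec.mk (nat_lit 21116) (nat_lit 0) [] (nat_lit 0) [] false,
   Spec.mk (nat_lit 21118) (nat_lit 0) [] (nat_lit 0) [] false,
   Spec.mk (nat_lit 21120) (nat_lit 0) [] (nat_lit 0) [] false,
   Spec.mk (nat_lit 21124) (nat_lit 0) [] (nat_lit 0) [] false,
   Spec.mk (nat_lit 21126) (nat_lit 0) [] (nat_lit 0) [] false,
   Spec.mk (nat_lit 21132) (nat_lit 0) [] (nat_lit 0) [] false,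
   Spec.mk (nat_lit 21194) (nat_lit 0) [] (nat_lit 0) [] false,
   Spec.mk (nat_lit 21212) (nat_lit 0) [] (nat_lit 0) [] false,
   Spec.mk (nat_lit 21218) (nat_lit 0) [] (nat_lit 0) [] false,
   Spec.mk (nat_lit 21220) (nat_lit 0) [] (nat_lit 0) [] false,
   Spec.mk (nat_lit 21248) (nat_lit 0) [] (nat_lit 0) [] false,
   Spec.mk (nat_lit 21266) (nat_lit 0) [] (nat_lit 0) [] false,
   Spec.mk (nat_lit 21272) (nat_lit 0) [] (nat_lit 0) [] false,
   Spec.mk (nat_lit 21274) (nat_lit 0) [] (nat_lit 0) [] false,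
   Spec.mk (nat_lit 21284) (nat_lit 0) [] (nat_lit 0) [] false,
   Spec.mk (nat_lit 21290) (nat_lit 0) [] (nat_lit 0) [] false,
   Spec.mk (nat_lit 21292) (nat_lit 0) [] (nat_lit 0) [] false,
   Spec.mk (nat_lit 21296) (nat_lit 0) [] (nat_lit 0) [] false,
   Spec.mk (nat_lit 21298) (nat_lit 0) [] (nat_lit 0) [] false]

noncomputable def cd51 : List Spec :=
  [Spec.mk (nat_lit 21300) (nat_lit 0) [] (nat_lit 0) [] false,
   Spec.mk (nat_lit 21320) (nat_lit 0) [] (nat_lit 0) [] false,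
   Spec.mk (nat_lit 21326) (nat_lit 0) [] (nat_lit 0) [] false,
   Spec.mk (nat_lit 21328) (nat_lit 0) [] (nat_lit 0) [] false,
   Spec.mk (nat_lit 21338) (nat_lit 0) [] (nat_lit 0) [] false,
   Spec.mk (nat_lit 21344) (nat_lit 0) [] (nat_lit 0) [] false,
   Spec.mk (nat_lit 21346) (nat_lit 0) [] (nat_lit 0) [] false,
   Spec.mk (nat_lit 21350) (nat_lit 0) [] (nat_lit 0) [] false,
   Spec.mk (nat_lit 21352) (nat_lit 0) [] (nat_lit 0) [] false,
   Spec.mk (nat_lit 21354) (nat_lit 0) [] (nat_lit 0) [] false,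
   Spec.mk (nat_lit 21362) (nat_lit 0) [] (nat_lit 0) [] false,
   Spec.mk (nat_lit 21364) (nat_lit 0) [] (nat_lit 0) [] false,
   Spec.mk (nat_lit 21368) (nat_lit 0) [] (nat_lit 0) [] false,
   Spec.mk (nat_lit 21370) (nat_lit 0) [] (nat_lit 0) [] false,
   Spec.mk (nat_lit 21372) (nat_lit 0) [] (nat_lit 0) [] false,
   Spec.mk (nat_lit 21376) (nat_lit 0) [] (nat_lit 0) [] false,
   Spec.mk (nat_lit 21378) (nat_lit 0) [] (nat_lit 0) [] false,
   Spec.mk (nat_lit 21410) (nat_lit 0) [] (nat_lit 0) [] false,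
   Spec.mk (nat_lit 21428) (nat_lit 0) [] (nat_lit 0) [] false,
   Spec.mk (nat_lit 21434) (nat_lit 0) [] (nat_lit 0) [] false,
   Spec.mk (nat_lit 21436) (nat_lit 0) [] (nat_lit 0) [] false,
   Spec.mk (nat_lit 21446) (nat_lit 0) [] (nat_lit 0) [] false,
   Spec.mk (nat_lit 21452) (nat_lit 0) [] (nat_lit 0) [] false,
   Spec.mk (nat_lit 21454) (nat_lit 0) [] (nat_lit 0) [] false,
   Spec.mk (nat_lit 21458) (nat_lit 0) [] (nat_lit 0) [] false,
   Spec.mk (nat_lit 21460) (nat_lit 0) [] (nat_lit 0) [] false,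
   Spec.mk (nat_lit 21462) (nat_lit 0) [] (nat_lit 0) [] false,
   Spec.mk (nat_lit 21482) (nat_lit 0) [] (nat_lit 0) [] false,
   Spec.mk (nat_lit 21488) (nat_lit 0) [] (nat_lit 0) [] false,
   Spec.mk (nat_lit 21490) (nat_lit 0) [] (nat_lit 0) [] false,
   Spec.mk (nat_lit 21500) (nat_lit 0) [] (nat_lit 0) [] false,
   Spec.mk (nat_lit 21506) (nat_lit 0) [] (nat_lit 0) [] false,
   Spec.mk (nat_lit 21508) (nat_lit 0) [] (nat_lit 0) [] false,
   Spec.mk (nat_lit 21512) (nat_lit 0) [] (nat_lit 0) [] false,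
   Spec.mk (nat_lit 21514) (nat_lit 0) [] (nat_lit 0) [] false,
   Spec.mk (nat_lit 21516) (nat_lit 0) [] (nat_lit 0) [] false,
   Spec.mk (nat_lit 21524) (nat_lit 0) [] (nat_lit 0) [] false,
   Spec.mk (nat_lit 21526) (nat_lit 0) [] (nat_lit 0) [] false,
   Spec.mk (nat_lit 21530) (nat_lit 0) [] (nat_lit 0) [] false,
   Spec.mk (nat_lit 21532) (nat_lit 0) [] (nat_lit 0) [] false,
   Spec.mk (nat_lit 21534) (nat_lit 0) [] (nat_lit 0) [] false,
   Spec.mk (nat_lit 21538) (nat_lit 0) [] (nat_lit 0) [] false,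
   Spec.mk (nat_lit 21540) (nat_lit 0) [] (nat_lit 0) [] false,
   Spec.mk (nat_lit 21554) (nat_lit 0) [] (nat_lit 0) [] false,
   Spec.mk (nat_lit 21560) (nat_lit 0) [] (nat_lit 0) [] false,
   Spec.mk (nat_lit 21562) (nat_lit 0) [] (nat_lit 0) [] false,
   Spec.mk (nat_lit 21566) (nat_lit 0) [] (nat_lit 0) [] false,
   Spec.mk (nat_lit 21568) (nat_lit 0) [] (nat_lit 0) [] false,
   Spec.mk (nat_lit 21570) (nat_lit 0) [] (nat_lit 0) [] false,
   Spec.mk (nat_lit 21578) (nat_lit 0) [] (nat_lit 0) [] false,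
   Spec.mk (nat_lit 21580) (nat_lit 0) [] (nat_lit 0) [] false,
   Spec.mk (nat_lit 21584) (nat_lit 0) [] (nat_lit 0) [] false,
   Spec.mk (nat_lit 21586) (nat_lit 0) [] (nat_lit 0) [] false,
   Spec.mk (nat_lit 21588) (nat_lit 0) [] (nat_lit 0) [] false,
   Spec.mk (nat_lit 21592) (nat_lit 0) [] (nat_lit 0) [] false,
   Spec.mk (nat_lit 21594) (nat_lit 0) [] (nat_lit 0) [] false,
   Spec.mk (nat_lit 21602) (nat_lit 0) [] (nat_lit 0) [] false,
   Spec.mk (nat_lit 21604) (nat_lit 0) [] (nat_lit 0) [] false,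
   Spec.mk (nat_lit 21606) (nat_lit 0) [] (nat_lit 0) [] false,
   Spec.mk (nat_lit 21610) (nat_lit 0) [] (nat_lit 0) [] false]

noncomputable def cd52 : List Spec :=
  [Spec.mk (nat_lit 21612) (nat_lit 0) [] (nat_lit 0) [] false,
   Spec.mk (nat_lit 21618) (nat_lit 0) [] (nat_lit 0) [] false,
   Spec.mk (nat_lit 21644) (nat_lit 0) [] (nat_lit 0) [] false,
   Spec.mk (nat_lit 21650) (nat_lit 0) [] (nat_lit 0) [] false,
   Spec.mk (nat_lit 21652) (nat_lit 0) [] (nat_lit 0) [] false,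
   Spec.mk (nat_lit 21662) (nat_lit 0) [] (nat_lit 0) [] false,
   Spec.mk (nat_lit 21668) (nat_lit 0) [] (nat_lit 0) [] false,
   Spec.mk (nat_lit 21670) (nat_lit 0) [] (nat_lit 0) [] false,
   Spec.mk (nat_lit 21674) (nat_lit 0) [] (nat_lit 0) [] false,
   Spec.mk (nat_lit 21676) (nat_lit 0) [] (nat_lit 0) [] false,
   Spec.mk (nat_lit 21678) (nat_lit 0) [] (nat_lit 0) [] false,
   Spec.mk (nat_lit 21686) (nat_lit 0) [] (nat_lit 0) [] false,
   Spec.mk (nat_lit 21688) (nat_lit 0) [] (nat_lit 0) [] false,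
   Spec.mk (nat_lit 21692) (nat_lit 0) [] (nat_lit 0) [] false,
   Spec.mk (nat_lit 21694) (nat_lit 0) [] (nat_lit 0) [] false,
   Spec.mk (nat_lit 21696) (nat_lit 0) [] (nat_lit 0) [] false,
   Spec.mk (nat_lit 21700) (nat_lit 0) [] (nat_lit 0) [] false,
   Spec.mk (nat_lit 21702) (nat_lit 0) [] (nat_lit 0) [] false,
   Spec.mk (nat_lit 21716) (nat_lit 0) [] (nat_lit 0) [] false,
   Spec.mk (nat_lit 21722) (nat_lit 0) [] (nat_lit 0) [] false,
   Spec.mk (nat_lit 21724) (nat_lit 0) [] (nat_lit 0) [] false,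
   Spec.mk (nat_lit 21728) (nat_lit 0) [] (nat_lit 0) [] false,
   Spec.mk (nat_lit 21730) (nat_lit 0) [] (nat_lit 0) [] false,
   Spec.mk (nat_lit 21732) (nat_lit 0) [] (nat_lit 0) [] false,
   Spec.mk (nat_lit 21740) (nat_lit 0) [] (nat_lit 0) [] false,
   Spec.mk (nat_lit 21742) (nat_lit 0) [] (nat_lit 0) [] false,
   Spec.mk (nat_lit 21746) (nat_lit 0) [] (nat_lit 0) [] false,
   Spec.mk (nat_lit 21748) (nat_lit 0) [] (nat_lit 0) [] false,
   Spec.mk (nat_lit 21750) (nat_lit 0) [] (nat_lit 0) [] false,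
   Spec.mk (nat_lit 21754) (nat_lit 0) [] (nat_lit 0) [] false,
   Spec.mk (nat_lit 21756) (nat_lit 0) [] (nat_lit 0) [] false,
   Spec.mk (nat_lit 21764) (nat_lit 0) [] (nat_lit 0) [] false,
   Spec.mk (nat_lit 21766) (nat_lit 0) [] (nat_lit 0) [] false,
   Spec.mk (nat_lit 21768) (nat_lit 0) [] (nat_lit 0) [] false,
   Spec.mk (nat_lit 21772) (nat_lit 0) [] (nat_lit 0) [] false,
   Spec.mk (nat_lit 21774) (nat_lit 0) [] (nat_lit 0) [] false,
   Spec.mk (nat_lit 21780) (nat_lit 0) [] (nat_lit 0) [] false,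
   Spec.mk (nat_lit 21794) (nat_lit 0) [] (nat_lit 0) [] false,
   Spec.mk (nat_lit 21796) (nat_lit 0) [] (nat_lit 0) [] false,
   Spec.mk (nat_lit 21800) (nat_lit 0) [] (nat_lit 0) [] false,
   Spec.mk (nat_lit 21802) (nat_lit 0) [] (nat_lit 0) [] false,
   Spec.mk (nat_lit 21804) (nat_lit 0) [] (nat_lit 0) [] false,
   Spec.mk (nat_lit 21808) (nat_lit 0) [] (nat_lit 0) [] false,
   Spec.mk (nat_lit 21810) (nat_lit 0) [] (nat_lit 0) [] false,
   Spec.mk (nat_lit 21818) (nat_lit 0) [] (nat_lit 0) [] false,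
   Spec.mk (nat_lit 21820) (nat_lit 0) [] (nat_lit 0) [] false,
   Spec.mk (nat_lit 21822) (nat_lit 0) [] (nat_lit 0) [] false,
   Spec.mk (nat_lit 21826) (nat_lit 0) [] (nat_lit 0) [] false,
   Spec.mk (nat_lit 21828) (nat_lit 0) [] (nat_lit 0) [] false,
   Spec.mk (nat_lit 21834) (nat_lit 0) [] (nat_lit 0) [] false,
   Spec.mk (nat_lit 21844) (nat_lit 0) [] (nat_lit 0) [] false,
   Spec.mk (nat_lit 21846) (nat_lit 0) [] (nat_lit 0) [] false,
   Spec.mk (nat_lit 21852) (nat_lit 0) [] (nat_lit 0) [] false,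
   Spec.mk (nat_lit 21950) (nat_lit 0) [] (nat_lit 0) [] false,
   Spec.mk (nat_lit 22004) (nat_lit 0) [] (nat_lit 0) [] false,
   Spec.mk (nat_lit 22022) (nat_lit 0) [] (nat_lit 0) [] false,
   Spec.mk (nat_lit 22028) (nat_lit 0) [] (nat_lit 0) [] false,
   Spec.mk (nat_lit 22030) (nat_lit 0) [] (nat_lit 0) [] false,
   Spec.mk (nat_lit 22058) (nat_lit 0) [] (nat_lit 0) [] false,
   Spec.mk (nat_lit 22076) (nat_lit 0) [] (nat_lit 0) [] false]

noncomputable def cd53 : List Spec :=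
  [Spec.mk (nat_lit 22082) (nat_lit 0) [] (nat_lit 0) [] false,
   Spec.mk (nat_lit 22084) (nat_lit 0) [] (nat_lit 0) [] false,
   Spec.mk (nat_lit 22094) (nat_lit 0) [] (nat_lit 0) [] false,
   Spec.mk (nat_lit 22100) (nat_lit 0) [] (nat_lit 0) [] false,
   Spec.mk (nat_lit 22102) (nat_lit 0) [] (nat_lit 0) [] false,
   Spec.mk (nat_lit 22106) (nat_lit 0) [] (nat_lit 0) [] false,
   Spec.mk (nat_lit 22108) (nat_lit 0) [] (nat_lit 0) [] false,
   Spec.mk (nat_lit 22110) (nat_lit 0) [] (nat_lit 0) [] false,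
   Spec.mk (nat_lit 22166) (nat_lit 0) [] (nat_lit 0) [] false,
   Spec.mk (nat_lit 22184) (nat_lit 0) [] (nat_lit 0) [] false,
   Spec.mk (nat_lit 22190) (nat_lit 0) [] (nat_lit 0) [] false,
   Spec.mk (nat_lit 22192) (nat_lit 0) [] (nat_lit 0) [] false,
   Spec.mk (nat_lit 22220) (nat_lit 0) [] (nat_lit 0) [] false,
   Spec.mk (nat_lit 22238) (nat_lit 0) [] (nat_lit 0) [] false,
   Spec.mk (nat_lit 22244) (nat_lit 0) [] (nat_lit 0) [] false,
   Spec.mk (nat_lit 22246) (nat_lit 0) [] (nat_lit 0) [] false,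
   Spec.mk (nat_lit 22256) (nat_lit 0) [] (nat_lit 0) [] false,
   Spec.mk (nat_lit 22262) (nat_lit 0) [] (nat_lit 0) [] false,
   Spec.mk (nat_lit 22264) (nat_lit 0) [] (nat_lit 0) [] false,
   Spec.mk (nat_lit 22268) (nat_lit 0) [] (nat_lit 0) [] false,
   Spec.mk (nat_lit 22270) (nat_lit 0) [] (nat_lit 0) [] false,
   Spec.mk (nat_lit 22272) (nat_lit 0) [] (nat_lit 0) [] false,
   Spec.mk (nat_lit 22292) (nat_lit 0) [] (nat_lit 0) [] false,
   Spec.mk (nat_lit 22298) (nat_lit 0) [] (nat_lit 0) [] false,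
   Spec.mk (nat_lit 22300) (nat_lit 0) [] (nat_lit 0) [] false,
   Spec.mk (nat_lit 22310) (nat_lit 0) [] (nat_lit 0) [] false,
   Spec.mk (nat_lit 22316) (nat_lit 0) [] (nat_lit 0) [] false,
   Spec.mk (nat_lit 22318) (nat_lit 0) [] (nat_lit 0) [] false,
   Spec.mk (nat_lit 22322) (nat_lit 0) [] (nat_lit 0) [] false,
   Spec.mk (nat_lit 22324) (nat_lit 0) [] (nat_lit 0) [] false,
   Spec.mk (nat_lit 22326) (nat_lit 0) [] (nat_lit 0) [] false,
   Spec.mk (nat_lit 22334) (nat_lit 0) [] (nat_lit 0) [] false,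
   Spec.mk (nat_lit 22336) (nat_lit 0) [] (nat_lit 0) [] false,
   Spec.mk (nat_lit 22340) (nat_lit 0) [] (nat_lit 0) [] false,
   Spec.mk (nat_lit 22342) (nat_lit 0) [] (nat_lit 0) [] false,
   Spec.mk (nat_lit 22344) (nat_lit 0) [] (nat_lit 0) [] false,
   Spec.mk (nat_lit 22348) (nat_lit 0) [] (nat_lit 0) [] false,
   Spec.mk (nat_lit 22350) (nat_lit 0) [] (nat_lit 0) [] false,
   Spec.mk (nat_lit 22382) (nat_lit 0) [] (nat_lit 0) [] false,
   Spec.mk (nat_lit 22400) (nat_lit 0) [] (nat_lit 0) [] false,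
   Spec.mk (nat_lit 22406) (nat_lit 0) [] (nat_lit 0) [] false,
   Spec.mk (nat_lit 22408) (nat_lit 0) [] (nat_lit 0) [] false,
   Spec.mk (nat_lit 22418) (nat_lit 0) [] (nat_lit 0) [] false,
   Spec.mk (nat_lit 22424) (nat_lit 0) [] (nat_lit 0) [] false,
   Spec.mk (nat_lit 22426) (nat_lit 0) [] (nat_lit 0) [] false,
   Spec.mk (nat_lit 22430) (nat_lit 0) [] (nat_lit 0) [] false,
   Spec.mk (nat_lit 22432) (nat_lit 0) [] (nat_lit 0) [] false,
   Spec.mk (nat_lit 22434) (nat_lit 0) [] (nat_lit 0) [] false,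
   Spec.mk (nat_lit 22454) (nat_lit 0) [] (nat_lit 0) [] false,
   Spec.mk (nat_lit 22460) (nat_lit 0) [] (nat_lit 0) [] false,
   Spec.mk (nat_lit 22462) (nat_lit 0) [] (nat_lit 0) [] false,
   Spec.mk (nat_lit 22472) (nat_lit 0) [] (nat_lit 0) [] false,
   Spec.mk (nat_lit 22478) (nat_lit 0) [] (nat_lit 0) [] false,
   Spec.mk (nat_lit 22480) (nat_lit 0) [] (nat_lit 0) [] false,
   Spec.mk (nat_lit 22484) (nat_lit 0) [] (nat_lit 0) [] false,
   Spec.mk (nat_lit 22486) (nat_lit 0) [] (nat_lit 0) [] false,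
   Spec.mk (nat_lit 22488) (nat_lit 0) [] (nat_lit 0) [] false,
   Spec.mk (nat_lit 22496) (nat_lit 0) [] (nat_lit 0) [] false,
   Spec.mk (nat_lit 22498) (nat_lit 0) [] (nat_lit 0) [] false,
   Spec.mk (nat_lit 22502) (nat_lit 0) [] (nat_lit 0) [] false]

noncomputable def cd54 : List Spec :=
  [Spec.mk (nat_lit 22504) (nat_lit 0) [] (nat_lit 0) [] false,
   Spec.mk (nat_lit 22506) (nat_lit 0) [] (nat_lit 0) [] false,
   Spec.mk (nat_lit 22510) (nat_lit 0) [] (nat_lit 0) [] false,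
   Spec.mk (nat_lit 22512) (nat_lit 0) [] (nat_lit 0) [] false,
   Spec.mk (nat_lit 22526) (nat_lit 0) [] (nat_lit 0) [] false,
   Spec.mk (nat_lit 22532) (nat_lit 0) [] (nat_lit 0) [] false,
   Spec.mk (nat_lit 22534) (nat_lit 0) [] (nat_lit 0) [] false,
   Spec.mk (nat_lit 22538) (nat_lit 0) [] (nat_lit 0) [] false,
   Spec.mk (nat_lit 22540) (nat_lit 0) [] (nat_lit 0) [] false,
   Spec.mk (nat_lit 22542) (nat_lit 0) [] (nat_lit 0) [] false,
   Spec.mk (nat_lit 22550) (nat_lit 0) [] (nat_lit 0) [] false,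
   Spec.mk (nat_lit 22552) (nat_lit 0) [] (nat_lit 0) [] false,
   Spec.mk (nat_lit 22556) (nat_lit 0) [] (nat_lit 0) [] false,
   Spec.mk (nat_lit 22558) (nat_lit 0) [] (nat_lit 0) [] false,
   Spec.mk (nat_lit 22560) (nat_lit 0) [] (nat_lit 0) [] false,
   Spec.mk (nat_lit 22564) (nat_lit 0) [] (nat_lit 0) [] false,
   Spec.mk (nat_lit 22566) (nat_lit 0) [] (nat_lit 0) [] false,
   Spec.mk (nat_lit 22574) (nat_lit 0) [] (nat_lit 0) [] false,
   Spec.mk (nat_lit 22576) (nat_lit 0) [] (nat_lit 0) [] false,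
   Spec.mk (nat_lit 22578) (nat_lit 0) [] (nat_lit 0) [] false,
   Spec.mk (nat_lit 22582) (nat_lit 0) [] (nat_lit 0) [] false,
   Spec.mk (nat_lit 22584) (nat_lit 0) [] (nat_lit 0) [] false,
   Spec.mk (nat_lit 22590) (nat_lit 0) [] (nat_lit 0) [] false,
   Spec.mk (nat_lit 22652) (nat_lit 0) [] (nat_lit 0) [] false,
   Spec.mk (nat_lit 22670) (nat_lit 0) [] (nat_lit 0) [] false,
   Spec.mk (nat_lit 22676) (nat_lit 0) [] (nat_lit 0) [] false,
   Spec.mk (nat_lit 22678) (nat_lit 0) [] (nat_lit 0) [] false,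
   Spec.mk (nat_lit 22706) (nat_lit 0) [] (nat_lit 0) [] false,
   Spec.mk (nat_lit 22724) (nat_lit 0) [] (nat_lit 0) [] false,
   Spec.mk (nat_lit 22730) (nat_lit 0) [] (nat_lit 0) [] false,
   Spec.mk (nat_lit 22732) (nat_lit 0) [] (nat_lit 0) [] false,
   Spec.mk (nat_lit 22742) (nat_lit 0) [] (nat_lit 0) [] false,
   Spec.mk (nat_lit 22748) (nat_lit 0) [] (nat_lit 0) [] false,
   Spec.mk (nat_lit 22750) (nat_lit 0) [] (nat_lit 0) [] false,
   Spec.mk (nat_lit 22754) (nat_lit 0) [] (nat_lit 0) [] false,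
   Spec.mk (nat_lit 22756) (nat_lit 0) [] (nat_lit 0) [] false,
   Spec.mk (nat_lit 22758) (nat_lit 0) [] (nat_lit 0) [] false,
   Spec.mk (nat_lit 22778) (nat_lit 0) [] (nat_lit 0) [] false,
   Spec.mk (nat_lit 22784) (nat_lit 0) [] (nat_lit 0) [] false,
   Spec.mk (nat_lit 22786) (nat_lit 0) [] (nat_lit 0) [] false,
   Spec.mk (nat_lit 22796) (nat_lit 0) [] (nat_lit 0) [] false,
   Spec.mk (nat_lit 22802) (nat_lit 0) [] (nat_lit 0) [] false,
   Spec.mk (nat_lit 22804) (nat_lit 0) [] (nat_lit 0) [] false,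
   Spec.mk (nat_lit 22808) (nat_lit 0) [] (nat_lit 0) [] false,
   Spec.mk (nat_lit 22810) (nat_lit 0) [] (nat_lit 0) [] false,
   Spec.mk (nat_lit 22812) (nat_lit 0) [] (nat_lit 0) [] false,
   Spec.mk (nat_lit 22820) (nat_lit 0) [] (nat_lit 0) [] false,
   Spec.mk (nat_lit 22822) (nat_lit 0) [] (nat_lit 0) [] false,
   Spec.mk (nat_lit 22826) (nat_lit 0) [] (nat_lit 0) [] false,
   Spec.mk (nat_lit 22828) (nat_lit 0) [] (nat_lit 0) [] false,
   Spec.mk (nat_lit 22830) (nat_lit 0) [] (nat_lit 0) [] false,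
   Spec.mk (nat_lit 22834) (nat_lit 0) [] (nat_lit 0) [] false,
   Spec.mk (nat_lit 22836) (nat_lit 0) [] (nat_lit 0) [] false,
   Spec.mk (nat_lit 22868) (nat_lit 0) [] (nat_lit 0) [] false,
   Spec.mk (nat_lit 22886) (nat_lit 0) [] (nat_lit 0) [] false,
   Spec.mk (nat_lit 22892) (nat_lit 0) [] (nat_lit 0) [] false,
   Spec.mk (nat_lit 22894) (nat_lit 0) [] (nat_lit 0) [] false,
   Spec.mk (nat_lit 22904) (nat_lit 0) [] (nat_lit 0) [] false,
   Spec.mk (nat_lit 22910) (nat_lit 0) [] (nat_lit 0) [] false,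
   Spec.mk (nat_lit 22912) (nat_lit 0) [] (nat_lit 0) [] false]

noncomputable def cd55 : List Spec :=
  [Spec.mk (nat_lit 22916) (nat_lit 0) [] (nat_lit 0) [] false,
   Spec.mk (nat_lit 22918) (nat_lit 0) [] (nat_lit 0) [] false,
   Spec.mk (nat_lit 22920) (nat_lit 0) [] (nat_lit 0) [] false,
   Spec.mk (nat_lit 22940) (nat_lit 0) [] (nat_lit 0) [] false,
   Spec.mk (nat_lit 22946) (nat_lit 0) [] (nat_lit 0) [] false,
   Spec.mk (nat_lit 22948) (nat_lit 0) [] (nat_lit 0) [] false,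
   Spec.mk (nat_lit 22958) (nat_lit 0) [] (nat_lit 0) [] false,
   Spec.mk (nat_lit 22964) (nat_lit 0) [] (nat_lit 0) [] false,
   Spec.mk (nat_lit 22966) (nat_lit 0) [] (nat_lit 0) [] false,
   Spec.mk (nat_lit 22970) (nat_lit 0) [] (nat_lit 0) [] false,
   Spec.mk (nat_lit 22972) (nat_lit 0) [] (nat_lit 0) [] false,
   Spec.mk (nat_lit 22974) (nat_lit 0) [] (nat_lit 0) [] false,
   Spec.mk (nat_lit 22982) (nat_lit 0) [] (nat_lit 0) [] false,
   Spec.mk (nat_lit 22984) (nat_lit 0) [] (nat_lit 0) [] false,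
   Spec.mk (nat_lit 22988) (nat_lit 0) [] (nat_lit 0) [] false,
   Spec.mk (nat_lit 22990) (nat_lit 0) [] (nat_lit 0) [] false,
   Spec.mk (nat_lit 22992) (nat_lit 0) [] (nat_lit 0) [] false,
   Spec.mk (nat_lit 22996) (nat_lit 0) [] (nat_lit 0) [] false,
   Spec.mk (nat_lit 22998) (nat_lit 0) [] (nat_lit 0) [] false,
   Spec.mk (nat_lit 23012) (nat_lit 0) [] (nat_lit 0) [] false,
   Spec.mk (nat_lit 23018) (nat_lit 0) [] (nat_lit 0) [] false,
   Spec.mk (nat_lit 23020) (nat_lit 0) [] (nat_lit 0) [] false,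
   Spec.mk (nat_lit 23024) (nat_lit 0) [] (nat_lit 0) [] false,
   Spec.mk (nat_lit 23026) (nat_lit 0) [] (nat_lit 0) [] false,
   Spec.mk (nat_lit 23028) (nat_lit 0) [] (nat_lit 0) [] false,
   Spec.mk (nat_lit 23036) (nat_lit 0) [] (nat_lit 0) [] false,
   Spec.mk (nat_lit 23038) (nat_lit 0) [] (nat_lit 0) [] false,
   Spec.mk (nat_lit 23042) (nat_lit 0) [] (nat_lit 0) [] false,
   Spec.mk (nat_lit 23044) (nat_lit 0) [] (nat_lit 0) [] false,
   Spec.mk (nat_lit 23046) (nat_lit 0) [] (nat_lit 0) [] false,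
   Spec.mk (nat_lit 23050) (nat_lit 0) [] (nat_lit 0) [] false,
   Spec.mk (nat_lit 23052) (nat_lit 0) [] (nat_lit 0) [] false,
   Spec.mk (nat_lit 23060) (nat_lit 0) [] (nat_lit 0) [] false,
   Spec.mk (nat_lit 23062) (nat_lit 0) [] (nat_lit 0) [] false,
   Spec.mk (nat_lit 23064) (nat_lit 0) [] (nat_lit 0) [] false,
   Spec.mk (nat_lit 23068) (nat_lit 0) [] (nat_lit 0) [] false,
   Spec.mk (nat_lit 23070) (nat_lit 0) [] (nat_lit 0) [] false,
   Spec.mk (nat_lit 23076) (nat_lit 0) [] (nat_lit 0) [] false,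
   Spec.mk (nat_lit 23102) (nat_lit 0) [] (nat_lit 0) [] false,
   Spec.mk (nat_lit 23108) (nat_lit 0) [] (nat_lit 0) [] false,
   Spec.mk (nat_lit 23110) (nat_lit 0) [] (nat_lit 0) [] false,
   Spec.mk (nat_lit 23120) (nat_lit 0) [] (nat_lit 0) [] false,
   Spec.mk (nat_lit 23126) (nat_lit 0) [] (nat_lit 0) [] false,
   Spec.mk (nat_lit 23128) (nat_lit 0) [] (nat_lit 0) [] false,
   Spec.mk (nat_lit 23132) (nat_lit 0) [] (nat_lit 0) [] false,
   Spec.mk (nat_lit 23134) (nat_lit 0) [] (nat_lit 0) [] false,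
   Spec.mk (nat_lit 23136) (nat_lit 0) [] (nat_lit 0) [] false,
   Spec.mk (nat_lit 23144) (nat_lit 0) [] (nat_lit 0) [] false,
   Spec.mk (nat_lit 23146) (nat_lit 0) [] (nat_lit 0) [] false,
   Spec.mk (nat_lit 23150) (nat_lit 0) [] (nat_lit 0) [] false,
   Spec.mk (nat_lit 23152) (nat_lit 0) [] (nat_lit 0) [] false,
   Spec.mk (nat_lit 23154) (nat_lit 0) [] (nat_lit 0) [] false,
   Spec.mk (nat_lit 23158) (nat_lit 0) [] (nat_lit 0) [] false,
   Spec.mk (nat_lit 23160) (nat_lit 0) [] (nat_lit 0) [] false,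
   Spec.mk (nat_lit 23174) (nat_lit 0) [] (nat_lit 0) [] false,
   Spec.mk (nat_lit 23180) (nat_lit 0) [] (nat_lit 0) [] false,
   Spec.mk (nat_lit 23182) (nat_lit 0) [] (nat_lit 0) [] false,
   Spec.mk (nat_lit 23186) (nat_lit 0) [] (nat_lit 0) [] false,
   Spec.mk (nat_lit 23188) (nat_lit 0) [] (nat_lit 0) [] false,
   Spec.mk (nat_lit 23190) (nat_lit 0) [] (nat_lit 0) [] false]

noncomputable def cd56 : List Spec :=
  [Spec.mk (nat_lit 23198) (nat_lit 0) [] (nat_lit 0) [] false,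
   Spec.mk (nat_lit 23200) (nat_lit 0) [] (nat_lit 0) [] false,
   Spec.mk (nat_lit 23204) (nat_lit 0) [] (nat_lit 0) [] false,
   Spec.mk (nat_lit 23206) (nat_lit 0) [] (nat_lit 0) [] false,
   Spec.mk (nat_lit 23208) (nat_lit 0) [] (nat_lit 0) [] false,
   Spec.mk (nat_lit 23212) (nat_lit 0) [] (nat_lit 0) [] false,
   Spec.mk (nat_lit 23214) (nat_lit 0) [] (nat_lit 0) [] false,
   Spec.mk (nat_lit 23222) (nat_lit 0) [] (nat_lit 0) [] false,
   Spec.mk (nat_lit 23224) (nat_lit 0) [] (nat_lit 0) [] false,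
   Spec.mk (nat_lit 23226) (nat_lit 0) [] (nat_lit 0) [] false,
   Spec.mk (nat_lit 23230) (nat_lit 0) [] (nat_lit 0) [] false,
   Spec.mk (nat_lit 23232) (nat_lit 0) [] (nat_lit 0) [] false,
   Spec.mk (nat_lit 23238) (nat_lit 0) [] (nat_lit 0) [] false,
   Spec.mk (nat_lit 23252) (nat_lit 0) [] (nat_lit 0) [] false,
   Spec.mk (nat_lit 23254) (nat_lit 0) [] (nat_lit 0) [] false,
   Spec.mk (nat_lit 23258) (nat_lit 0) [] (nat_lit 0) [] false,
   Spec.mk (nat_lit 23260) (nat_lit 0) [] (nat_lit 0) [] false,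
   Spec.mk (nat_lit 23262) (nat_lit 0) [] (nat_lit 0) [] false,
   Spec.mk (nat_lit 23266) (nat_lit 0) [] (nat_lit 0) [] false,
   Spec.mk (nat_lit 23268) (nat_lit 0) [] (nat_lit 0) [] false,
   Spec.mk (nat_lit 23276) (nat_lit 0) [] (nat_lit 0) [] false,
   Spec.mk (nat_lit 23278) (nat_lit 0) [] (nat_lit 0) [] false,
   Spec.mk (nat_lit 23280) (nat_lit 0) [] (nat_lit 0) [] false,
   Spec.mk (nat_lit 23284) (nat_lit 0) [] (nat_lit 0) [] false,
   Spec.mk (nat_lit 23286) (nat_lit 0) [] (nat_lit 0) [] false,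
   Spec.mk (nat_lit 23292) (nat_lit 0) [] (nat_lit 0) [] false,
   Spec.mk (nat_lit 23302) (nat_lit 0) [] (nat_lit 0) [] false,
   Spec.mk (nat_lit 23304) (nat_lit 0) [] (nat_lit 0) [] false,
   Spec.mk (nat_lit 23310) (nat_lit 0) [] (nat_lit 0) [] false,
   Spec.mk (nat_lit 23354) (nat_lit 0) [] (nat_lit 0) [] false,
   Spec.mk (nat_lit 23372) (nat_lit 0) [] (nat_lit 0) [] false,
   Spec.mk (nat_lit 23378) (nat_lit 0) [] (nat_lit 0) [] false,
   Spec.mk (nat_lit 23380) (nat_lit 0) [] (nat_lit 0) [] false,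
   Spec.mk (nat_lit 23390) (nat_lit 0) [] (nat_lit 0) [] false,
   Spec.mk (nat_lit 23396) (nat_lit 0) [] (nat_lit 0) [] false,
   Spec.mk (nat_lit 23398) (nat_lit 0) [] (nat_lit 0) [] false,
   Spec.mk (nat_lit 23402) (nat_lit 0) [] (nat_lit 0) [] false,
   Spec.mk (nat_lit 23404) (nat_lit 0) [] (nat_lit 0) [] false,
   Spec.mk (nat_lit 23406) (nat_lit 0) [] (nat_lit 0) [] false,
   Spec.mk (nat_lit 23426) (nat_lit 0) [] (nat_lit 0) [] false,
   Spec.mk (nat_lit 23432) (nat_lit 0) [] (nat_lit 0) [] false,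
   Spec.mk (nat_lit 23434) (nat_lit 0) [] (nat_lit 0) [] false,
   Spec.mk (nat_lit 23444) (nat_lit 0) [] (nat_lit 0) [] false,
   Spec.mk (nat_lit 23450) (nat_lit 0) [] (nat_lit 0) [] false,
   Spec.mk (nat_lit 23452) (nat_lit 0) [] (nat_lit 0) [] false,
   Spec.mk (nat_lit 23456) (nat_lit 0) [] (nat_lit 0) [] false,
   Spec.mk (nat_lit 23458) (nat_lit 0) [] (nat_lit 0) [] false,
   Spec.mk (nat_lit 23460) (nat_lit 0) [] (nat_lit 0) [] false,
   Spec.mk (nat_lit 23468) (nat_lit 0) [] (nat_lit 0) [] false,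
   Spec.mk (nat_lit 23470) (nat_lit 0) [] (nat_lit 0) [] false,
   Spec.mk (nat_lit 23474) (nat_lit 0) [] (nat_lit 0) [] false,
   Spec.mk (nat_lit 23476) (nat_lit 0) [] (nat_lit 0) [] false,
   Spec.mk (nat_lit 23478) (nat_lit 0) [] (nat_lit 0) [] false,
   Spec.mk (nat_lit 23482) (nat_lit 0) [] (nat_lit 0) [] false,
   Spec.mk (nat_lit 23484) (nat_lit 0) [] (nat_lit 0) [] false,
   Spec.mk (nat_lit 23498) (nat_lit 0) [] (nat_lit 0) [] false,
   Spec.mk (nat_lit 23504) (nat_lit 0) [] (nat_lit 0) [] false,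
   Spec.mk (nat_lit 23506) (nat_lit 0) [] (nat_lit 0) [] false,
   Spec.mk (nat_lit 23510) (nat_lit 0) [] (nat_lit 0) [] false,
   Spec.mk (nat_lit 23512) (nat_lit 0) [] (nat_lit 0) [] false]

noncomputable def cd57 : List Spec :=
  [Spec.mk (nat_lit 23514) (nat_lit 0) [] (nat_lit 0) [] false,
   Spec.mk (nat_lit 23522) (nat_lit 0) [] (nat_lit 0) [] false,
   Spec.mk (nat_lit 23524) (nat_lit 0) [] (nat_lit 0) [] false,
   Spec.mk (nat_lit 23528) (nat_lit 0) [] (nat_lit 0) [] false,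
   Spec.mk (nat_lit 23530) (nat_lit 0) [] (nat_lit 0) [] false,
   Spec.mk (nat_lit 23532) (nat_lit 0) [] (nat_lit 0) [] false,
   Spec.mk (nat_lit 23536) (nat_lit 0) [] (nat_lit 0) [] false,
   Spec.mk (nat_lit 23538) (nat_lit 0) [] (nat_lit 0) [] false,
   Spec.mk (nat_lit 23546) (nat_lit 0) [] (nat_lit 0) [] false,
   Spec.mk (nat_lit 23548) (nat_lit 0) [] (nat_lit 0) [] false,
   Spec.mk (nat_lit 23550) (nat_lit 0) [] (nat_lit 0) [] false,
   Spec.mk (nat_lit 23554) (nat_lit 0) [] (nat_lit 0) [] false,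
   Spec.mk (nat_lit 23556) (nat_lit 0) [] (nat_lit 0) [] false,
   Spec.mk (nat_lit 23562) (nat_lit 0) [] (nat_lit 0) [] false,
   Spec.mk (nat_lit 23588) (nat_lit 0) [] (nat_lit 0) [] false,
   Spec.mk (nat_lit 23594) (nat_lit 0) [] (nat_lit 0) [] false,
   Spec.mk (nat_lit 23596) (nat_lit 0) [] (nat_lit 0) [] false,
   Spec.mk (nat_lit 23606) (nat_lit 0) [] (nat_lit 0) [] false,
   Spec.mk (nat_lit 23612) (nat_lit 0) [] (nat_lit 0) [] false,
   Spec.mk (nat_lit 23614) (nat_lit 0) [] (nat_lit 0) [] false,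
   Spec.mk (nat_lit 23618) (nat_lit 0) [] (nat_lit 0) [] false,
   Spec.mk (nat_lit 23620) (nat_lit 0) [] (nat_lit 0) [] false,
   Spec.mk (nat_lit 23622) (nat_lit 0) [] (nat_lit 0) [] false,
   Spec.mk (nat_lit 23630) (nat_lit 0) [] (nat_lit 0) [] false,
   Spec.mk (nat_lit 23632) (nat_lit 0) [] (nat_lit 0) [] false,
   Spec.mk (nat_lit 23636) (nat_lit 0) [] (nat_lit 0) [] false,
   Spec.mk (nat_lit 23638) (nat_lit 0) [] (nat_lit 0) [] false,
   Spec.mk (nat_lit 23640) (nat_lit 0) [] (nat_lit 0) [] false,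
   Spec.mk (nat_lit 23644) (nat_lit 0) [] (nat_lit 0) [] false,
   Spec.mk (nat_lit 23646) (nat_lit 0) [] (nat_lit 0) [] false,
   Spec.mk (nat_lit 23660) (nat_lit 0) [] (nat_lit 0) [] false,
   Spec.mk (nat_lit 23666) (nat_lit 0) [] (nat_lit 0) [] false,
   Spec.mk (nat_lit 23668) (nat_lit 0) [] (nat_lit 0) [] false,
   Spec.mk (nat_lit 23672) (nat_lit 0) [] (nat_lit 0) [] false,
   Spec.mk (nat_lit 23674) (nat_lit 0) [] (nat_lit 0) [] false,
   Spec.mk (nat_lit 23676) (nat_lit 0) [] (nat_lit 0) [] false,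
   Spec.mk (nat_lit 23684) (nat_lit 0) [] (nat_lit 0) [] false,
   Spec.mk (nat_lit 23686) (nat_lit 0) [] (nat_lit 0) [] false,
   Spec.mk (nat_lit 23690) (nat_lit 0) [] (nat_lit 0) [] false,
   Spec.mk (nat_lit 23692) (nat_lit 0) [] (nat_lit 0) [] false,
   Spec.mk (nat_lit 23694) (nat_lit 0) [] (nat_lit 0) [] false,
   Spec.mk (nat_lit 23698) (nat_lit 0) [] (nat_lit 0) [] false,
   Spec.mk (nat_lit 23700) (nat_lit 0) [] (nat_lit 0) [] false,
   Spec.mk (nat_lit 23708) (nat_lit 0) [] (nat_lit 0) [] false,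
   Spec.mk (nat_lit 23710) (nat_lit 0) [] (nat_lit 0) [] false,
   Spec.mk (nat_lit 23712) (nat_lit 0) [] (nat_lit 0) [] false,
   Spec.mk (nat_lit 23716) (nat_lit 0) [] (nat_lit 0) [] false,
   Spec.mk (nat_lit 23718) (nat_lit 0) [] (nat_lit 0) [] false,
   Spec.mk (nat_lit 23724) (nat_lit 0) [] (nat_lit 0) [] false,
   Spec.mk (nat_lit 23738) (nat_lit 0) [] (nat_lit 0) [] false,
   Spec.mk (nat_lit 23740) (nat_lit 0) [] (nat_lit 0) [] false,
   Spec.mk (nat_lit 23744) (nat_lit 0) [] (nat_lit 0) [] false,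
   Spec.mk (nat_lit 23746) (nat_lit 0) [] (nat_lit 0) [] false,
   Spec.mk (nat_lit 23748) (nat_lit 0) [] (nat_lit 0) [] false,
   Spec.mk (nat_lit 23752) (nat_lit 0) [] (nat_lit 0) [] false,
   Spec.mk (nat_lit 23754) (nat_lit 0) [] (nat_lit 0) [] false,
   Spec.mk (nat_lit 23762) (nat_lit 0) [] (nat_lit 0) [] false,
   Spec.mk (nat_lit 23764) (nat_lit 0) [] (nat_lit 0) [] false,
   Spec.mk (nat_lit 23766) (nat_lit 0) [] (nat_lit 0) [] false,
   Spec.mk (nat_lit 23770) (nat_lit 0) [] (nat_lit 0) [] false]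

noncomputable def cd58 : List Spec :=
  [Spec.mk (nat_lit 23772) (nat_lit 0) [] (nat_lit 0) [] false,
   Spec.mk (nat_lit 23778) (nat_lit 0) [] (nat_lit 0) [] false,
   Spec.mk (nat_lit 23788) (nat_lit 0) [] (nat_lit 0) [] false,
   Spec.mk (nat_lit 23790) (nat_lit 0) [] (nat_lit 0) [] false,
   Spec.mk (nat_lit 23796) (nat_lit 0) [] (nat_lit 0) [] false,
   Spec.mk (nat_lit 23822) (nat_lit 0) [] (nat_lit 0) [] false,
   Spec.mk (nat_lit 23828) (nat_lit 0) [] (nat_lit 0) [] false,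
   Spec.mk (nat_lit 23830) (nat_lit 0) [] (nat_lit 0) [] false,
   Spec.mk (nat_lit 23834) (nat_lit 0) [] (nat_lit 0) [] false,
   Spec.mk (nat_lit 23836) (nat_lit 0) [] (nat_lit 0) [] false,
   Spec.mk (nat_lit 23838) (nat_lit 0) [] (nat_lit 0) [] false,
   Spec.mk (nat_lit 23846) (nat_lit 0) [] (nat_lit 0) [] false,
   Spec.mk (nat_lit 23848) (nat_lit 0) [] (nat_lit 0) [] false,
   Spec.mk (nat_lit 23852) (nat_lit 0) [] (nat_lit 0) [] false,
   Spec.mk (nat_lit 23854) (nat_lit 0) [] (nat_lit 0) [] false,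
   Spec.mk (nat_lit 23856) (nat_lit 0) [] (nat_lit 0) [] false,
   Spec.mk (nat_lit 23860) (nat_lit 0) [] (nat_lit 0) [] false,
   Spec.mk (nat_lit 23862) (nat_lit 0) [] (nat_lit 0) [] false,
   Spec.mk (nat_lit 23870) (nat_lit 0) [] (nat_lit 0) [] false,
   Spec.mk (nat_lit 23872) (nat_lit 0) [] (nat_lit 0) [] false,
   Spec.mk (nat_lit 23874) (nat_lit 0) [] (nat_lit 0) [] false,
   Spec.mk (nat_lit 23878) (nat_lit 0) [] (nat_lit 0) [] false,
   Spec.mk (nat_lit 23880) (nat_lit 0) [] (nat_lit 0) [] false,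
   Spec.mk (nat_lit 23886) (nat_lit 0) [] (nat_lit 0) [] false,
   Spec.mk (nat_lit 23900) (nat_lit 0) [] (nat_lit 0) [] false,
   Spec.mk (nat_lit 23902) (nat_lit 0) [] (nat_lit 0) [] false,
   Spec.mk (nat_lit 23906) (nat_lit 0) [] (nat_lit 0) [] false,
   Spec.mk (nat_lit 23908) (nat_lit 0) [] (nat_lit 0) [] false,
   Spec.mk (nat_lit 23910) (nat_lit 0) [] (nat_lit 0) [] false,
   Spec.mk (nat_lit 23914) (nat_lit 0) [] (nat_lit 0) [] false,
   Spec.mk (nat_lit 23916) (nat_lit 0) [] (nat_lit 0) [] false,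
   Spec.mk (nat_lit 23924) (nat_lit 0) [] (nat_lit 0) [] false,
   Spec.mk (nat_lit 23926) (nat_lit 0) [] (nat_lit 0) [] false,
   Spec.mk (nat_lit 23928) (nat_lit 0) [] (nat_lit 0) [] false,
   Spec.mk (nat_lit 23932) (nat_lit 0) [] (nat_lit 0) [] false,
   Spec.mk (nat_lit 23934) (nat_lit 0) [] (nat_lit 0) [] false,
   Spec.mk (nat_lit 23940) (nat_lit 0) [] (nat_lit 0) [] false,
   Spec.mk (nat_lit 23950) (nat_lit 0) [] (nat_lit 0) [] false,
   Spec.mk (nat_lit 23952) (nat_lit 0) [] (nat_lit 0) [] false,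
   Spec.mk (nat_lit 23958) (nat_lit 0) [] (nat_lit 0) [] false,
   Spec.mk (nat_lit 23978) (nat_lit 0) [] (nat_lit 0) [] false,
   Spec.mk (nat_lit 23980) (nat_lit 0) [] (nat_lit 0) [] false,
   Spec.mk (nat_lit 23982) (nat_lit 0) [] (nat_lit 0) [] false,
   Spec.mk (nat_lit 23986) (nat_lit 0) [] (nat_lit 0) [] false,
   Spec.mk (nat_lit 23988) (nat_lit 0) [] (nat_lit 0) [] false,
   Spec.mk (nat_lit 23994) (nat_lit 0) [] (nat_lit 0) [] false,
   Spec.mk (nat_lit 24004) (nat_lit 0) [] (nat_lit 0) [] false,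
   Spec.mk (nat_lit 24006) (nat_lit 0) [] (nat_lit 0) [] false,
   Spec.mk (nat_lit 24012) (nat_lit 0) [] (nat_lit 0) [] false,
   Spec.mk (nat_lit 24030) (nat_lit 0) [] (nat_lit 0) [] false,
   Spec.mk (nat_lit 24110) (nat_lit 0) [] (nat_lit 0) [] false,
   Spec.mk (nat_lit 24128) (nat_lit 0) [] (nat_lit 0) [] false,
   Spec.mk (nat_lit 24134) (nat_lit 0) [] (nat_lit 0) [] false,
   Spec.mk (nat_lit 24136) (nat_lit 0) [] (nat_lit 0) [] false,
   Spec.mk (nat_lit 24164) (nat_lit 0) [] (nat_lit 0) [] false,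
   Spec.mk (nat_lit 24182) (nat_lit 0) [] (nat_lit 0) [] false,
   Spec.mk (nat_lit 24188) (nat_lit 0) [] (nat_lit 0) [] false,
   Spec.mk (nat_lit 24190) (nat_lit 0) [] (nat_lit 0) [] false,
   Spec.mk (nat_lit 24200) (nat_lit 0) [] (nat_lit 0) [] false,
   Spec.mk (nat_lit 24206) (nat_lit 0) [] (nat_lit 0) [] false]

noncomputable def cd59 : List Spec :=
  [Spec.mk (nat_lit 24208) (nat_lit 0) [] (nat_lit 0) [] false,
   Spec.mk (nat_lit 24212) (nat_lit 0) [] (nat_lit 0) [] false,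
   Spec.mk (nat_lit 24214) (nat_lit 0) [] (nat_lit 0) [] false,
   Spec.mk (nat_lit 24216) (nat_lit 0) [] (nat_lit 0) [] false,
   Spec.mk (nat_lit 24236) (nat_lit 0) [] (nat_lit 0) [] false,
   Spec.mk (nat_lit 24242) (nat_lit 0) [] (nat_lit 0) [] false,
   Spec.mk (nat_lit 24244) (nat_lit 0) [] (nat_lit 0) [] false,
   Spec.mk (nat_lit 24254) (nat_lit 0) [] (nat_lit 0) [] false,
   Spec.mk (nat_lit 24260) (nat_lit 0) [] (nat_lit 0) [] false,
   Spec.mk (nat_lit 24262) (nat_lit 0) [] (nat_lit 0) [] false,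
   Spec.mk (nat_lit 24266) (nat_lit 0) [] (nat_lit 0) [] false,
   Spec.mk (nat_lit 24268) (nat_lit 0) [] (nat_lit 0) [] false,
   Spec.mk (nat_lit 24270) (nat_lit 0) [] (nat_lit 0) [] false,
   Spec.mk (nat_lit 24278) (nat_lit 0) [] (nat_lit 0) [] false,
   Spec.mk (nat_lit 24280) (nat_lit 0) [] (nat_lit 0) [] false,
   Spec.mk (nat_lit 24284) (nat_lit 0) [] (nat_lit 0) [] false,
   Spec.mk (nat_lit 24286) (nat_lit 0) [] (nat_lit 0) [] false,
   Spec.mk (nat_lit 24288) (nat_lit 0) [] (nat_lit 0) [] false,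
   Spec.mk (nat_lit 24292) (nat_lit 0) [] (nat_lit 0) [] false,
   Spec.mk (nat_lit 24294) (nat_lit 0) [] (nat_lit 0) [] false,
   Spec.mk (nat_lit 24326) (nat_lit 0) [] (nat_lit 0) [] false,
   Spec.mk (nat_lit 24344) (nat_lit 0) [] (nat_lit 0) [] false,
   Spec.mk (nat_lit 24350) (nat_lit 0) [] (nat_lit 0) [] false,
   Spec.mk (nat_lit 24352) (nat_lit 0) [] (nat_lit 0) [] false,
   Spec.mk (nat_lit 24362) (nat_lit 0) [] (nat_lit 0) [] false,
   Spec.mk (nat_lit 24368) (nat_lit 0) [] (nat_lit 0) [] false,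
   Spec.mk (nat_lit 24370) (nat_lit 0) [] (nat_lit 0) [] false,
   Spec.mk (nat_lit 24374) (nat_lit 0) [] (nat_lit 0) [] false,
   Spec.mk (nat_lit 24376) (nat_lit 0) [] (nat_lit 0) [] false,
   Spec.mk (nat_lit 24378) (nat_lit 0) [] (nat_lit 0) [] false,
   Spec.mk (nat_lit 24398) (nat_lit 0) [] (nat_lit 0) [] false,
   Spec.mk (nat_lit 24404) (nat_lit 0) [] (nat_lit 0) [] false,
   Spec.mk (nat_lit 24406) (nat_lit 0) [] (nat_lit 0) [] false,
   Spec.mk (nat_lit 24416) (nat_lit 0) [] (nat_lit 0) [] false,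
   Spec.mk (nat_lit 24422) (nat_lit 0) [] (nat_lit 0) [] false,
   Spec.mk (nat_lit 24424) (nat_lit 0) [] (nat_lit 0) [] false,
   Spec.mk (nat_lit 24428) (nat_lit 0) [] (nat_lit 0) [] false,
   Spec.mk (nat_lit 24430) (nat_lit 0) [] (nat_lit 0) [] false,
   Spec.mk (nat_lit 24432) (nat_lit 0) [] (nat_lit 0) [] false,
   Spec.mk (nat_lit 24440) (nat_lit 0) [] (nat_lit 0) [] false,
   Spec.mk (nat_lit 24442) (nat_lit 0) [] (nat_lit 0) [] false,
   Spec.mk (nat_lit 24446) (nat_lit 0) [] (nat_lit 0) [] false,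
   Spec.mk (nat_lit 24448) (nat_lit 0) [] (nat_lit 0) [] false,
   Spec.mk (nat_lit 24450) (nat_lit 0) [] (nat_lit 0) [] false,
   Spec.mk (nat_lit 24454) (nat_lit 0) [] (nat_lit 0) [] false,
   Spec.mk (nat_lit 24456) (nat_lit 0) [] (nat_lit 0) [] false,
   Spec.mk (nat_lit 24470) (nat_lit 0) [] (nat_lit 0) [] false,
   Spec.mk (nat_lit 24476) (nat_lit 0) [] (nat_lit 0) [] false,
   Spec.mk (nat_lit 24478) (nat_lit 0) [] (nat_lit 0) [] false,
   Spec.mk (nat_lit 24482) (nat_lit 0) [] (nat_lit 0) [] false,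
   Spec.mk (nat_lit 24484) (nat_lit 0) [] (nat_lit 0) [] false,
   Spec.mk (nat_lit 24486) (nat_lit 0) [] (nat_lit 0) [] false,
   Spec.mk (nat_lit 24494) (nat_lit 0) [] (nat_lit 0) [] false,
   Spec.mk (nat_lit 24496) (nat_lit 0) [] (nat_lit 0) [] false,
   Spec.mk (nat_lit 24500) (nat_lit 0) [] (nat_lit 0) [] false,
   Spec.mk (nat_lit 24502) (nat_lit 0) [] (nat_lit 0) [] false,
   Spec.mk (nat_lit 24504) (nat_lit 0) [] (nat_lit 0) [] false,
   Spec.mk (nat_lit 24508) (nat_lit 0) [] (nat_lit 0) [] false,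
   Spec.mk (nat_lit 24510) (nat_lit 0) [] (nat_lit 0) [] false,
   Spec.mk (nat_lit 24518) (nat_lit 0) [] (nat_lit 0) [] false]

noncomputable def cd60 : List Spec :=
  [Spec.mk (nat_lit 24520) (nat_lit 0) [] (nat_lit 0) [] false,
   Spec.mk (nat_lit 24522) (nat_lit 0) [] (nat_lit 0) [] false,
   Spec.mk (nat_lit 24526) (nat_lit 0) [] (nat_lit 0) [] false,
   Spec.mk (nat_lit 24528) (nat_lit 0) [] (nat_lit 0) [] false,
   Spec.mk (nat_lit 24534) (nat_lit 0) [] (nat_lit 0) [] false,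
   Spec.mk (nat_lit 24560) (nat_lit 0) [] (nat_lit 0) [] false,
   Spec.mk (nat_lit 24566) (nat_lit 0) [] (nat_lit 0) [] false,
   Spec.mk (nat_lit 24568) (nat_lit 0) [] (nat_lit 0) [] false,
   Spec.mk (nat_lit 24578) (nat_lit 0) [] (nat_lit 0) [] false,
   Spec.mk (nat_lit 24584) (nat_lit 0) [] (nat_lit 0) [] false,
   Spec.mk (nat_lit 24586) (nat_lit 0) [] (nat_lit 0) [] false,
   Spec.mk (nat_lit 24590) (nat_lit 0) [] (nat_lit 0) [] false,
   Spec.mk (nat_lit 24592) (nat_lit 0) [] (nat_lit 0) [] false,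
   Spec.mk (nat_lit 24594) (nat_lit 0) [] (nat_lit 0) [] false,
   Spec.mk (nat_lit 24602) (nat_lit 0) [] (nat_lit 0) [] false,
   Spec.mk (nat_lit 24604) (nat_lit 0) [] (nat_lit 0) [] false,
   Spec.mk (nat_lit 24608) (nat_lit 0) [] (nat_lit 0) [] false,
   Spec.mk (nat_lit 24610) (nat_lit 0) [] (nat_lit 0) [] false,
   Spec.mk (nat_lit 24612) (nat_lit 0) [] (nat_lit 0) [] false,
   Spec.mk (nat_lit 24616) (nat_lit 0) [] (nat_lit 0) [] false,
   Spec.mk (nat_lit 24618) (nat_lit 0) [] (nat_lit 0) [] false,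
   Spec.mk (nat_lit 24632) (nat_lit 0) [] (nat_lit 0) [] false,
   Spec.mk (nat_lit 24638) (nat_lit 0) [] (nat_lit 0) [] false,
   Spec.mk (nat_lit 24640) (nat_lit 0) [] (nat_lit 0) [] false,
   Spec.mk (nat_lit 24644) (nat_lit 0) [] (nat_lit 0) [] false,
   Spec.mk (nat_lit 24646) (nat_lit 0) [] (nat_lit 0) [] false,
   Spec.mk (nat_lit 24648) (nat_lit 0) [] (nat_lit 0) [] false,
   Spec.mk (nat_lit 24656) (nat_lit 0) [] (nat_lit 0) [] false,
   Spec.mk (nat_lit 24658) (nat_lit 0) [] (nat_lit 0) [] false,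
   Spec.mk (nat_lit 24662) (nat_lit 0) [] (nat_lit 0) [] false,
   Spec.mk (nat_lit 24664) (nat_lit 0) [] (nat_lit 0) [] false,
   Spec.mk (nat_lit 24666) (nat_lit 0) [] (nat_lit 0) [] false,
   Spec.mk (nat_lit 24670) (nat_lit 0) [] (nat_lit 0) [] false,
   Spec.mk (nat_lit 24672) (nat_lit 0) [] (nat_lit 0) [] false,
   Spec.mk (nat_lit 24680) (nat_lit 0) [] (nat_lit 0) [] false,
   Spec.mk (nat_lit 24682) (nat_lit 0) [] (nat_lit 0) [] false,
   Spec.mk (nat_lit 24684) (nat_lit 0) [] (nat_lit 0) [] false,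
   Spec.mk (nat_lit 24688) (nat_lit 0) [] (nat_lit 0) [] false,
   Spec.mk (nat_lit 24690) (nat_lit 0) [] (nat_lit 0) [] false,
   Spec.mk (nat_lit 24696) (nat_lit 0) [] (nat_lit 0) [] false,
   Spec.mk (nat_lit 24710) (nat_lit 0) [] (nat_lit 0) [] false,
   Spec.mk (nat_lit 24712) (nat_lit 0) [] (nat_lit 0) [] false,
   Spec.mk (nat_lit 24716) (nat_lit 0) [] (nat_lit 0) [] false,
   Spec.mk (nat_lit 24718) (nat_lit 0) [] (nat_lit 0) [] false,
   Spec.mk (nat_lit 24720) (nat_lit 0) [] (nat_lit 0) [] false,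
   Spec.mk (nat_lit 24724) (nat_lit 0) [] (nat_lit 0) [] false,
   Spec.mk (nat_lit 24726) (nat_lit 0) [] (nat_lit 0) [] false,
   Spec.mk (nat_lit 24734) (nat_lit 0) [] (nat_lit 0) [] false,
   Spec.mk (nat_lit 24736) (nat_lit 0) [] (nat_lit 0) [] false,
   Spec.mk (nat_lit 24738) (nat_lit 0) [] (nat_lit 0) [] false,
   Spec.mk (nat_lit 24742) (nat_lit 0) [] (nat_lit 0) [] false,
   Spec.mk (nat_lit 24744) (nat_lit 0) [] (nat_lit 0) [] false,
   Spec.mk (nat_lit 24750) (nat_lit 0) [] (nat_lit 0) [] false,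
   Spec.mk (nat_lit 24760) (nat_lit 0) [] (nat_lit 0) [] false,
   Spec.mk (nat_lit 24762) (nat_lit 0) [] (nat_lit 0) [] false,
   Spec.mk (nat_lit 24768) (nat_lit 0) [] (nat_lit 0) [] false,
   Spec.mk (nat_lit 24812) (nat_lit 0) [] (nat_lit 0) [] false,
   Spec.mk (nat_lit 24830) (nat_lit 0) [] (nat_lit 0) [] false,
   Spec.mk (nat_lit 24836) (nat_lit 0) [] (nat_lit 0) [] false,
   Spec.mk (nat_lit 24838) (nat_lit 0) [] (nat_lit 0) [] false]

noncomputable def cd61 : List Spec :=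
  [Spec.mk (nat_lit 24848) (nat_lit 0) [] (nat_lit 0) [] false,
   Spec.mk (nat_lit 24854) (nat_lit 0) [] (nat_lit 0) [] false,
   Spec.mk (nat_lit 24856) (nat_lit 0) [] (nat_lit 0) [] false,
   Spec.mk (nat_lit 24860) (nat_lit 0) [] (nat_lit 0) [] false,
   Spec.mk (nat_lit 24862) (nat_lit 0) [] (nat_lit 0) [] false,
   Spec.mk (nat_lit 24864) (nat_lit 0) [] (nat_lit 0) [] false,
   Spec.mk (nat_lit 24884) (nat_lit 0) [] (nat_lit 0) [] false,
   Spec.mk (nat_lit 24890) (nat_lit 0) [] (nat_lit 0) [] false,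
   Spec.mk (nat_lit 24892) (nat_lit 0) [] (nat_lit 0) [] false,
   Spec.mk (nat_lit 24902) (nat_lit 0) [] (nat_lit 0) [] false,
   Spec.mk (nat_lit 24908) (nat_lit 0) [] (nat_lit 0) [] false,
   Spec.mk (nat_lit 24910) (nat_lit 0) [] (nat_lit 0) [] false,
   Spec.mk (nat_lit 24914) (nat_lit 0) [] (nat_lit 0) [] false,
   Spec.mk (nat_lit 24916) (nat_lit 0) [] (nat_lit 0) [] false,
   Spec.mk (nat_lit 24918) (nat_lit 0) [] (nat_lit 0) [] false,
   Spec.mk (nat_lit 24926) (nat_lit 0) [] (nat_lit 0) [] false,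
   Spec.mk (nat_lit 24928) (nat_lit 0) [] (nat_lit 0) [] false,
   Spec.mk (nat_lit 24932) (nat_lit 0) [] (nat_lit 0) [] false,
   Spec.mk (nat_lit 24934) (nat_lit 0) [] (nat_lit 0) [] false,
   Spec.mk (nat_lit 24936) (nat_lit 0) [] (nat_lit 0) [] false,
   Spec.mk (nat_lit 24940) (nat_lit 0) [] (nat_lit 0) [] false,
   Spec.mk (nat_lit 24942) (nat_lit 0) [] (nat_lit 0) [] false,
   Spec.mk (nat_lit 24956) (nat_lit 0) [] (nat_lit 0) [] false,
   Spec.mk (nat_lit 24962) (nat_lit 0) [] (nat_lit 0) [] false,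
   Spec.mk (nat_lit 24964) (nat_lit 0) [] (nat_lit 0) [] false,
   Spec.mk (nat_lit 24968) (nat_lit 0) [] (nat_lit 0) [] false,
   Spec.mk (nat_lit 24970) (nat_lit 0) [] (nat_lit 0) [] false,
   Spec.mk (nat_lit 24972) (nat_lit 0) [] (nat_lit 0) [] false,
   Spec.mk (nat_lit 24980) (nat_lit 0) [] (nat_lit 0) [] false,
   Spec.mk (nat_lit 24982) (nat_lit 0) [] (nat_lit 0) [] false,
   Spec.mk (nat_lit 24986) (nat_lit 0) [] (nat_lit 0) [] false,
   Spec.mk (nat_lit 24988) (nat_lit 0) [] (nat_lit 0) [] false,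
   Spec.mk (nat_lit 24990) (nat_lit 0) [] (nat_lit 0) [] false,
   Spec.mk (nat_lit 24994) (nat_lit 0) [] (nat_lit 0) [] false,
   Spec.mk (nat_lit 24996) (nat_lit 0) [] (nat_lit 0) [] false,
   Spec.mk (nat_lit 25004) (nat_lit 0) [] (nat_lit 0) [] false,
   Spec.mk (nat_lit 25006) (nat_lit 0) [] (nat_lit 0) [] false,
   Spec.mk (nat_lit 25008) (nat_lit 0) [] (nat_lit 0) [] false,
   Spec.mk (nat_lit 25012) (nat_lit 0) [] (nat_lit 0) [] false,
   Spec.mk (nat_lit 25014) (nat_lit 0) [] (nat_lit 0) [] false,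
   Spec.mk (nat_lit 25020) (nat_lit 0) [] (nat_lit 0) [] false,
   Spec.mk (nat_lit 25046) (nat_lit 0) [] (nat_lit 0) [] false,
   Spec.mk (nat_lit 25052) (nat_lit 0) [] (nat_lit 0) [] false,
   Spec.mk (nat_lit 25054) (nat_lit 0) [] (nat_lit 0) [] false,
   Spec.mk (nat_lit 25064) (nat_lit 0) [] (nat_lit 0) [] false,
   Spec.mk (nat_lit 25070) (nat_lit 0) [] (nat_lit 0) [] false,
   Spec.mk (nat_lit 25072) (nat_lit 0) [] (nat_lit 0) [] false,
   Spec.mk (nat_lit 25076) (nat_lit 0) [] (nat_lit 0) [] false,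
   Spec.mk (nat_lit 25078) (nat_lit 0) [] (nat_lit 0) [] false,
   Spec.mk (nat_lit 25080) (nat_lit 0) [] (nat_lit 0) [] false,
   Spec.mk (nat_lit 25088) (nat_lit 0) [] (nat_lit 0) [] false,
   Spec.mk (nat_lit 25090) (nat_lit 0) [] (nat_lit 0) [] false,
   Spec.mk (nat_lit 25094) (nat_lit 0) [] (nat_lit 0) [] false,
   Spec.mk (nat_lit 25096) (nat_lit 0) [] (nat_lit 0) [] false,
   Spec.mk (nat_lit 25098) (nat_lit 0) [] (nat_lit 0) [] false,
   Spec.mk (nat_lit 25102) (nat_lit 0) [] (nat_lit 0) [] false,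
   Spec.mk (nat_lit 25104) (nat_lit 0) [] (nat_lit 0) [] false,
   Spec.mk (nat_lit 25118) (nat_lit 0) [] (nat_lit 0) [] false,
   Spec.mk (nat_lit 25124) (nat_lit 0) [] (nat_lit 0) [] false,
   Spec.mk (nat_lit 25126) (nat_lit 0) [] (nat_lit 0) [] false]

noncomputable def cd62 : List Spec :=
  [Spec.mk (nat_lit 25130) (nat_lit 0) [] (nat_lit 0) [] false,
   Spec.mk (nat_lit 25132) (nat_lit 0) [] (nat_lit 0) [] false,
   Spec.mk (nat_lit 25134) (nat_lit 0) [] (nat_lit 0) [] false,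
   Spec.mk (nat_lit 25142) (nat_lit 0) [] (nat_lit 0) [] false,
   Spec.mk (nat_lit 25144) (nat_lit 0) [] (nat_lit 0) [] false,
   Spec.mk (nat_lit 25148) (nat_lit 0) [] (nat_lit 0) [] false,
   Spec.mk (nat_lit 25150) (nat_lit 0) [] (nat_lit 0) [] false,
   Spec.mk (nat_lit 25152) (nat_lit 0) [] (nat_lit 0) [] false,
   Spec.mk (nat_lit 25156) (nat_lit 0) [] (nat_lit 0) [] false,
   Spec.mk (nat_lit 25158) (nat_lit 0) [] (nat_lit 0) [] false,
   Spec.mk (nat_lit 25166) (nat_lit 0) [] (nat_lit 0) [] false,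
   Spec.mk (nat_lit 25168) (nat_lit 0) [] (nat_lit 0) [] false,
   Spec.mk (nat_lit 25170) (nat_lit 0) [] (nat_lit 0) [] false,
   Spec.mk (nat_lit 25174) (nat_lit 0) [] (nat_lit 0) [] false,
   Spec.mk (nat_lit 25176) (nat_lit 0) [] (nat_lit 0) [] false,
   Spec.mk (nat_lit 25182) (nat_lit 0) [] (nat_lit 0) [] false,
   Spec.mk (nat_lit 25196) (nat_lit 0) [] (nat_lit 0) [] false,
   Spec.mk (nat_lit 25198) (nat_lit 0) [] (nat_lit 0) [] false,
   Spec.mk (nat_lit 25202) (nat_lit 0) [] (nat_lit 0) [] false,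
   Spec.mk (nat_lit 25204) (nat_lit 0) [] (nat_lit 0) [] false,
   Spec.mk (nat_lit 25206) (nat_lit 0) [] (nat_lit 0) [] false,
   Spec.mk (nat_lit 25210) (nat_lit 0) [] (nat_lit 0) [] false,
   Spec.mk (nat_lit 25212) (nat_lit 0) [] (nat_lit 0) [] false,
   Spec.mk (nat_lit 25220) (nat_lit 0) [] (nat_lit 0) [] false,
   Spec.mk (nat_lit 25222) (nat_lit 0) [] (nat_lit 0) [] false,
   Spec.mk (nat_lit 25224) (nat_lit 0) [] (nat_lit 0) [] false,
   Spec.mk (nat_lit 25228) (nat_lit 0) [] (nat_lit 0) [] false,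
   Spec.mk (nat_lit 25230) (nat_lit 0) [] (nat_lit 0) [] false,
   Spec.mk (nat_lit 25236) (nat_lit 0) [] (nat_lit 0) [] false,
   Spec.mk (nat_lit 25246) (nat_lit 0) [] (nat_lit 0) [] false,
   Spec.mk (nat_lit 25248) (nat_lit 0) [] (nat_lit 0) [] false,
   Spec.mk (nat_lit 25254) (nat_lit 0) [] (nat_lit 0) [] false,
   Spec.mk (nat_lit 25280) (nat_lit 0) [] (nat_lit 0) [] false,
   Spec.mk (nat_lit 25286) (nat_lit 0) [] (nat_lit 0) [] false,
   Spec.mk (nat_lit 25288) (nat_lit 0) [] (nat_lit 0) [] false,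
   Spec.mk (nat_lit 25292) (nat_lit 0) [] (nat_lit 0) [] false,
   Spec.mk (nat_lit 25294) (nat_lit 0) [] (nat_lit 0) [] false,
   Spec.mk (nat_lit 25296) (nat_lit 0) [] (nat_lit 0) [] false,
   Spec.mk (nat_lit 25304) (nat_lit 0) [] (nat_lit 0) [] false,
   Spec.mk (nat_lit 25306) (nat_lit 0) [] (nat_lit 0) [] false,
   Spec.mk (nat_lit 25310) (nat_lit 0) [] (nat_lit 0) [] false,
   Spec.mk (nat_lit 25312) (nat_lit 0) [] (nat_lit 0) [] false,
   Spec.mk (nat_lit 25314) (nat_lit 0) [] (nat_lit 0) [] false,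
   Spec.mk (nat_lit 25318) (nat_lit 0) [] (nat_lit 0) [] false,
   Spec.mk (nat_lit 25320) (nat_lit 0) [] (nat_lit 0) [] false,
   Spec.mk (nat_lit 25328) (nat_lit 0) [] (nat_lit 0) [] false,
   Spec.mk (nat_lit 25330) (nat_lit 0) [] (nat_lit 0) [] false,
   Spec.mk (nat_lit 25332) (nat_lit 0) [] (nat_lit 0) [] false,
   Spec.mk (nat_lit 25336) (nat_lit 0) [] (nat_lit 0) [] false,
   Spec.mk (nat_lit 25338) (nat_lit 0) [] (nat_lit 0) [] false,
   Spec.mk (nat_lit 25344) (nat_lit 0) [] (nat_lit 0) [] false,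
   Spec.mk (nat_lit 25358) (nat_lit 0) [] (nat_lit 0) [] false,
   Spec.mk (nat_lit 25360) (nat_lit 0) [] (nat_lit 0) [] false,
   Spec.mk (nat_lit 25364) (nat_lit 0) [] (nat_lit 0) [] false,
   Spec.mk (nat_lit 25366) (nat_lit 0) [] (nat_lit 0) [] false,
   Spec.mk (nat_lit 25368) (nat_lit 0) [] (nat_lit 0) [] false,
   Spec.mk (nat_lit 25372) (nat_lit 0) [] (nat_lit 0) [] false,
   Spec.mk (nat_lit 25374) (nat_lit 0) [] (nat_lit 0) [] false,
   Spec.mk (nat_lit 25382) (nat_lit 0) [] (nat_lit 0) [] false,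
   Spec.mk (nat_lit 25384) (nat_lit 0) [] (nat_lit 0) [] false]

noncomputable def cd63 : List Spec :=
  [Spec.mk (nat_lit 25386) (nat_lit 0) [] (nat_lit 0) [] false,
   Spec.mk (nat_lit 25390) (nat_lit 0) [] (nat_lit 0) [] false,
   Spec.mk (nat_lit 25392) (nat_lit 0) [] (nat_lit 0) [] false,
   Spec.mk (nat_lit 25398) (nat_lit 0) [] (nat_lit 0) [] false,
   Spec.mk (nat_lit 25408) (nat_lit 0) [] (nat_lit 0) [] false,
   Spec.mk (nat_lit 25410) (nat_lit 0) [] (nat_lit 0) [] false,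
   Spec.mk (nat_lit 25416) (nat_lit 0) [] (nat_lit 0) [] false,
   Spec.mk (nat_lit 25436) (nat_lit 0) [] (nat_lit 0) [] false,
   Spec.mk (nat_lit 25438) (nat_lit 0) [] (nat_lit 0) [] false,
   Spec.mk (nat_lit 25440) (nat_lit 0) [] (nat_lit 0) [] false,
   Spec.mk (nat_lit 25444) (nat_lit 0) [] (nat_lit 0) [] false,
   Spec.mk (nat_lit 25446) (nat_lit 0) [] (nat_lit 0) [] false,
   Spec.mk (nat_lit 25452) (nat_lit 0) [] (nat_lit 0) [] false,
   Spec.mk (nat_lit 25462) (nat_lit 0) [] (nat_lit 0) [] false,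
   Spec.mk (nat_lit 25464) (nat_lit 0) [] (nat_lit 0) [] false,
   Spec.mk (nat_lit 25470) (nat_lit 0) [] (nat_lit 0) [] false,
   Spec.mk (nat_lit 25488) (nat_lit 0) [] (nat_lit 0) [] false,
   Spec.mk (nat_lit 25532) (nat_lit 0) [] (nat_lit 0) [] false,
   Spec.mk (nat_lit 25538) (nat_lit 0) [] (nat_lit 0) [] false,
   Spec.mk (nat_lit 25540) (nat_lit 0) [] (nat_lit 0) [] false,
   Spec.mk (nat_lit 25550) (nat_lit 0) [] (nat_lit 0) [] false,
   Spec.mk (nat_lit 25556) (nat_lit 0) [] (nat_lit 0) [] false,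
   Spec.mk (nat_lit 25558) (nat_lit 0) [] (nat_lit 0) [] false,
   Spec.mk (nat_lit 25562) (nat_lit 0) [] (nat_lit 0) [] false,
   Spec.mk (nat_lit 25564) (nat_lit 0) [] (nat_lit 0) [] false,
   Spec.mk (nat_lit 25566) (nat_lit 0) [] (nat_lit 0) [] false,
   Spec.mk (nat_lit 25574) (nat_lit 0) [] (nat_lit 0) [] false,
   Spec.mk (nat_lit 25576) (nat_lit 0) [] (nat_lit 0) [] false,
   Spec.mk (nat_lit 25580) (nat_lit 0) [] (nat_lit 0) [] false,
   Spec.mk (nat_lit 25582) (nat_lit 0) [] (nat_lit 0) [] false,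
   Spec.mk (nat_lit 25584) (nat_lit 0) [] (nat_lit 0) [] false,
   Spec.mk (nat_lit 25588) (nat_lit 0) [] (nat_lit 0) [] false,
   Spec.mk (nat_lit 25590) (nat_lit 0) [] (nat_lit 0) [] false,
   Spec.mk (nat_lit 25604) (nat_lit 0) [] (nat_lit 0) [] false,
   Spec.mk (nat_lit 25610) (nat_lit 0) [] (nat_lit 0) [] false,
   Spec.mk (nat_lit 25612) (nat_lit 0) [] (nat_lit 0) [] false,
   Spec.mk (nat_lit 25616) (nat_lit 0) [] (nat_lit 0) [] false,
   Spec.mk (nat_lit 25618) (nat_lit 0) [] (nat_lit 0) [] false,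
   Spec.mk (nat_lit 25620) (nat_lit 0) [] (nat_lit 0) [] false,
   Spec.mk (nat_lit 25628) (nat_lit 0) [] (nat_lit 0) [] false,
   Spec.mk (nat_lit 25630) (nat_lit 0) [] (nat_lit 0) [] false,
   Spec.mk (nat_lit 25634) (nat_lit 0) [] (nat_lit 0) [] false,
   Spec.mk (nat_lit 25636) (nat_lit 0) [] (nat_lit 0) [] false,
   Spec.mk (nat_lit 25638) (nat_lit 0) [] (nat_lit 0) [] false,
   Spec.mk (nat_lit 25642) (nat_lit 0) [] (nat_lit 0) [] false,
   Spec.mk (nat_lit 25644) (nat_lit 0) [] (nat_lit 0) [] false,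
   Spec.mk (nat_lit 25652) (nat_lit 0) [] (nat_lit 0) [] false,
   Spec.mk (nat_lit 25654) (nat_lit 0) [] (nat_lit 0) [] false,
   Spec.mk (nat_lit 25656) (nat_lit 0) [] (nat_lit 0) [] false,
   Spec.mk (nat_lit 25660) (nat_lit 0) [] (nat_lit 0) [] false,
   Spec.mk (nat_lit 25662) (nat_lit 0) [] (nat_lit 0) [] false,
   Spec.mk (nat_lit 25668) (nat_lit 0) [] (nat_lit 0) [] false,
   Spec.mk (nat_lit 25682) (nat_lit 0) [] (nat_lit 0) [] false,
   Spec.mk (nat_lit 25684) (nat_lit 0) [] (nat_lit 0) [] false,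
   Spec.mk (nat_lit 25688) (nat_lit 0) [] (nat_lit 0) [] false,
   Spec.mk (nat_lit 25690) (nat_lit 0) [] (nat_lit 0) [] false,
   Spec.mk (nat_lit 25692) (nat_lit 0) [] (nat_lit 0) [] false,
   Spec.mk (nat_lit 25696) (nat_lit 0) [] (nat_lit 0) [] false,
   Spec.mk (nat_lit 25698) (nat_lit 0) [] (nat_lit 0) [] false,
   Spec.mk (nat_lit 25706) (nat_lit 0) [] (nat_lit 0) [] false]

noncomputable def cd64 : List Spec :=
  [Spec.mk (nat_lit 25708) (nat_lit 0) [] (nat_lit 0) [] false,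
   Spec.mk (nat_lit 25710) (nat_lit 0) [] (nat_lit 0) [] false,
   Spec.mk (nat_lit 25714) (nat_lit 0) [] (nat_lit 0) [] false,
   Spec.mk (nat_lit 25716) (nat_lit 0) [] (nat_lit 0) [] false,
   Spec.mk (nat_lit 25722) (nat_lit 0) [] (nat_lit 0) [] false,
   Spec.mk (nat_lit 25732) (nat_lit 0) [] (nat_lit 0) [] false,
   Spec.mk (nat_lit 25734) (nat_lit 0) [] (nat_lit 0) [] false,
   Spec.mk (nat_lit 25740) (nat_lit 0) [] (nat_lit 0) [] false,
   Spec.mk (nat_lit 25766) (nat_lit 0) [] (nat_lit 0) [] false,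
   Spec.mk (nat_lit 25772) (nat_lit 0) [] (nat_lit 0) [] false,
   Spec.mk (nat_lit 25774) (nat_lit 0) [] (nat_lit 0) [] false,
   Spec.mk (nat_lit 25778) (nat_lit 0) [] (nat_lit 0) [] false,
   Spec.mk (nat_lit 25780) (nat_lit 0) [] (nat_lit 0) [] false,
   Spec.mk (nat_lit 25782) (nat_lit 0) [] (nat_lit 0) [] false,
   Spec.mk (nat_lit 25790) (nat_lit 0) [] (nat_lit 0) [] false,
   Spec.mk (nat_lit 25792) (nat_lit 0) [] (nat_lit 0) [] false,
   Spec.mk (nat_lit 25796) (nat_lit 0) [] (nat_lit 0) [] false,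
   Spec.mk (nat_lit 25798) (nat_lit 0) [] (nat_lit 0) [] false,
   Spec.mk (nat_lit 25800) (nat_lit 0) [] (nat_lit 0) [] false,
   Spec.mk (nat_lit 25804) (nat_lit 0) [] (nat_lit 0) [] false,
   Spec.mk (nat_lit 25806) (nat_lit 0) [] (nat_lit 0) [] false,
   Spec.mk (nat_lit 25814) (nat_lit 0) [] (nat_lit 0) [] false,
   Spec.mk (nat_lit 25816) (nat_lit 0) [] (nat_lit 0) [] false,
   Spec.mk (nat_lit 25818) (nat_lit 0) [] (nat_lit 0) [] false,
   Spec.mk (nat_lit 25822) (nat_lit 0) [] (nat_lit 0) [] false,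
   Spec.mk (nat_lit 25824) (nat_lit 0) [] (nat_lit 0) [] false,
   Spec.mk (nat_lit 25830) (nat_lit 0) [] (nat_lit 0) [] false,
   Spec.mk (nat_lit 25844) (nat_lit 0) [] (nat_lit 0) [] false,
   Spec.mk (nat_lit 25846) (nat_lit 0) [] (nat_lit 0) [] false,
   Spec.mk (nat_lit 25850) (nat_lit 0) [] (nat_lit 0) [] false,
   Spec.mk (nat_lit 25852) (nat_lit 0) [] (nat_lit 0) [] false,
   Spec.mk (nat_lit 25854) (nat_lit 0) [] (nat_lit 0) [] false,
   Spec.mk (nat_lit 25858) (nat_lit 0) [] (nat_lit 0) [] false,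
   Spec.mk (nat_lit 25860) (nat_lit 0) [] (nat_lit 0) [] false,
   Spec.mk (nat_lit 25868) (nat_lit 0) [] (nat_lit 0) [] false,
   Spec.mk (nat_lit 25870) (nat_lit 0) [] (nat_lit 0) [] false,
   Spec.mk (nat_lit 25872) (nat_lit 0) [] (nat_lit 0) [] false,
   Spec.mk (nat_lit 25876) (nat_lit 0) [] (nat_lit 0) [] false,
   Spec.mk (nat_lit 25878) (nat_lit 0) [] (nat_lit 0) [] false,
   Spec.mk (nat_lit 25884) (nat_lit 0) [] (nat_lit 0) [] false,
   Spec.mk (nat_lit 25894) (nat_lit 0) [] (nat_lit 0) [] false,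
   Spec.mk (nat_lit 25896) (nat_lit 0) [] (nat_lit 0) [] false,
   Spec.mk (nat_lit 25902) (nat_lit 0) [] (nat_lit 0) [] false,
   Spec.mk (nat_lit 25922) (nat_lit 0) [] (nat_lit 0) [] false,
   Spec.mk (nat_lit 25924) (nat_lit 0) [] (nat_lit 0) [] false,
   Spec.mk (nat_lit 25926) (nat_lit 0) [] (nat_lit 0) [] false,
   Spec.mk (nat_lit 25930) (nat_lit 0) [] (nat_lit 0) [] false,
   Spec.mk (nat_lit 25932) (nat_lit 0) [] (nat_lit 0) [] false,
   Spec.mk (nat_lit 25938) (nat_lit 0) [] (nat_lit 0) [] false,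
   Spec.mk (nat_lit 25948) (nat_lit 0) [] (nat_lit 0) [] false,
   Spec.mk (nat_lit 25950) (nat_lit 0) [] (nat_lit 0) [] false,
   Spec.mk (nat_lit 25956) (nat_lit 0) [] (nat_lit 0) [] false,
   Spec.mk (nat_lit 25974) (nat_lit 0) [] (nat_lit 0) [] false,
   Spec.mk (nat_lit 26006) (nat_lit 0) [] (nat_lit 0) [] false,
   Spec.mk (nat_lit 26008) (nat_lit 0) [] (nat_lit 0) [] false,
   Spec.mk (nat_lit 26012) (nat_lit 0) [] (nat_lit 0) [] false,
   Spec.mk (nat_lit 26014) (nat_lit 0) [] (nat_lit 0) [] false,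
   Spec.mk (nat_lit 26016) (nat_lit 0) [] (nat_lit 0) [] false,
   Spec.mk (nat_lit 26020) (nat_lit 0) [] (nat_lit 0) [] false,
   Spec.mk (nat_lit 26022) (nat_lit 0) [] (nat_lit 0) [] false]

noncomputable def cd65 : List Spec :=
  [Spec.mk (nat_lit 26030) (nat_lit 0) [] (nat_lit 0) [] false,
   Spec.mk (nat_lit 26032) (nat_lit 0) [] (nat_lit 0) [] false,
   Spec.mk (nat_lit 26034) (nat_lit 0) [] (nat_lit 0) [] false,
   Spec.mk (nat_lit 26038) (nat_lit 0) [] (nat_lit 0) [] false,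
   Spec.mk (nat_lit 26040) (nat_lit 0) [] (nat_lit 0) [] false,
   Spec.mk (nat_lit 26046) (nat_lit 0) [] (nat_lit 0) [] false,
   Spec.mk (nat_lit 26056) (nat_lit 0) [] (nat_lit 0) [] false,
   Spec.mk (nat_lit 26058) (nat_lit 0) [] (nat_lit 0) [] false,
   Spec.mk (nat_lit 26064) (nat_lit 0) [] (nat_lit 0) [] false,
   Spec.mk (nat_lit 26084) (nat_lit 0) [] (nat_lit 0) [] false,
   Spec.mk (nat_lit 26086) (nat_lit 0) [] (nat_lit 0) [] false,
   Spec.mk (nat_lit 26088) (nat_lit 0) [] (nat_lit 0) [] false,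
   Spec.mk (nat_lit 26092) (nat_lit 0) [] (nat_lit 0) [] false,
   Spec.mk (nat_lit 26094) (nat_lit 0) [] (nat_lit 0) [] false,
   Spec.mk (nat_lit 26100) (nat_lit 0) [] (nat_lit 0) [] false,
   Spec.mk (nat_lit 26110) (nat_lit 0) [] (nat_lit 0) [] false,
   Spec.mk (nat_lit 26112) (nat_lit 0) [] (nat_lit 0) [] false,
   Spec.mk (nat_lit 26118) (nat_lit 0) [] (nat_lit 0) [] false,
   Spec.mk (nat_lit 26136) (nat_lit 0) [] (nat_lit 0) [] false,
   Spec.mk (nat_lit 26164) (nat_lit 0) [] (nat_lit 0) [] false,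
   Spec.mk (nat_lit 26166) (nat_lit 0) [] (nat_lit 0) [] false,
   Spec.mk (nat_lit 26172) (nat_lit 0) [] (nat_lit 0) [] false,
   Spec.mk (nat_lit 26190) (nat_lit 0) [] (nat_lit 0) [] false,
   Spec.mk (nat_lit 26324) (nat_lit 0) [] (nat_lit 0) [] false,
   Spec.mk (nat_lit 26378) (nat_lit 0) [] (nat_lit 0) [] false,
   Spec.mk (nat_lit 26396) (nat_lit 0) [] (nat_lit 0) [] false,
   Spec.mk (nat_lit 26402) (nat_lit 0) [] (nat_lit 0) [] false,
   Spec.mk (nat_lit 26404) (nat_lit 0) [] (nat_lit 0) [] false,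
   Spec.mk (nat_lit 26432) (nat_lit 0) [] (nat_lit 0) [] false,
   Spec.mk (nat_lit 26450) (nat_lit 0) [] (nat_lit 0) [] false,
   Spec.mk (nat_lit 26456) (nat_lit 0) [] (nat_lit 0) [] false,
   Spec.mk (nat_lit 26458) (nat_lit 0) [] (nat_lit 0) [] false,
   Spec.mk (nat_lit 26468) (nat_lit 0) [] (nat_lit 0) [] false,
   Spec.mk (nat_lit 26474) (nat_lit 0) [] (nat_lit 0) [] false,
   Spec.mk (nat_lit 26476) (nat_lit 0) [] (nat_lit 0) [] false,
   Spec.mk (nat_lit 26480) (nat_lit 0) [] (nat_lit 0) [] false,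
   Spec.mk (nat_lit 26482) (nat_lit 0) [] (nat_lit 0) [] false,
   Spec.mk (nat_lit 26484) (nat_lit 0) [] (nat_lit 0) [] false,
   Spec.mk (nat_lit 26540) (nat_lit 0) [] (nat_lit 0) [] false,
   Spec.mk (nat_lit 26558) (nat_lit 0) [] (nat_lit 0) [] false,
   Spec.mk (nat_lit 26564) (nat_lit 0) [] (nat_lit 0) [] false,
   Spec.mk (nat_lit 26566) (nat_lit 0) [] (nat_lit 0) [] false,
   Spec.mk (nat_lit 26594) (nat_lit 0) [] (nat_lit 0) [] false,
   Spec.mk (nat_lit 26612) (nat_lit 0) [] (nat_lit 0) [] false,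
   Spec.mk (nat_lit 26618) (nat_lit 0) [] (nat_lit 0) [] false,
   Spec.mk (nat_lit 26620) (nat_lit 0) [] (nat_lit 0) [] false,
   Spec.mk (nat_lit 26630) (nat_lit 0) [] (nat_lit 0) [] false,
   Spec.mk (nat_lit 26636) (nat_lit 0) [] (nat_lit 0) [] false,
   Spec.mk (nat_lit 26638) (nat_lit 0) [] (nat_lit 0) [] false,
   Spec.mk (nat_lit 26642) (nat_lit 0) [] (nat_lit 0) [] false,
   Spec.mk (nat_lit 26644) (nat_lit 0) [] (nat_lit 0) [] false,
   Spec.mk (nat_lit 26646) (nat_lit 0) [] (nat_lit 0) [] false,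
   Spec.mk (nat_lit 26666) (nat_lit 0) [] (nat_lit 0) [] false,
   Spec.mk (nat_lit 26672) (nat_lit 0) [] (nat_lit 0) [] false,
   Spec.mk (nat_lit 26674) (nat_lit 0) [] (nat_lit 0) [] false,
   Spec.mk (nat_lit 26684) (nat_lit 0) [] (nat_lit 0) [] false,
   Spec.mk (nat_lit 26690) (nat_lit 0) [] (nat_lit 0) [] false,
   Spec.mk (nat_lit 26692) (nat_lit 0) [] (nat_lit 0) [] false,
   Spec.mk (nat_lit 26696) (nat_lit 0) [] (nat_lit 0) [] false,
   Spec.mk (nat_lit 26698) (nat_lit 0) [] (nat_lit 0) [] false]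

noncomputable def cd66 : List Spec :=
  [Spec.mk (nat_lit 26700) (nat_lit 0) [] (nat_lit 0) [] false,
   Spec.mk (nat_lit 26708) (nat_lit 0) [] (nat_lit 0) [] false,
   Spec.mk (nat_lit 26710) (nat_lit 0) [] (nat_lit 0) [] false,
   Spec.mk (nat_lit 26714) (nat_lit 0) [] (nat_lit 0) [] false,
   Spec.mk (nat_lit 26716) (nat_lit 0) [] (nat_lit 0) [] false,
   Spec.mk (nat_lit 26718) (nat_lit 0) [] (nat_lit 0) [] false,
   Spec.mk (nat_lit 26722) (nat_lit 0) [] (nat_lit 0) [] false,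
   Spec.mk (nat_lit 26724) (nat_lit 0) [] (nat_lit 0) [] false,
   Spec.mk (nat_lit 26756) (nat_lit 0) [] (nat_lit 0) [] false,
   Spec.mk (nat_lit 26774) (nat_lit 0) [] (nat_lit 0) [] false,
   Spec.mk (nat_lit 26780) (nat_lit 0) [] (nat_lit 0) [] false,
   Spec.mk (nat_lit 26782) (nat_lit 0) [] (nat_lit 0) [] false,
   Spec.mk (nat_lit 26792) (nat_lit 0) [] (nat_lit 0) [] false,
   Spec.mk (nat_lit 26798) (nat_lit 0) [] (nat_lit 0) [] false,
   Spec.mk (nat_lit 26800) (nat_lit 0) [] (nat_lit 0) [] false,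
   Spec.mk (nat_lit 26804) (nat_lit 0) [] (nat_lit 0) [] false,
   Spec.mk (nat_lit 26806) (nat_lit 0) [] (nat_lit 0) [] false,
   Spec.mk (nat_lit 26808) (nat_lit 0) [] (nat_lit 0) [] false,
   Spec.mk (nat_lit 26828) (nat_lit 0) [] (nat_lit 0) [] false,
   Spec.mk (nat_lit 26834) (nat_lit 0) [] (nat_lit 0) [] false,
   Spec.mk (nat_lit 26836) (nat_lit 0) [] (nat_lit 0) [] false,
   Spec.mk (nat_lit 26846) (nat_lit 0) [] (nat_lit 0) [] false,
   Spec.mk (nat_lit 26852) (nat_lit 0) [] (nat_lit 0) [] false,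
   Spec.mk (nat_lit 26854) (nat_lit 0) [] (nat_lit 0) [] false,
   Spec.mk (nat_lit 26858) (nat_lit 0) [] (nat_lit 0) [] false,
   Spec.mk (nat_lit 26860) (nat_lit 0) [] (nat_lit 0) [] false,
   Spec.mk (nat_lit 26862) (nat_lit 0) [] (nat_lit 0) [] false,
   Spec.mk (nat_lit 26870) (nat_lit 0) [] (nat_lit 0) [] false,
   Spec.mk (nat_lit 26872) (nat_lit 0) [] (nat_lit 0) [] false,
   Spec.mk (nat_lit 26876) (nat_lit 0) [] (nat_lit 0) [] false,
   Spec.mk (nat_lit 26878) (nat_lit 0) [] (nat_lit 0) [] false,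
   Spec.mk (nat_lit 26880) (nat_lit 0) [] (nat_lit 0) [] false,
   Spec.mk (nat_lit 26884) (nat_lit 0) [] (nat_lit 0) [] false,
   Spec.mk (nat_lit 26886) (nat_lit 0) [] (nat_lit 0) [] false,
   Spec.mk (nat_lit 26900) (nat_lit 0) [] (nat_lit 0) [] false,
   Spec.mk (nat_lit 26906) (nat_lit 0) [] (nat_lit 0) [] false,
   Spec.mk (nat_lit 26908) (nat_lit 0) [] (nat_lit 0) [] false,
   Spec.mk (nat_lit 26912) (nat_lit 0) [] (nat_lit 0) [] false,
   Spec.mk (nat_lit 26914) (nat_lit 0) [] (nat_lit 0) [] false,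
   Spec.mk (nat_lit 26916) (nat_lit 0) [] (nat_lit 0) [] false,
   Spec.mk (nat_lit 26924) (nat_lit 0) [] (nat_lit 0) [] false,
   Spec.mk (nat_lit 26926) (nat_lit 0) [] (nat_lit 0) [] false,
   Spec.mk (nat_lit 26930) (nat_lit 0) [] (nat_lit 0) [] false,
   Spec.mk (nat_lit 26932) (nat_lit 0) [] (nat_lit 0) [] false,
   Spec.mk (nat_lit 26934) (nat_lit 0) [] (nat_lit 0) [] false,
   Spec.mk (nat_lit 26938) (nat_lit 0) [] (nat_lit 0) [] false,
   Spec.mk (nat_lit 26940) (nat_lit 0) [] (nat_lit 0) [] false,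
   Spec.mk (nat_lit 26948) (nat_lit 0) [] (nat_lit 0) [] false,
   Spec.mk (nat_lit 26950) (nat_lit 0) [] (nat_lit 0) [] false,
   Spec.mk (nat_lit 26952) (nat_lit 0) [] (nat_lit 0) [] false,
   Spec.mk (nat_lit 26956) (nat_lit 0) [] (nat_lit 0) [] false,
   Spec.mk (nat_lit 26958) (nat_lit 0) [] (nat_lit 0) [] false,
   Spec.mk (nat_lit 26964) (nat_lit 0) [] (nat_lit 0) [] false,
   Spec.mk (nat_lit 27026) (nat_lit 0) [] (nat_lit 0) [] false,
   Spec.mk (nat_lit 27044) (nat_lit 0) [] (nat_lit 0) [] false,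
   Spec.mk (nat_lit 27050) (nat_lit 0) [] (nat_lit 0) [] false,
   Spec.mk (nat_lit 27052) (nat_lit 0) [] (nat_lit 0) [] false,
   Spec.mk (nat_lit 27080) (nat_lit 0) [] (nat_lit 0) [] false,
   Spec.mk (nat_lit 27098) (nat_lit 0) [] (nat_lit 0) [] false,
   Spec.mk (nat_lit 27104) (nat_lit 0) [] (nat_lit 0) [] false]

noncomputable def cd67 : List Spec :=
  [Spec.mk (nat_lit 27106) (nat_lit 0) [] (nat_lit 0) [] false,
   Spec.mk (nat_lit 27116) (nat_lit 0) [] (nat_lit 0) [] false,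
   Spec.mk (nat_lit 27122) (nat_lit 0) [] (nat_lit 0) [] false,
   Spec.mk (nat_lit 27124) (nat_lit 0) [] (nat_lit 0) [] false,
   Spec.mk (nat_lit 27128) (nat_lit 0) [] (nat_lit 0) [] false,
   Spec.mk (nat_lit 27130) (nat_lit 0) [] (nat_lit 0) [] false,
   Spec.mk (nat_lit 27132) (nat_lit 0) [] (nat_lit 0) [] false,
   Spec.mk (nat_lit 27152) (nat_lit 0) [] (nat_lit 0) [] false,
   Spec.mk (nat_lit 27158) (nat_lit 0) [] (nat_lit 0) [] false,
   Spec.mk (nat_lit 27160) (nat_lit 0) [] (nat_lit 0) [] false,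
   Spec.mk (nat_lit 27170) (nat_lit 0) [] (nat_lit 0) [] false,
   Spec.mk (nat_lit 27176) (nat_lit 0) [] (nat_lit 0) [] false,
   Spec.mk (nat_lit 27178) (nat_lit 0) [] (nat_lit 0) [] false,
   Spec.mk (nat_lit 27182) (nat_lit 0) [] (nat_lit 0) [] false,
   Spec.mk (nat_lit 27184) (nat_lit 0) [] (nat_lit 0) [] false,
   Spec.mk (nat_lit 27186) (nat_lit 0) [] (nat_lit 0) [] false,
   Spec.mk (nat_lit 27194) (nat_lit 0) [] (nat_lit 0) [] false,
   Spec.mk (nat_lit 27196) (nat_lit 0) [] (nat_lit 0) [] false,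
   Spec.mk (nat_lit 27200) (nat_lit 0) [] (nat_lit 0) [] false,
   Spec.mk (nat_lit 27202) (nat_lit 0) [] (nat_lit 0) [] false,
   Spec.mk (nat_lit 27204) (nat_lit 0) [] (nat_lit 0) [] false,
   Spec.mk (nat_lit 27208) (nat_lit 0) [] (nat_lit 0) [] false,
   Spec.mk (nat_lit 27210) (nat_lit 0) [] (nat_lit 0) [] false,
   Spec.mk (nat_lit 27242) (nat_lit 0) [] (nat_lit 0) [] false,
   Spec.mk (nat_lit 27260) (nat_lit 0) [] (nat_lit 0) [] false,
   Spec.mk (nat_lit 27266) (nat_lit 0) [] (nat_lit 0) [] false,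
   Spec.mk (nat_lit 27268) (nat_lit 0) [] (nat_lit 0) [] false,
   Spec.mk (nat_lit 27278) (nat_lit 0) [] (nat_lit 0) [] false,
   Spec.mk (nat_lit 27284) (nat_lit 0) [] (nat_lit 0) [] false,
   Spec.mk (nat_lit 27286) (nat_lit 0) [] (nat_lit 0) [] false,
   Spec.mk (nat_lit 27290) (nat_lit 0) [] (nat_lit 0) [] false,
   Spec.mk (nat_lit 27292) (nat_lit 0) [] (nat_lit 0) [] false,
   Spec.mk (nat_lit 27294) (nat_lit 0) [] (nat_lit 0) [] false,
   Spec.mk (nat_lit 27314) (nat_lit 0) [] (nat_lit 0) [] false,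
   Spec.mk (nat_lit 27320) (nat_lit 0) [] (nat_lit 0) [] false,
   Spec.mk (nat_lit 27322) (nat_lit 0) [] (nat_lit 0) [] false,
   Spec.mk (nat_lit 27332) (nat_lit 0) [] (nat_lit 0) [] false,
   Spec.mk (nat_lit 27338) (nat_lit 0) [] (nat_lit 0) [] false,
   Spec.mk (nat_lit 27340) (nat_lit 0) [] (nat_lit 0) [] false,
   Spec.mk (nat_lit 27344) (nat_lit 0) [] (nat_lit 0) [] false,
   Spec.mk (nat_lit 27346) (nat_lit 0) [] (nat_lit 0) [] false,
   Spec.mk (nat_lit 27348) (nat_lit 0) [] (nat_lit 0) [] false,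
   Spec.mk (nat_lit 27356) (nat_lit 0) [] (nat_lit 0) [] false,
   Spec.mk (nat_lit 27358) (nat_lit 0) [] (nat_lit 0) [] false,
   Spec.mk (nat_lit 27362) (nat_lit 0) [] (nat_lit 0) [] false,
   Spec.mk (nat_lit 27364) (nat_lit 0) [] (nat_lit 0) [] false,
   Spec.mk (nat_lit 27366) (nat_lit 0) [] (nat_lit 0) [] false,
   Spec.mk (nat_lit 27370) (nat_lit 0) [] (nat_lit 0) [] false,
   Spec.mk (nat_lit 27372) (nat_lit 0) [] (nat_lit 0) [] false,
   Spec.mk (nat_lit 27386) (nat_lit 0) [] (nat_lit 0) [] false,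
   Spec.mk (nat_lit 27392) (nat_lit 0) [] (nat_lit 0) [] false,
   Spec.mk (nat_lit 27394) (nat_lit 0) [] (nat_lit 0) [] false,
   Spec.mk (nat_lit 27398) (nat_lit 0) [] (nat_lit 0) [] false,
   Spec.mk (nat_lit 27400) (nat_lit 0) [] (nat_lit 0) [] false,
   Spec.mk (nat_lit 27402) (nat_lit 0) [] (nat_lit 0) [] false,
   Spec.mk (nat_lit 27410) (nat_lit 0) [] (nat_lit 0) [] false,
   Spec.mk (nat_lit 27412) (nat_lit 0) [] (nat_lit 0) [] false,
   Spec.mk (nat_lit 27416) (nat_lit 0) [] (nat_lit 0) [] false,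
   Spec.mk (nat_lit 27418) (nat_lit 0) [] (nat_lit 0) [] false,
   Spec.mk (nat_lit 27420) (nat_lit 0) [] (nat_lit 0) [] false]

noncomputable def cd68 : List Spec :=
  [Spec.mk (nat_lit 27424) (nat_lit 0) [] (nat_lit 0) [] false,
   Spec.mk (nat_lit 27426) (nat_lit 0) [] (nat_lit 0) [] false,
   Spec.mk (nat_lit 27434) (nat_lit 0) [] (nat_lit 0) [] false,
   Spec.mk (nat_lit 27436) (nat_lit 0) [] (nat_lit 0) [] false,
   Spec.mk (nat_lit 27438) (nat_lit 0) [] (nat_lit 0) [] false,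
   Spec.mk (nat_lit 27442) (nat_lit 0) [] (nat_lit 0) [] false,
   Spec.mk (nat_lit 27444) (nat_lit 0) [] (nat_lit 0) [] false,
   Spec.mk (nat_lit 27450) (nat_lit 0) [] (nat_lit 0) [] false,
   Spec.mk (nat_lit 27476) (nat_lit 0) [] (nat_lit 0) [] false,
   Spec.mk (nat_lit 27482) (nat_lit 0) [] (nat_lit 0) [] false,
   Spec.mk (nat_lit 27484) (nat_lit 0) [] (nat_lit 0) [] false,
   Spec.mk (nat_lit 27494) (nat_lit 0) [] (nat_lit 0) [] false,
   Spec.mk (nat_lit 27500) (nat_lit 0) [] (nat_lit 0) [] false,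
   Spec.mk (nat_lit 27502) (nat_lit 0) [] (nat_lit 0) [] false,
   Spec.mk (nat_lit 27506) (nat_lit 0) [] (nat_lit 0) [] false,
   Spec.mk (nat_lit 27508) (nat_lit 0) [] (nat_lit 0) [] false,
   Spec.mk (nat_lit 27510) (nat_lit 0) [] (nat_lit 0) [] false,
   Spec.mk (nat_lit 27518) (nat_lit 0) [] (nat_lit 0) [] false,
   Spec.mk (nat_lit 27520) (nat_lit 0) [] (nat_lit 0) [] false,
   Spec.mk (nat_lit 27524) (nat_lit 0) [] (nat_lit 0) [] false,
   Spec.mk (nat_lit 27526) (nat_lit 0) [] (nat_lit 0) [] false,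
   Spec.mk (nat_lit 27528) (nat_lit 0) [] (nat_lit 0) [] false,
   Spec.mk (nat_lit 27532) (nat_lit 0) [] (nat_lit 0) [] false,
   Spec.mk (nat_lit 27534) (nat_lit 0) [] (nat_lit 0) [] false,
   Spec.mk (nat_lit 27548) (nat_lit 0) [] (nat_lit 0) [] false,
   Spec.mk (nat_lit 27554) (nat_lit 0) [] (nat_lit 0) [] false,
   Spec.mk (nat_lit 27556) (nat_lit 0) [] (nat_lit 0) [] false,
   Spec.mk (nat_lit 27560) (nat_lit 0) [] (nat_lit 0) [] false,
   Spec.mk (nat_lit 27562) (nat_lit 0) [] (nat_lit 0) [] false,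
   Spec.mk (nat_lit 27564) (nat_lit 0) [] (nat_lit 0) [] false,
   Spec.mk (nat_lit 27572) (nat_lit 0) [] (nat_lit 0) [] false,
   Spec.mk (nat_lit 27574) (nat_lit 0) [] (nat_lit 0) [] false,
   Spec.mk (nat_lit 27578) (nat_lit 0) [] (nat_lit 0) [] false,
   Spec.mk (nat_lit 27580) (nat_lit 0) [] (nat_lit 0) [] false,
   Spec.mk (nat_lit 27582) (nat_lit 0) [] (nat_lit 0) [] false,
   Spec.mk (nat_lit 27586) (nat_lit 0) [] (nat_lit 0) [] false,
   Spec.mk (nat_lit 27588) (nat_lit 0) [] (nat_lit 0) [] false,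
   Spec.mk (nat_lit 27596) (nat_lit 0) [] (nat_lit 0) [] false,
   Spec.mk (nat_lit 27598) (nat_lit 0) [] (nat_lit 0) [] false,
   Spec.mk (nat_lit 27600) (nat_lit 0) [] (nat_lit 0) [] false,
   Spec.mk (nat_lit 27604) (nat_lit 0) [] (nat_lit 0) [] false,
   Spec.mk (nat_lit 27606) (nat_lit 0) [] (nat_lit 0) [] false,
   Spec.mk (nat_lit 27612) (nat_lit 0) [] (nat_lit 0) [] false,
   Spec.mk (nat_lit 27626) (nat_lit 0) [] (nat_lit 0) [] false,
   Spec.mk (nat_lit 27628) (nat_lit 0) [] (nat_lit 0) [] false,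
   Spec.mk (nat_lit 27632) (nat_lit 0) [] (nat_lit 0) [] false,
   Spec.mk (nat_lit 27634) (nat_lit 0) [] (nat_lit 0) [] false,
   Spec.mk (nat_lit 27636) (nat_lit 0) [] (nat_lit 0) [] false,
   Spec.mk (nat_lit 27640) (nat_lit 0) [] (nat_lit 0) [] false,
   Spec.mk (nat_lit 27642) (nat_lit 0) [] (nat_lit 0) [] false,
   Spec.mk (nat_lit 27650) (nat_lit 0) [] (nat_lit 0) [] false,
   Spec.mk (nat_lit 27652) (nat_lit 0) [] (nat_lit 0) [] false,
   Spec.mk (nat_lit 27654) (nat_lit 0) [] (nat_lit 0) [] false,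
   Spec.mk (nat_lit 27658) (nat_lit 0) [] (nat_lit 0) [] false,
   Spec.mk (nat_lit 27660) (nat_lit 0) [] (nat_lit 0) [] false,
   Spec.mk (nat_lit 27666) (nat_lit 0) [] (nat_lit 0) [] false,
   Spec.mk (nat_lit 27676) (nat_lit 0) [] (nat_lit 0) [] false,
   Spec.mk (nat_lit 27678) (nat_lit 0) [] (nat_lit 0) [] false,
   Spec.mk (nat_lit 27684) (nat_lit 0) [] (nat_lit 0) [] false,
   Spec.mk (nat_lit 27728) (nat_lit 0) [] (nat_lit 0) [] false]

noncomputable def cd69 : List Spec :=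
  [Spec.mk (nat_lit 27746) (nat_lit 0) [] (nat_lit 0) [] false,
   Spec.mk (nat_lit 27752) (nat_lit 0) [] (nat_lit 0) [] false,
   Spec.mk (nat_lit 27754) (nat_lit 0) [] (nat_lit 0) [] false,
   Spec.mk (nat_lit 27764) (nat_lit 0) [] (nat_lit 0) [] false,
   Spec.mk (nat_lit 27770) (nat_lit 0) [] (nat_lit 0) [] false,
   Spec.mk (nat_lit 27772) (nat_lit 0) [] (nat_lit 0) [] false,
   Spec.mk (nat_lit 27776) (nat_lit 0) [] (nat_lit 0) [] false,
   Spec.mk (nat_lit 27778) (nat_lit 0) [] (nat_lit 0) [] false,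
   Spec.mk (nat_lit 27780) (nat_lit 0) [] (nat_lit 0) [] false,
   Spec.mk (nat_lit 27800) (nat_lit 0) [] (nat_lit 0) [] false,
   Spec.mk (nat_lit 27806) (nat_lit 0) [] (nat_lit 0) [] false,
   Spec.mk (nat_lit 27808) (nat_lit 0) [] (nat_lit 0) [] false,
   Spec.mk (nat_lit 27818) (nat_lit 0) [] (nat_lit 0) [] false,
   Spec.mk (nat_lit 27824) (nat_lit 0) [] (nat_lit 0) [] false,
   Spec.mk (nat_lit 27826) (nat_lit 0) [] (nat_lit 0) [] false,
   Spec.mk (nat_lit 27830) (nat_lit 0) [] (nat_lit 0) [] false,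
   Spec.mk (nat_lit 27832) (nat_lit 0) [] (nat_lit 0) [] false,
   Spec.mk (nat_lit 27834) (nat_lit 0) [] (nat_lit 0) [] false,
   Spec.mk (nat_lit 27842) (nat_lit 0) [] (nat_lit 0) [] false,
   Spec.mk (nat_lit 27844) (nat_lit 0) [] (nat_lit 0) [] false,
   Spec.mk (nat_lit 27848) (nat_lit 0) [] (nat_lit 0) [] false,
   Spec.mk (nat_lit 27850) (nat_lit 0) [] (nat_lit 0) [] false,
   Spec.mk (nat_lit 27852) (nat_lit 0) [] (nat_lit 0) [] false,
   Spec.mk (nat_lit 27856) (nat_lit 0) [] (nat_lit 0) [] false,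
   Spec.mk (nat_lit 27858) (nat_lit 0) [] (nat_lit 0) [] false,
   Spec.mk (nat_lit 27872) (nat_lit 0) [] (nat_lit 0) [] false,
   Spec.mk (nat_lit 27878) (nat_lit 0) [] (nat_lit 0) [] false,
   Spec.mk (nat_lit 27880) (nat_lit 0) [] (nat_lit 0) [] false,
   Spec.mk (nat_lit 27884) (nat_lit 0) [] (nat_lit 0) [] false,
   Spec.mk (nat_lit 27886) (nat_lit 0) [] (nat_lit 0) [] false,
   Spec.mk (nat_lit 27888) (nat_lit 0) [] (nat_lit 0) [] false,
   Spec.mk (nat_lit 27896) (nat_lit 0) [] (nat_lit 0) [] false,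
   Spec.mk (nat_lit 27898) (nat_lit 0) [] (nat_lit 0) [] false,
   Spec.mk (nat_lit 27902) (nat_lit 0) [] (nat_lit 0) [] false,
   Spec.mk (nat_lit 27904) (nat_lit 0) [] (nat_lit 0) [] false,
   Spec.mk (nat_lit 27906) (nat_lit 0) [] (nat_lit 0) [] false,
   Spec.mk (nat_lit 27910) (nat_lit 0) [] (nat_lit 0) [] false,
   Spec.mk (nat_lit 27912) (nat_lit 0) [] (nat_lit 0) [] false,
   Spec.mk (nat_lit 27920) (nat_lit 0) [] (nat_lit 0) [] false,
   Spec.mk (nat_lit 27922) (nat_lit 0) [] (nat_lit 0) [] false,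
   Spec.mk (nat_lit 27924) (nat_lit 0) [] (nat_lit 0) [] false,
   Spec.mk (nat_lit 27928) (nat_lit 0) [] (nat_lit 0) [] false,
   Spec.mk (nat_lit 27930) (nat_lit 0) [] (nat_lit 0) [] false,
   Spec.mk (nat_lit 27936) (nat_lit 0) [] (nat_lit 0) [] false,
   Spec.mk (nat_lit 27962) (nat_lit 0) [] (nat_lit 0) [] false,
   Spec.mk (nat_lit 27968) (nat_lit 0) [] (nat_lit 0) [] false,
   Spec.mk (nat_lit 27970) (nat_lit 0) [] (nat_lit 0) [] false,
   Spec.mk (nat_lit 27980) (nat_lit 0) [] (nat_lit 0) [] false,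
   Spec.mk (nat_lit 27986) (nat_lit 0) [] (nat_lit 0) [] false,
   Spec.mk (nat_lit 27988) (nat_lit 0) [] (nat_lit 0) [] false,
   Spec.mk (nat_lit 27992) (nat_lit 0) [] (nat_lit 0) [] false,
   Spec.mk (nat_lit 27994) (nat_lit 0) [] (nat_lit 0) [] false,
   Spec.mk (nat_lit 27996) (nat_lit 0) [] (nat_lit 0) [] false,
   Spec.mk (nat_lit 28004) (nat_lit 0) [] (nat_lit 0) [] false,
   Spec.mk (nat_lit 28006) (nat_lit 0) [] (nat_lit 0) [] false,
   Spec.mk (nat_lit 28010) (nat_lit 0) [] (nat_lit 0) [] false,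
   Spec.mk (nat_lit 28012) (nat_lit 0) [] (nat_lit 0) [] false,
   Spec.mk (nat_lit 28014) (nat_lit 0) [] (nat_lit 0) [] false,
   Spec.mk (nat_lit 28018) (nat_lit 0) [] (nat_lit 0) [] false,
   Spec.mk (nat_lit 28020) (nat_lit 0) [] (nat_lit 0) [] false]

noncomputable def cd70 : List Spec :=
  [Spec.mk (nat_lit 28034) (nat_lit 0) [] (nat_lit 0) [] false,
   Spec.mk (nat_lit 28040) (nat_lit 0) [] (nat_lit 0) [] false,
   Spec.mk (nat_lit 28042) (nat_lit 0) [] (nat_lit 0) [] false,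
   Spec.mk (nat_lit 28046) (nat_lit 0) [] (nat_lit 0) [] false,
   Spec.mk (nat_lit 28048) (nat_lit 0) [] (nat_lit 0) [] false,
   Spec.mk (nat_lit 28050) (nat_lit 0) [] (nat_lit 0) [] false,
   Spec.mk (nat_lit 28058) (nat_lit 0) [] (nat_lit 0) [] false,
   Spec.mk (nat_lit 28060) (nat_lit 0) [] (nat_lit 0) [] false,
   Spec.mk (nat_lit 28064) (nat_lit 0) [] (nat_lit 0) [] false,
   Spec.mk (nat_lit 28066) (nat_lit 0) [] (nat_lit 0) [] false,
   Spec.mk (nat_lit 28068) (nat_lit 0) [] (nat_lit 0) [] false,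
   Spec.mk (nat_lit 28072) (nat_lit 0) [] (nat_lit 0) [] false,
   Spec.mk (nat_lit 28074) (nat_lit 0) [] (nat_lit 0) [] false,
   Spec.mk (nat_lit 28082) (nat_lit 0) [] (nat_lit 0) [] false,
   Spec.mk (nat_lit 28084) (nat_lit 0) [] (nat_lit 0) [] false,
   Spec.mk (nat_lit 28086) (nat_lit 0) [] (nat_lit 0) [] false,
   Spec.mk (nat_lit 28090) (nat_lit 0) [] (nat_lit 0) [] false,
   Spec.mk (nat_lit 28092) (nat_lit 0) [] (nat_lit 0) [] false,
   Spec.mk (nat_lit 28098) (nat_lit 0) [] (nat_lit 0) [] false,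
   Spec.mk (nat_lit 28112) (nat_lit 0) [] (nat_lit 0) [] false,
   Spec.mk (nat_lit 28114) (nat_lit 0) [] (nat_lit 0) [] false,
   Spec.mk (nat_lit 28118) (nat_lit 0) [] (nat_lit 0) [] false,
   Spec.mk (nat_lit 28120) (nat_lit 0) [] (nat_lit 0) [] false,
   Spec.mk (nat_lit 28122) (nat_lit 0) [] (nat_lit 0) [] false,
   Spec.mk (nat_lit 28126) (nat_lit 0) [] (nat_lit 0) [] false,
   Spec.mk (nat_lit 28128) (nat_lit 0) [] (nat_lit 0) [] false,
   Spec.mk (nat_lit 28136) (nat_lit 0) [] (nat_lit 0) [] false,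
   Spec.mk (nat_lit 28138) (nat_lit 0) [] (nat_lit 0) [] false,
   Spec.mk (nat_lit 28140) (nat_lit 0) [] (nat_lit 0) [] false,
   Spec.mk (nat_lit 28144) (nat_lit 0) [] (nat_lit 0) [] false,
   Spec.mk (nat_lit 28146) (nat_lit 0) [] (nat_lit 0) [] false,
   Spec.mk (nat_lit 28152) (nat_lit 0) [] (nat_lit 0) [] false,
   Spec.mk (nat_lit 28162) (nat_lit 0) [] (nat_lit 0) [] false,
   Spec.mk (nat_lit 28164) (nat_lit 0) [] (nat_lit 0) [] false,
   Spec.mk (nat_lit 28170) (nat_lit 0) [] (nat_lit 0) [] false,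
   Spec.mk (nat_lit 28196) (nat_lit 0) [] (nat_lit 0) [] false,
   Spec.mk (nat_lit 28202) (nat_lit 0) [] (nat_lit 0) [] false,
   Spec.mk (nat_lit 28204) (nat_lit 0) [] (nat_lit 0) [] false,
   Spec.mk (nat_lit 28208) (nat_lit 0) [] (nat_lit 0) [] false,
   Spec.mk (nat_lit 28210) (nat_lit 0) [] (nat_lit 0) [] false,
   Spec.mk (nat_lit 28212) (nat_lit 0) [] (nat_lit 0) [] false,
   Spec.mk (nat_lit 28220) (nat_lit 0) [] (nat_lit 0) [] false,
   Spec.mk (nat_lit 28222) (nat_lit 0) [] (nat_lit 0) [] false,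
   Spec.mk (nat_lit 28226) (nat_lit 0) [] (nat_lit 0) [] false,
   Spec.mk (nat_lit 28228) (nat_lit 0) [] (nat_lit 0) [] false,
   Spec.mk (nat_lit 28230) (nat_lit 0) [] (nat_lit 0) [] false,
   Spec.mk (nat_lit 28234) (nat_lit 0) [] (nat_lit 0) [] false,
   Spec.mk (nat_lit 28236) (nat_lit 0) [] (nat_lit 0) [] false,
   Spec.mk (nat_lit 28244) (nat_lit 0) [] (nat_lit 0) [] false,
   Spec.mk (nat_lit 28246) (nat_lit 0) [] (nat_lit 0) [] false,
   Spec.mk (nat_lit 28248) (nat_lit 0) [] (nat_lit 0) [] false,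
   Spec.mk (nat_lit 28252) (nat_lit 0) [] (nat_lit 0) [] false,
   Spec.mk (nat_lit 28254) (nat_lit 0) [] (nat_lit 0) [] false,
   Spec.mk (nat_lit 28260) (nat_lit 0) [] (nat_lit 0) [] false,
   Spec.mk (nat_lit 28274) (nat_lit 0) [] (nat_lit 0) [] false,
   Spec.mk (nat_lit 28276) (nat_lit 0) [] (nat_lit 0) [] false,
   Spec.mk (nat_lit 28280) (nat_lit 0) [] (nat_lit 0) [] false,
   Spec.mk (nat_lit 28282) (nat_lit 0) [] (nat_lit 0) [] false,
   Spec.mk (nat_lit 28284) (nat_lit 0) [] (nat_lit 0) [] false,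
   Spec.mk (nat_lit 28288) (nat_lit 0) [] (nat_lit 0) [] false]

noncomputable def cd71 : List Spec :=
  [Spec.mk (nat_lit 28290) (nat_lit 0) [] (nat_lit 0) [] false,
   Spec.mk (nat_lit 28298) (nat_lit 0) [] (nat_lit 0) [] false,
   Spec.mk (nat_lit 28300) (nat_lit 0) [] (nat_lit 0) [] false,
   Spec.mk (nat_lit 28302) (nat_lit 0) [] (nat_lit 0) [] false,
   Spec.mk (nat_lit 28306) (nat_lit 0) [] (nat_lit 0) [] false,
   Spec.mk (nat_lit 28308) (nat_lit 0) [] (nat_lit 0) [] false,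
   Spec.mk (nat_lit 28314) (nat_lit 0) [] (nat_lit 0) [] false,
   Spec.mk (nat_lit 28324) (nat_lit 0) [] (nat_lit 0) [] false,
   Spec.mk (nat_lit 28326) (nat_lit 0) [] (nat_lit 0) [] false,
   Spec.mk (nat_lit 28332) (nat_lit 0) [] (nat_lit 0) [] false,
   Spec.mk (nat_lit 28352) (nat_lit 0) [] (nat_lit 0) [] false,
   Spec.mk (nat_lit 28354) (nat_lit 0) [] (nat_lit 0) [] false,
   Spec.mk (nat_lit 28356) (nat_lit 0) [] (nat_lit 0) [] false,
   Spec.mk (nat_lit 28360) (nat_lit 0) [] (nat_lit 0) [] false,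
   Spec.mk (nat_lit 28362) (nat_lit 0) [] (nat_lit 0) [] false,
   Spec.mk (nat_lit 28368) (nat_lit 0) [] (nat_lit 0) [] false,
   Spec.mk (nat_lit 28378) (nat_lit 0) [] (nat_lit 0) [] false,
   Spec.mk (nat_lit 28380) (nat_lit 0) [] (nat_lit 0) [] false,
   Spec.mk (nat_lit 28386) (nat_lit 0) [] (nat_lit 0) [] false,
   Spec.mk (nat_lit 28404) (nat_lit 0) [] (nat_lit 0) [] false,
   Spec.mk (nat_lit 28484) (nat_lit 0) [] (nat_lit 0) [] false,
   Spec.mk (nat_lit 28502) (nat_lit 0) [] (nat_lit 0) [] false,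
   Spec.mk (nat_lit 28508) (nat_lit 0) [] (nat_lit 0) [] false,
   Spec.mk (nat_lit 28510) (nat_lit 0) [] (nat_lit 0) [] false,
   Spec.mk (nat_lit 28538) (nat_lit 0) [] (nat_lit 0) [] false,
   Spec.mk (nat_lit 28556) (nat_lit 0) [] (nat_lit 0) [] false,
   Spec.mk (nat_lit 28562) (nat_lit 0) [] (nat_lit 0) [] false,
   Spec.mk (nat_lit 28564) (nat_lit 0) [] (nat_lit 0) [] false,
   Spec.mk (nat_lit 28574) (nat_lit 0) [] (nat_lit 0) [] false,
   Spec.mk (nat_lit 28580) (nat_lit 0) [] (nat_lit 0) [] false,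
   Spec.mk (nat_lit 28582) (nat_lit 0) [] (nat_lit 0) [] false,
   Spec.mk (nat_lit 28586) (nat_lit 0) [] (nat_lit 0) [] false,
   Spec.mk (nat_lit 28588) (nat_lit 0) [] (nat_lit 0) [] false,
   Spec.mk (nat_lit 28590) (nat_lit 0) [] (nat_lit 0) [] false,
   Spec.mk (nat_lit 28610) (nat_lit 0) [] (nat_lit 0) [] false,
   Spec.mk (nat_lit 28616) (nat_lit 0) [] (nat_lit 0) [] false,
   Spec.mk (nat_lit 28618) (nat_lit 0) [] (nat_lit 0) [] false,
   Spec.mk (nat_lit 28628) (nat_lit 0) [] (nat_lit 0) [] false,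
   Spec.mk (nat_lit 28634) (nat_lit 0) [] (nat_lit 0) [] false,
   Spec.mk (nat_lit 28636) (nat_lit 0) [] (nat_lit 0) [] false,
   Spec.mk (nat_lit 28640) (nat_lit 0) [] (nat_lit 0) [] false,
   Spec.mk (nat_lit 28642) (nat_lit 0) [] (nat_lit 0) [] false,
   Spec.mk (nat_lit 28644) (nat_lit 0) [] (nat_lit 0) [] false,
   Spec.mk (nat_lit 28652) (nat_lit 0) [] (nat_lit 0) [] false,
   Spec.mk (nat_lit 28654) (nat_lit 0) [] (nat_lit 0) [] false,
   Spec.mk (nat_lit 28658) (nat_lit 0) [] (nat_lit 0) [] false,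
   Spec.mk (nat_lit 28660) (nat_lit 0) [] (nat_lit 0) [] false,
   Spec.mk (nat_lit 28662) (nat_lit 0) [] (nat_lit 0) [] false,
   Spec.mk (nat_lit 28666) (nat_lit 0) [] (nat_lit 0) [] false,
   Spec.mk (nat_lit 28668) (nat_lit 0) [] (nat_lit 0) [] false,
   Spec.mk (nat_lit 28700) (nat_lit 0) [] (nat_lit 0) [] false,
   Spec.mk (nat_lit 28718) (nat_lit 0) [] (nat_lit 0) [] false,
   Spec.mk (nat_lit 28724) (nat_lit 0) [] (nat_lit 0) [] false,
   Spec.mk (nat_lit 28726) (nat_lit 0) [] (nat_lit 0) [] false,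
   Spec.mk (nat_lit 28736) (nat_lit 0) [] (nat_lit 0) [] false,
   Spec.mk (nat_lit 28742) (nat_lit 0) [] (nat_lit 0) [] false,
   Spec.mk (nat_lit 28744) (nat_lit 0) [] (nat_lit 0) [] false,
   Spec.mk (nat_lit 28748) (nat_lit 0) [] (nat_lit 0) [] false,
   Spec.mk (nat_lit 28750) (nat_lit 0) [] (nat_lit 0) [] false,
   Spec.mk (nat_lit 28752) (nat_lit 0) [] (nat_lit 0) [] false]

noncomputable def cd72 : List Spec :=
  [Spec.mk (nat_lit 28772) (nat_lit 0) [] (nat_lit 0) [] false,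
   Spec.mk (nat_lit 28778) (nat_lit 0) [] (nat_lit 0) [] false,
   Spec.mk (nat_lit 28780) (nat_lit 0) [] (nat_lit 0) [] false,
   Spec.mk (nat_lit 28790) (nat_lit 0) [] (nat_lit 0) [] false,
   Spec.mk (nat_lit 28796) (nat_lit 0) [] (nat_lit 0) [] false,
   Spec.mk (nat_lit 28798) (nat_lit 0) [] (nat_lit 0) [] false,
   Spec.mk (nat_lit 28802) (nat_lit 0) [] (nat_lit 0) [] false,
   Spec.mk (nat_lit 28804) (nat_lit 0) [] (nat_lit 0) [] false,
   Spec.mk (nat_lit 28806) (nat_lit 0) [] (nat_lit 0) [] false,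
   Spec.mk (nat_lit 28814) (nat_lit 0) [] (nat_lit 0) [] false,
   Spec.mk (nat_lit 28816) (nat_lit 0) [] (nat_lit 0) [] false,
   Spec.mk (nat_lit 28820) (nat_lit 0) [] (nat_lit 0) [] false,
   Spec.mk (nat_lit 28822) (nat_lit 0) [] (nat_lit 0) [] false,
   Spec.mk (nat_lit 28824) (nat_lit 0) [] (nat_lit 0) [] false,
   Spec.mk (nat_lit 28828) (nat_lit 0) [] (nat_lit 0) [] false,
   Spec.mk (nat_lit 28830) (nat_lit 0) [] (nat_lit 0) [] false,
   Spec.mk (nat_lit 28844) (nat_lit 0) [] (nat_lit 0) [] false,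
   Spec.mk (nat_lit 28850) (nat_lit 0) [] (nat_lit 0) [] false,
   Spec.mk (nat_lit 28852) (nat_lit 0) [] (nat_lit 0) [] false,
   Spec.mk (nat_lit 28856) (nat_lit 0) [] (nat_lit 0) [] false,
   Spec.mk (nat_lit 28858) (nat_lit 0) [] (nat_lit 0) [] false,
   Spec.mk (nat_lit 28860) (nat_lit 0) [] (nat_lit 0) [] false,
   Spec.mk (nat_lit 28868) (nat_lit 0) [] (nat_lit 0) [] false,
   Spec.mk (nat_lit 28870) (nat_lit 0) [] (nat_lit 0) [] false,
   Spec.mk (nat_lit 28874) (nat_lit 0) [] (nat_lit 0) [] false,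
   Spec.mk (nat_lit 28876) (nat_lit 0) [] (nat_lit 0) [] false,
   Spec.mk (nat_lit 28878) (nat_lit 0) [] (nat_lit 0) [] false,
   Spec.mk (nat_lit 28882) (nat_lit 0) [] (nat_lit 0) [] false,
   Spec.mk (nat_lit 28884) (nat_lit 0) [] (nat_lit 0) [] false,
   Spec.mk (nat_lit 28892) (nat_lit 0) [] (nat_lit 0) [] false,
   Spec.mk (nat_lit 28894) (nat_lit 0) [] (nat_lit 0) [] false,
   Spec.mk (nat_lit 28896) (nat_lit 0) [] (nat_lit 0) [] false,
   Spec.mk (nat_lit 28900) (nat_lit 0) [] (nat_lit 0) [] false,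
   Spec.mk (nat_lit 28902) (nat_lit 0) [] (nat_lit 0) [] false,
   Spec.mk (nat_lit 28908) (nat_lit 0) [] (nat_lit 0) [] false,
   Spec.mk (nat_lit 28934) (nat_lit 0) [] (nat_lit 0) [] false,
   Spec.mk (nat_lit 28940) (nat_lit 0) [] (nat_lit 0) [] false,
   Spec.mk (nat_lit 28942) (nat_lit 0) [] (nat_lit 0) [] false,
   Spec.mk (nat_lit 28952) (nat_lit 0) [] (nat_lit 0) [] false,
   Spec.mk (nat_lit 28958) (nat_lit 0) [] (nat_lit 0) [] false,
   Spec.mk (nat_lit 28960) (nat_lit 0) [] (nat_lit 0) [] false,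
   Spec.mk (nat_lit 28964) (nat_lit 0) [] (nat_lit 0) [] false,
   Spec.mk (nat_lit 28966) (nat_lit 0) [] (nat_lit 0) [] false,
   Spec.mk (nat_lit 28968) (nat_lit 0) [] (nat_lit 0) [] false,
   Spec.mk (nat_lit 28976) (nat_lit 0) [] (nat_lit 0) [] false,
   Spec.mk (nat_lit 28978) (nat_lit 0) [] (nat_lit 0) [] false,
   Spec.mk (nat_lit 28982) (nat_lit 0) [] (nat_lit 0) [] false,
   Spec.mk (nat_lit 28984) (nat_lit 0) [] (nat_lit 0) [] false,
   Spec.mk (nat_lit 28986) (nat_lit 0) [] (nat_lit 0) [] false,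
   Spec.mk (nat_lit 28990) (nat_lit 0) [] (nat_lit 0) [] false,
   Spec.mk (nat_lit 28992) (nat_lit 0) [] (nat_lit 0) [] false,
   Spec.mk (nat_lit 29006) (nat_lit 0) [] (nat_lit 0) [] false,
   Spec.mk (nat_lit 29012) (nat_lit 0) [] (nat_lit 0) [] false,
   Spec.mk (nat_lit 29014) (nat_lit 0) [] (nat_lit 0) [] false,
   Spec.mk (nat_lit 29018) (nat_lit 0) [] (nat_lit 0) [] false,
   Spec.mk (nat_lit 29020) (nat_lit 0) [] (nat_lit 0) [] false,
   Spec.mk (nat_lit 29022) (nat_lit 0) [] (nat_lit 0) [] false,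
   Spec.mk (nat_lit 29030) (nat_lit 0) [] (nat_lit 0) [] false,
   Spec.mk (nat_lit 29032) (nat_lit 0) [] (nat_lit 0) [] false,
   Spec.mk (nat_lit 29036) (nat_lit 0) [] (nat_lit 0) [] false]

noncomputable def cd73 : List Spec :=
  [Spec.mk (nat_lit 29038) (nat_lit 0) [] (nat_lit 0) [] false,
   Spec.mk (nat_lit 29040) (nat_lit 0) [] (nat_lit 0) [] false,
   Spec.mk (nat_lit 29044) (nat_lit 0) [] (nat_lit 0) [] false,
   Spec.mk (nat_lit 29046) (nat_lit 0) [] (nat_lit 0) [] false,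
   Spec.mk (nat_lit 29054) (nat_lit 0) [] (nat_lit 0) [] false,
   Spec.mk (nat_lit 29056) (nat_lit 0) [] (nat_lit 0) [] false,
   Spec.mk (nat_lit 29058) (nat_lit 0) [] (nat_lit 0) [] false,
   Spec.mk (nat_lit 29062) (nat_lit 0) [] (nat_lit 0) [] false,
   Spec.mk (nat_lit 29064) (nat_lit 0) [] (nat_lit 0) [] false,
   Spec.mk (nat_lit 29070) (nat_lit 0) [] (nat_lit 0) [] false,
   Spec.mk (nat_lit 29084) (nat_lit 0) [] (nat_lit 0) [] false,
   Spec.mk (nat_lit 29086) (nat_lit 0) [] (nat_lit 0) [] false,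
   Spec.mk (nat_lit 29090) (nat_lit 0) [] (nat_lit 0) [] false,
   Spec.mk (nat_lit 29092) (nat_lit 0) [] (nat_lit 0) [] false,
   Spec.mk (nat_lit 29094) (nat_lit 0) [] (nat_lit 0) [] false,
   Spec.mk (nat_lit 29098) (nat_lit 0) [] (nat_lit 0) [] false,
   Spec.mk (nat_lit 29100) (nat_lit 0) [] (nat_lit 0) [] false,
   Spec.mk (nat_lit 29108) (nat_lit 0) [] (nat_lit 0) [] false,
   Spec.mk (nat_lit 29110) (nat_lit 0) [] (nat_lit 0) [] false,
   Spec.mk (nat_lit 29112) (nat_lit 0) [] (nat_lit 0) [] false,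
   Spec.mk (nat_lit 29116) (nat_lit 0) [] (nat_lit 0) [] false,
   Spec.mk (nat_lit 29118) (nat_lit 0) [] (nat_lit 0) [] false,
   Spec.mk (nat_lit 29124) (nat_lit 0) [] (nat_lit 0) [] false,
   Spec.mk (nat_lit 29134) (nat_lit 0) [] (nat_lit 0) [] false,
   Spec.mk (nat_lit 29136) (nat_lit 0) [] (nat_lit 0) [] false,
   Spec.mk (nat_lit 29142) (nat_lit 0) [] (nat_lit 0) [] false,
   Spec.mk (nat_lit 29186) (nat_lit 0) [] (nat_lit 0) [] false,
   Spec.mk (nat_lit 29204) (nat_lit 0) [] (nat_lit 0) [] false,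
   Spec.mk (nat_lit 29210) (nat_lit 0) [] (nat_lit 0) [] false,
   Spec.mk (nat_lit 29212) (nat_lit 0) [] (nat_lit 0) [] false,
   Spec.mk (nat_lit 29222) (nat_lit 0) [] (nat_lit 0) [] false,
   Spec.mk (nat_lit 29228) (nat_lit 0) [] (nat_lit 0) [] false,
   Spec.mk (nat_lit 29230) (nat_lit 0) [] (nat_lit 0) [] false,
   Spec.mk (nat_lit 29234) (nat_lit 0) [] (nat_lit 0) [] false,
   Spec.mk (nat_lit 29236) (nat_lit 0) [] (nat_lit 0) [] false,
   Spec.mk (nat_lit 29238) (nat_lit 0) [] (nat_lit 0) [] false,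
   Spec.mk (nat_lit 29258) (nat_lit 0) [] (nat_lit 0) [] false,
   Spec.mk (nat_lit 29264) (nat_lit 0) [] (nat_lit 0) [] false,
   Spec.mk (nat_lit 29266) (nat_lit 0) [] (nat_lit 0) [] false,
   Spec.mk (nat_lit 29276) (nat_lit 0) [] (nat_lit 0) [] false,
   Spec.mk (nat_lit 29282) (nat_lit 0) [] (nat_lit 0) [] false,
   Spec.mk (nat_lit 29284) (nat_lit 0) [] (nat_lit 0) [] false,
   Spec.mk (nat_lit 29288) (nat_lit 0) [] (nat_lit 0) [] false,
   Spec.mk (nat_lit 29290) (nat_lit 0) [] (nat_lit 0) [] false,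
   Spec.mk (nat_lit 29292) (nat_lit 0) [] (nat_lit 0) [] false,
   Spec.mk (nat_lit 29300) (nat_lit 0) [] (nat_lit 0) [] false,
   Spec.mk (nat_lit 29302) (nat_lit 0) [] (nat_lit 0) [] false,
   Spec.mk (nat_lit 29306) (nat_lit 0) [] (nat_lit 0) [] false,
   Spec.mk (nat_lit 29308) (nat_lit 0) [] (nat_lit 0) [] false,
   Spec.mk (nat_lit 29310) (nat_lit 0) [] (nat_lit 0) [] false,
   Spec.mk (nat_lit 29314) (nat_lit 0) [] (nat_lit 0) [] false,
   Spec.mk (nat_lit 29316) (nat_lit 0) [] (nat_lit 0) [] false,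
   Spec.mk (nat_lit 29330) (nat_lit 0) [] (nat_lit 0) [] false,
   Spec.mk (nat_lit 29336) (nat_lit 0) [] (nat_lit 0) [] false,
   Spec.mk (nat_lit 29338) (nat_lit 0) [] (nat_lit 0) [] false,
   Spec.mk (nat_lit 29342) (nat_lit 0) [] (nat_lit 0) [] false,
   Spec.mk (nat_lit 29344) (nat_lit 0) [] (nat_lit 0) [] false,
   Spec.mk (nat_lit 29346) (nat_lit 0) [] (nat_lit 0) [] false,
   Spec.mk (nat_lit 29354) (nat_lit 0) [] (nat_lit 0) [] false,
   Spec.mk (nat_lit 29356) (nat_lit 0) [] (nat_lit 0) [] false]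

noncomputable def cd74 : List Spec :=
  [Spec.mk (nat_lit 29360) (nat_lit 0) [] (nat_lit 0) [] false,
   Spec.mk (nat_lit 29362) (nat_lit 0) [] (nat_lit 0) [] false,
   Spec.mk (nat_lit 29364) (nat_lit 0) [] (nat_lit 0) [] false,
   Spec.mk (nat_lit 29368) (nat_lit 0) [] (nat_lit 0) [] false,
   Spec.mk (nat_lit 29370) (nat_lit 0) [] (nat_lit 0) [] false,
   Spec.mk (nat_lit 29378) (nat_lit 0) [] (nat_lit 0) [] false,
   Spec.mk (nat_lit 29380) (nat_lit 0) [] (nat_lit 0) [] false,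
   Spec.mk (nat_lit 29382) (nat_lit 0) [] (nat_lit 0) [] false,
   Spec.mk (nat_lit 29386) (nat_lit 0) [] (nat_lit 0) [] false,
   Spec.mk (nat_lit 29388) (nat_lit 0) [] (nat_lit 0) [] false,
   Spec.mk (nat_lit 29394) (nat_lit 0) [] (nat_lit 0) [] false,
   Spec.mk (nat_lit 29420) (nat_lit 0) [] (nat_lit 0) [] false,
   Spec.mk (nat_lit 29426) (nat_lit 0) [] (nat_lit 0) [] false,
   Spec.mk (nat_lit 29428) (nat_lit 0) [] (nat_lit 0) [] false,
   Spec.mk (nat_lit 29438) (nat_lit 0) [] (nat_lit 0) [] false,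
   Spec.mk (nat_lit 29444) (nat_lit 0) [] (nat_lit 0) [] false,
   Spec.mk (nat_lit 29446) (nat_lit 0) [] (nat_lit 0) [] false,
   Spec.mk (nat_lit 29450) (nat_lit 0) [] (nat_lit 0) [] false,
   Spec.mk (nat_lit 29452) (nat_lit 0) [] (nat_lit 0) [] false,
   Spec.mk (nat_lit 29454) (nat_lit 0) [] (nat_lit 0) [] false,
   Spec.mk (nat_lit 29462) (nat_lit 0) [] (nat_lit 0) [] false,
   Spec.mk (nat_lit 29464) (nat_lit 0) [] (nat_lit 0) [] false,
   Spec.mk (nat_lit 29468) (nat_lit 0) [] (nat_lit 0) [] false,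
   Spec.mk (nat_lit 29470) (nat_lit 0) [] (nat_lit 0) [] false,
   Spec.mk (nat_lit 29472) (nat_lit 0) [] (nat_lit 0) [] false,
   Spec.mk (nat_lit 29476) (nat_lit 0) [] (nat_lit 0) [] false,
   Spec.mk (nat_lit 29478) (nat_lit 0) [] (nat_lit 0) [] false,
   Spec.mk (nat_lit 29492) (nat_lit 0) [] (nat_lit 0) [] false,
   Spec.mk (nat_lit 29498) (nat_lit 0) [] (nat_lit 0) [] false,
   Spec.mk (nat_lit 29500) (nat_lit 0) [] (nat_lit 0) [] false,
   Spec.mk (nat_lit 29504) (nat_lit 0) [] (nat_lit 0) [] false,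
   Spec.mk (nat_lit 29506) (nat_lit 0) [] (nat_lit 0) [] false,
   Spec.mk (nat_lit 29508) (nat_lit 0) [] (nat_lit 0) [] false,
   Spec.mk (nat_lit 29516) (nat_lit 0) [] (nat_lit 0) [] false,
   Spec.mk (nat_lit 29518) (nat_lit 0) [] (nat_lit 0) [] false,
   Spec.mk (nat_lit 29522) (nat_lit 0) [] (nat_lit 0) [] false,
   Spec.mk (nat_lit 29524) (nat_lit 0) [] (nat_lit 0) [] false,
   Spec.mk (nat_lit 29526) (nat_lit 0) [] (nat_lit 0) [] false,
   Spec.mk (nat_lit 29530) (nat_lit 0) [] (nat_lit 0) [] false,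
   Spec.mk (nat_lit 29532) (nat_lit 0) [] (nat_lit 0) [] false,
   Spec.mk (nat_lit 29540) (nat_lit 0) [] (nat_lit 0) [] false,
   Spec.mk (nat_lit 29542) (nat_lit 0) [] (nat_lit 0) [] false,
   Spec.mk (nat_lit 29544) (nat_lit 0) [] (nat_lit 0) [] false,
   Spec.mk (nat_lit 29548) (nat_lit 0) [] (nat_lit 0) [] false,
   Spec.mk (nat_lit 29550) (nat_lit 0) [] (nat_lit 0) [] false,
   Spec.mk (nat_lit 29556) (nat_lit 0) [] (nat_lit 0) [] false,
   Spec.mk (nat_lit 29570) (nat_lit 0) [] (nat_lit 0) [] false,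
   Spec.mk (nat_lit 29572) (nat_lit 0) [] (nat_lit 0) [] false,
   Spec.mk (nat_lit 29576) (nat_lit 0) [] (nat_lit 0) [] false,
   Spec.mk (nat_lit 29578) (nat_lit 0) [] (nat_lit 0) [] false,
   Spec.mk (nat_lit 29580) (nat_lit 0) [] (nat_lit 0) [] false,
   Spec.mk (nat_lit 29584) (nat_lit 0) [] (nat_lit 0) [] false,
   Spec.mk (nat_lit 29586) (nat_lit 0) [] (nat_lit 0) [] false,
   Spec.mk (nat_lit 29594) (nat_lit 0) [] (nat_lit 0) [] false,
   Spec.mk (nat_lit 29596) (nat_lit 0) [] (nat_lit 0) [] false,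
   Spec.mk (nat_lit 29598) (nat_lit 0) [] (nat_lit 0) [] false,
   Spec.mk (nat_lit 29602) (nat_lit 0) [] (nat_lit 0) [] false,
   Spec.mk (nat_lit 29604) (nat_lit 0) [] (nat_lit 0) [] false,
   Spec.mk (nat_lit 29610) (nat_lit 0) [] (nat_lit 0) [] false,
   Spec.mk (nat_lit 29620) (nat_lit 0) [] (nat_lit 0) [] false]

noncomputable def cd75 : List Spec :=
  [Spec.mk (nat_lit 29622) (nat_lit 0) [] (nat_lit 0) [] false,
   Spec.mk (nat_lit 29628) (nat_lit 0) [] (nat_lit 0) [] false,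
   Spec.mk (nat_lit 29654) (nat_lit 0) [] (nat_lit 0) [] false,
   Spec.mk (nat_lit 29660) (nat_lit 0) [] (nat_lit 0) [] false,
   Spec.mk (nat_lit 29662) (nat_lit 0) [] (nat_lit 0) [] false,
   Spec.mk (nat_lit 29666) (nat_lit 0) [] (nat_lit 0) [] false,
   Spec.mk (nat_lit 29668) (nat_lit 0) [] (nat_lit 0) [] false,
   Spec.mk (nat_lit 29670) (nat_lit 0) [] (nat_lit 0) [] false,
   Spec.mk (nat_lit 29678) (nat_lit 0) [] (nat_lit 0) [] false,
   Spec.mk (nat_lit 29680) (nat_lit 0) [] (nat_lit 0) [] false,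
   Spec.mk (nat_lit 29684) (nat_lit 0) [] (nat_lit 0) [] false,
   Spec.mk (nat_lit 29686) (nat_lit 0) [] (nat_lit 0) [] false,
   Spec.mk (nat_lit 29688) (nat_lit 0) [] (nat_lit 0) [] false,
   Spec.mk (nat_lit 29692) (nat_lit 0) [] (nat_lit 0) [] false,
   Spec.mk (nat_lit 29694) (nat_lit 0) [] (nat_lit 0) [] false,
   Spec.mk (nat_lit 29702) (nat_lit 0) [] (nat_lit 0) [] false,
   Spec.mk (nat_lit 29704) (nat_lit 0) [] (nat_lit 0) [] false,
   Spec.mk (nat_lit 29706) (nat_lit 0) [] (nat_lit 0) [] false,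
   Spec.mk (nat_lit 29710) (nat_lit 0) [] (nat_lit 0) [] false,
   Spec.mk (nat_lit 29712) (nat_lit 0) [] (nat_lit 0) [] false,
   Spec.mk (nat_lit 29718) (nat_lit 0) [] (nat_lit 0) [] false,
   Spec.mk (nat_lit 29732) (nat_lit 0) [] (nat_lit 0) [] false,
   Spec.mk (nat_lit 29734) (nat_lit 0) [] (nat_lit 0) [] false,
   Spec.mk (nat_lit 29738) (nat_lit 0) [] (nat_lit 0) [] false,
   Spec.mk (nat_lit 29740) (nat_lit 0) [] (nat_lit 0) [] false,
   Spec.mk (nat_lit 29742) (nat_lit 0) [] (nat_lit 0) [] false,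
   Spec.mk (nat_lit 29746) (nat_lit 0) [] (nat_lit 0) [] false,
   Spec.mk (nat_lit 29748) (nat_lit 0) [] (nat_lit 0) [] false,
   Spec.mk (nat_lit 29756) (nat_lit 0) [] (nat_lit 0) [] false,
   Spec.mk (nat_lit 29758) (nat_lit 0) [] (nat_lit 0) [] false,
   Spec.mk (nat_lit 29760) (nat_lit 0) [] (nat_lit 0) [] false,
   Spec.mk (nat_lit 29764) (nat_lit 0) [] (nat_lit 0) [] false,
   Spec.mk (nat_lit 29766) (nat_lit 0) [] (nat_lit 0) [] false,
   Spec.mk (nat_lit 29772) (nat_lit 0) [] (nat_lit 0) [] false,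
   Spec.mk (nat_lit 29782) (nat_lit 0) [] (nat_lit 0) [] false,
   Spec.mk (nat_lit 29784) (nat_lit 0) [] (nat_lit 0) [] false,
   Spec.mk (nat_lit 29790) (nat_lit 0) [] (nat_lit 0) [] false,
   Spec.mk (nat_lit 29810) (nat_lit 0) [] (nat_lit 0) [] false,
   Spec.mk (nat_lit 29812) (nat_lit 0) [] (nat_lit 0) [] false,
   Spec.mk (nat_lit 29814) (nat_lit 0) [] (nat_lit 0) [] false,
   Spec.mk (nat_lit 29818) (nat_lit 0) [] (nat_lit 0) [] false,
   Spec.mk (nat_lit 29820) (nat_lit 0) [] (nat_lit 0) [] false,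
   Spec.mk (nat_lit 29826) (nat_lit 0) [] (nat_lit 0) [] false,
   Spec.mk (nat_lit 29836) (nat_lit 0) [] (nat_lit 0) [] false,
   Spec.mk (nat_lit 29838) (nat_lit 0) [] (nat_lit 0) [] false,
   Spec.mk (nat_lit 29844) (nat_lit 0) [] (nat_lit 0) [] false,
   Spec.mk (nat_lit 29862) (nat_lit 0) [] (nat_lit 0) [] false,
   Spec.mk (nat_lit 29906) (nat_lit 0) [] (nat_lit 0) [] false,
   Spec.mk (nat_lit 29912) (nat_lit 0) [] (nat_lit 0) [] false,
   Spec.mk (nat_lit 29914) (nat_lit 0) [] (nat_lit 0) [] false,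
   Spec.mk (nat_lit 29924) (nat_lit 0) [] (nat_lit 0) [] false,
   Spec.mk (nat_lit 29930) (nat_lit 0) [] (nat_lit 0) [] false,
   Spec.mk (nat_lit 29932) (nat_lit 0) [] (nat_lit 0) [] false,
   Spec.mk (nat_lit 29936) (nat_lit 0) [] (nat_lit 0) [] false,
   Spec.mk (nat_lit 29938) (nat_lit 0) [] (nat_lit 0) [] false,
   Spec.mk (nat_lit 29940) (nat_lit 0) [] (nat_lit 0) [] false,
   Spec.mk (nat_lit 29948) (nat_lit 0) [] (nat_lit 0) [] false,
   Spec.mk (nat_lit 29950) (nat_lit 0) [] (nat_lit 0) [] false,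
   Spec.mk (nat_lit 29954) (nat_lit 0) [] (nat_lit 0) [] false,
   Spec.mk (nat_lit 29956) (nat_lit 0) [] (nat_lit 0) [] false]

noncomputable def cd76 : List Spec :=
  [Spec.mk (nat_lit 29958) (nat_lit 0) [] (nat_lit 0) [] false,
   Spec.mk (nat_lit 29962) (nat_lit 0) [] (nat_lit 0) [] false,
   Spec.mk (nat_lit 29964) (nat_lit 0) [] (nat_lit 0) [] false,
   Spec.mk (nat_lit 29978) (nat_lit 0) [] (nat_lit 0) [] false,
   Spec.mk (nat_lit 29984) (nat_lit 0) [] (nat_lit 0) [] false,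
   Spec.mk (nat_lit 29986) (nat_lit 0) [] (nat_lit 0) [] false,
   Spec.mk (nat_lit 29990) (nat_lit 0) [] (nat_lit 0) [] false,
   Spec.mk (nat_lit 29992) (nat_lit 0) [] (nat_lit 0) [] false,
   Spec.mk (nat_lit 29994) (nat_lit 0) [] (nat_lit 0) [] false,
   Spec.mk (nat_lit 30002) (nat_lit 0) [] (nat_lit 0) [] false,
   Spec.mk (nat_lit 30004) (nat_lit 0) [] (nat_lit 0) [] false,
   Spec.mk (nat_lit 30008) (nat_lit 0) [] (nat_lit 0) [] false,
   Spec.mk (nat_lit 30010) (nat_lit 0) [] (nat_lit 0) [] false,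
   Spec.mk (nat_lit 30012) (nat_lit 0) [] (nat_lit 0) [] false,
   Spec.mk (nat_lit 30016) (nat_lit 0) [] (nat_lit 0) [] false,
   Spec.mk (nat_lit 30018) (nat_lit 0) [] (nat_lit 0) [] false,
   Spec.mk (nat_lit 30026) (nat_lit 0) [] (nat_lit 0) [] false,
   Spec.mk (nat_lit 30028) (nat_lit 0) [] (nat_lit 0) [] false,
   Spec.mk (nat_lit 30030) (nat_lit 0) [] (nat_lit 0) [] false,
   Spec.mk (nat_lit 30034) (nat_lit 0) [] (nat_lit 0) [] false,
   Spec.mk (nat_lit 30036) (nat_lit 0) [] (nat_lit 0) [] false,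
   Spec.mk (nat_lit 30042) (nat_lit 0) [] (nat_lit 0) [] false,
   Spec.mk (nat_lit 30056) (nat_lit 0) [] (nat_lit 0) [] false,
   Spec.mk (nat_lit 30058) (nat_lit 0) [] (nat_lit 0) [] false,
   Spec.mk (nat_lit 30062) (nat_lit 0) [] (nat_lit 0) [] false,
   Spec.mk (nat_lit 30064) (nat_lit 0) [] (nat_lit 0) [] false,
   Spec.mk (nat_lit 30066) (nat_lit 0) [] (nat_lit 0) [] false,
   Spec.mk (nat_lit 30070) (nat_lit 0) [] (nat_lit 0) [] false,
   Spec.mk (nat_lit 30072) (nat_lit 0) [] (nat_lit 0) [] false,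
   Spec.mk (nat_lit 30080) (nat_lit 0) [] (nat_lit 0) [] false,
   Spec.mk (nat_lit 30082) (nat_lit 0) [] (nat_lit 0) [] false,
   Spec.mk (nat_lit 30084) (nat_lit 0) [] (nat_lit 0) [] false,
   Spec.mk (nat_lit 30088) (nat_lit 0) [] (nat_lit 0) [] false,
   Spec.mk (nat_lit 30090) (nat_lit 0) [] (nat_lit 0) [] false,
   Spec.mk (nat_lit 30096) (nat_lit 0) [] (nat_lit 0) [] false,
   Spec.mk (nat_lit 30106) (nat_lit 0) [] (nat_lit 0) [] false,
   Spec.mk (nat_lit 30108) (nat_lit 0) [] (nat_lit 0) [] false,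
   Spec.mk (nat_lit 30114) (nat_lit 0) [] (nat_lit 0) [] false,
   Spec.mk (nat_lit 30140) (nat_lit 0) [] (nat_lit 0) [] false,
   Spec.mk (nat_lit 30146) (nat_lit 0) [] (nat_lit 0) [] false,
   Spec.mk (nat_lit 30148) (nat_lit 0) [] (nat_lit 0) [] false,
   Spec.mk (nat_lit 30152) (nat_lit 0) [] (nat_lit 0) [] false,
   Spec.mk (nat_lit 30154) (nat_lit 0) [] (nat_lit 0) [] false,
   Spec.mk (nat_lit 30156) (nat_lit 0) [] (nat_lit 0) [] false,
   Spec.mk (nat_lit 30164) (nat_lit 0) [] (nat_lit 0) [] false,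
   Spec.mk (nat_lit 30166) (nat_lit 0) [] (nat_lit 0) [] false,
   Spec.mk (nat_lit 30170) (nat_lit 0) [] (nat_lit 0) [] false,
   Spec.mk (nat_lit 30172) (nat_lit 0) [] (nat_lit 0) [] false,
   Spec.mk (nat_lit 30174) (nat_lit 0) [] (nat_lit 0) [] false,
   Spec.mk (nat_lit 30178) (nat_lit 0) [] (nat_lit 0) [] false,
   Spec.mk (nat_lit 30180) (nat_lit 0) [] (nat_lit 0) [] false,
   Spec.mk (nat_lit 30188) (nat_lit 0) [] (nat_lit 0) [] false,
   Spec.mk (nat_lit 30190) (nat_lit 0) [] (nat_lit 0) [] false,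
   Spec.mk (nat_lit 30192) (nat_lit 0) [] (nat_lit 0) [] false,
   Spec.mk (nat_lit 30196) (nat_lit 0) [] (nat_lit 0) [] false,
   Spec.mk (nat_lit 30198) (nat_lit 0) [] (nat_lit 0) [] false,
   Spec.mk (nat_lit 30204) (nat_lit 0) [] (nat_lit 0) [] false,
   Spec.mk (nat_lit 30218) (nat_lit 0) [] (nat_lit 0) [] false,
   Spec.mk (nat_lit 30220) (nat_lit 0) [] (nat_lit 0) [] false,
   Spec.mk (nat_lit 30224) (nat_lit 0) [] (nat_lit 0) [] false]

noncomputable def cd77 : List Spec :=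
  [Spec.mk (nat_lit 30226) (nat_lit 0) [] (nat_lit 0) [] false,
   Spec.mk (nat_lit 30228) (nat_lit 0) [] (nat_lit 0) [] false,
   Spec.mk (nat_lit 30232) (nat_lit 0) [] (nat_lit 0) [] false,
   Spec.mk (nat_lit 30234) (nat_lit 0) [] (nat_lit 0) [] false,
   Spec.mk (nat_lit 30242) (nat_lit 0) [] (nat_lit 0) [] false,
   Spec.mk (nat_lit 30244) (nat_lit 0) [] (nat_lit 0) [] false,
   Spec.mk (nat_lit 30246) (nat_lit 0) [] (nat_lit 0) [] false,
   Spec.mk (nat_lit 30250) (nat_lit 0) [] (nat_lit 0) [] false,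
   Spec.mk (nat_lit 30252) (nat_lit 0) [] (nat_lit 0) [] false,
   Spec.mk (nat_lit 30258) (nat_lit 0) [] (nat_lit 0) [] false,
   Spec.mk (nat_lit 30268) (nat_lit 0) [] (nat_lit 0) [] false,
   Spec.mk (nat_lit 30270) (nat_lit 0) [] (nat_lit 0) [] false,
   Spec.mk (nat_lit 30276) (nat_lit 0) [] (nat_lit 0) [] false,
   Spec.mk (nat_lit 30296) (nat_lit 0) [] (nat_lit 0) [] false,
   Spec.mk (nat_lit 30298) (nat_lit 0) [] (nat_lit 0) [] false,
   Spec.mk (nat_lit 30300) (nat_lit 0) [] (nat_lit 0) [] false,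
   Spec.mk (nat_lit 30304) (nat_lit 0) [] (nat_lit 0) [] false,
   Spec.mk (nat_lit 30306) (nat_lit 0) [] (nat_lit 0) [] false,
   Spec.mk (nat_lit 30312) (nat_lit 0) [] (nat_lit 0) [] false,
   Spec.mk (nat_lit 30322) (nat_lit 0) [] (nat_lit 0) [] false,
   Spec.mk (nat_lit 30324) (nat_lit 0) [] (nat_lit 0) [] false,
   Spec.mk (nat_lit 30330) (nat_lit 0) [] (nat_lit 0) [] false,
   Spec.mk (nat_lit 30348) (nat_lit 0) [] (nat_lit 0) [] false,
   Spec.mk (nat_lit 30380) (nat_lit 0) [] (nat_lit 0) [] false,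
   Spec.mk (nat_lit 30382) (nat_lit 0) [] (nat_lit 0) [] false,
   Spec.mk (nat_lit 30386) (nat_lit 0) [] (nat_lit 0) [] false,
   Spec.mk (nat_lit 30388) (nat_lit 0) [] (nat_lit 0) [] false,
   Spec.mk (nat_lit 30390) (nat_lit 0) [] (nat_lit 0) [] false,
   Spec.mk (nat_lit 30394) (nat_lit 0) [] (nat_lit 0) [] false,
   Spec.mk (nat_lit 30396) (nat_lit 0) [] (nat_lit 0) [] false,
   Spec.mk (nat_lit 30404) (nat_lit 0) [] (nat_lit 0) [] false,
   Spec.mk (nat_lit 30406) (nat_lit 0) [] (nat_lit 0) [] false,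
   Spec.mk (nat_lit 30408) (nat_lit 0) [] (nat_lit 0) [] false,
   Spec.mk (nat_lit 30412) (nat_lit 0) [] (nat_lit 0) [] false,
   Spec.mk (nat_lit 30414) (nat_lit 0) [] (nat_lit 0) [] false,
   Spec.mk (nat_lit 30420) (nat_lit 0) [] (nat_lit 0) [] false,
   Spec.mk (nat_lit 30430) (nat_lit 0) [] (nat_lit 0) [] false,
   Spec.mk (nat_lit 30432) (nat_lit 0) [] (nat_lit 0) [] false,
   Spec.mk (nat_lit 30438) (nat_lit 0) [] (nat_lit 0) [] false,
   Spec.mk (nat_lit 30458) (nat_lit 0) [] (nat_lit 0) [] false,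
   Spec.mk (nat_lit 30460) (nat_lit 0) [] (nat_lit 0) [] false,
   Spec.mk (nat_lit 30462) (nat_lit 0) [] (nat_lit 0) [] false,
   Spec.mk (nat_lit 30466) (nat_lit 0) [] (nat_lit 0) [] false,
   Spec.mk (nat_lit 30468) (nat_lit 0) [] (nat_lit 0) [] false,
   Spec.mk (nat_lit 30474) (nat_lit 0) [] (nat_lit 0) [] false,
   Spec.mk (nat_lit 30484) (nat_lit 0) [] (nat_lit 0) [] false,
   Spec.mk (nat_lit 30486) (nat_lit 0) [] (nat_lit 0) [] false,
   Spec.mk (nat_lit 30492) (nat_lit 0) [] (nat_lit 0) [] false,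
   Spec.mk (nat_lit 30510) (nat_lit 0) [] (nat_lit 0) [] false,
   Spec.mk (nat_lit 30538) (nat_lit 0) [] (nat_lit 0) [] false,
   Spec.mk (nat_lit 30540) (nat_lit 0) [] (nat_lit 0) [] false,
   Spec.mk (nat_lit 30546) (nat_lit 0) [] (nat_lit 0) [] false,
   Spec.mk (nat_lit 30564) (nat_lit 0) [] (nat_lit 0) [] false,
   Spec.mk (nat_lit 30644) (nat_lit 0) [] (nat_lit 0) [] false,
   Spec.mk (nat_lit 30662) (nat_lit 0) [] (nat_lit 0) [] false,
   Spec.mk (nat_lit 30668) (nat_lit 0) [] (nat_lit 0) [] false,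
   Spec.mk (nat_lit 30670) (nat_lit 0) [] (nat_lit 0) [] false,
   Spec.mk (nat_lit 30680) (nat_lit 0) [] (nat_lit 0) [] false,
   Spec.mk (nat_lit 30686) (nat_lit 0) [] (nat_lit 0) [] false,
   Spec.mk (nat_lit 30688) (nat_lit 0) [] (nat_lit 0) [] false]

noncomputable def cd78 : List Spec :=
  [Spec.mk (nat_lit 30692) (nat_lit 0) [] (nat_lit 0) [] false,
   Spec.mk (nat_lit 30694) (nat_lit 0) [] (nat_lit 0) [] false,
   Spec.mk (nat_lit 30696) (nat_lit 0) [] (nat_lit 0) [] false,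
   Spec.mk (nat_lit 30716) (nat_lit 0) [] (nat_lit 0) [] false,
   Spec.mk (nat_lit 30722) (nat_lit 0) [] (nat_lit 0) [] false,
   Spec.mk (nat_lit 30724) (nat_lit 0) [] (nat_lit 0) [] false,
   Spec.mk (nat_lit 30734) (nat_lit 0) [] (nat_lit 0) [] false,
   Spec.mk (nat_lit 30740) (nat_lit 0) [] (nat_lit 0) [] false,
   Spec.mk (nat_lit 30742) (nat_lit 0) [] (nat_lit 0) [] false,
   Spec.mk (nat_lit 30746) (nat_lit 0) [] (nat_lit 0) [] false,
   Spec.mk (nat_lit 30748) (nat_lit 0) [] (nat_lit 0) [] false,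
   Spec.mk (nat_lit 30750) (nat_lit 0) [] (nat_lit 0) [] false,
   Spec.mk (nat_lit 30758) (nat_lit 0) [] (nat_lit 0) [] false,
   Spec.mk (nat_lit 30760) (nat_lit 0) [] (nat_lit 0) [] false,
   Spec.mk (nat_lit 30764) (nat_lit 0) [] (nat_lit 0) [] false,
   Spec.mk (nat_lit 30766) (nat_lit 0) [] (nat_lit 0) [] false,
   Spec.mk (nat_lit 30768) (nat_lit 0) [] (nat_lit 0) [] false,
   Spec.mk (nat_lit 30772) (nat_lit 0) [] (nat_lit 0) [] false,
   Spec.mk (nat_lit 30774) (nat_lit 0) [] (nat_lit 0) [] false,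
   Spec.mk (nat_lit 30788) (nat_lit 0) [] (nat_lit 0) [] false,
   Spec.mk (nat_lit 30794) (nat_lit 0) [] (nat_lit 0) [] false,
   Spec.mk (nat_lit 30796) (nat_lit 0) [] (nat_lit 0) [] false,
   Spec.mk (nat_lit 30800) (nat_lit 0) [] (nat_lit 0) [] false,
   Spec.mk (nat_lit 30802) (nat_lit 0) [] (nat_lit 0) [] false,
   Spec.mk (nat_lit 30804) (nat_lit 0) [] (nat_lit 0) [] false,
   Spec.mk (nat_lit 30812) (nat_lit 0) [] (nat_lit 0) [] false,
   Spec.mk (nat_lit 30814) (nat_lit 0) [] (nat_lit 0) [] false,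
   Spec.mk (nat_lit 30818) (nat_lit 0) [] (nat_lit 0) [] false,
   Spec.mk (nat_lit 30820) (nat_lit 0) [] (nat_lit 0) [] false,
   Spec.mk (nat_lit 30822) (nat_lit 0) [] (nat_lit 0) [] false,
   Spec.mk (nat_lit 30826) (nat_lit 0) [] (nat_lit 0) [] false,
   Spec.mk (nat_lit 30828) (nat_lit 0) [] (nat_lit 0) [] false,
   Spec.mk (nat_lit 30836) (nat_lit 0) [] (nat_lit 0) [] false,
   Spec.mk (nat_lit 30838) (nat_lit 0) [] (nat_lit 0) [] false,
   Spec.mk (nat_lit 30840) (nat_lit 0) [] (nat_lit 0) [] false,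
   Spec.mk (nat_lit 30844) (nat_lit 0) [] (nat_lit 0) [] false,
   Spec.mk (nat_lit 30846) (nat_lit 0) [] (nat_lit 0) [] false,
   Spec.mk (nat_lit 30852) (nat_lit 0) [] (nat_lit 0) [] false,
   Spec.mk (nat_lit 30878) (nat_lit 0) [] (nat_lit 0) [] false,
   Spec.mk (nat_lit 30884) (nat_lit 0) [] (nat_lit 0) [] false,
   Spec.mk (nat_lit 30886) (nat_lit 0) [] (nat_lit 0) [] false,
   Spec.mk (nat_lit 30896) (nat_lit 0) [] (nat_lit 0) [] false,
   Spec.mk (nat_lit 30902) (nat_lit 0) [] (nat_lit 0) [] false,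
   Spec.mk (nat_lit 30904) (nat_lit 0) [] (nat_lit 0) [] false,
   Spec.mk (nat_lit 30908) (nat_lit 0) [] (nat_lit 0) [] false,
   Spec.mk (nat_lit 30910) (nat_lit 0) [] (nat_lit 0) [] false,
   Spec.mk (nat_lit 30912) (nat_lit 0) [] (nat_lit 0) [] false,
   Spec.mk (nat_lit 30920) (nat_lit 0) [] (nat_lit 0) [] false,
   Spec.mk (nat_lit 30922) (nat_lit 0) [] (nat_lit 0) [] false,
   Spec.mk (nat_lit 30926) (nat_lit 0) [] (nat_lit 0) [] false,
   Spec.mk (nat_lit 30928) (nat_lit 0) [] (nat_lit 0) [] false,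
   Spec.mk (nat_lit 30930) (nat_lit 0) [] (nat_lit 0) [] false,
   Spec.mk (nat_lit 30934) (nat_lit 0) [] (nat_lit 0) [] false,
   Spec.mk (nat_lit 30936) (nat_lit 0) [] (nat_lit 0) [] false,
   Spec.mk (nat_lit 30950) (nat_lit 0) [] (nat_lit 0) [] false,
   Spec.mk (nat_lit 30956) (nat_lit 0) [] (nat_lit 0) [] false,
   Spec.mk (nat_lit 30958) (nat_lit 0) [] (nat_lit 0) [] false,
   Spec.mk (nat_lit 30962) (nat_lit 0) [] (nat_lit 0) [] false,
   Spec.mk (nat_lit 30964) (nat_lit 0) [] (nat_lit 0) [] false,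
   Spec.mk (nat_lit 30966) (nat_lit 0) [] (nat_lit 0) [] false]

noncomputable def cd79 : List Spec :=
  [Spec.mk (nat_lit 30974) (nat_lit 0) [] (nat_lit 0) [] false,
   Spec.mk (nat_lit 30976) (nat_lit 0) [] (nat_lit 0) [] false,
   Spec.mk (nat_lit 30980) (nat_lit 0) [] (nat_lit 0) [] false,
   Spec.mk (nat_lit 30982) (nat_lit 0) [] (nat_lit 0) [] false,
   Spec.mk (nat_lit 30984) (nat_lit 0) [] (nat_lit 0) [] false,
   Spec.mk (nat_lit 30988) (nat_lit 0) [] (nat_lit 0) [] false,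
   Spec.mk (nat_lit 30990) (nat_lit 0) [] (nat_lit 0) [] false,
   Spec.mk (nat_lit 30998) (nat_lit 0) [] (nat_lit 0) [] false,
   Spec.mk (nat_lit 31000) (nat_lit 0) [] (nat_lit 0) [] false,
   Spec.mk (nat_lit 31002) (nat_lit 0) [] (nat_lit 0) [] false,
   Spec.mk (nat_lit 31006) (nat_lit 0) [] (nat_lit 0) [] false,
   Spec.mk (nat_lit 31008) (nat_lit 0) [] (nat_lit 0) [] false,
   Spec.mk (nat_lit 31014) (nat_lit 0) [] (nat_lit 0) [] false,
   Spec.mk (nat_lit 31028) (nat_lit 0) [] (nat_lit 0) [] false,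
   Spec.mk (nat_lit 31030) (nat_lit 0) [] (nat_lit 0) [] false,
   Spec.mk (nat_lit 31034) (nat_lit 0) [] (nat_lit 0) [] false,
   Spec.mk (nat_lit 31036) (nat_lit 0) [] (nat_lit 0) [] false,
   Spec.mk (nat_lit 31038) (nat_lit 0) [] (nat_lit 0) [] false,
   Spec.mk (nat_lit 31042) (nat_lit 0) [] (nat_lit 0) [] false,
   Spec.mk (nat_lit 31044) (nat_lit 0) [] (nat_lit 0) [] false,
   Spec.mk (nat_lit 31052) (nat_lit 0) [] (nat_lit 0) [] false,
   Spec.mk (nat_lit 31054) (nat_lit 0) [] (nat_lit 0) [] false,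
   Spec.mk (nat_lit 31056) (nat_lit 0) [] (nat_lit 0) [] false,
   Spec.mk (nat_lit 31060) (nat_lit 0) [] (nat_lit 0) [] false,
   Spec.mk (nat_lit 31062) (nat_lit 0) [] (nat_lit 0) [] false,
   Spec.mk (nat_lit 31068) (nat_lit 0) [] (nat_lit 0) [] false,
   Spec.mk (nat_lit 31078) (nat_lit 0) [] (nat_lit 0) [] false,
   Spec.mk (nat_lit 31080) (nat_lit 0) [] (nat_lit 0) [] false,
   Spec.mk (nat_lit 31086) (nat_lit 0) [] (nat_lit 0) [] false,
   Spec.mk (nat_lit 31112) (nat_lit 0) [] (nat_lit 0) [] false,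
   Spec.mk (nat_lit 31118) (nat_lit 0) [] (nat_lit 0) [] false,
   Spec.mk (nat_lit 31120) (nat_lit 0) [] (nat_lit 0) [] false,
   Spec.mk (nat_lit 31124) (nat_lit 0) [] (nat_lit 0) [] false,
   Spec.mk (nat_lit 31126) (nat_lit 0) [] (nat_lit 0) [] false,
   Spec.mk (nat_lit 31128) (nat_lit 0) [] (nat_lit 0) [] false,
   Spec.mk (nat_lit 31136) (nat_lit 0) [] (nat_lit 0) [] false,
   Spec.mk (nat_lit 31138) (nat_lit 0) [] (nat_lit 0) [] false,
   Spec.mk (nat_lit 31142) (nat_lit 0) [] (nat_lit 0) [] false,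
   Spec.mk (nat_lit 31144) (nat_lit 0) [] (nat_lit 0) [] false,
   Spec.mk (nat_lit 31146) (nat_lit 0) [] (nat_lit 0) [] false,
   Spec.mk (nat_lit 31150) (nat_lit 0) [] (nat_lit 0) [] false,
   Spec.mk (nat_lit 31152) (nat_lit 0) [] (nat_lit 0) [] false,
   Spec.mk (nat_lit 31160) (nat_lit 0) [] (nat_lit 0) [] false,
   Spec.mk (nat_lit 31162) (nat_lit 0) [] (nat_lit 0) [] false,
   Spec.mk (nat_lit 31164) (nat_lit 0) [] (nat_lit 0) [] false,
   Spec.mk (nat_lit 31168) (nat_lit 0) [] (nat_lit 0) [] false,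
   Spec.mk (nat_lit 31170) (nat_lit 0) [] (nat_lit 0) [] false,
   Spec.mk (nat_lit 31176) (nat_lit 0) [] (nat_lit 0) [] false,
   Spec.mk (nat_lit 31190) (nat_lit 0) [] (nat_lit 0) [] false,
   Spec.mk (nat_lit 31192) (nat_lit 0) [] (nat_lit 0) [] false,
   Spec.mk (nat_lit 31196) (nat_lit 0) [] (nat_lit 0) [] false,
   Spec.mk (nat_lit 31198) (nat_lit 0) [] (nat_lit 0) [] false,
   Spec.mk (nat_lit 31200) (nat_lit 0) [] (nat_lit 0) [] false,
   Spec.mk (nat_lit 31204) (nat_lit 0) [] (nat_lit 0) [] false,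
   Spec.mk (nat_lit 31206) (nat_lit 0) [] (nat_lit 0) [] false,
   Spec.mk (nat_lit 31214) (nat_lit 0) [] (nat_lit 0) [] false,
   Spec.mk (nat_lit 31216) (nat_lit 0) [] (nat_lit 0) [] false,
   Spec.mk (nat_lit 31218) (nat_lit 0) [] (nat_lit 0) [] false,
   Spec.mk (nat_lit 31222) (nat_lit 0) [] (nat_lit 0) [] false,
   Spec.mk (nat_lit 31224) (nat_lit 0) [] (nat_lit 0) [] false]

noncomputable def cd80 : List Spec :=
  [Spec.mk (nat_lit 31230) (nat_lit 0) [] (nat_lit 0) [] false,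
   Spec.mk (nat_lit 31240) (nat_lit 0) [] (nat_lit 0) [] false,
   Spec.mk (nat_lit 31242) (nat_lit 0) [] (nat_lit 0) [] false,
   Spec.mk (nat_lit 31248) (nat_lit 0) [] (nat_lit 0) [] false,
   Spec.mk (nat_lit 31268) (nat_lit 0) [] (nat_lit 0) [] false,
   Spec.mk (nat_lit 31270) (nat_lit 0) [] (nat_lit 0) [] false,
   Spec.mk (nat_lit 31272) (nat_lit 0) [] (nat_lit 0) [] false,
   Spec.mk (nat_lit 31276) (nat_lit 0) [] (nat_lit 0) [] false,
   Spec.mk (nat_lit 31278) (nat_lit 0) [] (nat_lit 0) [] false,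
   Spec.mk (nat_lit 31284) (nat_lit 0) [] (nat_lit 0) [] false,
   Spec.mk (nat_lit 31294) (nat_lit 0) [] (nat_lit 0) [] false,
   Spec.mk (nat_lit 31296) (nat_lit 0) [] (nat_lit 0) [] false,
   Spec.mk (nat_lit 31302) (nat_lit 0) [] (nat_lit 0) [] false,
   Spec.mk (nat_lit 31320) (nat_lit 0) [] (nat_lit 0) [] false,
   Spec.mk (nat_lit 31364) (nat_lit 0) [] (nat_lit 0) [] false,
   Spec.mk (nat_lit 31370) (nat_lit 0) [] (nat_lit 0) [] false,
   Spec.mk (nat_lit 31372) (nat_lit 0) [] (nat_lit 0) [] false,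
   Spec.mk (nat_lit 31382) (nat_lit 0) [] (nat_lit 0) [] false,
   Spec.mk (nat_lit 31388) (nat_lit 0) [] (nat_lit 0) [] false,
   Spec.mk (nat_lit 31390) (nat_lit 0) [] (nat_lit 0) [] false,
   Spec.mk (nat_lit 31394) (nat_lit 0) [] (nat_lit 0) [] false,
   Spec.mk (nat_lit 31396) (nat_lit 0) [] (nat_lit 0) [] false,
   Spec.mk (nat_lit 31398) (nat_lit 0) [] (nat_lit 0) [] false,
   Spec.mk (nat_lit 31406) (nat_lit 0) [] (nat_lit 0) [] false,
   Spec.mk (nat_lit 31408) (nat_lit 0) [] (nat_lit 0) [] false,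
   Spec.mk (nat_lit 31412) (nat_lit 0) [] (nat_lit 0) [] false,
   Spec.mk (nat_lit 31414) (nat_lit 0) [] (nat_lit 0) [] false,
   Spec.mk (nat_lit 31416) (nat_lit 0) [] (nat_lit 0) [] false,
   Spec.mk (nat_lit 31420) (nat_lit 0) [] (nat_lit 0) [] false,
   Spec.mk (nat_lit 31422) (nat_lit 0) [] (nat_lit 0) [] false,
   Spec.mk (nat_lit 31436) (nat_lit 0) [] (nat_lit 0) [] false,
   Spec.mk (nat_lit 31442) (nat_lit 0) [] (nat_lit 0) [] false,
   Spec.mk (nat_lit 31444) (nat_lit 0) [] (nat_lit 0) [] false,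
   Spec.mk (nat_lit 31448) (nat_lit 0) [] (nat_lit 0) [] false,
   Spec.mk (nat_lit 31450) (nat_lit 0) [] (nat_lit 0) [] false,
   Spec.mk (nat_lit 31452) (nat_lit 0) [] (nat_lit 0) [] false,
   Spec.mk (nat_lit 31460) (nat_lit 0) [] (nat_lit 0) [] false,
   Spec.mk (nat_lit 31462) (nat_lit 0) [] (nat_lit 0) [] false,
   Spec.mk (nat_lit 31466) (nat_lit 0) [] (nat_lit 0) [] false,
   Spec.mk (nat_lit 31468) (nat_lit 0) [] (nat_lit 0) [] false,
   Spec.mk (nat_lit 31470) (nat_lit 0) [] (nat_lit 0) [] false,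
   Spec.mk (nat_lit 31474) (nat_lit 0) [] (nat_lit 0) [] false,
   Spec.mk (nat_lit 31476) (nat_lit 0) [] (nat_lit 0) [] false,
   Spec.mk (nat_lit 31484) (nat_lit 0) [] (nat_lit 0) [] false,
   Spec.mk (nat_lit 31486) (nat_lit 0) [] (nat_lit 0) [] false,
   Spec.mk (nat_lit 31488) (nat_lit 0) [] (nat_lit 0) [] false,
   Spec.mk (nat_lit 31492) (nat_lit 0) [] (nat_lit 0) [] false,
   Spec.mk (nat_lit 31494) (nat_lit 0) [] (nat_lit 0) [] false,
   Spec.mk (nat_lit 31500) (nat_lit 0) [] (nat_lit 0) [] false,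
   Spec.mk (nat_lit 31514) (nat_lit 0) [] (nat_lit 0) [] false,
   Spec.mk (nat_lit 31516) (nat_lit 0) [] (nat_lit 0) [] false,
   Spec.mk (nat_lit 31520) (nat_lit 0) [] (nat_lit 0) [] false,
   Spec.mk (nat_lit 31522) (nat_lit 0) [] (nat_lit 0) [] false,
   Spec.mk (nat_lit 31524) (nat_lit 0) [] (nat_lit 0) [] false,
   Spec.mk (nat_lit 31528) (nat_lit 0) [] (nat_lit 0) [] false,
   Spec.mk (nat_lit 31530) (nat_lit 0) [] (nat_lit 0) [] false,
   Spec.mk (nat_lit 31538) (nat_lit 0) [] (nat_lit 0) [] false,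
   Spec.mk (nat_lit 31540) (nat_lit 0) [] (nat_lit 0) [] false,
   Spec.mk (nat_lit 31542) (nat_lit 0) [] (nat_lit 0) [] false,
   Spec.mk (nat_lit 31546) (nat_lit 0) [] (nat_lit 0) [] false]

noncomputable def cd81 : List Spec :=
  [Spec.mk (nat_lit 31548) (nat_lit 0) [] (nat_lit 0) [] false,
   Spec.mk (nat_lit 31554) (nat_lit 0) [] (nat_lit 0) [] false,
   Spec.mk (nat_lit 31564) (nat_lit 0) [] (nat_lit 0) [] false,
   Spec.mk (nat_lit 31566) (nat_lit 0) [] (nat_lit 0) [] false,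
   Spec.mk (nat_lit 31572) (nat_lit 0) [] (nat_lit 0) [] false,
   Spec.mk (nat_lit 31598) (nat_lit 0) [] (nat_lit 0) [] false,
   Spec.mk (nat_lit 31604) (nat_lit 0) [] (nat_lit 0) [] false,
   Spec.mk (nat_lit 31606) (nat_lit 0) [] (nat_lit 0) [] false,
   Spec.mk (nat_lit 31610) (nat_lit 0) [] (nat_lit 0) [] false,
   Spec.mk (nat_lit 31612) (nat_lit 0) [] (nat_lit 0) [] false,
   Spec.mk (nat_lit 31614) (nat_lit 0) [] (nat_lit 0) [] false,
   Spec.mk (nat_lit 31622) (nat_lit 0) [] (nat_lit 0) [] false,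
   Spec.mk (nat_lit 31624) (nat_lit 0) [] (nat_lit 0) [] false,
   Spec.mk (nat_lit 31628) (nat_lit 0) [] (nat_lit 0) [] false,
   Spec.mk (nat_lit 31630) (nat_lit 0) [] (nat_lit 0) [] false,
   Spec.mk (nat_lit 31632) (nat_lit 0) [] (nat_lit 0) [] false,
   Spec.mk (nat_lit 31636) (nat_lit 0) [] (nat_lit 0) [] false,
   Spec.mk (nat_lit 31638) (nat_lit 0) [] (nat_lit 0) [] false,
   Spec.mk (nat_lit 31646) (nat_lit 0) [] (nat_lit 0) [] false,
   Spec.mk (nat_lit 31648) (nat_lit 0) [] (nat_lit 0) [] false,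
   Spec.mk (nat_lit 31650) (nat_lit 0) [] (nat_lit 0) [] false,
   Spec.mk (nat_lit 31654) (nat_lit 0) [] (nat_lit 0) [] false,
   Spec.mk (nat_lit 31656) (nat_lit 0) [] (nat_lit 0) [] false,
   Spec.mk (nat_lit 31662) (nat_lit 0) [] (nat_lit 0) [] false,
   Spec.mk (nat_lit 31676) (nat_lit 0) [] (nat_lit 0) [] false,
   Spec.mk (nat_lit 31678) (nat_lit 0) [] (nat_lit 0) [] false,
   Spec.mk (nat_lit 31682) (nat_lit 0) [] (nat_lit 0) [] false,
   Spec.mk (nat_lit 31684) (nat_lit 0) [] (nat_lit 0) [] false,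
   Spec.mk (nat_lit 31686) (nat_lit 0) [] (nat_lit 0) [] false,
   Spec.mk (nat_lit 31690) (nat_lit 0) [] (nat_lit 0) [] false,
   Spec.mk (nat_lit 31692) (nat_lit 0) [] (nat_lit 0) [] false,
   Spec.mk (nat_lit 31700) (nat_lit 0) [] (nat_lit 0) [] false,
   Spec.mk (nat_lit 31702) (nat_lit 0) [] (nat_lit 0) [] false,
   Spec.mk (nat_lit 31704) (nat_lit 0) [] (nat_lit 0) [] false,
   Spec.mk (nat_lit 31708) (nat_lit 0) [] (nat_lit 0) [] false,
   Spec.mk (nat_lit 31710) (nat_lit 0) [] (nat_lit 0) [] false,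
   Spec.mk (nat_lit 31716) (nat_lit 0) [] (nat_lit 0) [] false,
   Spec.mk (nat_lit 31726) (nat_lit 0) [] (nat_lit 0) [] false,
   Spec.mk (nat_lit 31728) (nat_lit 0) [] (nat_lit 0) [] false,
   Spec.mk (nat_lit 31734) (nat_lit 0) [] (nat_lit 0) [] false,
   Spec.mk (nat_lit 31754) (nat_lit 0) [] (nat_lit 0) [] false,
   Spec.mk (nat_lit 31756) (nat_lit 0) [] (nat_lit 0) [] false,
   Spec.mk (nat_lit 31758) (nat_lit 0) [] (nat_lit 0) [] false,
   Spec.mk (nat_lit 31762) (nat_lit 0) [] (nat_lit 0) [] false,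
   Spec.mk (nat_lit 31764) (nat_lit 0) [] (nat_lit 0) [] false,
   Spec.mk (nat_lit 31770) (nat_lit 0) [] (nat_lit 0) [] false,
   Spec.mk (nat_lit 31780) (nat_lit 0) [] (nat_lit 0) [] false,
   Spec.mk (nat_lit 31782) (nat_lit 0) [] (nat_lit 0) [] false,
   Spec.mk (nat_lit 31788) (nat_lit 0) [] (nat_lit 0) [] false,
   Spec.mk (nat_lit 31806) (nat_lit 0) [] (nat_lit 0) [] false,
   Spec.mk (nat_lit 31838) (nat_lit 0) [] (nat_lit 0) [] false,
   Spec.mk (nat_lit 31840) (nat_lit 0) [] (nat_lit 0) [] false,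
   Spec.mk (nat_lit 31844) (nat_lit 0) [] (nat_lit 0) [] false,
   Spec.mk (nat_lit 31846) (nat_lit 0) [] (nat_lit 0) [] false,
   Spec.mk (nat_lit 31848) (nat_lit 0) [] (nat_lit 0) [] false,
   Spec.mk (nat_lit 31852) (nat_lit 0) [] (nat_lit 0) [] false,
   Spec.mk (nat_lit 31854) (nat_lit 0) [] (nat_lit 0) [] false,
   Spec.mk (nat_lit 31862) (nat_lit 0) [] (nat_lit 0) [] false,
   Spec.mk (nat_lit 31864) (nat_lit 0) [] (nat_lit 0) [] false,
   Spec.mk (nat_lit 31866) (nat_lit 0) [] (nat_lit 0) [] false]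

noncomputable def cd82 : List Spec :=
  [Spec.mk (nat_lit 31870) (nat_lit 0) [] (nat_lit 0) [] false,
   Spec.mk (nat_lit 31872) (nat_lit 0) [] (nat_lit 0) [] false,
   Spec.mk (nat_lit 31878) (nat_lit 0) [] (nat_lit 0) [] false,
   Spec.mk (nat_lit 31888) (nat_lit 0) [] (nat_lit 0) [] false,
   Spec.mk (nat_lit 31890) (nat_lit 0) [] (nat_lit 0) [] false,
   Spec.mk (nat_lit 31896) (nat_lit 0) [] (nat_lit 0) [] false,
   Spec.mk (nat_lit 31916) (nat_lit 0) [] (nat_lit 0) [] false,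
   Spec.mk (nat_lit 31918) (nat_lit 0) [] (nat_lit 0) [] false,
   Spec.mk (nat_lit 31920) (nat_lit 0) [] (nat_lit 0) [] false,
   Spec.mk (nat_lit 31924) (nat_lit 0) [] (nat_lit 0) [] false,
   Spec.mk (nat_lit 31926) (nat_lit 0) [] (nat_lit 0) [] false,
   Spec.mk (nat_lit 31932) (nat_lit 0) [] (nat_lit 0) [] false,
   Spec.mk (nat_lit 31942) (nat_lit 0) [] (nat_lit 0) [] false,
   Spec.mk (nat_lit 31944) (nat_lit 0) [] (nat_lit 0) [] false,
   Spec.mk (nat_lit 31950) (nat_lit 0) [] (nat_lit 0) [] false,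
   Spec.mk (nat_lit 31968) (nat_lit 0) [] (nat_lit 0) [] false,
   Spec.mk (nat_lit 31996) (nat_lit 0) [] (nat_lit 0) [] false,
   Spec.mk (nat_lit 31998) (nat_lit 0) [] (nat_lit 0) [] false,
   Spec.mk (nat_lit 32004) (nat_lit 0) [] (nat_lit 0) [] false,
   Spec.mk (nat_lit 32022) (nat_lit 0) [] (nat_lit 0) [] false,
   Spec.mk (nat_lit 32084) (nat_lit 0) [] (nat_lit 0) [] false,
   Spec.mk (nat_lit 32090) (nat_lit 0) [] (nat_lit 0) [] false,
   Spec.mk (nat_lit 32092) (nat_lit 0) [] (nat_lit 0) [] false,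
   Spec.mk (nat_lit 32096) (nat_lit 0) [] (nat_lit 0) [] false,
   Spec.mk (nat_lit 32098) (nat_lit 0) [] (nat_lit 0) [] false,
   Spec.mk (nat_lit 32100) (nat_lit 0) [] (nat_lit 0) [] false,
   Spec.mk (nat_lit 32108) (nat_lit 0) [] (nat_lit 0) [] false,
   Spec.mk (nat_lit 32110) (nat_lit 0) [] (nat_lit 0) [] false,
   Spec.mk (nat_lit 32114) (nat_lit 0) [] (nat_lit 0) [] false,
   Spec.mk (nat_lit 32116) (nat_lit 0) [] (nat_lit 0) [] false,
   Spec.mk (nat_lit 32118) (nat_lit 0) [] (nat_lit 0) [] false,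
   Spec.mk (nat_lit 32122) (nat_lit 0) [] (nat_lit 0) [] false,
   Spec.mk (nat_lit 32124) (nat_lit 0) [] (nat_lit 0) [] false,
   Spec.mk (nat_lit 32132) (nat_lit 0) [] (nat_lit 0) [] false,
   Spec.mk (nat_lit 32134) (nat_lit 0) [] (nat_lit 0) [] false,
   Spec.mk (nat_lit 32136) (nat_lit 0) [] (nat_lit 0) [] false,
   Spec.mk (nat_lit 32140) (nat_lit 0) [] (nat_lit 0) [] false,
   Spec.mk (nat_lit 32142) (nat_lit 0) [] (nat_lit 0) [] false,
   Spec.mk (nat_lit 32148) (nat_lit 0) [] (nat_lit 0) [] false,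
   Spec.mk (nat_lit 32162) (nat_lit 0) [] (nat_lit 0) [] false,
   Spec.mk (nat_lit 32164) (nat_lit 0) [] (nat_lit 0) [] false,
   Spec.mk (nat_lit 32168) (nat_lit 0) [] (nat_lit 0) [] false,
   Spec.mk (nat_lit 32170) (nat_lit 0) [] (nat_lit 0) [] false,
   Spec.mk (nat_lit 32172) (nat_lit 0) [] (nat_lit 0) [] false,
   Spec.mk (nat_lit 32176) (nat_lit 0) [] (nat_lit 0) [] false,
   Spec.mk (nat_lit 32178) (nat_lit 0) [] (nat_lit 0) [] false,
   Spec.mk (nat_lit 32186) (nat_lit 0) [] (nat_lit 0) [] false,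
   Spec.mk (nat_lit 32188) (nat_lit 0) [] (nat_lit 0) [] false,
   Spec.mk (nat_lit 32190) (nat_lit 0) [] (nat_lit 0) [] false,
   Spec.mk (nat_lit 32194) (nat_lit 0) [] (nat_lit 0) [] false,
   Spec.mk (nat_lit 32196) (nat_lit 0) [] (nat_lit 0) [] false,
   Spec.mk (nat_lit 32202) (nat_lit 0) [] (nat_lit 0) [] false,
   Spec.mk (nat_lit 32212) (nat_lit 0) [] (nat_lit 0) [] false,
   Spec.mk (nat_lit 32214) (nat_lit 0) [] (nat_lit 0) [] false,
   Spec.mk (nat_lit 32220) (nat_lit 0) [] (nat_lit 0) [] false,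
   Spec.mk (nat_lit 32240) (nat_lit 0) [] (nat_lit 0) [] false,
   Spec.mk (nat_lit 32242) (nat_lit 0) [] (nat_lit 0) [] false,
   Spec.mk (nat_lit 32244) (nat_lit 0) [] (nat_lit 0) [] false,
   Spec.mk (nat_lit 32248) (nat_lit 0) [] (nat_lit 0) [] false,
   Spec.mk (nat_lit 32250) (nat_lit 0) [] (nat_lit 0) [] false]

noncomputable def cd83 : List Spec :=
  [Spec.mk (nat_lit 32256) (nat_lit 0) [] (nat_lit 0) [] false,
   Spec.mk (nat_lit 32266) (nat_lit 0) [] (nat_lit 0) [] false,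
   Spec.mk (nat_lit 32268) (nat_lit 0) [] (nat_lit 0) [] false,
   Spec.mk (nat_lit 32274) (nat_lit 0) [] (nat_lit 0) [] false,
   Spec.mk (nat_lit 32292) (nat_lit 0) [] (nat_lit 0) [] false,
   Spec.mk (nat_lit 32324) (nat_lit 0) [] (nat_lit 0) [] false,
   Spec.mk (nat_lit 32326) (nat_lit 0) [] (nat_lit 0) [] false,
   Spec.mk (nat_lit 32330) (nat_lit 0) [] (nat_lit 0) [] false,
   Spec.mk (nat_lit 32332) (nat_lit 0) [] (nat_lit 0) [] false,
   Spec.mk (nat_lit 32334) (nat_lit 0) [] (nat_lit 0) [] false,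
   Spec.mk (nat_lit 32338) (nat_lit 0) [] (nat_lit 0) [] false,
   Spec.mk (nat_lit 32340) (nat_lit 0) [] (nat_lit 0) [] false,
   Spec.mk (nat_lit 32348) (nat_lit 0) [] (nat_lit 0) [] false,
   Spec.mk (nat_lit 32350) (nat_lit 0) [] (nat_lit 0) [] false,
   Spec.mk (nat_lit 32352) (nat_lit 0) [] (nat_lit 0) [] false,
   Spec.mk (nat_lit 32356) (nat_lit 0) [] (nat_lit 0) [] false,
   Spec.mk (nat_lit 32358) (nat_lit 0) [] (nat_lit 0) [] false,
   Spec.mk (nat_lit 32364) (nat_lit 0) [] (nat_lit 0) [] false,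
   Spec.mk (nat_lit 32374) (nat_lit 0) [] (nat_lit 0) [] false,
   Spec.mk (nat_lit 32376) (nat_lit 0) [] (nat_lit 0) [] false,
   Spec.mk (nat_lit 32382) (nat_lit 0) [] (nat_lit 0) [] false,
   Spec.mk (nat_lit 32402) (nat_lit 0) [] (nat_lit 0) [] false,
   Spec.mk (nat_lit 32404) (nat_lit 0) [] (nat_lit 0) [] false,
   Spec.mk (nat_lit 32406) (nat_lit 0) [] (nat_lit 0) [] false,
   Spec.mk (nat_lit 32410) (nat_lit 0) [] (nat_lit 0) [] false,
   Spec.mk (nat_lit 32412) (nat_lit 0) [] (nat_lit 0) [] false,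
   Spec.mk (nat_lit 32418) (nat_lit 0) [] (nat_lit 0) [] false,
   Spec.mk (nat_lit 32428) (nat_lit 0) [] (nat_lit 0) [] false,
   Spec.mk (nat_lit 32430) (nat_lit 0) [] (nat_lit 0) [] false,
   Spec.mk (nat_lit 32436) (nat_lit 0) [] (nat_lit 0) [] false,
   Spec.mk (nat_lit 32454) (nat_lit 0) [] (nat_lit 0) [] false,
   Spec.mk (nat_lit 32482) (nat_lit 0) [] (nat_lit 0) [] false,
   Spec.mk (nat_lit 32484) (nat_lit 0) [] (nat_lit 0) [] false,
   Spec.mk (nat_lit 32490) (nat_lit 0) [] (nat_lit 0) [] false,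
   Spec.mk (nat_lit 32508) (nat_lit 0) [] (nat_lit 0) [] false,
   Spec.mk (nat_lit 32564) (nat_lit 0) [] (nat_lit 0) [] false,
   Spec.mk (nat_lit 32566) (nat_lit 0) [] (nat_lit 0) [] false,
   Spec.mk (nat_lit 32568) (nat_lit 0) [] (nat_lit 0) [] false,
   Spec.mk (nat_lit 32572) (nat_lit 0) [] (nat_lit 0) [] false,
   Spec.mk (nat_lit 32574) (nat_lit 0) [] (nat_lit 0) [] false,
   Spec.mk (nat_lit 32580) (nat_lit 0) [] (nat_lit 0) [] false,
   Spec.mk (nat_lit 32590) (nat_lit 0) [] (nat_lit 0) [] false,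
   Spec.mk (nat_lit 32592) (nat_lit 0) [] (nat_lit 0) [] false,
   Spec.mk (nat_lit 32598) (nat_lit 0) [] (nat_lit 0) [] false,
   Spec.mk (nat_lit 32616) (nat_lit 0) [] (nat_lit 0) [] false,
   Spec.mk (nat_lit 32644) (nat_lit 0) [] (nat_lit 0) [] false,
   Spec.mk (nat_lit 32646) (nat_lit 0) [] (nat_lit 0) [] false,
   Spec.mk (nat_lit 32652) (nat_lit 0) [] (nat_lit 0) [] false,
   Spec.mk (nat_lit 32670) (nat_lit 0) [] (nat_lit 0) [] false,
   Spec.mk (nat_lit 32724) (nat_lit 0) [] (nat_lit 0) [] false,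
   Spec.mk (nat_lit 32858) (nat_lit 0) [] (nat_lit 0) [] false,
   Spec.mk (nat_lit 32876) (nat_lit 0) [] (nat_lit 0) [] false,
   Spec.mk (nat_lit 32882) (nat_lit 0) [] (nat_lit 0) [] false,
   Spec.mk (nat_lit 32884) (nat_lit 0) [] (nat_lit 0) [] false,
   Spec.mk (nat_lit 32912) (nat_lit 0) [] (nat_lit 0) [] false,
   Spec.mk (nat_lit 32930) (nat_lit 0) [] (nat_lit 0) [] false,
   Spec.mk (nat_lit 32936) (nat_lit 0) [] (nat_lit 0) [] false,
   Spec.mk (nat_lit 32938) (nat_lit 0) [] (nat_lit 0) [] false,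
   Spec.mk (nat_lit 32948) (nat_lit 0) [] (nat_lit 0) [] false,
   Spec.mk (nat_lit 32954) (nat_lit 0) [] (nat_lit 0) [] false]

noncomputable def cd84 : List Spec :=
  [Spec.mk (nat_lit 32956) (nat_lit 0) [] (nat_lit 0) [] false,
   Spec.mk (nat_lit 32960) (nat_lit 0) [] (nat_lit 0) [] false,
   Spec.mk (nat_lit 32962) (nat_lit 0) [] (nat_lit 0) [] false,
   Spec.mk (nat_lit 32964) (nat_lit 0) [] (nat_lit 0) [] false,
   Spec.mk (nat_lit 32984) (nat_lit 0) [] (nat_lit 0) [] false,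
   Spec.mk (nat_lit 32990) (nat_lit 0) [] (nat_lit 0) [] false,
   Spec.mk (nat_lit 32992) (nat_lit 0) [] (nat_lit 0) [] false,
   Spec.mk (nat_lit 33002) (nat_lit 0) [] (nat_lit 0) [] false,
   Spec.mk (nat_lit 33008) (nat_lit 0) [] (nat_lit 0) [] false,
   Spec.mk (nat_lit 33010) (nat_lit 0) [] (nat_lit 0) [] false,
   Spec.mk (nat_lit 33014) (nat_lit 0) [] (nat_lit 0) [] false,
   Spec.mk (nat_lit 33016) (nat_lit 0) [] (nat_lit 0) [] false,
   Spec.mk (nat_lit 33018) (nat_lit 0) [] (nat_lit 0) [] false,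
   Spec.mk (nat_lit 33026) (nat_lit 0) [] (nat_lit 0) [] false,
   Spec.mk (nat_lit 33028) (nat_lit 0) [] (nat_lit 0) [] false,
   Spec.mk (nat_lit 33032) (nat_lit 0) [] (nat_lit 0) [] false,
   Spec.mk (nat_lit 33034) (nat_lit 0) [] (nat_lit 0) [] false,
   Spec.mk (nat_lit 33036) (nat_lit 0) [] (nat_lit 0) [] false,
   Spec.mk (nat_lit 33040) (nat_lit 0) [] (nat_lit 0) [] false,
   Spec.mk (nat_lit 33042) (nat_lit 0) [] (nat_lit 0) [] false,
   Spec.mk (nat_lit 33074) (nat_lit 0) [] (nat_lit 0) [] false,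
   Spec.mk (nat_lit 33092) (nat_lit 0) [] (nat_lit 0) [] false,
   Spec.mk (nat_lit 33098) (nat_lit 0) [] (nat_lit 0) [] false,
   Spec.mk (nat_lit 33100) (nat_lit 0) [] (nat_lit 0) [] false,
   Spec.mk (nat_lit 33110) (nat_lit 0) [] (nat_lit 0) [] false,
   Spec.mk (nat_lit 33116) (nat_lit 0) [] (nat_lit 0) [] false,
   Spec.mk (nat_lit 33118) (nat_lit 0) [] (nat_lit 0) [] false,
   Spec.mk (nat_lit 33122) (nat_lit 0) [] (nat_lit 0) [] false,
   Spec.mk (nat_lit 33124) (nat_lit 0) [] (nat_lit 0) [] false,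
   Spec.mk (nat_lit 33126) (nat_lit 0) [] (nat_lit 0) [] false,
   Spec.mk (nat_lit 33146) (nat_lit 0) [] (nat_lit 0) [] false,
   Spec.mk (nat_lit 33152) (nat_lit 0) [] (nat_lit 0) [] false,
   Spec.mk (nat_lit 33154) (nat_lit 0) [] (nat_lit 0) [] false,
   Spec.mk (nat_lit 33164) (nat_lit 0) [] (nat_lit 0) [] false,
   Spec.mk (nat_lit 33170) (nat_lit 0) [] (nat_lit 0) [] false,
   Spec.mk (nat_lit 33172) (nat_lit 0) [] (nat_lit 0) [] false,
   Spec.mk (nat_lit 33176) (nat_lit 0) [] (nat_lit 0) [] false,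
   Spec.mk (nat_lit 33178) (nat_lit 0) [] (nat_lit 0) [] false,
   Spec.mk (nat_lit 33180) (nat_lit 0) [] (nat_lit 0) [] false,
   Spec.mk (nat_lit 33188) (nat_lit 0) [] (nat_lit 0) [] false,
   Spec.mk (nat_lit 33190) (nat_lit 0) [] (nat_lit 0) [] false,
   Spec.mk (nat_lit 33194) (nat_lit 0) [] (nat_lit 0) [] false,
   Spec.mk (nat_lit 33196) (nat_lit 0) [] (nat_lit 0) [] false,
   Spec.mk (nat_lit 33198) (nat_lit 0) [] (nat_lit 0) [] false,
   Spec.mk (nat_lit 33202) (nat_lit 0) [] (nat_lit 0) [] false,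
   Spec.mk (nat_lit 33204) (nat_lit 0) [] (nat_lit 0) [] false,
   Spec.mk (nat_lit 33218) (nat_lit 0) [] (nat_lit 0) [] false,
   Spec.mk (nat_lit 33224) (nat_lit 0) [] (nat_lit 0) [] false,
   Spec.mk (nat_lit 33226) (nat_lit 0) [] (nat_lit 0) [] false,
   Spec.mk (nat_lit 33230) (nat_lit 0) [] (nat_lit 0) [] false,
   Spec.mk (nat_lit 33232) (nat_lit 0) [] (nat_lit 0) [] false,
   Spec.mk (nat_lit 33234) (nat_lit 0) [] (nat_lit 0) [] false,
   Spec.mk (nat_lit 33242) (nat_lit 0) [] (nat_lit 0) [] false,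
   Spec.mk (nat_lit 33244) (nat_lit 0) [] (nat_lit 0) [] false,
   Spec.mk (nat_lit 33248) (nat_lit 0) [] (nat_lit 0) [] false,
   Spec.mk (nat_lit 33250) (nat_lit 0) [] (nat_lit 0) [] false,
   Spec.mk (nat_lit 33252) (nat_lit 0) [] (nat_lit 0) [] false,
   Spec.mk (nat_lit 33256) (nat_lit 0) [] (nat_lit 0) [] false,
   Spec.mk (nat_lit 33258) (nat_lit 0) [] (nat_lit 0) [] false,
   Spec.mk (nat_lit 33266) (nat_lit 0) [] (nat_lit 0) [] false]

noncomputable def cd85 : List Spec :=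
  [Spec.mk (nat_lit 33268) (nat_lit 0) [] (nat_lit 0) [] false,
   Spec.mk (nat_lit 33270) (nat_lit 0) [] (nat_lit 0) [] false,
   Spec.mk (nat_lit 33274) (nat_lit 0) [] (nat_lit 0) [] false,
   Spec.mk (nat_lit 33276) (nat_lit 0) [] (nat_lit 0) [] false,
   Spec.mk (nat_lit 33282) (nat_lit 0) [] (nat_lit 0) [] false,
   Spec.mk (nat_lit 33308) (nat_lit 0) [] (nat_lit 0) [] false,
   Spec.mk (nat_lit 33314) (nat_lit 0) [] (nat_lit 0) [] false,
   Spec.mk (nat_lit 33316) (nat_lit 0) [] (nat_lit 0) [] false,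
   Spec.mk (nat_lit 33326) (nat_lit 0) [] (nat_lit 0) [] false,
   Spec.mk (nat_lit 33332) (nat_lit 0) [] (nat_lit 0) [] false,
   Spec.mk (nat_lit 33334) (nat_lit 0) [] (nat_lit 0) [] false,
   Spec.mk (nat_lit 33338) (nat_lit 0) [] (nat_lit 0) [] false,
   Spec.mk (nat_lit 33340) (nat_lit 0) [] (nat_lit 0) [] false,
   Spec.mk (nat_lit 33342) (nat_lit 0) [] (nat_lit 0) [] false,
   Spec.mk (nat_lit 33350) (nat_lit 0) [] (nat_lit 0) [] false,
   Spec.mk (nat_lit 33352) (nat_lit 0) [] (nat_lit 0) [] false,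
   Spec.mk (nat_lit 33356) (nat_lit 0) [] (nat_lit 0) [] false,
   Spec.mk (nat_lit 33358) (nat_lit 0) [] (nat_lit 0) [] false,
   Spec.mk (nat_lit 33360) (nat_lit 0) [] (nat_lit 0) [] false,
   Spec.mk (nat_lit 33364) (nat_lit 0) [] (nat_lit 0) [] false,
   Spec.mk (nat_lit 33366) (nat_lit 0) [] (nat_lit 0) [] false,
   Spec.mk (nat_lit 33380) (nat_lit 0) [] (nat_lit 0) [] false,
   Spec.mk (nat_lit 33386) (nat_lit 0) [] (nat_lit 0) [] false,
   Spec.mk (nat_lit 33388) (nat_lit 0) [] (nat_lit 0) [] false,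
   Spec.mk (nat_lit 33392) (nat_lit 0) [] (nat_lit 0) [] false,
   Spec.mk (nat_lit 33394) (nat_lit 0) [] (nat_lit 0) [] false,
   Spec.mk (nat_lit 33396) (nat_lit 0) [] (nat_lit 0) [] false,
   Spec.mk (nat_lit 33404) (nat_lit 0) [] (nat_lit 0) [] false,
   Spec.mk (nat_lit 33406) (nat_lit 0) [] (nat_lit 0) [] false,
   Spec.mk (nat_lit 33410) (nat_lit 0) [] (nat_lit 0) [] false,
   Spec.mk (nat_lit 33412) (nat_lit 0) [] (nat_lit 0) [] false,
   Spec.mk (nat_lit 33414) (nat_lit 0) [] (nat_lit 0) [] false,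
   Spec.mk (nat_lit 33418) (nat_lit 0) [] (nat_lit 0) [] false,
   Spec.mk (nat_lit 33420) (nat_lit 0) [] (nat_lit 0) [] false,
   Spec.mk (nat_lit 33428) (nat_lit 0) [] (nat_lit 0) [] false,
   Spec.mk (nat_lit 33430) (nat_lit 0) [] (nat_lit 0) [] false,
   Spec.mk (nat_lit 33432) (nat_lit 0) [] (nat_lit 0) [] false,
   Spec.mk (nat_lit 33436) (nat_lit 0) [] (nat_lit 0) [] false,
   Spec.mk (nat_lit 33438) (nat_lit 0) [] (nat_lit 0) [] false,
   Spec.mk (nat_lit 33444) (nat_lit 0) [] (nat_lit 0) [] false,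
   Spec.mk (nat_lit 33458) (nat_lit 0) [] (nat_lit 0) [] false,
   Spec.mk (nat_lit 33460) (nat_lit 0) [] (nat_lit 0) [] false,
   Spec.mk (nat_lit 33464) (nat_lit 0) [] (nat_lit 0) [] false,
   Spec.mk (nat_lit 33466) (nat_lit 0) [] (nat_lit 0) [] false,
   Spec.mk (nat_lit 33468) (nat_lit 0) [] (nat_lit 0) [] false,
   Spec.mk (nat_lit 33472) (nat_lit 0) [] (nat_lit 0) [] false,
   Spec.mk (nat_lit 33474) (nat_lit 0) [] (nat_lit 0) [] false,
   Spec.mk (nat_lit 33482) (nat_lit 0) [] (nat_lit 0) [] false,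
   Spec.mk (nat_lit 33484) (nat_lit 0) [] (nat_lit 0) [] false,
   Spec.mk (nat_lit 33486) (nat_lit 0) [] (nat_lit 0) [] false,
   Spec.mk (nat_lit 33490) (nat_lit 0) [] (nat_lit 0) [] false,
   Spec.mk (nat_lit 33492) (nat_lit 0) [] (nat_lit 0) [] false,
   Spec.mk (nat_lit 33498) (nat_lit 0) [] (nat_lit 0) [] false,
   Spec.mk (nat_lit 33508) (nat_lit 0) [] (nat_lit 0) [] false,
   Spec.mk (nat_lit 33510) (nat_lit 0) [] (nat_lit 0) [] false,
   Spec.mk (nat_lit 33516) (nat_lit 0) [] (nat_lit 0) [] false,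
   Spec.mk (nat_lit 33560) (nat_lit 0) [] (nat_lit 0) [] false,
   Spec.mk (nat_lit 33578) (nat_lit 0) [] (nat_lit 0) [] false,
   Spec.mk (nat_lit 33584) (nat_lit 0) [] (nat_lit 0) [] false,
   Spec.mk (nat_lit 33586) (nat_lit 0) [] (nat_lit 0) [] false]

noncomputable def cd86 : List Spec :=
  [Spec.mk (nat_lit 33596) (nat_lit 0) [] (nat_lit 0) [] false,
   Spec.mk (nat_lit 33602) (nat_lit 0) [] (nat_lit 0) [] false,
   Spec.mk (nat_lit 33604) (nat_lit 0) [] (nat_lit 0) [] false,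
   Spec.mk (nat_lit 33608) (nat_lit 0) [] (nat_lit 0) [] false,
   Spec.mk (nat_lit 33610) (nat_lit 0) [] (nat_lit 0) [] false,
   Spec.mk (nat_lit 33612) (nat_lit 0) [] (nat_lit 0) [] false,
   Spec.mk (nat_lit 33632) (nat_lit 0) [] (nat_lit 0) [] false,
   Spec.mk (nat_lit 33638) (nat_lit 0) [] (nat_lit 0) [] false,
   Spec.mk (nat_lit 33640) (nat_lit 0) [] (nat_lit 0) [] false,
   Spec.mk (nat_lit 33650) (nat_lit 0) [] (nat_lit 0) [] false,
   Spec.mk (nat_lit 33656) (nat_lit 0) [] (nat_lit 0) [] false,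
   Spec.mk (nat_lit 33658) (nat_lit 0) [] (nat_lit 0) [] false,
   Spec.mk (nat_lit 33662) (nat_lit 0) [] (nat_lit 0) [] false,
   Spec.mk (nat_lit 33664) (nat_lit 0) [] (nat_lit 0) [] false,
   Spec.mk (nat_lit 33666) (nat_lit 0) [] (nat_lit 0) [] false,
   Spec.mk (nat_lit 33674) (nat_lit 0) [] (nat_lit 0) [] false,
   Spec.mk (nat_lit 33676) (nat_lit 0) [] (nat_lit 0) [] false,
   Spec.mk (nat_lit 33680) (nat_lit 0) [] (nat_lit 0) [] false,
   Spec.mk (nat_lit 33682) (nat_lit 0) [] (nat_lit 0) [] false,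
   Spec.mk (nat_lit 33684) (nat_lit 0) [] (nat_lit 0) [] false,
   Spec.mk (nat_lit 33688) (nat_lit 0) [] (nat_lit 0) [] false,
   Spec.mk (nat_lit 33690) (nat_lit 0) [] (nat_lit 0) [] false,
   Spec.mk (nat_lit 33704) (nat_lit 0) [] (nat_lit 0) [] false,
   Spec.mk (nat_lit 33710) (nat_lit 0) [] (nat_lit 0) [] false,
   Spec.mk (nat_lit 33712) (nat_lit 0) [] (nat_lit 0) [] false,
   Spec.mk (nat_lit 33716) (nat_lit 0) [] (nat_lit 0) [] false,
   Spec.mk (nat_lit 33718) (nat_lit 0) [] (nat_lit 0) [] false,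
   Spec.mk (nat_lit 33720) (nat_lit 0) [] (nat_lit 0) [] false,
   Spec.mk (nat_lit 33728) (nat_lit 0) [] (nat_lit 0) [] false,
   Spec.mk (nat_lit 33730) (nat_lit 0) [] (nat_lit 0) [] false,
   Spec.mk (nat_lit 33734) (nat_lit 0) [] (nat_lit 0) [] false,
   Spec.mk (nat_lit 33736) (nat_lit 0) [] (nat_lit 0) [] false,
   Spec.mk (nat_lit 33738) (nat_lit 0) [] (nat_lit 0) [] false,
   Spec.mk (nat_lit 33742) (nat_lit 0) [] (nat_lit 0) [] false,
   Spec.mk (nat_lit 33744) (nat_lit 0) [] (nat_lit 0) [] false,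
   Spec.mk (nat_lit 33752) (nat_lit 0) [] (nat_lit 0) [] false,
   Spec.mk (nat_lit 33754) (nat_lit 0) [] (nat_lit 0) [] false,
   Spec.mk (nat_lit 33756) (nat_lit 0) [] (nat_lit 0) [] false,
   Spec.mk (nat_lit 33760) (nat_lit 0) [] (nat_lit 0) [] false,
   Spec.mk (nat_lit 33762) (nat_lit 0) [] (nat_lit 0) [] false,
   Spec.mk (nat_lit 33768) (nat_lit 0) [] (nat_lit 0) [] false,
   Spec.mk (nat_lit 33794) (nat_lit 0) [] (nat_lit 0) [] false,
   Spec.mk (nat_lit 33800) (nat_lit 0) [] (nat_lit 0) [] false,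
   Spec.mk (nat_lit 33802) (nat_lit 0) [] (nat_lit 0) [] false,
   Spec.mk (nat_lit 33812) (nat_lit 0) [] (nat_lit 0) [] false,
   Spec.mk (nat_lit 33818) (nat_lit 0) [] (nat_lit 0) [] false,
   Spec.mk (nat_lit 33820) (nat_lit 0) [] (nat_lit 0) [] false,
   Spec.mk (nat_lit 33824) (nat_lit 0) [] (nat_lit 0) [] false,
   Spec.mk (nat_lit 33826) (nat_lit 0) [] (nat_lit 0) [] false,
   Spec.mk (nat_lit 33828) (nat_lit 0) [] (nat_lit 0) [] false,
   Spec.mk (nat_lit 33836) (nat_lit 0) [] (nat_lit 0) [] false,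
   Spec.mk (nat_lit 33838) (nat_lit 0) [] (nat_lit 0) [] false,
   Spec.mk (nat_lit 33842) (nat_lit 0) [] (nat_lit 0) [] false,
   Spec.mk (nat_lit 33844) (nat_lit 0) [] (nat_lit 0) [] false,
   Spec.mk (nat_lit 33846) (nat_lit 0) [] (nat_lit 0) [] false,
   Spec.mk (nat_lit 33850) (nat_lit 0) [] (nat_lit 0) [] false,
   Spec.mk (nat_lit 33852) (nat_lit 0) [] (nat_lit 0) [] false,
   Spec.mk (nat_lit 33866) (nat_lit 0) [] (nat_lit 0) [] false,
   Spec.mk (nat_lit 33872) (nat_lit 0) [] (nat_lit 0) [] false,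
   Spec.mk (nat_lit 33874) (nat_lit 0) [] (nat_lit 0) [] false]

noncomputable def cd87 : List Spec :=
  [Spec.mk (nat_lit 33878) (nat_lit 0) [] (nat_lit 0) [] false,
   Spec.mk (nat_lit 33880) (nat_lit 0) [] (nat_lit 0) [] false,
   Spec.mk (nat_lit 33882) (nat_lit 0) [] (nat_lit 0) [] false,
   Spec.mk (nat_lit 33890) (nat_lit 0) [] (nat_lit 0) [] false,
   Spec.mk (nat_lit 33892) (nat_lit 0) [] (nat_lit 0) [] false,
   Spec.mk (nat_lit 33896) (nat_lit 0) [] (nat_lit 0) [] false,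
   Spec.mk (nat_lit 33898) (nat_lit 0) [] (nat_lit 0) [] false,
   Spec.mk (nat_lit 33900) (nat_lit 0) [] (nat_lit 0) [] false,
   Spec.mk (nat_lit 33904) (nat_lit 0) [] (nat_lit 0) [] false,
   Spec.mk (nat_lit 33906) (nat_lit 0) [] (nat_lit 0) [] false,
   Spec.mk (nat_lit 33914) (nat_lit 0) [] (nat_lit 0) [] false,
   Spec.mk (nat_lit 33916) (nat_lit 0) [] (nat_lit 0) [] false,
   Spec.mk (nat_lit 33918) (nat_lit 0) [] (nat_lit 0) [] false,
   Spec.mk (nat_lit 33922) (nat_lit 0) [] (nat_lit 0) [] false,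
   Spec.mk (nat_lit 33924) (nat_lit 0) [] (nat_lit 0) [] false,
   Spec.mk (nat_lit 33930) (nat_lit 0) [] (nat_lit 0) [] false,
   Spec.mk (nat_lit 33944) (nat_lit 0) [] (nat_lit 0) [] false,
   Spec.mk (nat_lit 33946) (nat_lit 0) [] (nat_lit 0) [] false,
   Spec.mk (nat_lit 33950) (nat_lit 0) [] (nat_lit 0) [] false,
   Spec.mk (nat_lit 33952) (nat_lit 0) [] (nat_lit 0) [] false,
   Spec.mk (nat_lit 33954) (nat_lit 0) [] (nat_lit 0) [] false,
   Spec.mk (nat_lit 33958) (nat_lit 0) [] (nat_lit 0) [] false,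
   Spec.mk (nat_lit 33960) (nat_lit 0) [] (nat_lit 0) [] false,
   Spec.mk (nat_lit 33968) (nat_lit 0) [] (nat_lit 0) [] false,
   Spec.mk (nat_lit 33970) (nat_lit 0) [] (nat_lit 0) [] false,
   Spec.mk (nat_lit 33972) (nat_lit 0) [] (nat_lit 0) [] false,
   Spec.mk (nat_lit 33976) (nat_lit 0) [] (nat_lit 0) [] false,
   Spec.mk (nat_lit 33978) (nat_lit 0) [] (nat_lit 0) [] false,
   Spec.mk (nat_lit 33984) (nat_lit 0) [] (nat_lit 0) [] false,
   Spec.mk (nat_lit 33994) (nat_lit 0) [] (nat_lit 0) [] false,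
   Spec.mk (nat_lit 33996) (nat_lit 0) [] (nat_lit 0) [] false,
   Spec.mk (nat_lit 34002) (nat_lit 0) [] (nat_lit 0) [] false,
   Spec.mk (nat_lit 34028) (nat_lit 0) [] (nat_lit 0) [] false,
   Spec.mk (nat_lit 34034) (nat_lit 0) [] (nat_lit 0) [] false,
   Spec.mk (nat_lit 34036) (nat_lit 0) [] (nat_lit 0) [] false,
   Spec.mk (nat_lit 34040) (nat_lit 0) [] (nat_lit 0) [] false,
   Spec.mk (nat_lit 34042) (nat_lit 0) [] (nat_lit 0) [] false,
   Spec.mk (nat_lit 34044) (nat_lit 0) [] (nat_lit 0) [] false,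
   Spec.mk (nat_lit 34052) (nat_lit 0) [] (nat_lit 0) [] false,
   Spec.mk (nat_lit 34054) (nat_lit 0) [] (nat_lit 0) [] false,
   Spec.mk (nat_lit 34058) (nat_lit 0) [] (nat_lit 0) [] false,
   Spec.mk (nat_lit 34060) (nat_lit 0) [] (nat_lit 0) [] false,
   Spec.mk (nat_lit 34062) (nat_lit 0) [] (nat_lit 0) [] false,
   Spec.mk (nat_lit 34066) (nat_lit 0) [] (nat_lit 0) [] false,
   Spec.mk (nat_lit 34068) (nat_lit 0) [] (nat_lit 0) [] false,
   Spec.mk (nat_lit 34076) (nat_lit 0) [] (nat_lit 0) [] false,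
   Spec.mk (nat_lit 34078) (nat_lit 0) [] (nat_lit 0) [] false,
   Spec.mk (nat_lit 34080) (nat_lit 0) [] (nat_lit 0) [] false,
   Spec.mk (nat_lit 34084) (nat_lit 0) [] (nat_lit 0) [] false,
   Spec.mk (nat_lit 34086) (nat_lit 0) [] (nat_lit 0) [] false,
   Spec.mk (nat_lit 34092) (nat_lit 0) [] (nat_lit 0) [] false,
   Spec.mk (nat_lit 34106) (nat_lit 0) [] (nat_lit 0) [] false,
   Spec.mk (nat_lit 34108) (nat_lit 0) [] (nat_lit 0) [] false,
   Spec.mk (nat_lit 34112) (nat_lit 0) [] (nat_lit 0) [] false,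
   Spec.mk (nat_lit 34114) (nat_lit 0) [] (nat_lit 0) [] false,
   Spec.mk (nat_lit 34116) (nat_lit 0) [] (nat_lit 0) [] false,
   Spec.mk (nat_lit 34120) (nat_lit 0) [] (nat_lit 0) [] false,
   Spec.mk (nat_lit 34122) (nat_lit 0) [] (nat_lit 0) [] false,
   Spec.mk (nat_lit 34130) (nat_lit 0) [] (nat_lit 0) [] false,
   Spec.mk (nat_lit 34132) (nat_lit 0) [] (nat_lit 0) [] false]

noncomputable def cd88 : List Spec :=
  [Spec.mk (nat_lit 34134) (nat_lit 0) [] (nat_lit 0) [] false,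
   Spec.mk (nat_lit 34138) (nat_lit 0) [] (nat_lit 0) [] false,
   Spec.mk (nat_lit 34140) (nat_lit 0) [] (nat_lit 0) [] false,
   Spec.mk (nat_lit 34146) (nat_lit 0) [] (nat_lit 0) [] false,
   Spec.mk (nat_lit 34156) (nat_lit 0) [] (nat_lit 0) [] false,
   Spec.mk (nat_lit 34158) (nat_lit 0) [] (nat_lit 0) [] false,
   Spec.mk (nat_lit 34164) (nat_lit 0) [] (nat_lit 0) [] false,
   Spec.mk (nat_lit 34184) (nat_lit 0) [] (nat_lit 0) [] false,
   Spec.mk (nat_lit 34186) (nat_lit 0) [] (nat_lit 0) [] false,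
   Spec.mk (nat_lit 34188) (nat_lit 0) [] (nat_lit 0) [] false,
   Spec.mk (nat_lit 34192) (nat_lit 0) [] (nat_lit 0) [] false,
   Spec.mk (nat_lit 34194) (nat_lit 0) [] (nat_lit 0) [] false,
   Spec.mk (nat_lit 34200) (nat_lit 0) [] (nat_lit 0) [] false,
   Spec.mk (nat_lit 34210) (nat_lit 0) [] (nat_lit 0) [] false,
   Spec.mk (nat_lit 34212) (nat_lit 0) [] (nat_lit 0) [] false,
   Spec.mk (nat_lit 34218) (nat_lit 0) [] (nat_lit 0) [] false,
   Spec.mk (nat_lit 34236) (nat_lit 0) [] (nat_lit 0) [] false,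
   Spec.mk (nat_lit 34280) (nat_lit 0) [] (nat_lit 0) [] false,
   Spec.mk (nat_lit 34286) (nat_lit 0) [] (nat_lit 0) [] false,
   Spec.mk (nat_lit 34288) (nat_lit 0) [] (nat_lit 0) [] false,
   Spec.mk (nat_lit 34298) (nat_lit 0) [] (nat_lit 0) [] false,
   Spec.mk (nat_lit 34304) (nat_lit 0) [] (nat_lit 0) [] false,
   Spec.mk (nat_lit 34306) (nat_lit 0) [] (nat_lit 0) [] false,
   Spec.mk (nat_lit 34310) (nat_lit 0) [] (nat_lit 0) [] false,
   Spec.mk (nat_lit 34312) (nat_lit 0) [] (nat_lit 0) [] false,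
   Spec.mk (nat_lit 34314) (nat_lit 0) [] (nat_lit 0) [] false,
   Spec.mk (nat_lit 34322) (nat_lit 0) [] (nat_lit 0) [] false,
   Spec.mk (nat_lit 34324) (nat_lit 0) [] (nat_lit 0) [] false,
   Spec.mk (nat_lit 34328) (nat_lit 0) [] (nat_lit 0) [] false,
   Spec.mk (nat_lit 34330) (nat_lit 0) [] (nat_lit 0) [] false,
   Spec.mk (nat_lit 34332) (nat_lit 0) [] (nat_lit 0) [] false,
   Spec.mk (nat_lit 34336) (nat_lit 0) [] (nat_lit 0) [] false,
   Spec.mk (nat_lit 34338) (nat_lit 0) [] (nat_lit 0) [] false,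
   Spec.mk (nat_lit 34352) (nat_lit 0) [] (nat_lit 0) [] false,
   Spec.mk (nat_lit 34358) (nat_lit 0) [] (nat_lit 0) [] false,
   Spec.mk (nat_lit 34360) (nat_lit 0) [] (nat_lit 0) [] false,
   Spec.mk (nat_lit 34364) (nat_lit 0) [] (nat_lit 0) [] false,
   Spec.mk (nat_lit 34366) (nat_lit 0) [] (nat_lit 0) [] false,
   Spec.mk (nat_lit 34368) (nat_lit 0) [] (nat_lit 0) [] false,
   Spec.mk (nat_lit 34376) (nat_lit 0) [] (nat_lit 0) [] false,
   Spec.mk (nat_lit 34378) (nat_lit 0) [] (nat_lit 0) [] false,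
   Spec.mk (nat_lit 34382) (nat_lit 0) [] (nat_lit 0) [] false,
   Spec.mk (nat_lit 34384) (nat_lit 0) [] (nat_lit 0) [] false,
   Spec.mk (nat_lit 34386) (nat_lit 0) [] (nat_lit 0) [] false,
   Spec.mk (nat_lit 34390) (nat_lit 0) [] (nat_lit 0) [] false,
   Spec.mk (nat_lit 34392) (nat_lit 0) [] (nat_lit 0) [] false,
   Spec.mk (nat_lit 34400) (nat_lit 0) [] (nat_lit 0) [] false,
   Spec.mk (nat_lit 34402) (nat_lit 0) [] (nat_lit 0) [] false,
   Spec.mk (nat_lit 34404) (nat_lit 0) [] (nat_lit 0) [] false,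
   Spec.mk (nat_lit 34408) (nat_lit 0) [] (nat_lit 0) [] false,
   Spec.mk (nat_lit 34410) (nat_lit 0) [] (nat_lit 0) [] false,
   Spec.mk (nat_lit 34416) (nat_lit 0) [] (nat_lit 0) [] false,
   Spec.mk (nat_lit 34430) (nat_lit 0) [] (nat_lit 0) [] false,
   Spec.mk (nat_lit 34432) (nat_lit 0) [] (nat_lit 0) [] false,
   Spec.mk (nat_lit 34436) (nat_lit 0) [] (nat_lit 0) [] false,
   Spec.mk (nat_lit 34438) (nat_lit 0) [] (nat_lit 0) [] false,
   Spec.mk (nat_lit 34440) (nat_lit 0) [] (nat_lit 0) [] false,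
   Spec.mk (nat_lit 34444) (nat_lit 0) [] (nat_lit 0) [] false,
   Spec.mk (nat_lit 34446) (nat_lit 0) [] (nat_lit 0) [] false,
   Spec.mk (nat_lit 34454) (nat_lit 0) [] (nat_lit 0) [] false]

noncomputable def cd89 : List Spec :=
  [Spec.mk (nat_lit 34456) (nat_lit 0) [] (nat_lit 0) [] false,
   Spec.mk (nat_lit 34458) (nat_lit 0) [] (nat_lit 0) [] false,
   Spec.mk (nat_lit 34462) (nat_lit 0) [] (nat_lit 0) [] false,
   Spec.mk (nat_lit 34464) (nat_lit 0) [] (nat_lit 0) [] false,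
   Spec.mk (nat_lit 34470) (nat_lit 0) [] (nat_lit 0) [] false,
   Spec.mk (nat_lit 34480) (nat_lit 0) [] (nat_lit 0) [] false,
   Spec.mk (nat_lit 34482) (nat_lit 0) [] (nat_lit 0) [] false,
   Spec.mk (nat_lit 34488) (nat_lit 0) [] (nat_lit 0) [] false,
   Spec.mk (nat_lit 34514) (nat_lit 0) [] (nat_lit 0) [] false,
   Spec.mk (nat_lit 34520) (nat_lit 0) [] (nat_lit 0) [] false,
   Spec.mk (nat_lit 34522) (nat_lit 0) [] (nat_lit 0) [] false,
   Spec.mk (nat_lit 34526) (nat_lit 0) [] (nat_lit 0) [] false,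
   Spec.mk (nat_lit 34528) (nat_lit 0) [] (nat_lit 0) [] false,
   Spec.mk (nat_lit 34530) (nat_lit 0) [] (nat_lit 0) [] false,
   Spec.mk (nat_lit 34538) (nat_lit 0) [] (nat_lit 0) [] false,
   Spec.mk (nat_lit 34540) (nat_lit 0) [] (nat_lit 0) [] false,
   Spec.mk (nat_lit 34544) (nat_lit 0) [] (nat_lit 0) [] false,
   Spec.mk (nat_lit 34546) (nat_lit 0) [] (nat_lit 0) [] false,
   Spec.mk (nat_lit 34548) (nat_lit 0) [] (nat_lit 0) [] false,
   Spec.mk (nat_lit 34552) (nat_lit 0) [] (nat_lit 0) [] false,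
   Spec.mk (nat_lit 34554) (nat_lit 0) [] (nat_lit 0) [] false,
   Spec.mk (nat_lit 34562) (nat_lit 0) [] (nat_lit 0) [] false,
   Spec.mk (nat_lit 34564) (nat_lit 0) [] (nat_lit 0) [] false,
   Spec.mk (nat_lit 34566) (nat_lit 0) [] (nat_lit 0) [] false,
   Spec.mk (nat_lit 34570) (nat_lit 0) [] (nat_lit 0) [] false,
   Spec.mk (nat_lit 34572) (nat_lit 0) [] (nat_lit 0) [] false,
   Spec.mk (nat_lit 34578) (nat_lit 0) [] (nat_lit 0) [] false,
   Spec.mk (nat_lit 34592) (nat_lit 0) [] (nat_lit 0) [] false,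
   Spec.mk (nat_lit 34594) (nat_lit 0) [] (nat_lit 0) [] false,
   Spec.mk (nat_lit 34598) (nat_lit 0) [] (nat_lit 0) [] false,
   Spec.mk (nat_lit 34600) (nat_lit 0) [] (nat_lit 0) [] false,
   Spec.mk (nat_lit 34602) (nat_lit 0) [] (nat_lit 0) [] false,
   Spec.mk (nat_lit 34606) (nat_lit 0) [] (nat_lit 0) [] false,
   Spec.mk (nat_lit 34608) (nat_lit 0) [] (nat_lit 0) [] false,
   Spec.mk (nat_lit 34616) (nat_lit 0) [] (nat_lit 0) [] false,
   Spec.mk (nat_lit 34618) (nat_lit 0) [] (nat_lit 0) [] false,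
   Spec.mk (nat_lit 34620) (nat_lit 0) [] (nat_lit 0) [] false,
   Spec.mk (nat_lit 34624) (nat_lit 0) [] (nat_lit 0) [] false,
   Spec.mk (nat_lit 34626) (nat_lit 0) [] (nat_lit 0) [] false,
   Spec.mk (nat_lit 34632) (nat_lit 0) [] (nat_lit 0) [] false,
   Spec.mk (nat_lit 34642) (nat_lit 0) [] (nat_lit 0) [] false,
   Spec.mk (nat_lit 34644) (nat_lit 0) [] (nat_lit 0) [] false,
   Spec.mk (nat_lit 34650) (nat_lit 0) [] (nat_lit 0) [] false,
   Spec.mk (nat_lit 34670) (nat_lit 0) [] (nat_lit 0) [] false,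
   Spec.mk (nat_lit 34672) (nat_lit 0) [] (nat_lit 0) [] false,
   Spec.mk (nat_lit 34674) (nat_lit 0) [] (nat_lit 0) [] false,
   Spec.mk (nat_lit 34678) (nat_lit 0) [] (nat_lit 0) [] false,
   Spec.mk (nat_lit 34680) (nat_lit 0) [] (nat_lit 0) [] false,
   Spec.mk (nat_lit 34686) (nat_lit 0) [] (nat_lit 0) [] false,
   Spec.mk (nat_lit 34696) (nat_lit 0) [] (nat_lit 0) [] false,
   Spec.mk (nat_lit 34698) (nat_lit 0) [] (nat_lit 0) [] false,
   Spec.mk (nat_lit 34704) (nat_lit 0) [] (nat_lit 0) [] false,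
   Spec.mk (nat_lit 34722) (nat_lit 0) [] (nat_lit 0) [] false,
   Spec.mk (nat_lit 34754) (nat_lit 0) [] (nat_lit 0) [] false,
   Spec.mk (nat_lit 34756) (nat_lit 0) [] (nat_lit 0) [] false,
   Spec.mk (nat_lit 34760) (nat_lit 0) [] (nat_lit 0) [] false,
   Spec.mk (nat_lit 34762) (nat_lit 0) [] (nat_lit 0) [] false,
   Spec.mk (nat_lit 34764) (nat_lit 0) [] (nat_lit 0) [] false,
   Spec.mk (nat_lit 34768) (nat_lit 0) [] (nat_lit 0) [] false,
   Spec.mk (nat_lit 34770) (nat_lit 0) [] (nat_lit 0) [] false]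

noncomputable def cd90 : List Spec :=
  [Spec.mk (nat_lit 34778) (nat_lit 0) [] (nat_lit 0) [] false,
   Spec.mk (nat_lit 34780) (nat_lit 0) [] (nat_lit 0) [] false,
   Spec.mk (nat_lit 34782) (nat_lit 0) [] (nat_lit 0) [] false,
   Spec.mk (nat_lit 34786) (nat_lit 0) [] (nat_lit 0) [] false,
   Spec.mk (nat_lit 34788) (nat_lit 0) [] (nat_lit 0) [] false,
   Spec.mk (nat_lit 34794) (nat_lit 0) [] (nat_lit 0) [] false,
   Spec.mk (nat_lit 34804) (nat_lit 0) [] (nat_lit 0) [] false,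
   Spec.mk (nat_lit 34806) (nat_lit 0) [] (nat_lit 0) [] false,
   Spec.mk (nat_lit 34812) (nat_lit 0) [] (nat_lit 0) [] false,
   Spec.mk (nat_lit 34832) (nat_lit 0) [] (nat_lit 0) [] false,
   Spec.mk (nat_lit 34834) (nat_lit 0) [] (nat_lit 0) [] false,
   Spec.mk (nat_lit 34836) (nat_lit 0) [] (nat_lit 0) [] false,
   Spec.mk (nat_lit 34840) (nat_lit 0) [] (nat_lit 0) [] false,
   Spec.mk (nat_lit 34842) (nat_lit 0) [] (nat_lit 0) [] false,
   Spec.mk (nat_lit 34848) (nat_lit 0) [] (nat_lit 0) [] false,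
   Spec.mk (nat_lit 34858) (nat_lit 0) [] (nat_lit 0) [] false,
   Spec.mk (nat_lit 34860) (nat_lit 0) [] (nat_lit 0) [] false,
   Spec.mk (nat_lit 34866) (nat_lit 0) [] (nat_lit 0) [] false,
   Spec.mk (nat_lit 34884) (nat_lit 0) [] (nat_lit 0) [] false,
   Spec.mk (nat_lit 34912) (nat_lit 0) [] (nat_lit 0) [] false,
   Spec.mk (nat_lit 34914) (nat_lit 0) [] (nat_lit 0) [] false,
   Spec.mk (nat_lit 34920) (nat_lit 0) [] (nat_lit 0) [] false,
   Spec.mk (nat_lit 34938) (nat_lit 0) [] (nat_lit 0) [] false,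
   Spec.mk (nat_lit 35018) (nat_lit 0) [] (nat_lit 0) [] false,
   Spec.mk (nat_lit 35036) (nat_lit 0) [] (nat_lit 0) [] false,
   Spec.mk (nat_lit 35042) (nat_lit 0) [] (nat_lit 0) [] false,
   Spec.mk (nat_lit 35044) (nat_lit 0) [] (nat_lit 0) [] false,
   Spec.mk (nat_lit 35054) (nat_lit 0) [] (nat_lit 0) [] false,
   Spec.mk (nat_lit 35060) (nat_lit 0) [] (nat_lit 0) [] false,
   Spec.mk (nat_lit 35062) (nat_lit 0) [] (nat_lit 0) [] false,
   Spec.mk (nat_lit 35066) (nat_lit 0) [] (nat_lit 0) [] false,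
   Spec.mk (nat_lit 35068) (nat_lit 0) [] (nat_lit 0) [] false,
   Spec.mk (nat_lit 35070) (nat_lit 0) [] (nat_lit 0) [] false,
   Spec.mk (nat_lit 35090) (nat_lit 0) [] (nat_lit 0) [] false,
   Spec.mk (nat_lit 35096) (nat_lit 0) [] (nat_lit 0) [] false,
   Spec.mk (nat_lit 35098) (nat_lit 0) [] (nat_lit 0) [] false,
   Spec.mk (nat_lit 35108) (nat_lit 0) [] (nat_lit 0) [] false,
   Spec.mk (nat_lit 35114) (nat_lit 0) [] (nat_lit 0) [] false,
   Spec.mk (nat_lit 35116) (nat_lit 0) [] (nat_lit 0) [] false,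
   Spec.mk (nat_lit 35120) (nat_lit 0) [] (nat_lit 0) [] false,
   Spec.mk (nat_lit 35122) (nat_lit 0) [] (nat_lit 0) [] false,
   Spec.mk (nat_lit 35124) (nat_lit 0) [] (nat_lit 0) [] false,
   Spec.mk (nat_lit 35132) (nat_lit 0) [] (nat_lit 0) [] false,
   Spec.mk (nat_lit 35134) (nat_lit 0) [] (nat_lit 0) [] false,
   Spec.mk (nat_lit 35138) (nat_lit 0) [] (nat_lit 0) [] false,
   Spec.mk (nat_lit 35140) (nat_lit 0) [] (nat_lit 0) [] false,
   Spec.mk (nat_lit 35142) (nat_lit 0) [] (nat_lit 0) [] false,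
   Spec.mk (nat_lit 35146) (nat_lit 0) [] (nat_lit 0) [] false,
   Spec.mk (nat_lit 35148) (nat_lit 0) [] (nat_lit 0) [] false,
   Spec.mk (nat_lit 35162) (nat_lit 0) [] (nat_lit 0) [] false,
   Spec.mk (nat_lit 35168) (nat_lit 0) [] (nat_lit 0) [] false,
   Spec.mk (nat_lit 35170) (nat_lit 0) [] (nat_lit 0) [] false,
   Spec.mk (nat_lit 35174) (nat_lit 0) [] (nat_lit 0) [] false,
   Spec.mk (nat_lit 35176) (nat_lit 0) [] (nat_lit 0) [] false,
   Spec.mk (nat_lit 35178) (nat_lit 0) [] (nat_lit 0) [] false,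
   Spec.mk (nat_lit 35186) (nat_lit 0) [] (nat_lit 0) [] false,
   Spec.mk (nat_lit 35188) (nat_lit 0) [] (nat_lit 0) [] false,
   Spec.mk (nat_lit 35192) (nat_lit 0) [] (nat_lit 0) [] false,
   Spec.mk (nat_lit 35194) (nat_lit 0) [] (nat_lit 0) [] false,
   Spec.mk (nat_lit 35196) (nat_lit 0) [] (nat_lit 0) [] false]

noncomputable def cd91 : List Spec :=
  [Spec.mk (nat_lit 35200) (nat_lit 0) [] (nat_lit 0) [] false,
   Spec.mk (nat_lit 35202) (nat_lit 0) [] (nat_lit 0) [] false,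
   Spec.mk (nat_lit 35210) (nat_lit 0) [] (nat_lit 0) [] false,
   Spec.mk (nat_lit 35212) (nat_lit 0) [] (nat_lit 0) [] false,
   Spec.mk (nat_lit 35214) (nat_lit 0) [] (nat_lit 0) [] false,
   Spec.mk (nat_lit 35218) (nat_lit 0) [] (nat_lit 0) [] false,
   Spec.mk (nat_lit 35220) (nat_lit 0) [] (nat_lit 0) [] false,
   Spec.mk (nat_lit 35226) (nat_lit 0) [] (nat_lit 0) [] false,
   Spec.mk (nat_lit 35252) (nat_lit 0) [] (nat_lit 0) [] false,
   Spec.mk (nat_lit 35258) (nat_lit 0) [] (nat_lit 0) [] false,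
   Spec.mk (nat_lit 35260) (nat_lit 0) [] (nat_lit 0) [] false,
   Spec.mk (nat_lit 35270) (nat_lit 0) [] (nat_lit 0) [] false,
   Spec.mk (nat_lit 35276) (nat_lit 0) [] (nat_lit 0) [] false,
   Spec.mk (nat_lit 35278) (nat_lit 0) [] (nat_lit 0) [] false,
   Spec.mk (nat_lit 35282) (nat_lit 0) [] (nat_lit 0) [] false,
   Spec.mk (nat_lit 35284) (nat_lit 0) [] (nat_lit 0) [] false,
   Spec.mk (nat_lit 35286) (nat_lit 0) [] (nat_lit 0) [] false,
   Spec.mk (nat_lit 35294) (nat_lit 0) [] (nat_lit 0) [] false,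
   Spec.mk (nat_lit 35296) (nat_lit 0) [] (nat_lit 0) [] false,
   Spec.mk (nat_lit 35300) (nat_lit 0) [] (nat_lit 0) [] false,
   Spec.mk (nat_lit 35302) (nat_lit 0) [] (nat_lit 0) [] false,
   Spec.mk (nat_lit 35304) (nat_lit 0) [] (nat_lit 0) [] false,
   Spec.mk (nat_lit 35308) (nat_lit 0) [] (nat_lit 0) [] false,
   Spec.mk (nat_lit 35310) (nat_lit 0) [] (nat_lit 0) [] false,
   Spec.mk (nat_lit 35324) (nat_lit 0) [] (nat_lit 0) [] false,
   Spec.mk (nat_lit 35330) (nat_lit 0) [] (nat_lit 0) [] false,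
   Spec.mk (nat_lit 35332) (nat_lit 0) [] (nat_lit 0) [] false,
   Spec.mk (nat_lit 35336) (nat_lit 0) [] (nat_lit 0) [] false,
   Spec.mk (nat_lit 35338) (nat_lit 0) [] (nat_lit 0) [] false,
   Spec.mk (nat_lit 35340) (nat_lit 0) [] (nat_lit 0) [] false,
   Spec.mk (nat_lit 35348) (nat_lit 0) [] (nat_lit 0) [] false,
   Spec.mk (nat_lit 35350) (nat_lit 0) [] (nat_lit 0) [] false,
   Spec.mk (nat_lit 35354) (nat_lit 0) [] (nat_lit 0) [] false,
   Spec.mk (nat_lit 35356) (nat_lit 0) [] (nat_lit 0) [] false,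
   Spec.mk (nat_lit 35358) (nat_lit 0) [] (nat_lit 0) [] false,
   Spec.mk (nat_lit 35362) (nat_lit 0) [] (nat_lit 0) [] false,
   Spec.mk (nat_lit 35364) (nat_lit 0) [] (nat_lit 0) [] false,
   Spec.mk (nat_lit 35372) (nat_lit 0) [] (nat_lit 0) [] false,
   Spec.mk (nat_lit 35374) (nat_lit 0) [] (nat_lit 0) [] false,
   Spec.mk (nat_lit 35376) (nat_lit 0) [] (nat_lit 0) [] false,
   Spec.mk (nat_lit 35380) (nat_lit 0) [] (nat_lit 0) [] false,
   Spec.mk (nat_lit 35382) (nat_lit 0) [] (nat_lit 0) [] false,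
   Spec.mk (nat_lit 35388) (nat_lit 0) [] (nat_lit 0) [] false,
   Spec.mk (nat_lit 35402) (nat_lit 0) [] (nat_lit 0) [] false,
   Spec.mk (nat_lit 35404) (nat_lit 0) [] (nat_lit 0) [] false,
   Spec.mk (nat_lit 35408) (nat_lit 0) [] (nat_lit 0) [] false,
   Spec.mk (nat_lit 35410) (nat_lit 0) [] (nat_lit 0) [] false,
   Spec.mk (nat_lit 35412) (nat_lit 0) [] (nat_lit 0) [] false,
   Spec.mk (nat_lit 35416) (nat_lit 0) [] (nat_lit 0) [] false,
   Spec.mk (nat_lit 35418) (nat_lit 0) [] (nat_lit 0) [] false,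
   Spec.mk (nat_lit 35426) (nat_lit 0) [] (nat_lit 0) [] false,
   Spec.mk (nat_lit 35428) (nat_lit 0) [] (nat_lit 0) [] false,
   Spec.mk (nat_lit 35430) (nat_lit 0) [] (nat_lit 0) [] false,
   Spec.mk (nat_lit 35434) (nat_lit 0) [] (nat_lit 0) [] false,
   Spec.mk (nat_lit 35436) (nat_lit 0) [] (nat_lit 0) [] false,
   Spec.mk (nat_lit 35442) (nat_lit 0) [] (nat_lit 0) [] false,
   Spec.mk (nat_lit 35452) (nat_lit 0) [] (nat_lit 0) [] false,
   Spec.mk (nat_lit 35454) (nat_lit 0) [] (nat_lit 0) [] false,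
   Spec.mk (nat_lit 35460) (nat_lit 0) [] (nat_lit 0) [] false,
   Spec.mk (nat_lit 35486) (nat_lit 0) [] (nat_lit 0) [] false]

noncomputable def cd92 : List Spec :=
  [Spec.mk (nat_lit 35492) (nat_lit 0) [] (nat_lit 0) [] false,
   Spec.mk (nat_lit 35494) (nat_lit 0) [] (nat_lit 0) [] false,
   Spec.mk (nat_lit 35498) (nat_lit 0) [] (nat_lit 0) [] false,
   Spec.mk (nat_lit 35500) (nat_lit 0) [] (nat_lit 0) [] false,
   Spec.mk (nat_lit 35502) (nat_lit 0) [] (nat_lit 0) [] false,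
   Spec.mk (nat_lit 35510) (nat_lit 0) [] (nat_lit 0) [] false,
   Spec.mk (nat_lit 35512) (nat_lit 0) [] (nat_lit 0) [] false,
   Spec.mk (nat_lit 35516) (nat_lit 0) [] (nat_lit 0) [] false,
   Spec.mk (nat_lit 35518) (nat_lit 0) [] (nat_lit 0) [] false,
   Spec.mk (nat_lit 35520) (nat_lit 0) [] (nat_lit 0) [] false,
   Spec.mk (nat_lit 35524) (nat_lit 0) [] (nat_lit 0) [] false,
   Spec.mk (nat_lit 35526) (nat_lit 0) [] (nat_lit 0) [] false,
   Spec.mk (nat_lit 35534) (nat_lit 0) [] (nat_lit 0) [] false,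
   Spec.mk (nat_lit 35536) (nat_lit 0) [] (nat_lit 0) [] false,
   Spec.mk (nat_lit 35538) (nat_lit 0) [] (nat_lit 0) [] false,
   Spec.mk (nat_lit 35542) (nat_lit 0) [] (nat_lit 0) [] false,
   Spec.mk (nat_lit 35544) (nat_lit 0) [] (nat_lit 0) [] false,
   Spec.mk (nat_lit 35550) (nat_lit 0) [] (nat_lit 0) [] false,
   Spec.mk (nat_lit 35564) (nat_lit 0) [] (nat_lit 0) [] false,
   Spec.mk (nat_lit 35566) (nat_lit 0) [] (nat_lit 0) [] false,
   Spec.mk (nat_lit 35570) (nat_lit 0) [] (nat_lit 0) [] false,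
   Spec.mk (nat_lit 35572) (nat_lit 0) [] (nat_lit 0) [] false,
   Spec.mk (nat_lit 35574) (nat_lit 0) [] (nat_lit 0) [] false,
   Spec.mk (nat_lit 35578) (nat_lit 0) [] (nat_lit 0) [] false,
   Spec.mk (nat_lit 35580) (nat_lit 0) [] (nat_lit 0) [] false,
   Spec.mk (nat_lit 35588) (nat_lit 0) [] (nat_lit 0) [] false,
   Spec.mk (nat_lit 35590) (nat_lit 0) [] (nat_lit 0) [] false,
   Spec.mk (nat_lit 35592) (nat_lit 0) [] (nat_lit 0) [] false,
   Spec.mk (nat_lit 35596) (nat_lit 0) [] (nat_lit 0) [] false,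
   Spec.mk (nat_lit 35598) (nat_lit 0) [] (nat_lit 0) [] false,
   Spec.mk (nat_lit 35604) (nat_lit 0) [] (nat_lit 0) [] false,
   Spec.mk (nat_lit 35614) (nat_lit 0) [] (nat_lit 0) [] false,
   Spec.mk (nat_lit 35616) (nat_lit 0) [] (nat_lit 0) [] false,
   Spec.mk (nat_lit 35622) (nat_lit 0) [] (nat_lit 0) [] false,
   Spec.mk (nat_lit 35642) (nat_lit 0) [] (nat_lit 0) [] false,
   Spec.mk (nat_lit 35644) (nat_lit 0) [] (nat_lit 0) [] false,
   Spec.mk (nat_lit 35646) (nat_lit 0) [] (nat_lit 0) [] false,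
   Spec.mk (nat_lit 35650) (nat_lit 0) [] (nat_lit 0) [] false,
   Spec.mk (nat_lit 35652) (nat_lit 0) [] (nat_lit 0) [] false,
   Spec.mk (nat_lit 35658) (nat_lit 0) [] (nat_lit 0) [] false,
   Spec.mk (nat_lit 35668) (nat_lit 0) [] (nat_lit 0) [] false,
   Spec.mk (nat_lit 35670) (nat_lit 0) [] (nat_lit 0) [] false,
   Spec.mk (nat_lit 35676) (nat_lit 0) [] (nat_lit 0) [] false,
   Spec.mk (nat_lit 35694) (nat_lit 0) [] (nat_lit 0) [] false,
   Spec.mk (nat_lit 35738) (nat_lit 0) [] (nat_lit 0) [] false,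
   Spec.mk (nat_lit 35744) (nat_lit 0) [] (nat_lit 0) [] false,
   Spec.mk (nat_lit 35746) (nat_lit 0) [] (nat_lit 0) [] false,
   Spec.mk (nat_lit 35756) (nat_lit 0) [] (nat_lit 0) [] false,
   Spec.mk (nat_lit 35762) (nat_lit 0) [] (nat_lit 0) [] false,
   Spec.mk (nat_lit 35764) (nat_lit 0) [] (nat_lit 0) [] false,
   Spec.mk (nat_lit 35768) (nat_lit 0) [] (nat_lit 0) [] false,
   Spec.mk (nat_lit 35770) (nat_lit 0) [] (nat_lit 0) [] false,
   Spec.mk (nat_lit 35772) (nat_lit 0) [] (nat_lit 0) [] false,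
   Spec.mk (nat_lit 35780) (nat_lit 0) [] (nat_lit 0) [] false,
   Spec.mk (nat_lit 35782) (nat_lit 0) [] (nat_lit 0) [] false,
   Spec.mk (nat_lit 35786) (nat_lit 0) [] (nat_lit 0) [] false,
   Spec.mk (nat_lit 35788) (nat_lit 0) [] (nat_lit 0) [] false,
   Spec.mk (nat_lit 35790) (nat_lit 0) [] (nat_lit 0) [] false,
   Spec.mk (nat_lit 35794) (nat_lit 0) [] (nat_lit 0) [] false,
   Spec.mk (nat_lit 35796) (nat_lit 0) [] (nat_lit 0) [] false]

noncomputable def cd93 : List Spec :=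
  [Spec.mk (nat_lit 35810) (nat_lit 0) [] (nat_lit 0) [] false,
   Spec.mk (nat_lit 35816) (nat_lit 0) [] (nat_lit 0) [] false,
   Spec.mk (nat_lit 35818) (nat_lit 0) [] (nat_lit 0) [] false,
   Spec.mk (nat_lit 35822) (nat_lit 0) [] (nat_lit 0) [] false,
   Spec.mk (nat_lit 35824) (nat_lit 0) [] (nat_lit 0) [] false,
   Spec.mk (nat_lit 35826) (nat_lit 0) [] (nat_lit 0) [] false,
   Spec.mk (nat_lit 35834) (nat_lit 0) [] (nat_lit 0) [] false,
   Spec.mk (nat_lit 35836) (nat_lit 0) [] (nat_lit 0) [] false,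
   Spec.mk (nat_lit 35840) (nat_lit 0) [] (nat_lit 0) [] false,
   Spec.mk (nat_lit 35842) (nat_lit 0) [] (nat_lit 0) [] false,
   Spec.mk (nat_lit 35844) (nat_lit 0) [] (nat_lit 0) [] false,
   Spec.mk (nat_lit 35848) (nat_lit 0) [] (nat_lit 0) [] false,
   Spec.mk (nat_lit 35850) (nat_lit 0) [] (nat_lit 0) [] false,
   Spec.mk (nat_lit 35858) (nat_lit 0) [] (nat_lit 0) [] false,
   Spec.mk (nat_lit 35860) (nat_lit 0) [] (nat_lit 0) [] false,
   Spec.mk (nat_lit 35862) (nat_lit 0) [] (nat_lit 0) [] false,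
   Spec.mk (nat_lit 35866) (nat_lit 0) [] (nat_lit 0) [] false,
   Spec.mk (nat_lit 35868) (nat_lit 0) [] (nat_lit 0) [] false,
   Spec.mk (nat_lit 35874) (nat_lit 0) [] (nat_lit 0) [] false,
   Spec.mk (nat_lit 35888) (nat_lit 0) [] (nat_lit 0) [] false,
   Spec.mk (nat_lit 35890) (nat_lit 0) [] (nat_lit 0) [] false,
   Spec.mk (nat_lit 35894) (nat_lit 0) [] (nat_lit 0) [] false,
   Spec.mk (nat_lit 35896) (nat_lit 0) [] (nat_lit 0) [] false,
   Spec.mk (nat_lit 35898) (nat_lit 0) [] (nat_lit 0) [] false,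
   Spec.mk (nat_lit 35902) (nat_lit 0) [] (nat_lit 0) [] false,
   Spec.mk (nat_lit 35904) (nat_lit 0) [] (nat_lit 0) [] false,
   Spec.mk (nat_lit 35912) (nat_lit 0) [] (nat_lit 0) [] false,
   Spec.mk (nat_lit 35914) (nat_lit 0) [] (nat_lit 0) [] false,
   Spec.mk (nat_lit 35916) (nat_lit 0) [] (nat_lit 0) [] false,
   Spec.mk (nat_lit 35920) (nat_lit 0) [] (nat_lit 0) [] false,
   Spec.mk (nat_lit 35922) (nat_lit 0) [] (nat_lit 0) [] false,
   Spec.mk (nat_lit 35928) (nat_lit 0) [] (nat_lit 0) [] false,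
   Spec.mk (nat_lit 35938) (nat_lit 0) [] (nat_lit 0) [] false,
   Spec.mk (nat_lit 35940) (nat_lit 0) [] (nat_lit 0) [] false,
   Spec.mk (nat_lit 35946) (nat_lit 0) [] (nat_lit 0) [] false,
   Spec.mk (nat_lit 35972) (nat_lit 0) [] (nat_lit 0) [] false,
   Spec.mk (nat_lit 35978) (nat_lit 0) [] (nat_lit 0) [] false,
   Spec.mk (nat_lit 35980) (nat_lit 0) [] (nat_lit 0) [] false,
   Spec.mk (nat_lit 35984) (nat_lit 0) [] (nat_lit 0) [] false,
   Spec.mk (nat_lit 35986) (nat_lit 0) [] (nat_lit 0) [] false,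
   Spec.mk (nat_lit 35988) (nat_lit 0) [] (nat_lit 0) [] false,
   Spec.mk (nat_lit 35996) (nat_lit 0) [] (nat_lit 0) [] false,
   Spec.mk (nat_lit 35998) (nat_lit 0) [] (nat_lit 0) [] false,
   Spec.mk (nat_lit 36002) (nat_lit 0) [] (nat_lit 0) [] false,
   Spec.mk (nat_lit 36004) (nat_lit 0) [] (nat_lit 0) [] false,
   Spec.mk (nat_lit 36006) (nat_lit 0) [] (nat_lit 0) [] false,
   Spec.mk (nat_lit 36010) (nat_lit 0) [] (nat_lit 0) [] false,
   Spec.mk (nat_lit 36012) (nat_lit 0) [] (nat_lit 0) [] false,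
   Spec.mk (nat_lit 36020) (nat_lit 0) [] (nat_lit 0) [] false,
   Spec.mk (nat_lit 36022) (nat_lit 0) [] (nat_lit 0) [] false,
   Spec.mk (nat_lit 36024) (nat_lit 0) [] (nat_lit 0) [] false,
   Spec.mk (nat_lit 36028) (nat_lit 0) [] (nat_lit 0) [] false,
   Spec.mk (nat_lit 36030) (nat_lit 0) [] (nat_lit 0) [] false,
   Spec.mk (nat_lit 36036) (nat_lit 0) [] (nat_lit 0) [] false,
   Spec.mk (nat_lit 36050) (nat_lit 0) [] (nat_lit 0) [] false,
   Spec.mk (nat_lit 36052) (nat_lit 0) [] (nat_lit 0) [] false,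
   Spec.mk (nat_lit 36056) (nat_lit 0) [] (nat_lit 0) [] false,
   Spec.mk (nat_lit 36058) (nat_lit 0) [] (nat_lit 0) [] false,
   Spec.mk (nat_lit 36060) (nat_lit 0) [] (nat_lit 0) [] false,
   Spec.mk (nat_lit 36064) (nat_lit 0) [] (nat_lit 0) [] false]

noncomputable def cd94 : List Spec :=
  [Spec.mk (nat_lit 36066) (nat_lit 0) [] (nat_lit 0) [] false,
   Spec.mk (nat_lit 36074) (nat_lit 0) [] (nat_lit 0) [] false,
   Spec.mk (nat_lit 36076) (nat_lit 0) [] (nat_lit 0) [] false,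
   Spec.mk (nat_lit 36078) (nat_lit 0) [] (nat_lit 0) [] false,
   Spec.mk (nat_lit 36082) (nat_lit 0) [] (nat_lit 0) [] false,
   Spec.mk (nat_lit 36084) (nat_lit 0) [] (nat_lit 0) [] false,
   Spec.mk (nat_lit 36090) (nat_lit 0) [] (nat_lit 0) [] false,
   Spec.mk (nat_lit 36100) (nat_lit 0) [] (nat_lit 0) [] false,
   Spec.mk (nat_lit 36102) (nat_lit 0) [] (nat_lit 0) [] false,
   Spec.mk (nat_lit 36108) (nat_lit 0) [] (nat_lit 0) [] false,
   Spec.mk (nat_lit 36128) (nat_lit 0) [] (nat_lit 0) [] false,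
   Spec.mk (nat_lit 36130) (nat_lit 0) [] (nat_lit 0) [] false,
   Spec.mk (nat_lit 36132) (nat_lit 0) [] (nat_lit 0) [] false,
   Spec.mk (nat_lit 36136) (nat_lit 0) [] (nat_lit 0) [] false,
   Spec.mk (nat_lit 36138) (nat_lit 0) [] (nat_lit 0) [] false,
   Spec.mk (nat_lit 36144) (nat_lit 0) [] (nat_lit 0) [] false,
   Spec.mk (nat_lit 36154) (nat_lit 0) [] (nat_lit 0) [] false,
   Spec.mk (nat_lit 36156) (nat_lit 0) [] (nat_lit 0) [] false,
   Spec.mk (nat_lit 36162) (nat_lit 0) [] (nat_lit 0) [] false,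
   Spec.mk (nat_lit 36180) (nat_lit 0) [] (nat_lit 0) [] false,
   Spec.mk (nat_lit 36212) (nat_lit 0) [] (nat_lit 0) [] false,
   Spec.mk (nat_lit 36214) (nat_lit 0) [] (nat_lit 0) [] false,
   Spec.mk (nat_lit 36218) (nat_lit 0) [] (nat_lit 0) [] false,
   Spec.mk (nat_lit 36220) (nat_lit 0) [] (nat_lit 0) [] false,
   Spec.mk (nat_lit 36222) (nat_lit 0) [] (nat_lit 0) [] false,
   Spec.mk (nat_lit 36226) (nat_lit 0) [] (nat_lit 0) [] false,
   Spec.mk (nat_lit 36228) (nat_lit 0) [] (nat_lit 0) [] false,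
   Spec.mk (nat_lit 36236) (nat_lit 0) [] (nat_lit 0) [] false,
   Spec.mk (nat_lit 36238) (nat_lit 0) [] (nat_lit 0) [] false,
   Spec.mk (nat_lit 36240) (nat_lit 0) [] (nat_lit 0) [] false,
   Spec.mk (nat_lit 36244) (nat_lit 0) [] (nat_lit 0) [] false,
   Spec.mk (nat_lit 36246) (nat_lit 0) [] (nat_lit 0) [] false,
   Spec.mk (nat_lit 36252) (nat_lit 0) [] (nat_lit 0) [] false,
   Spec.mk (nat_lit 36262) (nat_lit 0) [] (nat_lit 0) [] false,
   Spec.mk (nat_lit 36264) (nat_lit 0) [] (nat_lit 0) [] false,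
   Spec.mk (nat_lit 36270) (nat_lit 0) [] (nat_lit 0) [] false,
   Spec.mk (nat_lit 36290) (nat_lit 0) [] (nat_lit 0) [] false,
   Spec.mk (nat_lit 36292) (nat_lit 0) [] (nat_lit 0) [] false,
   Spec.mk (nat_lit 36294) (nat_lit 0) [] (nat_lit 0) [] false,
   Spec.mk (nat_lit 36298) (nat_lit 0) [] (nat_lit 0) [] false,
   Spec.mk (nat_lit 36300) (nat_lit 0) [] (nat_lit 0) [] false,
   Spec.mk (nat_lit 36306) (nat_lit 0) [] (nat_lit 0) [] false,
   Spec.mk (nat_lit 36316) (nat_lit 0) [] (nat_lit 0) [] false,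
   Spec.mk (nat_lit 36318) (nat_lit 0) [] (nat_lit 0) [] false,
   Spec.mk (nat_lit 36324) (nat_lit 0) [] (nat_lit 0) [] false,
   Spec.mk (nat_lit 36342) (nat_lit 0) [] (nat_lit 0) [] false,
   Spec.mk (nat_lit 36370) (nat_lit 0) [] (nat_lit 0) [] false,
   Spec.mk (nat_lit 36372) (nat_lit 0) [] (nat_lit 0) [] false,
   Spec.mk (nat_lit 36378) (nat_lit 0) [] (nat_lit 0) [] false,
   Spec.mk (nat_lit 36396) (nat_lit 0) [] (nat_lit 0) [] false,
   Spec.mk (nat_lit 36458) (nat_lit 0) [] (nat_lit 0) [] false,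
   Spec.mk (nat_lit 36464) (nat_lit 0) [] (nat_lit 0) [] false,
   Spec.mk (nat_lit 36466) (nat_lit 0) [] (nat_lit 0) [] false,
   Spec.mk (nat_lit 36470) (nat_lit 0) [] (nat_lit 0) [] false,
   Spec.mk (nat_lit 36472) (nat_lit 0) [] (nat_lit 0) [] false,
   Spec.mk (nat_lit 36474) (nat_lit 0) [] (nat_lit 0) [] false,
   Spec.mk (nat_lit 36482) (nat_lit 0) [] (nat_lit 0) [] false,
   Spec.mk (nat_lit 36484) (nat_lit 0) [] (nat_lit 0) [] false,
   Spec.mk (nat_lit 36488) (nat_lit 0) [] (nat_lit 0) [] false,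
   Spec.mk (nat_lit 36490) (nat_lit 0) [] (nat_lit 0) [] false]

noncomputable def cd95 : List Spec :=
  [Spec.mk (nat_lit 36492) (nat_lit 0) [] (nat_lit 0) [] false,
   Spec.mk (nat_lit 36496) (nat_lit 0) [] (nat_lit 0) [] false,
   Spec.mk (nat_lit 36498) (nat_lit 0) [] (nat_lit 0) [] false,
   Spec.mk (nat_lit 36506) (nat_lit 0) [] (nat_lit 0) [] false,
   Spec.mk (nat_lit 36508) (nat_lit 0) [] (nat_lit 0) [] false,
   Spec.mk (nat_lit 36510) (nat_lit 0) [] (nat_lit 0) [] false,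
   Spec.mk (nat_lit 36514) (nat_lit 0) [] (nat_lit 0) [] false,
   Spec.mk (nat_lit 36516) (nat_lit 0) [] (nat_lit 0) [] false,
   Spec.mk (nat_lit 36522) (nat_lit 0) [] (nat_lit 0) [] false,
   Spec.mk (nat_lit 36536) (nat_lit 0) [] (nat_lit 0) [] false,
   Spec.mk (nat_lit 36538) (nat_lit 0) [] (nat_lit 0) [] false,
   Spec.mk (nat_lit 36542) (nat_lit 0) [] (nat_lit 0) [] false,
   Spec.mk (nat_lit 36544) (nat_lit 0) [] (nat_lit 0) [] false,
   Spec.mk (nat_lit 36546) (nat_lit 0) [] (nat_lit 0) [] false,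
   Spec.mk (nat_lit 36550) (nat_lit 0) [] (nat_lit 0) [] false,
   Spec.mk (nat_lit 36552) (nat_lit 0) [] (nat_lit 0) [] false,
   Spec.mk (nat_lit 36560) (nat_lit 0) [] (nat_lit 0) [] false,
   Spec.mk (nat_lit 36562) (nat_lit 0) [] (nat_lit 0) [] false,
   Spec.mk (nat_lit 36564) (nat_lit 0) [] (nat_lit 0) [] false,
   Spec.mk (nat_lit 36568) (nat_lit 0) [] (nat_lit 0) [] false,
   Spec.mk (nat_lit 36570) (nat_lit 0) [] (nat_lit 0) [] false,
   Spec.mk (nat_lit 36576) (nat_lit 0) [] (nat_lit 0) [] false,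
   Spec.mk (nat_lit 36586) (nat_lit 0) [] (nat_lit 0) [] false,
   Spec.mk (nat_lit 36588) (nat_lit 0) [] (nat_lit 0) [] false,
   Spec.mk (nat_lit 36594) (nat_lit 0) [] (nat_lit 0) [] false,
   Spec.mk (nat_lit 36614) (nat_lit 0) [] (nat_lit 0) [] false,
   Spec.mk (nat_lit 36616) (nat_lit 0) [] (nat_lit 0) [] false,
   Spec.mk (nat_lit 36618) (nat_lit 0) [] (nat_lit 0) [] false,
   Spec.mk (nat_lit 36622) (nat_lit 0) [] (nat_lit 0) [] false,
   Spec.mk (nat_lit 36624) (nat_lit 0) [] (nat_lit 0) [] false,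
   Spec.mk (nat_lit 36630) (nat_lit 0) [] (nat_lit 0) [] false,
   Spec.mk (nat_lit 36640) (nat_lit 0) [] (nat_lit 0) [] false,
   Spec.mk (nat_lit 36642) (nat_lit 0) [] (nat_lit 0) [] false,
   Spec.mk (nat_lit 36648) (nat_lit 0) [] (nat_lit 0) [] false,
   Spec.mk (nat_lit 36666) (nat_lit 0) [] (nat_lit 0) [] false,
   Spec.mk (nat_lit 36698) (nat_lit 0) [] (nat_lit 0) [] false,
   Spec.mk (nat_lit 36700) (nat_lit 0) [] (nat_lit 0) [] false,
   Spec.mk (nat_lit 36704) (nat_lit 0) [] (nat_lit 0) [] false,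
   Spec.mk (nat_lit 36706) (nat_lit 0) [] (nat_lit 0) [] false,
   Spec.mk (nat_lit 36708) (nat_lit 0) [] (nat_lit 0) [] false,
   Spec.mk (nat_lit 36712) (nat_lit 0) [] (nat_lit 0) [] false,
   Spec.mk (nat_lit 36714) (nat_lit 0) [] (nat_lit 0) [] false,
   Spec.mk (nat_lit 36722) (nat_lit 0) [] (nat_lit 0) [] false,
   Spec.mk (nat_lit 36724) (nat_lit 0) [] (nat_lit 0) [] false,
   Spec.mk (nat_lit 36726) (nat_lit 0) [] (nat_lit 0) [] false,
   Spec.mk (nat_lit 36730) (nat_lit 0) [] (nat_lit 0) [] false,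
   Spec.mk (nat_lit 36732) (nat_lit 0) [] (nat_lit 0) [] false,
   Spec.mk (nat_lit 36738) (nat_lit 0) [] (nat_lit 0) [] false,
   Spec.mk (nat_lit 36748) (nat_lit 0) [] (nat_lit 0) [] false,
   Spec.mk (nat_lit 36750) (nat_lit 0) [] (nat_lit 0) [] false,
   Spec.mk (nat_lit 36756) (nat_lit 0) [] (nat_lit 0) [] false,
   Spec.mk (nat_lit 36776) (nat_lit 0) [] (nat_lit 0) [] false,
   Spec.mk (nat_lit 36778) (nat_lit 0) [] (nat_lit 0) [] false,
   Spec.mk (nat_lit 36780) (nat_lit 0) [] (nat_lit 0) [] false,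
   Spec.mk (nat_lit 36784) (nat_lit 0) [] (nat_lit 0) [] false,
   Spec.mk (nat_lit 36786) (nat_lit 0) [] (nat_lit 0) [] false,
   Spec.mk (nat_lit 36792) (nat_lit 0) [] (nat_lit 0) [] false,
   Spec.mk (nat_lit 36802) (nat_lit 0) [] (nat_lit 0) [] false,
   Spec.mk (nat_lit 36804) (nat_lit 0) [] (nat_lit 0) [] false,
   Spec.mk (nat_lit 36810) (nat_lit 0) [] (nat_lit 0) [] false]

noncomputable def cd96 : List Spec :=
  [Spec.mk (nat_lit 36828) (nat_lit 0) [] (nat_lit 0) [] false,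
   Spec.mk (nat_lit 36856) (nat_lit 0) [] (nat_lit 0) [] false,
   Spec.mk (nat_lit 36858) (nat_lit 0) [] (nat_lit 0) [] false,
   Spec.mk (nat_lit 36864) (nat_lit 0) [] (nat_lit 0) [] false,
   Spec.mk (nat_lit 36882) (nat_lit 0) [] (nat_lit 0) [] false,
   Spec.mk (nat_lit 36938) (nat_lit 0) [] (nat_lit 0) [] false,
   Spec.mk (nat_lit 36940) (nat_lit 0) [] (nat_lit 0) [] false,
   Spec.mk (nat_lit 36942) (nat_lit 0) [] (nat_lit 0) [] false,
   Spec.mk (nat_lit 36946) (nat_lit 0) [] (nat_lit 0) [] false,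
   Spec.mk (nat_lit 36948) (nat_lit 0) [] (nat_lit 0) [] false,
   Spec.mk (nat_lit 36954) (nat_lit 0) [] (nat_lit 0) [] false,
   Spec.mk (nat_lit 36964) (nat_lit 0) [] (nat_lit 0) [] false,
   Spec.mk (nat_lit 36966) (nat_lit 0) [] (nat_lit 0) [] false,
   Spec.mk (nat_lit 36972) (nat_lit 0) [] (nat_lit 0) [] false,
   Spec.mk (nat_lit 36990) (nat_lit 0) [] (nat_lit 0) [] false,
   Spec.mk (nat_lit 37018) (nat_lit 0) [] (nat_lit 0) [] false,
   Spec.mk (nat_lit 37020) (nat_lit 0) [] (nat_lit 0) [] false,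
   Spec.mk (nat_lit 37026) (nat_lit 0) [] (nat_lit 0) [] false,
   Spec.mk (nat_lit 37044) (nat_lit 0) [] (nat_lit 0) [] false,
   Spec.mk (nat_lit 37098) (nat_lit 0) [] (nat_lit 0) [] false,
   Spec.mk (nat_lit 37196) (nat_lit 0) [] (nat_lit 0) [] false,
   Spec.mk (nat_lit 37202) (nat_lit 0) [] (nat_lit 0) [] false,
   Spec.mk (nat_lit 37204) (nat_lit 0) [] (nat_lit 0) [] false,
   Spec.mk (nat_lit 37214) (nat_lit 0) [] (nat_lit 0) [] false,
   Spec.mk (nat_lit 37220) (nat_lit 0) [] (nat_lit 0) [] false,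
   Spec.mk (nat_lit 37222) (nat_lit 0) [] (nat_lit 0) [] false,
   Spec.mk (nat_lit 37226) (nat_lit 0) [] (nat_lit 0) [] false,
   Spec.mk (nat_lit 37228) (nat_lit 0) [] (nat_lit 0) [] false,
   Spec.mk (nat_lit 37230) (nat_lit 0) [] (nat_lit 0) [] false,
   Spec.mk (nat_lit 37238) (nat_lit 0) [] (nat_lit 0) [] false,
   Spec.mk (nat_lit 37240) (nat_lit 0) [] (nat_lit 0) [] false,
   Spec.mk (nat_lit 37244) (nat_lit 0) [] (nat_lit 0) [] false,
   Spec.mk (nat_lit 37246) (nat_lit 0) [] (nat_lit 0) [] false,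
   Spec.mk (nat_lit 37248) (nat_lit 0) [] (nat_lit 0) [] false,
   Spec.mk (nat_lit 37252) (nat_lit 0) [] (nat_lit 0) [] false,
   Spec.mk (nat_lit 37254) (nat_lit 0) [] (nat_lit 0) [] false,
   Spec.mk (nat_lit 37268) (nat_lit 0) [] (nat_lit 0) [] false,
   Spec.mk (nat_lit 37274) (nat_lit 0) [] (nat_lit 0) [] false,
   Spec.mk (nat_lit 37276) (nat_lit 0) [] (nat_lit 0) [] false,
   Spec.mk (nat_lit 37280) (nat_lit 0) [] (nat_lit 0) [] false,
   Spec.mk (nat_lit 37282) (nat_lit 0) [] (nat_lit 0) [] false,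
   Spec.mk (nat_lit 37284) (nat_lit 0) [] (nat_lit 0) [] false,
   Spec.mk (nat_lit 37292) (nat_lit 0) [] (nat_lit 0) [] false,
   Spec.mk (nat_lit 37294) (nat_lit 0) [] (nat_lit 0) [] false,
   Spec.mk (nat_lit 37298) (nat_lit 0) [] (nat_lit 0) [] false,
   Spec.mk (nat_lit 37300) (nat_lit 0) [] (nat_lit 0) [] false,
   Spec.mk (nat_lit 37302) (nat_lit 0) [] (nat_lit 0) [] false,
   Spec.mk (nat_lit 37306) (nat_lit 0) [] (nat_lit 0) [] false,
   Spec.mk (nat_lit 37308) (nat_lit 0) [] (nat_lit 0) [] false,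
   Spec.mk (nat_lit 37316) (nat_lit 0) [] (nat_lit 0) [] false,
   Spec.mk (nat_lit 37318) (nat_lit 0) [] (nat_lit 0) [] false,
   Spec.mk (nat_lit 37320) (nat_lit 0) [] (nat_lit 0) [] false,
   Spec.mk (nat_lit 37324) (nat_lit 0) [] (nat_lit 0) [] false,
   Spec.mk (nat_lit 37326) (nat_lit 0) [] (nat_lit 0) [] false,
   Spec.mk (nat_lit 37332) (nat_lit 0) [] (nat_lit 0) [] false,
   Spec.mk (nat_lit 37346) (nat_lit 0) [] (nat_lit 0) [] false,
   Spec.mk (nat_lit 37348) (nat_lit 0) [] (nat_lit 0) [] false,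
   Spec.mk (nat_lit 37352) (nat_lit 0) [] (nat_lit 0) [] false,
   Spec.mk (nat_lit 37354) (nat_lit 0) [] (nat_lit 0) [] false,
   Spec.mk (nat_lit 37356) (nat_lit 0) [] (nat_lit 0) [] false]

noncomputable def cd97 : List Spec :=
  [Spec.mk (nat_lit 37360) (nat_lit 0) [] (nat_lit 0) [] false,
   Spec.mk (nat_lit 37362) (nat_lit 0) [] (nat_lit 0) [] false,
   Spec.mk (nat_lit 37370) (nat_lit 0) [] (nat_lit 0) [] false,
   Spec.mk (nat_lit 37372) (nat_lit 0) [] (nat_lit 0) [] false,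
   Spec.mk (nat_lit 37374) (nat_lit 0) [] (nat_lit 0) [] false,
   Spec.mk (nat_lit 37378) (nat_lit 0) [] (nat_lit 0) [] false,
   Spec.mk (nat_lit 37380) (nat_lit 0) [] (nat_lit 0) [] false,
   Spec.mk (nat_lit 37386) (nat_lit 0) [] (nat_lit 0) [] false,
   Spec.mk (nat_lit 37396) (nat_lit 0) [] (nat_lit 0) [] false,
   Spec.mk (nat_lit 37398) (nat_lit 0) [] (nat_lit 0) [] false,
   Spec.mk (nat_lit 37404) (nat_lit 0) [] (nat_lit 0) [] false,
   Spec.mk (nat_lit 37430) (nat_lit 0) [] (nat_lit 0) [] false,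
   Spec.mk (nat_lit 37436) (nat_lit 0) [] (nat_lit 0) [] false,
   Spec.mk (nat_lit 37438) (nat_lit 0) [] (nat_lit 0) [] false,
   Spec.mk (nat_lit 37442) (nat_lit 0) [] (nat_lit 0) [] false,
   Spec.mk (nat_lit 37444) (nat_lit 0) [] (nat_lit 0) [] false,
   Spec.mk (nat_lit 37446) (nat_lit 0) [] (nat_lit 0) [] false,
   Spec.mk (nat_lit 37454) (nat_lit 0) [] (nat_lit 0) [] false,
   Spec.mk (nat_lit 37456) (nat_lit 0) [] (nat_lit 0) [] false,
   Spec.mk (nat_lit 37460) (nat_lit 0) [] (nat_lit 0) [] false,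
   Spec.mk (nat_lit 37462) (nat_lit 0) [] (nat_lit 0) [] false,
   Spec.mk (nat_lit 37464) (nat_lit 0) [] (nat_lit 0) [] false,
   Spec.mk (nat_lit 37468) (nat_lit 0) [] (nat_lit 0) [] false,
   Spec.mk (nat_lit 37470) (nat_lit 0) [] (nat_lit 0) [] false,
   Spec.mk (nat_lit 37478) (nat_lit 0) [] (nat_lit 0) [] false,
   Spec.mk (nat_lit 37480) (nat_lit 0) [] (nat_lit 0) [] false,
   Spec.mk (nat_lit 37482) (nat_lit 0) [] (nat_lit 0) [] false,
   Spec.mk (nat_lit 37486) (nat_lit 0) [] (nat_lit 0) [] false,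
   Spec.mk (nat_lit 37488) (nat_lit 0) [] (nat_lit 0) [] false,
   Spec.mk (nat_lit 37494) (nat_lit 0) [] (nat_lit 0) [] false,
   Spec.mk (nat_lit 37508) (nat_lit 0) [] (nat_lit 0) [] false,
   Spec.mk (nat_lit 37510) (nat_lit 0) [] (nat_lit 0) [] false,
   Spec.mk (nat_lit 37514) (nat_lit 0) [] (nat_lit 0) [] false,
   Spec.mk (nat_lit 37516) (nat_lit 0) [] (nat_lit 0) [] false,
   Spec.mk (nat_lit 37518) (nat_lit 0) [] (nat_lit 0) [] false,
   Spec.mk (nat_lit 37522) (nat_lit 0) [] (nat_lit 0) [] false,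
   Spec.mk (nat_lit 37524) (nat_lit 0) [] (nat_lit 0) [] false,
   Spec.mk (nat_lit 37532) (nat_lit 0) [] (nat_lit 0) [] false,
   Spec.mk (nat_lit 37534) (nat_lit 0) [] (nat_lit 0) [] false,
   Spec.mk (nat_lit 37536) (nat_lit 0) [] (nat_lit 0) [] false,
   Spec.mk (nat_lit 37540) (nat_lit 0) [] (nat_lit 0) [] false,
   Spec.mk (nat_lit 37542) (nat_lit 0) [] (nat_lit 0) [] false,
   Spec.mk (nat_lit 37548) (nat_lit 0) [] (nat_lit 0) [] false,
   Spec.mk (nat_lit 37558) (nat_lit 0) [] (nat_lit 0) [] false,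
   Spec.mk (nat_lit 37560) (nat_lit 0) [] (nat_lit 0) [] false,
   Spec.mk (nat_lit 37566) (nat_lit 0) [] (nat_lit 0) [] false,
   Spec.mk (nat_lit 37586) (nat_lit 0) [] (nat_lit 0) [] false,
   Spec.mk (nat_lit 37588) (nat_lit 0) [] (nat_lit 0) [] false,
   Spec.mk (nat_lit 37590) (nat_lit 0) [] (nat_lit 0) [] false,
   Spec.mk (nat_lit 37594) (nat_lit 0) [] (nat_lit 0) [] false,
   Spec.mk (nat_lit 37596) (nat_lit 0) [] (nat_lit 0) [] false,
   Spec.mk (nat_lit 37602) (nat_lit 0) [] (nat_lit 0) [] false,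
   Spec.mk (nat_lit 37612) (nat_lit 0) [] (nat_lit 0) [] false,
   Spec.mk (nat_lit 37614) (nat_lit 0) [] (nat_lit 0) [] false,
   Spec.mk (nat_lit 37620) (nat_lit 0) [] (nat_lit 0) [] false,
   Spec.mk (nat_lit 37638) (nat_lit 0) [] (nat_lit 0) [] false,
   Spec.mk (nat_lit 37670) (nat_lit 0) [] (nat_lit 0) [] false,
   Spec.mk (nat_lit 37672) (nat_lit 0) [] (nat_lit 0) [] false,
   Spec.mk (nat_lit 37676) (nat_lit 0) [] (nat_lit 0) [] false,
   Spec.mk (nat_lit 37678) (nat_lit 0) [] (nat_lit 0) [] false]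

noncomputable def cd98 : List Spec :=
  [Spec.mk (nat_lit 37680) (nat_lit 0) [] (nat_lit 0) [] false,
   Spec.mk (nat_lit 37684) (nat_lit 0) [] (nat_lit 0) [] false,
   Spec.mk (nat_lit 37686) (nat_lit 0) [] (nat_lit 0) [] false,
   Spec.mk (nat_lit 37694) (nat_lit 0) [] (nat_lit 0) [] false,
   Spec.mk (nat_lit 37696) (nat_lit 0) [] (nat_lit 0) [] false,
   Spec.mk (nat_lit 37698) (nat_lit 0) [] (nat_lit 0) [] false,
   Spec.mk (nat_lit 37702) (nat_lit 0) [] (nat_lit 0) [] false,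
   Spec.mk (nat_lit 37704) (nat_lit 0) [] (nat_lit 0) [] false,
   Spec.mk (nat_lit 37710) (nat_lit 0) [] (nat_lit 0) [] false,
   Spec.mk (nat_lit 37720) (nat_lit 0) [] (nat_lit 0) [] false,
   Spec.mk (nat_lit 37722) (nat_lit 0) [] (nat_lit 0) [] false,
   Spec.mk (nat_lit 37728) (nat_lit 0) [] (nat_lit 0) [] false,
   Spec.mk (nat_lit 37748) (nat_lit 0) [] (nat_lit 0) [] false,
   Spec.mk (nat_lit 37750) (nat_lit 0) [] (nat_lit 0) [] false,
   Spec.mk (nat_lit 37752) (nat_lit 0) [] (nat_lit 0) [] false,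
   Spec.mk (nat_lit 37756) (nat_lit 0) [] (nat_lit 0) [] false,
   Spec.mk (nat_lit 37758) (nat_lit 0) [] (nat_lit 0) [] false,
   Spec.mk (nat_lit 37764) (nat_lit 0) [] (nat_lit 0) [] false,
   Spec.mk (nat_lit 37774) (nat_lit 0) [] (nat_lit 0) [] false,
   Spec.mk (nat_lit 37776) (nat_lit 0) [] (nat_lit 0) [] false,
   Spec.mk (nat_lit 37782) (nat_lit 0) [] (nat_lit 0) [] false,
   Spec.mk (nat_lit 37800) (nat_lit 0) [] (nat_lit 0) [] false,
   Spec.mk (nat_lit 37828) (nat_lit 0) [] (nat_lit 0) [] false,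
   Spec.mk (nat_lit 37830) (nat_lit 0) [] (nat_lit 0) [] false,
   Spec.mk (nat_lit 37836) (nat_lit 0) [] (nat_lit 0) [] false,
   Spec.mk (nat_lit 37854) (nat_lit 0) [] (nat_lit 0) [] false,
   Spec.mk (nat_lit 37916) (nat_lit 0) [] (nat_lit 0) [] false,
   Spec.mk (nat_lit 37922) (nat_lit 0) [] (nat_lit 0) [] false,
   Spec.mk (nat_lit 37924) (nat_lit 0) [] (nat_lit 0) [] false,
   Spec.mk (nat_lit 37928) (nat_lit 0) [] (nat_lit 0) [] false,
   Spec.mk (nat_lit 37930) (nat_lit 0) [] (nat_lit 0) [] false,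
   Spec.mk (nat_lit 37932) (nat_lit 0) [] (nat_lit 0) [] false,
   Spec.mk (nat_lit 37940) (nat_lit 0) [] (nat_lit 0) [] false,
   Spec.mk (nat_lit 37942) (nat_lit 0) [] (nat_lit 0) [] false,
   Spec.mk (nat_lit 37946) (nat_lit 0) [] (nat_lit 0) [] false,
   Spec.mk (nat_lit 37948) (nat_lit 0) [] (nat_lit 0) [] false,
   Spec.mk (nat_lit 37950) (nat_lit 0) [] (nat_lit 0) [] false,
   Spec.mk (nat_lit 37954) (nat_lit 0) [] (nat_lit 0) [] false,
   Spec.mk (nat_lit 37956) (nat_lit 0) [] (nat_lit 0) [] false,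
   Spec.mk (nat_lit 37964) (nat_lit 0) [] (nat_lit 0) [] false,
   Spec.mk (nat_lit 37966) (nat_lit 0) [] (nat_lit 0) [] false,
   Spec.mk (nat_lit 37968) (nat_lit 0) [] (nat_lit 0) [] false,
   Spec.mk (nat_lit 37972) (nat_lit 0) [] (nat_lit 0) [] false,
   Spec.mk (nat_lit 37974) (nat_lit 0) [] (nat_lit 0) [] false,
   Spec.mk (nat_lit 37980) (nat_lit 0) [] (nat_lit 0) [] false,
   Spec.mk (nat_lit 37994) (nat_lit 0) [] (nat_lit 0) [] false,
   Spec.mk (nat_lit 37996) (nat_lit 0) [] (nat_lit 0) [] false,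
   Spec.mk (nat_lit 38000) (nat_lit 0) [] (nat_lit 0) [] false,
   Spec.mk (nat_lit 38002) (nat_lit 0) [] (nat_lit 0) [] false,
   Spec.mk (nat_lit 38004) (nat_lit 0) [] (nat_lit 0) [] false,
   Spec.mk (nat_lit 38008) (nat_lit 0) [] (nat_lit 0) [] false,
   Spec.mk (nat_lit 38010) (nat_lit 0) [] (nat_lit 0) [] false,
   Spec.mk (nat_lit 38018) (nat_lit 0) [] (nat_lit 0) [] false,
   Spec.mk (nat_lit 38020) (nat_lit 0) [] (nat_lit 0) [] false,
   Spec.mk (nat_lit 38022) (nat_lit 0) [] (nat_lit 0) [] false,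
   Spec.mk (nat_lit 38026) (nat_lit 0) [] (nat_lit 0) [] false,
   Spec.mk (nat_lit 38028) (nat_lit 0) [] (nat_lit 0) [] false,
   Spec.mk (nat_lit 38034) (nat_lit 0) [] (nat_lit 0) [] false,
   Spec.mk (nat_lit 38044) (nat_lit 0) [] (nat_lit 0) [] false,
   Spec.mk (nat_lit 38046) (nat_lit 0) [] (nat_lit 0) [] false]

noncomputable def cd99 : List Spec :=
  [Spec.mk (nat_lit 38052) (nat_lit 0) [] (nat_lit 0) [] false,
   Spec.mk (nat_lit 38072) (nat_lit 0) [] (nat_lit 0) [] false,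
   Spec.mk (nat_lit 38074) (nat_lit 0) [] (nat_lit 0) [] false,
   Spec.mk (nat_lit 38076) (nat_lit 0) [] (nat_lit 0) [] false,
   Spec.mk (nat_lit 38080) (nat_lit 0) [] (nat_lit 0) [] false,
   Spec.mk (nat_lit 38082) (nat_lit 0) [] (nat_lit 0) [] false,
   Spec.mk (nat_lit 38088) (nat_lit 0) [] (nat_lit 0) [] false,
   Spec.mk (nat_lit 38098) (nat_lit 0) [] (nat_lit 0) [] false,
   Spec.mk (nat_lit 38100) (nat_lit 0) [] (nat_lit 0) [] false,
   Spec.mk (nat_lit 38106) (nat_lit 0) [] (nat_lit 0) [] false,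
   Spec.mk (nat_lit 38124) (nat_lit 0) [] (nat_lit 0) [] false,
   Spec.mk (nat_lit 38156) (nat_lit 0) [] (nat_lit 0) [] false,
   Spec.mk (nat_lit 38158) (nat_lit 0) [] (nat_lit 0) [] false,
   Spec.mk (nat_lit 38162) (nat_lit 0) [] (nat_lit 0) [] false,
   Spec.mk (nat_lit 38164) (nat_lit 0) [] (nat_lit 0) [] false,
   Spec.mk (nat_lit 38166) (nat_lit 0) [] (nat_lit 0) [] false,
   Spec.mk (nat_lit 38170) (nat_lit 0) [] (nat_lit 0) [] false,
   Spec.mk (nat_lit 38172) (nat_lit 0) [] (nat_lit 0) [] false,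
   Spec.mk (nat_lit 38180) (nat_lit 0) [] (nat_lit 0) [] false,
   Spec.mk (nat_lit 38182) (nat_lit 0) [] (nat_lit 0) [] false,
   Spec.mk (nat_lit 38184) (nat_lit 0) [] (nat_lit 0) [] false,
   Spec.mk (nat_lit 38188) (nat_lit 0) [] (nat_lit 0) [] false,
   Spec.mk (nat_lit 38190) (nat_lit 0) [] (nat_lit 0) [] false,
   Spec.mk (nat_lit 38196) (nat_lit 0) [] (nat_lit 0) [] false,
   Spec.mk (nat_lit 38206) (nat_lit 0) [] (nat_lit 0) [] false,
   Spec.mk (nat_lit 38208) (nat_lit 0) [] (nat_lit 0) [] false,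
   Spec.mk (nat_lit 38214) (nat_lit 0) [] (nat_lit 0) [] false,
   Spec.mk (nat_lit 38234) (nat_lit 0) [] (nat_lit 0) [] false,
   Spec.mk (nat_lit 38236) (nat_lit 0) [] (nat_lit 0) [] false,
   Spec.mk (nat_lit 38238) (nat_lit 0) [] (nat_lit 0) [] false,
   Spec.mk (nat_lit 38242) (nat_lit 0) [] (nat_lit 0) [] false,
   Spec.mk (nat_lit 38244) (nat_lit 0) [] (nat_lit 0) [] false,
   Spec.mk (nat_lit 38250) (nat_lit 0) [] (nat_lit 0) [] false,
   Spec.mk (nat_lit 38260) (nat_lit 0) [] (nat_lit 0) [] false,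
   Spec.mk (nat_lit 38262) (nat_lit 0) [] (nat_lit 0) [] false,
   Spec.mk (nat_lit 38268) (nat_lit 0) [] (nat_lit 0) [] false,
   Spec.mk (nat_lit 38286) (nat_lit 0) [] (nat_lit 0) [] false,
   Spec.mk (nat_lit 38314) (nat_lit 0) [] (nat_lit 0) [] false,
   Spec.mk (nat_lit 38316) (nat_lit 0) [] (nat_lit 0) [] false,
   Spec.mk (nat_lit 38322) (nat_lit 0) [] (nat_lit 0) [] false,
   Spec.mk (nat_lit 38340) (nat_lit 0) [] (nat_lit 0) [] false,
   Spec.mk (nat_lit 38396) (nat_lit 0) [] (nat_lit 0) [] false,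
   Spec.mk (nat_lit 38398) (nat_lit 0) [] (nat_lit 0) [] false,
   Spec.mk (nat_lit 38400) (nat_lit 0) [] (nat_lit 0) [] false,
   Spec.mk (nat_lit 38404) (nat_lit 0) [] (nat_lit 0) [] false,
   Spec.mk (nat_lit 38406) (nat_lit 0) [] (nat_lit 0) [] false,
   Spec.mk (nat_lit 38412) (nat_lit 0) [] (nat_lit 0) [] false,
   Spec.mk (nat_lit 38422) (nat_lit 0) [] (nat_lit 0) [] false,
   Spec.mk (nat_lit 38424) (nat_lit 0) [] (nat_lit 0) [] false,
   Spec.mk (nat_lit 38430) (nat_lit 0) [] (nat_lit 0) [] false,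
   Spec.mk (nat_lit 38448) (nat_lit 0) [] (nat_lit 0) [] false,
   Spec.mk (nat_lit 38476) (nat_lit 0) [] (nat_lit 0) [] false,
   Spec.mk (nat_lit 38478) (nat_lit 0) [] (nat_lit 0) [] false,
   Spec.mk (nat_lit 38484) (nat_lit 0) [] (nat_lit 0) [] false,
   Spec.mk (nat_lit 38502) (nat_lit 0) [] (nat_lit 0) [] false,
   Spec.mk (nat_lit 38556) (nat_lit 0) [] (nat_lit 0) [] false,
   Spec.mk (nat_lit 38642) (nat_lit 0) [] (nat_lit 0) [] false,
   Spec.mk (nat_lit 38644) (nat_lit 0) [] (nat_lit 0) [] false,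
   Spec.mk (nat_lit 38648) (nat_lit 0) [] (nat_lit 0) [] false,
   Spec.mk (nat_lit 38650) (nat_lit 0) [] (nat_lit 0) [] false]

noncomputable def cd100 : List Spec :=
  [Spec.mk (nat_lit 38652) (nat_lit 0) [] (nat_lit 0) [] false,
   Spec.mk (nat_lit 38656) (nat_lit 0) [] (nat_lit 0) [] false,
   Spec.mk (nat_lit 38658) (nat_lit 0) [] (nat_lit 0) [] false,
   Spec.mk (nat_lit 38666) (nat_lit 0) [] (nat_lit 0) [] false,
   Spec.mk (nat_lit 38668) (nat_lit 0) [] (nat_lit 0) [] false,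
   Spec.mk (nat_lit 38670) (nat_lit 0) [] (nat_lit 0) [] false,
   Spec.mk (nat_lit 38674) (nat_lit 0) [] (nat_lit 0) [] false,
   Spec.mk (nat_lit 38676) (nat_lit 0) [] (nat_lit 0) [] false,
   Spec.mk (nat_lit 38682) (nat_lit 0) [] (nat_lit 0) [] false,
   Spec.mk (nat_lit 38692) (nat_lit 0) [] (nat_lit 0) [] false,
   Spec.mk (nat_lit 38694) (nat_lit 0) [] (nat_lit 0) [] false,
   Spec.mk (nat_lit 38700) (nat_lit 0) [] (nat_lit 0) [] false,
   Spec.mk (nat_lit 38720) (nat_lit 0) [] (nat_lit 0) [] false,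
   Spec.mk (nat_lit 38722) (nat_lit 0) [] (nat_lit 0) [] false,
   Spec.mk (nat_lit 38724) (nat_lit 0) [] (nat_lit 0) [] false,
   Spec.mk (nat_lit 38728) (nat_lit 0) [] (nat_lit 0) [] false,
   Spec.mk (nat_lit 38730) (nat_lit 0) [] (nat_lit 0) [] false,
   Spec.mk (nat_lit 38736) (nat_lit 0) [] (nat_lit 0) [] false,
   Spec.mk (nat_lit 38746) (nat_lit 0) [] (nat_lit 0) [] false,
   Spec.mk (nat_lit 38748) (nat_lit 0) [] (nat_lit 0) [] false,
   Spec.mk (nat_lit 38754) (nat_lit 0) [] (nat_lit 0) [] false,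
   Spec.mk (nat_lit 38772) (nat_lit 0) [] (nat_lit 0) [] false,
   Spec.mk (nat_lit 38800) (nat_lit 0) [] (nat_lit 0) [] false,
   Spec.mk (nat_lit 38802) (nat_lit 0) [] (nat_lit 0) [] false,
   Spec.mk (nat_lit 38808) (nat_lit 0) [] (nat_lit 0) [] false,
   Spec.mk (nat_lit 38826) (nat_lit 0) [] (nat_lit 0) [] false,
   Spec.mk (nat_lit 38882) (nat_lit 0) [] (nat_lit 0) [] false,
   Spec.mk (nat_lit 38884) (nat_lit 0) [] (nat_lit 0) [] false,
   Spec.mk (nat_lit 38886) (nat_lit 0) [] (nat_lit 0) [] false,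
   Spec.mk (nat_lit 38890) (nat_lit 0) [] (nat_lit 0) [] false,
   Spec.mk (nat_lit 38892) (nat_lit 0) [] (nat_lit 0) [] false,
   Spec.mk (nat_lit 38898) (nat_lit 0) [] (nat_lit 0) [] false,
   Spec.mk (nat_lit 38908) (nat_lit 0) [] (nat_lit 0) [] false,
   Spec.mk (nat_lit 38910) (nat_lit 0) [] (nat_lit 0) [] false,
   Spec.mk (nat_lit 38916) (nat_lit 0) [] (nat_lit 0) [] false,
   Spec.mk (nat_lit 38934) (nat_lit 0) [] (nat_lit 0) [] false,
   Spec.mk (nat_lit 38962) (nat_lit 0) [] (nat_lit 0) [] false,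
   Spec.mk (nat_lit 38964) (nat_lit 0) [] (nat_lit 0) [] false,
   Spec.mk (nat_lit 38970) (nat_lit 0) [] (nat_lit 0) [] false,
   Spec.mk (nat_lit 38988) (nat_lit 0) [] (nat_lit 0) [] false,
   Spec.mk (nat_lit 39042) (nat_lit 0) [] (nat_lit 0) [] false,
   Spec.mk (nat_lit 39124) (nat_lit 0) [] (nat_lit 0) [] false,
   Spec.mk (nat_lit 39126) (nat_lit 0) [] (nat_lit 0) [] false,
   Spec.mk (nat_lit 39132) (nat_lit 0) [] (nat_lit 0) [] false,
   Spec.mk (nat_lit 39150) (nat_lit 0) [] (nat_lit 0) [] false,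
   Spec.mk (nat_lit 39204) (nat_lit 0) [] (nat_lit 0) [] false,
   Spec.mk (nat_lit 39446) (nat_lit 0) [] (nat_lit 0) [] false,
   Spec.mk (nat_lit 39500) (nat_lit 0) [] (nat_lit 0) [] false,
   Spec.mk (nat_lit 39518) (nat_lit 0) [] (nat_lit 0) [] false,
   Spec.mk (nat_lit 39524) (nat_lit 0) [] (nat_lit 0) [] false,
   Spec.mk (nat_lit 39526) (nat_lit 0) [] (nat_lit 0) [] false,
   Spec.mk (nat_lit 39554) (nat_lit 0) [] (nat_lit 0) [] false,
   Spec.mk (nat_lit 39572) (nat_lit 0) [] (nat_lit 0) [] false,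
   Spec.mk (nat_lit 39578) (nat_lit 0) [] (nat_lit 0) [] false,
   Spec.mk (nat_lit 39580) (nat_lit 0) [] (nat_lit 0) [] false,
   Spec.mk (nat_lit 39590) (nat_lit 0) [] (nat_lit 0) [] false,
   Spec.mk (nat_lit 39596) (nat_lit 0) [] (nat_lit 0) [] false,
   Spec.mk (nat_lit 39598) (nat_lit 0) [] (nat_lit 0) [] false,
   Spec.mk (nat_lit 39602) (nat_lit 0) [] (nat_lit 0) [] false,
   Spec.mk (nat_lit 39604) (nat_lit 0) [] (nat_lit 0) [] false]

noncomputable def cd101 : List Spec :=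
  [Spec.mk (nat_lit 39606) (nat_lit 0) [] (nat_lit 0) [] false,
   Spec.mk (nat_lit 39662) (nat_lit 0) [] (nat_lit 0) [] false,
   Spec.mk (nat_lit 39680) (nat_lit 0) [] (nat_lit 0) [] false,
   Spec.mk (nat_lit 39686) (nat_lit 0) [] (nat_lit 0) [] false,
   Spec.mk (nat_lit 39688) (nat_lit 0) [] (nat_lit 0) [] false,
   Spec.mk (nat_lit 39716) (nat_lit 0) [] (nat_lit 0) [] false,
   Spec.mk (nat_lit 39734) (nat_lit 0) [] (nat_lit 0) [] false,
   Spec.mk (nat_lit 39740) (nat_lit 0) [] (nat_lit 0) [] false,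
   Spec.mk (nat_lit 39742) (nat_lit 0) [] (nat_lit 0) [] false,
   Spec.mk (nat_lit 39752) (nat_lit 0) [] (nat_lit 0) [] false,
   Spec.mk (nat_lit 39758) (nat_lit 0) [] (nat_lit 0) [] false,
   Spec.mk (nat_lit 39760) (nat_lit 0) [] (nat_lit 0) [] false,
   Spec.mk (nat_lit 39764) (nat_lit 0) [] (nat_lit 0) [] false,
   Spec.mk (nat_lit 39766) (nat_lit 0) [] (nat_lit 0) [] false,
   Spec.mk (nat_lit 39768) (nat_lit 0) [] (nat_lit 0) [] false,
   Spec.mk (nat_lit 39788) (nat_lit 0) [] (nat_lit 0) [] false,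
   Spec.mk (nat_lit 39794) (nat_lit 0) [] (nat_lit 0) [] false,
   Spec.mk (nat_lit 39796) (nat_lit 0) [] (nat_lit 0) [] false,
   Spec.mk (nat_lit 39806) (nat_lit 0) [] (nat_lit 0) [] false,
   Spec.mk (nat_lit 39812) (nat_lit 0) [] (nat_lit 0) [] false,
   Spec.mk (nat_lit 39814) (nat_lit 0) [] (nat_lit 0) [] false,
   Spec.mk (nat_lit 39818) (nat_lit 0) [] (nat_lit 0) [] false,
   Spec.mk (nat_lit 39820) (nat_lit 0) [] (nat_lit 0) [] false,
   Spec.mk (nat_lit 39822) (nat_lit 0) [] (nat_lit 0) [] false,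
   Spec.mk (nat_lit 39830) (nat_lit 0) [] (nat_lit 0) [] false,
   Spec.mk (nat_lit 39832) (nat_lit 0) [] (nat_lit 0) [] false,
   Spec.mk (nat_lit 39836) (nat_lit 0) [] (nat_lit 0) [] false,
   Spec.mk (nat_lit 39838) (nat_lit 0) [] (nat_lit 0) [] false,
   Spec.mk (nat_lit 39840) (nat_lit 0) [] (nat_lit 0) [] false,
   Spec.mk (nat_lit 39844) (nat_lit 0) [] (nat_lit 0) [] false,
   Spec.mk (nat_lit 39846) (nat_lit 0) [] (nat_lit 0) [] false,
   Spec.mk (nat_lit 39878) (nat_lit 0) [] (nat_lit 0) [] false,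
   Spec.mk (nat_lit 39896) (nat_lit 0) [] (nat_lit 0) [] false,
   Spec.mk (nat_lit 39902) (nat_lit 0) [] (nat_lit 0) [] false,
   Spec.mk (nat_lit 39904) (nat_lit 0) [] (nat_lit 0) [] false,
   Spec.mk (nat_lit 39914) (nat_lit 0) [] (nat_lit 0) [] false,
   Spec.mk (nat_lit 39920) (nat_lit 0) [] (nat_lit 0) [] false,
   Spec.mk (nat_lit 39922) (nat_lit 0) [] (nat_lit 0) [] false,
   Spec.mk (nat_lit 39926) (nat_lit 0) [] (nat_lit 0) [] false,
   Spec.mk (nat_lit 39928) (nat_lit 0) [] (nat_lit 0) [] false,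
   Spec.mk (nat_lit 39930) (nat_lit 0) [] (nat_lit 0) [] false,
   Spec.mk (nat_lit 39950) (nat_lit 0) [] (nat_lit 0) [] false,
   Spec.mk (nat_lit 39956) (nat_lit 0) [] (nat_lit 0) [] false,
   Spec.mk (nat_lit 39958) (nat_lit 0) [] (nat_lit 0) [] false,
   Spec.mk (nat_lit 39968) (nat_lit 0) [] (nat_lit 0) [] false,
   Spec.mk (nat_lit 39974) (nat_lit 0) [] (nat_lit 0) [] false,
   Spec.mk (nat_lit 39976) (nat_lit 0) [] (nat_lit 0) [] false,
   Spec.mk (nat_lit 39980) (nat_lit 0) [] (nat_lit 0) [] false,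
   Spec.mk (nat_lit 39982) (nat_lit 0) [] (nat_lit 0) [] false,
   Spec.mk (nat_lit 39984) (nat_lit 0) [] (nat_lit 0) [] false,
   Spec.mk (nat_lit 39992) (nat_lit 0) [] (nat_lit 0) [] false,
   Spec.mk (nat_lit 39994) (nat_lit 0) [] (nat_lit 0) [] false,
   Spec.mk (nat_lit 39998) (nat_lit 0) [] (nat_lit 0) [] false,
   Spec.mk (nat_lit 40000) (nat_lit 0) [] (nat_lit 0) [] false,
   Spec.mk (nat_lit 40002) (nat_lit 0) [] (nat_lit 0) [] false,
   Spec.mk (nat_lit 40006) (nat_lit 0) [] (nat_lit 0) [] false,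
   Spec.mk (nat_lit 40008) (nat_lit 0) [] (nat_lit 0) [] false,
   Spec.mk (nat_lit 40022) (nat_lit 0) [] (nat_lit 0) [] false,
   Spec.mk (nat_lit 40028) (nat_lit 0) [] (nat_lit 0) [] false,
   Spec.mk (nat_lit 40030) (nat_lit 0) [] (nat_lit 0) [] false]

noncomputable def cd102 : List Spec :=
  [Spec.mk (nat_lit 40034) (nat_lit 0) [] (nat_lit 0) [] false,
   Spec.mk (nat_lit 40036) (nat_lit 0) [] (nat_lit 0) [] false,
   Spec.mk (nat_lit 40038) (nat_lit 0) [] (nat_lit 0) [] false,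
   Spec.mk (nat_lit 40046) (nat_lit 0) [] (nat_lit 0) [] false,
   Spec.mk (nat_lit 40048) (nat_lit 0) [] (nat_lit 0) [] false,
   Spec.mk (nat_lit 40052) (nat_lit 0) [] (nat_lit 0) [] false,
   Spec.mk (nat_lit 40054) (nat_lit 0) [] (nat_lit 0) [] false,
   Spec.mk (nat_lit 40056) (nat_lit 0) [] (nat_lit 0) [] false,
   Spec.mk (nat_lit 40060) (nat_lit 0) [] (nat_lit 0) [] false,
   Spec.mk (nat_lit 40062) (nat_lit 0) [] (nat_lit 0) [] false,
   Spec.mk (nat_lit 40070) (nat_lit 0) [] (nat_lit 0) [] false,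
   Spec.mk (nat_lit 40072) (nat_lit 0) [] (nat_lit 0) [] false,
   Spec.mk (nat_lit 40074) (nat_lit 0) [] (nat_lit 0) [] false,
   Spec.mk (nat_lit 40078) (nat_lit 0) [] (nat_lit 0) [] false,
   Spec.mk (nat_lit 40080) (nat_lit 0) [] (nat_lit 0) [] false,
   Spec.mk (nat_lit 40086) (nat_lit 0) [] (nat_lit 0) [] false,
   Spec.mk (nat_lit 40148) (nat_lit 0) [] (nat_lit 0) [] false,
   Spec.mk (nat_lit 40166) (nat_lit 0) [] (nat_lit 0) [] false,
   Spec.mk (nat_lit 40172) (nat_lit 0) [] (nat_lit 0) [] false,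
   Spec.mk (nat_lit 40174) (nat_lit 0) [] (nat_lit 0) [] false,
   Spec.mk (nat_lit 40202) (nat_lit 0) [] (nat_lit 0) [] false,
   Spec.mk (nat_lit 40220) (nat_lit 0) [] (nat_lit 0) [] false,
   Spec.mk (nat_lit 40226) (nat_lit 0) [] (nat_lit 0) [] false,
   Spec.mk (nat_lit 40228) (nat_lit 0) [] (nat_lit 0) [] false,
   Spec.mk (nat_lit 40238) (nat_lit 0) [] (nat_lit 0) [] false,
   Spec.mk (nat_lit 40244) (nat_lit 0) [] (nat_lit 0) [] false,
   Spec.mk (nat_lit 40246) (nat_lit 0) [] (nat_lit 0) [] false,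
   Spec.mk (nat_lit 40250) (nat_lit 0) [] (nat_lit 0) [] false,
   Spec.mk (nat_lit 40252) (nat_lit 0) [] (nat_lit 0) [] false,
   Spec.mk (nat_lit 40254) (nat_lit 0) [] (nat_lit 0) [] false,
   Spec.mk (nat_lit 40274) (nat_lit 0) [] (nat_lit 0) [] false,
   Spec.mk (nat_lit 40280) (nat_lit 0) [] (nat_lit 0) [] false,
   Spec.mk (nat_lit 40282) (nat_lit 0) [] (nat_lit 0) [] false,
   Spec.mk (nat_lit 40292) (nat_lit 0) [] (nat_lit 0) [] false,
   Spec.mk (nat_lit 40298) (nat_lit 0) [] (nat_lit 0) [] false,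
   Spec.mk (nat_lit 40300) (nat_lit 0) [] (nat_lit 0) [] false,
   Spec.mk (nat_lit 40304) (nat_lit 0) [] (nat_lit 0) [] false,
   Spec.mk (nat_lit 40306) (nat_lit 0) [] (nat_lit 0) [] false,
   Spec.mk (nat_lit 40308) (nat_lit 0) [] (nat_lit 0) [] false,
   Spec.mk (nat_lit 40316) (nat_lit 0) [] (nat_lit 0) [] false,
   Spec.mk (nat_lit 40318) (nat_lit 0) [] (nat_lit 0) [] false,
   Spec.mk (nat_lit 40322) (nat_lit 0) [] (nat_lit 0) [] false,
   Spec.mk (nat_lit 40324) (nat_lit 0) [] (nat_lit 0) [] false,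
   Spec.mk (nat_lit 40326) (nat_lit 0) [] (nat_lit 0) [] false,
   Spec.mk (nat_lit 40330) (nat_lit 0) [] (nat_lit 0) [] false,
   Spec.mk (nat_lit 40332) (nat_lit 0) [] (nat_lit 0) [] false,
   Spec.mk (nat_lit 40364) (nat_lit 0) [] (nat_lit 0) [] false,
   Spec.mk (nat_lit 40382) (nat_lit 0) [] (nat_lit 0) [] false,
   Spec.mk (nat_lit 40388) (nat_lit 0) [] (nat_lit 0) [] false,
   Spec.mk (nat_lit 40390) (nat_lit 0) [] (nat_lit 0) [] false,
   Spec.mk (nat_lit 40400) (nat_lit 0) [] (nat_lit 0) [] false,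
   Spec.mk (nat_lit 40406) (nat_lit 0) [] (nat_lit 0) [] false,
   Spec.mk (nat_lit 40408) (nat_lit 0) [] (nat_lit 0) [] false,
   Spec.mk (nat_lit 40412) (nat_lit 0) [] (nat_lit 0) [] false,
   Spec.mk (nat_lit 40414) (nat_lit 0) [] (nat_lit 0) [] false,
   Spec.mk (nat_lit 40416) (nat_lit 0) [] (nat_lit 0) [] false,
   Spec.mk (nat_lit 40436) (nat_lit 0) [] (nat_lit 0) [] false,
   Spec.mk (nat_lit 40442) (nat_lit 0) [] (nat_lit 0) [] false,
   Spec.mk (nat_lit 40444) (nat_lit 0) [] (nat_lit 0) [] false,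
   Spec.mk (nat_lit 40454) (nat_lit 0) [] (nat_lit 0) [] false]

noncomputable def cd103 : List Spec :=
  [Spec.mk (nat_lit 40460) (nat_lit 0) [] (nat_lit 0) [] false,
   Spec.mk (nat_lit 40462) (nat_lit 0) [] (nat_lit 0) [] false,
   Spec.mk (nat_lit 40466) (nat_lit 0) [] (nat_lit 0) [] false,
   Spec.mk (nat_lit 40468) (nat_lit 0) [] (nat_lit 0) [] false,
   Spec.mk (nat_lit 40470) (nat_lit 0) [] (nat_lit 0) [] false,
   Spec.mk (nat_lit 40478) (nat_lit 0) [] (nat_lit 0) [] false,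
   Spec.mk (nat_lit 40480) (nat_lit 0) [] (nat_lit 0) [] false,
   Spec.mk (nat_lit 40484) (nat_lit 0) [] (nat_lit 0) [] false,
   Spec.mk (nat_lit 40486) (nat_lit 0) [] (nat_lit 0) [] false,
   Spec.mk (nat_lit 40488) (nat_lit 0) [] (nat_lit 0) [] false,
   Spec.mk (nat_lit 40492) (nat_lit 0) [] (nat_lit 0) [] false,
   Spec.mk (nat_lit 40494) (nat_lit 0) [] (nat_lit 0) [] false,
   Spec.mk (nat_lit 40508) (nat_lit 0) [] (nat_lit 0) [] false,
   Spec.mk (nat_lit 40514) (nat_lit 0) [] (nat_lit 0) [] false,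
   Spec.mk (nat_lit 40516) (nat_lit 0) [] (nat_lit 0) [] false,
   Spec.mk (nat_lit 40520) (nat_lit 0) [] (nat_lit 0) [] false,
   Spec.mk (nat_lit 40522) (nat_lit 0) [] (nat_lit 0) [] false,
   Spec.mk (nat_lit 40524) (nat_lit 0) [] (nat_lit 0) [] false,
   Spec.mk (nat_lit 40532) (nat_lit 0) [] (nat_lit 0) [] false,
   Spec.mk (nat_lit 40534) (nat_lit 0) [] (nat_lit 0) [] false,
   Spec.mk (nat_lit 40538) (nat_lit 0) [] (nat_lit 0) [] false,
   Spec.mk (nat_lit 40540) (nat_lit 0) [] (nat_lit 0) [] false,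
   Spec.mk (nat_lit 40542) (nat_lit 0) [] (nat_lit 0) [] false,
   Spec.mk (nat_lit 40546) (nat_lit 0) [] (nat_lit 0) [] false,
   Spec.mk (nat_lit 40548) (nat_lit 0) [] (nat_lit 0) [] false,
   Spec.mk (nat_lit 40556) (nat_lit 0) [] (nat_lit 0) [] false,
   Spec.mk (nat_lit 40558) (nat_lit 0) [] (nat_lit 0) [] false,
   Spec.mk (nat_lit 40560) (nat_lit 0) [] (nat_lit 0) [] false,
   Spec.mk (nat_lit 40564) (nat_lit 0) [] (nat_lit 0) [] false,
   Spec.mk (nat_lit 40566) (nat_lit 0) [] (nat_lit 0) [] false,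
   Spec.mk (nat_lit 40572) (nat_lit 0) [] (nat_lit 0) [] false,
   Spec.mk (nat_lit 40598) (nat_lit 0) [] (nat_lit 0) [] false,
   Spec.mk (nat_lit 40604) (nat_lit 0) [] (nat_lit 0) [] false,
   Spec.mk (nat_lit 40606) (nat_lit 0) [] (nat_lit 0) [] false,
   Spec.mk (nat_lit 40616) (nat_lit 0) [] (nat_lit 0) [] false,
   Spec.mk (nat_lit 40622) (nat_lit 0) [] (nat_lit 0) [] false,
   Spec.mk (nat_lit 40624) (nat_lit 0) [] (nat_lit 0) [] false,
   Spec.mk (nat_lit 40628) (nat_lit 0) [] (nat_lit 0) [] false,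
   Spec.mk (nat_lit 40630) (nat_lit 0) [] (nat_lit 0) [] false,
   Spec.mk (nat_lit 40632) (nat_lit 0) [] (nat_lit 0) [] false,
   Spec.mk (nat_lit 40640) (nat_lit 0) [] (nat_lit 0) [] false,
   Spec.mk (nat_lit 40642) (nat_lit 0) [] (nat_lit 0) [] false,
   Spec.mk (nat_lit 40646) (nat_lit 0) [] (nat_lit 0) [] false,
   Spec.mk (nat_lit 40648) (nat_lit 0) [] (nat_lit 0) [] false,
   Spec.mk (nat_lit 40650) (nat_lit 0) [] (nat_lit 0) [] false,
   Spec.mk (nat_lit 40654) (nat_lit 0) [] (nat_lit 0) [] false,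
   Spec.mk (nat_lit 40656) (nat_lit 0) [] (nat_lit 0) [] false,
   Spec.mk (nat_lit 40670) (nat_lit 0) [] (nat_lit 0) [] false,
   Spec.mk (nat_lit 40676) (nat_lit 0) [] (nat_lit 0) [] false,
   Spec.mk (nat_lit 40678) (nat_lit 0) [] (nat_lit 0) [] false,
   Spec.mk (nat_lit 40682) (nat_lit 0) [] (nat_lit 0) [] false,
   Spec.mk (nat_lit 40684) (nat_lit 0) [] (nat_lit 0) [] false,
   Spec.mk (nat_lit 40686) (nat_lit 0) [] (nat_lit 0) [] false,
   Spec.mk (nat_lit 40694) (nat_lit 0) [] (nat_lit 0) [] false,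
   Spec.mk (nat_lit 40696) (nat_lit 0) [] (nat_lit 0) [] false,
   Spec.mk (nat_lit 40700) (nat_lit 0) [] (nat_lit 0) [] false,
   Spec.mk (nat_lit 40702) (nat_lit 0) [] (nat_lit 0) [] false,
   Spec.mk (nat_lit 40704) (nat_lit 0) [] (nat_lit 0) [] false,
   Spec.mk (nat_lit 40708) (nat_lit 0) [] (nat_lit 0) [] false,
   Spec.mk (nat_lit 40710) (nat_lit 0) [] (nat_lit 0) [] false]

noncomputable def cd104 : List Spec :=
  [Spec.mk (nat_lit 40718) (nat_lit 0) [] (nat_lit 0) [] false,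
   Spec.mk (nat_lit 40720) (nat_lit 0) [] (nat_lit 0) [] false,
   Spec.mk (nat_lit 40722) (nat_lit 0) [] (nat_lit 0) [] false,
   Spec.mk (nat_lit 40726) (nat_lit 0) [] (nat_lit 0) [] false,
   Spec.mk (nat_lit 40728) (nat_lit 0) [] (nat_lit 0) [] false,
   Spec.mk (nat_lit 40734) (nat_lit 0) [] (nat_lit 0) [] false,
   Spec.mk (nat_lit 40748) (nat_lit 0) [] (nat_lit 0) [] false,
   Spec.mk (nat_lit 40750) (nat_lit 0) [] (nat_lit 0) [] false,
   Spec.mk (nat_lit 40754) (nat_lit 0) [] (nat_lit 0) [] false,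
   Spec.mk (nat_lit 40756) (nat_lit 0) [] (nat_lit 0) [] false,
   Spec.mk (nat_lit 40758) (nat_lit 0) [] (nat_lit 0) [] false,
   Spec.mk (nat_lit 40762) (nat_lit 0) [] (nat_lit 0) [] false,
   Spec.mk (nat_lit 40764) (nat_lit 0) [] (nat_lit 0) [] false,
   Spec.mk (nat_lit 40772) (nat_lit 0) [] (nat_lit 0) [] false,
   Spec.mk (nat_lit 40774) (nat_lit 0) [] (nat_lit 0) [] false,
   Spec.mk (nat_lit 40776) (nat_lit 0) [] (nat_lit 0) [] false,
   Spec.mk (nat_lit 40780) (nat_lit 0) [] (nat_lit 0) [] false,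
   Spec.mk (nat_lit 40782) (nat_lit 0) [] (nat_lit 0) [] false,
   Spec.mk (nat_lit 40788) (nat_lit 0) [] (nat_lit 0) [] false,
   Spec.mk (nat_lit 40798) (nat_lit 0) [] (nat_lit 0) [] false,
   Spec.mk (nat_lit 40800) (nat_lit 0) [] (nat_lit 0) [] false,
   Spec.mk (nat_lit 40806) (nat_lit 0) [] (nat_lit 0) [] false,
   Spec.mk (nat_lit 40850) (nat_lit 0) [] (nat_lit 0) [] false,
   Spec.mk (nat_lit 40868) (nat_lit 0) [] (nat_lit 0) [] false,
   Spec.mk (nat_lit 40874) (nat_lit 0) [] (nat_lit 0) [] false,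
   Spec.mk (nat_lit 40876) (nat_lit 0) [] (nat_lit 0) [] false,
   Spec.mk (nat_lit 40886) (nat_lit 0) [] (nat_lit 0) [] false,
   Spec.mk (nat_lit 40892) (nat_lit 0) [] (nat_lit 0) [] false,
   Spec.mk (nat_lit 40894) (nat_lit 0) [] (nat_lit 0) [] false,
   Spec.mk (nat_lit 40898) (nat_lit 0) [] (nat_lit 0) [] false,
   Spec.mk (nat_lit 40900) (nat_lit 0) [] (nat_lit 0) [] false,
   Spec.mk (nat_lit 40902) (nat_lit 0) [] (nat_lit 0) [] false,
   Spec.mk (nat_lit 40922) (nat_lit 0) [] (nat_lit 0) [] false,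
   Spec.mk (nat_lit 40928) (nat_lit 0) [] (nat_lit 0) [] false,
   Spec.mk (nat_lit 40930) (nat_lit 0) [] (nat_lit 0) [] false,
   Spec.mk (nat_lit 40940) (nat_lit 0) [] (nat_lit 0) [] false,
   Spec.mk (nat_lit 40946) (nat_lit 0) [] (nat_lit 0) [] false,
   Spec.mk (nat_lit 40948) (nat_lit 0) [] (nat_lit 0) [] false,
   Spec.mk (nat_lit 40952) (nat_lit 0) [] (nat_lit 0) [] false,
   Spec.mk (nat_lit 40954) (nat_lit 0) [] (nat_lit 0) [] false,
   Spec.mk (nat_lit 40956) (nat_lit 0) [] (nat_lit 0) [] false,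
   Spec.mk (nat_lit 40964) (nat_lit 0) [] (nat_lit 0) [] false,
   Spec.mk (nat_lit 40966) (nat_lit 0) [] (nat_lit 0) [] false,
   Spec.mk (nat_lit 40970) (nat_lit 0) [] (nat_lit 0) [] false,
   Spec.mk (nat_lit 40972) (nat_lit 0) [] (nat_lit 0) [] false,
   Spec.mk (nat_lit 40974) (nat_lit 0) [] (nat_lit 0) [] false,
   Spec.mk (nat_lit 40978) (nat_lit 0) [] (nat_lit 0) [] false,
   Spec.mk (nat_lit 40980) (nat_lit 0) [] (nat_lit 0) [] false,
   Spec.mk (nat_lit 40994) (nat_lit 0) [] (nat_lit 0) [] false,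
   Spec.mk (nat_lit 41000) (nat_lit 0) [] (nat_lit 0) [] false,
   Spec.mk (nat_lit 41002) (nat_lit 0) [] (nat_lit 0) [] false,
   Spec.mk (nat_lit 41006) (nat_lit 0) [] (nat_lit 0) [] false,
   Spec.mk (nat_lit 41008) (nat_lit 0) [] (nat_lit 0) [] false,
   Spec.mk (nat_lit 41010) (nat_lit 0) [] (nat_lit 0) [] false,
   Spec.mk (nat_lit 41018) (nat_lit 0) [] (nat_lit 0) [] false,
   Spec.mk (nat_lit 41020) (nat_lit 0) [] (nat_lit 0) [] false,
   Spec.mk (nat_lit 41024) (nat_lit 0) [] (nat_lit 0) [] false,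
   Spec.mk (nat_lit 41026) (nat_lit 0) [] (nat_lit 0) [] false,
   Spec.mk (nat_lit 41028) (nat_lit 0) [] (nat_lit 0) [] false,
   Spec.mk (nat_lit 41032) (nat_lit 0) [] (nat_lit 0) [] false]

noncomputable def cd105 : List Spec :=
  [Spec.mk (nat_lit 41034) (nat_lit 0) [] (nat_lit 0) [] false,
   Spec.mk (nat_lit 41042) (nat_lit 0) [] (nat_lit 0) [] false,
   Spec.mk (nat_lit 41044) (nat_lit 0) [] (nat_lit 0) [] false,
   Spec.mk (nat_lit 41046) (nat_lit 0) [] (nat_lit 0) [] false,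
   Spec.mk (nat_lit 41050) (nat_lit 0) [] (nat_lit 0) [] false,
   Spec.mk (nat_lit 41052) (nat_lit 0) [] (nat_lit 0) [] false,
   Spec.mk (nat_lit 41058) (nat_lit 0) [] (nat_lit 0) [] false,
   Spec.mk (nat_lit 41084) (nat_lit 0) [] (nat_lit 0) [] false,
   Spec.mk (nat_lit 41090) (nat_lit 0) [] (nat_lit 0) [] false,
   Spec.mk (nat_lit 41092) (nat_lit 0) [] (nat_lit 0) [] false,
   Spec.mk (nat_lit 41102) (nat_lit 0) [] (nat_lit 0) [] false,
   Spec.mk (nat_lit 41108) (nat_lit 0) [] (nat_lit 0) [] false,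
   Spec.mk (nat_lit 41110) (nat_lit 0) [] (nat_lit 0) [] false,
   Spec.mk (nat_lit 41114) (nat_lit 0) [] (nat_lit 0) [] false,
   Spec.mk (nat_lit 41116) (nat_lit 0) [] (nat_lit 0) [] false,
   Spec.mk (nat_lit 41118) (nat_lit 0) [] (nat_lit 0) [] false,
   Spec.mk (nat_lit 41126) (nat_lit 0) [] (nat_lit 0) [] false,
   Spec.mk (nat_lit 41128) (nat_lit 0) [] (nat_lit 0) [] false,
   Spec.mk (nat_lit 41132) (nat_lit 0) [] (nat_lit 0) [] false,
   Spec.mk (nat_lit 41134) (nat_lit 0) [] (nat_lit 0) [] false,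
   Spec.mk (nat_lit 41136) (nat_lit 0) [] (nat_lit 0) [] false,
   Spec.mk (nat_lit 41140) (nat_lit 0) [] (nat_lit 0) [] false,
   Spec.mk (nat_lit 41142) (nat_lit 0) [] (nat_lit 0) [] false,
   Spec.mk (nat_lit 41156) (nat_lit 0) [] (nat_lit 0) [] false,
   Spec.mk (nat_lit 41162) (nat_lit 0) [] (nat_lit 0) [] false,
   Spec.mk (nat_lit 41164) (nat_lit 0) [] (nat_lit 0) [] false,
   Spec.mk (nat_lit 41168) (nat_lit 0) [] (nat_lit 0) [] false,
   Spec.mk (nat_lit 41170) (nat_lit 0) [] (nat_lit 0) [] false,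
   Spec.mk (nat_lit 41172) (nat_lit 0) [] (nat_lit 0) [] false,
   Spec.mk (nat_lit 41180) (nat_lit 0) [] (nat_lit 0) [] false,
   Spec.mk (nat_lit 41182) (nat_lit 0) [] (nat_lit 0) [] false,
   Spec.mk (nat_lit 41186) (nat_lit 0) [] (nat_lit 0) [] false,
   Spec.mk (nat_lit 41188) (nat_lit 0) [] (nat_lit 0) [] false,
   Spec.mk (nat_lit 41190) (nat_lit 0) [] (nat_lit 0) [] false,
   Spec.mk (nat_lit 41194) (nat_lit 0) [] (nat_lit 0) [] false,
   Spec.mk (nat_lit 41196) (nat_lit 0) [] (nat_lit 0) [] false,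
   Spec.mk (nat_lit 41204) (nat_lit 0) [] (nat_lit 0) [] false,
   Spec.mk (nat_lit 41206) (nat_lit 0) [] (nat_lit 0) [] false,
   Spec.mk (nat_lit 41208) (nat_lit 0) [] (nat_lit 0) [] false,
   Spec.mk (nat_lit 41212) (nat_lit 0) [] (nat_lit 0) [] false,
   Spec.mk (nat_lit 41214) (nat_lit 0) [] (nat_lit 0) [] false,
   Spec.mk (nat_lit 41220) (nat_lit 0) [] (nat_lit 0) [] false,
   Spec.mk (nat_lit 41234) (nat_lit 0) [] (nat_lit 0) [] false,
   Spec.mk (nat_lit 41236) (nat_lit 0) [] (nat_lit 0) [] false,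
   Spec.mk (nat_lit 41240) (nat_lit 0) [] (nat_lit 0) [] false,
   Spec.mk (nat_lit 41242) (nat_lit 0) [] (nat_lit 0) [] false,
   Spec.mk (nat_lit 41244) (nat_lit 0) [] (nat_lit 0) [] false,
   Spec.mk (nat_lit 41248) (nat_lit 0) [] (nat_lit 0) [] false,
   Spec.mk (nat_lit 41250) (nat_lit 0) [] (nat_lit 0) [] false,
   Spec.mk (nat_lit 41258) (nat_lit 0) [] (nat_lit 0) [] false,
   Spec.mk (nat_lit 41260) (nat_lit 0) [] (nat_lit 0) [] false,
   Spec.mk (nat_lit 41262) (nat_lit 0) [] (nat_lit 0) [] false,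
   Spec.mk (nat_lit 41266) (nat_lit 0) [] (nat_lit 0) [] false,
   Spec.mk (nat_lit 41268) (nat_lit 0) [] (nat_lit 0) [] false,
   Spec.mk (nat_lit 41274) (nat_lit 0) [] (nat_lit 0) [] false,
   Spec.mk (nat_lit 41284) (nat_lit 0) [] (nat_lit 0) [] false,
   Spec.mk (nat_lit 41286) (nat_lit 0) [] (nat_lit 0) [] false,
   Spec.mk (nat_lit 41292) (nat_lit 0) [] (nat_lit 0) [] false,
   Spec.mk (nat_lit 41318) (nat_lit 0) [] (nat_lit 0) [] false,
   Spec.mk (nat_lit 41324) (nat_lit 0) [] (nat_lit 0) [] false]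

noncomputable def cd106 : List Spec :=
  [Spec.mk (nat_lit 41326) (nat_lit 0) [] (nat_lit 0) [] false,
   Spec.mk (nat_lit 41330) (nat_lit 0) [] (nat_lit 0) [] false,
   Spec.mk (nat_lit 41332) (nat_lit 0) [] (nat_lit 0) [] false,
   Spec.mk (nat_lit 41334) (nat_lit 0) [] (nat_lit 0) [] false,
   Spec.mk (nat_lit 41342) (nat_lit 0) [] (nat_lit 0) [] false,
   Spec.mk (nat_lit 41344) (nat_lit 0) [] (nat_lit 0) [] false,
   Spec.mk (nat_lit 41348) (nat_lit 0) [] (nat_lit 0) [] false,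
   Spec.mk (nat_lit 41350) (nat_lit 0) [] (nat_lit 0) [] false,
   Spec.mk (nat_lit 41352) (nat_lit 0) [] (nat_lit 0) [] false,
   Spec.mk (nat_lit 41356) (nat_lit 0) [] (nat_lit 0) [] false,
   Spec.mk (nat_lit 41358) (nat_lit 0) [] (nat_lit 0) [] false,
   Spec.mk (nat_lit 41366) (nat_lit 0) [] (nat_lit 0) [] false,
   Spec.mk (nat_lit 41368) (nat_lit 0) [] (nat_lit 0) [] false,
   Spec.mk (nat_lit 41370) (nat_lit 0) [] (nat_lit 0) [] false,
   Spec.mk (nat_lit 41374) (nat_lit 0) [] (nat_lit 0) [] false,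
   Spec.mk (nat_lit 41376) (nat_lit 0) [] (nat_lit 0) [] false,
   Spec.mk (nat_lit 41382) (nat_lit 0) [] (nat_lit 0) [] false,
   Spec.mk (nat_lit 41396) (nat_lit 0) [] (nat_lit 0) [] false,
   Spec.mk (nat_lit 41398) (nat_lit 0) [] (nat_lit 0) [] false,
   Spec.mk (nat_lit 41402) (nat_lit 0) [] (nat_lit 0) [] false,
   Spec.mk (nat_lit 41404) (nat_lit 0) [] (nat_lit 0) [] false,
   Spec.mk (nat_lit 41406) (nat_lit 0) [] (nat_lit 0) [] false,
   Spec.mk (nat_lit 41410) (nat_lit 0) [] (nat_lit 0) [] false,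
   Spec.mk (nat_lit 41412) (nat_lit 0) [] (nat_lit 0) [] false,
   Spec.mk (nat_lit 41420) (nat_lit 0) [] (nat_lit 0) [] false,
   Spec.mk (nat_lit 41422) (nat_lit 0) [] (nat_lit 0) [] false,
   Spec.mk (nat_lit 41424) (nat_lit 0) [] (nat_lit 0) [] false,
   Spec.mk (nat_lit 41428) (nat_lit 0) [] (nat_lit 0) [] false,
   Spec.mk (nat_lit 41430) (nat_lit 0) [] (nat_lit 0) [] false,
   Spec.mk (nat_lit 41436) (nat_lit 0) [] (nat_lit 0) [] false,
   Spec.mk (nat_lit 41446) (nat_lit 0) [] (nat_lit 0) [] false,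
   Spec.mk (nat_lit 41448) (nat_lit 0) [] (nat_lit 0) [] false,
   Spec.mk (nat_lit 41454) (nat_lit 0) [] (nat_lit 0) [] false,
   Spec.mk (nat_lit 41474) (nat_lit 0) [] (nat_lit 0) [] false,
   Spec.mk (nat_lit 41476) (nat_lit 0) [] (nat_lit 0) [] false,
   Spec.mk (nat_lit 41478) (nat_lit 0) [] (nat_lit 0) [] false,
   Spec.mk (nat_lit 41482) (nat_lit 0) [] (nat_lit 0) [] false,
   Spec.mk (nat_lit 41484) (nat_lit 0) [] (nat_lit 0) [] false,
   Spec.mk (nat_lit 41490) (nat_lit 0) [] (nat_lit 0) [] false,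
   Spec.mk (nat_lit 41500) (nat_lit 0) [] (nat_lit 0) [] false,
   Spec.mk (nat_lit 41502) (nat_lit 0) [] (nat_lit 0) [] false,
   Spec.mk (nat_lit 41508) (nat_lit 0) [] (nat_lit 0) [] false,
   Spec.mk (nat_lit 41526) (nat_lit 0) [] (nat_lit 0) [] false,
   Spec.mk (nat_lit 41606) (nat_lit 0) [] (nat_lit 0) [] false,
   Spec.mk (nat_lit 41624) (nat_lit 0) [] (nat_lit 0) [] false,
   Spec.mk (nat_lit 41630) (nat_lit 0) [] (nat_lit 0) [] false,
   Spec.mk (nat_lit 41632) (nat_lit 0) [] (nat_lit 0) [] false,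
   Spec.mk (nat_lit 41660) (nat_lit 0) [] (nat_lit 0) [] false,
   Spec.mk (nat_lit 41678) (nat_lit 0) [] (nat_lit 0) [] false,
   Spec.mk (nat_lit 41684) (nat_lit 0) [] (nat_lit 0) [] false,
   Spec.mk (nat_lit 41686) (nat_lit 0) [] (nat_lit 0) [] false,
   Spec.mk (nat_lit 41696) (nat_lit 0) [] (nat_lit 0) [] false,
   Spec.mk (nat_lit 41702) (nat_lit 0) [] (nat_lit 0) [] false,
   Spec.mk (nat_lit 41704) (nat_lit 0) [] (nat_lit 0) [] false,
   Spec.mk (nat_lit 41708) (nat_lit 0) [] (nat_lit 0) [] false,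
   Spec.mk (nat_lit 41710) (nat_lit 0) [] (nat_lit 0) [] false,
   Spec.mk (nat_lit 41712) (nat_lit 0) [] (nat_lit 0) [] false,
   Spec.mk (nat_lit 41732) (nat_lit 0) [] (nat_lit 0) [] false,
   Spec.mk (nat_lit 41738) (nat_lit 0) [] (nat_lit 0) [] false,
   Spec.mk (nat_lit 41740) (nat_lit 0) [] (nat_lit 0) [] false]

noncomputable def cd107 : List Spec :=
  [Spec.mk (nat_lit 41750) (nat_lit 0) [] (nat_lit 0) [] false,
   Spec.mk (nat_lit 41756) (nat_lit 0) [] (nat_lit 0) [] false,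
   Spec.mk (nat_lit 41758) (nat_lit 0) [] (nat_lit 0) [] false,
   Spec.mk (nat_lit 41762) (nat_lit 0) [] (nat_lit 0) [] false,
   Spec.mk (nat_lit 41764) (nat_lit 0) [] (nat_lit 0) [] false,
   Spec.mk (nat_lit 41766) (nat_lit 0) [] (nat_lit 0) [] false,
   Spec.mk (nat_lit 41774) (nat_lit 0) [] (nat_lit 0) [] false,
   Spec.mk (nat_lit 41776) (nat_lit 0) [] (nat_lit 0) [] false,
   Spec.mk (nat_lit 41780) (nat_lit 0) [] (nat_lit 0) [] false,
   Spec.mk (nat_lit 41782) (nat_lit 0) [] (nat_lit 0) [] false,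
   Spec.mk (nat_lit 41784) (nat_lit 0) [] (nat_lit 0) [] false,
   Spec.mk (nat_lit 41788) (nat_lit 0) [] (nat_lit 0) [] false,
   Spec.mk (nat_lit 41790) (nat_lit 0) [] (nat_lit 0) [] false,
   Spec.mk (nat_lit 41822) (nat_lit 0) [] (nat_lit 0) [] false,
   Spec.mk (nat_lit 41840) (nat_lit 0) [] (nat_lit 0) [] false,
   Spec.mk (nat_lit 41846) (nat_lit 0) [] (nat_lit 0) [] false,
   Spec.mk (nat_lit 41848) (nat_lit 0) [] (nat_lit 0) [] false,
   Spec.mk (nat_lit 41858) (nat_lit 0) [] (nat_lit 0) [] false,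
   Spec.mk (nat_lit 41864) (nat_lit 0) [] (nat_lit 0) [] false,
   Spec.mk (nat_lit 41866) (nat_lit 0) [] (nat_lit 0) [] false,
   Spec.mk (nat_lit 41870) (nat_lit 0) [] (nat_lit 0) [] false,
   Spec.mk (nat_lit 41872) (nat_lit 0) [] (nat_lit 0) [] false,
   Spec.mk (nat_lit 41874) (nat_lit 0) [] (nat_lit 0) [] false,
   Spec.mk (nat_lit 41894) (nat_lit 0) [] (nat_lit 0) [] false,
   Spec.mk (nat_lit 41900) (nat_lit 0) [] (nat_lit 0) [] false,
   Spec.mk (nat_lit 41902) (nat_lit 0) [] (nat_lit 0) [] false,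
   Spec.mk (nat_lit 41912) (nat_lit 0) [] (nat_lit 0) [] false,
   Spec.mk (nat_lit 41918) (nat_lit 0) [] (nat_lit 0) [] false,
   Spec.mk (nat_lit 41920) (nat_lit 0) [] (nat_lit 0) [] false,
   Spec.mk (nat_lit 41924) (nat_lit 0) [] (nat_lit 0) [] false,
   Spec.mk (nat_lit 41926) (nat_lit 0) [] (nat_lit 0) [] false,
   Spec.mk (nat_lit 41928) (nat_lit 0) [] (nat_lit 0) [] false,
   Spec.mk (nat_lit 41936) (nat_lit 0) [] (nat_lit 0) [] false,
   Spec.mk (nat_lit 41938) (nat_lit 0) [] (nat_lit 0) [] false,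
   Spec.mk (nat_lit 41942) (nat_lit 0) [] (nat_lit 0) [] false,
   Spec.mk (nat_lit 41944) (nat_lit 0) [] (nat_lit 0) [] false,
   Spec.mk (nat_lit 41946) (nat_lit 0) [] (nat_lit 0) [] false,
   Spec.mk (nat_lit 41950) (nat_lit 0) [] (nat_lit 0) [] false,
   Spec.mk (nat_lit 41952) (nat_lit 0) [] (nat_lit 0) [] false,
   Spec.mk (nat_lit 41966) (nat_lit 0) [] (nat_lit 0) [] false,
   Spec.mk (nat_lit 41972) (nat_lit 0) [] (nat_lit 0) [] false,
   Spec.mk (nat_lit 41974) (nat_lit 0) [] (nat_lit 0) [] false,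
   Spec.mk (nat_lit 41978) (nat_lit 0) [] (nat_lit 0) [] false,
   Spec.mk (nat_lit 41980) (nat_lit 0) [] (nat_lit 0) [] false,
   Spec.mk (nat_lit 41982) (nat_lit 0) [] (nat_lit 0) [] false,
   Spec.mk (nat_lit 41990) (nat_lit 0) [] (nat_lit 0) [] false,
   Spec.mk (nat_lit 41992) (nat_lit 0) [] (nat_lit 0) [] false,
   Spec.mk (nat_lit 41996) (nat_lit 0) [] (nat_lit 0) [] false,
   Spec.mk (nat_lit 41998) (nat_lit 0) [] (nat_lit 0) [] false,
   Spec.mk (nat_lit 42000) (nat_lit 0) [] (nat_lit 0) [] false,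
   Spec.mk (nat_lit 42004) (nat_lit 0) [] (nat_lit 0) [] false,
   Spec.mk (nat_lit 42006) (nat_lit 0) [] (nat_lit 0) [] false,
   Spec.mk (nat_lit 42014) (nat_lit 0) [] (nat_lit 0) [] false,
   Spec.mk (nat_lit 42016) (nat_lit 0) [] (nat_lit 0) [] false,
   Spec.mk (nat_lit 42018) (nat_lit 0) [] (nat_lit 0) [] false,
   Spec.mk (nat_lit 42022) (nat_lit 0) [] (nat_lit 0) [] false,
   Spec.mk (nat_lit 42024) (nat_lit 0) [] (nat_lit 0) [] false,
   Spec.mk (nat_lit 42030) (nat_lit 0) [] (nat_lit 0) [] false,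
   Spec.mk (nat_lit 42056) (nat_lit 0) [] (nat_lit 0) [] false,
   Spec.mk (nat_lit 42062) (nat_lit 0) [] (nat_lit 0) [] false]

noncomputable def cd108 : List Spec :=
  [Spec.mk (nat_lit 42064) (nat_lit 0) [] (nat_lit 0) [] false,
   Spec.mk (nat_lit 42074) (nat_lit 0) [] (nat_lit 0) [] false,
   Spec.mk (nat_lit 42080) (nat_lit 0) [] (nat_lit 0) [] false,
   Spec.mk (nat_lit 42082) (nat_lit 0) [] (nat_lit 0) [] false,
   Spec.mk (nat_lit 42086) (nat_lit 0) [] (nat_lit 0) [] false,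
   Spec.mk (nat_lit 42088) (nat_lit 0) [] (nat_lit 0) [] false,
   Spec.mk (nat_lit 42090) (nat_lit 0) [] (nat_lit 0) [] false,
   Spec.mk (nat_lit 42098) (nat_lit 0) [] (nat_lit 0) [] false,
   Spec.mk (nat_lit 42100) (nat_lit 0) [] (nat_lit 0) [] false,
   Spec.mk (nat_lit 42104) (nat_lit 0) [] (nat_lit 0) [] false,
   Spec.mk (nat_lit 42106) (nat_lit 0) [] (nat_lit 0) [] false,
   Spec.mk (nat_lit 42108) (nat_lit 0) [] (nat_lit 0) [] false,
   Spec.mk (nat_lit 42112) (nat_lit 0) [] (nat_lit 0) [] false,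
   Spec.mk (nat_lit 42114) (nat_lit 0) [] (nat_lit 0) [] false,
   Spec.mk (nat_lit 42128) (nat_lit 0) [] (nat_lit 0) [] false,
   Spec.mk (nat_lit 42134) (nat_lit 0) [] (nat_lit 0) [] false,
   Spec.mk (nat_lit 42136) (nat_lit 0) [] (nat_lit 0) [] false,
   Spec.mk (nat_lit 42140) (nat_lit 0) [] (nat_lit 0) [] false,
   Spec.mk (nat_lit 42142) (nat_lit 0) [] (nat_lit 0) [] false,
   Spec.mk (nat_lit 42144) (nat_lit 0) [] (nat_lit 0) [] false,
   Spec.mk (nat_lit 42152) (nat_lit 0) [] (nat_lit 0) [] false,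
   Spec.mk (nat_lit 42154) (nat_lit 0) [] (nat_lit 0) [] false,
   Spec.mk (nat_lit 42158) (nat_lit 0) [] (nat_lit 0) [] false,
   Spec.mk (nat_lit 42160) (nat_lit 0) [] (nat_lit 0) [] false,
   Spec.mk (nat_lit 42162) (nat_lit 0) [] (nat_lit 0) [] false,
   Spec.mk (nat_lit 42166) (nat_lit 0) [] (nat_lit 0) [] false,
   Spec.mk (nat_lit 42168) (nat_lit 0) [] (nat_lit 0) [] false,
   Spec.mk (nat_lit 42176) (nat_lit 0) [] (nat_lit 0) [] false,
   Spec.mk (nat_lit 42178) (nat_lit 0) [] (nat_lit 0) [] false,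
   Spec.mk (nat_lit 42180) (nat_lit 0) [] (nat_lit 0) [] false,
   Spec.mk (nat_lit 42184) (nat_lit 0) [] (nat_lit 0) [] false,
   Spec.mk (nat_lit 42186) (nat_lit 0) [] (nat_lit 0) [] false,
   Spec.mk (nat_lit 42192) (nat_lit 0) [] (nat_lit 0) [] false,
   Spec.mk (nat_lit 42206) (nat_lit 0) [] (nat_lit 0) [] false,
   Spec.mk (nat_lit 42208) (nat_lit 0) [] (nat_lit 0) [] false,
   Spec.mk (nat_lit 42212) (nat_lit 0) [] (nat_lit 0) [] false,
   Spec.mk (nat_lit 42214) (nat_lit 0) [] (nat_lit 0) [] false,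
   Spec.mk (nat_lit 42216) (nat_lit 0) [] (nat_lit 0) [] false,
   Spec.mk (nat_lit 42220) (nat_lit 0) [] (nat_lit 0) [] false,
   Spec.mk (nat_lit 42222) (nat_lit 0) [] (nat_lit 0) [] false,
   Spec.mk (nat_lit 42230) (nat_lit 0) [] (nat_lit 0) [] false,
   Spec.mk (nat_lit 42232) (nat_lit 0) [] (nat_lit 0) [] false,
   Spec.mk (nat_lit 42234) (nat_lit 0) [] (nat_lit 0) [] false,
   Spec.mk (nat_lit 42238) (nat_lit 0) [] (nat_lit 0) [] false,
   Spec.mk (nat_lit 42240) (nat_lit 0) [] (nat_lit 0) [] false,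
   Spec.mk (nat_lit 42246) (nat_lit 0) [] (nat_lit 0) [] false,
   Spec.mk (nat_lit 42256) (nat_lit 0) [] (nat_lit 0) [] false,
   Spec.mk (nat_lit 42258) (nat_lit 0) [] (nat_lit 0) [] false,
   Spec.mk (nat_lit 42264) (nat_lit 0) [] (nat_lit 0) [] false,
   Spec.mk (nat_lit 42308) (nat_lit 0) [] (nat_lit 0) [] false,
   Spec.mk (nat_lit 42326) (nat_lit 0) [] (nat_lit 0) [] false,
   Spec.mk (nat_lit 42332) (nat_lit 0) [] (nat_lit 0) [] false,
   Spec.mk (nat_lit 42334) (nat_lit 0) [] (nat_lit 0) [] false,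
   Spec.mk (nat_lit 42344) (nat_lit 0) [] (nat_lit 0) [] false,
   Spec.mk (nat_lit 42350) (nat_lit 0) [] (nat_lit 0) [] false,
   Spec.mk (nat_lit 42352) (nat_lit 0) [] (nat_lit 0) [] false,
   Spec.mk (nat_lit 42356) (nat_lit 0) [] (nat_lit 0) [] false,
   Spec.mk (nat_lit 42358) (nat_lit 0) [] (nat_lit 0) [] false,
   Spec.mk (nat_lit 42360) (nat_lit 0) [] (nat_lit 0) [] false,
   Spec.mk (nat_lit 42380) (nat_lit 0) [] (nat_lit 0) [] false]

noncomputable def cd109 : List Spec :=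
  [Spec.mk (nat_lit 42386) (nat_lit 0) [] (nat_lit 0) [] false,
   Spec.mk (nat_lit 42388) (nat_lit 0) [] (nat_lit 0) [] false,
   Spec.mk (nat_lit 42398) (nat_lit 0) [] (nat_lit 0) [] false,
   Spec.mk (nat_lit 42404) (nat_lit 0) [] (nat_lit 0) [] false,
   Spec.mk (nat_lit 42406) (nat_lit 0) [] (nat_lit 0) [] false,
   Spec.mk (nat_lit 42410) (nat_lit 0) [] (nat_lit 0) [] false,
   Spec.mk (nat_lit 42412) (nat_lit 0) [] (nat_lit 0) [] false,
   Spec.mk (nat_lit 42414) (nat_lit 0) [] (nat_lit 0) [] false,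
   Spec.mk (nat_lit 42422) (nat_lit 0) [] (nat_lit 0) [] false,
   Spec.mk (nat_lit 42424) (nat_lit 0) [] (nat_lit 0) [] false,
   Spec.mk (nat_lit 42428) (nat_lit 0) [] (nat_lit 0) [] false,
   Spec.mk (nat_lit 42430) (nat_lit 0) [] (nat_lit 0) [] false,
   Spec.mk (nat_lit 42432) (nat_lit 0) [] (nat_lit 0) [] false,
   Spec.mk (nat_lit 42436) (nat_lit 0) [] (nat_lit 0) [] false,
   Spec.mk (nat_lit 42438) (nat_lit 0) [] (nat_lit 0) [] false,
   Spec.mk (nat_lit 42452) (nat_lit 0) [] (nat_lit 0) [] false,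
   Spec.mk (nat_lit 42458) (nat_lit 0) [] (nat_lit 0) [] false,
   Spec.mk (nat_lit 42460) (nat_lit 0) [] (nat_lit 0) [] false,
   Spec.mk (nat_lit 42464) (nat_lit 0) [] (nat_lit 0) [] false,
   Spec.mk (nat_lit 42466) (nat_lit 0) [] (nat_lit 0) [] false,
   Spec.mk (nat_lit 42468) (nat_lit 0) [] (nat_lit 0) [] false,
   Spec.mk (nat_lit 42476) (nat_lit 0) [] (nat_lit 0) [] false,
   Spec.mk (nat_lit 42478) (nat_lit 0) [] (nat_lit 0) [] false,
   Spec.mk (nat_lit 42482) (nat_lit 0) [] (nat_lit 0) [] false,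
   Spec.mk (nat_lit 42484) (nat_lit 0) [] (nat_lit 0) [] false,
   Spec.mk (nat_lit 42486) (nat_lit 0) [] (nat_lit 0) [] false,
   Spec.mk (nat_lit 42490) (nat_lit 0) [] (nat_lit 0) [] false,
   Spec.mk (nat_lit 42492) (nat_lit 0) [] (nat_lit 0) [] false,
   Spec.mk (nat_lit 42500) (nat_lit 0) [] (nat_lit 0) [] false,
   Spec.mk (nat_lit 42502) (nat_lit 0) [] (nat_lit 0) [] false,
   Spec.mk (nat_lit 42504) (nat_lit 0) [] (nat_lit 0) [] false,
   Spec.mk (nat_lit 42508) (nat_lit 0) [] (nat_lit 0) [] false,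
   Spec.mk (nat_lit 42510) (nat_lit 0) [] (nat_lit 0) [] false,
   Spec.mk (nat_lit 42516) (nat_lit 0) [] (nat_lit 0) [] false,
   Spec.mk (nat_lit 42542) (nat_lit 0) [] (nat_lit 0) [] false,
   Spec.mk (nat_lit 42548) (nat_lit 0) [] (nat_lit 0) [] false,
   Spec.mk (nat_lit 42550) (nat_lit 0) [] (nat_lit 0) [] false,
   Spec.mk (nat_lit 42560) (nat_lit 0) [] (nat_lit 0) [] false,
   Spec.mk (nat_lit 42566) (nat_lit 0) [] (nat_lit 0) [] false,
   Spec.mk (nat_lit 42568) (nat_lit 0) [] (nat_lit 0) [] false,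
   Spec.mk (nat_lit 42572) (nat_lit 0) [] (nat_lit 0) [] false,
   Spec.mk (nat_lit 42574) (nat_lit 0) [] (nat_lit 0) [] false,
   Spec.mk (nat_lit 42576) (nat_lit 0) [] (nat_lit 0) [] false,
   Spec.mk (nat_lit 42584) (nat_lit 0) [] (nat_lit 0) [] false,
   Spec.mk (nat_lit 42586) (nat_lit 0) [] (nat_lit 0) [] false,
   Spec.mk (nat_lit 42590) (nat_lit 0) [] (nat_lit 0) [] false,
   Spec.mk (nat_lit 42592) (nat_lit 0) [] (nat_lit 0) [] false,
   Spec.mk (nat_lit 42594) (nat_lit 0) [] (nat_lit 0) [] false,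
   Spec.mk (nat_lit 42598) (nat_lit 0) [] (nat_lit 0) [] false,
   Spec.mk (nat_lit 42600) (nat_lit 0) [] (nat_lit 0) [] false,
   Spec.mk (nat_lit 42614) (nat_lit 0) [] (nat_lit 0) [] false,
   Spec.mk (nat_lit 42620) (nat_lit 0) [] (nat_lit 0) [] false,
   Spec.mk (nat_lit 42622) (nat_lit 0) [] (nat_lit 0) [] false,
   Spec.mk (nat_lit 42626) (nat_lit 0) [] (nat_lit 0) [] false,
   Spec.mk (nat_lit 42628) (nat_lit 0) [] (nat_lit 0) [] false,
   Spec.mk (nat_lit 42630) (nat_lit 0) [] (nat_lit 0) [] false,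
   Spec.mk (nat_lit 42638) (nat_lit 0) [] (nat_lit 0) [] false,
   Spec.mk (nat_lit 42640) (nat_lit 0) [] (nat_lit 0) [] false,
   Spec.mk (nat_lit 42644) (nat_lit 0) [] (nat_lit 0) [] false,
   Spec.mk (nat_lit 42646) (nat_lit 0) [] (nat_lit 0) [] false]

noncomputable def cd110 : List Spec :=
  [Spec.mk (nat_lit 42648) (nat_lit 0) [] (nat_lit 0) [] false,
   Spec.mk (nat_lit 42652) (nat_lit 0) [] (nat_lit 0) [] false,
   Spec.mk (nat_lit 42654) (nat_lit 0) [] (nat_lit 0) [] false,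
   Spec.mk (nat_lit 42662) (nat_lit 0) [] (nat_lit 0) [] false,
   Spec.mk (nat_lit 42664) (nat_lit 0) [] (nat_lit 0) [] false,
   Spec.mk (nat_lit 42666) (nat_lit 0) [] (nat_lit 0) [] false,
   Spec.mk (nat_lit 42670) (nat_lit 0) [] (nat_lit 0) [] false,
   Spec.mk (nat_lit 42672) (nat_lit 0) [] (nat_lit 0) [] false,
   Spec.mk (nat_lit 42678) (nat_lit 0) [] (nat_lit 0) [] false,
   Spec.mk (nat_lit 42692) (nat_lit 0) [] (nat_lit 0) [] false,
   Spec.mk (nat_lit 42694) (nat_lit 0) [] (nat_lit 0) [] false,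
   Spec.mk (nat_lit 42698) (nat_lit 0) [] (nat_lit 0) [] false,
   Spec.mk (nat_lit 42700) (nat_lit 0) [] (nat_lit 0) [] false,
   Spec.mk (nat_lit 42702) (nat_lit 0) [] (nat_lit 0) [] false,
   Spec.mk (nat_lit 42706) (nat_lit 0) [] (nat_lit 0) [] false,
   Spec.mk (nat_lit 42708) (nat_lit 0) [] (nat_lit 0) [] false,
   Spec.mk (nat_lit 42716) (nat_lit 0) [] (nat_lit 0) [] false,
   Spec.mk (nat_lit 42718) (nat_lit 0) [] (nat_lit 0) [] false,
   Spec.mk (nat_lit 42720) (nat_lit 0) [] (nat_lit 0) [] false,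
   Spec.mk (nat_lit 42724) (nat_lit 0) [] (nat_lit 0) [] false,
   Spec.mk (nat_lit 42726) (nat_lit 0) [] (nat_lit 0) [] false,
   Spec.mk (nat_lit 42732) (nat_lit 0) [] (nat_lit 0) [] false,
   Spec.mk (nat_lit 42742) (nat_lit 0) [] (nat_lit 0) [] false,
   Spec.mk (nat_lit 42744) (nat_lit 0) [] (nat_lit 0) [] false,
   Spec.mk (nat_lit 42750) (nat_lit 0) [] (nat_lit 0) [] false,
   Spec.mk (nat_lit 42776) (nat_lit 0) [] (nat_lit 0) [] false,
   Spec.mk (nat_lit 42782) (nat_lit 0) [] (nat_lit 0) [] false,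
   Spec.mk (nat_lit 42784) (nat_lit 0) [] (nat_lit 0) [] false,
   Spec.mk (nat_lit 42788) (nat_lit 0) [] (nat_lit 0) [] false,
   Spec.mk (nat_lit 42790) (nat_lit 0) [] (nat_lit 0) [] false,
   Spec.mk (nat_lit 42792) (nat_lit 0) [] (nat_lit 0) [] false,
   Spec.mk (nat_lit 42800) (nat_lit 0) [] (nat_lit 0) [] false,
   Spec.mk (nat_lit 42802) (nat_lit 0) [] (nat_lit 0) [] false,
   Spec.mk (nat_lit 42806) (nat_lit 0) [] (nat_lit 0) [] false,
   Spec.mk (nat_lit 42808) (nat_lit 0) [] (nat_lit 0) [] false,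
   Spec.mk (nat_lit 42810) (nat_lit 0) [] (nat_lit 0) [] false,
   Spec.mk (nat_lit 42814) (nat_lit 0) [] (nat_lit 0) [] false,
   Spec.mk (nat_lit 42816) (nat_lit 0) [] (nat_lit 0) [] false,
   Spec.mk (nat_lit 42824) (nat_lit 0) [] (nat_lit 0) [] false,
   Spec.mk (nat_lit 42826) (nat_lit 0) [] (nat_lit 0) [] false,
   Spec.mk (nat_lit 42828) (nat_lit 0) [] (nat_lit 0) [] false,
   Spec.mk (nat_lit 42832) (nat_lit 0) [] (nat_lit 0) [] false,
   Spec.mk (nat_lit 42834) (nat_lit 0) [] (nat_lit 0) [] false,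
   Spec.mk (nat_lit 42840) (nat_lit 0) [] (nat_lit 0) [] false,
   Spec.mk (nat_lit 42854) (nat_lit 0) [] (nat_lit 0) [] false,
   Spec.mk (nat_lit 42856) (nat_lit 0) [] (nat_lit 0) [] false,
   Spec.mk (nat_lit 42860) (nat_lit 0) [] (nat_lit 0) [] false,
   Spec.mk (nat_lit 42862) (nat_lit 0) [] (nat_lit 0) [] false,
   Spec.mk (nat_lit 42864) (nat_lit 0) [] (nat_lit 0) [] false,
   Spec.mk (nat_lit 42868) (nat_lit 0) [] (nat_lit 0) [] false,
   Spec.mk (nat_lit 42870) (nat_lit 0) [] (nat_lit 0) [] false,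
   Spec.mk (nat_lit 42878) (nat_lit 0) [] (nat_lit 0) [] false,
   Spec.mk (nat_lit 42880) (nat_lit 0) [] (nat_lit 0) [] false,
   Spec.mk (nat_lit 42882) (nat_lit 0) [] (nat_lit 0) [] false,
   Spec.mk (nat_lit 42886) (nat_lit 0) [] (nat_lit 0) [] false,
   Spec.mk (nat_lit 42888) (nat_lit 0) [] (nat_lit 0) [] false,
   Spec.mk (nat_lit 42894) (nat_lit 0) [] (nat_lit 0) [] false,
   Spec.mk (nat_lit 42904) (nat_lit 0) [] (nat_lit 0) [] false,
   Spec.mk (nat_lit 42906) (nat_lit 0) [] (nat_lit 0) [] false,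
   Spec.mk (nat_lit 42912) (nat_lit 0) [] (nat_lit 0) [] false]

noncomputable def cd111 : List Spec :=
  [Spec.mk (nat_lit 42932) (nat_lit 0) [] (nat_lit 0) [] false,
   Spec.mk (nat_lit 42934) (nat_lit 0) [] (nat_lit 0) [] false,
   Spec.mk (nat_lit 42936) (nat_lit 0) [] (nat_lit 0) [] false,
   Spec.mk (nat_lit 42940) (nat_lit 0) [] (nat_lit 0) [] false,
   Spec.mk (nat_lit 42942) (nat_lit 0) [] (nat_lit 0) [] false,
   Spec.mk (nat_lit 42948) (nat_lit 0) [] (nat_lit 0) [] false,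
   Spec.mk (nat_lit 42958) (nat_lit 0) [] (nat_lit 0) [] false,
   Spec.mk (nat_lit 42960) (nat_lit 0) [] (nat_lit 0) [] false,
   Spec.mk (nat_lit 42966) (nat_lit 0) [] (nat_lit 0) [] false,
   Spec.mk (nat_lit 42984) (nat_lit 0) [] (nat_lit 0) [] false,
   Spec.mk (nat_lit 43028) (nat_lit 0) [] (nat_lit 0) [] false,
   Spec.mk (nat_lit 43034) (nat_lit 0) [] (nat_lit 0) [] false,
   Spec.mk (nat_lit 43036) (nat_lit 0) [] (nat_lit 0) [] false,
   Spec.mk (nat_lit 43046) (nat_lit 0) [] (nat_lit 0) [] false,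
   Spec.mk (nat_lit 43052) (nat_lit 0) [] (nat_lit 0) [] false,
   Spec.mk (nat_lit 43054) (nat_lit 0) [] (nat_lit 0) [] false,
   Spec.mk (nat_lit 43058) (nat_lit 0) [] (nat_lit 0) [] false,
   Spec.mk (nat_lit 43060) (nat_lit 0) [] (nat_lit 0) [] false,
   Spec.mk (nat_lit 43062) (nat_lit 0) [] (nat_lit 0) [] false,
   Spec.mk (nat_lit 43070) (nat_lit 0) [] (nat_lit 0) [] false,
   Spec.mk (nat_lit 43072) (nat_lit 0) [] (nat_lit 0) [] false,
   Spec.mk (nat_lit 43076) (nat_lit 0) [] (nat_lit 0) [] false,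
   Spec.mk (nat_lit 43078) (nat_lit 0) [] (nat_lit 0) [] false,
   Spec.mk (nat_lit 43080) (nat_lit 0) [] (nat_lit 0) [] false,
   Spec.mk (nat_lit 43084) (nat_lit 0) [] (nat_lit 0) [] false,
   Spec.mk (nat_lit 43086) (nat_lit 0) [] (nat_lit 0) [] false,
   Spec.mk (nat_lit 43100) (nat_lit 0) [] (nat_lit 0) [] false,
   Spec.mk (nat_lit 43106) (nat_lit 0) [] (nat_lit 0) [] false,
   Spec.mk (nat_lit 43108) (nat_lit 0) [] (nat_lit 0) [] false,
   Spec.mk (nat_lit 43112) (nat_lit 0) [] (nat_lit 0) [] false,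
   Spec.mk (nat_lit 43114) (nat_lit 0) [] (nat_lit 0) [] false,
   Spec.mk (nat_lit 43116) (nat_lit 0) [] (nat_lit 0) [] false,
   Spec.mk (nat_lit 43124) (nat_lit 0) [] (nat_lit 0) [] false,
   Spec.mk (nat_lit 43126) (nat_lit 0) [] (nat_lit 0) [] false,
   Spec.mk (nat_lit 43130) (nat_lit 0) [] (nat_lit 0) [] false,
   Spec.mk (nat_lit 43132) (nat_lit 0) [] (nat_lit 0) [] false,
   Spec.mk (nat_lit 43134) (nat_lit 0) [] (nat_lit 0) [] false,
   Spec.mk (nat_lit 43138) (nat_lit 0) [] (nat_lit 0) [] false,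
   Spec.mk (nat_lit 43140) (nat_lit 0) [] (nat_lit 0) [] false,
   Spec.mk (nat_lit 43148) (nat_lit 0) [] (nat_lit 0) [] false,
   Spec.mk (nat_lit 43150) (nat_lit 0) [] (nat_lit 0) [] false,
   Spec.mk (nat_lit 43152) (nat_lit 0) [] (nat_lit 0) [] false,
   Spec.mk (nat_lit 43156) (nat_lit 0) [] (nat_lit 0) [] false,
   Spec.mk (nat_lit 43158) (nat_lit 0) [] (nat_lit 0) [] false,
   Spec.mk (nat_lit 43164) (nat_lit 0) [] (nat_lit 0) [] false,
   Spec.mk (nat_lit 43178) (nat_lit 0) [] (nat_lit 0) [] false,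
   Spec.mk (nat_lit 43180) (nat_lit 0) [] (nat_lit 0) [] false,
   Spec.mk (nat_lit 43184) (nat_lit 0) [] (nat_lit 0) [] false,
   Spec.mk (nat_lit 43186) (nat_lit 0) [] (nat_lit 0) [] false,
   Spec.mk (nat_lit 43188) (nat_lit 0) [] (nat_lit 0) [] false,
   Spec.mk (nat_lit 43192) (nat_lit 0) [] (nat_lit 0) [] false,
   Spec.mk (nat_lit 43194) (nat_lit 0) [] (nat_lit 0) [] false,
   Spec.mk (nat_lit 43202) (nat_lit 0) [] (nat_lit 0) [] false,
   Spec.mk (nat_lit 43204) (nat_lit 0) [] (nat_lit 0) [] false,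
   Spec.mk (nat_lit 43206) (nat_lit 0) [] (nat_lit 0) [] false,
   Spec.mk (nat_lit 43210) (nat_lit 0) [] (nat_lit 0) [] false,
   Spec.mk (nat_lit 43212) (nat_lit 0) [] (nat_lit 0) [] false,
   Spec.mk (nat_lit 43218) (nat_lit 0) [] (nat_lit 0) [] false,
   Spec.mk (nat_lit 43228) (nat_lit 0) [] (nat_lit 0) [] false,
   Spec.mk (nat_lit 43230) (nat_lit 0) [] (nat_lit 0) [] false]

noncomputable def cd112 : List Spec :=
  [Spec.mk (nat_lit 43236) (nat_lit 0) [] (nat_lit 0) [] false,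
   Spec.mk (nat_lit 43262) (nat_lit 0) [] (nat_lit 0) [] false,
   Spec.mk (nat_lit 43268) (nat_lit 0) [] (nat_lit 0) [] false,
   Spec.mk (nat_lit 43270) (nat_lit 0) [] (nat_lit 0) [] false,
   Spec.mk (nat_lit 43274) (nat_lit 0) [] (nat_lit 0) [] false,
   Spec.mk (nat_lit 43276) (nat_lit 0) [] (nat_lit 0) [] false,
   Spec.mk (nat_lit 43278) (nat_lit 0) [] (nat_lit 0) [] false,
   Spec.mk (nat_lit 43286) (nat_lit 0) [] (nat_lit 0) [] false,
   Spec.mk (nat_lit 43288) (nat_lit 0) [] (nat_lit 0) [] false,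
   Spec.mk (nat_lit 43292) (nat_lit 0) [] (nat_lit 0) [] false,
   Spec.mk (nat_lit 43294) (nat_lit 0) [] (nat_lit 0) [] false,
   Spec.mk (nat_lit 43296) (nat_lit 0) [] (nat_lit 0) [] false,
   Spec.mk (nat_lit 43300) (nat_lit 0) [] (nat_lit 0) [] false,
   Spec.mk (nat_lit 43302) (nat_lit 0) [] (nat_lit 0) [] false,
   Spec.mk (nat_lit 43310) (nat_lit 0) [] (nat_lit 0) [] false,
   Spec.mk (nat_lit 43312) (nat_lit 0) [] (nat_lit 0) [] false,
   Spec.mk (nat_lit 43314) (nat_lit 0) [] (nat_lit 0) [] false,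
   Spec.mk (nat_lit 43318) (nat_lit 0) [] (nat_lit 0) [] false,
   Spec.mk (nat_lit 43320) (nat_lit 0) [] (nat_lit 0) [] false,
   Spec.mk (nat_lit 43326) (nat_lit 0) [] (nat_lit 0) [] false,
   Spec.mk (nat_lit 43340) (nat_lit 0) [] (nat_lit 0) [] false,
   Spec.mk (nat_lit 43342) (nat_lit 0) [] (nat_lit 0) [] false,
   Spec.mk (nat_lit 43346) (nat_lit 0) [] (nat_lit 0) [] false,
   Spec.mk (nat_lit 43348) (nat_lit 0) [] (nat_lit 0) [] false,
   Spec.mk (nat_lit 43350) (nat_lit 0) [] (nat_lit 0) [] false,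
   Spec.mk (nat_lit 43354) (nat_lit 0) [] (nat_lit 0) [] false,
   Spec.mk (nat_lit 43356) (nat_lit 0) [] (nat_lit 0) [] false,
   Spec.mk (nat_lit 43364) (nat_lit 0) [] (nat_lit 0) [] false,
   Spec.mk (nat_lit 43366) (nat_lit 0) [] (nat_lit 0) [] false,
   Spec.mk (nat_lit 43368) (nat_lit 0) [] (nat_lit 0) [] false,
   Spec.mk (nat_lit 43372) (nat_lit 0) [] (nat_lit 0) [] false,
   Spec.mk (nat_lit 43374) (nat_lit 0) [] (nat_lit 0) [] false,
   Spec.mk (nat_lit 43380) (nat_lit 0) [] (nat_lit 0) [] false,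
   Spec.mk (nat_lit 43390) (nat_lit 0) [] (nat_lit 0) [] false,
   Spec.mk (nat_lit 43392) (nat_lit 0) [] (nat_lit 0) [] false,
   Spec.mk (nat_lit 43398) (nat_lit 0) [] (nat_lit 0) [] false,
   Spec.mk (nat_lit 43418) (nat_lit 0) [] (nat_lit 0) [] false,
   Spec.mk (nat_lit 43420) (nat_lit 0) [] (nat_lit 0) [] false,
   Spec.mk (nat_lit 43422) (nat_lit 0) [] (nat_lit 0) [] false,
   Spec.mk (nat_lit 43426) (nat_lit 0) [] (nat_lit 0) [] false,
   Spec.mk (nat_lit 43428) (nat_lit 0) [] (nat_lit 0) [] false,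
   Spec.mk (nat_lit 43434) (nat_lit 0) [] (nat_lit 0) [] false,
   Spec.mk (nat_lit 43444) (nat_lit 0) [] (nat_lit 0) [] false,
   Spec.mk (nat_lit 43446) (nat_lit 0) [] (nat_lit 0) [] false,
   Spec.mk (nat_lit 43452) (nat_lit 0) [] (nat_lit 0) [] false,
   Spec.mk (nat_lit 43470) (nat_lit 0) [] (nat_lit 0) [] false,
   Spec.mk (nat_lit 43502) (nat_lit 0) [] (nat_lit 0) [] false,
   Spec.mk (nat_lit 43504) (nat_lit 0) [] (nat_lit 0) [] false,
   Spec.mk (nat_lit 43508) (nat_lit 0) [] (nat_lit 0) [] false,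
   Spec.mk (nat_lit 43510) (nat_lit 0) [] (nat_lit 0) [] false,
   Spec.mk (nat_lit 43512) (nat_lit 0) [] (nat_lit 0) [] false,
   Spec.mk (nat_lit 43516) (nat_lit 0) [] (nat_lit 0) [] false,
   Spec.mk (nat_lit 43518) (nat_lit 0) [] (nat_lit 0) [] false,
   Spec.mk (nat_lit 43526) (nat_lit 0) [] (nat_lit 0) [] false,
   Spec.mk (nat_lit 43528) (nat_lit 0) [] (nat_lit 0) [] false,
   Spec.mk (nat_lit 43530) (nat_lit 0) [] (nat_lit 0) [] false,
   Spec.mk (nat_lit 43534) (nat_lit 0) [] (nat_lit 0) [] false,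
   Spec.mk (nat_lit 43536) (nat_lit 0) [] (nat_lit 0) [] false,
   Spec.mk (nat_lit 43542) (nat_lit 0) [] (nat_lit 0) [] false,
   Spec.mk (nat_lit 43552) (nat_lit 0) [] (nat_lit 0) [] false]

noncomputable def cd113 : List Spec :=
  [Spec.mk (nat_lit 43554) (nat_lit 0) [] (nat_lit 0) [] false,
   Spec.mk (nat_lit 43560) (nat_lit 0) [] (nat_lit 0) [] false,
   Spec.mk (nat_lit 43580) (nat_lit 0) [] (nat_lit 0) [] false,
   Spec.mk (nat_lit 43582) (nat_lit 0) [] (nat_lit 0) [] false,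
   Spec.mk (nat_lit 43584) (nat_lit 0) [] (nat_lit 0) [] false,
   Spec.mk (nat_lit 43588) (nat_lit 0) [] (nat_lit 0) [] false,
   Spec.mk (nat_lit 43590) (nat_lit 0) [] (nat_lit 0) [] false,
   Spec.mk (nat_lit 43596) (nat_lit 0) [] (nat_lit 0) [] false,
   Spec.mk (nat_lit 43606) (nat_lit 0) [] (nat_lit 0) [] false,
   Spec.mk (nat_lit 43608) (nat_lit 0) [] (nat_lit 0) [] false,
   Spec.mk (nat_lit 43614) (nat_lit 0) [] (nat_lit 0) [] false,
   Spec.mk (nat_lit 43632) (nat_lit 0) [] (nat_lit 0) [] false,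
   Spec.mk (nat_lit 43660) (nat_lit 0) [] (nat_lit 0) [] false,
   Spec.mk (nat_lit 43662) (nat_lit 0) [] (nat_lit 0) [] false,
   Spec.mk (nat_lit 43668) (nat_lit 0) [] (nat_lit 0) [] false,
   Spec.mk (nat_lit 43686) (nat_lit 0) [] (nat_lit 0) [] false,
   Spec.mk (nat_lit 43766) (nat_lit 0) [] (nat_lit 0) [] false,
   Spec.mk (nat_lit 43784) (nat_lit 0) [] (nat_lit 0) [] false,
   Spec.mk (nat_lit 43790) (nat_lit 0) [] (nat_lit 0) [] false,
   Spec.mk (nat_lit 43792) (nat_lit 0) [] (nat_lit 0) [] false,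
   Spec.mk (nat_lit 43802) (nat_lit 0) [] (nat_lit 0) [] false,
   Spec.mk (nat_lit 43808) (nat_lit 0) [] (nat_lit 0) [] false,
   Spec.mk (nat_lit 43810) (nat_lit 0) [] (nat_lit 0) [] false,
   Spec.mk (nat_lit 43814) (nat_lit 0) [] (nat_lit 0) [] false,
   Spec.mk (nat_lit 43816) (nat_lit 0) [] (nat_lit 0) [] false,
   Spec.mk (nat_lit 43818) (nat_lit 0) [] (nat_lit 0) [] false,
   Spec.mk (nat_lit 43838) (nat_lit 0) [] (nat_lit 0) [] false,
   Spec.mk (nat_lit 43844) (nat_lit 0) [] (nat_lit 0) [] false,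
   Spec.mk (nat_lit 43846) (nat_lit 0) [] (nat_lit 0) [] false,
   Spec.mk (nat_lit 43856) (nat_lit 0) [] (nat_lit 0) [] false,
   Spec.mk (nat_lit 43862) (nat_lit 0) [] (nat_lit 0) [] false,
   Spec.mk (nat_lit 43864) (nat_lit 0) [] (nat_lit 0) [] false,
   Spec.mk (nat_lit 43868) (nat_lit 0) [] (nat_lit 0) [] false,
   Spec.mk (nat_lit 43870) (nat_lit 0) [] (nat_lit 0) [] false,
   Spec.mk (nat_lit 43872) (nat_lit 0) [] (nat_lit 0) [] false,
   Spec.mk (nat_lit 43880) (nat_lit 0) [] (nat_lit 0) [] false,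
   Spec.mk (nat_lit 43882) (nat_lit 0) [] (nat_lit 0) [] false,
   Spec.mk (nat_lit 43886) (nat_lit 0) [] (nat_lit 0) [] false,
   Spec.mk (nat_lit 43888) (nat_lit 0) [] (nat_lit 0) [] false,
   Spec.mk (nat_lit 43890) (nat_lit 0) [] (nat_lit 0) [] false,
   Spec.mk (nat_lit 43894) (nat_lit 0) [] (nat_lit 0) [] false,
   Spec.mk (nat_lit 43896) (nat_lit 0) [] (nat_lit 0) [] false,
   Spec.mk (nat_lit 43910) (nat_lit 0) [] (nat_lit 0) [] false,
   Spec.mk (nat_lit 43916) (nat_lit 0) [] (nat_lit 0) [] false,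
   Spec.mk (nat_lit 43918) (nat_lit 0) [] (nat_lit 0) [] false,
   Spec.mk (nat_lit 43922) (nat_lit 0) [] (nat_lit 0) [] false,
   Spec.mk (nat_lit 43924) (nat_lit 0) [] (nat_lit 0) [] false,
   Spec.mk (nat_lit 43926) (nat_lit 0) [] (nat_lit 0) [] false,
   Spec.mk (nat_lit 43934) (nat_lit 0) [] (nat_lit 0) [] false,
   Spec.mk (nat_lit 43936) (nat_lit 0) [] (nat_lit 0) [] false,
   Spec.mk (nat_lit 43940) (nat_lit 0) [] (nat_lit 0) [] false,
   Spec.mk (nat_lit 43942) (nat_lit 0) [] (nat_lit 0) [] false,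
   Spec.mk (nat_lit 43944) (nat_lit 0) [] (nat_lit 0) [] false,
   Spec.mk (nat_lit 43948) (nat_lit 0) [] (nat_lit 0) [] false,
   Spec.mk (nat_lit 43950) (nat_lit 0) [] (nat_lit 0) [] false,
   Spec.mk (nat_lit 43958) (nat_lit 0) [] (nat_lit 0) [] false,
   Spec.mk (nat_lit 43960) (nat_lit 0) [] (nat_lit 0) [] false,
   Spec.mk (nat_lit 43962) (nat_lit 0) [] (nat_lit 0) [] false,
   Spec.mk (nat_lit 43966) (nat_lit 0) [] (nat_lit 0) [] false,
   Spec.mk (nat_lit 43968) (nat_lit 0) [] (nat_lit 0) [] false]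

noncomputable def cd114 : List Spec :=
  [Spec.mk (nat_lit 43974) (nat_lit 0) [] (nat_lit 0) [] false,
   Spec.mk (nat_lit 44000) (nat_lit 0) [] (nat_lit 0) [] false,
   Spec.mk (nat_lit 44006) (nat_lit 0) [] (nat_lit 0) [] false,
   Spec.mk (nat_lit 44008) (nat_lit 0) [] (nat_lit 0) [] false,
   Spec.mk (nat_lit 44018) (nat_lit 0) [] (nat_lit 0) [] false,
   Spec.mk (nat_lit 44024) (nat_lit 0) [] (nat_lit 0) [] false,
   Spec.mk (nat_lit 44026) (nat_lit 0) [] (nat_lit 0) [] false,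
   Spec.mk (nat_lit 44030) (nat_lit 0) [] (nat_lit 0) [] false,
   Spec.mk (nat_lit 44032) (nat_lit 0) [] (nat_lit 0) [] false,
   Spec.mk (nat_lit 44034) (nat_lit 0) [] (nat_lit 0) [] false,
   Spec.mk (nat_lit 44042) (nat_lit 0) [] (nat_lit 0) [] false,
   Spec.mk (nat_lit 44044) (nat_lit 0) [] (nat_lit 0) [] false,
   Spec.mk (nat_lit 44048) (nat_lit 0) [] (nat_lit 0) [] false,
   Spec.mk (nat_lit 44050) (nat_lit 0) [] (nat_lit 0) [] false,
   Spec.mk (nat_lit 44052) (nat_lit 0) [] (nat_lit 0) [] false,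
   Spec.mk (nat_lit 44056) (nat_lit 0) [] (nat_lit 0) [] false,
   Spec.mk (nat_lit 44058) (nat_lit 0) [] (nat_lit 0) [] false,
   Spec.mk (nat_lit 44072) (nat_lit 0) [] (nat_lit 0) [] false,
   Spec.mk (nat_lit 44078) (nat_lit 0) [] (nat_lit 0) [] false,
   Spec.mk (nat_lit 44080) (nat_lit 0) [] (nat_lit 0) [] false,
   Spec.mk (nat_lit 44084) (nat_lit 0) [] (nat_lit 0) [] false,
   Spec.mk (nat_lit 44086) (nat_lit 0) [] (nat_lit 0) [] false,
   Spec.mk (nat_lit 44088) (nat_lit 0) [] (nat_lit 0) [] false,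
   Spec.mk (nat_lit 44096) (nat_lit 0) [] (nat_lit 0) [] false,
   Spec.mk (nat_lit 44098) (nat_lit 0) [] (nat_lit 0) [] false,
   Spec.mk (nat_lit 44102) (nat_lit 0) [] (nat_lit 0) [] false,
   Spec.mk (nat_lit 44104) (nat_lit 0) [] (nat_lit 0) [] false,
   Spec.mk (nat_lit 44106) (nat_lit 0) [] (nat_lit 0) [] false,
   Spec.mk (nat_lit 44110) (nat_lit 0) [] (nat_lit 0) [] false,
   Spec.mk (nat_lit 44112) (nat_lit 0) [] (nat_lit 0) [] false,
   Spec.mk (nat_lit 44120) (nat_lit 0) [] (nat_lit 0) [] false,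
   Spec.mk (nat_lit 44122) (nat_lit 0) [] (nat_lit 0) [] false,
   Spec.mk (nat_lit 44124) (nat_lit 0) [] (nat_lit 0) [] false,
   Spec.mk (nat_lit 44128) (nat_lit 0) [] (nat_lit 0) [] false,
   Spec.mk (nat_lit 44130) (nat_lit 0) [] (nat_lit 0) [] false,
   Spec.mk (nat_lit 44136) (nat_lit 0) [] (nat_lit 0) [] false,
   Spec.mk (nat_lit 44150) (nat_lit 0) [] (nat_lit 0) [] false,
   Spec.mk (nat_lit 44152) (nat_lit 0) [] (nat_lit 0) [] false,
   Spec.mk (nat_lit 44156) (nat_lit 0) [] (nat_lit 0) [] false,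
   Spec.mk (nat_lit 44158) (nat_lit 0) [] (nat_lit 0) [] false,
   Spec.mk (nat_lit 44160) (nat_lit 0) [] (nat_lit 0) [] false,
   Spec.mk (nat_lit 44164) (nat_lit 0) [] (nat_lit 0) [] false,
   Spec.mk (nat_lit 44166) (nat_lit 0) [] (nat_lit 0) [] false,
   Spec.mk (nat_lit 44174) (nat_lit 0) [] (nat_lit 0) [] false,
   Spec.mk (nat_lit 44176) (nat_lit 0) [] (nat_lit 0) [] false,
   Spec.mk (nat_lit 44178) (nat_lit 0) [] (nat_lit 0) [] false,
   Spec.mk (nat_lit 44182) (nat_lit 0) [] (nat_lit 0) [] false,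
   Spec.mk (nat_lit 44184) (nat_lit 0) [] (nat_lit 0) [] false,
   Spec.mk (nat_lit 44190) (nat_lit 0) [] (nat_lit 0) [] false,
   Spec.mk (nat_lit 44200) (nat_lit 0) [] (nat_lit 0) [] false,
   Spec.mk (nat_lit 44202) (nat_lit 0) [] (nat_lit 0) [] false,
   Spec.mk (nat_lit 44208) (nat_lit 0) [] (nat_lit 0) [] false,
   Spec.mk (nat_lit 44234) (nat_lit 0) [] (nat_lit 0) [] false,
   Spec.mk (nat_lit 44240) (nat_lit 0) [] (nat_lit 0) [] false,
   Spec.mk (nat_lit 44242) (nat_lit 0) [] (nat_lit 0) [] false,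
   Spec.mk (nat_lit 44246) (nat_lit 0) [] (nat_lit 0) [] false,
   Spec.mk (nat_lit 44248) (nat_lit 0) [] (nat_lit 0) [] false,
   Spec.mk (nat_lit 44250) (nat_lit 0) [] (nat_lit 0) [] false,
   Spec.mk (nat_lit 44258) (nat_lit 0) [] (nat_lit 0) [] false,
   Spec.mk (nat_lit 44260) (nat_lit 0) [] (nat_lit 0) [] false]

noncomputable def cd115 : List Spec :=
  [Spec.mk (nat_lit 44264) (nat_lit 0) [] (nat_lit 0) [] false,
   Spec.mk (nat_lit 44266) (nat_lit 0) [] (nat_lit 0) [] false,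
   Spec.mk (nat_lit 44268) (nat_lit 0) [] (nat_lit 0) [] false,
   Spec.mk (nat_lit 44272) (nat_lit 0) [] (nat_lit 0) [] false,
   Spec.mk (nat_lit 44274) (nat_lit 0) [] (nat_lit 0) [] false,
   Spec.mk (nat_lit 44282) (nat_lit 0) [] (nat_lit 0) [] false,
   Spec.mk (nat_lit 44284) (nat_lit 0) [] (nat_lit 0) [] false,
   Spec.mk (nat_lit 44286) (nat_lit 0) [] (nat_lit 0) [] false,
   Spec.mk (nat_lit 44290) (nat_lit 0) [] (nat_lit 0) [] false,
   Spec.mk (nat_lit 44292) (nat_lit 0) [] (nat_lit 0) [] false,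
   Spec.mk (nat_lit 44298) (nat_lit 0) [] (nat_lit 0) [] false,
   Spec.mk (nat_lit 44312) (nat_lit 0) [] (nat_lit 0) [] false,
   Spec.mk (nat_lit 44314) (nat_lit 0) [] (nat_lit 0) [] false,
   Spec.mk (nat_lit 44318) (nat_lit 0) [] (nat_lit 0) [] false,
   Spec.mk (nat_lit 44320) (nat_lit 0) [] (nat_lit 0) [] false,
   Spec.mk (nat_lit 44322) (nat_lit 0) [] (nat_lit 0) [] false,
   Spec.mk (nat_lit 44326) (nat_lit 0) [] (nat_lit 0) [] false,
   Spec.mk (nat_lit 44328) (nat_lit 0) [] (nat_lit 0) [] false,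
   Spec.mk (nat_lit 44336) (nat_lit 0) [] (nat_lit 0) [] false,
   Spec.mk (nat_lit 44338) (nat_lit 0) [] (nat_lit 0) [] false,
   Spec.mk (nat_lit 44340) (nat_lit 0) [] (nat_lit 0) [] false,
   Spec.mk (nat_lit 44344) (nat_lit 0) [] (nat_lit 0) [] false,
   Spec.mk (nat_lit 44346) (nat_lit 0) [] (nat_lit 0) [] false,
   Spec.mk (nat_lit 44352) (nat_lit 0) [] (nat_lit 0) [] false,
   Spec.mk (nat_lit 44362) (nat_lit 0) [] (nat_lit 0) [] false,
   Spec.mk (nat_lit 44364) (nat_lit 0) [] (nat_lit 0) [] false,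
   Spec.mk (nat_lit 44370) (nat_lit 0) [] (nat_lit 0) [] false,
   Spec.mk (nat_lit 44390) (nat_lit 0) [] (nat_lit 0) [] false,
   Spec.mk (nat_lit 44392) (nat_lit 0) [] (nat_lit 0) [] false,
   Spec.mk (nat_lit 44394) (nat_lit 0) [] (nat_lit 0) [] false,
   Spec.mk (nat_lit 44398) (nat_lit 0) [] (nat_lit 0) [] false,
   Spec.mk (nat_lit 44400) (nat_lit 0) [] (nat_lit 0) [] false,
   Spec.mk (nat_lit 44406) (nat_lit 0) [] (nat_lit 0) [] false,
   Spec.mk (nat_lit 44416) (nat_lit 0) [] (nat_lit 0) [] false,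
   Spec.mk (nat_lit 44418) (nat_lit 0) [] (nat_lit 0) [] false,
   Spec.mk (nat_lit 44424) (nat_lit 0) [] (nat_lit 0) [] false,
   Spec.mk (nat_lit 44442) (nat_lit 0) [] (nat_lit 0) [] false,
   Spec.mk (nat_lit 44486) (nat_lit 0) [] (nat_lit 0) [] false,
   Spec.mk (nat_lit 44492) (nat_lit 0) [] (nat_lit 0) [] false,
   Spec.mk (nat_lit 44494) (nat_lit 0) [] (nat_lit 0) [] false,
   Spec.mk (nat_lit 44504) (nat_lit 0) [] (nat_lit 0) [] false,
   Spec.mk (nat_lit 44510) (nat_lit 0) [] (nat_lit 0) [] false,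
   Spec.mk (nat_lit 44512) (nat_lit 0) [] (nat_lit 0) [] false,
   Spec.mk (nat_lit 44516) (nat_lit 0) [] (nat_lit 0) [] false,
   Spec.mk (nat_lit 44518) (nat_lit 0) [] (nat_lit 0) [] false,
   Spec.mk (nat_lit 44520) (nat_lit 0) [] (nat_lit 0) [] false,
   Spec.mk (nat_lit 44528) (nat_lit 0) [] (nat_lit 0) [] false,
   Spec.mk (nat_lit 44530) (nat_lit 0) [] (nat_lit 0) [] false,
   Spec.mk (nat_lit 44534) (nat_lit 0) [] (nat_lit 0) [] false,
   Spec.mk (nat_lit 44536) (nat_lit 0) [] (nat_lit 0) [] false,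
   Spec.mk (nat_lit 44538) (nat_lit 0) [] (nat_lit 0) [] false,
   Spec.mk (nat_lit 44542) (nat_lit 0) [] (nat_lit 0) [] false,
   Spec.mk (nat_lit 44544) (nat_lit 0) [] (nat_lit 0) [] false,
   Spec.mk (nat_lit 44558) (nat_lit 0) [] (nat_lit 0) [] false,
   Spec.mk (nat_lit 44564) (nat_lit 0) [] (nat_lit 0) [] false,
   Spec.mk (nat_lit 44566) (nat_lit 0) [] (nat_lit 0) [] false,
   Spec.mk (nat_lit 44570) (nat_lit 0) [] (nat_lit 0) [] false,
   Spec.mk (nat_lit 44572) (nat_lit 0) [] (nat_lit 0) [] false,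
   Spec.mk (nat_lit 44574) (nat_lit 0) [] (nat_lit 0) [] false,
   Spec.mk (nat_lit 44582) (nat_lit 0) [] (nat_lit 0) [] false]

noncomputable def cd116 : List Spec :=
  [Spec.mk (nat_lit 44584) (nat_lit 0) [] (nat_lit 0) [] false,
   Spec.mk (nat_lit 44588) (nat_lit 0) [] (nat_lit 0) [] false,
   Spec.mk (nat_lit 44590) (nat_lit 0) [] (nat_lit 0) [] false,
   Spec.mk (nat_lit 44592) (nat_lit 0) [] (nat_lit 0) [] false,
   Spec.mk (nat_lit 44596) (nat_lit 0) [] (nat_lit 0) [] false,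
   Spec.mk (nat_lit 44598) (nat_lit 0) [] (nat_lit 0) [] false,
   Spec.mk (nat_lit 44606) (nat_lit 0) [] (nat_lit 0) [] false,
   Spec.mk (nat_lit 44608) (nat_lit 0) [] (nat_lit 0) [] false,
   Spec.mk (nat_lit 44610) (nat_lit 0) [] (nat_lit 0) [] false,
   Spec.mk (nat_lit 44614) (nat_lit 0) [] (nat_lit 0) [] false,
   Spec.mk (nat_lit 44616) (nat_lit 0) [] (nat_lit 0) [] false,
   Spec.mk (nat_lit 44622) (nat_lit 0) [] (nat_lit 0) [] false,
   Spec.mk (nat_lit 44636) (nat_lit 0) [] (nat_lit 0) [] false,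
   Spec.mk (nat_lit 44638) (nat_lit 0) [] (nat_lit 0) [] false,
   Spec.mk (nat_lit 44642) (nat_lit 0) [] (nat_lit 0) [] false,
   Spec.mk (nat_lit 44644) (nat_lit 0) [] (nat_lit 0) [] false,
   Spec.mk (nat_lit 44646) (nat_lit 0) [] (nat_lit 0) [] false,
   Spec.mk (nat_lit 44650) (nat_lit 0) [] (nat_lit 0) [] false,
   Spec.mk (nat_lit 44652) (nat_lit 0) [] (nat_lit 0) [] false,
   Spec.mk (nat_lit 44660) (nat_lit 0) [] (nat_lit 0) [] false,
   Spec.mk (nat_lit 44662) (nat_lit 0) [] (nat_lit 0) [] false,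
   Spec.mk (nat_lit 44664) (nat_lit 0) [] (nat_lit 0) [] false,
   Spec.mk (nat_lit 44668) (nat_lit 0) [] (nat_lit 0) [] false,
   Spec.mk (nat_lit 44670) (nat_lit 0) [] (nat_lit 0) [] false,
   Spec.mk (nat_lit 44676) (nat_lit 0) [] (nat_lit 0) [] false,
   Spec.mk (nat_lit 44686) (nat_lit 0) [] (nat_lit 0) [] false,
   Spec.mk (nat_lit 44688) (nat_lit 0) [] (nat_lit 0) [] false,
   Spec.mk (nat_lit 44694) (nat_lit 0) [] (nat_lit 0) [] false,
   Spec.mk (nat_lit 44720) (nat_lit 0) [] (nat_lit 0) [] false,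
   Spec.mk (nat_lit 44726) (nat_lit 0) [] (nat_lit 0) [] false,
   Spec.mk (nat_lit 44728) (nat_lit 0) [] (nat_lit 0) [] false,
   Spec.mk (nat_lit 44732) (nat_lit 0) [] (nat_lit 0) [] false,
   Spec.mk (nat_lit 44734) (nat_lit 0) [] (nat_lit 0) [] false,
   Spec.mk (nat_lit 44736) (nat_lit 0) [] (nat_lit 0) [] false,
   Spec.mk (nat_lit 44744) (nat_lit 0) [] (nat_lit 0) [] false,
   Spec.mk (nat_lit 44746) (nat_lit 0) [] (nat_lit 0) [] false,
   Spec.mk (nat_lit 44750) (nat_lit 0) [] (nat_lit 0) [] false,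
   Spec.mk (nat_lit 44752) (nat_lit 0) [] (nat_lit 0) [] false,
   Spec.mk (nat_lit 44754) (nat_lit 0) [] (nat_lit 0) [] false,
   Spec.mk (nat_lit 44758) (nat_lit 0) [] (nat_lit 0) [] false,
   Spec.mk (nat_lit 44760) (nat_lit 0) [] (nat_lit 0) [] false,
   Spec.mk (nat_lit 44768) (nat_lit 0) [] (nat_lit 0) [] false,
   Spec.mk (nat_lit 44770) (nat_lit 0) [] (nat_lit 0) [] false,
   Spec.mk (nat_lit 44772) (nat_lit 0) [] (nat_lit 0) [] false,
   Spec.mk (nat_lit 44776) (nat_lit 0) [] (nat_lit 0) [] false,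
   Spec.mk (nat_lit 44778) (nat_lit 0) [] (nat_lit 0) [] false,
   Spec.mk (nat_lit 44784) (nat_lit 0) [] (nat_lit 0) [] false,
   Spec.mk (nat_lit 44798) (nat_lit 0) [] (nat_lit 0) [] false,
   Spec.mk (nat_lit 44800) (nat_lit 0) [] (nat_lit 0) [] false,
   Spec.mk (nat_lit 44804) (nat_lit 0) [] (nat_lit 0) [] false,
   Spec.mk (nat_lit 44806) (nat_lit 0) [] (nat_lit 0) [] false,
   Spec.mk (nat_lit 44808) (nat_lit 0) [] (nat_lit 0) [] false,
   Spec.mk (nat_lit 44812) (nat_lit 0) [] (nat_lit 0) [] false,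
   Spec.mk (nat_lit 44814) (nat_lit 0) [] (nat_lit 0) [] false,
   Spec.mk (nat_lit 44822) (nat_lit 0) [] (nat_lit 0) [] false,
   Spec.mk (nat_lit 44824) (nat_lit 0) [] (nat_lit 0) [] false,
   Spec.mk (nat_lit 44826) (nat_lit 0) [] (nat_lit 0) [] false,
   Spec.mk (nat_lit 44830) (nat_lit 0) [] (nat_lit 0) [] false,
   Spec.mk (nat_lit 44832) (nat_lit 0) [] (nat_lit 0) [] false,
   Spec.mk (nat_lit 44838) (nat_lit 0) [] (nat_lit 0) [] false]

noncomputable def cd117 : List Spec :=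
  [Spec.mk (nat_lit 44848) (nat_lit 0) [] (nat_lit 0) [] false,
   Spec.mk (nat_lit 44850) (nat_lit 0) [] (nat_lit 0) [] false,
   Spec.mk (nat_lit 44856) (nat_lit 0) [] (nat_lit 0) [] false,
   Spec.mk (nat_lit 44876) (nat_lit 0) [] (nat_lit 0) [] false,
   Spec.mk (nat_lit 44878) (nat_lit 0) [] (nat_lit 0) [] false,
   Spec.mk (nat_lit 44880) (nat_lit 0) [] (nat_lit 0) [] false,
   Spec.mk (nat_lit 44884) (nat_lit 0) [] (nat_lit 0) [] false,
   Spec.mk (nat_lit 44886) (nat_lit 0) [] (nat_lit 0) [] false,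
   Spec.mk (nat_lit 44892) (nat_lit 0) [] (nat_lit 0) [] false,
   Spec.mk (nat_lit 44902) (nat_lit 0) [] (nat_lit 0) [] false,
   Spec.mk (nat_lit 44904) (nat_lit 0) [] (nat_lit 0) [] false,
   Spec.mk (nat_lit 44910) (nat_lit 0) [] (nat_lit 0) [] false,
   Spec.mk (nat_lit 44928) (nat_lit 0) [] (nat_lit 0) [] false,
   Spec.mk (nat_lit 44960) (nat_lit 0) [] (nat_lit 0) [] false,
   Spec.mk (nat_lit 44962) (nat_lit 0) [] (nat_lit 0) [] false,
   Spec.mk (nat_lit 44966) (nat_lit 0) [] (nat_lit 0) [] false,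
   Spec.mk (nat_lit 44968) (nat_lit 0) [] (nat_lit 0) [] false,
   Spec.mk (nat_lit 44970) (nat_lit 0) [] (nat_lit 0) [] false,
   Spec.mk (nat_lit 44974) (nat_lit 0) [] (nat_lit 0) [] false,
   Spec.mk (nat_lit 44976) (nat_lit 0) [] (nat_lit 0) [] false,
   Spec.mk (nat_lit 44984) (nat_lit 0) [] (nat_lit 0) [] false,
   Spec.mk (nat_lit 44986) (nat_lit 0) [] (nat_lit 0) [] false,
   Spec.mk (nat_lit 44988) (nat_lit 0) [] (nat_lit 0) [] false,
   Spec.mk (nat_lit 44992) (nat_lit 0) [] (nat_lit 0) [] false,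
   Spec.mk (nat_lit 44994) (nat_lit 0) [] (nat_lit 0) [] false,
   Spec.mk (nat_lit 45000) (nat_lit 0) [] (nat_lit 0) [] false,
   Spec.mk (nat_lit 45010) (nat_lit 0) [] (nat_lit 0) [] false,
   Spec.mk (nat_lit 45012) (nat_lit 0) [] (nat_lit 0) [] false,
   Spec.mk (nat_lit 45018) (nat_lit 0) [] (nat_lit 0) [] false,
   Spec.mk (nat_lit 45038) (nat_lit 0) [] (nat_lit 0) [] false,
   Spec.mk (nat_lit 45040) (nat_lit 0) [] (nat_lit 0) [] false,
   Spec.mk (nat_lit 45042) (nat_lit 0) [] (nat_lit 0) [] false,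
   Spec.mk (nat_lit 45046) (nat_lit 0) [] (nat_lit 0) [] false,
   Spec.mk (nat_lit 45048) (nat_lit 0) [] (nat_lit 0) [] false,
   Spec.mk (nat_lit 45054) (nat_lit 0) [] (nat_lit 0) [] false,
   Spec.mk (nat_lit 45064) (nat_lit 0) [] (nat_lit 0) [] false,
   Spec.mk (nat_lit 45066) (nat_lit 0) [] (nat_lit 0) [] false,
   Spec.mk (nat_lit 45072) (nat_lit 0) [] (nat_lit 0) [] false,
   Spec.mk (nat_lit 45090) (nat_lit 0) [] (nat_lit 0) [] false,
   Spec.mk (nat_lit 45118) (nat_lit 0) [] (nat_lit 0) [] false,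
   Spec.mk (nat_lit 45120) (nat_lit 0) [] (nat_lit 0) [] false,
   Spec.mk (nat_lit 45126) (nat_lit 0) [] (nat_lit 0) [] false,
   Spec.mk (nat_lit 45144) (nat_lit 0) [] (nat_lit 0) [] false,
   Spec.mk (nat_lit 45206) (nat_lit 0) [] (nat_lit 0) [] false,
   Spec.mk (nat_lit 45212) (nat_lit 0) [] (nat_lit 0) [] false,
   Spec.mk (nat_lit 45214) (nat_lit 0) [] (nat_lit 0) [] false,
   Spec.mk (nat_lit 45218) (nat_lit 0) [] (nat_lit 0) [] false,
   Spec.mk (nat_lit 45220) (nat_lit 0) [] (nat_lit 0) [] false,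
   Spec.mk (nat_lit 45222) (nat_lit 0) [] (nat_lit 0) [] false,
   Spec.mk (nat_lit 45230) (nat_lit 0) [] (nat_lit 0) [] false,
   Spec.mk (nat_lit 45232) (nat_lit 0) [] (nat_lit 0) [] false,
   Spec.mk (nat_lit 45236) (nat_lit 0) [] (nat_lit 0) [] false,
   Spec.mk (nat_lit 45238) (nat_lit 0) [] (nat_lit 0) [] false,
   Spec.mk (nat_lit 45240) (nat_lit 0) [] (nat_lit 0) [] false,
   Spec.mk (nat_lit 45244) (nat_lit 0) [] (nat_lit 0) [] false,
   Spec.mk (nat_lit 45246) (nat_lit 0) [] (nat_lit 0) [] false,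
   Spec.mk (nat_lit 45254) (nat_lit 0) [] (nat_lit 0) [] false,
   Spec.mk (nat_lit 45256) (nat_lit 0) [] (nat_lit 0) [] false,
   Spec.mk (nat_lit 45258) (nat_lit 0) [] (nat_lit 0) [] false,
   Spec.mk (nat_lit 45262) (nat_lit 0) [] (nat_lit 0) [] false]

noncomputable def cd118 : List Spec :=
  [Spec.mk (nat_lit 45264) (nat_lit 0) [] (nat_lit 0) [] false,
   Spec.mk (nat_lit 45270) (nat_lit 0) [] (nat_lit 0) [] false,
   Spec.mk (nat_lit 45284) (nat_lit 0) [] (nat_lit 0) [] false,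
   Spec.mk (nat_lit 45286) (nat_lit 0) [] (nat_lit 0) [] false,
   Spec.mk (nat_lit 45290) (nat_lit 0) [] (nat_lit 0) [] false,
   Spec.mk (nat_lit 45292) (nat_lit 0) [] (nat_lit 0) [] false,
   Spec.mk (nat_lit 45294) (nat_lit 0) [] (nat_lit 0) [] false,
   Spec.mk (nat_lit 45298) (nat_lit 0) [] (nat_lit 0) [] false,
   Spec.mk (nat_lit 45300) (nat_lit 0) [] (nat_lit 0) [] false,
   Spec.mk (nat_lit 45308) (nat_lit 0) [] (nat_lit 0) [] false,
   Spec.mk (nat_lit 45310) (nat_lit 0) [] (nat_lit 0) [] false,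
   Spec.mk (nat_lit 45312) (nat_lit 0) [] (nat_lit 0) [] false,
   Spec.mk (nat_lit 45316) (nat_lit 0) [] (nat_lit 0) [] false,
   Spec.mk (nat_lit 45318) (nat_lit 0) [] (nat_lit 0) [] false,
   Spec.mk (nat_lit 45324) (nat_lit 0) [] (nat_lit 0) [] false,
   Spec.mk (nat_lit 45334) (nat_lit 0) [] (nat_lit 0) [] false,
   Spec.mk (nat_lit 45336) (nat_lit 0) [] (nat_lit 0) [] false,
   Spec.mk (nat_lit 45342) (nat_lit 0) [] (nat_lit 0) [] false,
   Spec.mk (nat_lit 45362) (nat_lit 0) [] (nat_lit 0) [] false,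
   Spec.mk (nat_lit 45364) (nat_lit 0) [] (nat_lit 0) [] false,
   Spec.mk (nat_lit 45366) (nat_lit 0) [] (nat_lit 0) [] false,
   Spec.mk (nat_lit 45370) (nat_lit 0) [] (nat_lit 0) [] false,
   Spec.mk (nat_lit 45372) (nat_lit 0) [] (nat_lit 0) [] false,
   Spec.mk (nat_lit 45378) (nat_lit 0) [] (nat_lit 0) [] false,
   Spec.mk (nat_lit 45388) (nat_lit 0) [] (nat_lit 0) [] false,
   Spec.mk (nat_lit 45390) (nat_lit 0) [] (nat_lit 0) [] false,
   Spec.mk (nat_lit 45396) (nat_lit 0) [] (nat_lit 0) [] false,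
   Spec.mk (nat_lit 45414) (nat_lit 0) [] (nat_lit 0) [] false,
   Spec.mk (nat_lit 45446) (nat_lit 0) [] (nat_lit 0) [] false,
   Spec.mk (nat_lit 45448) (nat_lit 0) [] (nat_lit 0) [] false,
   Spec.mk (nat_lit 45452) (nat_lit 0) [] (nat_lit 0) [] false,
   Spec.mk (nat_lit 45454) (nat_lit 0) [] (nat_lit 0) [] false,
   Spec.mk (nat_lit 45456) (nat_lit 0) [] (nat_lit 0) [] false,
   Spec.mk (nat_lit 45460) (nat_lit 0) [] (nat_lit 0) [] false,
   Spec.mk (nat_lit 45462) (nat_lit 0) [] (nat_lit 0) [] false,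
   Spec.mk (nat_lit 45470) (nat_lit 0) [] (nat_lit 0) [] false,
   Spec.mk (nat_lit 45472) (nat_lit 0) [] (nat_lit 0) [] false,
   Spec.mk (nat_lit 45474) (nat_lit 0) [] (nat_lit 0) [] false,
   Spec.mk (nat_lit 45478) (nat_lit 0) [] (nat_lit 0) [] false,
   Spec.mk (nat_lit 45480) (nat_lit 0) [] (nat_lit 0) [] false,
   Spec.mk (nat_lit 45486) (nat_lit 0) [] (nat_lit 0) [] false,
   Spec.mk (nat_lit 45496) (nat_lit 0) [] (nat_lit 0) [] false,
   Spec.mk (nat_lit 45498) (nat_lit 0) [] (nat_lit 0) [] false,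
   Spec.mk (nat_lit 45504) (nat_lit 0) [] (nat_lit 0) [] false,
   Spec.mk (nat_lit 45524) (nat_lit 0) [] (nat_lit 0) [] false,
   Spec.mk (nat_lit 45526) (nat_lit 0) [] (nat_lit 0) [] false,
   Spec.mk (nat_lit 45528) (nat_lit 0) [] (nat_lit 0) [] false,
   Spec.mk (nat_lit 45532) (nat_lit 0) [] (nat_lit 0) [] false,
   Spec.mk (nat_lit 45534) (nat_lit 0) [] (nat_lit 0) [] false,
   Spec.mk (nat_lit 45540) (nat_lit 0) [] (nat_lit 0) [] false,
   Spec.mk (nat_lit 45550) (nat_lit 0) [] (nat_lit 0) [] false,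
   Spec.mk (nat_lit 45552) (nat_lit 0) [] (nat_lit 0) [] false,
   Spec.mk (nat_lit 45558) (nat_lit 0) [] (nat_lit 0) [] false,
   Spec.mk (nat_lit 45576) (nat_lit 0) [] (nat_lit 0) [] false,
   Spec.mk (nat_lit 45604) (nat_lit 0) [] (nat_lit 0) [] false,
   Spec.mk (nat_lit 45606) (nat_lit 0) [] (nat_lit 0) [] false,
   Spec.mk (nat_lit 45612) (nat_lit 0) [] (nat_lit 0) [] false,
   Spec.mk (nat_lit 45630) (nat_lit 0) [] (nat_lit 0) [] false,
   Spec.mk (nat_lit 45686) (nat_lit 0) [] (nat_lit 0) [] false,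
   Spec.mk (nat_lit 45688) (nat_lit 0) [] (nat_lit 0) [] false]

noncomputable def cd119 : List Spec :=
  [Spec.mk (nat_lit 45690) (nat_lit 0) [] (nat_lit 0) [] false,
   Spec.mk (nat_lit 45694) (nat_lit 0) [] (nat_lit 0) [] false,
   Spec.mk (nat_lit 45696) (nat_lit 0) [] (nat_lit 0) [] false,
   Spec.mk (nat_lit 45702) (nat_lit 0) [] (nat_lit 0) [] false,
   Spec.mk (nat_lit 45712) (nat_lit 0) [] (nat_lit 0) [] false,
   Spec.mk (nat_lit 45714) (nat_lit 0) [] (nat_lit 0) [] false,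
   Spec.mk (nat_lit 45720) (nat_lit 0) [] (nat_lit 0) [] false,
   Spec.mk (nat_lit 45738) (nat_lit 0) [] (nat_lit 0) [] false,
   Spec.mk (nat_lit 45766) (nat_lit 0) [] (nat_lit 0) [] false,
   Spec.mk (nat_lit 45768) (nat_lit 0) [] (nat_lit 0) [] false,
   Spec.mk (nat_lit 45774) (nat_lit 0) [] (nat_lit 0) [] false,
   Spec.mk (nat_lit 45792) (nat_lit 0) [] (nat_lit 0) [] false,
   Spec.mk (nat_lit 45846) (nat_lit 0) [] (nat_lit 0) [] false,
   Spec.mk (nat_lit 45980) (nat_lit 0) [] (nat_lit 0) [] false,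
   Spec.mk (nat_lit 45998) (nat_lit 0) [] (nat_lit 0) [] false,
   Spec.mk (nat_lit 46004) (nat_lit 0) [] (nat_lit 0) [] false,
   Spec.mk (nat_lit 46006) (nat_lit 0) [] (nat_lit 0) [] false,
   Spec.mk (nat_lit 46034) (nat_lit 0) [] (nat_lit 0) [] false,
   Spec.mk (nat_lit 46052) (nat_lit 0) [] (nat_lit 0) [] false,
   Spec.mk (nat_lit 46058) (nat_lit 0) [] (nat_lit 0) [] false,
   Spec.mk (nat_lit 46060) (nat_lit 0) [] (nat_lit 0) [] false,
   Spec.mk (nat_lit 46070) (nat_lit 0) [] (nat_lit 0) [] false,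
   Spec.mk (nat_lit 46076) (nat_lit 0) [] (nat_lit 0) [] false,
   Spec.mk (nat_lit 46078) (nat_lit 0) [] (nat_lit 0) [] false,
   Spec.mk (nat_lit 46082) (nat_lit 0) [] (nat_lit 0) [] false,
   Spec.mk (nat_lit 46084) (nat_lit 0) [] (nat_lit 0) [] false,
   Spec.mk (nat_lit 46086) (nat_lit 0) [] (nat_lit 0) [] false,
   Spec.mk (nat_lit 46106) (nat_lit 0) [] (nat_lit 0) [] false,
   Spec.mk (nat_lit 46112) (nat_lit 0) [] (nat_lit 0) [] false,
   Spec.mk (nat_lit 46114) (nat_lit 0) [] (nat_lit 0) [] false,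
   Spec.mk (nat_lit 46124) (nat_lit 0) [] (nat_lit 0) [] false,
   Spec.mk (nat_lit 46130) (nat_lit 0) [] (nat_lit 0) [] false,
   Spec.mk (nat_lit 46132) (nat_lit 0) [] (nat_lit 0) [] false,
   Spec.mk (nat_lit 46136) (nat_lit 0) [] (nat_lit 0) [] false,
   Spec.mk (nat_lit 46138) (nat_lit 0) [] (nat_lit 0) [] false,
   Spec.mk (nat_lit 46140) (nat_lit 0) [] (nat_lit 0) [] false,
   Spec.mk (nat_lit 46148) (nat_lit 0) [] (nat_lit 0) [] false,
   Spec.mk (nat_lit 46150) (nat_lit 0) [] (nat_lit 0) [] false,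
   Spec.mk (nat_lit 46154) (nat_lit 0) [] (nat_lit 0) [] false,
   Spec.mk (nat_lit 46156) (nat_lit 0) [] (nat_lit 0) [] false,
   Spec.mk (nat_lit 46158) (nat_lit 0) [] (nat_lit 0) [] false,
   Spec.mk (nat_lit 46162) (nat_lit 0) [] (nat_lit 0) [] false,
   Spec.mk (nat_lit 46164) (nat_lit 0) [] (nat_lit 0) [] false,
   Spec.mk (nat_lit 46196) (nat_lit 0) [] (nat_lit 0) [] false,
   Spec.mk (nat_lit 46214) (nat_lit 0) [] (nat_lit 0) [] false,
   Spec.mk (nat_lit 46220) (nat_lit 0) [] (nat_lit 0) [] false,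
   Spec.mk (nat_lit 46222) (nat_lit 0) [] (nat_lit 0) [] false,
   Spec.mk (nat_lit 46232) (nat_lit 0) [] (nat_lit 0) [] false,
   Spec.mk (nat_lit 46238) (nat_lit 0) [] (nat_lit 0) [] false,
   Spec.mk (nat_lit 46240) (nat_lit 0) [] (nat_lit 0) [] false,
   Spec.mk (nat_lit 46244) (nat_lit 0) [] (nat_lit 0) [] false,
   Spec.mk (nat_lit 46246) (nat_lit 0) [] (nat_lit 0) [] false,
   Spec.mk (nat_lit 46248) (nat_lit 0) [] (nat_lit 0) [] false,
   Spec.mk (nat_lit 46268) (nat_lit 0) [] (nat_lit 0) [] false,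
   Spec.mk (nat_lit 46274) (nat_lit 0) [] (nat_lit 0) [] false,
   Spec.mk (nat_lit 46276) (nat_lit 0) [] (nat_lit 0) [] false,
   Spec.mk (nat_lit 46286) (nat_lit 0) [] (nat_lit 0) [] false,
   Spec.mk (nat_lit 46292) (nat_lit 0) [] (nat_lit 0) [] false,
   Spec.mk (nat_lit 46294) (nat_lit 0) [] (nat_lit 0) [] false,
   Spec.mk (nat_lit 46298) (nat_lit 0) [] (nat_lit 0) [] false]

noncomputable def cd120 : List Spec :=
  [Spec.mk (nat_lit 46300) (nat_lit 0) [] (nat_lit 0) [] false,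
   Spec.mk (nat_lit 46302) (nat_lit 0) [] (nat_lit 0) [] false,
   Spec.mk (nat_lit 46310) (nat_lit 0) [] (nat_lit 0) [] false,
   Spec.mk (nat_lit 46312) (nat_lit 0) [] (nat_lit 0) [] false,
   Spec.mk (nat_lit 46316) (nat_lit 0) [] (nat_lit 0) [] false,
   Spec.mk (nat_lit 46318) (nat_lit 0) [] (nat_lit 0) [] false,
   Spec.mk (nat_lit 46320) (nat_lit 0) [] (nat_lit 0) [] false,
   Spec.mk (nat_lit 46324) (nat_lit 0) [] (nat_lit 0) [] false,
   Spec.mk (nat_lit 46326) (nat_lit 0) [] (nat_lit 0) [] false,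
   Spec.mk (nat_lit 46340) (nat_lit 0) [] (nat_lit 0) [] false,
   Spec.mk (nat_lit 46346) (nat_lit 0) [] (nat_lit 0) [] false,
   Spec.mk (nat_lit 46348) (nat_lit 0) [] (nat_lit 0) [] false,
   Spec.mk (nat_lit 46352) (nat_lit 0) [] (nat_lit 0) [] false,
   Spec.mk (nat_lit 46354) (nat_lit 0) [] (nat_lit 0) [] false,
   Spec.mk (nat_lit 46356) (nat_lit 0) [] (nat_lit 0) [] false,
   Spec.mk (nat_lit 46364) (nat_lit 0) [] (nat_lit 0) [] false,
   Spec.mk (nat_lit 46366) (nat_lit 0) [] (nat_lit 0) [] false,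
   Spec.mk (nat_lit 46370) (nat_lit 0) [] (nat_lit 0) [] false,
   Spec.mk (nat_lit 46372) (nat_lit 0) [] (nat_lit 0) [] false,
   Spec.mk (nat_lit 46374) (nat_lit 0) [] (nat_lit 0) [] false,
   Spec.mk (nat_lit 46378) (nat_lit 0) [] (nat_lit 0) [] false,
   Spec.mk (nat_lit 46380) (nat_lit 0) [] (nat_lit 0) [] false,
   Spec.mk (nat_lit 46388) (nat_lit 0) [] (nat_lit 0) [] false,
   Spec.mk (nat_lit 46390) (nat_lit 0) [] (nat_lit 0) [] false,
   Spec.mk (nat_lit 46392) (nat_lit 0) [] (nat_lit 0) [] false,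
   Spec.mk (nat_lit 46396) (nat_lit 0) [] (nat_lit 0) [] false,
   Spec.mk (nat_lit 46398) (nat_lit 0) [] (nat_lit 0) [] false,
   Spec.mk (nat_lit 46404) (nat_lit 0) [] (nat_lit 0) [] false,
   Spec.mk (nat_lit 46430) (nat_lit 0) [] (nat_lit 0) [] false,
   Spec.mk (nat_lit 46436) (nat_lit 0) [] (nat_lit 0) [] false,
   Spec.mk (nat_lit 46438) (nat_lit 0) [] (nat_lit 0) [] false,
   Spec.mk (nat_lit 46448) (nat_lit 0) [] (nat_lit 0) [] false,
   Spec.mk (nat_lit 46454) (nat_lit 0) [] (nat_lit 0) [] false,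
   Spec.mk (nat_lit 46456) (nat_lit 0) [] (nat_lit 0) [] false,
   Spec.mk (nat_lit 46460) (nat_lit 0) [] (nat_lit 0) [] false,
   Spec.mk (nat_lit 46462) (nat_lit 0) [] (nat_lit 0) [] false,
   Spec.mk (nat_lit 46464) (nat_lit 0) [] (nat_lit 0) [] false,
   Spec.mk (nat_lit 46472) (nat_lit 0) [] (nat_lit 0) [] false,
   Spec.mk (nat_lit 46474) (nat_lit 0) [] (nat_lit 0) [] false,
   Spec.mk (nat_lit 46478) (nat_lit 0) [] (nat_lit 0) [] false,
   Spec.mk (nat_lit 46480) (nat_lit 0) [] (nat_lit 0) [] false,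
   Spec.mk (nat_lit 46482) (nat_lit 0) [] (nat_lit 0) [] false,
   Spec.mk (nat_lit 46486) (nat_lit 0) [] (nat_lit 0) [] false,
   Spec.mk (nat_lit 46488) (nat_lit 0) [] (nat_lit 0) [] false,
   Spec.mk (nat_lit 46502) (nat_lit 0) [] (nat_lit 0) [] false,
   Spec.mk (nat_lit 46508) (nat_lit 0) [] (nat_lit 0) [] false,
   Spec.mk (nat_lit 46510) (nat_lit 0) [] (nat_lit 0) [] false,
   Spec.mk (nat_lit 46514) (nat_lit 0) [] (nat_lit 0) [] false,
   Spec.mk (nat_lit 46516) (nat_lit 0) [] (nat_lit 0) [] false,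
   Spec.mk (nat_lit 46518) (nat_lit 0) [] (nat_lit 0) [] false,
   Spec.mk (nat_lit 46526) (nat_lit 0) [] (nat_lit 0) [] false,
   Spec.mk (nat_lit 46528) (nat_lit 0) [] (nat_lit 0) [] false,
   Spec.mk (nat_lit 46532) (nat_lit 0) [] (nat_lit 0) [] false,
   Spec.mk (nat_lit 46534) (nat_lit 0) [] (nat_lit 0) [] false,
   Spec.mk (nat_lit 46536) (nat_lit 0) [] (nat_lit 0) [] false,
   Spec.mk (nat_lit 46540) (nat_lit 0) [] (nat_lit 0) [] false,
   Spec.mk (nat_lit 46542) (nat_lit 0) [] (nat_lit 0) [] false,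
   Spec.mk (nat_lit 46550) (nat_lit 0) [] (nat_lit 0) [] false,
   Spec.mk (nat_lit 46552) (nat_lit 0) [] (nat_lit 0) [] false,
   Spec.mk (nat_lit 46554) (nat_lit 0) [] (nat_lit 0) [] false]

noncomputable def cd121 : List Spec :=
  [Spec.mk (nat_lit 46558) (nat_lit 0) [] (nat_lit 0) [] false,
   Spec.mk (nat_lit 46560) (nat_lit 0) [] (nat_lit 0) [] false,
   Spec.mk (nat_lit 46566) (nat_lit 0) [] (nat_lit 0) [] false,
   Spec.mk (nat_lit 46580) (nat_lit 0) [] (nat_lit 0) [] false,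
   Spec.mk (nat_lit 46582) (nat_lit 0) [] (nat_lit 0) [] false,
   Spec.mk (nat_lit 46586) (nat_lit 0) [] (nat_lit 0) [] false,
   Spec.mk (nat_lit 46588) (nat_lit 0) [] (nat_lit 0) [] false,
   Spec.mk (nat_lit 46590) (nat_lit 0) [] (nat_lit 0) [] false,
   Spec.mk (nat_lit 46594) (nat_lit 0) [] (nat_lit 0) [] false,
   Spec.mk (nat_lit 46596) (nat_lit 0) [] (nat_lit 0) [] false,
   Spec.mk (nat_lit 46604) (nat_lit 0) [] (nat_lit 0) [] false,
   Spec.mk (nat_lit 46606) (nat_lit 0) [] (nat_lit 0) [] false,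
   Spec.mk (nat_lit 46608) (nat_lit 0) [] (nat_lit 0) [] false,
   Spec.mk (nat_lit 46612) (nat_lit 0) [] (nat_lit 0) [] false,
   Spec.mk (nat_lit 46614) (nat_lit 0) [] (nat_lit 0) [] false,
   Spec.mk (nat_lit 46620) (nat_lit 0) [] (nat_lit 0) [] false,
   Spec.mk (nat_lit 46630) (nat_lit 0) [] (nat_lit 0) [] false,
   Spec.mk (nat_lit 46632) (nat_lit 0) [] (nat_lit 0) [] false,
   Spec.mk (nat_lit 46638) (nat_lit 0) [] (nat_lit 0) [] false,
   Spec.mk (nat_lit 46682) (nat_lit 0) [] (nat_lit 0) [] false,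
   Spec.mk (nat_lit 46700) (nat_lit 0) [] (nat_lit 0) [] false,
   Spec.mk (nat_lit 46706) (nat_lit 0) [] (nat_lit 0) [] false,
   Spec.mk (nat_lit 46708) (nat_lit 0) [] (nat_lit 0) [] false,
   Spec.mk (nat_lit 46718) (nat_lit 0) [] (nat_lit 0) [] false,
   Spec.mk (nat_lit 46724) (nat_lit 0) [] (nat_lit 0) [] false,
   Spec.mk (nat_lit 46726) (nat_lit 0) [] (nat_lit 0) [] false,
   Spec.mk (nat_lit 46730) (nat_lit 0) [] (nat_lit 0) [] false,
   Spec.mk (nat_lit 46732) (nat_lit 0) [] (nat_lit 0) [] false,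
   Spec.mk (nat_lit 46734) (nat_lit 0) [] (nat_lit 0) [] false,
   Spec.mk (nat_lit 46754) (nat_lit 0) [] (nat_lit 0) [] false,
   Spec.mk (nat_lit 46760) (nat_lit 0) [] (nat_lit 0) [] false,
   Spec.mk (nat_lit 46762) (nat_lit 0) [] (nat_lit 0) [] false,
   Spec.mk (nat_lit 46772) (nat_lit 0) [] (nat_lit 0) [] false,
   Spec.mk (nat_lit 46778) (nat_lit 0) [] (nat_lit 0) [] false,
   Spec.mk (nat_lit 46780) (nat_lit 0) [] (nat_lit 0) [] false,
   Spec.mk (nat_lit 46784) (nat_lit 0) [] (nat_lit 0) [] false,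
   Spec.mk (nat_lit 46786) (nat_lit 0) [] (nat_lit 0) [] false,
   Spec.mk (nat_lit 46788) (nat_lit 0) [] (nat_lit 0) [] false,
   Spec.mk (nat_lit 46796) (nat_lit 0) [] (nat_lit 0) [] false,
   Spec.mk (nat_lit 46798) (nat_lit 0) [] (nat_lit 0) [] false,
   Spec.mk (nat_lit 46802) (nat_lit 0) [] (nat_lit 0) [] false,
   Spec.mk (nat_lit 46804) (nat_lit 0) [] (nat_lit 0) [] false,
   Spec.mk (nat_lit 46806) (nat_lit 0) [] (nat_lit 0) [] false,
   Spec.mk (nat_lit 46810) (nat_lit 0) [] (nat_lit 0) [] false,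
   Spec.mk (nat_lit 46812) (nat_lit 0) [] (nat_lit 0) [] false,
   Spec.mk (nat_lit 46826) (nat_lit 0) [] (nat_lit 0) [] false,
   Spec.mk (nat_lit 46832) (nat_lit 0) [] (nat_lit 0) [] false,
   Spec.mk (nat_lit 46834) (nat_lit 0) [] (nat_lit 0) [] false,
   Spec.mk (nat_lit 46838) (nat_lit 0) [] (nat_lit 0) [] false,
   Spec.mk (nat_lit 46840) (nat_lit 0) [] (nat_lit 0) [] false,
   Spec.mk (nat_lit 46842) (nat_lit 0) [] (nat_lit 0) [] false,
   Spec.mk (nat_lit 46850) (nat_lit 0) [] (nat_lit 0) [] false,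
   Spec.mk (nat_lit 46852) (nat_lit 0) [] (nat_lit 0) [] false,
   Spec.mk (nat_lit 46856) (nat_lit 0) [] (nat_lit 0) [] false,
   Spec.mk (nat_lit 46858) (nat_lit 0) [] (nat_lit 0) [] false,
   Spec.mk (nat_lit 46860) (nat_lit 0) [] (nat_lit 0) [] false,
   Spec.mk (nat_lit 46864) (nat_lit 0) [] (nat_lit 0) [] false,
   Spec.mk (nat_lit 46866) (nat_lit 0) [] (nat_lit 0) [] false,
   Spec.mk (nat_lit 46874) (nat_lit 0) [] (nat_lit 0) [] false,
   Spec.mk (nat_lit 46876) (nat_lit 0) [] (nat_lit 0) [] false]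

noncomputable def cd122 : List Spec :=
  [Spec.mk (nat_lit 46878) (nat_lit 0) [] (nat_lit 0) [] false,
   Spec.mk (nat_lit 46882) (nat_lit 0) [] (nat_lit 0) [] false,
   Spec.mk (nat_lit 46884) (nat_lit 0) [] (nat_lit 0) [] false,
   Spec.mk (nat_lit 46890) (nat_lit 0) [] (nat_lit 0) [] false,
   Spec.mk (nat_lit 46916) (nat_lit 0) [] (nat_lit 0) [] false,
   Spec.mk (nat_lit 46922) (nat_lit 0) [] (nat_lit 0) [] false,
   Spec.mk (nat_lit 46924) (nat_lit 0) [] (nat_lit 0) [] false,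
   Spec.mk (nat_lit 46934) (nat_lit 0) [] (nat_lit 0) [] false,
   Spec.mk (nat_lit 46940) (nat_lit 0) [] (nat_lit 0) [] false,
   Spec.mk (nat_lit 46942) (nat_lit 0) [] (nat_lit 0) [] false,
   Spec.mk (nat_lit 46946) (nat_lit 0) [] (nat_lit 0) [] false,
   Spec.mk (nat_lit 46948) (nat_lit 0) [] (nat_lit 0) [] false,
   Spec.mk (nat_lit 46950) (nat_lit 0) [] (nat_lit 0) [] false,
   Spec.mk (nat_lit 46958) (nat_lit 0) [] (nat_lit 0) [] false,
   Spec.mk (nat_lit 46960) (nat_lit 0) [] (nat_lit 0) [] false,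
   Spec.mk (nat_lit 46964) (nat_lit 0) [] (nat_lit 0) [] false,
   Spec.mk (nat_lit 46966) (nat_lit 0) [] (nat_lit 0) [] false,
   Spec.mk (nat_lit 46968) (nat_lit 0) [] (nat_lit 0) [] false,
   Spec.mk (nat_lit 46972) (nat_lit 0) [] (nat_lit 0) [] false,
   Spec.mk (nat_lit 46974) (nat_lit 0) [] (nat_lit 0) [] false,
   Spec.mk (nat_lit 46988) (nat_lit 0) [] (nat_lit 0) [] false,
   Spec.mk (nat_lit 46994) (nat_lit 0) [] (nat_lit 0) [] false,
   Spec.mk (nat_lit 46996) (nat_lit 0) [] (nat_lit 0) [] false,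
   Spec.mk (nat_lit 47000) (nat_lit 0) [] (nat_lit 0) [] false,
   Spec.mk (nat_lit 47002) (nat_lit 0) [] (nat_lit 0) [] false,
   Spec.mk (nat_lit 47004) (nat_lit 0) [] (nat_lit 0) [] false,
   Spec.mk (nat_lit 47012) (nat_lit 0) [] (nat_lit 0) [] false,
   Spec.mk (nat_lit 47014) (nat_lit 0) [] (nat_lit 0) [] false,
   Spec.mk (nat_lit 47018) (nat_lit 0) [] (nat_lit 0) [] false,
   Spec.mk (nat_lit 47020) (nat_lit 0) [] (nat_lit 0) [] false,
   Spec.mk (nat_lit 47022) (nat_lit 0) [] (nat_lit 0) [] false,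
   Spec.mk (nat_lit 47026) (nat_lit 0) [] (nat_lit 0) [] false,
   Spec.mk (nat_lit 47028) (nat_lit 0) [] (nat_lit 0) [] false,
   Spec.mk (nat_lit 47036) (nat_lit 0) [] (nat_lit 0) [] false,
   Spec.mk (nat_lit 47038) (nat_lit 0) [] (nat_lit 0) [] false,
   Spec.mk (nat_lit 47040) (nat_lit 0) [] (nat_lit 0) [] false,
   Spec.mk (nat_lit 47044) (nat_lit 0) [] (nat_lit 0) [] false,
   Spec.mk (nat_lit 47046) (nat_lit 0) [] (nat_lit 0) [] false,
   Spec.mk (nat_lit 47052) (nat_lit 0) [] (nat_lit 0) [] false,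
   Spec.mk (nat_lit 47066) (nat_lit 0) [] (nat_lit 0) [] false,
   Spec.mk (nat_lit 47068) (nat_lit 0) [] (nat_lit 0) [] false,
   Spec.mk (nat_lit 47072) (nat_lit 0) [] (nat_lit 0) [] false,
   Spec.mk (nat_lit 47074) (nat_lit 0) [] (nat_lit 0) [] false,
   Spec.mk (nat_lit 47076) (nat_lit 0) [] (nat_lit 0) [] false,
   Spec.mk (nat_lit 47080) (nat_lit 0) [] (nat_lit 0) [] false,
   Spec.mk (nat_lit 47082) (nat_lit 0) [] (nat_lit 0) [] false,
   Spec.mk (nat_lit 47090) (nat_lit 0) [] (nat_lit 0) [] false,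
   Spec.mk (nat_lit 47092) (nat_lit 0) [] (nat_lit 0) [] false,
   Spec.mk (nat_lit 47094) (nat_lit 0) [] (nat_lit 0) [] false,
   Spec.mk (nat_lit 47098) (nat_lit 0) [] (nat_lit 0) [] false,
   Spec.mk (nat_lit 47100) (nat_lit 0) [] (nat_lit 0) [] false,
   Spec.mk (nat_lit 47106) (nat_lit 0) [] (nat_lit 0) [] false,
   Spec.mk (nat_lit 47116) (nat_lit 0) [] (nat_lit 0) [] false,
   Spec.mk (nat_lit 47118) (nat_lit 0) [] (nat_lit 0) [] false,
   Spec.mk (nat_lit 47124) (nat_lit 0) [] (nat_lit 0) [] false,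
   Spec.mk (nat_lit 47150) (nat_lit 0) [] (nat_lit 0) [] false,
   Spec.mk (nat_lit 47156) (nat_lit 0) [] (nat_lit 0) [] false,
   Spec.mk (nat_lit 47158) (nat_lit 0) [] (nat_lit 0) [] false,
   Spec.mk (nat_lit 47162) (nat_lit 0) [] (nat_lit 0) [] false,
   Spec.mk (nat_lit 47164) (nat_lit 0) [] (nat_lit 0) [] false]

noncomputable def cd123 : List Spec :=
  [Spec.mk (nat_lit 47166) (nat_lit 0) [] (nat_lit 0) [] false,
   Spec.mk (nat_lit 47174) (nat_lit 0) [] (nat_lit 0) [] false,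
   Spec.mk (nat_lit 47176) (nat_lit 0) [] (nat_lit 0) [] false,
   Spec.mk (nat_lit 47180) (nat_lit 0) [] (nat_lit 0) [] false,
   Spec.mk (nat_lit 47182) (nat_lit 0) [] (nat_lit 0) [] false,
   Spec.mk (nat_lit 47184) (nat_lit 0) [] (nat_lit 0) [] false,
   Spec.mk (nat_lit 47188) (nat_lit 0) [] (nat_lit 0) [] false,
   Spec.mk (nat_lit 47190) (nat_lit 0) [] (nat_lit 0) [] false,
   Spec.mk (nat_lit 47198) (nat_lit 0) [] (nat_lit 0) [] false,
   Spec.mk (nat_lit 47200) (nat_lit 0) [] (nat_lit 0) [] false,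
   Spec.mk (nat_lit 47202) (nat_lit 0) [] (nat_lit 0) [] false,
   Spec.mk (nat_lit 47206) (nat_lit 0) [] (nat_lit 0) [] false,
   Spec.mk (nat_lit 47208) (nat_lit 0) [] (nat_lit 0) [] false,
   Spec.mk (nat_lit 47214) (nat_lit 0) [] (nat_lit 0) [] false,
   Spec.mk (nat_lit 47228) (nat_lit 0) [] (nat_lit 0) [] false,
   Spec.mk (nat_lit 47230) (nat_lit 0) [] (nat_lit 0) [] false,
   Spec.mk (nat_lit 47234) (nat_lit 0) [] (nat_lit 0) [] false,
   Spec.mk (nat_lit 47236) (nat_lit 0) [] (nat_lit 0) [] false,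
   Spec.mk (nat_lit 47238) (nat_lit 0) [] (nat_lit 0) [] false,
   Spec.mk (nat_lit 47242) (nat_lit 0) [] (nat_lit 0) [] false,
   Spec.mk (nat_lit 47244) (nat_lit 0) [] (nat_lit 0) [] false,
   Spec.mk (nat_lit 47252) (nat_lit 0) [] (nat_lit 0) [] false,
   Spec.mk (nat_lit 47254) (nat_lit 0) [] (nat_lit 0) [] false,
   Spec.mk (nat_lit 47256) (nat_lit 0) [] (nat_lit 0) [] false,
   Spec.mk (nat_lit 47260) (nat_lit 0) [] (nat_lit 0) [] false,
   Spec.mk (nat_lit 47262) (nat_lit 0) [] (nat_lit 0) [] false,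
   Spec.mk (nat_lit 47268) (nat_lit 0) [] (nat_lit 0) [] false,
   Spec.mk (nat_lit 47278) (nat_lit 0) [] (nat_lit 0) [] false,
   Spec.mk (nat_lit 47280) (nat_lit 0) [] (nat_lit 0) [] false,
   Spec.mk (nat_lit 47286) (nat_lit 0) [] (nat_lit 0) [] false,
   Spec.mk (nat_lit 47306) (nat_lit 0) [] (nat_lit 0) [] false,
   Spec.mk (nat_lit 47308) (nat_lit 0) [] (nat_lit 0) [] false,
   Spec.mk (nat_lit 47310) (nat_lit 0) [] (nat_lit 0) [] false,
   Spec.mk (nat_lit 47314) (nat_lit 0) [] (nat_lit 0) [] false,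
   Spec.mk (nat_lit 47316) (nat_lit 0) [] (nat_lit 0) [] false,
   Spec.mk (nat_lit 47322) (nat_lit 0) [] (nat_lit 0) [] false,
   Spec.mk (nat_lit 47332) (nat_lit 0) [] (nat_lit 0) [] false,
   Spec.mk (nat_lit 47334) (nat_lit 0) [] (nat_lit 0) [] false,
   Spec.mk (nat_lit 47340) (nat_lit 0) [] (nat_lit 0) [] false,
   Spec.mk (nat_lit 47358) (nat_lit 0) [] (nat_lit 0) [] false,
   Spec.mk (nat_lit 47402) (nat_lit 0) [] (nat_lit 0) [] false,
   Spec.mk (nat_lit 47408) (nat_lit 0) [] (nat_lit 0) [] false,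
   Spec.mk (nat_lit 47410) (nat_lit 0) [] (nat_lit 0) [] false,
   Spec.mk (nat_lit 47420) (nat_lit 0) [] (nat_lit 0) [] false,
   Spec.mk (nat_lit 47426) (nat_lit 0) [] (nat_lit 0) [] false,
   Spec.mk (nat_lit 47428) (nat_lit 0) [] (nat_lit 0) [] false,
   Spec.mk (nat_lit 47432) (nat_lit 0) [] (nat_lit 0) [] false,
   Spec.mk (nat_lit 47434) (nat_lit 0) [] (nat_lit 0) [] false,
   Spec.mk (nat_lit 47436) (nat_lit 0) [] (nat_lit 0) [] false,
   Spec.mk (nat_lit 47444) (nat_lit 0) [] (nat_lit 0) [] false,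
   Spec.mk (nat_lit 47446) (nat_lit 0) [] (nat_lit 0) [] false,
   Spec.mk (nat_lit 47450) (nat_lit 0) [] (nat_lit 0) [] false,
   Spec.mk (nat_lit 47452) (nat_lit 0) [] (nat_lit 0) [] false,
   Spec.mk (nat_lit 47454) (nat_lit 0) [] (nat_lit 0) [] false,
   Spec.mk (nat_lit 47458) (nat_lit 0) [] (nat_lit 0) [] false,
   Spec.mk (nat_lit 47460) (nat_lit 0) [] (nat_lit 0) [] false,
   Spec.mk (nat_lit 47474) (nat_lit 0) [] (nat_lit 0) [] false,
   Spec.mk (nat_lit 47480) (nat_lit 0) [] (nat_lit 0) [] false,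
   Spec.mk (nat_lit 47482) (nat_lit 0) [] (nat_lit 0) [] false,
   Spec.mk (nat_lit 47486) (nat_lit 0) [] (nat_lit 0) [] false]

noncomputable def cd124 : List Spec :=
  [Spec.mk (nat_lit 47488) (nat_lit 0) [] (nat_lit 0) [] false,
   Spec.mk (nat_lit 47490) (nat_lit 0) [] (nat_lit 0) [] false,
   Spec.mk (nat_lit 47498) (nat_lit 0) [] (nat_lit 0) [] false,
   Spec.mk (nat_lit 47500) (nat_lit 0) [] (nat_lit 0) [] false,
   Spec.mk (nat_lit 47504) (nat_lit 0) [] (nat_lit 0) [] false,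
   Spec.mk (nat_lit 47506) (nat_lit 0) [] (nat_lit 0) [] false,
   Spec.mk (nat_lit 47508) (nat_lit 0) [] (nat_lit 0) [] false,
   Spec.mk (nat_lit 47512) (nat_lit 0) [] (nat_lit 0) [] false,
   Spec.mk (nat_lit 47514) (nat_lit 0) [] (nat_lit 0) [] false,
   Spec.mk (nat_lit 47522) (nat_lit 0) [] (nat_lit 0) [] false,
   Spec.mk (nat_lit 47524) (nat_lit 0) [] (nat_lit 0) [] false,
   Spec.mk (nat_lit 47526) (nat_lit 0) [] (nat_lit 0) [] false,
   Spec.mk (nat_lit 47530) (nat_lit 0) [] (nat_lit 0) [] false,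
   Spec.mk (nat_lit 47532) (nat_lit 0) [] (nat_lit 0) [] false,
   Spec.mk (nat_lit 47538) (nat_lit 0) [] (nat_lit 0) [] false,
   Spec.mk (nat_lit 47552) (nat_lit 0) [] (nat_lit 0) [] false,
   Spec.mk (nat_lit 47554) (nat_lit 0) [] (nat_lit 0) [] false,
   Spec.mk (nat_lit 47558) (nat_lit 0) [] (nat_lit 0) [] false,
   Spec.mk (nat_lit 47560) (nat_lit 0) [] (nat_lit 0) [] false,
   Spec.mk (nat_lit 47562) (nat_lit 0) [] (nat_lit 0) [] false,
   Spec.mk (nat_lit 47566) (nat_lit 0) [] (nat_lit 0) [] false,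
   Spec.mk (nat_lit 47568) (nat_lit 0) [] (nat_lit 0) [] false,
   Spec.mk (nat_lit 47576) (nat_lit 0) [] (nat_lit 0) [] false,
   Spec.mk (nat_lit 47578) (nat_lit 0) [] (nat_lit 0) [] false,
   Spec.mk (nat_lit 47580) (nat_lit 0) [] (nat_lit 0) [] false,
   Spec.mk (nat_lit 47584) (nat_lit 0) [] (nat_lit 0) [] false,
   Spec.mk (nat_lit 47586) (nat_lit 0) [] (nat_lit 0) [] false,
   Spec.mk (nat_lit 47592) (nat_lit 0) [] (nat_lit 0) [] false,
   Spec.mk (nat_lit 47602) (nat_lit 0) [] (nat_lit 0) [] false,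
   Spec.mk (nat_lit 47604) (nat_lit 0) [] (nat_lit 0) [] false,
   Spec.mk (nat_lit 47610) (nat_lit 0) [] (nat_lit 0) [] false,
   Spec.mk (nat_lit 47636) (nat_lit 0) [] (nat_lit 0) [] false,
   Spec.mk (nat_lit 47642) (nat_lit 0) [] (nat_lit 0) [] false,
   Spec.mk (nat_lit 47644) (nat_lit 0) [] (nat_lit 0) [] false,
   Spec.mk (nat_lit 47648) (nat_lit 0) [] (nat_lit 0) [] false,
   Spec.mk (nat_lit 47650) (nat_lit 0) [] (nat_lit 0) [] false,
   Spec.mk (nat_lit 47652) (nat_lit 0) [] (nat_lit 0) [] false,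
   Spec.mk (nat_lit 47660) (nat_lit 0) [] (nat_lit 0) [] false,
   Spec.mk (nat_lit 47662) (nat_lit 0) [] (nat_lit 0) [] false,
   Spec.mk (nat_lit 47666) (nat_lit 0) [] (nat_lit 0) [] false,
   Spec.mk (nat_lit 47668) (nat_lit 0) [] (nat_lit 0) [] false,
   Spec.mk (nat_lit 47670) (nat_lit 0) [] (nat_lit 0) [] false,
   Spec.mk (nat_lit 47674) (nat_lit 0) [] (nat_lit 0) [] false,
   Spec.mk (nat_lit 47676) (nat_lit 0) [] (nat_lit 0) [] false,
   Spec.mk (nat_lit 47684) (nat_lit 0) [] (nat_lit 0) [] false,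
   Spec.mk (nat_lit 47686) (nat_lit 0) [] (nat_lit 0) [] false,
   Spec.mk (nat_lit 47688) (nat_lit 0) [] (nat_lit 0) [] false,
   Spec.mk (nat_lit 47692) (nat_lit 0) [] (nat_lit 0) [] false,
   Spec.mk (nat_lit 47694) (nat_lit 0) [] (nat_lit 0) [] false,
   Spec.mk (nat_lit 47700) (nat_lit 0) [] (nat_lit 0) [] false,
   Spec.mk (nat_lit 47714) (nat_lit 0) [] (nat_lit 0) [] false,
   Spec.mk (nat_lit 47716) (nat_lit 0) [] (nat_lit 0) [] false,
   Spec.mk (nat_lit 47720) (nat_lit 0) [] (nat_lit 0) [] false,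
   Spec.mk (nat_lit 47722) (nat_lit 0) [] (nat_lit 0) [] false,
   Spec.mk (nat_lit 47724) (nat_lit 0) [] (nat_lit 0) [] false,
   Spec.mk (nat_lit 47728) (nat_lit 0) [] (nat_lit 0) [] false,
   Spec.mk (nat_lit 47730) (nat_lit 0) [] (nat_lit 0) [] false,
   Spec.mk (nat_lit 47738) (nat_lit 0) [] (nat_lit 0) [] false,
   Spec.mk (nat_lit 47740) (nat_lit 0) [] (nat_lit 0) [] false,
   Spec.mk (nat_lit 47742) (nat_lit 0) [] (nat_lit 0) [] false]

noncomputable def cd125 : List Spec :=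
  [Spec.mk (nat_lit 47746) (nat_lit 0) [] (nat_lit 0) [] false,
   Spec.mk (nat_lit 47748) (nat_lit 0) [] (nat_lit 0) [] false,
   Spec.mk (nat_lit 47754) (nat_lit 0) [] (nat_lit 0) [] false,
   Spec.mk (nat_lit 47764) (nat_lit 0) [] (nat_lit 0) [] false,
   Spec.mk (nat_lit 47766) (nat_lit 0) [] (nat_lit 0) [] false,
   Spec.mk (nat_lit 47772) (nat_lit 0) [] (nat_lit 0) [] false,
   Spec.mk (nat_lit 47792) (nat_lit 0) [] (nat_lit 0) [] false,
   Spec.mk (nat_lit 47794) (nat_lit 0) [] (nat_lit 0) [] false,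
   Spec.mk (nat_lit 47796) (nat_lit 0) [] (nat_lit 0) [] false,
   Spec.mk (nat_lit 47800) (nat_lit 0) [] (nat_lit 0) [] false,
   Spec.mk (nat_lit 47802) (nat_lit 0) [] (nat_lit 0) [] false,
   Spec.mk (nat_lit 47808) (nat_lit 0) [] (nat_lit 0) [] false,
   Spec.mk (nat_lit 47818) (nat_lit 0) [] (nat_lit 0) [] false,
   Spec.mk (nat_lit 47820) (nat_lit 0) [] (nat_lit 0) [] false,
   Spec.mk (nat_lit 47826) (nat_lit 0) [] (nat_lit 0) [] false,
   Spec.mk (nat_lit 47844) (nat_lit 0) [] (nat_lit 0) [] false,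
   Spec.mk (nat_lit 47876) (nat_lit 0) [] (nat_lit 0) [] false,
   Spec.mk (nat_lit 47878) (nat_lit 0) [] (nat_lit 0) [] false,
   Spec.mk (nat_lit 47882) (nat_lit 0) [] (nat_lit 0) [] false,
   Spec.mk (nat_lit 47884) (nat_lit 0) [] (nat_lit 0) [] false,
   Spec.mk (nat_lit 47886) (nat_lit 0) [] (nat_lit 0) [] false,
   Spec.mk (nat_lit 47890) (nat_lit 0) [] (nat_lit 0) [] false,
   Spec.mk (nat_lit 47892) (nat_lit 0) [] (nat_lit 0) [] false,
   Spec.mk (nat_lit 47900) (nat_lit 0) [] (nat_lit 0) [] false,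
   Spec.mk (nat_lit 47902) (nat_lit 0) [] (nat_lit 0) [] false,
   Spec.mk (nat_lit 47904) (nat_lit 0) [] (nat_lit 0) [] false,
   Spec.mk (nat_lit 47908) (nat_lit 0) [] (nat_lit 0) [] false,
   Spec.mk (nat_lit 47910) (nat_lit 0) [] (nat_lit 0) [] false,
   Spec.mk (nat_lit 47916) (nat_lit 0) [] (nat_lit 0) [] false,
   Spec.mk (nat_lit 47926) (nat_lit 0) [] (nat_lit 0) [] false,
   Spec.mk (nat_lit 47928) (nat_lit 0) [] (nat_lit 0) [] false,
   Spec.mk (nat_lit 47934) (nat_lit 0) [] (nat_lit 0) [] false,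
   Spec.mk (nat_lit 47954) (nat_lit 0) [] (nat_lit 0) [] false,
   Spec.mk (nat_lit 47956) (nat_lit 0) [] (nat_lit 0) [] false,
   Spec.mk (nat_lit 47958) (nat_lit 0) [] (nat_lit 0) [] false,
   Spec.mk (nat_lit 47962) (nat_lit 0) [] (nat_lit 0) [] false,
   Spec.mk (nat_lit 47964) (nat_lit 0) [] (nat_lit 0) [] false,
   Spec.mk (nat_lit 47970) (nat_lit 0) [] (nat_lit 0) [] false,
   Spec.mk (nat_lit 47980) (nat_lit 0) [] (nat_lit 0) [] false,
   Spec.mk (nat_lit 47982) (nat_lit 0) [] (nat_lit 0) [] false,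
   Spec.mk (nat_lit 47988) (nat_lit 0) [] (nat_lit 0) [] false,
   Spec.mk (nat_lit 48006) (nat_lit 0) [] (nat_lit 0) [] false,
   Spec.mk (nat_lit 48034) (nat_lit 0) [] (nat_lit 0) [] false,
   Spec.mk (nat_lit 48036) (nat_lit 0) [] (nat_lit 0) [] false,
   Spec.mk (nat_lit 48042) (nat_lit 0) [] (nat_lit 0) [] false,
   Spec.mk (nat_lit 48060) (nat_lit 0) [] (nat_lit 0) [] false,
   Spec.mk (nat_lit 48140) (nat_lit 0) [] (nat_lit 0) [] false,
   Spec.mk (nat_lit 48158) (nat_lit 0) [] (nat_lit 0) [] false,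
   Spec.mk (nat_lit 48164) (nat_lit 0) [] (nat_lit 0) [] false,
   Spec.mk (nat_lit 48166) (nat_lit 0) [] (nat_lit 0) [] false,
   Spec.mk (nat_lit 48176) (nat_lit 0) [] (nat_lit 0) [] false,
   Spec.mk (nat_lit 48182) (nat_lit 0) [] (nat_lit 0) [] false,
   Spec.mk (nat_lit 48184) (nat_lit 0) [] (nat_lit 0) [] false,
   Spec.mk (nat_lit 48188) (nat_lit 0) [] (nat_lit 0) [] false,
   Spec.mk (nat_lit 48190) (nat_lit 0) [] (nat_lit 0) [] false,
   Spec.mk (nat_lit 48192) (nat_lit 0) [] (nat_lit 0) [] false,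
   Spec.mk (nat_lit 48212) (nat_lit 0) [] (nat_lit 0) [] false,
   Spec.mk (nat_lit 48218) (nat_lit 0) [] (nat_lit 0) [] false,
   Spec.mk (nat_lit 48220) (nat_lit 0) [] (nat_lit 0) [] false,
   Spec.mk (nat_lit 48230) (nat_lit 0) [] (nat_lit 0) [] false]

noncomputable def cd126 : List Spec :=
  [Spec.mk (nat_lit 48236) (nat_lit 0) [] (nat_lit 0) [] false,
   Spec.mk (nat_lit 48238) (nat_lit 0) [] (nat_lit 0) [] false,
   Spec.mk (nat_lit 48242) (nat_lit 0) [] (nat_lit 0) [] false,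
   Spec.mk (nat_lit 48244) (nat_lit 0) [] (nat_lit 0) [] false,
   Spec.mk (nat_lit 48246) (nat_lit 0) [] (nat_lit 0) [] false,
   Spec.mk (nat_lit 48254) (nat_lit 0) [] (nat_lit 0) [] false,
   Spec.mk (nat_lit 48256) (nat_lit 0) [] (nat_lit 0) [] false,
   Spec.mk (nat_lit 48260) (nat_lit 0) [] (nat_lit 0) [] false,
   Spec.mk (nat_lit 48262) (nat_lit 0) [] (nat_lit 0) [] false,
   Spec.mk (nat_lit 48264) (nat_lit 0) [] (nat_lit 0) [] false,
   Spec.mk (nat_lit 48268) (nat_lit 0) [] (nat_lit 0) [] false,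
   Spec.mk (nat_lit 48270) (nat_lit 0) [] (nat_lit 0) [] false,
   Spec.mk (nat_lit 48284) (nat_lit 0) [] (nat_lit 0) [] false,
   Spec.mk (nat_lit 48290) (nat_lit 0) [] (nat_lit 0) [] false,
   Spec.mk (nat_lit 48292) (nat_lit 0) [] (nat_lit 0) [] false,
   Spec.mk (nat_lit 48296) (nat_lit 0) [] (nat_lit 0) [] false,
   Spec.mk (nat_lit 48298) (nat_lit 0) [] (nat_lit 0) [] false,
   Spec.mk (nat_lit 48300) (nat_lit 0) [] (nat_lit 0) [] false,
   Spec.mk (nat_lit 48308) (nat_lit 0) [] (nat_lit 0) [] false,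
   Spec.mk (nat_lit 48310) (nat_lit 0) [] (nat_lit 0) [] false,
   Spec.mk (nat_lit 48314) (nat_lit 0) [] (nat_lit 0) [] false,
   Spec.mk (nat_lit 48316) (nat_lit 0) [] (nat_lit 0) [] false,
   Spec.mk (nat_lit 48318) (nat_lit 0) [] (nat_lit 0) [] false,
   Spec.mk (nat_lit 48322) (nat_lit 0) [] (nat_lit 0) [] false,
   Spec.mk (nat_lit 48324) (nat_lit 0) [] (nat_lit 0) [] false,
   Spec.mk (nat_lit 48332) (nat_lit 0) [] (nat_lit 0) [] false,
   Spec.mk (nat_lit 48334) (nat_lit 0) [] (nat_lit 0) [] false,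
   Spec.mk (nat_lit 48336) (nat_lit 0) [] (nat_lit 0) [] false,
   Spec.mk (nat_lit 48340) (nat_lit 0) [] (nat_lit 0) [] false,
   Spec.mk (nat_lit 48342) (nat_lit 0) [] (nat_lit 0) [] false,
   Spec.mk (nat_lit 48348) (nat_lit 0) [] (nat_lit 0) [] false,
   Spec.mk (nat_lit 48374) (nat_lit 0) [] (nat_lit 0) [] false,
   Spec.mk (nat_lit 48380) (nat_lit 0) [] (nat_lit 0) [] false,
   Spec.mk (nat_lit 48382) (nat_lit 0) [] (nat_lit 0) [] false,
   Spec.mk (nat_lit 48392) (nat_lit 0) [] (nat_lit 0) [] false,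
   Spec.mk (nat_lit 48398) (nat_lit 0) [] (nat_lit 0) [] false,
   Spec.mk (nat_lit 48400) (nat_lit 0) [] (nat_lit 0) [] false,
   Spec.mk (nat_lit 48404) (nat_lit 0) [] (nat_lit 0) [] false,
   Spec.mk (nat_lit 48406) (nat_lit 0) [] (nat_lit 0) [] false,
   Spec.mk (nat_lit 48408) (nat_lit 0) [] (nat_lit 0) [] false,
   Spec.mk (nat_lit 48416) (nat_lit 0) [] (nat_lit 0) [] false,
   Spec.mk (nat_lit 48418) (nat_lit 0) [] (nat_lit 0) [] false,
   Spec.mk (nat_lit 48422) (nat_lit 0) [] (nat_lit 0) [] false,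
   Spec.mk (nat_lit 48424) (nat_lit 0) [] (nat_lit 0) [] false,
   Spec.mk (nat_lit 48426) (nat_lit 0) [] (nat_lit 0) [] false,
   Spec.mk (nat_lit 48430) (nat_lit 0) [] (nat_lit 0) [] false,
   Spec.mk (nat_lit 48432) (nat_lit 0) [] (nat_lit 0) [] false,
   Spec.mk (nat_lit 48446) (nat_lit 0) [] (nat_lit 0) [] false,
   Spec.mk (nat_lit 48452) (nat_lit 0) [] (nat_lit 0) [] false,
   Spec.mk (nat_lit 48454) (nat_lit 0) [] (nat_lit 0) [] false,
   Spec.mk (nat_lit 48458) (nat_lit 0) [] (nat_lit 0) [] false,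
   Spec.mk (nat_lit 48460) (nat_lit 0) [] (nat_lit 0) [] false,
   Spec.mk (nat_lit 48462) (nat_lit 0) [] (nat_lit 0) [] false,
   Spec.mk (nat_lit 48470) (nat_lit 0) [] (nat_lit 0) [] false,
   Spec.mk (nat_lit 48472) (nat_lit 0) [] (nat_lit 0) [] false,
   Spec.mk (nat_lit 48476) (nat_lit 0) [] (nat_lit 0) [] false,
   Spec.mk (nat_lit 48478) (nat_lit 0) [] (nat_lit 0) [] false,
   Spec.mk (nat_lit 48480) (nat_lit 0) [] (nat_lit 0) [] false,
   Spec.mk (nat_lit 48484) (nat_lit 0) [] (nat_lit 0) [] false,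
   Spec.mk (nat_lit 48486) (nat_lit 0) [] (nat_lit 0) [] false]

noncomputable def cd127 : List Spec :=
  [Spec.mk (nat_lit 48494) (nat_lit 0) [] (nat_lit 0) [] false,
   Spec.mk (nat_lit 48496) (nat_lit 0) [] (nat_lit 0) [] false,
   Spec.mk (nat_lit 48498) (nat_lit 0) [] (nat_lit 0) [] false,
   Spec.mk (nat_lit 48502) (nat_lit 0) [] (nat_lit 0) [] false,
   Spec.mk (nat_lit 48504) (nat_lit 0) [] (nat_lit 0) [] false,
   Spec.mk (nat_lit 48510) (nat_lit 0) [] (nat_lit 0) [] false,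
   Spec.mk (nat_lit 48524) (nat_lit 0) [] (nat_lit 0) [] false,
   Spec.mk (nat_lit 48526) (nat_lit 0) [] (nat_lit 0) [] false,
   Spec.mk (nat_lit 48530) (nat_lit 0) [] (nat_lit 0) [] false,
   Spec.mk (nat_lit 48532) (nat_lit 0) [] (nat_lit 0) [] false,
   Spec.mk (nat_lit 48534) (nat_lit 0) [] (nat_lit 0) [] false,
   Spec.mk (nat_lit 48538) (nat_lit 0) [] (nat_lit 0) [] false,
   Spec.mk (nat_lit 48540) (nat_lit 0) [] (nat_lit 0) [] false,
   Spec.mk (nat_lit 48548) (nat_lit 0) [] (nat_lit 0) [] false,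
   Spec.mk (nat_lit 48550) (nat_lit 0) [] (nat_lit 0) [] false,
   Spec.mk (nat_lit 48552) (nat_lit 0) [] (nat_lit 0) [] false,
   Spec.mk (nat_lit 48556) (nat_lit 0) [] (nat_lit 0) [] false,
   Spec.mk (nat_lit 48558) (nat_lit 0) [] (nat_lit 0) [] false,
   Spec.mk (nat_lit 48564) (nat_lit 0) [] (nat_lit 0) [] false,
   Spec.mk (nat_lit 48574) (nat_lit 0) [] (nat_lit 0) [] false,
   Spec.mk (nat_lit 48576) (nat_lit 0) [] (nat_lit 0) [] false,
   Spec.mk (nat_lit 48582) (nat_lit 0) [] (nat_lit 0) [] false,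
   Spec.mk (nat_lit 48608) (nat_lit 0) [] (nat_lit 0) [] false,
   Spec.mk (nat_lit 48614) (nat_lit 0) [] (nat_lit 0) [] false,
   Spec.mk (nat_lit 48616) (nat_lit 0) [] (nat_lit 0) [] false,
   Spec.mk (nat_lit 48620) (nat_lit 0) [] (nat_lit 0) [] false,
   Spec.mk (nat_lit 48622) (nat_lit 0) [] (nat_lit 0) [] false,
   Spec.mk (nat_lit 48624) (nat_lit 0) [] (nat_lit 0) [] false,
   Spec.mk (nat_lit 48632) (nat_lit 0) [] (nat_lit 0) [] false,
   Spec.mk (nat_lit 48634) (nat_lit 0) [] (nat_lit 0) [] false,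
   Spec.mk (nat_lit 48638) (nat_lit 0) [] (nat_lit 0) [] false,
   Spec.mk (nat_lit 48640) (nat_lit 0) [] (nat_lit 0) [] false,
   Spec.mk (nat_lit 48642) (nat_lit 0) [] (nat_lit 0) [] false,
   Spec.mk (nat_lit 48646) (nat_lit 0) [] (nat_lit 0) [] false,
   Spec.mk (nat_lit 48648) (nat_lit 0) [] (nat_lit 0) [] false,
   Spec.mk (nat_lit 48656) (nat_lit 0) [] (nat_lit 0) [] false,
   Spec.mk (nat_lit 48658) (nat_lit 0) [] (nat_lit 0) [] false,
   Spec.mk (nat_lit 48660) (nat_lit 0) [] (nat_lit 0) [] false,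
   Spec.mk (nat_lit 48664) (nat_lit 0) [] (nat_lit 0) [] false,
   Spec.mk (nat_lit 48666) (nat_lit 0) [] (nat_lit 0) [] false,
   Spec.mk (nat_lit 48672) (nat_lit 0) [] (nat_lit 0) [] false,
   Spec.mk (nat_lit 48686) (nat_lit 0) [] (nat_lit 0) [] false,
   Spec.mk (nat_lit 48688) (nat_lit 0) [] (nat_lit 0) [] false,
   Spec.mk (nat_lit 48692) (nat_lit 0) [] (nat_lit 0) [] false,
   Spec.mk (nat_lit 48694) (nat_lit 0) [] (nat_lit 0) [] false,
   Spec.mk (nat_lit 48696) (nat_lit 0) [] (nat_lit 0) [] false,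
   Spec.mk (nat_lit 48700) (nat_lit 0) [] (nat_lit 0) [] false,
   Spec.mk (nat_lit 48702) (nat_lit 0) [] (nat_lit 0) [] false,
   Spec.mk (nat_lit 48710) (nat_lit 0) [] (nat_lit 0) [] false,
   Spec.mk (nat_lit 48712) (nat_lit 0) [] (nat_lit 0) [] false,
   Spec.mk (nat_lit 48714) (nat_lit 0) [] (nat_lit 0) [] false,
   Spec.mk (nat_lit 48718) (nat_lit 0) [] (nat_lit 0) [] false,
   Spec.mk (nat_lit 48720) (nat_lit 0) [] (nat_lit 0) [] false,
   Spec.mk (nat_lit 48726) (nat_lit 0) [] (nat_lit 0) [] false,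
   Spec.mk (nat_lit 48736) (nat_lit 0) [] (nat_lit 0) [] false,
   Spec.mk (nat_lit 48738) (nat_lit 0) [] (nat_lit 0) [] false,
   Spec.mk (nat_lit 48744) (nat_lit 0) [] (nat_lit 0) [] false,
   Spec.mk (nat_lit 48764) (nat_lit 0) [] (nat_lit 0) [] false,
   Spec.mk (nat_lit 48766) (nat_lit 0) [] (nat_lit 0) [] false,
   Spec.mk (nat_lit 48768) (nat_lit 0) [] (nat_lit 0) [] false]

noncomputable def cd128 : List Spec :=
  [Spec.mk (nat_lit 48772) (nat_lit 0) [] (nat_lit 0) [] false,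
   Spec.mk (nat_lit 48774) (nat_lit 0) [] (nat_lit 0) [] false,
   Spec.mk (nat_lit 48780) (nat_lit 0) [] (nat_lit 0) [] false,
   Spec.mk (nat_lit 48790) (nat_lit 0) [] (nat_lit 0) [] false,
   Spec.mk (nat_lit 48792) (nat_lit 0) [] (nat_lit 0) [] false,
   Spec.mk (nat_lit 48798) (nat_lit 0) [] (nat_lit 0) [] false,
   Spec.mk (nat_lit 48816) (nat_lit 0) [] (nat_lit 0) [] false,
   Spec.mk (nat_lit 48860) (nat_lit 0) [] (nat_lit 0) [] false,
   Spec.mk (nat_lit 48866) (nat_lit 0) [] (nat_lit 0) [] false,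
   Spec.mk (nat_lit 48868) (nat_lit 0) [] (nat_lit 0) [] false,
   Spec.mk (nat_lit 48878) (nat_lit 0) [] (nat_lit 0) [] false,
   Spec.mk (nat_lit 48884) (nat_lit 0) [] (nat_lit 0) [] false,
   Spec.mk (nat_lit 48886) (nat_lit 0) [] (nat_lit 0) [] false,
   Spec.mk (nat_lit 48890) (nat_lit 0) [] (nat_lit 0) [] false,
   Spec.mk (nat_lit 48892) (nat_lit 0) [] (nat_lit 0) [] false,
   Spec.mk (nat_lit 48894) (nat_lit 0) [] (nat_lit 0) [] false,
   Spec.mk (nat_lit 48902) (nat_lit 0) [] (nat_lit 0) [] false,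
   Spec.mk (nat_lit 48904) (nat_lit 0) [] (nat_lit 0) [] false,
   Spec.mk (nat_lit 48908) (nat_lit 0) [] (nat_lit 0) [] false,
   Spec.mk (nat_lit 48910) (nat_lit 0) [] (nat_lit 0) [] false,
   Spec.mk (nat_lit 48912) (nat_lit 0) [] (nat_lit 0) [] false,
   Spec.mk (nat_lit 48916) (nat_lit 0) [] (nat_lit 0) [] false,
   Spec.mk (nat_lit 48918) (nat_lit 0) [] (nat_lit 0) [] false,
   Spec.mk (nat_lit 48932) (nat_lit 0) [] (nat_lit 0) [] false,
   Spec.mk (nat_lit 48938) (nat_lit 0) [] (nat_lit 0) [] false,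
   Spec.mk (nat_lit 48940) (nat_lit 0) [] (nat_lit 0) [] false,
   Spec.mk (nat_lit 48944) (nat_lit 0) [] (nat_lit 0) [] false,
   Spec.mk (nat_lit 48946) (nat_lit 0) [] (nat_lit 0) [] false,
   Spec.mk (nat_lit 48948) (nat_lit 0) [] (nat_lit 0) [] false,
   Spec.mk (nat_lit 48956) (nat_lit 0) [] (nat_lit 0) [] false,
   Spec.mk (nat_lit 48958) (nat_lit 0) [] (nat_lit 0) [] false,
   Spec.mk (nat_lit 48962) (nat_lit 0) [] (nat_lit 0) [] false,
   Spec.mk (nat_lit 48964) (nat_lit 0) [] (nat_lit 0) [] false,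
   Spec.mk (nat_lit 48966) (nat_lit 0) [] (nat_lit 0) [] false,
   Spec.mk (nat_lit 48970) (nat_lit 0) [] (nat_lit 0) [] false,
   Spec.mk (nat_lit 48972) (nat_lit 0) [] (nat_lit 0) [] false,
   Spec.mk (nat_lit 48980) (nat_lit 0) [] (nat_lit 0) [] false,
   Spec.mk (nat_lit 48982) (nat_lit 0) [] (nat_lit 0) [] false,
   Spec.mk (nat_lit 48984) (nat_lit 0) [] (nat_lit 0) [] false,
   Spec.mk (nat_lit 48988) (nat_lit 0) [] (nat_lit 0) [] false,
   Spec.mk (nat_lit 48990) (nat_lit 0) [] (nat_lit 0) [] false,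
   Spec.mk (nat_lit 48996) (nat_lit 0) [] (nat_lit 0) [] false,
   Spec.mk (nat_lit 49010) (nat_lit 0) [] (nat_lit 0) [] false,
   Spec.mk (nat_lit 49012) (nat_lit 0) [] (nat_lit 0) [] false,
   Spec.mk (nat_lit 49016) (nat_lit 0) [] (nat_lit 0) [] false,
   Spec.mk (nat_lit 49018) (nat_lit 0) [] (nat_lit 0) [] false,
   Spec.mk (nat_lit 49020) (nat_lit 0) [] (nat_lit 0) [] false,
   Spec.mk (nat_lit 49024) (nat_lit 0) [] (nat_lit 0) [] false,
   Spec.mk (nat_lit 49026) (nat_lit 0) [] (nat_lit 0) [] false,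
   Spec.mk (nat_lit 49034) (nat_lit 0) [] (nat_lit 0) [] false,
   Spec.mk (nat_lit 49036) (nat_lit 0) [] (nat_lit 0) [] false,
   Spec.mk (nat_lit 49038) (nat_lit 0) [] (nat_lit 0) [] false,
   Spec.mk (nat_lit 49042) (nat_lit 0) [] (nat_lit 0) [] false,
   Spec.mk (nat_lit 49044) (nat_lit 0) [] (nat_lit 0) [] false,
   Spec.mk (nat_lit 49050) (nat_lit 0) [] (nat_lit 0) [] false,
   Spec.mk (nat_lit 49060) (nat_lit 0) [] (nat_lit 0) [] false,
   Spec.mk (nat_lit 49062) (nat_lit 0) [] (nat_lit 0) [] false,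
   Spec.mk (nat_lit 49068) (nat_lit 0) [] (nat_lit 0) [] false,
   Spec.mk (nat_lit 49094) (nat_lit 0) [] (nat_lit 0) [] false,
   Spec.mk (nat_lit 49100) (nat_lit 0) [] (nat_lit 0) [] false]

noncomputable def cd129 : List Spec :=
  [Spec.mk (nat_lit 49102) (nat_lit 0) [] (nat_lit 0) [] false,
   Spec.mk (nat_lit 49106) (nat_lit 0) [] (nat_lit 0) [] false,
   Spec.mk (nat_lit 49108) (nat_lit 0) [] (nat_lit 0) [] false,
   Spec.mk (nat_lit 49110) (nat_lit 0) [] (nat_lit 0) [] false,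
   Spec.mk (nat_lit 49118) (nat_lit 0) [] (nat_lit 0) [] false,
   Spec.mk (nat_lit 49120) (nat_lit 0) [] (nat_lit 0) [] false,
   Spec.mk (nat_lit 49124) (nat_lit 0) [] (nat_lit 0) [] false,
   Spec.mk (nat_lit 49126) (nat_lit 0) [] (nat_lit 0) [] false,
   Spec.mk (nat_lit 49128) (nat_lit 0) [] (nat_lit 0) [] false,
   Spec.mk (nat_lit 49132) (nat_lit 0) [] (nat_lit 0) [] false,
   Spec.mk (nat_lit 49134) (nat_lit 0) [] (nat_lit 0) [] false,
   Spec.mk (nat_lit 49142) (nat_lit 0) [] (nat_lit 0) [] false,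
   Spec.mk (nat_lit 49144) (nat_lit 0) [] (nat_lit 0) [] false,
   Spec.mk (nat_lit 49146) (nat_lit 0) [] (nat_lit 0) [] false,
   Spec.mk (nat_lit 49150) (nat_lit 0) [] (nat_lit 0) [] false,
   Spec.mk (nat_lit 49152) (nat_lit 0) [] (nat_lit 0) [] false,
   Spec.mk (nat_lit 49158) (nat_lit 0) [] (nat_lit 0) [] false,
   Spec.mk (nat_lit 49172) (nat_lit 0) [] (nat_lit 0) [] false,
   Spec.mk (nat_lit 49174) (nat_lit 0) [] (nat_lit 0) [] false,
   Spec.mk (nat_lit 49178) (nat_lit 0) [] (nat_lit 0) [] false,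
   Spec.mk (nat_lit 49180) (nat_lit 0) [] (nat_lit 0) [] false,
   Spec.mk (nat_lit 49182) (nat_lit 0) [] (nat_lit 0) [] false,
   Spec.mk (nat_lit 49186) (nat_lit 0) [] (nat_lit 0) [] false,
   Spec.mk (nat_lit 49188) (nat_lit 0) [] (nat_lit 0) [] false,
   Spec.mk (nat_lit 49196) (nat_lit 0) [] (nat_lit 0) [] false,
   Spec.mk (nat_lit 49198) (nat_lit 0) [] (nat_lit 0) [] false,
   Spec.mk (nat_lit 49200) (nat_lit 0) [] (nat_lit 0) [] false,
   Spec.mk (nat_lit 49204) (nat_lit 0) [] (nat_lit 0) [] false,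
   Spec.mk (nat_lit 49206) (nat_lit 0) [] (nat_lit 0) [] false,
   Spec.mk (nat_lit 49212) (nat_lit 0) [] (nat_lit 0) [] false,
   Spec.mk (nat_lit 49222) (nat_lit 0) [] (nat_lit 0) [] false,
   Spec.mk (nat_lit 49224) (nat_lit 0) [] (nat_lit 0) [] false,
   Spec.mk (nat_lit 49230) (nat_lit 0) [] (nat_lit 0) [] false,
   Spec.mk (nat_lit 49250) (nat_lit 0) [] (nat_lit 0) [] false,
   Spec.mk (nat_lit 49252) (nat_lit 0) [] (nat_lit 0) [] false,
   Spec.mk (nat_lit 49254) (nat_lit 0) [] (nat_lit 0) [] false,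
   Spec.mk (nat_lit 49258) (nat_lit 0) [] (nat_lit 0) [] false,
   Spec.mk (nat_lit 49260) (nat_lit 0) [] (nat_lit 0) [] false,
   Spec.mk (nat_lit 49266) (nat_lit 0) [] (nat_lit 0) [] false,
   Spec.mk (nat_lit 49276) (nat_lit 0) [] (nat_lit 0) [] false,
   Spec.mk (nat_lit 49278) (nat_lit 0) [] (nat_lit 0) [] false,
   Spec.mk (nat_lit 49284) (nat_lit 0) [] (nat_lit 0) [] false,
   Spec.mk (nat_lit 49302) (nat_lit 0) [] (nat_lit 0) [] false,
   Spec.mk (nat_lit 49334) (nat_lit 0) [] (nat_lit 0) [] false,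
   Spec.mk (nat_lit 49336) (nat_lit 0) [] (nat_lit 0) [] false,
   Spec.mk (nat_lit 49340) (nat_lit 0) [] (nat_lit 0) [] false,
   Spec.mk (nat_lit 49342) (nat_lit 0) [] (nat_lit 0) [] false,
   Spec.mk (nat_lit 49344) (nat_lit 0) [] (nat_lit 0) [] false,
   Spec.mk (nat_lit 49348) (nat_lit 0) [] (nat_lit 0) [] false,
   Spec.mk (nat_lit 49350) (nat_lit 0) [] (nat_lit 0) [] false,
   Spec.mk (nat_lit 49358) (nat_lit 0) [] (nat_lit 0) [] false,
   Spec.mk (nat_lit 49360) (nat_lit 0) [] (nat_lit 0) [] false,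
   Spec.mk (nat_lit 49362) (nat_lit 0) [] (nat_lit 0) [] false,
   Spec.mk (nat_lit 49366) (nat_lit 0) [] (nat_lit 0) [] false,
   Spec.mk (nat_lit 49368) (nat_lit 0) [] (nat_lit 0) [] false,
   Spec.mk (nat_lit 49374) (nat_lit 0) [] (nat_lit 0) [] false,
   Spec.mk (nat_lit 49384) (nat_lit 0) [] (nat_lit 0) [] false,
   Spec.mk (nat_lit 49386) (nat_lit 0) [] (nat_lit 0) [] false,
   Spec.mk (nat_lit 49392) (nat_lit 0) [] (nat_lit 0) [] false,
   Spec.mk (nat_lit 49412) (nat_lit 0) [] (nat_lit 0) [] false]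

noncomputable def cd130 : List Spec :=
  [Spec.mk (nat_lit 49414) (nat_lit 0) [] (nat_lit 0) [] false,
   Spec.mk (nat_lit 49416) (nat_lit 0) [] (nat_lit 0) [] false,
   Spec.mk (nat_lit 49420) (nat_lit 0) [] (nat_lit 0) [] false,
   Spec.mk (nat_lit 49422) (nat_lit 0) [] (nat_lit 0) [] false,
   Spec.mk (nat_lit 49428) (nat_lit 0) [] (nat_lit 0) [] false,
   Spec.mk (nat_lit 49438) (nat_lit 0) [] (nat_lit 0) [] false,
   Spec.mk (nat_lit 49440) (nat_lit 0) [] (nat_lit 0) [] false,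
   Spec.mk (nat_lit 49446) (nat_lit 0) [] (nat_lit 0) [] false,
   Spec.mk (nat_lit 49464) (nat_lit 0) [] (nat_lit 0) [] false,
   Spec.mk (nat_lit 49492) (nat_lit 0) [] (nat_lit 0) [] false,
   Spec.mk (nat_lit 49494) (nat_lit 0) [] (nat_lit 0) [] false,
   Spec.mk (nat_lit 49500) (nat_lit 0) [] (nat_lit 0) [] false,
   Spec.mk (nat_lit 49518) (nat_lit 0) [] (nat_lit 0) [] false,
   Spec.mk (nat_lit 49580) (nat_lit 0) [] (nat_lit 0) [] false,
   Spec.mk (nat_lit 49586) (nat_lit 0) [] (nat_lit 0) [] false,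
   Spec.mk (nat_lit 49588) (nat_lit 0) [] (nat_lit 0) [] false,
   Spec.mk (nat_lit 49592) (nat_lit 0) [] (nat_lit 0) [] false,
   Spec.mk (nat_lit 49594) (nat_lit 0) [] (nat_lit 0) [] false,
   Spec.mk (nat_lit 49596) (nat_lit 0) [] (nat_lit 0) [] false,
   Spec.mk (nat_lit 49604) (nat_lit 0) [] (nat_lit 0) [] false,
   Spec.mk (nat_lit 49606) (nat_lit 0) [] (nat_lit 0) [] false,
   Spec.mk (nat_lit 49610) (nat_lit 0) [] (nat_lit 0) [] false,
   Spec.mk (nat_lit 49612) (nat_lit 0) [] (nat_lit 0) [] false,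
   Spec.mk (nat_lit 49614) (nat_lit 0) [] (nat_lit 0) [] false,
   Spec.mk (nat_lit 49618) (nat_lit 0) [] (nat_lit 0) [] false,
   Spec.mk (nat_lit 49620) (nat_lit 0) [] (nat_lit 0) [] false,
   Spec.mk (nat_lit 49628) (nat_lit 0) [] (nat_lit 0) [] false,
   Spec.mk (nat_lit 49630) (nat_lit 0) [] (nat_lit 0) [] false,
   Spec.mk (nat_lit 49632) (nat_lit 0) [] (nat_lit 0) [] false,
   Spec.mk (nat_lit 49636) (nat_lit 0) [] (nat_lit 0) [] false,
   Spec.mk (nat_lit 49638) (nat_lit 0) [] (nat_lit 0) [] false,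
   Spec.mk (nat_lit 49644) (nat_lit 0) [] (nat_lit 0) [] false,
   Spec.mk (nat_lit 49658) (nat_lit 0) [] (nat_lit 0) [] false,
   Spec.mk (nat_lit 49660) (nat_lit 0) [] (nat_lit 0) [] false,
   Spec.mk (nat_lit 49664) (nat_lit 0) [] (nat_lit 0) [] false,
   Spec.mk (nat_lit 49666) (nat_lit 0) [] (nat_lit 0) [] false,
   Spec.mk (nat_lit 49668) (nat_lit 0) [] (nat_lit 0) [] false,
   Spec.mk (nat_lit 49672) (nat_lit 0) [] (nat_lit 0) [] false,
   Spec.mk (nat_lit 49674) (nat_lit 0) [] (nat_lit 0) [] false,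
   Spec.mk (nat_lit 49682) (nat_lit 0) [] (nat_lit 0) [] false,
   Spec.mk (nat_lit 49684) (nat_lit 0) [] (nat_lit 0) [] false,
   Spec.mk (nat_lit 49686) (nat_lit 0) [] (nat_lit 0) [] false,
   Spec.mk (nat_lit 49690) (nat_lit 0) [] (nat_lit 0) [] false,
   Spec.mk (nat_lit 49692) (nat_lit 0) [] (nat_lit 0) [] false,
   Spec.mk (nat_lit 49698) (nat_lit 0) [] (nat_lit 0) [] false,
   Spec.mk (nat_lit 49708) (nat_lit 0) [] (nat_lit 0) [] false,
   Spec.mk (nat_lit 49710) (nat_lit 0) [] (nat_lit 0) [] false,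
   Spec.mk (nat_lit 49716) (nat_lit 0) [] (nat_lit 0) [] false,
   Spec.mk (nat_lit 49736) (nat_lit 0) [] (nat_lit 0) [] false,
   Spec.mk (nat_lit 49738) (nat_lit 0) [] (nat_lit 0) [] false,
   Spec.mk (nat_lit 49740) (nat_lit 0) [] (nat_lit 0) [] false,
   Spec.mk (nat_lit 49744) (nat_lit 0) [] (nat_lit 0) [] false,
   Spec.mk (nat_lit 49746) (nat_lit 0) [] (nat_lit 0) [] false,
   Spec.mk (nat_lit 49752) (nat_lit 0) [] (nat_lit 0) [] false,
   Spec.mk (nat_lit 49762) (nat_lit 0) [] (nat_lit 0) [] false,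
   Spec.mk (nat_lit 49764) (nat_lit 0) [] (nat_lit 0) [] false,
   Spec.mk (nat_lit 49770) (nat_lit 0) [] (nat_lit 0) [] false,
   Spec.mk (nat_lit 49788) (nat_lit 0) [] (nat_lit 0) [] false,
   Spec.mk (nat_lit 49820) (nat_lit 0) [] (nat_lit 0) [] false,
   Spec.mk (nat_lit 49822) (nat_lit 0) [] (nat_lit 0) [] false]

noncomputable def cd131 : List Spec :=
  [Spec.mk (nat_lit 49826) (nat_lit 0) [] (nat_lit 0) [] false,
   Spec.mk (nat_lit 49828) (nat_lit 0) [] (nat_lit 0) [] false,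
   Spec.mk (nat_lit 49830) (nat_lit 0) [] (nat_lit 0) [] false,
   Spec.mk (nat_lit 49834) (nat_lit 0) [] (nat_lit 0) [] false,
   Spec.mk (nat_lit 49836) (nat_lit 0) [] (nat_lit 0) [] false,
   Spec.mk (nat_lit 49844) (nat_lit 0) [] (nat_lit 0) [] false,
   Spec.mk (nat_lit 49846) (nat_lit 0) [] (nat_lit 0) [] false,
   Spec.mk (nat_lit 49848) (nat_lit 0) [] (nat_lit 0) [] false,
   Spec.mk (nat_lit 49852) (nat_lit 0) [] (nat_lit 0) [] false,
   Spec.mk (nat_lit 49854) (nat_lit 0) [] (nat_lit 0) [] false,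
   Spec.mk (nat_lit 49860) (nat_lit 0) [] (nat_lit 0) [] false,
   Spec.mk (nat_lit 49870) (nat_lit 0) [] (nat_lit 0) [] false,
   Spec.mk (nat_lit 49872) (nat_lit 0) [] (nat_lit 0) [] false,
   Spec.mk (nat_lit 49878) (nat_lit 0) [] (nat_lit 0) [] false,
   Spec.mk (nat_lit 49898) (nat_lit 0) [] (nat_lit 0) [] false,
   Spec.mk (nat_lit 49900) (nat_lit 0) [] (nat_lit 0) [] false,
   Spec.mk (nat_lit 49902) (nat_lit 0) [] (nat_lit 0) [] false,
   Spec.mk (nat_lit 49906) (nat_lit 0) [] (nat_lit 0) [] false,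
   Spec.mk (nat_lit 49908) (nat_lit 0) [] (nat_lit 0) [] false,
   Spec.mk (nat_lit 49914) (nat_lit 0) [] (nat_lit 0) [] false,
   Spec.mk (nat_lit 49924) (nat_lit 0) [] (nat_lit 0) [] false,
   Spec.mk (nat_lit 49926) (nat_lit 0) [] (nat_lit 0) [] false,
   Spec.mk (nat_lit 49932) (nat_lit 0) [] (nat_lit 0) [] false,
   Spec.mk (nat_lit 49950) (nat_lit 0) [] (nat_lit 0) [] false,
   Spec.mk (nat_lit 49978) (nat_lit 0) [] (nat_lit 0) [] false,
   Spec.mk (nat_lit 49980) (nat_lit 0) [] (nat_lit 0) [] false,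
   Spec.mk (nat_lit 49986) (nat_lit 0) [] (nat_lit 0) [] false,
   Spec.mk (nat_lit 50004) (nat_lit 0) [] (nat_lit 0) [] false,
   Spec.mk (nat_lit 50060) (nat_lit 0) [] (nat_lit 0) [] false,
   Spec.mk (nat_lit 50062) (nat_lit 0) [] (nat_lit 0) [] false,
   Spec.mk (nat_lit 50064) (nat_lit 0) [] (nat_lit 0) [] false,
   Spec.mk (nat_lit 50068) (nat_lit 0) [] (nat_lit 0) [] false,
   Spec.mk (nat_lit 50070) (nat_lit 0) [] (nat_lit 0) [] false,
   Spec.mk (nat_lit 50076) (nat_lit 0) [] (nat_lit 0) [] false,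
   Spec.mk (nat_lit 50086) (nat_lit 0) [] (nat_lit 0) [] false,
   Spec.mk (nat_lit 50088) (nat_lit 0) [] (nat_lit 0) [] false,
   Spec.mk (nat_lit 50094) (nat_lit 0) [] (nat_lit 0) [] false,
   Spec.mk (nat_lit 50112) (nat_lit 0) [] (nat_lit 0) [] false,
   Spec.mk (nat_lit 50140) (nat_lit 0) [] (nat_lit 0) [] false,
   Spec.mk (nat_lit 50142) (nat_lit 0) [] (nat_lit 0) [] false,
   Spec.mk (nat_lit 50148) (nat_lit 0) [] (nat_lit 0) [] false,
   Spec.mk (nat_lit 50166) (nat_lit 0) [] (nat_lit 0) [] false,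
   Spec.mk (nat_lit 50220) (nat_lit 0) [] (nat_lit 0) [] false,
   Spec.mk (nat_lit 50318) (nat_lit 0) [] (nat_lit 0) [] false,
   Spec.mk (nat_lit 50324) (nat_lit 0) [] (nat_lit 0) [] false,
   Spec.mk (nat_lit 50326) (nat_lit 0) [] (nat_lit 0) [] false,
   Spec.mk (nat_lit 50336) (nat_lit 0) [] (nat_lit 0) [] false,
   Spec.mk (nat_lit 50342) (nat_lit 0) [] (nat_lit 0) [] false,
   Spec.mk (nat_lit 50344) (nat_lit 0) [] (nat_lit 0) [] false,
   Spec.mk (nat_lit 50348) (nat_lit 0) [] (nat_lit 0) [] false,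
   Spec.mk (nat_lit 50350) (nat_lit 0) [] (nat_lit 0) [] false,
   Spec.mk (nat_lit 50352) (nat_lit 0) [] (nat_lit 0) [] false,
   Spec.mk (nat_lit 50360) (nat_lit 0) [] (nat_lit 0) [] false,
   Spec.mk (nat_lit 50362) (nat_lit 0) [] (nat_lit 0) [] false,
   Spec.mk (nat_lit 50366) (nat_lit 0) [] (nat_lit 0) [] false,
   Spec.mk (nat_lit 50368) (nat_lit 0) [] (nat_lit 0) [] false,
   Spec.mk (nat_lit 50370) (nat_lit 0) [] (nat_lit 0) [] false,
   Spec.mk (nat_lit 50374) (nat_lit 0) [] (nat_lit 0) [] false,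
   Spec.mk (nat_lit 50376) (nat_lit 0) [] (nat_lit 0) [] false,
   Spec.mk (nat_lit 50390) (nat_lit 0) [] (nat_lit 0) [] false]

noncomputable def cd132 : List Spec :=
  [Spec.mk (nat_lit 50396) (nat_lit 0) [] (nat_lit 0) [] false,
   Spec.mk (nat_lit 50398) (nat_lit 0) [] (nat_lit 0) [] false,
   Spec.mk (nat_lit 50402) (nat_lit 0) [] (nat_lit 0) [] false,
   Spec.mk (nat_lit 50404) (nat_lit 0) [] (nat_lit 0) [] false,
   Spec.mk (nat_lit 50406) (nat_lit 0) [] (nat_lit 0) [] false,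
   Spec.mk (nat_lit 50414) (nat_lit 0) [] (nat_lit 0) [] false,
   Spec.mk (nat_lit 50416) (nat_lit 0) [] (nat_lit 0) [] false,
   Spec.mk (nat_lit 50420) (nat_lit 0) [] (nat_lit 0) [] false,
   Spec.mk (nat_lit 50422) (nat_lit 0) [] (nat_lit 0) [] false,
   Spec.mk (nat_lit 50424) (nat_lit 0) [] (nat_lit 0) [] false,
   Spec.mk (nat_lit 50428) (nat_lit 0) [] (nat_lit 0) [] false,
   Spec.mk (nat_lit 50430) (nat_lit 0) [] (nat_lit 0) [] false,
   Spec.mk (nat_lit 50438) (nat_lit 0) [] (nat_lit 0) [] false,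
   Spec.mk (nat_lit 50440) (nat_lit 0) [] (nat_lit 0) [] false,
   Spec.mk (nat_lit 50442) (nat_lit 0) [] (nat_lit 0) [] false,
   Spec.mk (nat_lit 50446) (nat_lit 0) [] (nat_lit 0) [] false,
   Spec.mk (nat_lit 50448) (nat_lit 0) [] (nat_lit 0) [] false,
   Spec.mk (nat_lit 50454) (nat_lit 0) [] (nat_lit 0) [] false,
   Spec.mk (nat_lit 50468) (nat_lit 0) [] (nat_lit 0) [] false,
   Spec.mk (nat_lit 50470) (nat_lit 0) [] (nat_lit 0) [] false,
   Spec.mk (nat_lit 50474) (nat_lit 0) [] (nat_lit 0) [] false,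
   Spec.mk (nat_lit 50476) (nat_lit 0) [] (nat_lit 0) [] false,
   Spec.mk (nat_lit 50478) (nat_lit 0) [] (nat_lit 0) [] false,
   Spec.mk (nat_lit 50482) (nat_lit 0) [] (nat_lit 0) [] false,
   Spec.mk (nat_lit 50484) (nat_lit 0) [] (nat_lit 0) [] false,
   Spec.mk (nat_lit 50492) (nat_lit 0) [] (nat_lit 0) [] false,
   Spec.mk (nat_lit 50494) (nat_lit 0) [] (nat_lit 0) [] false,
   Spec.mk (nat_lit 50496) (nat_lit 0) [] (nat_lit 0) [] false,
   Spec.mk (nat_lit 50500) (nat_lit 0) [] (nat_lit 0) [] false,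
   Spec.mk (nat_lit 50502) (nat_lit 0) [] (nat_lit 0) [] false,
   Spec.mk (nat_lit 50508) (nat_lit 0) [] (nat_lit 0) [] false,
   Spec.mk (nat_lit 50518) (nat_lit 0) [] (nat_lit 0) [] false,
   Spec.mk (nat_lit 50520) (nat_lit 0) [] (nat_lit 0) [] false,
   Spec.mk (nat_lit 50526) (nat_lit 0) [] (nat_lit 0) [] false,
   Spec.mk (nat_lit 50552) (nat_lit 0) [] (nat_lit 0) [] false,
   Spec.mk (nat_lit 50558) (nat_lit 0) [] (nat_lit 0) [] false,
   Spec.mk (nat_lit 50560) (nat_lit 0) [] (nat_lit 0) [] false,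
   Spec.mk (nat_lit 50564) (nat_lit 0) [] (nat_lit 0) [] false,
   Spec.mk (nat_lit 50566) (nat_lit 0) [] (nat_lit 0) [] false,
   Spec.mk (nat_lit 50568) (nat_lit 0) [] (nat_lit 0) [] false,
   Spec.mk (nat_lit 50576) (nat_lit 0) [] (nat_lit 0) [] false,
   Spec.mk (nat_lit 50578) (nat_lit 0) [] (nat_lit 0) [] false,
   Spec.mk (nat_lit 50582) (nat_lit 0) [] (nat_lit 0) [] false,
   Spec.mk (nat_lit 50584) (nat_lit 0) [] (nat_lit 0) [] false,
   Spec.mk (nat_lit 50586) (nat_lit 0) [] (nat_lit 0) [] false,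
   Spec.mk (nat_lit 50590) (nat_lit 0) [] (nat_lit 0) [] false,
   Spec.mk (nat_lit 50592) (nat_lit 0) [] (nat_lit 0) [] false,
   Spec.mk (nat_lit 50600) (nat_lit 0) [] (nat_lit 0) [] false,
   Spec.mk (nat_lit 50602) (nat_lit 0) [] (nat_lit 0) [] false,
   Spec.mk (nat_lit 50604) (nat_lit 0) [] (nat_lit 0) [] false,
   Spec.mk (nat_lit 50608) (nat_lit 0) [] (nat_lit 0) [] false,
   Spec.mk (nat_lit 50610) (nat_lit 0) [] (nat_lit 0) [] false,
   Spec.mk (nat_lit 50616) (nat_lit 0) [] (nat_lit 0) [] false,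
   Spec.mk (nat_lit 50630) (nat_lit 0) [] (nat_lit 0) [] false,
   Spec.mk (nat_lit 50632) (nat_lit 0) [] (nat_lit 0) [] false,
   Spec.mk (nat_lit 50636) (nat_lit 0) [] (nat_lit 0) [] false,
   Spec.mk (nat_lit 50638) (nat_lit 0) [] (nat_lit 0) [] false,
   Spec.mk (nat_lit 50640) (nat_lit 0) [] (nat_lit 0) [] false,
   Spec.mk (nat_lit 50644) (nat_lit 0) [] (nat_lit 0) [] false,
   Spec.mk (nat_lit 50646) (nat_lit 0) [] (nat_lit 0) [] false]

noncomputable def cd133 : List Spec :=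
  [Spec.mk (nat_lit 50654) (nat_lit 0) [] (nat_lit 0) [] false,
   Spec.mk (nat_lit 50656) (nat_lit 0) [] (nat_lit 0) [] false,
   Spec.mk (nat_lit 50658) (nat_lit 0) [] (nat_lit 0) [] false,
   Spec.mk (nat_lit 50662) (nat_lit 0) [] (nat_lit 0) [] false,
   Spec.mk (nat_lit 50664) (nat_lit 0) [] (nat_lit 0) [] false,
   Spec.mk (nat_lit 50670) (nat_lit 0) [] (nat_lit 0) [] false,
   Spec.mk (nat_lit 50680) (nat_lit 0) [] (nat_lit 0) [] false,
   Spec.mk (nat_lit 50682) (nat_lit 0) [] (nat_lit 0) [] false,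
   Spec.mk (nat_lit 50688) (nat_lit 0) [] (nat_lit 0) [] false,
   Spec.mk (nat_lit 50708) (nat_lit 0) [] (nat_lit 0) [] false,
   Spec.mk (nat_lit 50710) (nat_lit 0) [] (nat_lit 0) [] false,
   Spec.mk (nat_lit 50712) (nat_lit 0) [] (nat_lit 0) [] false,
   Spec.mk (nat_lit 50716) (nat_lit 0) [] (nat_lit 0) [] false,
   Spec.mk (nat_lit 50718) (nat_lit 0) [] (nat_lit 0) [] false,
   Spec.mk (nat_lit 50724) (nat_lit 0) [] (nat_lit 0) [] false,
   Spec.mk (nat_lit 50734) (nat_lit 0) [] (nat_lit 0) [] false,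
   Spec.mk (nat_lit 50736) (nat_lit 0) [] (nat_lit 0) [] false,
   Spec.mk (nat_lit 50742) (nat_lit 0) [] (nat_lit 0) [] false,
   Spec.mk (nat_lit 50760) (nat_lit 0) [] (nat_lit 0) [] false,
   Spec.mk (nat_lit 50792) (nat_lit 0) [] (nat_lit 0) [] false,
   Spec.mk (nat_lit 50794) (nat_lit 0) [] (nat_lit 0) [] false,
   Spec.mk (nat_lit 50798) (nat_lit 0) [] (nat_lit 0) [] false,
   Spec.mk (nat_lit 50800) (nat_lit 0) [] (nat_lit 0) [] false,
   Spec.mk (nat_lit 50802) (nat_lit 0) [] (nat_lit 0) [] false,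
   Spec.mk (nat_lit 50806) (nat_lit 0) [] (nat_lit 0) [] false,
   Spec.mk (nat_lit 50808) (nat_lit 0) [] (nat_lit 0) [] false,
   Spec.mk (nat_lit 50816) (nat_lit 0) [] (nat_lit 0) [] false,
   Spec.mk (nat_lit 50818) (nat_lit 0) [] (nat_lit 0) [] false,
   Spec.mk (nat_lit 50820) (nat_lit 0) [] (nat_lit 0) [] false,
   Spec.mk (nat_lit 50824) (nat_lit 0) [] (nat_lit 0) [] false,
   Spec.mk (nat_lit 50826) (nat_lit 0) [] (nat_lit 0) [] false,
   Spec.mk (nat_lit 50832) (nat_lit 0) [] (nat_lit 0) [] false,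
   Spec.mk (nat_lit 50842) (nat_lit 0) [] (nat_lit 0) [] false,
   Spec.mk (nat_lit 50844) (nat_lit 0) [] (nat_lit 0) [] false,
   Spec.mk (nat_lit 50850) (nat_lit 0) [] (nat_lit 0) [] false,
   Spec.mk (nat_lit 50870) (nat_lit 0) [] (nat_lit 0) [] false,
   Spec.mk (nat_lit 50872) (nat_lit 0) [] (nat_lit 0) [] false,
   Spec.mk (nat_lit 50874) (nat_lit 0) [] (nat_lit 0) [] false,
   Spec.mk (nat_lit 50878) (nat_lit 0) [] (nat_lit 0) [] false,
   Spec.mk (nat_lit 50880) (nat_lit 0) [] (nat_lit 0) [] false,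
   Spec.mk (nat_lit 50886) (nat_lit 0) [] (nat_lit 0) [] false,
   Spec.mk (nat_lit 50896) (nat_lit 0) [] (nat_lit 0) [] false,
   Spec.mk (nat_lit 50898) (nat_lit 0) [] (nat_lit 0) [] false,
   Spec.mk (nat_lit 50904) (nat_lit 0) [] (nat_lit 0) [] false,
   Spec.mk (nat_lit 50922) (nat_lit 0) [] (nat_lit 0) [] false,
   Spec.mk (nat_lit 50950) (nat_lit 0) [] (nat_lit 0) [] false,
   Spec.mk (nat_lit 50952) (nat_lit 0) [] (nat_lit 0) [] false,
   Spec.mk (nat_lit 50958) (nat_lit 0) [] (nat_lit 0) [] false,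
   Spec.mk (nat_lit 50976) (nat_lit 0) [] (nat_lit 0) [] false,
   Spec.mk (nat_lit 51038) (nat_lit 0) [] (nat_lit 0) [] false,
   Spec.mk (nat_lit 51044) (nat_lit 0) [] (nat_lit 0) [] false,
   Spec.mk (nat_lit 51046) (nat_lit 0) [] (nat_lit 0) [] false,
   Spec.mk (nat_lit 51050) (nat_lit 0) [] (nat_lit 0) [] false,
   Spec.mk (nat_lit 51052) (nat_lit 0) [] (nat_lit 0) [] false,
   Spec.mk (nat_lit 51054) (nat_lit 0) [] (nat_lit 0) [] false,
   Spec.mk (nat_lit 51062) (nat_lit 0) [] (nat_lit 0) [] false,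
   Spec.mk (nat_lit 51064) (nat_lit 0) [] (nat_lit 0) [] false,
   Spec.mk (nat_lit 51068) (nat_lit 0) [] (nat_lit 0) [] false,
   Spec.mk (nat_lit 51070) (nat_lit 0) [] (nat_lit 0) [] false,
   Spec.mk (nat_lit 51072) (nat_lit 0) [] (nat_lit 0) [] false]

noncomputable def cd134 : List Spec :=
  [Spec.mk (nat_lit 51076) (nat_lit 0) [] (nat_lit 0) [] false,
   Spec.mk (nat_lit 51078) (nat_lit 0) [] (nat_lit 0) [] false,
   Spec.mk (nat_lit 51086) (nat_lit 0) [] (nat_lit 0) [] false,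
   Spec.mk (nat_lit 51088) (nat_lit 0) [] (nat_lit 0) [] false,
   Spec.mk (nat_lit 51090) (nat_lit 0) [] (nat_lit 0) [] false,
   Spec.mk (nat_lit 51094) (nat_lit 0) [] (nat_lit 0) [] false,
   Spec.mk (nat_lit 51096) (nat_lit 0) [] (nat_lit 0) [] false,
   Spec.mk (nat_lit 51102) (nat_lit 0) [] (nat_lit 0) [] false,
   Spec.mk (nat_lit 51116) (nat_lit 0) [] (nat_lit 0) [] false,
   Spec.mk (nat_lit 51118) (nat_lit 0) [] (nat_lit 0) [] false,
   Spec.mk (nat_lit 51122) (nat_lit 0) [] (nat_lit 0) [] false,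
   Spec.mk (nat_lit 51124) (nat_lit 0) [] (nat_lit 0) [] false,
   Spec.mk (nat_lit 51126) (nat_lit 0) [] (nat_lit 0) [] false,
   Spec.mk (nat_lit 51130) (nat_lit 0) [] (nat_lit 0) [] false,
   Spec.mk (nat_lit 51132) (nat_lit 0) [] (nat_lit 0) [] false,
   Spec.mk (nat_lit 51140) (nat_lit 0) [] (nat_lit 0) [] false,
   Spec.mk (nat_lit 51142) (nat_lit 0) [] (nat_lit 0) [] false,
   Spec.mk (nat_lit 51144) (nat_lit 0) [] (nat_lit 0) [] false,
   Spec.mk (nat_lit 51148) (nat_lit 0) [] (nat_lit 0) [] false,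
   Spec.mk (nat_lit 51150) (nat_lit 0) [] (nat_lit 0) [] false,
   Spec.mk (nat_lit 51156) (nat_lit 0) [] (nat_lit 0) [] false,
   Spec.mk (nat_lit 51166) (nat_lit 0) [] (nat_lit 0) [] false,
   Spec.mk (nat_lit 51168) (nat_lit 0) [] (nat_lit 0) [] false,
   Spec.mk (nat_lit 51174) (nat_lit 0) [] (nat_lit 0) [] false,
   Spec.mk (nat_lit 51194) (nat_lit 0) [] (nat_lit 0) [] false,
   Spec.mk (nat_lit 51196) (nat_lit 0) [] (nat_lit 0) [] false,
   Spec.mk (nat_lit 51198) (nat_lit 0) [] (nat_lit 0) [] false,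
   Spec.mk (nat_lit 51202) (nat_lit 0) [] (nat_lit 0) [] false,
   Spec.mk (nat_lit 51204) (nat_lit 0) [] (nat_lit 0) [] false,
   Spec.mk (nat_lit 51210) (nat_lit 0) [] (nat_lit 0) [] false,
   Spec.mk (nat_lit 51220) (nat_lit 0) [] (nat_lit 0) [] false,
   Spec.mk (nat_lit 51222) (nat_lit 0) [] (nat_lit 0) [] false,
   Spec.mk (nat_lit 51228) (nat_lit 0) [] (nat_lit 0) [] false,
   Spec.mk (nat_lit 51246) (nat_lit 0) [] (nat_lit 0) [] false,
   Spec.mk (nat_lit 51278) (nat_lit 0) [] (nat_lit 0) [] false,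
   Spec.mk (nat_lit 51280) (nat_lit 0) [] (nat_lit 0) [] false,
   Spec.mk (nat_lit 51284) (nat_lit 0) [] (nat_lit 0) [] false,
   Spec.mk (nat_lit 51286) (nat_lit 0) [] (nat_lit 0) [] false,
   Spec.mk (nat_lit 51288) (nat_lit 0) [] (nat_lit 0) [] false,
   Spec.mk (nat_lit 51292) (nat_lit 0) [] (nat_lit 0) [] false,
   Spec.mk (nat_lit 51294) (nat_lit 0) [] (nat_lit 0) [] false,
   Spec.mk (nat_lit 51302) (nat_lit 0) [] (nat_lit 0) [] false,
   Spec.mk (nat_lit 51304) (nat_lit 0) [] (nat_lit 0) [] false,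
   Spec.mk (nat_lit 51306) (nat_lit 0) [] (nat_lit 0) [] false,
   Spec.mk (nat_lit 51310) (nat_lit 0) [] (nat_lit 0) [] false,
   Spec.mk (nat_lit 51312) (nat_lit 0) [] (nat_lit 0) [] false,
   Spec.mk (nat_lit 51318) (nat_lit 0) [] (nat_lit 0) [] false,
   Spec.mk (nat_lit 51328) (nat_lit 0) [] (nat_lit 0) [] false,
   Spec.mk (nat_lit 51330) (nat_lit 0) [] (nat_lit 0) [] false,
   Spec.mk (nat_lit 51336) (nat_lit 0) [] (nat_lit 0) [] false,
   Spec.mk (nat_lit 51356) (nat_lit 0) [] (nat_lit 0) [] false,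
   Spec.mk (nat_lit 51358) (nat_lit 0) [] (nat_lit 0) [] false,
   Spec.mk (nat_lit 51360) (nat_lit 0) [] (nat_lit 0) [] false,
   Spec.mk (nat_lit 51364) (nat_lit 0) [] (nat_lit 0) [] false,
   Spec.mk (nat_lit 51366) (nat_lit 0) [] (nat_lit 0) [] false,
   Spec.mk (nat_lit 51372) (nat_lit 0) [] (nat_lit 0) [] false,
   Spec.mk (nat_lit 51382) (nat_lit 0) [] (nat_lit 0) [] false,
   Spec.mk (nat_lit 51384) (nat_lit 0) [] (nat_lit 0) [] false,
   Spec.mk (nat_lit 51390) (nat_lit 0) [] (nat_lit 0) [] false,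
   Spec.mk (nat_lit 51408) (nat_lit 0) [] (nat_lit 0) [] false]

noncomputable def cd135 : List Spec :=
  [Spec.mk (nat_lit 51436) (nat_lit 0) [] (nat_lit 0) [] false,
   Spec.mk (nat_lit 51438) (nat_lit 0) [] (nat_lit 0) [] false,
   Spec.mk (nat_lit 51444) (nat_lit 0) [] (nat_lit 0) [] false,
   Spec.mk (nat_lit 51462) (nat_lit 0) [] (nat_lit 0) [] false,
   Spec.mk (nat_lit 51518) (nat_lit 0) [] (nat_lit 0) [] false,
   Spec.mk (nat_lit 51520) (nat_lit 0) [] (nat_lit 0) [] false,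
   Spec.mk (nat_lit 51522) (nat_lit 0) [] (nat_lit 0) [] false,
   Spec.mk (nat_lit 51526) (nat_lit 0) [] (nat_lit 0) [] false,
   Spec.mk (nat_lit 51528) (nat_lit 0) [] (nat_lit 0) [] false,
   Spec.mk (nat_lit 51534) (nat_lit 0) [] (nat_lit 0) [] false,
   Spec.mk (nat_lit 51544) (nat_lit 0) [] (nat_lit 0) [] false,
   Spec.mk (nat_lit 51546) (nat_lit 0) [] (nat_lit 0) [] false,
   Spec.mk (nat_lit 51552) (nat_lit 0) [] (nat_lit 0) [] false,
   Spec.mk (nat_lit 51570) (nat_lit 0) [] (nat_lit 0) [] false,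
   Spec.mk (nat_lit 51598) (nat_lit 0) [] (nat_lit 0) [] false,
   Spec.mk (nat_lit 51600) (nat_lit 0) [] (nat_lit 0) [] false,
   Spec.mk (nat_lit 51606) (nat_lit 0) [] (nat_lit 0) [] false,
   Spec.mk (nat_lit 51624) (nat_lit 0) [] (nat_lit 0) [] false,
   Spec.mk (nat_lit 51678) (nat_lit 0) [] (nat_lit 0) [] false,
   Spec.mk (nat_lit 51764) (nat_lit 0) [] (nat_lit 0) [] false,
   Spec.mk (nat_lit 51766) (nat_lit 0) [] (nat_lit 0) [] false,
   Spec.mk (nat_lit 51770) (nat_lit 0) [] (nat_lit 0) [] false,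
   Spec.mk (nat_lit 51772) (nat_lit 0) [] (nat_lit 0) [] false,
   Spec.mk (nat_lit 51774) (nat_lit 0) [] (nat_lit 0) [] false,
   Spec.mk (nat_lit 51778) (nat_lit 0) [] (nat_lit 0) [] false,
   Spec.mk (nat_lit 51780) (nat_lit 0) [] (nat_lit 0) [] false,
   Spec.mk (nat_lit 51788) (nat_lit 0) [] (nat_lit 0) [] false,
   Spec.mk (nat_lit 51790) (nat_lit 0) [] (nat_lit 0) [] false,
   Spec.mk (nat_lit 51792) (nat_lit 0) [] (nat_lit 0) [] false,
   Spec.mk (nat_lit 51796) (nat_lit 0) [] (nat_lit 0) [] false,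
   Spec.mk (nat_lit 51798) (nat_lit 0) [] (nat_lit 0) [] false,
   Spec.mk (nat_lit 51804) (nat_lit 0) [] (nat_lit 0) [] false,
   Spec.mk (nat_lit 51814) (nat_lit 0) [] (nat_lit 0) [] false,
   Spec.mk (nat_lit 51816) (nat_lit 0) [] (nat_lit 0) [] false,
   Spec.mk (nat_lit 51822) (nat_lit 0) [] (nat_lit 0) [] false,
   Spec.mk (nat_lit 51842) (nat_lit 0) [] (nat_lit 0) [] false,
   Spec.mk (nat_lit 51844) (nat_lit 0) [] (nat_lit 0) [] false,
   Spec.mk (nat_lit 51846) (nat_lit 0) [] (nat_lit 0) [] false,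
   Spec.mk (nat_lit 51850) (nat_lit 0) [] (nat_lit 0) [] false,
   Spec.mk (nat_lit 51852) (nat_lit 0) [] (nat_lit 0) [] false,
   Spec.mk (nat_lit 51858) (nat_lit 0) [] (nat_lit 0) [] false,
   Spec.mk (nat_lit 51868) (nat_lit 0) [] (nat_lit 0) [] false,
   Spec.mk (nat_lit 51870) (nat_lit 0) [] (nat_lit 0) [] false,
   Spec.mk (nat_lit 51876) (nat_lit 0) [] (nat_lit 0) [] false,
   Spec.mk (nat_lit 51894) (nat_lit 0) [] (nat_lit 0) [] false,
   Spec.mk (nat_lit 51922) (nat_lit 0) [] (nat_lit 0) [] false,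
   Spec.mk (nat_lit 51924) (nat_lit 0) [] (nat_lit 0) [] false,
   Spec.mk (nat_lit 51930) (nat_lit 0) [] (nat_lit 0) [] false,
   Spec.mk (nat_lit 51948) (nat_lit 0) [] (nat_lit 0) [] false,
   Spec.mk (nat_lit 52004) (nat_lit 0) [] (nat_lit 0) [] false,
   Spec.mk (nat_lit 52006) (nat_lit 0) [] (nat_lit 0) [] false,
   Spec.mk (nat_lit 52008) (nat_lit 0) [] (nat_lit 0) [] false,
   Spec.mk (nat_lit 52012) (nat_lit 0) [] (nat_lit 0) [] false,
   Spec.mk (nat_lit 52014) (nat_lit 0) [] (nat_lit 0) [] false,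
   Spec.mk (nat_lit 52020) (nat_lit 0) [] (nat_lit 0) [] false,
   Spec.mk (nat_lit 52030) (nat_lit 0) [] (nat_lit 0) [] false,
   Spec.mk (nat_lit 52032) (nat_lit 0) [] (nat_lit 0) [] false,
   Spec.mk (nat_lit 52038) (nat_lit 0) [] (nat_lit 0) [] false,
   Spec.mk (nat_lit 52056) (nat_lit 0) [] (nat_lit 0) [] false,
   Spec.mk (nat_lit 52084) (nat_lit 0) [] (nat_lit 0) [] false]

noncomputable def cd136 : List Spec :=
  [Spec.mk (nat_lit 52086) (nat_lit 0) [] (nat_lit 0) [] false,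
   Spec.mk (nat_lit 52092) (nat_lit 0) [] (nat_lit 0) [] false,
   Spec.mk (nat_lit 52110) (nat_lit 0) [] (nat_lit 0) [] false,
   Spec.mk (nat_lit 52164) (nat_lit 0) [] (nat_lit 0) [] false,
   Spec.mk (nat_lit 52246) (nat_lit 0) [] (nat_lit 0) [] false,
   Spec.mk (nat_lit 52248) (nat_lit 0) [] (nat_lit 0) [] false,
   Spec.mk (nat_lit 52254) (nat_lit 0) [] (nat_lit 0) [] false,
   Spec.mk (nat_lit 52272) (nat_lit 0) [] (nat_lit 0) [] false,
   Spec.mk (nat_lit 52326) (nat_lit 0) [] (nat_lit 0) [] false,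
   Spec.mk (nat_lit 52514) (nat_lit 0) [] (nat_lit 0) [] false,
   Spec.mk (nat_lit 52532) (nat_lit 0) [] (nat_lit 0) [] false,
   Spec.mk (nat_lit 52538) (nat_lit 0) [] (nat_lit 0) [] false,
   Spec.mk (nat_lit 52540) (nat_lit 0) [] (nat_lit 0) [] false,
   Spec.mk (nat_lit 52550) (nat_lit 0) [] (nat_lit 0) [] false,
   Spec.mk (nat_lit 52556) (nat_lit 0) [] (nat_lit 0) [] false,
   Spec.mk (nat_lit 52558) (nat_lit 0) [] (nat_lit 0) [] false,
   Spec.mk (nat_lit 52562) (nat_lit 0) [] (nat_lit 0) [] false,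
   Spec.mk (nat_lit 52564) (nat_lit 0) [] (nat_lit 0) [] false,
   Spec.mk (nat_lit 52566) (nat_lit 0) [] (nat_lit 0) [] false,
   Spec.mk (nat_lit 52586) (nat_lit 0) [] (nat_lit 0) [] false,
   Spec.mk (nat_lit 52592) (nat_lit 0) [] (nat_lit 0) [] false,
   Spec.mk (nat_lit 52594) (nat_lit 0) [] (nat_lit 0) [] false,
   Spec.mk (nat_lit 52604) (nat_lit 0) [] (nat_lit 0) [] false,
   Spec.mk (nat_lit 52610) (nat_lit 0) [] (nat_lit 0) [] false,
   Spec.mk (nat_lit 52612) (nat_lit 0) [] (nat_lit 0) [] false,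
   Spec.mk (nat_lit 52616) (nat_lit 0) [] (nat_lit 0) [] false,
   Spec.mk (nat_lit 52618) (nat_lit 0) [] (nat_lit 0) [] false,
   Spec.mk (nat_lit 52620) (nat_lit 0) [] (nat_lit 0) [] false,
   Spec.mk (nat_lit 52628) (nat_lit 0) [] (nat_lit 0) [] false,
   Spec.mk (nat_lit 52630) (nat_lit 0) [] (nat_lit 0) [] false,
   Spec.mk (nat_lit 52634) (nat_lit 0) [] (nat_lit 0) [] false,
   Spec.mk (nat_lit 52636) (nat_lit 0) [] (nat_lit 0) [] false,
   Spec.mk (nat_lit 52638) (nat_lit 0) [] (nat_lit 0) [] false,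
   Spec.mk (nat_lit 52642) (nat_lit 0) [] (nat_lit 0) [] false,
   Spec.mk (nat_lit 52644) (nat_lit 0) [] (nat_lit 0) [] false,
   Spec.mk (nat_lit 52658) (nat_lit 0) [] (nat_lit 0) [] false,
   Spec.mk (nat_lit 52664) (nat_lit 0) [] (nat_lit 0) [] false,
   Spec.mk (nat_lit 52666) (nat_lit 0) [] (nat_lit 0) [] false,
   Spec.mk (nat_lit 52670) (nat_lit 0) [] (nat_lit 0) [] false,
   Spec.mk (nat_lit 52672) (nat_lit 0) [] (nat_lit 0) [] false,
   Spec.mk (nat_lit 52674) (nat_lit 0) [] (nat_lit 0) [] false,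
   Spec.mk (nat_lit 52682) (nat_lit 0) [] (nat_lit 0) [] false,
   Spec.mk (nat_lit 52684) (nat_lit 0) [] (nat_lit 0) [] false,
   Spec.mk (nat_lit 52688) (nat_lit 0) [] (nat_lit 0) [] false,
   Spec.mk (nat_lit 52690) (nat_lit 0) [] (nat_lit 0) [] false,
   Spec.mk (nat_lit 52692) (nat_lit 0) [] (nat_lit 0) [] false,
   Spec.mk (nat_lit 52696) (nat_lit 0) [] (nat_lit 0) [] false,
   Spec.mk (nat_lit 52698) (nat_lit 0) [] (nat_lit 0) [] false,
   Spec.mk (nat_lit 52706) (nat_lit 0) [] (nat_lit 0) [] false,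
   Spec.mk (nat_lit 52708) (nat_lit 0) [] (nat_lit 0) [] false,
   Spec.mk (nat_lit 52710) (nat_lit 0) [] (nat_lit 0) [] false,
   Spec.mk (nat_lit 52714) (nat_lit 0) [] (nat_lit 0) [] false,
   Spec.mk (nat_lit 52716) (nat_lit 0) [] (nat_lit 0) [] false,
   Spec.mk (nat_lit 52722) (nat_lit 0) [] (nat_lit 0) [] false,
   Spec.mk (nat_lit 52748) (nat_lit 0) [] (nat_lit 0) [] false,
   Spec.mk (nat_lit 52754) (nat_lit 0) [] (nat_lit 0) [] false,
   Spec.mk (nat_lit 52756) (nat_lit 0) [] (nat_lit 0) [] false,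
   Spec.mk (nat_lit 52766) (nat_lit 0) [] (nat_lit 0) [] false,
   Spec.mk (nat_lit 52772) (nat_lit 0) [] (nat_lit 0) [] false,
   Spec.mk (nat_lit 52774) (nat_lit 0) [] (nat_lit 0) [] false]

noncomputable def cd137 : List Spec :=
  [Spec.mk (nat_lit 52778) (nat_lit 0) [] (nat_lit 0) [] false,
   Spec.mk (nat_lit 52780) (nat_lit 0) [] (nat_lit 0) [] false,
   Spec.mk (nat_lit 52782) (nat_lit 0) [] (nat_lit 0) [] false,
   Spec.mk (nat_lit 52790) (nat_lit 0) [] (nat_lit 0) [] false,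
   Spec.mk (nat_lit 52792) (nat_lit 0) [] (nat_lit 0) [] false,
   Spec.mk (nat_lit 52796) (nat_lit 0) [] (nat_lit 0) [] false,
   Spec.mk (nat_lit 52798) (nat_lit 0) [] (nat_lit 0) [] false,
   Spec.mk (nat_lit 52800) (nat_lit 0) [] (nat_lit 0) [] false,
   Spec.mk (nat_lit 52804) (nat_lit 0) [] (nat_lit 0) [] false,
   Spec.mk (nat_lit 52806) (nat_lit 0) [] (nat_lit 0) [] false,
   Spec.mk (nat_lit 52820) (nat_lit 0) [] (nat_lit 0) [] false,
   Spec.mk (nat_lit 52826) (nat_lit 0) [] (nat_lit 0) [] false,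
   Spec.mk (nat_lit 52828) (nat_lit 0) [] (nat_lit 0) [] false,
   Spec.mk (nat_lit 52832) (nat_lit 0) [] (nat_lit 0) [] false,
   Spec.mk (nat_lit 52834) (nat_lit 0) [] (nat_lit 0) [] false,
   Spec.mk (nat_lit 52836) (nat_lit 0) [] (nat_lit 0) [] false,
   Spec.mk (nat_lit 52844) (nat_lit 0) [] (nat_lit 0) [] false,
   Spec.mk (nat_lit 52846) (nat_lit 0) [] (nat_lit 0) [] false,
   Spec.mk (nat_lit 52850) (nat_lit 0) [] (nat_lit 0) [] false,
   Spec.mk (nat_lit 52852) (nat_lit 0) [] (nat_lit 0) [] false,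
   Spec.mk (nat_lit 52854) (nat_lit 0) [] (nat_lit 0) [] false,
   Spec.mk (nat_lit 52858) (nat_lit 0) [] (nat_lit 0) [] false,
   Spec.mk (nat_lit 52860) (nat_lit 0) [] (nat_lit 0) [] false,
   Spec.mk (nat_lit 52868) (nat_lit 0) [] (nat_lit 0) [] false,
   Spec.mk (nat_lit 52870) (nat_lit 0) [] (nat_lit 0) [] false,
   Spec.mk (nat_lit 52872) (nat_lit 0) [] (nat_lit 0) [] false,
   Spec.mk (nat_lit 52876) (nat_lit 0) [] (nat_lit 0) [] false,
   Spec.mk (nat_lit 52878) (nat_lit 0) [] (nat_lit 0) [] false,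
   Spec.mk (nat_lit 52884) (nat_lit 0) [] (nat_lit 0) [] false,
   Spec.mk (nat_lit 52898) (nat_lit 0) [] (nat_lit 0) [] false,
   Spec.mk (nat_lit 52900) (nat_lit 0) [] (nat_lit 0) [] false,
   Spec.mk (nat_lit 52904) (nat_lit 0) [] (nat_lit 0) [] false,
   Spec.mk (nat_lit 52906) (nat_lit 0) [] (nat_lit 0) [] false,
   Spec.mk (nat_lit 52908) (nat_lit 0) [] (nat_lit 0) [] false,
   Spec.mk (nat_lit 52912) (nat_lit 0) [] (nat_lit 0) [] false,
   Spec.mk (nat_lit 52914) (nat_lit 0) [] (nat_lit 0) [] false,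
   Spec.mk (nat_lit 52922) (nat_lit 0) [] (nat_lit 0) [] false,
   Spec.mk (nat_lit 52924) (nat_lit 0) [] (nat_lit 0) [] false,
   Spec.mk (nat_lit 52926) (nat_lit 0) [] (nat_lit 0) [] false,
   Spec.mk (nat_lit 52930) (nat_lit 0) [] (nat_lit 0) [] false,
   Spec.mk (nat_lit 52932) (nat_lit 0) [] (nat_lit 0) [] false,
   Spec.mk (nat_lit 52938) (nat_lit 0) [] (nat_lit 0) [] false,
   Spec.mk (nat_lit 52948) (nat_lit 0) [] (nat_lit 0) [] false,
   Spec.mk (nat_lit 52950) (nat_lit 0) [] (nat_lit 0) [] false,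
   Spec.mk (nat_lit 52956) (nat_lit 0) [] (nat_lit 0) [] false,
   Spec.mk (nat_lit 52982) (nat_lit 0) [] (nat_lit 0) [] false,
   Spec.mk (nat_lit 52988) (nat_lit 0) [] (nat_lit 0) [] false,
   Spec.mk (nat_lit 52990) (nat_lit 0) [] (nat_lit 0) [] false,
   Spec.mk (nat_lit 52994) (nat_lit 0) [] (nat_lit 0) [] false,
   Spec.mk (nat_lit 52996) (nat_lit 0) [] (nat_lit 0) [] false,
   Spec.mk (nat_lit 52998) (nat_lit 0) [] (nat_lit 0) [] false,
   Spec.mk (nat_lit 53006) (nat_lit 0) [] (nat_lit 0) [] false,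
   Spec.mk (nat_lit 53008) (nat_lit 0) [] (nat_lit 0) [] false,
   Spec.mk (nat_lit 53012) (nat_lit 0) [] (nat_lit 0) [] false,
   Spec.mk (nat_lit 53014) (nat_lit 0) [] (nat_lit 0) [] false,
   Spec.mk (nat_lit 53016) (nat_lit 0) [] (nat_lit 0) [] false,
   Spec.mk (nat_lit 53020) (nat_lit 0) [] (nat_lit 0) [] false,
   Spec.mk (nat_lit 53022) (nat_lit 0) [] (nat_lit 0) [] false,
   Spec.mk (nat_lit 53030) (nat_lit 0) [] (nat_lit 0) [] false,
   Spec.mk (nat_lit 53032) (nat_lit 0) [] (nat_lit 0) [] false]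

noncomputable def cd138 : List Spec :=
  [Spec.mk (nat_lit 53034) (nat_lit 0) [] (nat_lit 0) [] false,
   Spec.mk (nat_lit 53038) (nat_lit 0) [] (nat_lit 0) [] false,
   Spec.mk (nat_lit 53040) (nat_lit 0) [] (nat_lit 0) [] false,
   Spec.mk (nat_lit 53046) (nat_lit 0) [] (nat_lit 0) [] false,
   Spec.mk (nat_lit 53060) (nat_lit 0) [] (nat_lit 0) [] false,
   Spec.mk (nat_lit 53062) (nat_lit 0) [] (nat_lit 0) [] false,
   Spec.mk (nat_lit 53066) (nat_lit 0) [] (nat_lit 0) [] false,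
   Spec.mk (nat_lit 53068) (nat_lit 0) [] (nat_lit 0) [] false,
   Spec.mk (nat_lit 53070) (nat_lit 0) [] (nat_lit 0) [] false,
   Spec.mk (nat_lit 53074) (nat_lit 0) [] (nat_lit 0) [] false,
   Spec.mk (nat_lit 53076) (nat_lit 0) [] (nat_lit 0) [] false,
   Spec.mk (nat_lit 53084) (nat_lit 0) [] (nat_lit 0) [] false,
   Spec.mk (nat_lit 53086) (nat_lit 0) [] (nat_lit 0) [] false,
   Spec.mk (nat_lit 53088) (nat_lit 0) [] (nat_lit 0) [] false,
   Spec.mk (nat_lit 53092) (nat_lit 0) [] (nat_lit 0) [] false,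
   Spec.mk (nat_lit 53094) (nat_lit 0) [] (nat_lit 0) [] false,
   Spec.mk (nat_lit 53100) (nat_lit 0) [] (nat_lit 0) [] false,
   Spec.mk (nat_lit 53110) (nat_lit 0) [] (nat_lit 0) [] false,
   Spec.mk (nat_lit 53112) (nat_lit 0) [] (nat_lit 0) [] false,
   Spec.mk (nat_lit 53118) (nat_lit 0) [] (nat_lit 0) [] false,
   Spec.mk (nat_lit 53138) (nat_lit 0) [] (nat_lit 0) [] false,
   Spec.mk (nat_lit 53140) (nat_lit 0) [] (nat_lit 0) [] false,
   Spec.mk (nat_lit 53142) (nat_lit 0) [] (nat_lit 0) [] false,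
   Spec.mk (nat_lit 53146) (nat_lit 0) [] (nat_lit 0) [] false,
   Spec.mk (nat_lit 53148) (nat_lit 0) [] (nat_lit 0) [] false,
   Spec.mk (nat_lit 53154) (nat_lit 0) [] (nat_lit 0) [] false,
   Spec.mk (nat_lit 53164) (nat_lit 0) [] (nat_lit 0) [] false,
   Spec.mk (nat_lit 53166) (nat_lit 0) [] (nat_lit 0) [] false,
   Spec.mk (nat_lit 53172) (nat_lit 0) [] (nat_lit 0) [] false,
   Spec.mk (nat_lit 53190) (nat_lit 0) [] (nat_lit 0) [] false,
   Spec.mk (nat_lit 53234) (nat_lit 0) [] (nat_lit 0) [] false,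
   Spec.mk (nat_lit 53240) (nat_lit 0) [] (nat_lit 0) [] false,
   Spec.mk (nat_lit 53242) (nat_lit 0) [] (nat_lit 0) [] false,
   Spec.mk (nat_lit 53252) (nat_lit 0) [] (nat_lit 0) [] false,
   Spec.mk (nat_lit 53258) (nat_lit 0) [] (nat_lit 0) [] false,
   Spec.mk (nat_lit 53260) (nat_lit 0) [] (nat_lit 0) [] false,
   Spec.mk (nat_lit 53264) (nat_lit 0) [] (nat_lit 0) [] false,
   Spec.mk (nat_lit 53266) (nat_lit 0) [] (nat_lit 0) [] false,
   Spec.mk (nat_lit 53268) (nat_lit 0) [] (nat_lit 0) [] false,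
   Spec.mk (nat_lit 53276) (nat_lit 0) [] (nat_lit 0) [] false,
   Spec.mk (nat_lit 53278) (nat_lit 0) [] (nat_lit 0) [] false,
   Spec.mk (nat_lit 53282) (nat_lit 0) [] (nat_lit 0) [] false,
   Spec.mk (nat_lit 53284) (nat_lit 0) [] (nat_lit 0) [] false,
   Spec.mk (nat_lit 53286) (nat_lit 0) [] (nat_lit 0) [] false,
   Spec.mk (nat_lit 53290) (nat_lit 0) [] (nat_lit 0) [] false,
   Spec.mk (nat_lit 53292) (nat_lit 0) [] (nat_lit 0) [] false,
   Spec.mk (nat_lit 53306) (nat_lit 0) [] (nat_lit 0) [] false,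
   Spec.mk (nat_lit 53312) (nat_lit 0) [] (nat_lit 0) [] false,
   Spec.mk (nat_lit 53314) (nat_lit 0) [] (nat_lit 0) [] false,
   Spec.mk (nat_lit 53318) (nat_lit 0) [] (nat_lit 0) [] false,
   Spec.mk (nat_lit 53320) (nat_lit 0) [] (nat_lit 0) [] false,
   Spec.mk (nat_lit 53322) (nat_lit 0) [] (nat_lit 0) [] false,
   Spec.mk (nat_lit 53330) (nat_lit 0) [] (nat_lit 0) [] false,
   Spec.mk (nat_lit 53332) (nat_lit 0) [] (nat_lit 0) [] false,
   Spec.mk (nat_lit 53336) (nat_lit 0) [] (nat_lit 0) [] false,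
   Spec.mk (nat_lit 53338) (nat_lit 0) [] (nat_lit 0) [] false,
   Spec.mk (nat_lit 53340) (nat_lit 0) [] (nat_lit 0) [] false,
   Spec.mk (nat_lit 53344) (nat_lit 0) [] (nat_lit 0) [] false,
   Spec.mk (nat_lit 53346) (nat_lit 0) [] (nat_lit 0) [] false,
   Spec.mk (nat_lit 53354) (nat_lit 0) [] (nat_lit 0) [] false]

noncomputable def cd139 : List Spec :=
  [Spec.mk (nat_lit 53356) (nat_lit 0) [] (nat_lit 0) [] false,
   Spec.mk (nat_lit 53358) (nat_lit 0) [] (nat_lit 0) [] false,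
   Spec.mk (nat_lit 53362) (nat_lit 0) [] (nat_lit 0) [] false,
   Spec.mk (nat_lit 53364) (nat_lit 0) [] (nat_lit 0) [] false,
   Spec.mk (nat_lit 53370) (nat_lit 0) [] (nat_lit 0) [] false,
   Spec.mk (nat_lit 53384) (nat_lit 0) [] (nat_lit 0) [] false,
   Spec.mk (nat_lit 53386) (nat_lit 0) [] (nat_lit 0) [] false,
   Spec.mk (nat_lit 53390) (nat_lit 0) [] (nat_lit 0) [] false,
   Spec.mk (nat_lit 53392) (nat_lit 0) [] (nat_lit 0) [] false,
   Spec.mk (nat_lit 53394) (nat_lit 0) [] (nat_lit 0) [] false,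
   Spec.mk (nat_lit 53398) (nat_lit 0) [] (nat_lit 0) [] false,
   Spec.mk (nat_lit 53400) (nat_lit 0) [] (nat_lit 0) [] false,
   Spec.mk (nat_lit 53408) (nat_lit 0) [] (nat_lit 0) [] false,
   Spec.mk (nat_lit 53410) (nat_lit 0) [] (nat_lit 0) [] false,
   Spec.mk (nat_lit 53412) (nat_lit 0) [] (nat_lit 0) [] false,
   Spec.mk (nat_lit 53416) (nat_lit 0) [] (nat_lit 0) [] false,
   Spec.mk (nat_lit 53418) (nat_lit 0) [] (nat_lit 0) [] false,
   Spec.mk (nat_lit 53424) (nat_lit 0) [] (nat_lit 0) [] false,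
   Spec.mk (nat_lit 53434) (nat_lit 0) [] (nat_lit 0) [] false,
   Spec.mk (nat_lit 53436) (nat_lit 0) [] (nat_lit 0) [] false,
   Spec.mk (nat_lit 53442) (nat_lit 0) [] (nat_lit 0) [] false,
   Spec.mk (nat_lit 53468) (nat_lit 0) [] (nat_lit 0) [] false,
   Spec.mk (nat_lit 53474) (nat_lit 0) [] (nat_lit 0) [] false,
   Spec.mk (nat_lit 53476) (nat_lit 0) [] (nat_lit 0) [] false,
   Spec.mk (nat_lit 53480) (nat_lit 0) [] (nat_lit 0) [] false,
   Spec.mk (nat_lit 53482) (nat_lit 0) [] (nat_lit 0) [] false,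
   Spec.mk (nat_lit 53484) (nat_lit 0) [] (nat_lit 0) [] false,
   Spec.mk (nat_lit 53492) (nat_lit 0) [] (nat_lit 0) [] false,
   Spec.mk (nat_lit 53494) (nat_lit 0) [] (nat_lit 0) [] false,
   Spec.mk (nat_lit 53498) (nat_lit 0) [] (nat_lit 0) [] false,
   Spec.mk (nat_lit 53500) (nat_lit 0) [] (nat_lit 0) [] false,
   Spec.mk (nat_lit 53502) (nat_lit 0) [] (nat_lit 0) [] false,
   Spec.mk (nat_lit 53506) (nat_lit 0) [] (nat_lit 0) [] false,
   Spec.mk (nat_lit 53508) (nat_lit 0) [] (nat_lit 0) [] false,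
   Spec.mk (nat_lit 53516) (nat_lit 0) [] (nat_lit 0) [] false,
   Spec.mk (nat_lit 53518) (nat_lit 0) [] (nat_lit 0) [] false,
   Spec.mk (nat_lit 53520) (nat_lit 0) [] (nat_lit 0) [] false,
   Spec.mk (nat_lit 53524) (nat_lit 0) [] (nat_lit 0) [] false,
   Spec.mk (nat_lit 53526) (nat_lit 0) [] (nat_lit 0) [] false,
   Spec.mk (nat_lit 53532) (nat_lit 0) [] (nat_lit 0) [] false,
   Spec.mk (nat_lit 53546) (nat_lit 0) [] (nat_lit 0) [] false,
   Spec.mk (nat_lit 53548) (nat_lit 0) [] (nat_lit 0) [] false,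
   Spec.mk (nat_lit 53552) (nat_lit 0) [] (nat_lit 0) [] false,
   Spec.mk (nat_lit 53554) (nat_lit 0) [] (nat_lit 0) [] false,
   Spec.mk (nat_lit 53556) (nat_lit 0) [] (nat_lit 0) [] false,
   Spec.mk (nat_lit 53560) (nat_lit 0) [] (nat_lit 0) [] false,
   Spec.mk (nat_lit 53562) (nat_lit 0) [] (nat_lit 0) [] false,
   Spec.mk (nat_lit 53570) (nat_lit 0) [] (nat_lit 0) [] false,
   Spec.mk (nat_lit 53572) (nat_lit 0) [] (nat_lit 0) [] false,
   Spec.mk (nat_lit 53574) (nat_lit 0) [] (nat_lit 0) [] false,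
   Spec.mk (nat_lit 53578) (nat_lit 0) [] (nat_lit 0) [] false,
   Spec.mk (nat_lit 53580) (nat_lit 0) [] (nat_lit 0) [] false,
   Spec.mk (nat_lit 53586) (nat_lit 0) [] (nat_lit 0) [] false,
   Spec.mk (nat_lit 53596) (nat_lit 0) [] (nat_lit 0) [] false,
   Spec.mk (nat_lit 53598) (nat_lit 0) [] (nat_lit 0) [] false,
   Spec.mk (nat_lit 53604) (nat_lit 0) [] (nat_lit 0) [] false,
   Spec.mk (nat_lit 53624) (nat_lit 0) [] (nat_lit 0) [] false,
   Spec.mk (nat_lit 53626) (nat_lit 0) [] (nat_lit 0) [] false,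
   Spec.mk (nat_lit 53628) (nat_lit 0) [] (nat_lit 0) [] false,
   Spec.mk (nat_lit 53632) (nat_lit 0) [] (nat_lit 0) [] false]

noncomputable def cd140 : List Spec :=
  [Spec.mk (nat_lit 53634) (nat_lit 0) [] (nat_lit 0) [] false,
   Spec.mk (nat_lit 53640) (nat_lit 0) [] (nat_lit 0) [] false,
   Spec.mk (nat_lit 53650) (nat_lit 0) [] (nat_lit 0) [] false,
   Spec.mk (nat_lit 53652) (nat_lit 0) [] (nat_lit 0) [] false,
   Spec.mk (nat_lit 53658) (nat_lit 0) [] (nat_lit 0) [] false,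
   Spec.mk (nat_lit 53676) (nat_lit 0) [] (nat_lit 0) [] false,
   Spec.mk (nat_lit 53708) (nat_lit 0) [] (nat_lit 0) [] false,
   Spec.mk (nat_lit 53710) (nat_lit 0) [] (nat_lit 0) [] false,
   Spec.mk (nat_lit 53714) (nat_lit 0) [] (nat_lit 0) [] false,
   Spec.mk (nat_lit 53716) (nat_lit 0) [] (nat_lit 0) [] false,
   Spec.mk (nat_lit 53718) (nat_lit 0) [] (nat_lit 0) [] false,
   Spec.mk (nat_lit 53722) (nat_lit 0) [] (nat_lit 0) [] false,
   Spec.mk (nat_lit 53724) (nat_lit 0) [] (nat_lit 0) [] false,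
   Spec.mk (nat_lit 53732) (nat_lit 0) [] (nat_lit 0) [] false,
   Spec.mk (nat_lit 53734) (nat_lit 0) [] (nat_lit 0) [] false,
   Spec.mk (nat_lit 53736) (nat_lit 0) [] (nat_lit 0) [] false,
   Spec.mk (nat_lit 53740) (nat_lit 0) [] (nat_lit 0) [] false,
   Spec.mk (nat_lit 53742) (nat_lit 0) [] (nat_lit 0) [] false,
   Spec.mk (nat_lit 53748) (nat_lit 0) [] (nat_lit 0) [] false,
   Spec.mk (nat_lit 53758) (nat_lit 0) [] (nat_lit 0) [] false,
   Spec.mk (nat_lit 53760) (nat_lit 0) [] (nat_lit 0) [] false,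
   Spec.mk (nat_lit 53766) (nat_lit 0) [] (nat_lit 0) [] false,
   Spec.mk (nat_lit 53786) (nat_lit 0) [] (nat_lit 0) [] false,
   Spec.mk (nat_lit 53788) (nat_lit 0) [] (nat_lit 0) [] false,
   Spec.mk (nat_lit 53790) (nat_lit 0) [] (nat_lit 0) [] false,
   Spec.mk (nat_lit 53794) (nat_lit 0) [] (nat_lit 0) [] false,
   Spec.mk (nat_lit 53796) (nat_lit 0) [] (nat_lit 0) [] false,
   Spec.mk (nat_lit 53802) (nat_lit 0) [] (nat_lit 0) [] false,
   Spec.mk (nat_lit 53812) (nat_lit 0) [] (nat_lit 0) [] false,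
   Spec.mk (nat_lit 53814) (nat_lit 0) [] (nat_lit 0) [] false,
   Spec.mk (nat_lit 53820) (nat_lit 0) [] (nat_lit 0) [] false,
   Spec.mk (nat_lit 53838) (nat_lit 0) [] (nat_lit 0) [] false,
   Spec.mk (nat_lit 53866) (nat_lit 0) [] (nat_lit 0) [] false,
   Spec.mk (nat_lit 53868) (nat_lit 0) [] (nat_lit 0) [] false,
   Spec.mk (nat_lit 53874) (nat_lit 0) [] (nat_lit 0) [] false,
   Spec.mk (nat_lit 53892) (nat_lit 0) [] (nat_lit 0) [] false,
   Spec.mk (nat_lit 53954) (nat_lit 0) [] (nat_lit 0) [] false,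
   Spec.mk (nat_lit 53960) (nat_lit 0) [] (nat_lit 0) [] false,
   Spec.mk (nat_lit 53962) (nat_lit 0) [] (nat_lit 0) [] false,
   Spec.mk (nat_lit 53966) (nat_lit 0) [] (nat_lit 0) [] false,
   Spec.mk (nat_lit 53968) (nat_lit 0) [] (nat_lit 0) [] false,
   Spec.mk (nat_lit 53970) (nat_lit 0) [] (nat_lit 0) [] false,
   Spec.mk (nat_lit 53978) (nat_lit 0) [] (nat_lit 0) [] false,
   Spec.mk (nat_lit 53980) (nat_lit 0) [] (nat_lit 0) [] false,
   Spec.mk (nat_lit 53984) (nat_lit 0) [] (nat_lit 0) [] false,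
   Spec.mk (nat_lit 53986) (nat_lit 0) [] (nat_lit 0) [] false,
   Spec.mk (nat_lit 53988) (nat_lit 0) [] (nat_lit 0) [] false,
   Spec.mk (nat_lit 53992) (nat_lit 0) [] (nat_lit 0) [] false,
   Spec.mk (nat_lit 53994) (nat_lit 0) [] (nat_lit 0) [] false,
   Spec.mk (nat_lit 54002) (nat_lit 0) [] (nat_lit 0) [] false,
   Spec.mk (nat_lit 54004) (nat_lit 0) [] (nat_lit 0) [] false,
   Spec.mk (nat_lit 54006) (nat_lit 0) [] (nat_lit 0) [] false,
   Spec.mk (nat_lit 54010) (nat_lit 0) [] (nat_lit 0) [] false,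
   Spec.mk (nat_lit 54012) (nat_lit 0) [] (nat_lit 0) [] false,
   Spec.mk (nat_lit 54018) (nat_lit 0) [] (nat_lit 0) [] false,
   Spec.mk (nat_lit 54032) (nat_lit 0) [] (nat_lit 0) [] false,
   Spec.mk (nat_lit 54034) (nat_lit 0) [] (nat_lit 0) [] false,
   Spec.mk (nat_lit 54038) (nat_lit 0) [] (nat_lit 0) [] false,
   Spec.mk (nat_lit 54040) (nat_lit 0) [] (nat_lit 0) [] false,
   Spec.mk (nat_lit 54042) (nat_lit 0) [] (nat_lit 0) [] false]

noncomputable def cd141 : List Spec :=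
  [Spec.mk (nat_lit 54046) (nat_lit 0) [] (nat_lit 0) [] false,
   Spec.mk (nat_lit 54048) (nat_lit 0) [] (nat_lit 0) [] false,
   Spec.mk (nat_lit 54056) (nat_lit 0) [] (nat_lit 0) [] false,
   Spec.mk (nat_lit 54058) (nat_lit 0) [] (nat_lit 0) [] false,
   Spec.mk (nat_lit 54060) (nat_lit 0) [] (nat_lit 0) [] false,
   Spec.mk (nat_lit 54064) (nat_lit 0) [] (nat_lit 0) [] false,
   Spec.mk (nat_lit 54066) (nat_lit 0) [] (nat_lit 0) [] false,
   Spec.mk (nat_lit 54072) (nat_lit 0) [] (nat_lit 0) [] false,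
   Spec.mk (nat_lit 54082) (nat_lit 0) [] (nat_lit 0) [] false,
   Spec.mk (nat_lit 54084) (nat_lit 0) [] (nat_lit 0) [] false,
   Spec.mk (nat_lit 54090) (nat_lit 0) [] (nat_lit 0) [] false,
   Spec.mk (nat_lit 54110) (nat_lit 0) [] (nat_lit 0) [] false,
   Spec.mk (nat_lit 54112) (nat_lit 0) [] (nat_lit 0) [] false,
   Spec.mk (nat_lit 54114) (nat_lit 0) [] (nat_lit 0) [] false,
   Spec.mk (nat_lit 54118) (nat_lit 0) [] (nat_lit 0) [] false,
   Spec.mk (nat_lit 54120) (nat_lit 0) [] (nat_lit 0) [] false,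
   Spec.mk (nat_lit 54126) (nat_lit 0) [] (nat_lit 0) [] false,
   Spec.mk (nat_lit 54136) (nat_lit 0) [] (nat_lit 0) [] false,
   Spec.mk (nat_lit 54138) (nat_lit 0) [] (nat_lit 0) [] false,
   Spec.mk (nat_lit 54144) (nat_lit 0) [] (nat_lit 0) [] false,
   Spec.mk (nat_lit 54162) (nat_lit 0) [] (nat_lit 0) [] false,
   Spec.mk (nat_lit 54194) (nat_lit 0) [] (nat_lit 0) [] false,
   Spec.mk (nat_lit 54196) (nat_lit 0) [] (nat_lit 0) [] false,
   Spec.mk (nat_lit 54200) (nat_lit 0) [] (nat_lit 0) [] false,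
   Spec.mk (nat_lit 54202) (nat_lit 0) [] (nat_lit 0) [] false,
   Spec.mk (nat_lit 54204) (nat_lit 0) [] (nat_lit 0) [] false,
   Spec.mk (nat_lit 54208) (nat_lit 0) [] (nat_lit 0) [] false,
   Spec.mk (nat_lit 54210) (nat_lit 0) [] (nat_lit 0) [] false,
   Spec.mk (nat_lit 54218) (nat_lit 0) [] (nat_lit 0) [] false,
   Spec.mk (nat_lit 54220) (nat_lit 0) [] (nat_lit 0) [] false,
   Spec.mk (nat_lit 54222) (nat_lit 0) [] (nat_lit 0) [] false,
   Spec.mk (nat_lit 54226) (nat_lit 0) [] (nat_lit 0) [] false,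
   Spec.mk (nat_lit 54228) (nat_lit 0) [] (nat_lit 0) [] false,
   Spec.mk (nat_lit 54234) (nat_lit 0) [] (nat_lit 0) [] false,
   Spec.mk (nat_lit 54244) (nat_lit 0) [] (nat_lit 0) [] false,
   Spec.mk (nat_lit 54246) (nat_lit 0) [] (nat_lit 0) [] false,
   Spec.mk (nat_lit 54252) (nat_lit 0) [] (nat_lit 0) [] false,
   Spec.mk (nat_lit 54272) (nat_lit 0) [] (nat_lit 0) [] false,
   Spec.mk (nat_lit 54274) (nat_lit 0) [] (nat_lit 0) [] false,
   Spec.mk (nat_lit 54276) (nat_lit 0) [] (nat_lit 0) [] false,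
   Spec.mk (nat_lit 54280) (nat_lit 0) [] (nat_lit 0) [] false,
   Spec.mk (nat_lit 54282) (nat_lit 0) [] (nat_lit 0) [] false,
   Spec.mk (nat_lit 54288) (nat_lit 0) [] (nat_lit 0) [] false,
   Spec.mk (nat_lit 54298) (nat_lit 0) [] (nat_lit 0) [] false,
   Spec.mk (nat_lit 54300) (nat_lit 0) [] (nat_lit 0) [] false,
   Spec.mk (nat_lit 54306) (nat_lit 0) [] (nat_lit 0) [] false,
   Spec.mk (nat_lit 54324) (nat_lit 0) [] (nat_lit 0) [] false,
   Spec.mk (nat_lit 54352) (nat_lit 0) [] (nat_lit 0) [] false,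
   Spec.mk (nat_lit 54354) (nat_lit 0) [] (nat_lit 0) [] false,
   Spec.mk (nat_lit 54360) (nat_lit 0) [] (nat_lit 0) [] false,
   Spec.mk (nat_lit 54378) (nat_lit 0) [] (nat_lit 0) [] false,
   Spec.mk (nat_lit 54434) (nat_lit 0) [] (nat_lit 0) [] false,
   Spec.mk (nat_lit 54436) (nat_lit 0) [] (nat_lit 0) [] false,
   Spec.mk (nat_lit 54438) (nat_lit 0) [] (nat_lit 0) [] false,
   Spec.mk (nat_lit 54442) (nat_lit 0) [] (nat_lit 0) [] false,
   Spec.mk (nat_lit 54444) (nat_lit 0) [] (nat_lit 0) [] false,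
   Spec.mk (nat_lit 54450) (nat_lit 0) [] (nat_lit 0) [] false,
   Spec.mk (nat_lit 54460) (nat_lit 0) [] (nat_lit 0) [] false,
   Spec.mk (nat_lit 54462) (nat_lit 0) [] (nat_lit 0) [] false,
   Spec.mk (nat_lit 54468) (nat_lit 0) [] (nat_lit 0) [] false]

noncomputable def cd142 : List Spec :=
  [Spec.mk (nat_lit 54486) (nat_lit 0) [] (nat_lit 0) [] false,
   Spec.mk (nat_lit 54514) (nat_lit 0) [] (nat_lit 0) [] false,
   Spec.mk (nat_lit 54516) (nat_lit 0) [] (nat_lit 0) [] false,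
   Spec.mk (nat_lit 54522) (nat_lit 0) [] (nat_lit 0) [] false,
   Spec.mk (nat_lit 54540) (nat_lit 0) [] (nat_lit 0) [] false,
   Spec.mk (nat_lit 54594) (nat_lit 0) [] (nat_lit 0) [] false,
   Spec.mk (nat_lit 54692) (nat_lit 0) [] (nat_lit 0) [] false,
   Spec.mk (nat_lit 54698) (nat_lit 0) [] (nat_lit 0) [] false,
   Spec.mk (nat_lit 54700) (nat_lit 0) [] (nat_lit 0) [] false,
   Spec.mk (nat_lit 54710) (nat_lit 0) [] (nat_lit 0) [] false,
   Spec.mk (nat_lit 54716) (nat_lit 0) [] (nat_lit 0) [] false,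
   Spec.mk (nat_lit 54718) (nat_lit 0) [] (nat_lit 0) [] false,
   Spec.mk (nat_lit 54722) (nat_lit 0) [] (nat_lit 0) [] false,
   Spec.mk (nat_lit 54724) (nat_lit 0) [] (nat_lit 0) [] false,
   Spec.mk (nat_lit 54726) (nat_lit 0) [] (nat_lit 0) [] false,
   Spec.mk (nat_lit 54734) (nat_lit 0) [] (nat_lit 0) [] false,
   Spec.mk (nat_lit 54736) (nat_lit 0) [] (nat_lit 0) [] false,
   Spec.mk (nat_lit 54740) (nat_lit 0) [] (nat_lit 0) [] false,
   Spec.mk (nat_lit 54742) (nat_lit 0) [] (nat_lit 0) [] false,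
   Spec.mk (nat_lit 54744) (nat_lit 0) [] (nat_lit 0) [] false,
   Spec.mk (nat_lit 54748) (nat_lit 0) [] (nat_lit 0) [] false,
   Spec.mk (nat_lit 54750) (nat_lit 0) [] (nat_lit 0) [] false,
   Spec.mk (nat_lit 54764) (nat_lit 0) [] (nat_lit 0) [] false,
   Spec.mk (nat_lit 54770) (nat_lit 0) [] (nat_lit 0) [] false,
   Spec.mk (nat_lit 54772) (nat_lit 0) [] (nat_lit 0) [] false,
   Spec.mk (nat_lit 54776) (nat_lit 0) [] (nat_lit 0) [] false,
   Spec.mk (nat_lit 54778) (nat_lit 0) [] (nat_lit 0) [] false,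
   Spec.mk (nat_lit 54780) (nat_lit 0) [] (nat_lit 0) [] false,
   Spec.mk (nat_lit 54788) (nat_lit 0) [] (nat_lit 0) [] false,
   Spec.mk (nat_lit 54790) (nat_lit 0) [] (nat_lit 0) [] false,
   Spec.mk (nat_lit 54794) (nat_lit 0) [] (nat_lit 0) [] false,
   Spec.mk (nat_lit 54796) (nat_lit 0) [] (nat_lit 0) [] false,
   Spec.mk (nat_lit 54798) (nat_lit 0) [] (nat_lit 0) [] false,
   Spec.mk (nat_lit 54802) (nat_lit 0) [] (nat_lit 0) [] false,
   Spec.mk (nat_lit 54804) (nat_lit 0) [] (nat_lit 0) [] false,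
   Spec.mk (nat_lit 54812) (nat_lit 0) [] (nat_lit 0) [] false,
   Spec.mk (nat_lit 54814) (nat_lit 0) [] (nat_lit 0) [] false,
   Spec.mk (nat_lit 54816) (nat_lit 0) [] (nat_lit 0) [] false,
   Spec.mk (nat_lit 54820) (nat_lit 0) [] (nat_lit 0) [] false,
   Spec.mk (nat_lit 54822) (nat_lit 0) [] (nat_lit 0) [] false,
   Spec.mk (nat_lit 54828) (nat_lit 0) [] (nat_lit 0) [] false,
   Spec.mk (nat_lit 54842) (nat_lit 0) [] (nat_lit 0) [] false,
   Spec.mk (nat_lit 54844) (nat_lit 0) [] (nat_lit 0) [] false,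
   Spec.mk (nat_lit 54848) (nat_lit 0) [] (nat_lit 0) [] false,
   Spec.mk (nat_lit 54850) (nat_lit 0) [] (nat_lit 0) [] false,
   Spec.mk (nat_lit 54852) (nat_lit 0) [] (nat_lit 0) [] false,
   Spec.mk (nat_lit 54856) (nat_lit 0) [] (nat_lit 0) [] false,
   Spec.mk (nat_lit 54858) (nat_lit 0) [] (nat_lit 0) [] false,
   Spec.mk (nat_lit 54866) (nat_lit 0) [] (nat_lit 0) [] false,
   Spec.mk (nat_lit 54868) (nat_lit 0) [] (nat_lit 0) [] false,
   Spec.mk (nat_lit 54870) (nat_lit 0) [] (nat_lit 0) [] false,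
   Spec.mk (nat_lit 54874) (nat_lit 0) [] (nat_lit 0) [] false,
   Spec.mk (nat_lit 54876) (nat_lit 0) [] (nat_lit 0) [] false,
   Spec.mk (nat_lit 54882) (nat_lit 0) [] (nat_lit 0) [] false,
   Spec.mk (nat_lit 54892) (nat_lit 0) [] (nat_lit 0) [] false,
   Spec.mk (nat_lit 54894) (nat_lit 0) [] (nat_lit 0) [] false,
   Spec.mk (nat_lit 54900) (nat_lit 0) [] (nat_lit 0) [] false,
   Spec.mk (nat_lit 54926) (nat_lit 0) [] (nat_lit 0) [] false,
   Spec.mk (nat_lit 54932) (nat_lit 0) [] (nat_lit 0) [] false,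
   Spec.mk (nat_lit 54934) (nat_lit 0) [] (nat_lit 0) [] false]

noncomputable def cd143 : List Spec :=
  [Spec.mk (nat_lit 54938) (nat_lit 0) [] (nat_lit 0) [] false,
   Spec.mk (nat_lit 54940) (nat_lit 0) [] (nat_lit 0) [] false,
   Spec.mk (nat_lit 54942) (nat_lit 0) [] (nat_lit 0) [] false,
   Spec.mk (nat_lit 54950) (nat_lit 0) [] (nat_lit 0) [] false,
   Spec.mk (nat_lit 54952) (nat_lit 0) [] (nat_lit 0) [] false,
   Spec.mk (nat_lit 54956) (nat_lit 0) [] (nat_lit 0) [] false,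
   Spec.mk (nat_lit 54958) (nat_lit 0) [] (nat_lit 0) [] false,
   Spec.mk (nat_lit 54960) (nat_lit 0) [] (nat_lit 0) [] false,
   Spec.mk (nat_lit 54964) (nat_lit 0) [] (nat_lit 0) [] false,
   Spec.mk (nat_lit 54966) (nat_lit 0) [] (nat_lit 0) [] false,
   Spec.mk (nat_lit 54974) (nat_lit 0) [] (nat_lit 0) [] false,
   Spec.mk (nat_lit 54976) (nat_lit 0) [] (nat_lit 0) [] false,
   Spec.mk (nat_lit 54978) (nat_lit 0) [] (nat_lit 0) [] false,
   Spec.mk (nat_lit 54982) (nat_lit 0) [] (nat_lit 0) [] false,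
   Spec.mk (nat_lit 54984) (nat_lit 0) [] (nat_lit 0) [] false,
   Spec.mk (nat_lit 54990) (nat_lit 0) [] (nat_lit 0) [] false,
   Spec.mk (nat_lit 55004) (nat_lit 0) [] (nat_lit 0) [] false,
   Spec.mk (nat_lit 55006) (nat_lit 0) [] (nat_lit 0) [] false,
   Spec.mk (nat_lit 55010) (nat_lit 0) [] (nat_lit 0) [] false,
   Spec.mk (nat_lit 55012) (nat_lit 0) [] (nat_lit 0) [] false,
   Spec.mk (nat_lit 55014) (nat_lit 0) [] (nat_lit 0) [] false,
   Spec.mk (nat_lit 55018) (nat_lit 0) [] (nat_lit 0) [] false,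
   Spec.mk (nat_lit 55020) (nat_lit 0) [] (nat_lit 0) [] false,
   Spec.mk (nat_lit 55028) (nat_lit 0) [] (nat_lit 0) [] false,
   Spec.mk (nat_lit 55030) (nat_lit 0) [] (nat_lit 0) [] false,
   Spec.mk (nat_lit 55032) (nat_lit 0) [] (nat_lit 0) [] false,
   Spec.mk (nat_lit 55036) (nat_lit 0) [] (nat_lit 0) [] false,
   Spec.mk (nat_lit 55038) (nat_lit 0) [] (nat_lit 0) [] false,
   Spec.mk (nat_lit 55044) (nat_lit 0) [] (nat_lit 0) [] false,
   Spec.mk (nat_lit 55054) (nat_lit 0) [] (nat_lit 0) [] false,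
   Spec.mk (nat_lit 55056) (nat_lit 0) [] (nat_lit 0) [] false,
   Spec.mk (nat_lit 55062) (nat_lit 0) [] (nat_lit 0) [] false,
   Spec.mk (nat_lit 55082) (nat_lit 0) [] (nat_lit 0) [] false,
   Spec.mk (nat_lit 55084) (nat_lit 0) [] (nat_lit 0) [] false,
   Spec.mk (nat_lit 55086) (nat_lit 0) [] (nat_lit 0) [] false,
   Spec.mk (nat_lit 55090) (nat_lit 0) [] (nat_lit 0) [] false,
   Spec.mk (nat_lit 55092) (nat_lit 0) [] (nat_lit 0) [] false,
   Spec.mk (nat_lit 55098) (nat_lit 0) [] (nat_lit 0) [] false,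
   Spec.mk (nat_lit 55108) (nat_lit 0) [] (nat_lit 0) [] false,
   Spec.mk (nat_lit 55110) (nat_lit 0) [] (nat_lit 0) [] false,
   Spec.mk (nat_lit 55116) (nat_lit 0) [] (nat_lit 0) [] false,
   Spec.mk (nat_lit 55134) (nat_lit 0) [] (nat_lit 0) [] false,
   Spec.mk (nat_lit 55166) (nat_lit 0) [] (nat_lit 0) [] false,
   Spec.mk (nat_lit 55168) (nat_lit 0) [] (nat_lit 0) [] false,
   Spec.mk (nat_lit 55172) (nat_lit 0) [] (nat_lit 0) [] false,
   Spec.mk (nat_lit 55174) (nat_lit 0) [] (nat_lit 0) [] false,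
   Spec.mk (nat_lit 55176) (nat_lit 0) [] (nat_lit 0) [] false,
   Spec.mk (nat_lit 55180) (nat_lit 0) [] (nat_lit 0) [] false,
   Spec.mk (nat_lit 55182) (nat_lit 0) [] (nat_lit 0) [] false,
   Spec.mk (nat_lit 55190) (nat_lit 0) [] (nat_lit 0) [] false,
   Spec.mk (nat_lit 55192) (nat_lit 0) [] (nat_lit 0) [] false,
   Spec.mk (nat_lit 55194) (nat_lit 0) [] (nat_lit 0) [] false,
   Spec.mk (nat_lit 55198) (nat_lit 0) [] (nat_lit 0) [] false,
   Spec.mk (nat_lit 55200) (nat_lit 0) [] (nat_lit 0) [] false,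
   Spec.mk (nat_lit 55206) (nat_lit 0) [] (nat_lit 0) [] false,
   Spec.mk (nat_lit 55216) (nat_lit 0) [] (nat_lit 0) [] false,
   Spec.mk (nat_lit 55218) (nat_lit 0) [] (nat_lit 0) [] false,
   Spec.mk (nat_lit 55224) (nat_lit 0) [] (nat_lit 0) [] false,
   Spec.mk (nat_lit 55244) (nat_lit 0) [] (nat_lit 0) [] false,
   Spec.mk (nat_lit 55246) (nat_lit 0) [] (nat_lit 0) [] false]

noncomputable def cd144 : List Spec :=
  [Spec.mk (nat_lit 55248) (nat_lit 0) [] (nat_lit 0) [] false,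
   Spec.mk (nat_lit 55252) (nat_lit 0) [] (nat_lit 0) [] false,
   Spec.mk (nat_lit 55254) (nat_lit 0) [] (nat_lit 0) [] false,
   Spec.mk (nat_lit 55260) (nat_lit 0) [] (nat_lit 0) [] false,
   Spec.mk (nat_lit 55270) (nat_lit 0) [] (nat_lit 0) [] false,
   Spec.mk (nat_lit 55272) (nat_lit 0) [] (nat_lit 0) [] false,
   Spec.mk (nat_lit 55278) (nat_lit 0) [] (nat_lit 0) [] false,
   Spec.mk (nat_lit 55296) (nat_lit 0) [] (nat_lit 0) [] false,
   Spec.mk (nat_lit 55324) (nat_lit 0) [] (nat_lit 0) [] false,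
   Spec.mk (nat_lit 55326) (nat_lit 0) [] (nat_lit 0) [] false,
   Spec.mk (nat_lit 55332) (nat_lit 0) [] (nat_lit 0) [] false,
   Spec.mk (nat_lit 55350) (nat_lit 0) [] (nat_lit 0) [] false,
   Spec.mk (nat_lit 55412) (nat_lit 0) [] (nat_lit 0) [] false,
   Spec.mk (nat_lit 55418) (nat_lit 0) [] (nat_lit 0) [] false,
   Spec.mk (nat_lit 55420) (nat_lit 0) [] (nat_lit 0) [] false,
   Spec.mk (nat_lit 55424) (nat_lit 0) [] (nat_lit 0) [] false,
   Spec.mk (nat_lit 55426) (nat_lit 0) [] (nat_lit 0) [] false,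
   Spec.mk (nat_lit 55428) (nat_lit 0) [] (nat_lit 0) [] false,
   Spec.mk (nat_lit 55436) (nat_lit 0) [] (nat_lit 0) [] false,
   Spec.mk (nat_lit 55438) (nat_lit 0) [] (nat_lit 0) [] false,
   Spec.mk (nat_lit 55442) (nat_lit 0) [] (nat_lit 0) [] false,
   Spec.mk (nat_lit 55444) (nat_lit 0) [] (nat_lit 0) [] false,
   Spec.mk (nat_lit 55446) (nat_lit 0) [] (nat_lit 0) [] false,
   Spec.mk (nat_lit 55450) (nat_lit 0) [] (nat_lit 0) [] false,
   Spec.mk (nat_lit 55452) (nat_lit 0) [] (nat_lit 0) [] false,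
   Spec.mk (nat_lit 55460) (nat_lit 0) [] (nat_lit 0) [] false,
   Spec.mk (nat_lit 55462) (nat_lit 0) [] (nat_lit 0) [] false,
   Spec.mk (nat_lit 55464) (nat_lit 0) [] (nat_lit 0) [] false,
   Spec.mk (nat_lit 55468) (nat_lit 0) [] (nat_lit 0) [] false,
   Spec.mk (nat_lit 55470) (nat_lit 0) [] (nat_lit 0) [] false,
   Spec.mk (nat_lit 55476) (nat_lit 0) [] (nat_lit 0) [] false,
   Spec.mk (nat_lit 55490) (nat_lit 0) [] (nat_lit 0) [] false,
   Spec.mk (nat_lit 55492) (nat_lit 0) [] (nat_lit 0) [] false,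
   Spec.mk (nat_lit 55496) (nat_lit 0) [] (nat_lit 0) [] false,
   Spec.mk (nat_lit 55498) (nat_lit 0) [] (nat_lit 0) [] false,
   Spec.mk (nat_lit 55500) (nat_lit 0) [] (nat_lit 0) [] false,
   Spec.mk (nat_lit 55504) (nat_lit 0) [] (nat_lit 0) [] false,
   Spec.mk (nat_lit 55506) (nat_lit 0) [] (nat_lit 0) [] false,
   Spec.mk (nat_lit 55514) (nat_lit 0) [] (nat_lit 0) [] false,
   Spec.mk (nat_lit 55516) (nat_lit 0) [] (nat_lit 0) [] false,
   Spec.mk (nat_lit 55518) (nat_lit 0) [] (nat_lit 0) [] false,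
   Spec.mk (nat_lit 55522) (nat_lit 0) [] (nat_lit 0) [] false,
   Spec.mk (nat_lit 55524) (nat_lit 0) [] (nat_lit 0) [] false,
   Spec.mk (nat_lit 55530) (nat_lit 0) [] (nat_lit 0) [] false,
   Spec.mk (nat_lit 55540) (nat_lit 0) [] (nat_lit 0) [] false,
   Spec.mk (nat_lit 55542) (nat_lit 0) [] (nat_lit 0) [] false,
   Spec.mk (nat_lit 55548) (nat_lit 0) [] (nat_lit 0) [] false,
   Spec.mk (nat_lit 55568) (nat_lit 0) [] (nat_lit 0) [] false,
   Spec.mk (nat_lit 55570) (nat_lit 0) [] (nat_lit 0) [] false,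
   Spec.mk (nat_lit 55572) (nat_lit 0) [] (nat_lit 0) [] false,
   Spec.mk (nat_lit 55576) (nat_lit 0) [] (nat_lit 0) [] false,
   Spec.mk (nat_lit 55578) (nat_lit 0) [] (nat_lit 0) [] false,
   Spec.mk (nat_lit 55584) (nat_lit 0) [] (nat_lit 0) [] false,
   Spec.mk (nat_lit 55594) (nat_lit 0) [] (nat_lit 0) [] false,
   Spec.mk (nat_lit 55596) (nat_lit 0) [] (nat_lit 0) [] false,
   Spec.mk (nat_lit 55602) (nat_lit 0) [] (nat_lit 0) [] false,
   Spec.mk (nat_lit 55620) (nat_lit 0) [] (nat_lit 0) [] false,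
   Spec.mk (nat_lit 55652) (nat_lit 0) [] (nat_lit 0) [] false,
   Spec.mk (nat_lit 55654) (nat_lit 0) [] (nat_lit 0) [] false,
   Spec.mk (nat_lit 55658) (nat_lit 0) [] (nat_lit 0) [] false]

noncomputable def cd145 : List Spec :=
  [Spec.mk (nat_lit 55660) (nat_lit 0) [] (nat_lit 0) [] false,
   Spec.mk (nat_lit 55662) (nat_lit 0) [] (nat_lit 0) [] false,
   Spec.mk (nat_lit 55666) (nat_lit 0) [] (nat_lit 0) [] false,
   Spec.mk (nat_lit 55668) (nat_lit 0) [] (nat_lit 0) [] false,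
   Spec.mk (nat_lit 55676) (nat_lit 0) [] (nat_lit 0) [] false,
   Spec.mk (nat_lit 55678) (nat_lit 0) [] (nat_lit 0) [] false,
   Spec.mk (nat_lit 55680) (nat_lit 0) [] (nat_lit 0) [] false,
   Spec.mk (nat_lit 55684) (nat_lit 0) [] (nat_lit 0) [] false,
   Spec.mk (nat_lit 55686) (nat_lit 0) [] (nat_lit 0) [] false,
   Spec.mk (nat_lit 55692) (nat_lit 0) [] (nat_lit 0) [] false,
   Spec.mk (nat_lit 55702) (nat_lit 0) [] (nat_lit 0) [] false,
   Spec.mk (nat_lit 55704) (nat_lit 0) [] (nat_lit 0) [] false,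
   Spec.mk (nat_lit 55710) (nat_lit 0) [] (nat_lit 0) [] false,
   Spec.mk (nat_lit 55730) (nat_lit 0) [] (nat_lit 0) [] false,
   Spec.mk (nat_lit 55732) (nat_lit 0) [] (nat_lit 0) [] false,
   Spec.mk (nat_lit 55734) (nat_lit 0) [] (nat_lit 0) [] false,
   Spec.mk (nat_lit 55738) (nat_lit 0) [] (nat_lit 0) [] false,
   Spec.mk (nat_lit 55740) (nat_lit 0) [] (nat_lit 0) [] false,
   Spec.mk (nat_lit 55746) (nat_lit 0) [] (nat_lit 0) [] false,
   Spec.mk (nat_lit 55756) (nat_lit 0) [] (nat_lit 0) [] false,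
   Spec.mk (nat_lit 55758) (nat_lit 0) [] (nat_lit 0) [] false,
   Spec.mk (nat_lit 55764) (nat_lit 0) [] (nat_lit 0) [] false,
   Spec.mk (nat_lit 55782) (nat_lit 0) [] (nat_lit 0) [] false,
   Spec.mk (nat_lit 55810) (nat_lit 0) [] (nat_lit 0) [] false,
   Spec.mk (nat_lit 55812) (nat_lit 0) [] (nat_lit 0) [] false,
   Spec.mk (nat_lit 55818) (nat_lit 0) [] (nat_lit 0) [] false,
   Spec.mk (nat_lit 55836) (nat_lit 0) [] (nat_lit 0) [] false,
   Spec.mk (nat_lit 55892) (nat_lit 0) [] (nat_lit 0) [] false,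
   Spec.mk (nat_lit 55894) (nat_lit 0) [] (nat_lit 0) [] false,
   Spec.mk (nat_lit 55896) (nat_lit 0) [] (nat_lit 0) [] false,
   Spec.mk (nat_lit 55900) (nat_lit 0) [] (nat_lit 0) [] false,
   Spec.mk (nat_lit 55902) (nat_lit 0) [] (nat_lit 0) [] false,
   Spec.mk (nat_lit 55908) (nat_lit 0) [] (nat_lit 0) [] false,
   Spec.mk (nat_lit 55918) (nat_lit 0) [] (nat_lit 0) [] false,
   Spec.mk (nat_lit 55920) (nat_lit 0) [] (nat_lit 0) [] false,
   Spec.mk (nat_lit 55926) (nat_lit 0) [] (nat_lit 0) [] false,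
   Spec.mk (nat_lit 55944) (nat_lit 0) [] (nat_lit 0) [] false,
   Spec.mk (nat_lit 55972) (nat_lit 0) [] (nat_lit 0) [] false,
   Spec.mk (nat_lit 55974) (nat_lit 0) [] (nat_lit 0) [] false,
   Spec.mk (nat_lit 55980) (nat_lit 0) [] (nat_lit 0) [] false,
   Spec.mk (nat_lit 55998) (nat_lit 0) [] (nat_lit 0) [] false,
   Spec.mk (nat_lit 56052) (nat_lit 0) [] (nat_lit 0) [] false,
   Spec.mk (nat_lit 56138) (nat_lit 0) [] (nat_lit 0) [] false,
   Spec.mk (nat_lit 56140) (nat_lit 0) [] (nat_lit 0) [] false,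
   Spec.mk (nat_lit 56144) (nat_lit 0) [] (nat_lit 0) [] false,
   Spec.mk (nat_lit 56146) (nat_lit 0) [] (nat_lit 0) [] false,
   Spec.mk (nat_lit 56148) (nat_lit 0) [] (nat_lit 0) [] false,
   Spec.mk (nat_lit 56152) (nat_lit 0) [] (nat_lit 0) [] false,
   Spec.mk (nat_lit 56154) (nat_lit 0) [] (nat_lit 0) [] false,
   Spec.mk (nat_lit 56162) (nat_lit 0) [] (nat_lit 0) [] false,
   Spec.mk (nat_lit 56164) (nat_lit 0) [] (nat_lit 0) [] false,
   Spec.mk (nat_lit 56166) (nat_lit 0) [] (nat_lit 0) [] false,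
   Spec.mk (nat_lit 56170) (nat_lit 0) [] (nat_lit 0) [] false,
   Spec.mk (nat_lit 56172) (nat_lit 0) [] (nat_lit 0) [] false,
   Spec.mk (nat_lit 56178) (nat_lit 0) [] (nat_lit 0) [] false,
   Spec.mk (nat_lit 56188) (nat_lit 0) [] (nat_lit 0) [] false,
   Spec.mk (nat_lit 56190) (nat_lit 0) [] (nat_lit 0) [] false,
   Spec.mk (nat_lit 56196) (nat_lit 0) [] (nat_lit 0) [] false,
   Spec.mk (nat_lit 56216) (nat_lit 0) [] (nat_lit 0) [] false,
   Spec.mk (nat_lit 56218) (nat_lit 0) [] (nat_lit 0) [] false]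

noncomputable def cd146 : List Spec :=
  [Spec.mk (nat_lit 56220) (nat_lit 0) [] (nat_lit 0) [] false,
   Spec.mk (nat_lit 56224) (nat_lit 0) [] (nat_lit 0) [] false,
   Spec.mk (nat_lit 56226) (nat_lit 0) [] (nat_lit 0) [] false,
   Spec.mk (nat_lit 56232) (nat_lit 0) [] (nat_lit 0) [] false,
   Spec.mk (nat_lit 56242) (nat_lit 0) [] (nat_lit 0) [] false,
   Spec.mk (nat_lit 56244) (nat_lit 0) [] (nat_lit 0) [] false,
   Spec.mk (nat_lit 56250) (nat_lit 0) [] (nat_lit 0) [] false,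
   Spec.mk (nat_lit 56268) (nat_lit 0) [] (nat_lit 0) [] false,
   Spec.mk (nat_lit 56296) (nat_lit 0) [] (nat_lit 0) [] false,
   Spec.mk (nat_lit 56298) (nat_lit 0) [] (nat_lit 0) [] false,
   Spec.mk (nat_lit 56304) (nat_lit 0) [] (nat_lit 0) [] false,
   Spec.mk (nat_lit 56322) (nat_lit 0) [] (nat_lit 0) [] false,
   Spec.mk (nat_lit 56378) (nat_lit 0) [] (nat_lit 0) [] false,
   Spec.mk (nat_lit 56380) (nat_lit 0) [] (nat_lit 0) [] false,
   Spec.mk (nat_lit 56382) (nat_lit 0) [] (nat_lit 0) [] false,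
   Spec.mk (nat_lit 56386) (nat_lit 0) [] (nat_lit 0) [] false,
   Spec.mk (nat_lit 56388) (nat_lit 0) [] (nat_lit 0) [] false,
   Spec.mk (nat_lit 56394) (nat_lit 0) [] (nat_lit 0) [] false,
   Spec.mk (nat_lit 56404) (nat_lit 0) [] (nat_lit 0) [] false,
   Spec.mk (nat_lit 56406) (nat_lit 0) [] (nat_lit 0) [] false,
   Spec.mk (nat_lit 56412) (nat_lit 0) [] (nat_lit 0) [] false,
   Spec.mk (nat_lit 56430) (nat_lit 0) [] (nat_lit 0) [] false,
   Spec.mk (nat_lit 56458) (nat_lit 0) [] (nat_lit 0) [] false,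
   Spec.mk (nat_lit 56460) (nat_lit 0) [] (nat_lit 0) [] false,
   Spec.mk (nat_lit 56466) (nat_lit 0) [] (nat_lit 0) [] false,
   Spec.mk (nat_lit 56484) (nat_lit 0) [] (nat_lit 0) [] false,
   Spec.mk (nat_lit 56538) (nat_lit 0) [] (nat_lit 0) [] false,
   Spec.mk (nat_lit 56620) (nat_lit 0) [] (nat_lit 0) [] false,
   Spec.mk (nat_lit 56622) (nat_lit 0) [] (nat_lit 0) [] false,
   Spec.mk (nat_lit 56628) (nat_lit 0) [] (nat_lit 0) [] false,
   Spec.mk (nat_lit 56646) (nat_lit 0) [] (nat_lit 0) [] false,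
   Spec.mk (nat_lit 56700) (nat_lit 0) [] (nat_lit 0) [] false,
   Spec.mk (nat_lit 56870) (nat_lit 0) [] (nat_lit 0) [] false,
   Spec.mk (nat_lit 56876) (nat_lit 0) [] (nat_lit 0) [] false,
   Spec.mk (nat_lit 56878) (nat_lit 0) [] (nat_lit 0) [] false,
   Spec.mk (nat_lit 56882) (nat_lit 0) [] (nat_lit 0) [] false,
   Spec.mk (nat_lit 56884) (nat_lit 0) [] (nat_lit 0) [] false,
   Spec.mk (nat_lit 56886) (nat_lit 0) [] (nat_lit 0) [] false,
   Spec.mk (nat_lit 56894) (nat_lit 0) [] (nat_lit 0) [] false,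
   Spec.mk (nat_lit 56896) (nat_lit 0) [] (nat_lit 0) [] false,
   Spec.mk (nat_lit 56900) (nat_lit 0) [] (nat_lit 0) [] false,
   Spec.mk (nat_lit 56902) (nat_lit 0) [] (nat_lit 0) [] false,
   Spec.mk (nat_lit 56904) (nat_lit 0) [] (nat_lit 0) [] false,
   Spec.mk (nat_lit 56908) (nat_lit 0) [] (nat_lit 0) [] false,
   Spec.mk (nat_lit 56910) (nat_lit 0) [] (nat_lit 0) [] false,
   Spec.mk (nat_lit 56918) (nat_lit 0) [] (nat_lit 0) [] false,
   Spec.mk (nat_lit 56920) (nat_lit 0) [] (nat_lit 0) [] false,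
   Spec.mk (nat_lit 56922) (nat_lit 0) [] (nat_lit 0) [] false,
   Spec.mk (nat_lit 56926) (nat_lit 0) [] (nat_lit 0) [] false,
   Spec.mk (nat_lit 56928) (nat_lit 0) [] (nat_lit 0) [] false,
   Spec.mk (nat_lit 56934) (nat_lit 0) [] (nat_lit 0) [] false,
   Spec.mk (nat_lit 56948) (nat_lit 0) [] (nat_lit 0) [] false,
   Spec.mk (nat_lit 56950) (nat_lit 0) [] (nat_lit 0) [] false,
   Spec.mk (nat_lit 56954) (nat_lit 0) [] (nat_lit 0) [] false,
   Spec.mk (nat_lit 56956) (nat_lit 0) [] (nat_lit 0) [] false,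
   Spec.mk (nat_lit 56958) (nat_lit 0) [] (nat_lit 0) [] false,
   Spec.mk (nat_lit 56962) (nat_lit 0) [] (nat_lit 0) [] false,
   Spec.mk (nat_lit 56964) (nat_lit 0) [] (nat_lit 0) [] false,
   Spec.mk (nat_lit 56972) (nat_lit 0) [] (nat_lit 0) [] false,
   Spec.mk (nat_lit 56974) (nat_lit 0) [] (nat_lit 0) [] false]

noncomputable def cd147 : List Spec :=
  [Spec.mk (nat_lit 56976) (nat_lit 0) [] (nat_lit 0) [] false,
   Spec.mk (nat_lit 56980) (nat_lit 0) [] (nat_lit 0) [] false,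
   Spec.mk (nat_lit 56982) (nat_lit 0) [] (nat_lit 0) [] false,
   Spec.mk (nat_lit 56988) (nat_lit 0) [] (nat_lit 0) [] false,
   Spec.mk (nat_lit 56998) (nat_lit 0) [] (nat_lit 0) [] false,
   Spec.mk (nat_lit 57000) (nat_lit 0) [] (nat_lit 0) [] false,
   Spec.mk (nat_lit 57006) (nat_lit 0) [] (nat_lit 0) [] false,
   Spec.mk (nat_lit 57026) (nat_lit 0) [] (nat_lit 0) [] false,
   Spec.mk (nat_lit 57028) (nat_lit 0) [] (nat_lit 0) [] false,
   Spec.mk (nat_lit 57030) (nat_lit 0) [] (nat_lit 0) [] false,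
   Spec.mk (nat_lit 57034) (nat_lit 0) [] (nat_lit 0) [] false,
   Spec.mk (nat_lit 57036) (nat_lit 0) [] (nat_lit 0) [] false,
   Spec.mk (nat_lit 57042) (nat_lit 0) [] (nat_lit 0) [] false,
   Spec.mk (nat_lit 57052) (nat_lit 0) [] (nat_lit 0) [] false,
   Spec.mk (nat_lit 57054) (nat_lit 0) [] (nat_lit 0) [] false,
   Spec.mk (nat_lit 57060) (nat_lit 0) [] (nat_lit 0) [] false,
   Spec.mk (nat_lit 57078) (nat_lit 0) [] (nat_lit 0) [] false,
   Spec.mk (nat_lit 57110) (nat_lit 0) [] (nat_lit 0) [] false,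
   Spec.mk (nat_lit 57112) (nat_lit 0) [] (nat_lit 0) [] false,
   Spec.mk (nat_lit 57116) (nat_lit 0) [] (nat_lit 0) [] false,
   Spec.mk (nat_lit 57118) (nat_lit 0) [] (nat_lit 0) [] false,
   Spec.mk (nat_lit 57120) (nat_lit 0) [] (nat_lit 0) [] false,
   Spec.mk (nat_lit 57124) (nat_lit 0) [] (nat_lit 0) [] false,
   Spec.mk (nat_lit 57126) (nat_lit 0) [] (nat_lit 0) [] false,
   Spec.mk (nat_lit 57134) (nat_lit 0) [] (nat_lit 0) [] false,
   Spec.mk (nat_lit 57136) (nat_lit 0) [] (nat_lit 0) [] false,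
   Spec.mk (nat_lit 57138) (nat_lit 0) [] (nat_lit 0) [] false,
   Spec.mk (nat_lit 57142) (nat_lit 0) [] (nat_lit 0) [] false,
   Spec.mk (nat_lit 57144) (nat_lit 0) [] (nat_lit 0) [] false,
   Spec.mk (nat_lit 57150) (nat_lit 0) [] (nat_lit 0) [] false,
   Spec.mk (nat_lit 57160) (nat_lit 0) [] (nat_lit 0) [] false,
   Spec.mk (nat_lit 57162) (nat_lit 0) [] (nat_lit 0) [] false,
   Spec.mk (nat_lit 57168) (nat_lit 0) [] (nat_lit 0) [] false,
   Spec.mk (nat_lit 57188) (nat_lit 0) [] (nat_lit 0) [] false,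
   Spec.mk (nat_lit 57190) (nat_lit 0) [] (nat_lit 0) [] false,
   Spec.mk (nat_lit 57192) (nat_lit 0) [] (nat_lit 0) [] false,
   Spec.mk (nat_lit 57196) (nat_lit 0) [] (nat_lit 0) [] false,
   Spec.mk (nat_lit 57198) (nat_lit 0) [] (nat_lit 0) [] false,
   Spec.mk (nat_lit 57204) (nat_lit 0) [] (nat_lit 0) [] false,
   Spec.mk (nat_lit 57214) (nat_lit 0) [] (nat_lit 0) [] false,
   Spec.mk (nat_lit 57216) (nat_lit 0) [] (nat_lit 0) [] false,
   Spec.mk (nat_lit 57222) (nat_lit 0) [] (nat_lit 0) [] false,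
   Spec.mk (nat_lit 57240) (nat_lit 0) [] (nat_lit 0) [] false,
   Spec.mk (nat_lit 57268) (nat_lit 0) [] (nat_lit 0) [] false,
   Spec.mk (nat_lit 57270) (nat_lit 0) [] (nat_lit 0) [] false,
   Spec.mk (nat_lit 57276) (nat_lit 0) [] (nat_lit 0) [] false,
   Spec.mk (nat_lit 57294) (nat_lit 0) [] (nat_lit 0) [] false,
   Spec.mk (nat_lit 57350) (nat_lit 0) [] (nat_lit 0) [] false,
   Spec.mk (nat_lit 57352) (nat_lit 0) [] (nat_lit 0) [] false,
   Spec.mk (nat_lit 57354) (nat_lit 0) [] (nat_lit 0) [] false,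
   Spec.mk (nat_lit 57358) (nat_lit 0) [] (nat_lit 0) [] false,
   Spec.mk (nat_lit 57360) (nat_lit 0) [] (nat_lit 0) [] false,
   Spec.mk (nat_lit 57366) (nat_lit 0) [] (nat_lit 0) [] false,
   Spec.mk (nat_lit 57376) (nat_lit 0) [] (nat_lit 0) [] false,
   Spec.mk (nat_lit 57378) (nat_lit 0) [] (nat_lit 0) [] false,
   Spec.mk (nat_lit 57384) (nat_lit 0) [] (nat_lit 0) [] false,
   Spec.mk (nat_lit 57402) (nat_lit 0) [] (nat_lit 0) [] false,
   Spec.mk (nat_lit 57430) (nat_lit 0) [] (nat_lit 0) [] false,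
   Spec.mk (nat_lit 57432) (nat_lit 0) [] (nat_lit 0) [] false,
   Spec.mk (nat_lit 57438) (nat_lit 0) [] (nat_lit 0) [] false]

noncomputable def cd148 : List Spec :=
  [Spec.mk (nat_lit 57456) (nat_lit 0) [] (nat_lit 0) [] false,
   Spec.mk (nat_lit 57510) (nat_lit 0) [] (nat_lit 0) [] false,
   Spec.mk (nat_lit 57596) (nat_lit 0) [] (nat_lit 0) [] false,
   Spec.mk (nat_lit 57598) (nat_lit 0) [] (nat_lit 0) [] false,
   Spec.mk (nat_lit 57602) (nat_lit 0) [] (nat_lit 0) [] false,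
   Spec.mk (nat_lit 57604) (nat_lit 0) [] (nat_lit 0) [] false,
   Spec.mk (nat_lit 57606) (nat_lit 0) [] (nat_lit 0) [] false,
   Spec.mk (nat_lit 57610) (nat_lit 0) [] (nat_lit 0) [] false,
   Spec.mk (nat_lit 57612) (nat_lit 0) [] (nat_lit 0) [] false,
   Spec.mk (nat_lit 57620) (nat_lit 0) [] (nat_lit 0) [] false,
   Spec.mk (nat_lit 57622) (nat_lit 0) [] (nat_lit 0) [] false,
   Spec.mk (nat_lit 57624) (nat_lit 0) [] (nat_lit 0) [] false,
   Spec.mk (nat_lit 57628) (nat_lit 0) [] (nat_lit 0) [] false,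
   Spec.mk (nat_lit 57630) (nat_lit 0) [] (nat_lit 0) [] false,
   Spec.mk (nat_lit 57636) (nat_lit 0) [] (nat_lit 0) [] false,
   Spec.mk (nat_lit 57646) (nat_lit 0) [] (nat_lit 0) [] false,
   Spec.mk (nat_lit 57648) (nat_lit 0) [] (nat_lit 0) [] false,
   Spec.mk (nat_lit 57654) (nat_lit 0) [] (nat_lit 0) [] false,
   Spec.mk (nat_lit 57674) (nat_lit 0) [] (nat_lit 0) [] false,
   Spec.mk (nat_lit 57676) (nat_lit 0) [] (nat_lit 0) [] false,
   Spec.mk (nat_lit 57678) (nat_lit 0) [] (nat_lit 0) [] false,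
   Spec.mk (nat_lit 57682) (nat_lit 0) [] (nat_lit 0) [] false,
   Spec.mk (nat_lit 57684) (nat_lit 0) [] (nat_lit 0) [] false,
   Spec.mk (nat_lit 57690) (nat_lit 0) [] (nat_lit 0) [] false,
   Spec.mk (nat_lit 57700) (nat_lit 0) [] (nat_lit 0) [] false,
   Spec.mk (nat_lit 57702) (nat_lit 0) [] (nat_lit 0) [] false,
   Spec.mk (nat_lit 57708) (nat_lit 0) [] (nat_lit 0) [] false,
   Spec.mk (nat_lit 57726) (nat_lit 0) [] (nat_lit 0) [] false,
   Spec.mk (nat_lit 57754) (nat_lit 0) [] (nat_lit 0) [] false,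
   Spec.mk (nat_lit 57756) (nat_lit 0) [] (nat_lit 0) [] false,
   Spec.mk (nat_lit 57762) (nat_lit 0) [] (nat_lit 0) [] false,
   Spec.mk (nat_lit 57780) (nat_lit 0) [] (nat_lit 0) [] false,
   Spec.mk (nat_lit 57836) (nat_lit 0) [] (nat_lit 0) [] false,
   Spec.mk (nat_lit 57838) (nat_lit 0) [] (nat_lit 0) [] false,
   Spec.mk (nat_lit 57840) (nat_lit 0) [] (nat_lit 0) [] false,
   Spec.mk (nat_lit 57844) (nat_lit 0) [] (nat_lit 0) [] false,
   Spec.mk (nat_lit 57846) (nat_lit 0) [] (nat_lit 0) [] false,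
   Spec.mk (nat_lit 57852) (nat_lit 0) [] (nat_lit 0) [] false,
   Spec.mk (nat_lit 57862) (nat_lit 0) [] (nat_lit 0) [] false,
   Spec.mk (nat_lit 57864) (nat_lit 0) [] (nat_lit 0) [] false,
   Spec.mk (nat_lit 57870) (nat_lit 0) [] (nat_lit 0) [] false,
   Spec.mk (nat_lit 57888) (nat_lit 0) [] (nat_lit 0) [] false,
   Spec.mk (nat_lit 57916) (nat_lit 0) [] (nat_lit 0) [] false,
   Spec.mk (nat_lit 57918) (nat_lit 0) [] (nat_lit 0) [] false,
   Spec.mk (nat_lit 57924) (nat_lit 0) [] (nat_lit 0) [] false,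
   Spec.mk (nat_lit 57942) (nat_lit 0) [] (nat_lit 0) [] false,
   Spec.mk (nat_lit 57996) (nat_lit 0) [] (nat_lit 0) [] false,
   Spec.mk (nat_lit 58078) (nat_lit 0) [] (nat_lit 0) [] false,
   Spec.mk (nat_lit 58080) (nat_lit 0) [] (nat_lit 0) [] false,
   Spec.mk (nat_lit 58086) (nat_lit 0) [] (nat_lit 0) [] false,
   Spec.mk (nat_lit 58104) (nat_lit 0) [] (nat_lit 0) [] false,
   Spec.mk (nat_lit 58158) (nat_lit 0) [] (nat_lit 0) [] false,
   Spec.mk (nat_lit 58322) (nat_lit 0) [] (nat_lit 0) [] false,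
   Spec.mk (nat_lit 58324) (nat_lit 0) [] (nat_lit 0) [] false,
   Spec.mk (nat_lit 58326) (nat_lit 0) [] (nat_lit 0) [] false,
   Spec.mk (nat_lit 58330) (nat_lit 0) [] (nat_lit 0) [] false,
   Spec.mk (nat_lit 58332) (nat_lit 0) [] (nat_lit 0) [] false,
   Spec.mk (nat_lit 58338) (nat_lit 0) [] (nat_lit 0) [] false,
   Spec.mk (nat_lit 58348) (nat_lit 0) [] (nat_lit 0) [] false,
   Spec.mk (nat_lit 58350) (nat_lit 0) [] (nat_lit 0) [] false]

noncomputable def cd149 : List Spec :=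
  [Spec.mk (nat_lit 58356) (nat_lit 0) [] (nat_lit 0) [] false,
   Spec.mk (nat_lit 58374) (nat_lit 0) [] (nat_lit 0) [] false,
   Spec.mk (nat_lit 58402) (nat_lit 0) [] (nat_lit 0) [] false,
   Spec.mk (nat_lit 58404) (nat_lit 0) [] (nat_lit 0) [] false,
   Spec.mk (nat_lit 58410) (nat_lit 0) [] (nat_lit 0) [] false,
   Spec.mk (nat_lit 58428) (nat_lit 0) [] (nat_lit 0) [] false,
   Spec.mk (nat_lit 58482) (nat_lit 0) [] (nat_lit 0) [] false,
   Spec.mk (nat_lit 58564) (nat_lit 0) [] (nat_lit 0) [] false,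
   Spec.mk (nat_lit 58566) (nat_lit 0) [] (nat_lit 0) [] false,
   Spec.mk (nat_lit 58572) (nat_lit 0) [] (nat_lit 0) [] false,
   Spec.mk (nat_lit 58590) (nat_lit 0) [] (nat_lit 0) [] false,
   Spec.mk (nat_lit 58644) (nat_lit 0) [] (nat_lit 0) [] false,
   Spec.mk (nat_lit 58806) (nat_lit 0) [] (nat_lit 0) [] false]

noncomputable def cds : List (List Spec) :=
    cd0 :: cd1 :: cd2 :: cd3 :: cd4 :: cd5 :: cd6 :: cd7 :: cd8 :: cd9 :: cd10 :: cd11 :: cd12 ::
    cd13 :: cd14 :: cd15 :: cd16 :: cd17 :: cd18 :: cd19 :: cd20 :: cd21 :: cd22 :: cd23 :: cd24 ::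
    cd25 :: cd26 :: cd27 :: cd28 :: cd29 :: cd30 :: cd31 :: cd32 :: cd33 :: cd34 :: cd35 :: cd36 ::
    cd37 :: cd38 :: cd39 :: cd40 :: cd41 :: cd42 :: cd43 :: cd44 :: cd45 :: cd46 :: cd47 :: cd48 ::
    cd49 :: cd50 :: cd51 :: cd52 :: cd53 :: cd54 :: cd55 :: cd56 :: cd57 :: cd58 :: cd59 :: cd60 ::
    cd61 :: cd62 :: cd63 :: cd64 :: cd65 :: cd66 :: cd67 :: cd68 :: cd69 :: cd70 :: cd71 :: cd72 ::
    cd73 :: cd74 :: cd75 :: cd76 :: cd77 :: cd78 :: cd79 :: cd80 :: cd81 :: cd82 :: cd83 :: cd84 ::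
    cd85 :: cd86 :: cd87 :: cd88 :: cd89 :: cd90 :: cd91 :: cd92 :: cd93 :: cd94 :: cd95 :: cd96 ::
    cd97 :: cd98 :: cd99 :: cd100 :: cd101 :: cd102 :: cd103 :: cd104 :: cd105 :: cd106 :: cd107 ::
    cd108 :: cd109 :: cd110 :: cd111 :: cd112 :: cd113 :: cd114 :: cd115 :: cd116 :: cd117 :: cd118
    :: cd119 :: cd120 :: cd121 :: cd122 :: cd123 :: cd124 :: cd125 :: cd126 :: cd127 :: cd128 ::
    cd129 :: cd130 :: cd131 :: cd132 :: cd133 :: cd134 :: cd135 :: cd136 :: cd137 :: cd138 :: cd139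
    :: cd140 :: cd141 :: cd142 :: cd143 :: cd144 :: cd145 :: cd146 :: cd147 :: cd148 :: cd149 :: []

noncomputable def ap (x : Nat → Nat) (k :
    Nat → Nat → Nat → Nat → Nat → Nat → Nat → Nat → Nat → Nat → Nat → Nat → Nat → Nat → Nat → Nat →
    Nat → Nat → Nat → Nat → Nat → Nat → Nat → Nat → Nat → Nat → Nat → Nat → Nat → Nat → Nat → Nat →
    Nat → Nat → Nat → Nat → Nat → Nat → Nat → Nat → Nat → Nat → Nat → Nat → Nat → Nat → Nat → Nat →
    Nat → Nat → Nat → Nat → Nat → Nat → Nat → Nat → Nat → Nat → Nat → Nat → Nat → Nat → Nat → Nat →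
    Nat → Nat → Nat → Nat → Nat → Nat → Nat → Nat → Nat → Nat → Nat → Nat → Nat → Nat → Nat → Nat →
    Nat → Nat → Nat → Nat → Nat → Nat → Nat → Nat → Nat → Nat → Nat → Nat → Nat → Nat → Nat → Nat →
    Nat → Nat → Nat → Nat → Nat → Nat → Nat → Nat → Nat → Nat → Nat → Nat → Nat → Nat → Nat → Nat →
    Nat → Nat → Nat → Nat → Nat → Nat → Nat → Nat → Nat → Nat → Nat → Nat → Nat → Nat → Nat → Nat →
    Nat → Nat → Nat → Nat → Nat → Nat → Nat → Nat → Nat → Nat → Nat → Nat → Nat → Nat → Nat → Nat →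
    Nat → Nat → Nat → Nat → Nat → Nat → Nat → Nat → Nat → Nat → Nat → Nat → Nat → Nat → Nat → Nat →
    Nat → Nat → Nat → Nat → Nat → Nat → Nat → Nat → Nat → Nat → Nat → Nat → Nat → Nat → Nat → Nat →
    Nat → Nat → Nat → Nat → Nat → Nat → Nat → Nat → Nat → Nat → Nat → Nat → Nat → Nat → Nat → Nat →
    Nat → Nat → Nat → Nat → Nat → Nat → Nat → Nat → Nat → Nat → Nat → Nat → Nat → Nat → Nat → Nat →
    Nat → Nat → Nat → Nat → Nat → Nat → Nat → Nat → Nat → Nat → Nat → Nat → Nat → Nat → Nat → Nat →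
    Nat → Nat → Nat → Nat → Nat → Nat → Nat → Nat → Nat → Nat → Nat → Nat → Nat → Nat → Nat → Nat →
    Nat → Nat → Nat → Nat → Nat → Nat → Nat → Nat → Nat → Nat → Nat → Nat → Nat → Nat → Nat → Nat →
    Nat → Nat → Nat → Nat → Nat → Nat → Nat → Nat → Nat → Nat → Nat → Nat → Nat → Nat → Nat → Nat →
    Nat → Nat → Nat → Nat → Nat → Nat → Nat → Nat → Nat → Nat → Nat → Nat → Nat → Nat → Nat → Nat →
    Nat → Nat → Nat → Nat → Nat → Nat → Nat → Nat → Nat → Nat → Nat → Nat → Nat → Nat → Nat → Nat →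
    Nat → Nat → Nat → Nat → Nat → Nat → Nat → Nat → Nat → Nat → Nat → Nat → Nat → Nat → Nat → Nat →
    Nat → Nat → Nat → Nat → Nat → Nat → Nat → Nat → Nat → Nat → Nat → Nat → Nat → Nat → Nat → Nat →
    Nat → Nat → Nat → Nat → Nat → Nat → Nat → Nat → Nat → Nat → Nat → Nat → Nat → Nat → Nat → Nat →
    Nat → Nat → Nat → Nat → Nat → Nat → Nat → Nat → Nat → Nat → Nat → Nat → Nat → Nat → Nat → Nat →
    Nat → Nat → Nat → Nat → Nat → Nat → Nat → Nat → Nat → Nat → Nat → Nat → Nat → Nat → Nat → Nat →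
    Nat → Nat → Nat → Nat → Nat → Nat → Nat → Nat → Nat → Nat → Nat → Nat → Nat → Nat → Nat → Nat →
    Nat → Nat → Nat → Nat → Nat → Nat → Nat → Nat → Nat → Nat → Nat → Nat → Nat → Nat → Nat → Nat →
    Nat → Nat → Nat → Nat → Nat → Nat → Nat → Nat → Nat → Nat → Nat → Nat → Nat → Nat → Nat → Nat →
    Nat → Nat → Nat → Nat → Nat → Nat → Nat → Nat → Nat → Nat → Nat → Nat → Nat → Nat → Nat → Nat →
    Nat → Nat → Nat → Nat → Nat → Nat → Nat → Nat → Nat → Nat → Nat → Nat → Nat → Nat → Nat → Nat →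
    Nat → Nat → Nat → Nat → Nat → Nat → Nat → Nat → Nat → Nat → Nat → Nat → Nat → Nat → Nat → Nat →
    Nat → Nat → Nat → Nat → Nat → Nat → Nat → Nat → Nat → Nat → Nat → Nat → Nat → Nat → Nat → Nat →
    Nat → Nat → Nat → Nat → Nat → Nat → Nat → Nat → Nat → Nat → Nat → Nat → Nat → Nat → Nat → Nat →
    Nat → Nat → Nat → Nat → Nat → Nat → Nat → Nat → Nat → Nat → Nat → Nat → Nat → Nat → Nat → Nat →
    Nat → Nat → Nat → Nat → Nat → Nat → Nat → Nat → Nat → Nat → Nat → Nat → Nat → Nat → Nat → Nat →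
    Nat → Nat → Nat → Nat → Nat → Nat → Nat → Nat → Nat → Nat → Nat → Nat → Nat → Nat → Nat → Nat →
    Nat → Nat → Nat → Nat → Nat → Nat → Nat → Nat → Nat → Nat → Nat → Nat → Nat → Nat → Nat → Nat →
    Nat → Nat → Nat → Nat → Nat → Nat → Nat → Nat → Nat → Nat → Nat → Nat → Nat → Nat → Nat → Nat →
    Nat → Nat → Nat → Nat → Nat → Nat → Nat → Nat → Nat → Nat → Nat → Nat → Nat → Nat → Nat → Nat →
    Nat → Nat → Nat → Nat → Nat → Nat → Nat → Nat → Nat → Nat → Nat → Nat → Nat → Nat → Nat → Nat →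
    Nat → Nat → Nat → Nat → Nat → Nat → Nat → Nat → Nat → Nat → Nat → Nat → Nat → Nat → Nat → Nat →
    Nat → Nat → Nat → Nat → Nat → Nat → Nat → Nat → Nat → Nat → Nat → Nat → Nat → Nat → Nat → Nat →
    Nat → Nat → Nat → Nat → Nat → Nat → Nat → Nat → Nat → Nat → Nat → Nat → Nat → Nat → Nat → Nat →
    Nat → Nat → Nat → Nat → Nat → Nat → Nat → Nat → Nat → Nat → Nat → Nat → Nat → Nat → Nat → Nat →
    Nat → Nat → Nat → Nat → Nat → Nat → Nat → Nat → Nat → Nat → Nat → Nat → Nat → Nat → Nat → Nat →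
    Nat → Nat → Nat → Nat → Nat → Nat → Nat → Nat → Nat → Nat → Nat → Nat → Nat → Nat → Nat → Nat →
    Nat → Nat → Nat → Nat → Nat → Nat → Nat → Nat → Nat → Nat → Nat → Nat → Nat → Nat → Nat → Nat →
    Nat → Nat → Nat → Nat → Nat → Nat → Nat → Nat → Nat → Nat → Nat → Nat → Nat → Nat → Nat → Nat →
    Nat → Nat → Nat → Nat → Nat → Nat → Nat → Nat → Nat → Nat → Nat → Nat → Nat → Nat → Nat → Nat →
    Nat → Nat → Nat → Nat → Nat → Nat → Nat → Nat → Nat → Nat → Nat → Nat → Nat → Nat → Nat → Nat →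
    Nat → Nat → Nat → Nat → Nat → Nat → Nat → Nat → Nat → Nat → Nat → Nat → Nat → Nat → Nat → Nat →
    Nat → Nat → Nat → Nat → Nat → Nat → Nat → Nat → Nat → Nat → Nat → Nat → Nat → Nat → Nat → Nat →
    Nat → Nat → Nat → Nat → Nat → Nat → Nat → Nat → Nat → Nat → Nat → Nat → Nat → Nat → Nat → Nat →
    Nat → Nat → Nat → Nat → Nat → Nat → Nat → Nat → Nat → Nat → Nat → Nat → Nat → Nat → Nat → Nat →
    Nat → Nat → Nat → Nat → Nat → Nat → Nat → Nat → Nat → Nat → Nat → Nat → Nat → Nat → Nat → Nat →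
    Nat → Nat → Nat → Nat → Nat → Nat → Nat → Nat → Nat → Nat → Nat → Nat → Nat → Nat → Nat → Nat →
    Nat → Nat → Nat → Nat → Nat → Nat → Nat → Nat → Nat → Nat → Nat → Nat → Nat → Nat → Nat → Nat →
    Nat → Nat → Nat → Nat → Nat → Nat → Nat → Nat → Nat → Nat → Nat → Nat → Nat → Nat → Nat → Nat →
    Nat → Nat → Nat → Nat → Nat → Nat → Nat → Nat → Nat → Nat → Nat → Nat → Nat → Nat → Nat → Nat →
    Nat → Nat → Nat → Nat → Nat → Nat → Nat → Nat → Nat → Nat → Nat → Nat → Nat → Nat → Nat → Nat →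
    Nat → Nat → Nat → Nat → Nat → Nat → Nat → Nat → Nat → Nat → Nat → Nat → Nat → Nat → Nat → Nat →
    Nat → Nat → Nat → Nat → Nat → Nat → Nat → Nat → Nat → Nat → Nat → Nat → Nat → Nat → Nat → Nat →
    Nat → Nat → Nat → Nat → Nat → Nat → Nat → Nat → Nat → Nat → Nat → Nat → Nat → Nat → Nat → Nat →
    Nat → Nat → Nat → Nat → Nat → Nat → Nat → Nat → Nat → Nat → Nat → Nat → Nat → Nat → Nat → Nat →
    Nat → Nat → Nat → Nat → Nat → Nat → Nat → Nat → Nat → Nat → Nat → Nat → Nat → Nat → Nat → Nat →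
    Nat → Nat → Nat → Nat → Nat → Nat → Nat → Nat → Nat → Nat → Nat → Nat → Nat → Nat → Nat → Nat →
    Nat → Nat → Nat → Nat → Nat → Nat → Nat → Nat → Nat → Nat → Nat → Nat → Nat → Nat → Nat → Nat →
    Nat → Nat → Nat → Nat → Nat → Nat → Nat → Nat → Nat → Nat → Nat → Nat → Nat → Nat → Nat → Nat →
    Nat → Nat → Nat → Nat → Nat → Nat → Nat → Nat → Nat → Nat → Nat → Nat → Nat → Nat → Nat → Nat →
    Nat → Nat → Nat → Nat → Nat → Nat → Nat → Nat → Nat → Nat → Nat → Nat → Nat → Nat → Nat → Nat →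
    Nat → Nat → Nat → Nat → Nat → Nat → Nat → Nat → Nat → Nat → Nat → Nat → Nat → Nat → Nat → Nat →
    Nat → Nat → Nat → Nat → Nat → Nat → Nat → Nat → Nat → Nat → Nat → Nat → Nat → Nat → Nat → Nat →
    Nat → Nat → Nat → Nat → Nat → Nat → Nat → Nat → Nat → Nat → Nat → Nat → Nat → Nat → Nat → Nat →
    Nat → Nat → Nat → Nat → Nat → Nat → Nat → Nat → Nat → Nat → Nat → Nat → Nat → Nat → Nat → Nat →
    Nat → Nat → Nat → Nat → Nat → Nat → Nat → Nat → Nat → Nat → Nat → Nat → Nat → Nat → Nat → Nat →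
    Nat → Nat → Nat → Nat → Nat → Nat → Nat → Nat → Nat → Nat → Nat → Nat → Nat → Nat → Nat → Nat →
    Nat → Nat → Nat → Nat → Nat → Nat → Nat → Nat → Nat → Nat → Nat → Nat → Nat → Nat → Nat → Nat →
    Nat → Nat → Nat → Nat → Nat → Nat → Nat → Nat → Nat → Nat → Nat → Nat → Nat → Nat → Nat → Nat →
    Nat → Nat → Nat → Nat → Nat → Nat → Nat → Nat → Nat → Nat → Nat → Nat → Nat → Nat → Nat → Nat →
    Nat → Nat → Nat → Nat → Nat → Nat → Nat → Nat → Nat → Nat → Nat → Nat → Nat → Nat → Nat → Nat →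
    Nat → Nat → Nat → Nat → Nat → Nat → Nat → Nat → Nat → Nat → Nat → Nat → Nat → Nat → Nat → Nat →
    Nat → Nat → Nat → Nat → Nat → Nat → Nat → Nat → Nat → Nat → Nat → Nat → Nat → Nat → Nat → Nat →
    Nat → Nat → Nat → Nat → Nat → Nat → Nat → Nat → Nat → Nat → Nat → Nat → Nat → Nat → Nat → Nat →
    Nat → Nat → Nat → Nat → Nat → Nat → Nat → Nat → Nat → Nat → Nat → Nat → Nat → Nat → Nat → Nat →
    Nat → Nat → Nat → Nat → Nat → Nat → Nat → Nat → Nat → Nat → Nat → Nat → Nat → Nat → Nat → Nat →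
    Nat → Nat → Nat → Nat → Nat → Nat → Nat → Nat → Nat → Nat → Nat → Nat → Nat → Nat → Nat → Nat →
    Nat → Nat → Nat → Nat → Nat → Nat → Nat → Nat → Nat → Nat → Nat → Nat → Nat → Nat → Nat → Nat →
    Nat → Nat → Nat → Nat → Nat → Nat → Nat → Nat → Nat → Nat → Nat → Nat → Nat → Nat → Nat → Nat →
    Nat → Nat → Nat → Nat → Nat → Nat → Nat → Nat → Nat → Nat → Nat → Nat → Nat → Nat → Nat → Nat →
    Nat → Nat → Nat → Nat → Nat → Nat → Nat → Nat → Nat → Nat → Nat → Nat → Nat → Nat → Nat → Nat →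
    Nat → Nat → Nat → Nat → Nat → Nat → Nat → Nat → Nat → Nat → Nat → Nat → Nat → Nat → Nat → Nat →
    Nat → Nat → Nat → Nat → Nat → Nat → Nat → Nat → Nat → Nat → Nat → Nat → Nat → Nat → Nat → Nat →
    Nat → Nat → Nat → Nat → Nat → Nat → Nat → Nat → Nat → Nat → Nat → Nat → Nat → Nat → Nat → Nat →
    Nat → Nat → Nat → Nat → Nat → Nat → Nat → Nat → Nat → Nat → Nat → Nat → Nat → Nat → Nat → Nat →
    Nat → Nat → Nat → Nat → Nat → Nat → Nat → Nat → Nat → Nat → Nat → Nat → Nat → Nat → Nat → Nat →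
    Nat → Nat → Nat → Nat → Nat → Nat → Nat → Nat → Nat → Nat → Nat → Nat → Nat → Nat → Nat → Nat →
    Nat → Nat → Nat → Nat → Nat → Nat → Nat → Nat → Nat → Nat → Nat → Nat → Nat → Nat → Nat → Nat →
    Nat → Nat → Nat → Nat → Nat → Nat → Nat → Nat → Nat → Nat → Nat → Nat → Nat → Nat → Nat → Nat →
    Nat → Nat → Nat → Nat → Nat → Nat → Nat → Nat → Nat → Nat → Nat → Nat → Nat → Nat → Nat → Nat →
    Nat → Nat → Nat → Nat → Nat → Nat → Nat → Nat → Nat → Nat → Nat → Nat → Nat → Nat → Nat → Nat →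
    Nat → Nat → Nat → Nat → Nat → Nat → Nat → Nat → Nat → Nat → Nat → Nat → Nat → Nat → Nat → Nat →
    Nat → Nat → Nat → Nat → Nat → Nat → Nat → Nat → Nat → Nat → Nat → Nat → Nat → Nat → Nat → Nat →
    Nat → Nat → Nat → Nat → Nat → Nat → Nat → Nat → Nat → Nat → Nat → Nat → Nat → Nat → Nat → Nat →
    Nat → Nat → Nat → Nat → Nat → Nat → Nat → Nat → Nat → Nat → Nat → Nat → Nat → Nat → Nat → Nat →
    Nat → Nat → Nat → Nat → Nat → Nat → Nat → Nat → Nat → Nat → Nat → Nat → Nat → Nat → Nat → Nat →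
    Nat → Nat → Nat → Nat → Nat → Nat → Nat → Nat → Nat → Nat → Nat → Nat → Nat → Nat → Nat → Nat →
    Nat → Nat → Nat → Nat → Nat → Nat → Nat → Nat → Nat → Nat → Nat → Nat → Nat → Nat → Nat → Nat →
    Nat → Nat → Nat → Nat → Nat → Nat → Nat → Nat → Nat → Nat → Nat → Nat → Nat → Nat → Nat → Nat →
    Nat → Nat → Nat → Nat → Nat → Nat → Nat → Nat → Nat → Nat → Nat → Nat → Nat → Nat → Nat → Nat →
    Nat → Nat → Nat → Nat → Nat → Nat → Nat → Nat → Nat → Nat → Nat → Nat → Nat → Nat → Nat → Nat →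
    Nat → Nat → Nat → Nat → Nat → Nat → Nat → Nat → Nat → Nat → Nat → Nat → Nat → Nat → Nat → Nat →
    Nat → Nat → Nat → Nat → Nat → Nat → Nat → Nat → Nat → Nat → Nat → Nat → Nat → Nat → Nat → Nat →
    Nat → Nat → Nat → Nat → Nat → Nat → Nat → Nat → Nat → Nat → Nat → Nat → Nat → Nat → Nat → Nat →
    Nat → Nat → Nat → Nat → Nat → Nat → Nat → Nat → Nat → Nat → Nat → Nat → Nat → Nat → Nat → Nat →
    Nat → Nat → Nat → Nat → Nat → Nat → Nat → Nat → Nat → Nat → Nat → Nat → Nat → Nat → Nat → Nat →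
    Nat → Nat → Nat → Nat → Nat → Nat → Nat → Nat → Nat → Nat → Nat → Nat → Nat → Nat → Nat → Nat →
    Nat → Nat → Nat → Nat → Nat → Nat → Nat → Nat → Nat → Nat → Nat → Nat → Nat → Nat → Nat → Nat →
    Nat → Nat → Nat → Nat → Nat → Nat → Nat → Nat → Nat → Nat → Nat → Nat → Nat → Nat → Nat → Nat →
    Nat → Nat → Nat → Nat → Nat → Nat → Nat → Nat → Nat → Nat → Nat → Nat → Nat → Nat → Nat → Nat →
    Nat → Nat → Nat → Nat → Nat → Nat → Nat → Nat → Nat → Nat → Nat → Nat → Nat → Nat → Nat → Nat →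
    Nat → Nat → Nat → Nat → Nat → Nat → Nat → Nat → Nat → Nat → Nat → Nat → Nat → Nat → Nat → Nat →
    Nat → Nat → Nat → Nat → Nat → Nat → Nat → Nat → Nat → Nat → Nat → Nat → Nat → Nat → Nat → Nat →
    Nat → Nat → Nat → Nat → Nat → Nat → Nat → Nat → Nat → Nat → Nat → Nat → Nat → Nat → Nat → Nat →
    Nat → Nat → Nat → Nat → Nat → Nat → Nat → Nat → Nat → Nat → Nat → Nat → Nat → Nat → Nat → Nat →
    Nat → Nat → Nat → Nat → Nat → Nat → Nat → Nat → Nat → Nat → Nat → Nat → Nat → Nat → Nat → Nat →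
    Nat → Nat → Nat → Nat → Nat → Nat → Nat → Nat → Nat → Nat → Nat → Nat → Nat → Nat → Nat → Nat →
    Nat → Nat → Nat → Nat → Nat → Nat → Nat → Nat → Nat → Nat → Nat → Nat → Nat → Nat → Nat → Nat →
    Nat → Nat → Nat → Nat → Nat → Nat → Nat → Nat → Nat → Nat → Nat → Nat → Nat → Nat → Nat → Nat →
    Nat → Nat → Nat → Nat → Nat → Nat → Nat → Nat → Nat → Nat → Nat → Nat → Nat → Nat → Nat → Nat →
    Nat → Nat → Nat → Nat → Nat → Nat → Nat → Nat → Nat → Nat → Nat → Nat → Nat → Nat → Nat → Nat →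
    Nat → Nat → Nat → Nat → Nat → Nat → Nat → Nat → Nat → Nat → Nat → Nat → Nat → Nat → Nat → Nat →
    Nat → Nat → Nat → Nat → Nat → Nat → Nat → Nat → Nat → Nat → Nat → Nat → Nat → Nat → Nat → Nat →
    Nat → Nat → Nat → Nat → Nat → Nat → Nat → Nat → Nat → Nat → Nat → Nat → Nat → Nat → Nat → Nat →
    Nat → Nat → Nat → Nat → Nat → Nat → Nat → Nat → Nat → Nat → Nat → Nat → Nat → Nat → Nat → Nat →
    Nat → Nat → Nat → Nat → Nat → Nat → Nat → Nat → Nat → Nat → Nat → Nat → Nat → Nat → Nat → Nat →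
    Nat → Nat → Nat → Nat → Nat → Nat → Nat → Nat → Nat → Nat → Nat → Nat → Nat → Nat → Nat → Nat →
    Nat → Nat → Nat → Nat → Nat → Nat → Nat → Nat → Nat → Nat → Nat → Nat → Nat → Nat → Nat → Nat →
    Nat → Nat → Nat → Nat → Nat → Nat → Nat → Nat → Nat → Nat → Nat → Nat → Nat → Nat → Nat → Nat →
    Nat → Nat → Nat → Nat → Nat → Nat → Nat → Nat → Nat → Nat → Nat → Nat → Nat → Nat → Nat → Nat →
    Nat → Nat → Nat → Nat → Nat → Nat → Nat → Nat → Nat → Nat → Nat → Nat → Nat → Nat → Nat → Nat →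
    Nat → Nat → Nat → Nat → Nat → Nat → Nat → Nat → Nat → Nat → Nat → Nat → Nat → Nat → Nat → Nat →
    Nat → Nat → Nat → Nat → Nat → Nat → Nat → Nat → Nat → Nat → Nat → Nat → Nat → Nat → Nat → Nat →
    Nat → Nat → Nat → Nat → Nat → Nat → Nat → Nat → Nat → Nat → Nat → Nat → Nat → Nat → Nat → Nat →
    Nat → Nat → Nat → Nat → Nat → Nat → Nat → Nat → Nat → Nat → Nat → Nat → Nat → Nat → Nat → Nat →
    Nat → Nat → Nat → Nat → Nat → Nat → Nat → Nat → Nat → Nat → Nat → Nat → Nat → Nat → Nat → Nat →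
    Nat → Nat → Nat → Nat → Nat → Nat → Nat → Nat → Nat → Nat → Nat → Nat → Nat → Nat → Nat → Nat →
    Nat → Nat → Nat → Nat → Nat → Nat → Nat → Nat → Nat → Nat → Nat → Nat → Nat → Nat → Nat → Nat →
    Nat → Nat → Nat → Nat → Nat → Nat → Nat → Nat → Nat → Nat → Nat → Nat → Nat → Nat → Nat → Nat →
    Nat → Nat → Nat → Nat → Nat → Nat → Nat → Nat → Nat → Nat → Nat → Nat → Nat → Nat → Nat → Nat →
    Nat → Nat → Nat → Nat → Nat → Nat → Nat → Nat → Nat → Nat → Nat → Nat → Nat → Nat → Nat → Nat →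
    Nat → Nat → Nat → Nat → Nat → Nat → Nat → Nat → Nat → Nat → Nat → Nat → Nat → Nat → Nat → Nat →
    Nat → Nat → Nat → Nat → Nat → Nat → Nat → Nat → Nat → Nat → Nat → Nat → Nat → Nat → Nat → Nat →
    Nat → Nat → Nat → Nat → Nat → Nat → Nat → Nat → Nat → Nat → Nat → Nat → Nat → Nat → Nat → Nat →
    Nat → Nat → Nat → Nat → Nat → Nat → Nat → Nat → Nat → Nat → Nat → Nat → Nat → Nat → Nat → Nat →
    Nat → Nat → Nat → Nat → Nat → Nat → Nat → Nat → Nat → Nat → Nat → Nat → Nat → Nat → Nat → Nat →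
    Nat → Nat → Nat → Nat → Nat → Nat → Nat → Nat → Nat → Nat → Nat → Nat → Nat → Nat → Nat → Nat →
    Nat → Nat → Nat → Nat → Nat → Nat → Nat → Nat → Nat → Nat → Nat → Nat → Nat → Nat → Nat → Nat →
    Nat → Nat → Nat → Nat → Nat → Nat → Nat → Nat → Nat → Nat → Nat → Nat → Nat → Nat → Nat → Nat →
    Nat → Nat → Nat → Nat → Nat → Nat → Nat → Nat → Nat → Nat → Nat → Nat → Nat → Nat → Nat → Nat →
    Nat → Nat → Nat → Nat → Nat → Nat → Nat → Nat → Nat → Nat → Nat → Nat → Nat → Nat → Nat → Nat →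
    Nat → Nat → Nat → Nat → Nat → Nat → Nat → Nat → Nat → Nat → Nat → Nat → Nat → Nat → Nat → Nat →
    Nat → Nat → Nat → Nat → Nat → Nat → Nat → Nat → Nat → Nat → Nat → Nat → Nat → Nat → Nat → Nat →
    Nat → Nat → Nat → Nat → Nat → Nat → Nat → Nat → Nat → Nat → Nat → Nat → Nat → Nat → Nat → Nat →
    Nat → Nat → Nat → Nat → Nat → Nat → Nat → Nat → Nat → Nat → Nat → Nat → Nat → Nat → Nat → Nat →
    Nat → Nat → Nat → Nat → Nat → Nat → Nat → Nat → Nat → Nat → Nat → Nat → Nat → Nat → Nat → Nat →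
    Nat → Nat → Nat → Nat → Nat → Nat → Nat → Nat → Nat → Nat → Nat → Nat → Nat → Nat → Nat → Nat →
    Nat → Nat → Nat → Nat → Nat → Nat → Nat → Nat → Nat → Nat → Nat → Nat → Nat → Nat → Nat → Nat →
    Nat → Nat → Nat → Nat → Nat → Nat → Nat → Nat → Nat → Nat → Nat → Nat → Nat → Nat → Nat → Nat →
    Nat → Nat → Nat → Nat → Nat → Nat → Nat → Nat → Nat → Nat → Nat → Nat → Nat → Nat → Nat → Nat →
    Nat → Nat → Nat → Nat → Nat → Nat → Nat → Nat → Nat → Nat → Nat → Nat → Nat → Nat → Nat → Nat →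
    Nat → Nat → Nat → Nat → Nat → Nat → Nat → Nat → Nat → Nat → Nat → Nat → Nat → Nat → Nat → Nat →
    Nat → Nat → Nat → Nat → Nat → Nat → Nat → Nat → Nat → Nat → Nat → Nat → Nat → Nat → Nat → Nat →
    Nat → Nat → Nat → Nat → Nat → Nat → Nat → Nat → Nat → Nat → Nat → Nat → Nat → Nat → Nat → Nat →
    Nat → Nat → Nat → Nat → Nat → Nat → Nat → Nat → Nat → Nat → Nat → Nat → Nat → Nat → Nat → Nat →
    Nat → Nat → Nat → Nat → Nat → Nat → Nat → Nat → Nat → Nat → Nat → Nat → Nat → Nat → Nat → Nat →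
    Nat → Nat → Nat → Nat → Nat → Nat → Nat → Nat → Nat → Nat → Nat → Nat → Nat → Nat → Nat → Nat →
    Nat → Nat → Nat → Nat → Nat → Nat → Nat → Nat → Nat → Nat → Nat → Nat → Nat → Nat → Nat → Nat →
    Nat → Nat → Nat → Nat → Nat → Nat → Nat → Nat → Nat → Nat → Nat → Nat → Nat → Nat → Nat → Nat →
    Nat → Nat → Nat → Nat → Nat → Nat → Nat → Nat → Nat → Nat → Nat → Nat → Nat → Nat → Nat → Nat →
    Nat → Nat → Nat → Nat → Nat → Nat → Nat → Nat → Nat → Nat → Nat → Nat → Nat → Nat → Nat → Nat →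
    Nat → Nat → Nat → Nat → Nat → Nat → Nat → Nat → Nat → Nat → Nat → Nat → Nat → Nat → Nat → Nat →
    Nat → Nat → Nat → Nat → Nat → Nat → Nat → Nat → Nat → Nat → Nat → Nat → Nat → Nat → Nat → Nat →
    Nat → Nat → Nat → Nat → Nat → Nat → Nat → Nat → Nat → Nat → Nat → Nat → Nat → Nat → Nat → Nat →
    Nat → Nat → Nat → Nat → Nat → Nat → Nat → Nat → Nat → Nat → Nat → Nat → Nat → Nat → Nat → Nat →
    Nat → Nat → Nat → Nat → Nat → Nat → Nat → Nat → Nat → Nat → Nat → Nat → Nat → Nat → Nat → Nat →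
    Nat → Nat → Nat → Nat → Nat → Nat → Nat → Nat → Nat → Nat → Nat → Nat → Nat → Nat → Nat → Nat →
    Nat → Nat → Nat → Nat → Nat → Nat → Nat → Nat → Nat → Nat → Nat → Nat → Nat → Nat → Nat → Nat →
    Nat → Nat → Nat → Nat → Nat → Nat → Nat → Nat → Nat → Nat → Nat → Nat → Nat → Nat → Nat → Nat →
    Nat → Nat → Nat → Nat → Nat → Nat → Nat → Nat → Nat → Nat → Nat → Nat → Nat → Nat → Nat → Nat →
    Nat → Nat → Nat → Nat → Nat → Nat → Nat → Nat → Nat → Nat → Nat → Nat → Nat → Nat → Nat → Nat →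
    Nat → Nat → Nat → Nat → Nat → Nat → Nat → Nat → Nat → Nat → Nat → Nat → Nat → Nat → Nat → Nat →
    Nat → Nat → Nat → Nat → Nat → Nat → Nat → Nat → Nat → Nat → Nat → Nat → Nat → Nat → Nat → Nat →
    Nat → Nat → Nat → Nat → Nat → Nat → Nat → Nat → Nat → Nat → Nat → Nat → Nat → Nat → Nat → Nat →
    Nat → Nat → Nat → Nat → Nat → Nat → Nat → Nat → Nat → Nat → Nat → Nat → Nat → Nat → Nat → Nat →
    Nat → Nat → Nat → Nat → Nat → Nat → Nat → Nat → Nat → Nat → Nat → Nat → Nat → Nat → Nat → Nat →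
    Nat → Nat → Nat → Nat → Nat → Nat → Nat → Nat → Nat → Nat → Nat → Nat → Nat → Nat → Nat → Nat →
    Nat → Nat → Nat → Nat → Nat → Nat → Nat → Nat → Nat → Nat → Nat → Nat → Nat → Nat → Nat → Nat →
    Nat → Nat → Nat → Nat → Nat → Nat → Nat → Nat → Nat → Nat → Nat → Nat → Nat → Nat → Nat → Nat →
    Nat → Nat → Nat → Nat → Nat → Nat → Nat → Nat → Nat → Nat → Nat → Nat → Nat → Nat → Nat → Nat →
    Nat → Nat → Nat → Nat → Nat → Nat → Nat → Nat → Nat → Nat → Nat → Nat → Nat → Nat → Nat → Nat →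
    Nat → Nat → Nat → Nat → Nat → Nat → Nat → Nat → Nat → Nat → Nat → Nat → Nat → Nat → Nat → Nat →
    Nat → Nat → Nat → Nat → Nat → Nat → Nat → Nat → Nat → Nat → Nat → Nat → Nat → Nat → Nat → Nat →
    Nat → Nat → Nat → Nat → Nat → Nat → Nat → Nat → Nat → Nat → Nat → Nat → Nat → Nat → Nat → Nat →
    Nat → Nat → Nat → Nat → Nat → Nat → Nat → Nat → Nat → Nat → Nat → Nat → Nat → Nat → Nat → Nat →
    Nat → Nat → Nat → Nat → Nat → Nat → Nat → Nat → Nat → Nat → Nat → Nat → Nat → Nat → Nat → Nat →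
    Nat → Nat → Nat → Nat → Nat → Nat → Nat → Nat → Nat → Nat → Nat → Nat → Nat → Nat → Nat → Nat →
    Nat → Nat → Nat → Nat → Nat → Nat → Nat → Nat → Nat → Nat → Nat → Nat → Nat → Nat → Nat → Nat →
    Nat → Nat → Nat → Nat → Nat → Nat → Nat → Nat → Nat → Nat → Nat → Nat → Nat → Nat → Nat → Nat →
    Nat → Nat → Nat → Nat → Nat → Nat → Nat → Nat → Nat → Nat → Nat → Nat → Nat → Nat → Nat → Nat →
    Nat → Nat → Nat → Nat → Nat → Nat → Nat → Nat → Nat → Nat → Nat → Nat → Nat → Nat → Nat → Nat →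
    Nat → Nat → Nat → Nat → Nat → Nat → Nat → Nat → Nat → Nat → Nat → Nat → Nat → Nat → Nat → Nat →
    Nat → Nat → Nat → Nat → Nat → Nat → Nat → Nat → Nat → Nat → Nat → Nat → Nat → Nat → Nat → Nat →
    Nat → Nat → Nat → Nat → Nat → Nat → Nat → Nat → Nat → Nat → Nat → Nat → Nat → Nat → Nat → Nat →
    Nat → Nat → Nat → Nat → Nat → Nat → Nat → Nat → Nat → Nat → Nat → Nat → Nat → Nat → Nat → Nat →
    Nat → Nat → Nat → Nat → Nat → Nat → Nat → Nat → Nat → Nat → Nat → Nat → Nat → Nat → Nat → Nat →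
    Nat → Nat → Nat → Nat → Nat → Nat → Nat → Nat → Nat → Nat → Nat → Nat → Nat → Nat → Nat → Nat →
    Nat → Nat → Nat → Nat → Nat → Nat → Nat → Nat → Nat → Nat → Nat → Nat → Nat → Nat → Nat → Nat →
    Nat → Nat → Nat → Nat → Nat → Nat → Nat → Nat → Nat → Nat → Nat → Nat → Nat → Nat → Nat → Nat →
    Nat → Nat → Nat → Nat → Nat → Nat → Nat → Nat → Nat → Nat → Nat → Nat → Nat → Nat → Nat → Nat →
    Nat → Nat → Nat → Nat → Nat → Nat → Nat → Nat → Nat → Nat → Nat → Nat → Nat → Nat → Nat → Nat →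
    Nat → Nat → Nat → Nat → Nat → Nat → Nat → Nat → Nat → Nat → Nat → Nat → Nat → Nat → Nat → Nat →
    Nat → Nat → Nat → Nat → Nat → Nat → Nat → Nat → Nat → Nat → Nat → Nat → Nat → Nat → Nat → Nat →
    Nat → Nat → Nat → Nat → Nat → Nat → Nat → Nat → Nat → Nat → Nat → Nat → Nat → Nat → Nat → Nat →
    Nat → Nat → Nat → Nat → Nat → Nat → Nat → Nat → Nat → Nat → Nat → Nat → Nat → Nat → Nat → Nat →
    Nat → Nat → Nat → Nat → Nat → Nat → Nat → Nat → Nat → Nat → Nat → Nat → Nat → Nat → Nat → Nat →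
    Nat → Nat → Nat → Nat → Nat → Nat → Nat → Nat → Nat → Nat → Nat → Nat → Nat → Nat → Nat → Nat →
    Nat → Nat → Nat → Nat → Nat → Nat → Nat → Nat → Nat → Nat → Nat → Nat → Nat → Nat → Nat → Nat →
    Nat → Nat → Nat → Nat → Nat → Nat → Nat → Nat → Nat → Nat → Nat → Nat → Nat → Nat → Nat → Nat →
    Nat → Nat → Nat → Nat → Nat → Nat → Nat → Nat → Nat → Nat → Nat → Nat → Nat → Nat → Nat → Nat →
    Nat → Nat → Nat → Nat → Nat → Nat → Nat → Nat → Nat → Nat → Nat → Nat → Nat → Nat → Nat → Nat →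
    Nat → Nat → Nat → Nat → Nat → Nat → Nat → Nat → Nat → Nat → Nat → Nat → Nat → Nat → Nat → Nat →
    Nat → Nat → Nat → Nat → Nat → Nat → Nat → Nat → Nat → Nat → Nat → Nat → Nat → Nat → Nat → Nat →
    Nat → Nat → Nat → Nat → Nat → Nat → Nat → Nat → Nat → Nat → Nat → Nat → Nat → Nat → Nat → Nat →
    Nat → Nat → Nat → Nat → Nat → Nat → Nat → Nat → Nat → Nat → Nat → Nat → Nat → Nat → Nat → Nat →
    Nat → Nat → Nat → Nat → Nat → Nat → Nat → Nat → Nat → Nat → Nat → Nat → Nat → Nat → Nat → Nat →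
    Nat → Nat → Nat → Nat → Nat → Nat → Nat → Nat → Nat → Nat → Nat → Nat → Nat → Nat → Nat → Nat →
    Nat → Nat → Nat → Nat → Nat → Nat → Nat → Nat → Nat → Nat → Nat → Nat → Nat → Nat → Nat → Nat →
    Nat → Nat → Nat → Nat → Nat → Nat → Nat → Nat → Nat → Nat → Nat → Nat → Nat → Nat → Nat → Nat →
    Nat → Nat → Nat → Nat → Nat → Nat → Nat → Nat → Nat → Nat → Nat → Nat → Nat → Nat → Nat → Nat →
    Nat → Nat → Nat → Nat → Nat → Nat → Nat → Nat → Nat → Nat → Nat → Nat → Nat → Nat → Nat → Nat →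
    Nat → Nat → Nat → Nat → Nat → Nat → Nat → Nat → Nat → Nat → Nat → Nat → Nat → Nat → Nat → Nat →
    Nat → Nat → Nat → Nat → Nat → Nat → Nat → Nat → Nat → Nat → Nat → Nat → Nat → Nat → Nat → Nat →
    Nat → Nat → Nat → Nat → Nat → Nat → Nat → Nat → Nat → Nat → Nat → Nat → Nat → Nat → Nat → Nat →
    Nat → Nat → Nat → Nat → Nat → Nat → Nat → Nat → Nat → Nat → Nat → Nat → Nat → Nat → Nat → Nat →
    Nat → Nat → Nat → Nat → Nat → Nat → Nat → Nat → Nat → Nat → Nat → Nat → Nat → Nat → Nat → Nat →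
    Nat → Nat → Nat → Nat → Nat → Nat → Nat → Nat → Nat → Nat → Nat → Nat → Nat → Nat → Nat → Nat →
    Nat → Nat → Nat → Nat → Nat → Nat → Nat → Nat → Nat → Nat → Nat → Nat → Nat → Nat → Nat → Nat →
    Nat → Nat → Nat → Nat → Nat → Nat → Nat → Nat → Nat → Nat → Nat → Nat → Nat → Nat → Nat → Nat →
    Nat → Nat → Nat → Nat → Nat → Nat → Nat → Nat → Nat → Nat → Nat → Nat → Nat → Nat → Nat → Nat →
    Nat → Nat → Nat → Nat → Nat → Nat → Nat → Nat → Nat → Nat → Nat → Nat → Nat → Nat → Nat → Nat →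
    Nat → Nat → Nat → Nat → Nat → Nat → Nat → Nat → Nat → Nat → Nat → Nat → Nat → Nat → Nat → Nat →
    Nat → Nat → Nat → Nat → Nat → Nat → Nat → Nat → Nat → Nat → Nat → Nat → Nat → Nat → Nat → Nat →
    Nat → Nat → Nat → Nat → Nat → Nat → Nat → Nat → Nat → Nat → Nat → Nat → Nat → Nat → Nat → Nat →
    Nat → Nat → Nat → Nat → Nat → Nat → Nat → Nat → Nat → Nat → Nat → Nat → Nat → Nat → Nat → Nat →
    Nat → Nat → Nat → Nat → Nat → Nat → Nat → Nat → Nat → Nat → Nat → Nat → Nat → Nat → Nat → Nat →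
    Nat → Nat → Nat → Nat → Nat → Nat → Nat → Nat → Nat → Nat → Nat → Nat → Nat → Nat → Nat → Nat →
    Nat → Nat → Nat → Nat → Nat → Nat → Nat → Nat → Nat → Nat → Nat → Nat → Nat → Nat → Nat → Nat →
    Nat → Nat → Nat → Nat → Nat → Nat → Nat → Nat → Nat → Nat → Nat → Nat → Nat → Nat → Nat → Nat →
    Nat → Nat → Nat → Nat → Nat → Nat → Nat → Nat → Nat → Nat → Nat → Nat → Nat → Nat → Nat → Nat →
    Nat → Nat → Nat → Nat → Nat → Nat → Nat → Nat → Nat → Nat → Nat → Nat → Nat → Nat → Nat → Nat →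
    Nat → Nat → Nat → Nat → Nat → Nat → Nat → Nat → Nat → Nat → Nat → Nat → Nat → Nat → Nat → Nat →
    Nat → Nat → Nat → Nat → Nat → Nat → Nat → Nat → Nat → Nat → Nat → Nat → Nat → Nat → Nat → Nat →
    Nat → Nat → Nat → Nat → Nat → Nat → Nat → Nat → Nat → Nat → Nat → Nat → Nat → Nat → Nat → Nat →
    Nat → Nat → Nat → Nat → Nat → Nat → Nat → Nat → Nat → Nat → Nat → Nat → Nat → Nat → Nat → Nat →
    Nat → Nat → Nat → Nat → Nat → Nat → Nat → Nat → Nat → Nat → Nat → Nat → Nat → Nat → Nat → Nat →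
    Nat → Nat → Nat → Nat → Nat → Nat → Nat → Nat → Nat → Nat → Nat → Nat → Nat → Nat → Nat → Nat →
    Nat → Nat → Nat → Nat → Nat → Nat → Nat → Nat → Nat → Nat → Nat → Nat → Nat → Nat → Nat → Nat →
    Nat → Nat → Nat → Nat → Nat → Nat → Nat → Nat → Nat → Nat → Nat → Nat → Nat → Nat → Nat → Nat →
    Nat → Nat → Nat → Nat → Nat → Nat → Nat → Nat → Nat → Nat → Nat → Nat → Nat → Nat → Nat → Nat →
    Nat → Nat → Nat → Nat → Nat → Nat → Nat → Nat → Nat → Nat → Nat → Nat → Nat → Nat → Nat → Nat →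
    Nat → Nat → Nat → Nat → Nat → Nat → Nat → Nat → Nat → Nat → Nat → Nat → Nat → Nat → Nat → Nat →
    Nat → Nat → Nat → Nat → Nat → Nat → Nat → Nat → Nat → Nat → Nat → Nat → Nat → Nat → Nat → Nat →
    Nat → Nat → Nat → Nat → Nat → Nat → Nat → Nat → Nat → Nat → Nat → Nat → Nat → Nat → Nat → Nat →
    Nat → Nat → Nat → Nat → Nat → Nat → Nat → Nat → Nat → Nat → Nat → Nat → Nat → Nat → Nat → Nat →
    Nat → Nat → Nat → Nat → Nat → Nat → Nat → Nat → Nat → Nat → Nat → Nat → Nat → Nat → Nat → Nat →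
    Nat → Nat → Nat → Nat → Nat → Nat → Nat → Nat → Nat → Nat → Nat → Nat → Nat → Nat → Nat → Nat →
    Nat → Nat → Nat → Nat → Nat → Nat → Nat → Nat → Nat → Nat → Nat → Nat → Nat → Nat → Nat → Nat →
    Nat → Nat → Nat → Nat → Nat → Nat → Nat → Nat → Nat → Nat → Nat → Nat → Nat → Nat → Nat → Nat →
    Nat → Nat → Nat → Nat → Nat → Nat → Nat → Nat → Nat → Nat → Nat → Nat → Nat → Nat → Nat → Nat →
    Nat → Nat → Nat → Nat → Nat → Nat → Nat → Nat → Nat → Nat → Nat → Nat → Nat → Nat → Nat → Nat →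
    Nat → Nat → Nat → Nat → Nat → Nat → Nat → Nat → Nat → Nat → Nat → Nat → Nat → Nat → Nat → Nat →
    Nat → Nat → Nat → Nat → Nat → Nat → Nat → Nat → Nat → Nat → Nat → Nat → Nat → Nat → Nat → Nat →
    Nat → Nat → Nat → Nat → Nat → Nat → Nat → Nat → Nat → Nat → Nat → Nat → Nat → Nat → Nat → Nat →
    Nat → Nat → Nat → Nat → Nat → Nat → Nat → Nat → Nat → Nat → Nat → Nat → Nat → Nat → Nat → Nat →
    Nat → Nat → Nat → Nat → Nat → Nat → Nat → Nat → Nat → Nat → Nat → Nat → Nat → Nat → Nat → Nat →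
    Nat → Nat → Nat → Nat → Nat → Nat → Nat → Nat → Nat → Nat → Nat → Nat → Nat → Nat → Nat → Nat →
    Nat → Nat → Nat → Nat → Nat → Nat → Nat → Nat → Nat → Nat → Nat → Nat → Nat → Nat → Nat → Nat →
    Nat → Nat → Nat → Nat → Nat → Nat → Nat → Nat → Nat → Nat → Nat → Nat → Nat → Nat → Nat → Nat →
    Nat → Nat → Nat → Nat → Nat → Nat → Nat → Nat → Nat → Nat → Nat → Nat → Nat → Nat → Nat → Nat →
    Nat → Nat → Nat → Nat → Nat → Nat → Nat → Nat → Nat → Nat → Nat → Nat → Nat → Nat → Nat → Nat →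
    Nat → Nat → Nat → Nat → Nat → Nat → Nat → Nat → Nat → Nat → Nat → Nat → Nat → Nat → Nat → Nat →
    Nat → Nat → Nat → Nat → Nat → Nat → Nat → Nat → Nat → Nat → Nat → Nat → Nat → Nat → Nat → Nat →
    Nat → Nat → Nat → Nat → Nat → Nat → Nat → Nat → Nat → Nat → Nat → Nat → Nat → Nat → Nat → Nat →
    Nat → Nat → Nat → Nat → Nat → Nat → Nat → Nat → Nat → Nat → Nat → Nat → Nat → Nat → Nat → Nat →
    Nat → Nat → Nat → Nat → Nat → Nat → Nat → Nat → Nat → Nat → Nat → Nat → Nat → Nat → Nat → Nat →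
    Nat → Nat → Nat → Nat → Nat → Nat → Nat → Nat → Nat → Nat → Nat → Nat → Nat → Nat → Nat → Nat →
    Nat → Nat → Nat → Nat → Nat → Nat → Nat → Nat → Nat → Nat → Nat → Nat → Nat → Nat → Nat → Nat →
    Nat → Nat → Nat → Nat → Nat → Nat → Nat → Nat → Nat → Nat → Nat → Nat → Nat → Nat → Nat → Nat →
    Nat → Nat → Nat → Nat → Nat → Nat → Nat → Nat → Nat → Nat → Nat → Nat → Nat → Nat → Nat → Nat →
    Nat → Nat → Nat → Nat → Nat → Nat → Nat → Nat → Nat → Nat → Nat → Nat → Nat → Nat → Nat → Nat →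
    Nat → Nat → Nat → Nat → Nat → Nat → Nat → Nat → Nat → Nat → Nat → Nat → Nat → Nat → Nat → Nat →
    Nat → Nat → Nat → Nat → Nat → Nat → Nat → Nat → Nat → Nat → Nat → Nat → Nat → Nat → Nat → Nat →
    Nat → Nat → Nat → Nat → Nat → Nat → Nat → Nat → Nat → Nat → Nat → Nat → Nat → Nat → Nat → Nat →
    Nat → Nat → Nat → Nat → Nat → Nat → Nat → Nat → Nat → Nat → Nat → Nat → Nat → Nat → Nat → Nat →
    Nat → Nat → Nat → Nat → Nat → Nat → Nat → Nat → Nat → Nat → Nat → Nat → Nat → Nat → Nat → Nat →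
    Nat → Nat → Nat → Nat → Nat → Nat → Nat → Nat → Nat → Nat → Nat → Nat → Nat → Nat → Nat → Nat →
    Nat → Nat → Nat → Nat → Nat → Nat → Nat → Nat → Nat → Nat → Nat → Nat → Nat → Nat → Nat → Nat →
    Nat → Nat → Nat → Nat → Nat → Nat → Nat → Nat → Nat → Nat → Nat → Nat → Nat → Nat → Nat → Nat →
    Nat → Nat → Nat → Nat → Nat → Nat → Nat → Nat → Nat → Nat → Nat → Nat → Nat → Nat → Nat → Nat →
    Nat → Nat → Nat → Nat → Nat → Nat → Nat → Nat → Nat → Nat → Nat → Nat → Nat → Nat → Nat → Nat →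
    Nat → Nat → Nat → Nat → Nat → Nat → Nat → Nat → Nat → Nat → Nat → Nat → Nat → Nat → Nat → Nat →
    Nat → Nat → Nat → Nat → Nat → Nat → Nat → Nat → Nat → Nat → Nat → Nat → Nat → Nat → Nat → Nat →
    Nat → Nat → Nat → Nat → Nat → Nat → Nat → Nat → Nat → Nat → Nat → Nat → Nat → Nat → Nat → Nat →
    Nat → Nat → Nat → Nat → Nat → Nat → Nat → Nat → Nat → Nat → Nat → Nat → Nat → Nat → Nat → Nat →
    Nat → Nat → Nat → Nat → Nat → Nat → Nat → Nat → Nat → Nat → Nat → Nat → Nat → Nat → Nat → Nat →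
    Nat → Nat → Nat → Nat → Nat → Nat → Nat → Nat → Nat → Nat → Nat → Nat → Nat → Nat → Nat → Nat →
    Nat → Nat → Nat → Nat → Nat → Nat → Nat → Nat → Nat → Nat → Nat → Nat → Nat → Nat → Nat → Nat →
    Nat → Nat → Nat → Nat → Nat → Nat → Nat → Nat → Nat → Nat → Nat → Nat → Nat → Nat → Nat → Nat →
    Nat → Nat → Nat → Nat → Nat → Nat → Nat → Nat → Nat → Nat → Nat → Nat → Nat → Nat → Nat → Nat →
    Nat → Nat → Nat → Nat → Nat → Nat → Nat → Nat → Nat → Nat → Nat → Nat → Nat → Nat → Nat → Nat →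
    Nat → Nat → Nat → Nat → Nat → Nat → Nat → Nat → Nat → Nat → Nat → Nat → Nat → Nat → Nat → Nat →
    Nat → Nat → Nat → Nat → Nat → Nat → Nat → Nat → Nat → Nat → Nat → Nat → Nat → Nat → Nat → Nat →
    Nat → Nat → Nat → Nat → Nat → Nat → Nat → Nat → Nat → Nat → Nat → Nat → Nat → Nat → Nat → Nat →
    Nat → Nat → Nat → Nat → Nat → Nat → Nat → Nat → Nat → Nat → Nat → Nat → Nat → Nat → Nat → Nat →
    Nat → Nat → Nat → Nat → Nat → Nat → Nat → Nat → Nat → Nat → Nat → Nat → Nat → Nat → Nat → Nat →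
    Nat → Nat → Nat → Nat → Nat → Nat → Nat → Nat → Nat → Nat → Nat → Nat → Nat → Nat → Nat → Nat →
    Nat → Nat → Nat → Nat → Nat → Nat → Nat → Nat → Nat → Nat → Nat → Nat → Nat → Nat → Nat → Nat →
    Nat → Nat → Nat → Nat → Nat → Nat → Nat → Nat → Nat → Nat → Nat → Nat → Nat → Nat → Nat → Nat →
    Nat → Nat → Nat → Nat → Nat → Nat → Nat → Nat → Nat → Nat → Nat → Nat → Nat → Nat → Nat → Nat →
    Nat → Nat → Nat → Nat → Nat → Nat → Nat → Nat → Nat → Nat → Nat → Nat → Nat → Nat → Nat → Nat →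
    Nat → Nat → Nat → Nat → Nat → Nat → Nat → Nat → Nat → Nat → Nat → Nat → Nat → Nat → Nat → Nat →
    Nat → Nat → Nat → Nat → Nat → Nat → Nat → Nat → Nat → Nat → Nat → Nat → Nat → Nat → Nat → Nat →
    Nat → Nat → Nat → Nat → Nat → Nat → Nat → Nat → Nat → Nat → Nat → Nat → Nat → Nat → Nat → Nat →
    Nat → Nat → Nat → Nat → Nat → Nat → Nat → Nat → Nat → Nat → Nat → Nat → Nat → Nat → Nat → Nat →
    Nat → Nat → Nat → Nat → Nat → Nat → Nat → Nat → Nat → Nat → Nat → Nat → Nat → Nat → Nat → Nat →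
    Nat → Nat → Nat → Nat → Nat → Nat → Nat → Nat → Nat → Nat → Nat → Nat → Nat → Nat → Nat → Nat →
    Nat → Nat → Nat → Nat → Nat → Nat → Nat → Nat → Nat → Nat → Nat → Nat → Nat → Nat → Nat → Nat →
    Nat → Nat → Nat → Nat → Nat → Nat → Nat → Nat → Nat → Nat → Nat → Nat → Nat → Nat → Nat → Nat →
    Nat → Nat → Nat → Nat → Nat → Nat → Nat → Nat → Nat → Nat → Nat → Nat → Nat → Nat → Nat → Nat →
    Nat → Nat → Nat → Nat → Nat → Nat → Nat → Nat → Nat → Nat → Nat → Nat → Nat → Nat → Nat → Nat →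
    Nat → Nat → Nat → Nat → Nat → Nat → Nat → Nat → Nat → Nat → Nat → Nat → Nat → Nat → Nat → Nat →
    Nat → Nat → Nat → Nat → Nat → Nat → Nat → Nat → Nat → Nat → Nat → Nat → Nat → Nat → Nat → Nat →
    Nat → Nat → Nat → Nat → Nat → Nat → Nat → Nat → Nat → Nat → Nat → Nat → Nat → Nat → Nat → Nat →
    Nat → Nat → Nat → Nat → Nat → Nat → Nat → Nat → Nat → Nat → Nat → Nat → Nat → Nat → Nat → Nat →
    Nat → Nat → Nat → Nat → Nat → Nat → Nat → Nat → Nat → Nat → Nat → Nat → Nat → Nat → Nat → Nat →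
    Nat → Nat → Nat → Nat → Nat → Nat → Nat → Nat → Nat → Nat → Nat → Nat → Nat → Nat → Nat → Nat →
    Nat → Nat → Nat → Nat → Nat → Nat → Nat → Nat → Nat → Nat → Nat → Nat → Nat → Nat → Nat → Nat →
    Nat → Nat → Nat → Nat → Nat → Nat → Nat → Nat → Nat → Nat → Nat → Nat → Nat → Nat → Nat → Nat →
    Nat → Nat → Nat → Nat → Nat → Nat → Nat → Nat → Nat → Nat → Nat → Nat → Nat → Nat → Nat → Nat →
    Nat → Nat → Nat → Nat → Nat → Nat → Nat → Nat → Nat → Nat → Nat → Nat → Nat → Nat → Nat → Nat →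
    Nat → Nat → Nat → Nat → Nat → Nat → Nat → Nat → Nat → Nat → Nat → Nat → Nat → Nat → Nat → Nat →
    Nat → Nat → Nat → Nat → Nat → Nat → Nat → Nat → Nat → Nat → Nat → Nat → Nat → Nat → Nat → Nat →
    Nat → Nat → Nat → Nat → Nat → Nat → Nat → Nat → Nat → Nat → Nat → Nat → Nat → Nat → Nat → Nat →
    Nat → Nat → Nat → Nat → Nat → Nat → Nat → Nat → Nat → Nat → Nat → Nat → Nat → Nat → Nat → Nat →
    Nat → Nat → Nat → Nat → Nat → Nat → Nat → Nat → Nat → Nat → Nat → Nat → Nat → Nat → Nat → Nat →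
    Nat → Nat → Nat → Nat → Nat → Nat → Nat → Nat → Nat → Nat → Nat → Nat → Nat → Nat → Nat → Nat →
    Nat → Nat → Nat → Nat → Nat → Nat → Nat → Nat → Nat → Nat → Nat → Nat → Nat → Nat → Nat → Nat →
    Nat → Nat → Nat → Nat → Nat → Nat → Nat → Nat → Nat → Nat → Nat → Nat → Nat → Nat → Nat → Nat →
    Nat → Nat → Nat → Nat → Nat → Nat → Nat → Nat → Nat → Nat → Nat → Nat → Nat → Nat → Nat → Nat →
    Nat → Nat → Nat → Nat → Nat → Nat → Nat → Nat → Nat → Nat → Nat → Nat → Nat → Nat → Nat → Nat →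
    Nat → Nat → Nat → Nat → Nat → Nat → Nat → Nat → Nat → Nat → Nat → Nat → Nat → Nat → Nat → Nat →
    Nat → Nat → Nat → Nat → Nat → Nat → Nat → Nat → Nat → Nat → Nat → Nat → Nat → Nat → Nat → Nat →
    Nat → Nat → Nat → Nat → Nat → Nat → Nat → Nat → Nat → Nat → Nat → Nat → Nat → Nat → Nat → Nat →
    Nat → Nat → Nat → Nat → Nat → Nat → Nat → Nat → Nat → Nat → Nat → Nat → Nat → Nat → Nat → Nat →
    Nat → Nat → Nat → Nat → Nat → Nat → Nat → Nat → Nat → Nat → Nat → Nat → Nat → Nat → Nat → Nat →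
    Nat → Nat → Nat → Nat → Nat → Nat → Nat → Nat → Nat → Nat → Nat → Nat → Nat → Nat → Nat → Nat →
    Nat → Nat → Nat → Nat → Nat → Nat → Nat → Nat → Nat → Nat → Nat → Nat → Nat → Nat → Nat → Nat →
    Nat → Nat → Nat → Nat → Nat → Nat → Nat → Nat → Nat → Nat → Nat → Nat → Nat → Nat → Nat → Nat →
    Nat → Nat → Nat → Nat → Nat → Nat → Nat → Nat → Nat → Nat → Nat → Nat → Nat → Nat → Nat → Nat →
    Nat → Nat → Nat → Nat → Nat → Nat → Nat → Nat → Nat → Nat → Nat → Nat → Nat → Nat → Nat → Nat →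
    Nat → Nat → Nat → Nat → Nat → Nat → Nat → Nat → Nat → Nat → Nat → Nat → Nat → Nat → Nat → Nat →
    Nat → Nat → Nat → Nat → Nat → Nat → Nat → Nat → Nat → Nat → Nat → Nat → Nat → Nat → Nat → Nat →
    Nat → Nat → Nat → Nat → Nat → Nat → Nat → Nat → Nat → Nat → Nat → Nat → Nat → Nat → Nat → Nat →
    Nat → Nat → Nat → Nat → Nat → Nat → Nat → Nat → Nat → Nat → Nat → Nat → Nat → Nat → Nat → Nat →
    Nat → Nat → Nat → Nat → Nat → Nat → Nat → Nat → Nat → Nat → Nat → Nat → Nat → Nat → Nat → Nat →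
    Nat → Nat → Nat → Nat → Nat → Nat → Nat → Nat → Nat → Nat → Nat → Nat → Nat → Nat → Nat → Nat →
    Nat → Nat → Nat → Nat → Nat → Nat → Nat → Nat → Nat → Nat → Nat → Nat → Nat → Nat → Nat → Nat →
    Nat → Nat → Nat → Nat → Nat → Nat → Nat → Nat → Nat → Nat → Nat → Nat → Nat → Nat → Nat → Nat →
    Nat → Nat → Nat → Nat → Nat → Nat → Nat → Nat → Nat → Nat → Nat → Nat → Nat → Nat → Nat → Nat →
    Nat → Nat → Nat → Nat → Nat → Nat → Nat → Nat → Nat → Nat → Nat → Nat → Nat → Nat → Nat → Nat →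
    Nat → Nat → Nat → Nat → Nat → Nat → Nat → Nat → Nat → Nat → Nat → Nat → Nat → Nat → Nat → Nat →
    Nat → Nat → Nat → Nat → Nat → Nat → Nat → Nat → Nat → Nat → Nat → Nat → Nat → Nat → Nat → Nat →
    Nat → Nat → Nat → Nat → Nat → Nat → Nat → Nat → Nat → Nat → Nat → Nat → Nat → Nat → Nat → Nat →
    Nat → Nat → Nat → Nat → Nat → Nat → Nat → Nat → Nat → Nat → Nat → Nat → Nat → Nat → Nat → Nat →
    Nat → Nat → Nat → Nat → Nat → Nat → Nat → Nat → Nat → Nat → Nat → Nat → Nat → Nat → Nat → Nat →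
    Nat → Nat → Nat → Nat → Nat → Nat → Nat → Nat → Nat → Nat → Nat → Nat → Nat → Nat → Nat → Nat →
    Nat → Nat → Nat → Nat → Nat → Nat → Nat → Nat → Nat → Nat → Nat → Nat → Nat → Nat → Nat → Nat →
    Nat → Nat → Nat → Nat → Nat → Nat → Nat → Nat → Nat → Nat → Nat → Nat → Nat → Nat → Nat → Nat →
    Nat → Nat → Nat → Nat → Nat → Nat → Nat → Nat → Nat → Nat → Nat → Nat → Nat → Nat → Nat → Nat →
    Nat → Nat → Nat → Nat → Nat → Nat → Nat → Nat → Nat → Nat → Nat → Nat → Nat → Nat → Nat → Nat →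
    Nat → Nat → Nat → Nat → Nat → Nat → Nat → Nat → Nat → Nat → Nat → Nat → Nat → Nat → Nat → Nat →
    Nat → Nat → Nat → Nat → Nat → Nat → Nat → Nat → Nat → Nat → Nat → Nat → Nat → Nat → Nat → Nat →
    Nat → Nat → Nat → Nat → Nat → Nat → Nat → Nat → Nat → Nat → Nat → Nat → Nat → Nat → Nat → Nat →
    Nat → Nat → Nat → Nat → Nat → Nat → Nat → Nat → Nat → Nat → Nat → Nat → Nat → Nat → Nat → Nat →
    Nat → Nat → Nat → Nat → Nat → Nat → Nat → Nat → Nat → Nat → Nat → Nat → Nat → Nat → Nat → Nat →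
    Nat → Nat → Nat → Nat → Nat → Nat → Nat → Nat → Nat → Nat → Nat → Nat → Nat → Nat → Nat → Nat →
    Nat → Nat → Nat → Nat → Nat → Nat → Nat → Nat → Nat → Nat → Nat → Nat → Nat → Nat → Nat → Nat →
    Nat → Nat → Nat → Nat → Nat → Nat → Nat → Nat → Nat → Nat → Nat → Nat → Nat → Nat → Nat → Nat →
    Nat → Nat → Nat → Nat → Nat → Nat → Nat → Nat → Nat → Nat → Nat → Nat → Nat → Nat → Nat → Nat →
    Nat → Nat → Nat → Nat → Nat → Nat → Nat → Nat → Nat → Nat → Nat → Nat → Nat → Nat → Nat → Nat →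
    Nat → Nat → Nat → Nat → Nat → Nat → Nat → Nat → Nat → Nat → Nat → Nat → Nat → Nat → Nat → Nat →
    Nat → Nat → Nat → Nat → Nat → Nat → Nat → Nat → Nat → Nat → Nat → Nat → Nat → Nat → Nat → Nat →
    Nat → Nat → Nat → Nat → Nat → Nat → Nat → Nat → Nat → Nat → Nat → Nat → Nat → Nat → Nat → Nat →
    Nat → Nat → Nat → Nat → Nat → Nat → Nat → Nat → Nat → Nat → Nat → Nat → Nat → Nat → Nat → Nat →
    Nat → Nat → Nat → Nat → Nat → Nat → Nat → Nat → Nat → Nat → Nat → Nat → Nat → Nat → Nat → Nat →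
    Nat → Nat → Nat → Nat → Nat → Nat → Nat → Nat → Nat → Nat → Nat → Nat → Nat → Nat → Nat → Nat →
    Nat → Nat → Nat → Nat → Nat → Nat → Nat → Nat → Nat → Nat → Nat → Nat → Nat → Nat → Nat → Nat →
    Nat → Nat → Nat → Nat → Nat → Nat → Nat → Nat → Nat → Nat → Nat → Nat → Nat → Nat → Nat → Nat →
    Nat → Nat → Nat → Nat → Nat → Nat → Nat → Nat → Nat → Nat → Nat → Nat → Nat → Nat → Nat → Nat →
    Nat → Nat → Nat → Nat → Nat → Nat → Nat → Nat → Nat → Nat → Nat → Nat → Nat → Nat → Nat → Nat →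
    Nat → Nat → Nat → Nat → Nat → Nat → Nat → Nat → Nat → Nat → Nat → Nat → Nat → Nat → Nat → Nat →
    Nat → Nat → Nat → Nat → Nat → Nat → Nat → Nat → Nat → Nat → Nat → Nat → Nat → Nat → Nat → Nat →
    Nat → Nat → Nat → Nat → Nat → Nat → Nat → Nat → Nat → Nat → Nat → Nat → Nat → Nat → Nat → Nat →
    Nat → Nat → Nat → Nat → Nat → Nat → Nat → Nat → Nat → Nat → Nat → Nat → Nat → Nat → Nat → Nat →
    Nat → Nat → Nat → Nat → Nat → Nat → Nat → Nat → Nat → Nat → Nat → Nat → Nat → Nat → Nat → Nat →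
    Nat → Nat → Nat → Nat → Nat → Nat → Nat → Nat → Nat → Nat → Nat → Nat → Nat → Nat → Nat → Nat →
    Nat → Nat → Nat → Nat → Nat → Nat → Nat → Nat → Nat → Nat → Nat → Nat → Nat → Nat → Nat → Nat →
    Nat → Nat → Nat → Nat → Nat → Nat → Nat → Nat → Nat → Nat → Nat → Nat → Nat → Nat → Nat → Nat →
    Nat → Nat → Nat → Nat → Nat → Nat → Nat → Nat → Nat → Nat → Nat → Nat → Nat → Nat → Nat → Nat →
    Nat → Nat → Nat → Nat → Nat → Nat → Nat → Nat → Nat → Nat → Nat → Nat → Nat → Nat → Nat → Nat →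
    Nat → Nat → Nat → Nat → Nat → Nat → Nat → Nat → Nat → Nat → Nat → Nat → Nat → Nat → Nat → Nat →
    Nat → Nat → Nat → Nat → Nat → Nat → Nat → Nat → Nat → Nat → Nat → Nat → Nat → Nat → Nat → Nat →
    Nat → Nat → Nat → Nat → Nat → Nat → Nat → Nat → Nat → Nat → Nat → Nat → Nat → Nat → Nat → Nat →
    Nat → Nat → Nat → Nat → Nat → Nat → Nat → Nat → Nat → Nat → Nat → Nat → Nat → Nat → Nat → Nat →
    Nat → Nat → Nat → Nat → Nat → Nat → Nat → Nat → Nat → Nat → Nat → Nat → Nat → Nat → Nat → Nat →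
    Nat → Nat → Nat → Nat → Nat → Nat → Nat → Nat → Nat → Nat → Nat → Nat → Nat → Nat → Nat → Nat →
    Nat → Nat → Nat → Nat → Nat → Nat → Nat → Nat → Nat → Nat → Nat → Nat → Nat → Nat → Nat → Nat →
    Nat → Nat → Nat → Nat → Nat → Nat → Nat → Nat → Nat → Nat → Nat → Nat → Nat → Nat → Nat → Nat →
    Nat → Nat → Nat → Nat → Nat → Nat → Nat → Nat → Nat → Nat → Nat → Nat → Nat → Nat → Nat → Nat →
    Nat → Nat → Nat → Nat → Nat → Nat → Nat → Nat → Nat → Nat → Nat → Nat → Nat → Nat → Nat → Nat →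
    Nat → Nat → Nat → Nat → Nat → Nat → Nat → Nat → Nat → Nat → Nat → Nat → Nat → Nat → Nat → Nat →
    Nat → Nat → Nat → Nat → Nat → Nat → Nat → Nat → Nat → Nat → Nat → Nat → Nat → Nat → Nat → Nat →
    Nat → Nat → Nat → Nat → Nat → Nat → Nat → Nat → Nat → Nat → Nat → Nat → Nat → Nat → Nat → Nat →
    Nat → Nat → Nat → Nat → Nat → Nat → Nat → Nat → Nat → Nat → Nat → Nat → Nat → Nat → Nat → Nat →
    Nat → Nat → Nat → Nat → Nat → Nat → Nat → Nat → Nat → Nat → Nat → Nat → Nat → Nat → Nat → Nat →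
    Nat → Nat → Nat → Nat → Nat → Nat → Nat → Nat → Nat → Nat → Nat → Nat → Nat → Nat → Nat → Nat →
    Nat → Nat → Nat → Nat → Nat → Nat → Nat → Nat → Nat → Nat → Nat → Nat → Nat → Nat → Nat → Nat →
    Nat → Nat → Nat → Nat → Nat → Nat → Nat → Nat → Nat → Nat → Nat → Nat → Nat → Nat → Nat → Nat →
    Nat → Nat → Nat → Nat → Nat → Nat → Nat → Nat → Nat → Nat → Nat → Nat → Nat → Nat → Nat → Nat →
    Nat → Nat → Nat → Nat → Nat → Nat → Nat → Nat → Nat → Nat → Nat → Nat → Nat → Nat → Nat → Nat →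
    Nat → Nat → Nat → Nat → Nat → Nat → Nat → Nat → Nat → Nat → Nat → Nat → Nat → Nat → Nat → Nat →
    Nat → Nat → Nat → Nat → Nat → Nat → Nat → Nat → Nat → Nat → Nat → Nat → Nat → Nat → Nat → Nat →
    Nat → Nat → Nat → Nat → Nat → Nat → Nat → Nat → Nat → Nat → Nat → Nat → Nat → Nat → Nat → Nat →
    Nat → Nat → Nat → Nat → Nat → Nat → Nat → Nat → Nat → Nat → Nat → Nat → Nat → Nat → Nat → Nat →
    Nat → Nat → Nat → Nat → Nat → Nat → Nat → Nat → Nat → Nat → Nat → Nat → Nat → Nat → Nat → Nat →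
    Nat → Nat → Nat → Nat → Nat → Nat → Nat → Nat → Nat → Nat → Nat → Nat → Nat → Nat → Nat → Nat →
    Nat → Nat → Nat → Nat → Nat → Nat → Nat → Nat → Nat → Nat → Nat → Nat → Nat → Nat → Nat → Nat →
    Nat → Nat → Nat → Nat → Nat → Nat → Nat → Nat → Nat → Nat → Nat → Nat → Nat → Nat → Nat → Nat →
    Nat → Nat → Nat → Nat → Nat → Nat → Nat → Nat → Nat → Nat → Nat → Nat → Nat → Nat → Nat → Nat →
    Nat → Nat → Nat → Nat → Nat → Nat → Nat → Nat → Nat → Nat → Nat → Nat → Nat → Nat → Nat → Nat →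
    Nat → Nat → Nat → Nat → Nat → Nat → Nat → Nat → Nat → Nat → Nat → Nat → Nat → Nat → Nat → Nat →
    Nat → Nat → Nat → Nat → Nat → Nat → Nat → Nat → Nat → Nat → Nat → Nat → Nat → Nat → Nat → Nat →
    Nat → Nat → Nat → Nat → Nat → Nat → Nat → Nat → Nat → Nat → Nat → Nat → Nat → Nat → Nat → Nat →
    Nat → Nat → Nat → Nat → Nat → Nat → Nat → Nat → Nat → Nat → Nat → Nat → Nat → Nat → Nat → Nat →
    Nat → Nat → Nat → Nat → Nat → Nat → Nat → Nat → Nat → Nat → Nat → Nat → Nat → Nat → Nat → Nat →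
    Nat → Nat → Nat → Nat → Nat → Nat → Nat → Nat → Nat → Nat → Nat → Nat → Nat → Nat → Nat → Nat →
    Nat → Nat → Nat → Nat → Nat → Nat → Nat → Nat → Nat → Nat → Nat → Nat → Nat → Nat → Nat → Nat →
    Nat → Nat → Nat → Nat → Nat → Nat → Nat → Nat → Nat → Nat → Nat → Nat → Nat → Nat → Nat → Nat →
    Nat → Nat → Nat → Nat → Nat → Nat → Nat → Nat → Nat → Nat → Nat → Nat → Nat → Nat → Nat → Nat →
    Nat → Nat → Nat → Nat → Nat → Nat → Nat → Nat → Nat → Nat → Nat → Nat → Nat → Nat → Nat → Nat →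
    Nat → Nat → Nat → Nat → Nat → Nat → Nat → Nat → Nat → Nat → Nat → Nat → Nat → Nat → Nat → Nat →
    Nat → Nat → Nat → Nat → Nat → Nat → Nat → Nat → Nat → Nat → Nat → Nat → Nat → Nat → Nat → Nat →
    Nat → Nat → Nat → Nat → Nat → Nat → Nat → Nat → Nat → Nat → Nat → Nat → Nat → Nat → Nat → Nat →
    Nat → Nat → Nat → Nat → Nat → Nat → Nat → Nat → Nat → Nat → Nat → Nat → Nat → Nat → Nat → Nat →
    Nat → Nat → Nat → Nat → Nat → Nat → Nat → Nat → Nat → Nat → Nat → Nat → Nat → Nat → Nat → Nat →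
    Nat → Nat → Nat → Nat → Nat → Nat → Nat → Nat → Nat → Nat → Nat → Nat → Nat → Nat → Nat → Nat →
    Nat → Nat → Nat → Nat → Nat → Nat → Nat → Nat → Nat → Nat → Nat → Nat → Nat → Nat → Nat → Nat →
    Nat → Nat → Nat → Nat → Nat → Nat → Nat → Nat → Nat → Nat → Nat → Nat → Nat → Nat → Nat → Nat →
    Nat → Nat → Nat → Nat → Nat → Nat → Nat → Nat → Nat → Nat → Nat → Nat → Nat → Nat → Nat → Nat →
    Nat → Nat → Nat → Nat → Nat → Nat → Nat → Nat → Nat → Nat → Nat → Nat → Nat → Nat → Nat → Nat →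
    Nat → Nat → Nat → Nat → Nat → Nat → Nat → Nat → Nat → Nat → Nat → Nat → Nat → Nat → Nat → Nat →
    Nat → Nat → Nat → Nat → Nat → Nat → Nat → Nat → Nat → Nat → Nat → Nat → Nat → Nat → Nat → Nat →
    Nat → Nat → Nat → Nat → Nat → Nat → Nat → Nat → Nat → Nat → Nat → Nat → Nat → Nat → Nat → Nat →
    Nat → Nat → Nat → Nat → Nat → Nat → Nat → Nat → Nat → Nat → Nat → Nat → Nat → Nat → Nat → Nat →
    Nat → Nat → Nat → Nat → Nat → Nat → Nat → Nat → Nat → Nat → Nat → Nat → Nat → Nat → Nat → Nat →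
    Nat → Nat → Nat → Nat → Nat → Nat → Nat → Nat → Nat → Nat → Nat → Nat → Nat → Nat → Nat → Nat →
    Nat → Nat → Nat → Nat → Nat → Nat → Nat → Nat → Nat → Nat → Nat → Nat → Nat → Nat → Nat → Nat →
    Nat → Nat → Nat → Nat → Nat → Nat → Nat → Nat → Nat → Nat → Nat → Nat → Nat → Nat → Nat → Nat →
    Nat → Nat → Nat → Nat → Nat → Nat → Nat → Nat → Nat → Nat → Nat → Nat → Nat → Nat → Nat → Nat →
    Nat → Nat → Nat → Nat → Nat → Nat → Nat → Nat → Nat → Nat → Nat → Nat → Nat → Nat → Nat → Nat →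
    Nat → Nat → Nat → Nat → Nat → Nat → Nat → Nat → Nat → Nat → Nat → Nat → Nat → Nat → Nat → Nat →
    Nat → Nat → Nat → Nat → Nat → Nat → Nat → Nat → Nat → Nat → Nat → Nat → Nat → Nat → Nat → Nat →
    Nat → Nat → Nat → Nat → Nat → Nat → Nat → Nat → Nat → Nat → Nat → Nat → Nat → Nat → Nat → Nat →
    Nat → Nat → Nat → Nat → Nat → Nat → Nat → Nat → Nat → Nat → Nat → Nat → Nat → Nat → Nat → Nat →
    Nat → Nat → Nat → Nat → Nat → Nat → Nat → Nat → Nat → Nat → Nat → Nat → Nat → Nat → Nat → Nat →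
    Nat → Nat → Nat → Nat → Nat → Nat → Nat → Nat → Nat → Nat → Nat → Nat → Nat → Nat → Nat → Nat →
    Nat → Nat → Nat → Nat → Nat → Nat → Nat → Nat → Nat → Nat → Nat → Nat → Nat → Nat → Nat → Nat →
    Nat → Nat → Nat → Nat → Nat → Nat → Nat → Nat → Nat → Nat → Nat → Nat → Nat → Nat → Nat → Nat →
    Nat → Nat → Nat → Nat → Nat → Nat → Nat → Nat → Nat → Nat → Nat → Nat → Nat → Nat → Nat → Nat →
    Nat → Nat → Nat → Nat → Nat → Nat → Nat → Nat → Nat → Nat → Nat → Nat → Nat → Nat → Nat → Nat →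
    Nat → Nat → Nat → Nat → Nat → Nat → Nat → Nat → Nat → Nat → Nat → Nat → Nat → Nat → Nat → Nat →
    Nat → Nat → Nat → Nat → Nat → Nat → Nat → Nat → Nat → Nat → Nat → Nat → Nat → Nat → Nat → Nat →
    Nat → Nat → Nat → Nat → Nat → Nat → Nat → Nat → Nat → Nat → Nat → Nat → Nat → Nat → Nat → Nat →
    Nat → Nat → Nat → Nat → Nat → Nat → Nat → Nat → Nat → Nat → Nat → Nat → Nat → Nat → Nat → Nat →
    Nat → Nat → Nat → Nat → Nat → Nat → Nat → Nat → Nat → Nat → Nat → Nat → Nat → Nat → Nat → Nat →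
    Nat → Nat → Nat → Nat → Nat → Nat → Nat → Nat → Nat → Nat → Nat → Nat → Nat → Nat → Nat → Nat →
    Nat → Nat → Nat → Nat → Nat → Nat → Nat → Nat → Nat → Nat → Nat → Nat → Nat → Nat → Nat → Nat →
    Nat → Nat → Nat → Nat → Nat → Nat → Nat → Nat → Nat → Nat → Nat → Nat → Nat → Nat → Nat → Nat →
    Nat → Nat → Nat → Nat → Nat → Nat → Nat → Nat → Nat → Nat → Nat → Nat → Nat → Nat → Nat → Nat →
    Nat → Nat → Nat → Nat → Nat → Nat → Nat → Nat → Nat → Nat → Nat → Nat → Nat → Nat → Nat → Nat →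
    Nat → Nat → Nat → Nat → Nat → Nat → Nat → Nat → Nat → Nat → Nat → Nat → Nat → Nat → Nat → Nat →
    Nat → Nat → Nat → Nat → Nat → Nat → Nat → Nat → Nat → Nat → Nat → Nat → Nat → Nat → Nat → Nat →
    Nat → Nat → Nat → Nat → Nat → Nat → Nat → Nat → Nat → Nat → Nat → Nat → Nat → Nat → Nat → Nat →
    Nat → Nat → Nat → Nat → Nat → Nat → Nat → Nat → Nat → Nat → Nat → Nat → Nat → Nat → Nat → Nat →
    Nat → Nat → Nat → Nat → Nat → Nat → Nat → Nat → Nat → Nat → Nat → Nat → Nat → Nat → Nat → Nat →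
    Nat → Nat → Nat → Nat → Nat → Nat → Nat → Nat → Nat → Nat → Nat → Nat → Nat → Nat → Nat → Nat →
    Nat → Nat → Nat → Nat → Nat → Nat → Nat → Nat → Nat → Nat → Nat → Nat → Nat → Nat → Nat → Nat →
    Nat → Nat → Nat → Nat → Nat → Nat → Nat → Nat → Nat → Nat → Nat → Nat → Nat → Nat → Nat → Nat →
    Nat → Nat → Nat → Nat → Nat → Nat → Nat → Nat → Nat → Nat → Nat → Nat → Nat → Nat → Nat → Nat →
    Nat → Nat → Nat → Nat → Nat → Nat → Nat → Nat → Nat → Nat → Nat → Nat → Nat → Nat → Nat → Nat →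
    Nat → Nat → Nat → Nat → Nat → Nat → Nat → Nat → Nat → Nat → Nat → Nat → Nat → Nat → Nat → Nat →
    Nat → Nat → Nat → Nat → Nat → Nat → Nat → Nat → Nat → Nat → Nat → Nat → Nat → Nat → Nat → Nat →
    Nat → Nat → Nat → Nat → Nat → Nat → Nat → Nat → Nat → Nat → Nat → Nat → Nat → Nat → Nat → Nat →
    Nat → Nat → Nat → Nat → Nat → Nat → Nat → Nat → Nat → Nat → Nat → Nat → Nat → Nat → Nat → Nat →
    Nat → Nat → Nat → Nat → Nat → Nat → Nat → Nat → Nat → Nat → Nat → Nat → Nat → Nat → Nat → Nat →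
    Nat → Nat → Nat → Nat → Nat → Nat → Nat → Nat → Nat → Nat → Nat → Nat → Nat → Nat → Nat → Nat →
    Nat → Nat → Nat → Nat → Nat → Nat → Nat → Nat → Nat → Nat → Nat → Nat → Nat → Nat → Nat → Nat →
    Nat → Nat → Nat → Nat → Nat → Nat → Nat → Nat → Nat → Nat → Nat → Nat → Nat → Nat → Nat → Nat →
    Nat → Nat → Nat → Nat → Nat → Nat → Nat → Nat → Nat → Nat → Nat → Nat → Nat → Nat → Nat → Nat →
    Nat → Nat → Nat → Nat → Nat → Nat → Nat → Nat → Nat → Nat → Nat → Nat → Nat → Nat → Nat → Nat →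
    Nat → Nat → Nat → Nat → Nat → Nat → Nat → Nat → Nat → Nat → Nat → Nat → Nat → Nat → Nat → Nat →
    Nat → Nat → Nat → Nat → Nat → Nat → Nat → Nat → Nat → Nat → Nat → Nat → Nat → Nat → Nat → Nat →
    Nat → Nat → Nat → Nat → Nat → Nat → Nat → Nat → Nat → Nat → Nat → Nat → Nat → Nat → Nat → Nat →
    Nat → Nat → Nat → Nat → Nat → Nat → Nat → Nat → Nat → Nat → Nat → Nat → Nat → Nat → Nat → Nat →
    Nat → Nat → Nat → Nat → Nat → Nat → Nat → Nat → Nat → Nat → Nat → Nat → Nat → Nat → Nat → Nat →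
    Nat → Nat → Nat → Nat → Nat → Nat → Nat → Nat → Nat → Nat → Nat → Nat → Nat → Nat → Nat → Nat →
    Nat → Nat → Nat → Nat → Nat → Nat → Nat → Nat → Nat → Nat → Nat → Nat → Nat → Nat → Nat → Nat →
    Nat → Nat → Nat → Nat → Nat → Nat → Nat → Nat → Nat → Nat → Nat → Nat → Nat → Nat → Nat → Nat →
    Nat → Nat → Nat → Nat → Nat → Nat → Nat → Nat → Nat → Nat → Nat → Nat → Nat → Nat → Nat → Nat →
    Nat → Nat → Nat → Nat → Nat → Nat → Nat → Nat → Nat → Nat → Nat → Nat → Nat → Nat → Nat → Nat →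
    Nat → Nat → Nat → Nat → Nat → Nat → Nat → Nat → Nat → Nat → Nat → Nat → Nat → Nat → Nat → Nat →
    Nat → Nat → Nat → Nat → Nat → Nat → Nat → Nat → Nat → Nat → Nat → Nat → Nat → Nat → Nat → Nat →
    Nat → Nat → Nat → Nat → Nat → Nat → Nat → Nat → Nat → Nat → Nat → Nat → Nat → Nat → Nat → Nat →
    Nat → Nat → Nat → Nat → Nat → Nat → Nat → Nat → Nat → Nat → Nat → Nat → Nat → Nat → Nat → Nat →
    Nat → Nat → Nat → Nat → Nat → Nat → Nat → Nat → Nat → Nat → Nat → Nat → Nat → Nat → Nat → Nat →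
    Nat → Nat → Nat → Nat → Nat → Nat → Nat → Nat → Nat → Nat → Nat → Nat → Nat → Nat → Nat → Nat →
    Nat → Nat → Nat → Nat → Nat → Nat → Nat → Nat → Nat → Nat → Nat → Nat → Nat → Nat → Nat → Nat →
    Nat → Nat → Nat → Nat → Nat → Nat → Nat → Nat → Nat → Nat → Nat → Nat → Nat → Nat → Nat → Nat →
    Nat → Nat → Nat → Nat → Nat → Nat → Nat → Nat → Nat → Nat → Nat → Nat → Nat → Nat → Nat → Nat →
    Nat → Nat → Nat → Nat → Nat → Nat → Nat → Nat → Nat → Nat → Nat → Nat → Nat → Nat → Nat → Nat →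
    Nat → Nat → Nat → Nat → Nat → Nat → Nat → Nat → Nat → Nat → Nat → Nat → Nat → Nat → Nat → Nat →
    Nat → Nat → Nat → Nat → Nat → Nat → Nat → Nat → Nat → Nat → Nat → Nat → Nat → Nat → Nat → Nat →
    Nat → Nat → Nat → Nat → Nat → Nat → Nat → Nat → Nat → Nat → Nat → Nat → Nat → Nat → Nat → Nat →
    Nat → Nat → Nat → Nat → Nat → Nat → Nat → Nat → Nat → Nat → Nat → Nat → Nat → Nat → Nat → Nat →
    Nat → Nat → Nat → Nat → Nat → Nat → Nat → Nat → Nat → Nat → Nat → Nat → Nat → Nat → Nat → Nat →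
    Nat → Nat → Nat → Nat → Nat → Nat → Nat → Nat → Nat → Nat → Nat → Nat → Nat → Nat → Nat → Nat →
    Nat → Nat → Nat → Nat → Nat → Nat → Nat → Nat → Nat → Nat → Nat → Nat → Nat → Nat → Nat → Nat →
    Nat → Nat → Nat → Nat → Nat → Nat → Nat → Nat → Nat → Nat → Nat → Nat → Nat → Nat → Nat → Nat →
    Nat → Nat → Nat → Nat → Nat → Nat → Nat → Nat → Nat → Nat → Nat → Nat → Nat → Nat → Nat → Nat →
    Nat → Nat → Nat → Nat → Nat → Nat → Nat → Nat → Nat → Nat → Nat → Nat → Nat → Nat → Nat → Nat →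
    Nat → Nat → Nat → Nat → Nat → Nat → Nat → Nat → Nat → Nat → Nat → Nat → Nat → Nat → Nat → Nat →
    Nat → Nat → Nat → Nat → Nat → Nat → Nat → Nat → Nat → Nat → Nat → Nat → Nat → Nat → Nat → Nat →
    Nat → Nat → Nat → Nat → Nat → Nat → Nat → Nat → Nat → Nat → Nat → Nat → Nat → Nat → Nat → Nat →
    Nat → Nat → Nat → Nat → Nat → Nat → Nat → Nat → Nat → Nat → Nat → Nat → Nat → Nat → Nat → Nat →
    Nat → Nat → Nat → Nat → Nat → Nat → Nat → Nat → Nat → Nat → Nat → Nat → Nat → Nat → Nat → Nat →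
    Nat → Nat → Nat → Nat → Nat → Nat → Nat → Nat → Nat → Nat → Nat → Nat → Nat → Nat → Nat → Nat →
    Nat → Nat → Nat → Nat → Nat → Nat → Nat → Nat → Nat → Nat → Nat → Nat → Nat → Nat → Nat → Nat →
    Nat → Nat → Nat → Nat → Nat → Nat → Nat → Nat → Nat → Nat → Nat → Nat → Nat → Nat → Nat → Nat →
    Nat → Nat → Nat → Nat → Nat → Nat → Nat → Nat → Nat → Nat → Nat → Nat → Nat → Nat → Nat → Nat →
    Nat → Nat → Nat → Nat → Nat → Nat → Nat → Nat → Nat → Nat → Nat → Nat → Nat → Nat → Nat → Nat →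
    Nat → Nat → Nat → Nat → Nat → Nat → Nat → Nat → Nat → Bool) : Bool :=
  k
    (x (nat_lit 242)) (x (nat_lit 404)) (x (nat_lit 458)) (x (nat_lit 476)) (x (nat_lit 482))
    (x (nat_lit 484)) (x (nat_lit 566)) (x (nat_lit 620)) (x (nat_lit 638)) (x (nat_lit 644))
    (x (nat_lit 646)) (x (nat_lit 674)) (x (nat_lit 692)) (x (nat_lit 698)) (x (nat_lit 700))
    (x (nat_lit 710)) (x (nat_lit 716)) (x (nat_lit 718)) (x (nat_lit 722)) (x (nat_lit 724))
    (x (nat_lit 726)) (x (nat_lit 890)) (x (nat_lit 944)) (x (nat_lit 962)) (x (nat_lit 968))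
    (x (nat_lit 970)) (x (nat_lit 1052)) (x (nat_lit 1106)) (x (nat_lit 1124)) (x (nat_lit 1130))
    (x (nat_lit 1132)) (x (nat_lit 1160)) (x (nat_lit 1178)) (x (nat_lit 1184)) (x (nat_lit 1186))
    (x (nat_lit 1196)) (x (nat_lit 1202)) (x (nat_lit 1204)) (x (nat_lit 1208)) (x (nat_lit 1210))
    (x (nat_lit 1212)) (x (nat_lit 1268)) (x (nat_lit 1286)) (x (nat_lit 1292)) (x (nat_lit 1294))
    (x (nat_lit 1322)) (x (nat_lit 1340)) (x (nat_lit 1346)) (x (nat_lit 1348)) (x (nat_lit 1358))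
    (x (nat_lit 1364)) (x (nat_lit 1366)) (x (nat_lit 1370)) (x (nat_lit 1372)) (x (nat_lit 1374))
    (x (nat_lit 1394)) (x (nat_lit 1400)) (x (nat_lit 1402)) (x (nat_lit 1412)) (x (nat_lit 1418))
    (x (nat_lit 1420)) (x (nat_lit 1424)) (x (nat_lit 1426)) (x (nat_lit 1428)) (x (nat_lit 1436))
    (x (nat_lit 1438)) (x (nat_lit 1442)) (x (nat_lit 1444)) (x (nat_lit 1446)) (x (nat_lit 1450))
    (x (nat_lit 1452)) (x (nat_lit 1538)) (x (nat_lit 1592)) (x (nat_lit 1610)) (x (nat_lit 1616))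
    (x (nat_lit 1618)) (x (nat_lit 1646)) (x (nat_lit 1664)) (x (nat_lit 1670)) (x (nat_lit 1672))
    (x (nat_lit 1682)) (x (nat_lit 1688)) (x (nat_lit 1690)) (x (nat_lit 1694)) (x (nat_lit 1696))
    (x (nat_lit 1698)) (x (nat_lit 1754)) (x (nat_lit 1772)) (x (nat_lit 1778)) (x (nat_lit 1780))
    (x (nat_lit 1808)) (x (nat_lit 1826)) (x (nat_lit 1832)) (x (nat_lit 1834)) (x (nat_lit 1844))
    (x (nat_lit 1850)) (x (nat_lit 1852)) (x (nat_lit 1856)) (x (nat_lit 1858)) (x (nat_lit 1860))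
    (x (nat_lit 1880)) (x (nat_lit 1886)) (x (nat_lit 1888)) (x (nat_lit 1898)) (x (nat_lit 1904))
    (x (nat_lit 1906)) (x (nat_lit 1910)) (x (nat_lit 1912)) (x (nat_lit 1914)) (x (nat_lit 1922))
    (x (nat_lit 1924)) (x (nat_lit 1928)) (x (nat_lit 1930)) (x (nat_lit 1932)) (x (nat_lit 1936))
    (x (nat_lit 1938)) (x (nat_lit 1970)) (x (nat_lit 1988)) (x (nat_lit 1994)) (x (nat_lit 1996))
    (x (nat_lit 2006)) (x (nat_lit 2012)) (x (nat_lit 2014)) (x (nat_lit 2018)) (x (nat_lit 2020))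
    (x (nat_lit 2022)) (x (nat_lit 2042)) (x (nat_lit 2048)) (x (nat_lit 2050)) (x (nat_lit 2060))
    (x (nat_lit 2066)) (x (nat_lit 2068)) (x (nat_lit 2072)) (x (nat_lit 2074)) (x (nat_lit 2076))
    (x (nat_lit 2084)) (x (nat_lit 2086)) (x (nat_lit 2090)) (x (nat_lit 2092)) (x (nat_lit 2094))
    (x (nat_lit 2098)) (x (nat_lit 2100)) (x (nat_lit 2114)) (x (nat_lit 2120)) (x (nat_lit 2122))
    (x (nat_lit 2126)) (x (nat_lit 2128)) (x (nat_lit 2130)) (x (nat_lit 2138)) (x (nat_lit 2140))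
    (x (nat_lit 2144)) (x (nat_lit 2146)) (x (nat_lit 2148)) (x (nat_lit 2152)) (x (nat_lit 2154))
    (x (nat_lit 2162)) (x (nat_lit 2164)) (x (nat_lit 2166)) (x (nat_lit 2170)) (x (nat_lit 2172))
    (x (nat_lit 2178)) (x (nat_lit 2348)) (x (nat_lit 2402)) (x (nat_lit 2420)) (x (nat_lit 2426))
    (x (nat_lit 2428)) (x (nat_lit 2510)) (x (nat_lit 2564)) (x (nat_lit 2582)) (x (nat_lit 2588))
    (x (nat_lit 2590)) (x (nat_lit 2618)) (x (nat_lit 2636)) (x (nat_lit 2642)) (x (nat_lit 2644))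
    (x (nat_lit 2654)) (x (nat_lit 2660)) (x (nat_lit 2662)) (x (nat_lit 2666)) (x (nat_lit 2668))
    (x (nat_lit 2670)) (x (nat_lit 2726)) (x (nat_lit 2744)) (x (nat_lit 2750)) (x (nat_lit 2752))
    (x (nat_lit 2780)) (x (nat_lit 2798)) (x (nat_lit 2804)) (x (nat_lit 2806)) (x (nat_lit 2816))
    (x (nat_lit 2822)) (x (nat_lit 2824)) (x (nat_lit 2828)) (x (nat_lit 2830)) (x (nat_lit 2832))
    (x (nat_lit 2852)) (x (nat_lit 2858)) (x (nat_lit 2860)) (x (nat_lit 2870)) (x (nat_lit 2876))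
    (x (nat_lit 2878)) (x (nat_lit 2882)) (x (nat_lit 2884)) (x (nat_lit 2886)) (x (nat_lit 2894))
    (x (nat_lit 2896)) (x (nat_lit 2900)) (x (nat_lit 2902)) (x (nat_lit 2904)) (x (nat_lit 2908))
    (x (nat_lit 2910)) (x (nat_lit 2996)) (x (nat_lit 3050)) (x (nat_lit 3068)) (x (nat_lit 3074))
    (x (nat_lit 3076)) (x (nat_lit 3104)) (x (nat_lit 3122)) (x (nat_lit 3128)) (x (nat_lit 3130))
    (x (nat_lit 3140)) (x (nat_lit 3146)) (x (nat_lit 3148)) (x (nat_lit 3152)) (x (nat_lit 3154))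
    (x (nat_lit 3156)) (x (nat_lit 3212)) (x (nat_lit 3230)) (x (nat_lit 3236)) (x (nat_lit 3238))
    (x (nat_lit 3266)) (x (nat_lit 3284)) (x (nat_lit 3290)) (x (nat_lit 3292)) (x (nat_lit 3302))
    (x (nat_lit 3308)) (x (nat_lit 3310)) (x (nat_lit 3314)) (x (nat_lit 3316)) (x (nat_lit 3318))
    (x (nat_lit 3338)) (x (nat_lit 3344)) (x (nat_lit 3346)) (x (nat_lit 3356)) (x (nat_lit 3362))
    (x (nat_lit 3364)) (x (nat_lit 3368)) (x (nat_lit 3370)) (x (nat_lit 3372)) (x (nat_lit 3380))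
    (x (nat_lit 3382)) (x (nat_lit 3386)) (x (nat_lit 3388)) (x (nat_lit 3390)) (x (nat_lit 3394))
    (x (nat_lit 3396)) (x (nat_lit 3428)) (x (nat_lit 3446)) (x (nat_lit 3452)) (x (nat_lit 3454))
    (x (nat_lit 3464)) (x (nat_lit 3470)) (x (nat_lit 3472)) (x (nat_lit 3476)) (x (nat_lit 3478))
    (x (nat_lit 3480)) (x (nat_lit 3500)) (x (nat_lit 3506)) (x (nat_lit 3508)) (x (nat_lit 3518))
    (x (nat_lit 3524)) (x (nat_lit 3526)) (x (nat_lit 3530)) (x (nat_lit 3532)) (x (nat_lit 3534))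
    (x (nat_lit 3542)) (x (nat_lit 3544)) (x (nat_lit 3548)) (x (nat_lit 3550)) (x (nat_lit 3552))
    (x (nat_lit 3556)) (x (nat_lit 3558)) (x (nat_lit 3572)) (x (nat_lit 3578)) (x (nat_lit 3580))
    (x (nat_lit 3584)) (x (nat_lit 3586)) (x (nat_lit 3588)) (x (nat_lit 3596)) (x (nat_lit 3598))
    (x (nat_lit 3602)) (x (nat_lit 3604)) (x (nat_lit 3606)) (x (nat_lit 3610)) (x (nat_lit 3612))
    (x (nat_lit 3620)) (x (nat_lit 3622)) (x (nat_lit 3624)) (x (nat_lit 3628)) (x (nat_lit 3630))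
    (x (nat_lit 3636)) (x (nat_lit 3698)) (x (nat_lit 3716)) (x (nat_lit 3722)) (x (nat_lit 3724))
    (x (nat_lit 3752)) (x (nat_lit 3770)) (x (nat_lit 3776)) (x (nat_lit 3778)) (x (nat_lit 3788))
    (x (nat_lit 3794)) (x (nat_lit 3796)) (x (nat_lit 3800)) (x (nat_lit 3802)) (x (nat_lit 3804))
    (x (nat_lit 3824)) (x (nat_lit 3830)) (x (nat_lit 3832)) (x (nat_lit 3842)) (x (nat_lit 3848))
    (x (nat_lit 3850)) (x (nat_lit 3854)) (x (nat_lit 3856)) (x (nat_lit 3858)) (x (nat_lit 3866))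
    (x (nat_lit 3868)) (x (nat_lit 3872)) (x (nat_lit 3874)) (x (nat_lit 3876)) (x (nat_lit 3880))
    (x (nat_lit 3882)) (x (nat_lit 3914)) (x (nat_lit 3932)) (x (nat_lit 3938)) (x (nat_lit 3940))
    (x (nat_lit 3950)) (x (nat_lit 3956)) (x (nat_lit 3958)) (x (nat_lit 3962)) (x (nat_lit 3964))
    (x (nat_lit 3966)) (x (nat_lit 3986)) (x (nat_lit 3992)) (x (nat_lit 3994)) (x (nat_lit 4004))
    (x (nat_lit 4010)) (x (nat_lit 4012)) (x (nat_lit 4016)) (x (nat_lit 4018)) (x (nat_lit 4020))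
    (x (nat_lit 4028)) (x (nat_lit 4030)) (x (nat_lit 4034)) (x (nat_lit 4036)) (x (nat_lit 4038))
    (x (nat_lit 4042)) (x (nat_lit 4044)) (x (nat_lit 4058)) (x (nat_lit 4064)) (x (nat_lit 4066))
    (x (nat_lit 4070)) (x (nat_lit 4072)) (x (nat_lit 4074)) (x (nat_lit 4082)) (x (nat_lit 4084))
    (x (nat_lit 4088)) (x (nat_lit 4090)) (x (nat_lit 4092)) (x (nat_lit 4096)) (x (nat_lit 4098))
    (x (nat_lit 4106)) (x (nat_lit 4108)) (x (nat_lit 4110)) (x (nat_lit 4114)) (x (nat_lit 4116))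
    (x (nat_lit 4122)) (x (nat_lit 4148)) (x (nat_lit 4154)) (x (nat_lit 4156)) (x (nat_lit 4166))
    (x (nat_lit 4172)) (x (nat_lit 4174)) (x (nat_lit 4178)) (x (nat_lit 4180)) (x (nat_lit 4182))
    (x (nat_lit 4190)) (x (nat_lit 4192)) (x (nat_lit 4196)) (x (nat_lit 4198)) (x (nat_lit 4200))
    (x (nat_lit 4204)) (x (nat_lit 4206)) (x (nat_lit 4220)) (x (nat_lit 4226)) (x (nat_lit 4228))
    (x (nat_lit 4232)) (x (nat_lit 4234)) (x (nat_lit 4236)) (x (nat_lit 4244)) (x (nat_lit 4246))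
    (x (nat_lit 4250)) (x (nat_lit 4252)) (x (nat_lit 4254)) (x (nat_lit 4258)) (x (nat_lit 4260))
    (x (nat_lit 4268)) (x (nat_lit 4270)) (x (nat_lit 4272)) (x (nat_lit 4276)) (x (nat_lit 4278))
    (x (nat_lit 4284)) (x (nat_lit 4298)) (x (nat_lit 4300)) (x (nat_lit 4304)) (x (nat_lit 4306))
    (x (nat_lit 4308)) (x (nat_lit 4312)) (x (nat_lit 4314)) (x (nat_lit 4322)) (x (nat_lit 4324))
    (x (nat_lit 4326)) (x (nat_lit 4330)) (x (nat_lit 4332)) (x (nat_lit 4338)) (x (nat_lit 4348))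
    (x (nat_lit 4350)) (x (nat_lit 4356)) (x (nat_lit 4454)) (x (nat_lit 4508)) (x (nat_lit 4526))
    (x (nat_lit 4532)) (x (nat_lit 4534)) (x (nat_lit 4562)) (x (nat_lit 4580)) (x (nat_lit 4586))
    (x (nat_lit 4588)) (x (nat_lit 4598)) (x (nat_lit 4604)) (x (nat_lit 4606)) (x (nat_lit 4610))
    (x (nat_lit 4612)) (x (nat_lit 4614)) (x (nat_lit 4670)) (x (nat_lit 4688)) (x (nat_lit 4694))
    (x (nat_lit 4696)) (x (nat_lit 4724)) (x (nat_lit 4742)) (x (nat_lit 4748)) (x (nat_lit 4750))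
    (x (nat_lit 4760)) (x (nat_lit 4766)) (x (nat_lit 4768)) (x (nat_lit 4772)) (x (nat_lit 4774))
    (x (nat_lit 4776)) (x (nat_lit 4796)) (x (nat_lit 4802)) (x (nat_lit 4804)) (x (nat_lit 4814))
    (x (nat_lit 4820)) (x (nat_lit 4822)) (x (nat_lit 4826)) (x (nat_lit 4828)) (x (nat_lit 4830))
    (x (nat_lit 4838)) (x (nat_lit 4840)) (x (nat_lit 4844)) (x (nat_lit 4846)) (x (nat_lit 4848))
    (x (nat_lit 4852)) (x (nat_lit 4854)) (x (nat_lit 4886)) (x (nat_lit 4904)) (x (nat_lit 4910))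
    (x (nat_lit 4912)) (x (nat_lit 4922)) (x (nat_lit 4928)) (x (nat_lit 4930)) (x (nat_lit 4934))
    (x (nat_lit 4936)) (x (nat_lit 4938)) (x (nat_lit 4958)) (x (nat_lit 4964)) (x (nat_lit 4966))
    (x (nat_lit 4976)) (x (nat_lit 4982)) (x (nat_lit 4984)) (x (nat_lit 4988)) (x (nat_lit 4990))
    (x (nat_lit 4992)) (x (nat_lit 5000)) (x (nat_lit 5002)) (x (nat_lit 5006)) (x (nat_lit 5008))
    (x (nat_lit 5010)) (x (nat_lit 5014)) (x (nat_lit 5016)) (x (nat_lit 5030)) (x (nat_lit 5036))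
    (x (nat_lit 5038)) (x (nat_lit 5042)) (x (nat_lit 5044)) (x (nat_lit 5046)) (x (nat_lit 5054))
    (x (nat_lit 5056)) (x (nat_lit 5060)) (x (nat_lit 5062)) (x (nat_lit 5064)) (x (nat_lit 5068))
    (x (nat_lit 5070)) (x (nat_lit 5078)) (x (nat_lit 5080)) (x (nat_lit 5082)) (x (nat_lit 5086))
    (x (nat_lit 5088)) (x (nat_lit 5094)) (x (nat_lit 5156)) (x (nat_lit 5174)) (x (nat_lit 5180))
    (x (nat_lit 5182)) (x (nat_lit 5210)) (x (nat_lit 5228)) (x (nat_lit 5234)) (x (nat_lit 5236))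
    (x (nat_lit 5246)) (x (nat_lit 5252)) (x (nat_lit 5254)) (x (nat_lit 5258)) (x (nat_lit 5260))
    (x (nat_lit 5262)) (x (nat_lit 5282)) (x (nat_lit 5288)) (x (nat_lit 5290)) (x (nat_lit 5300))
    (x (nat_lit 5306)) (x (nat_lit 5308)) (x (nat_lit 5312)) (x (nat_lit 5314)) (x (nat_lit 5316))
    (x (nat_lit 5324)) (x (nat_lit 5326)) (x (nat_lit 5330)) (x (nat_lit 5332)) (x (nat_lit 5334))
    (x (nat_lit 5338)) (x (nat_lit 5340)) (x (nat_lit 5372)) (x (nat_lit 5390)) (x (nat_lit 5396))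
    (x (nat_lit 5398)) (x (nat_lit 5408)) (x (nat_lit 5414)) (x (nat_lit 5416)) (x (nat_lit 5420))
    (x (nat_lit 5422)) (x (nat_lit 5424)) (x (nat_lit 5444)) (x (nat_lit 5450)) (x (nat_lit 5452))
    (x (nat_lit 5462)) (x (nat_lit 5468)) (x (nat_lit 5470)) (x (nat_lit 5474)) (x (nat_lit 5476))
    (x (nat_lit 5478)) (x (nat_lit 5486)) (x (nat_lit 5488)) (x (nat_lit 5492)) (x (nat_lit 5494))
    (x (nat_lit 5496)) (x (nat_lit 5500)) (x (nat_lit 5502)) (x (nat_lit 5516)) (x (nat_lit 5522))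
    (x (nat_lit 5524)) (x (nat_lit 5528)) (x (nat_lit 5530)) (x (nat_lit 5532)) (x (nat_lit 5540))
    (x (nat_lit 5542)) (x (nat_lit 5546)) (x (nat_lit 5548)) (x (nat_lit 5550)) (x (nat_lit 5554))
    (x (nat_lit 5556)) (x (nat_lit 5564)) (x (nat_lit 5566)) (x (nat_lit 5568)) (x (nat_lit 5572))
    (x (nat_lit 5574)) (x (nat_lit 5580)) (x (nat_lit 5606)) (x (nat_lit 5612)) (x (nat_lit 5614))
    (x (nat_lit 5624)) (x (nat_lit 5630)) (x (nat_lit 5632)) (x (nat_lit 5636)) (x (nat_lit 5638))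
    (x (nat_lit 5640)) (x (nat_lit 5648)) (x (nat_lit 5650)) (x (nat_lit 5654)) (x (nat_lit 5656))
    (x (nat_lit 5658)) (x (nat_lit 5662)) (x (nat_lit 5664)) (x (nat_lit 5678)) (x (nat_lit 5684))
    (x (nat_lit 5686)) (x (nat_lit 5690)) (x (nat_lit 5692)) (x (nat_lit 5694)) (x (nat_lit 5702))
    (x (nat_lit 5704)) (x (nat_lit 5708)) (x (nat_lit 5710)) (x (nat_lit 5712)) (x (nat_lit 5716))
    (x (nat_lit 5718)) (x (nat_lit 5726)) (x (nat_lit 5728)) (x (nat_lit 5730)) (x (nat_lit 5734))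
    (x (nat_lit 5736)) (x (nat_lit 5742)) (x (nat_lit 5756)) (x (nat_lit 5758)) (x (nat_lit 5762))
    (x (nat_lit 5764)) (x (nat_lit 5766)) (x (nat_lit 5770)) (x (nat_lit 5772)) (x (nat_lit 5780))
    (x (nat_lit 5782)) (x (nat_lit 5784)) (x (nat_lit 5788)) (x (nat_lit 5790)) (x (nat_lit 5796))
    (x (nat_lit 5806)) (x (nat_lit 5808)) (x (nat_lit 5814)) (x (nat_lit 5858)) (x (nat_lit 5876))
    (x (nat_lit 5882)) (x (nat_lit 5884)) (x (nat_lit 5894)) (x (nat_lit 5900)) (x (nat_lit 5902))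
    (x (nat_lit 5906)) (x (nat_lit 5908)) (x (nat_lit 5910)) (x (nat_lit 5930)) (x (nat_lit 5936))
    (x (nat_lit 5938)) (x (nat_lit 5948)) (x (nat_lit 5954)) (x (nat_lit 5956)) (x (nat_lit 5960))
    (x (nat_lit 5962)) (x (nat_lit 5964)) (x (nat_lit 5972)) (x (nat_lit 5974)) (x (nat_lit 5978))
    (x (nat_lit 5980)) (x (nat_lit 5982)) (x (nat_lit 5986)) (x (nat_lit 5988)) (x (nat_lit 6002))
    (x (nat_lit 6008)) (x (nat_lit 6010)) (x (nat_lit 6014)) (x (nat_lit 6016)) (x (nat_lit 6018))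
    (x (nat_lit 6026)) (x (nat_lit 6028)) (x (nat_lit 6032)) (x (nat_lit 6034)) (x (nat_lit 6036))
    (x (nat_lit 6040)) (x (nat_lit 6042)) (x (nat_lit 6050)) (x (nat_lit 6052)) (x (nat_lit 6054))
    (x (nat_lit 6058)) (x (nat_lit 6060)) (x (nat_lit 6066)) (x (nat_lit 6092)) (x (nat_lit 6098))
    (x (nat_lit 6100)) (x (nat_lit 6110)) (x (nat_lit 6116)) (x (nat_lit 6118)) (x (nat_lit 6122))
    (x (nat_lit 6124)) (x (nat_lit 6126)) (x (nat_lit 6134)) (x (nat_lit 6136)) (x (nat_lit 6140))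
    (x (nat_lit 6142)) (x (nat_lit 6144)) (x (nat_lit 6148)) (x (nat_lit 6150)) (x (nat_lit 6164))
    (x (nat_lit 6170)) (x (nat_lit 6172)) (x (nat_lit 6176)) (x (nat_lit 6178)) (x (nat_lit 6180))
    (x (nat_lit 6188)) (x (nat_lit 6190)) (x (nat_lit 6194)) (x (nat_lit 6196)) (x (nat_lit 6198))
    (x (nat_lit 6202)) (x (nat_lit 6204)) (x (nat_lit 6212)) (x (nat_lit 6214)) (x (nat_lit 6216))
    (x (nat_lit 6220)) (x (nat_lit 6222)) (x (nat_lit 6228)) (x (nat_lit 6242)) (x (nat_lit 6244))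
    (x (nat_lit 6248)) (x (nat_lit 6250)) (x (nat_lit 6252)) (x (nat_lit 6256)) (x (nat_lit 6258))
    (x (nat_lit 6266)) (x (nat_lit 6268)) (x (nat_lit 6270)) (x (nat_lit 6274)) (x (nat_lit 6276))
    (x (nat_lit 6282)) (x (nat_lit 6292)) (x (nat_lit 6294)) (x (nat_lit 6300)) (x (nat_lit 6326))
    (x (nat_lit 6332)) (x (nat_lit 6334)) (x (nat_lit 6338)) (x (nat_lit 6340)) (x (nat_lit 6342))
    (x (nat_lit 6350)) (x (nat_lit 6352)) (x (nat_lit 6356)) (x (nat_lit 6358)) (x (nat_lit 6360))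
    (x (nat_lit 6364)) (x (nat_lit 6366)) (x (nat_lit 6374)) (x (nat_lit 6376)) (x (nat_lit 6378))
    (x (nat_lit 6382)) (x (nat_lit 6384)) (x (nat_lit 6390)) (x (nat_lit 6404)) (x (nat_lit 6406))
    (x (nat_lit 6410)) (x (nat_lit 6412)) (x (nat_lit 6414)) (x (nat_lit 6418)) (x (nat_lit 6420))
    (x (nat_lit 6428)) (x (nat_lit 6430)) (x (nat_lit 6432)) (x (nat_lit 6436)) (x (nat_lit 6438))
    (x (nat_lit 6444)) (x (nat_lit 6454)) (x (nat_lit 6456)) (x (nat_lit 6462)) (x (nat_lit 6482))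
    (x (nat_lit 6484)) (x (nat_lit 6486)) (x (nat_lit 6490)) (x (nat_lit 6492)) (x (nat_lit 6498))
    (x (nat_lit 6508)) (x (nat_lit 6510)) (x (nat_lit 6516)) (x (nat_lit 6534)) (x (nat_lit 6722))
    (x (nat_lit 6776)) (x (nat_lit 6794)) (x (nat_lit 6800)) (x (nat_lit 6802)) (x (nat_lit 6884))
    (x (nat_lit 6938)) (x (nat_lit 6956)) (x (nat_lit 6962)) (x (nat_lit 6964)) (x (nat_lit 6992))
    (x (nat_lit 7010)) (x (nat_lit 7016)) (x (nat_lit 7018)) (x (nat_lit 7028)) (x (nat_lit 7034))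
    (x (nat_lit 7036)) (x (nat_lit 7040)) (x (nat_lit 7042)) (x (nat_lit 7044)) (x (nat_lit 7100))
    (x (nat_lit 7118)) (x (nat_lit 7124)) (x (nat_lit 7126)) (x (nat_lit 7154)) (x (nat_lit 7172))
    (x (nat_lit 7178)) (x (nat_lit 7180)) (x (nat_lit 7190)) (x (nat_lit 7196)) (x (nat_lit 7198))
    (x (nat_lit 7202)) (x (nat_lit 7204)) (x (nat_lit 7206)) (x (nat_lit 7226)) (x (nat_lit 7232))
    (x (nat_lit 7234)) (x (nat_lit 7244)) (x (nat_lit 7250)) (x (nat_lit 7252)) (x (nat_lit 7256))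
    (x (nat_lit 7258)) (x (nat_lit 7260)) (x (nat_lit 7268)) (x (nat_lit 7270)) (x (nat_lit 7274))
    (x (nat_lit 7276)) (x (nat_lit 7278)) (x (nat_lit 7282)) (x (nat_lit 7284)) (x (nat_lit 7370))
    (x (nat_lit 7424)) (x (nat_lit 7442)) (x (nat_lit 7448)) (x (nat_lit 7450)) (x (nat_lit 7478))
    (x (nat_lit 7496)) (x (nat_lit 7502)) (x (nat_lit 7504)) (x (nat_lit 7514)) (x (nat_lit 7520))
    (x (nat_lit 7522)) (x (nat_lit 7526)) (x (nat_lit 7528)) (x (nat_lit 7530)) (x (nat_lit 7586))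
    (x (nat_lit 7604)) (x (nat_lit 7610)) (x (nat_lit 7612)) (x (nat_lit 7640)) (x (nat_lit 7658))
    (x (nat_lit 7664)) (x (nat_lit 7666)) (x (nat_lit 7676)) (x (nat_lit 7682)) (x (nat_lit 7684))
    (x (nat_lit 7688)) (x (nat_lit 7690)) (x (nat_lit 7692)) (x (nat_lit 7712)) (x (nat_lit 7718))
    (x (nat_lit 7720)) (x (nat_lit 7730)) (x (nat_lit 7736)) (x (nat_lit 7738)) (x (nat_lit 7742))
    (x (nat_lit 7744)) (x (nat_lit 7746)) (x (nat_lit 7754)) (x (nat_lit 7756)) (x (nat_lit 7760))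
    (x (nat_lit 7762)) (x (nat_lit 7764)) (x (nat_lit 7768)) (x (nat_lit 7770)) (x (nat_lit 7802))
    (x (nat_lit 7820)) (x (nat_lit 7826)) (x (nat_lit 7828)) (x (nat_lit 7838)) (x (nat_lit 7844))
    (x (nat_lit 7846)) (x (nat_lit 7850)) (x (nat_lit 7852)) (x (nat_lit 7854)) (x (nat_lit 7874))
    (x (nat_lit 7880)) (x (nat_lit 7882)) (x (nat_lit 7892)) (x (nat_lit 7898)) (x (nat_lit 7900))
    (x (nat_lit 7904)) (x (nat_lit 7906)) (x (nat_lit 7908)) (x (nat_lit 7916)) (x (nat_lit 7918))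
    (x (nat_lit 7922)) (x (nat_lit 7924)) (x (nat_lit 7926)) (x (nat_lit 7930)) (x (nat_lit 7932))
    (x (nat_lit 7946)) (x (nat_lit 7952)) (x (nat_lit 7954)) (x (nat_lit 7958)) (x (nat_lit 7960))
    (x (nat_lit 7962)) (x (nat_lit 7970)) (x (nat_lit 7972)) (x (nat_lit 7976)) (x (nat_lit 7978))
    (x (nat_lit 7980)) (x (nat_lit 7984)) (x (nat_lit 7986)) (x (nat_lit 7994)) (x (nat_lit 7996))
    (x (nat_lit 7998)) (x (nat_lit 8002)) (x (nat_lit 8004)) (x (nat_lit 8010)) (x (nat_lit 8072))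
    (x (nat_lit 8090)) (x (nat_lit 8096)) (x (nat_lit 8098)) (x (nat_lit 8126)) (x (nat_lit 8144))
    (x (nat_lit 8150)) (x (nat_lit 8152)) (x (nat_lit 8162)) (x (nat_lit 8168)) (x (nat_lit 8170))
    (x (nat_lit 8174)) (x (nat_lit 8176)) (x (nat_lit 8178)) (x (nat_lit 8198)) (x (nat_lit 8204))
    (x (nat_lit 8206)) (x (nat_lit 8216)) (x (nat_lit 8222)) (x (nat_lit 8224)) (x (nat_lit 8228))
    (x (nat_lit 8230)) (x (nat_lit 8232)) (x (nat_lit 8240)) (x (nat_lit 8242)) (x (nat_lit 8246))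
    (x (nat_lit 8248)) (x (nat_lit 8250)) (x (nat_lit 8254)) (x (nat_lit 8256)) (x (nat_lit 8288))
    (x (nat_lit 8306)) (x (nat_lit 8312)) (x (nat_lit 8314)) (x (nat_lit 8324)) (x (nat_lit 8330))
    (x (nat_lit 8332)) (x (nat_lit 8336)) (x (nat_lit 8338)) (x (nat_lit 8340)) (x (nat_lit 8360))
    (x (nat_lit 8366)) (x (nat_lit 8368)) (x (nat_lit 8378)) (x (nat_lit 8384)) (x (nat_lit 8386))
    (x (nat_lit 8390)) (x (nat_lit 8392)) (x (nat_lit 8394)) (x (nat_lit 8402)) (x (nat_lit 8404))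
    (x (nat_lit 8408)) (x (nat_lit 8410)) (x (nat_lit 8412)) (x (nat_lit 8416)) (x (nat_lit 8418))
    (x (nat_lit 8432)) (x (nat_lit 8438)) (x (nat_lit 8440)) (x (nat_lit 8444)) (x (nat_lit 8446))
    (x (nat_lit 8448)) (x (nat_lit 8456)) (x (nat_lit 8458)) (x (nat_lit 8462)) (x (nat_lit 8464))
    (x (nat_lit 8466)) (x (nat_lit 8470)) (x (nat_lit 8472)) (x (nat_lit 8480)) (x (nat_lit 8482))
    (x (nat_lit 8484)) (x (nat_lit 8488)) (x (nat_lit 8490)) (x (nat_lit 8496)) (x (nat_lit 8522))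
    (x (nat_lit 8528)) (x (nat_lit 8530)) (x (nat_lit 8540)) (x (nat_lit 8546)) (x (nat_lit 8548))
    (x (nat_lit 8552)) (x (nat_lit 8554)) (x (nat_lit 8556)) (x (nat_lit 8564)) (x (nat_lit 8566))
    (x (nat_lit 8570)) (x (nat_lit 8572)) (x (nat_lit 8574)) (x (nat_lit 8578)) (x (nat_lit 8580))
    (x (nat_lit 8594)) (x (nat_lit 8600)) (x (nat_lit 8602)) (x (nat_lit 8606)) (x (nat_lit 8608))
    (x (nat_lit 8610)) (x (nat_lit 8618)) (x (nat_lit 8620)) (x (nat_lit 8624)) (x (nat_lit 8626))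
    (x (nat_lit 8628)) (x (nat_lit 8632)) (x (nat_lit 8634)) (x (nat_lit 8642)) (x (nat_lit 8644))
    (x (nat_lit 8646)) (x (nat_lit 8650)) (x (nat_lit 8652)) (x (nat_lit 8658)) (x (nat_lit 8672))
    (x (nat_lit 8674)) (x (nat_lit 8678)) (x (nat_lit 8680)) (x (nat_lit 8682)) (x (nat_lit 8686))
    (x (nat_lit 8688)) (x (nat_lit 8696)) (x (nat_lit 8698)) (x (nat_lit 8700)) (x (nat_lit 8704))
    (x (nat_lit 8706)) (x (nat_lit 8712)) (x (nat_lit 8722)) (x (nat_lit 8724)) (x (nat_lit 8730))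
    (x (nat_lit 8828)) (x (nat_lit 8882)) (x (nat_lit 8900)) (x (nat_lit 8906)) (x (nat_lit 8908))
    (x (nat_lit 8936)) (x (nat_lit 8954)) (x (nat_lit 8960)) (x (nat_lit 8962)) (x (nat_lit 8972))
    (x (nat_lit 8978)) (x (nat_lit 8980)) (x (nat_lit 8984)) (x (nat_lit 8986)) (x (nat_lit 8988))
    (x (nat_lit 9044)) (x (nat_lit 9062)) (x (nat_lit 9068)) (x (nat_lit 9070)) (x (nat_lit 9098))
    (x (nat_lit 9116)) (x (nat_lit 9122)) (x (nat_lit 9124)) (x (nat_lit 9134)) (x (nat_lit 9140))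
    (x (nat_lit 9142)) (x (nat_lit 9146)) (x (nat_lit 9148)) (x (nat_lit 9150)) (x (nat_lit 9170))
    (x (nat_lit 9176)) (x (nat_lit 9178)) (x (nat_lit 9188)) (x (nat_lit 9194)) (x (nat_lit 9196))
    (x (nat_lit 9200)) (x (nat_lit 9202)) (x (nat_lit 9204)) (x (nat_lit 9212)) (x (nat_lit 9214))
    (x (nat_lit 9218)) (x (nat_lit 9220)) (x (nat_lit 9222)) (x (nat_lit 9226)) (x (nat_lit 9228))
    (x (nat_lit 9260)) (x (nat_lit 9278)) (x (nat_lit 9284)) (x (nat_lit 9286)) (x (nat_lit 9296))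
    (x (nat_lit 9302)) (x (nat_lit 9304)) (x (nat_lit 9308)) (x (nat_lit 9310)) (x (nat_lit 9312))
    (x (nat_lit 9332)) (x (nat_lit 9338)) (x (nat_lit 9340)) (x (nat_lit 9350)) (x (nat_lit 9356))
    (x (nat_lit 9358)) (x (nat_lit 9362)) (x (nat_lit 9364)) (x (nat_lit 9366)) (x (nat_lit 9374))
    (x (nat_lit 9376)) (x (nat_lit 9380)) (x (nat_lit 9382)) (x (nat_lit 9384)) (x (nat_lit 9388))
    (x (nat_lit 9390)) (x (nat_lit 9404)) (x (nat_lit 9410)) (x (nat_lit 9412)) (x (nat_lit 9416))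
    (x (nat_lit 9418)) (x (nat_lit 9420)) (x (nat_lit 9428)) (x (nat_lit 9430)) (x (nat_lit 9434))
    (x (nat_lit 9436)) (x (nat_lit 9438)) (x (nat_lit 9442)) (x (nat_lit 9444)) (x (nat_lit 9452))
    (x (nat_lit 9454)) (x (nat_lit 9456)) (x (nat_lit 9460)) (x (nat_lit 9462)) (x (nat_lit 9468))
    (x (nat_lit 9530)) (x (nat_lit 9548)) (x (nat_lit 9554)) (x (nat_lit 9556)) (x (nat_lit 9584))
    (x (nat_lit 9602)) (x (nat_lit 9608)) (x (nat_lit 9610)) (x (nat_lit 9620)) (x (nat_lit 9626))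
    (x (nat_lit 9628)) (x (nat_lit 9632)) (x (nat_lit 9634)) (x (nat_lit 9636)) (x (nat_lit 9656))
    (x (nat_lit 9662)) (x (nat_lit 9664)) (x (nat_lit 9674)) (x (nat_lit 9680)) (x (nat_lit 9682))
    (x (nat_lit 9686)) (x (nat_lit 9688)) (x (nat_lit 9690)) (x (nat_lit 9698)) (x (nat_lit 9700))
    (x (nat_lit 9704)) (x (nat_lit 9706)) (x (nat_lit 9708)) (x (nat_lit 9712)) (x (nat_lit 9714))
    (x (nat_lit 9746)) (x (nat_lit 9764)) (x (nat_lit 9770)) (x (nat_lit 9772)) (x (nat_lit 9782))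
    (x (nat_lit 9788)) (x (nat_lit 9790)) (x (nat_lit 9794)) (x (nat_lit 9796)) (x (nat_lit 9798))
    (x (nat_lit 9818)) (x (nat_lit 9824)) (x (nat_lit 9826)) (x (nat_lit 9836)) (x (nat_lit 9842))
    (x (nat_lit 9844)) (x (nat_lit 9848)) (x (nat_lit 9850)) (x (nat_lit 9852)) (x (nat_lit 9860))
    (x (nat_lit 9862)) (x (nat_lit 9866)) (x (nat_lit 9868)) (x (nat_lit 9870)) (x (nat_lit 9874))
    (x (nat_lit 9876)) (x (nat_lit 9890)) (x (nat_lit 9896)) (x (nat_lit 9898)) (x (nat_lit 9902))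
    (x (nat_lit 9904)) (x (nat_lit 9906)) (x (nat_lit 9914)) (x (nat_lit 9916)) (x (nat_lit 9920))
    (x (nat_lit 9922)) (x (nat_lit 9924)) (x (nat_lit 9928)) (x (nat_lit 9930)) (x (nat_lit 9938))
    (x (nat_lit 9940)) (x (nat_lit 9942)) (x (nat_lit 9946)) (x (nat_lit 9948)) (x (nat_lit 9954))
    (x (nat_lit 9980)) (x (nat_lit 9986)) (x (nat_lit 9988)) (x (nat_lit 9998)) (x (nat_lit 10004))
    (x (nat_lit 10006)) (x (nat_lit 10010)) (x (nat_lit 10012)) (x (nat_lit 10014))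
    (x (nat_lit 10022)) (x (nat_lit 10024)) (x (nat_lit 10028)) (x (nat_lit 10030))
    (x (nat_lit 10032)) (x (nat_lit 10036)) (x (nat_lit 10038)) (x (nat_lit 10052))
    (x (nat_lit 10058)) (x (nat_lit 10060)) (x (nat_lit 10064)) (x (nat_lit 10066))
    (x (nat_lit 10068)) (x (nat_lit 10076)) (x (nat_lit 10078)) (x (nat_lit 10082))
    (x (nat_lit 10084)) (x (nat_lit 10086)) (x (nat_lit 10090)) (x (nat_lit 10092))
    (x (nat_lit 10100)) (x (nat_lit 10102)) (x (nat_lit 10104)) (x (nat_lit 10108))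
    (x (nat_lit 10110)) (x (nat_lit 10116)) (x (nat_lit 10130)) (x (nat_lit 10132))
    (x (nat_lit 10136)) (x (nat_lit 10138)) (x (nat_lit 10140)) (x (nat_lit 10144))
    (x (nat_lit 10146)) (x (nat_lit 10154)) (x (nat_lit 10156)) (x (nat_lit 10158))
    (x (nat_lit 10162)) (x (nat_lit 10164)) (x (nat_lit 10170)) (x (nat_lit 10180))
    (x (nat_lit 10182)) (x (nat_lit 10188)) (x (nat_lit 10232)) (x (nat_lit 10250))
    (x (nat_lit 10256)) (x (nat_lit 10258)) (x (nat_lit 10268)) (x (nat_lit 10274))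
    (x (nat_lit 10276)) (x (nat_lit 10280)) (x (nat_lit 10282)) (x (nat_lit 10284))
    (x (nat_lit 10304)) (x (nat_lit 10310)) (x (nat_lit 10312)) (x (nat_lit 10322))
    (x (nat_lit 10328)) (x (nat_lit 10330)) (x (nat_lit 10334)) (x (nat_lit 10336))
    (x (nat_lit 10338)) (x (nat_lit 10346)) (x (nat_lit 10348)) (x (nat_lit 10352))
    (x (nat_lit 10354)) (x (nat_lit 10356)) (x (nat_lit 10360)) (x (nat_lit 10362))
    (x (nat_lit 10376)) (x (nat_lit 10382)) (x (nat_lit 10384)) (x (nat_lit 10388))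
    (x (nat_lit 10390)) (x (nat_lit 10392)) (x (nat_lit 10400)) (x (nat_lit 10402))
    (x (nat_lit 10406)) (x (nat_lit 10408)) (x (nat_lit 10410)) (x (nat_lit 10414))
    (x (nat_lit 10416)) (x (nat_lit 10424)) (x (nat_lit 10426)) (x (nat_lit 10428))
    (x (nat_lit 10432)) (x (nat_lit 10434)) (x (nat_lit 10440)) (x (nat_lit 10466))
    (x (nat_lit 10472)) (x (nat_lit 10474)) (x (nat_lit 10484)) (x (nat_lit 10490))
    (x (nat_lit 10492)) (x (nat_lit 10496)) (x (nat_lit 10498)) (x (nat_lit 10500))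
    (x (nat_lit 10508)) (x (nat_lit 10510)) (x (nat_lit 10514)) (x (nat_lit 10516))
    (x (nat_lit 10518)) (x (nat_lit 10522)) (x (nat_lit 10524)) (x (nat_lit 10538))
    (x (nat_lit 10544)) (x (nat_lit 10546)) (x (nat_lit 10550)) (x (nat_lit 10552))
    (x (nat_lit 10554)) (x (nat_lit 10562)) (x (nat_lit 10564)) (x (nat_lit 10568))
    (x (nat_lit 10570)) (x (nat_lit 10572)) (x (nat_lit 10576)) (x (nat_lit 10578))
    (x (nat_lit 10586)) (x (nat_lit 10588)) (x (nat_lit 10590)) (x (nat_lit 10594))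
    (x (nat_lit 10596)) (x (nat_lit 10602)) (x (nat_lit 10616)) (x (nat_lit 10618))
    (x (nat_lit 10622)) (x (nat_lit 10624)) (x (nat_lit 10626)) (x (nat_lit 10630))
    (x (nat_lit 10632)) (x (nat_lit 10640)) (x (nat_lit 10642)) (x (nat_lit 10644))
    (x (nat_lit 10648)) (x (nat_lit 10650)) (x (nat_lit 10656)) (x (nat_lit 10666))
    (x (nat_lit 10668)) (x (nat_lit 10674)) (x (nat_lit 10700)) (x (nat_lit 10706))
    (x (nat_lit 10708)) (x (nat_lit 10712)) (x (nat_lit 10714)) (x (nat_lit 10716))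
    (x (nat_lit 10724)) (x (nat_lit 10726)) (x (nat_lit 10730)) (x (nat_lit 10732))
    (x (nat_lit 10734)) (x (nat_lit 10738)) (x (nat_lit 10740)) (x (nat_lit 10748))
    (x (nat_lit 10750)) (x (nat_lit 10752)) (x (nat_lit 10756)) (x (nat_lit 10758))
    (x (nat_lit 10764)) (x (nat_lit 10778)) (x (nat_lit 10780)) (x (nat_lit 10784))
    (x (nat_lit 10786)) (x (nat_lit 10788)) (x (nat_lit 10792)) (x (nat_lit 10794))
    (x (nat_lit 10802)) (x (nat_lit 10804)) (x (nat_lit 10806)) (x (nat_lit 10810))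
    (x (nat_lit 10812)) (x (nat_lit 10818)) (x (nat_lit 10828)) (x (nat_lit 10830))
    (x (nat_lit 10836)) (x (nat_lit 10856)) (x (nat_lit 10858)) (x (nat_lit 10860))
    (x (nat_lit 10864)) (x (nat_lit 10866)) (x (nat_lit 10872)) (x (nat_lit 10882))
    (x (nat_lit 10884)) (x (nat_lit 10890)) (x (nat_lit 10908)) (x (nat_lit 10988))
    (x (nat_lit 11006)) (x (nat_lit 11012)) (x (nat_lit 11014)) (x (nat_lit 11042))
    (x (nat_lit 11060)) (x (nat_lit 11066)) (x (nat_lit 11068)) (x (nat_lit 11078))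
    (x (nat_lit 11084)) (x (nat_lit 11086)) (x (nat_lit 11090)) (x (nat_lit 11092))
    (x (nat_lit 11094)) (x (nat_lit 11114)) (x (nat_lit 11120)) (x (nat_lit 11122))
    (x (nat_lit 11132)) (x (nat_lit 11138)) (x (nat_lit 11140)) (x (nat_lit 11144))
    (x (nat_lit 11146)) (x (nat_lit 11148)) (x (nat_lit 11156)) (x (nat_lit 11158))
    (x (nat_lit 11162)) (x (nat_lit 11164)) (x (nat_lit 11166)) (x (nat_lit 11170))
    (x (nat_lit 11172)) (x (nat_lit 11204)) (x (nat_lit 11222)) (x (nat_lit 11228))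
    (x (nat_lit 11230)) (x (nat_lit 11240)) (x (nat_lit 11246)) (x (nat_lit 11248))
    (x (nat_lit 11252)) (x (nat_lit 11254)) (x (nat_lit 11256)) (x (nat_lit 11276))
    (x (nat_lit 11282)) (x (nat_lit 11284)) (x (nat_lit 11294)) (x (nat_lit 11300))
    (x (nat_lit 11302)) (x (nat_lit 11306)) (x (nat_lit 11308)) (x (nat_lit 11310))
    (x (nat_lit 11318)) (x (nat_lit 11320)) (x (nat_lit 11324)) (x (nat_lit 11326))
    (x (nat_lit 11328)) (x (nat_lit 11332)) (x (nat_lit 11334)) (x (nat_lit 11348))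
    (x (nat_lit 11354)) (x (nat_lit 11356)) (x (nat_lit 11360)) (x (nat_lit 11362))
    (x (nat_lit 11364)) (x (nat_lit 11372)) (x (nat_lit 11374)) (x (nat_lit 11378))
    (x (nat_lit 11380)) (x (nat_lit 11382)) (x (nat_lit 11386)) (x (nat_lit 11388))
    (x (nat_lit 11396)) (x (nat_lit 11398)) (x (nat_lit 11400)) (x (nat_lit 11404))
    (x (nat_lit 11406)) (x (nat_lit 11412)) (x (nat_lit 11438)) (x (nat_lit 11444))
    (x (nat_lit 11446)) (x (nat_lit 11456)) (x (nat_lit 11462)) (x (nat_lit 11464))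
    (x (nat_lit 11468)) (x (nat_lit 11470)) (x (nat_lit 11472)) (x (nat_lit 11480))
    (x (nat_lit 11482)) (x (nat_lit 11486)) (x (nat_lit 11488)) (x (nat_lit 11490))
    (x (nat_lit 11494)) (x (nat_lit 11496)) (x (nat_lit 11510)) (x (nat_lit 11516))
    (x (nat_lit 11518)) (x (nat_lit 11522)) (x (nat_lit 11524)) (x (nat_lit 11526))
    (x (nat_lit 11534)) (x (nat_lit 11536)) (x (nat_lit 11540)) (x (nat_lit 11542))
    (x (nat_lit 11544)) (x (nat_lit 11548)) (x (nat_lit 11550)) (x (nat_lit 11558))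
    (x (nat_lit 11560)) (x (nat_lit 11562)) (x (nat_lit 11566)) (x (nat_lit 11568))
    (x (nat_lit 11574)) (x (nat_lit 11588)) (x (nat_lit 11590)) (x (nat_lit 11594))
    (x (nat_lit 11596)) (x (nat_lit 11598)) (x (nat_lit 11602)) (x (nat_lit 11604))
    (x (nat_lit 11612)) (x (nat_lit 11614)) (x (nat_lit 11616)) (x (nat_lit 11620))
    (x (nat_lit 11622)) (x (nat_lit 11628)) (x (nat_lit 11638)) (x (nat_lit 11640))
    (x (nat_lit 11646)) (x (nat_lit 11690)) (x (nat_lit 11708)) (x (nat_lit 11714))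
    (x (nat_lit 11716)) (x (nat_lit 11726)) (x (nat_lit 11732)) (x (nat_lit 11734))
    (x (nat_lit 11738)) (x (nat_lit 11740)) (x (nat_lit 11742)) (x (nat_lit 11762))
    (x (nat_lit 11768)) (x (nat_lit 11770)) (x (nat_lit 11780)) (x (nat_lit 11786))
    (x (nat_lit 11788)) (x (nat_lit 11792)) (x (nat_lit 11794)) (x (nat_lit 11796))
    (x (nat_lit 11804)) (x (nat_lit 11806)) (x (nat_lit 11810)) (x (nat_lit 11812))
    (x (nat_lit 11814)) (x (nat_lit 11818)) (x (nat_lit 11820)) (x (nat_lit 11834))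
    (x (nat_lit 11840)) (x (nat_lit 11842)) (x (nat_lit 11846)) (x (nat_lit 11848))
    (x (nat_lit 11850)) (x (nat_lit 11858)) (x (nat_lit 11860)) (x (nat_lit 11864))
    (x (nat_lit 11866)) (x (nat_lit 11868)) (x (nat_lit 11872)) (x (nat_lit 11874))
    (x (nat_lit 11882)) (x (nat_lit 11884)) (x (nat_lit 11886)) (x (nat_lit 11890))
    (x (nat_lit 11892)) (x (nat_lit 11898)) (x (nat_lit 11924)) (x (nat_lit 11930))
    (x (nat_lit 11932)) (x (nat_lit 11942)) (x (nat_lit 11948)) (x (nat_lit 11950))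
    (x (nat_lit 11954)) (x (nat_lit 11956)) (x (nat_lit 11958)) (x (nat_lit 11966))
    (x (nat_lit 11968)) (x (nat_lit 11972)) (x (nat_lit 11974)) (x (nat_lit 11976))
    (x (nat_lit 11980)) (x (nat_lit 11982)) (x (nat_lit 11996)) (x (nat_lit 12002))
    (x (nat_lit 12004)) (x (nat_lit 12008)) (x (nat_lit 12010)) (x (nat_lit 12012))
    (x (nat_lit 12020)) (x (nat_lit 12022)) (x (nat_lit 12026)) (x (nat_lit 12028))
    (x (nat_lit 12030)) (x (nat_lit 12034)) (x (nat_lit 12036)) (x (nat_lit 12044))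
    (x (nat_lit 12046)) (x (nat_lit 12048)) (x (nat_lit 12052)) (x (nat_lit 12054))
    (x (nat_lit 12060)) (x (nat_lit 12074)) (x (nat_lit 12076)) (x (nat_lit 12080))
    (x (nat_lit 12082)) (x (nat_lit 12084)) (x (nat_lit 12088)) (x (nat_lit 12090))
    (x (nat_lit 12098)) (x (nat_lit 12100)) (x (nat_lit 12102)) (x (nat_lit 12106))
    (x (nat_lit 12108)) (x (nat_lit 12114)) (x (nat_lit 12124)) (x (nat_lit 12126))
    (x (nat_lit 12132)) (x (nat_lit 12158)) (x (nat_lit 12164)) (x (nat_lit 12166))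
    (x (nat_lit 12170)) (x (nat_lit 12172)) (x (nat_lit 12174)) (x (nat_lit 12182))
    (x (nat_lit 12184)) (x (nat_lit 12188)) (x (nat_lit 12190)) (x (nat_lit 12192))
    (x (nat_lit 12196)) (x (nat_lit 12198)) (x (nat_lit 12206)) (x (nat_lit 12208))
    (x (nat_lit 12210)) (x (nat_lit 12214)) (x (nat_lit 12216)) (x (nat_lit 12222))
    (x (nat_lit 12236)) (x (nat_lit 12238)) (x (nat_lit 12242)) (x (nat_lit 12244))
    (x (nat_lit 12246)) (x (nat_lit 12250)) (x (nat_lit 12252)) (x (nat_lit 12260))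
    (x (nat_lit 12262)) (x (nat_lit 12264)) (x (nat_lit 12268)) (x (nat_lit 12270))
    (x (nat_lit 12276)) (x (nat_lit 12286)) (x (nat_lit 12288)) (x (nat_lit 12294))
    (x (nat_lit 12314)) (x (nat_lit 12316)) (x (nat_lit 12318)) (x (nat_lit 12322))
    (x (nat_lit 12324)) (x (nat_lit 12330)) (x (nat_lit 12340)) (x (nat_lit 12342))
    (x (nat_lit 12348)) (x (nat_lit 12366)) (x (nat_lit 12410)) (x (nat_lit 12416))
    (x (nat_lit 12418)) (x (nat_lit 12428)) (x (nat_lit 12434)) (x (nat_lit 12436))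
    (x (nat_lit 12440)) (x (nat_lit 12442)) (x (nat_lit 12444)) (x (nat_lit 12452))
    (x (nat_lit 12454)) (x (nat_lit 12458)) (x (nat_lit 12460)) (x (nat_lit 12462))
    (x (nat_lit 12466)) (x (nat_lit 12468)) (x (nat_lit 12482)) (x (nat_lit 12488))
    (x (nat_lit 12490)) (x (nat_lit 12494)) (x (nat_lit 12496)) (x (nat_lit 12498))
    (x (nat_lit 12506)) (x (nat_lit 12508)) (x (nat_lit 12512)) (x (nat_lit 12514))
    (x (nat_lit 12516)) (x (nat_lit 12520)) (x (nat_lit 12522)) (x (nat_lit 12530))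
    (x (nat_lit 12532)) (x (nat_lit 12534)) (x (nat_lit 12538)) (x (nat_lit 12540))
    (x (nat_lit 12546)) (x (nat_lit 12560)) (x (nat_lit 12562)) (x (nat_lit 12566))
    (x (nat_lit 12568)) (x (nat_lit 12570)) (x (nat_lit 12574)) (x (nat_lit 12576))
    (x (nat_lit 12584)) (x (nat_lit 12586)) (x (nat_lit 12588)) (x (nat_lit 12592))
    (x (nat_lit 12594)) (x (nat_lit 12600)) (x (nat_lit 12610)) (x (nat_lit 12612))
    (x (nat_lit 12618)) (x (nat_lit 12644)) (x (nat_lit 12650)) (x (nat_lit 12652))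
    (x (nat_lit 12656)) (x (nat_lit 12658)) (x (nat_lit 12660)) (x (nat_lit 12668))
    (x (nat_lit 12670)) (x (nat_lit 12674)) (x (nat_lit 12676)) (x (nat_lit 12678))
    (x (nat_lit 12682)) (x (nat_lit 12684)) (x (nat_lit 12692)) (x (nat_lit 12694))
    (x (nat_lit 12696)) (x (nat_lit 12700)) (x (nat_lit 12702)) (x (nat_lit 12708))
    (x (nat_lit 12722)) (x (nat_lit 12724)) (x (nat_lit 12728)) (x (nat_lit 12730))
    (x (nat_lit 12732)) (x (nat_lit 12736)) (x (nat_lit 12738)) (x (nat_lit 12746))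
    (x (nat_lit 12748)) (x (nat_lit 12750)) (x (nat_lit 12754)) (x (nat_lit 12756))
    (x (nat_lit 12762)) (x (nat_lit 12772)) (x (nat_lit 12774)) (x (nat_lit 12780))
    (x (nat_lit 12800)) (x (nat_lit 12802)) (x (nat_lit 12804)) (x (nat_lit 12808))
    (x (nat_lit 12810)) (x (nat_lit 12816)) (x (nat_lit 12826)) (x (nat_lit 12828))
    (x (nat_lit 12834)) (x (nat_lit 12852)) (x (nat_lit 12884)) (x (nat_lit 12886))
    (x (nat_lit 12890)) (x (nat_lit 12892)) (x (nat_lit 12894)) (x (nat_lit 12898))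
    (x (nat_lit 12900)) (x (nat_lit 12908)) (x (nat_lit 12910)) (x (nat_lit 12912))
    (x (nat_lit 12916)) (x (nat_lit 12918)) (x (nat_lit 12924)) (x (nat_lit 12934))
    (x (nat_lit 12936)) (x (nat_lit 12942)) (x (nat_lit 12962)) (x (nat_lit 12964))
    (x (nat_lit 12966)) (x (nat_lit 12970)) (x (nat_lit 12972)) (x (nat_lit 12978))
    (x (nat_lit 12988)) (x (nat_lit 12990)) (x (nat_lit 12996)) (x (nat_lit 13014))
    (x (nat_lit 13042)) (x (nat_lit 13044)) (x (nat_lit 13050)) (x (nat_lit 13068))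
    (x (nat_lit 13202)) (x (nat_lit 13256)) (x (nat_lit 13274)) (x (nat_lit 13280))
    (x (nat_lit 13282)) (x (nat_lit 13310)) (x (nat_lit 13328)) (x (nat_lit 13334))
    (x (nat_lit 13336)) (x (nat_lit 13346)) (x (nat_lit 13352)) (x (nat_lit 13354))
    (x (nat_lit 13358)) (x (nat_lit 13360)) (x (nat_lit 13362)) (x (nat_lit 13418))
    (x (nat_lit 13436)) (x (nat_lit 13442)) (x (nat_lit 13444)) (x (nat_lit 13472))
    (x (nat_lit 13490)) (x (nat_lit 13496)) (x (nat_lit 13498)) (x (nat_lit 13508))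
    (x (nat_lit 13514)) (x (nat_lit 13516)) (x (nat_lit 13520)) (x (nat_lit 13522))
    (x (nat_lit 13524)) (x (nat_lit 13544)) (x (nat_lit 13550)) (x (nat_lit 13552))
    (x (nat_lit 13562)) (x (nat_lit 13568)) (x (nat_lit 13570)) (x (nat_lit 13574))
    (x (nat_lit 13576)) (x (nat_lit 13578)) (x (nat_lit 13586)) (x (nat_lit 13588))
    (x (nat_lit 13592)) (x (nat_lit 13594)) (x (nat_lit 13596)) (x (nat_lit 13600))
    (x (nat_lit 13602)) (x (nat_lit 13634)) (x (nat_lit 13652)) (x (nat_lit 13658))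
    (x (nat_lit 13660)) (x (nat_lit 13670)) (x (nat_lit 13676)) (x (nat_lit 13678))
    (x (nat_lit 13682)) (x (nat_lit 13684)) (x (nat_lit 13686)) (x (nat_lit 13706))
    (x (nat_lit 13712)) (x (nat_lit 13714)) (x (nat_lit 13724)) (x (nat_lit 13730))
    (x (nat_lit 13732)) (x (nat_lit 13736)) (x (nat_lit 13738)) (x (nat_lit 13740))
    (x (nat_lit 13748)) (x (nat_lit 13750)) (x (nat_lit 13754)) (x (nat_lit 13756))
    (x (nat_lit 13758)) (x (nat_lit 13762)) (x (nat_lit 13764)) (x (nat_lit 13778))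
    (x (nat_lit 13784)) (x (nat_lit 13786)) (x (nat_lit 13790)) (x (nat_lit 13792))
    (x (nat_lit 13794)) (x (nat_lit 13802)) (x (nat_lit 13804)) (x (nat_lit 13808))
    (x (nat_lit 13810)) (x (nat_lit 13812)) (x (nat_lit 13816)) (x (nat_lit 13818))
    (x (nat_lit 13826)) (x (nat_lit 13828)) (x (nat_lit 13830)) (x (nat_lit 13834))
    (x (nat_lit 13836)) (x (nat_lit 13842)) (x (nat_lit 13904)) (x (nat_lit 13922))
    (x (nat_lit 13928)) (x (nat_lit 13930)) (x (nat_lit 13958)) (x (nat_lit 13976))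
    (x (nat_lit 13982)) (x (nat_lit 13984)) (x (nat_lit 13994)) (x (nat_lit 14000))
    (x (nat_lit 14002)) (x (nat_lit 14006)) (x (nat_lit 14008)) (x (nat_lit 14010))
    (x (nat_lit 14030)) (x (nat_lit 14036)) (x (nat_lit 14038)) (x (nat_lit 14048))
    (x (nat_lit 14054)) (x (nat_lit 14056)) (x (nat_lit 14060)) (x (nat_lit 14062))
    (x (nat_lit 14064)) (x (nat_lit 14072)) (x (nat_lit 14074)) (x (nat_lit 14078))
    (x (nat_lit 14080)) (x (nat_lit 14082)) (x (nat_lit 14086)) (x (nat_lit 14088))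
    (x (nat_lit 14120)) (x (nat_lit 14138)) (x (nat_lit 14144)) (x (nat_lit 14146))
    (x (nat_lit 14156)) (x (nat_lit 14162)) (x (nat_lit 14164)) (x (nat_lit 14168))
    (x (nat_lit 14170)) (x (nat_lit 14172)) (x (nat_lit 14192)) (x (nat_lit 14198))
    (x (nat_lit 14200)) (x (nat_lit 14210)) (x (nat_lit 14216)) (x (nat_lit 14218))
    (x (nat_lit 14222)) (x (nat_lit 14224)) (x (nat_lit 14226)) (x (nat_lit 14234))
    (x (nat_lit 14236)) (x (nat_lit 14240)) (x (nat_lit 14242)) (x (nat_lit 14244))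
    (x (nat_lit 14248)) (x (nat_lit 14250)) (x (nat_lit 14264)) (x (nat_lit 14270))
    (x (nat_lit 14272)) (x (nat_lit 14276)) (x (nat_lit 14278)) (x (nat_lit 14280))
    (x (nat_lit 14288)) (x (nat_lit 14290)) (x (nat_lit 14294)) (x (nat_lit 14296))
    (x (nat_lit 14298)) (x (nat_lit 14302)) (x (nat_lit 14304)) (x (nat_lit 14312))
    (x (nat_lit 14314)) (x (nat_lit 14316)) (x (nat_lit 14320)) (x (nat_lit 14322))
    (x (nat_lit 14328)) (x (nat_lit 14354)) (x (nat_lit 14360)) (x (nat_lit 14362))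
    (x (nat_lit 14372)) (x (nat_lit 14378)) (x (nat_lit 14380)) (x (nat_lit 14384))
    (x (nat_lit 14386)) (x (nat_lit 14388)) (x (nat_lit 14396)) (x (nat_lit 14398))
    (x (nat_lit 14402)) (x (nat_lit 14404)) (x (nat_lit 14406)) (x (nat_lit 14410))
    (x (nat_lit 14412)) (x (nat_lit 14426)) (x (nat_lit 14432)) (x (nat_lit 14434))
    (x (nat_lit 14438)) (x (nat_lit 14440)) (x (nat_lit 14442)) (x (nat_lit 14450))
    (x (nat_lit 14452)) (x (nat_lit 14456)) (x (nat_lit 14458)) (x (nat_lit 14460))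
    (x (nat_lit 14464)) (x (nat_lit 14466)) (x (nat_lit 14474)) (x (nat_lit 14476))
    (x (nat_lit 14478)) (x (nat_lit 14482)) (x (nat_lit 14484)) (x (nat_lit 14490))
    (x (nat_lit 14504)) (x (nat_lit 14506)) (x (nat_lit 14510)) (x (nat_lit 14512))
    (x (nat_lit 14514)) (x (nat_lit 14518)) (x (nat_lit 14520)) (x (nat_lit 14528))
    (x (nat_lit 14530)) (x (nat_lit 14532)) (x (nat_lit 14536)) (x (nat_lit 14538))
    (x (nat_lit 14544)) (x (nat_lit 14554)) (x (nat_lit 14556)) (x (nat_lit 14562))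
    (x (nat_lit 14606)) (x (nat_lit 14624)) (x (nat_lit 14630)) (x (nat_lit 14632))
    (x (nat_lit 14642)) (x (nat_lit 14648)) (x (nat_lit 14650)) (x (nat_lit 14654))
    (x (nat_lit 14656)) (x (nat_lit 14658)) (x (nat_lit 14678)) (x (nat_lit 14684))
    (x (nat_lit 14686)) (x (nat_lit 14696)) (x (nat_lit 14702)) (x (nat_lit 14704))
    (x (nat_lit 14708)) (x (nat_lit 14710)) (x (nat_lit 14712)) (x (nat_lit 14720))
    (x (nat_lit 14722)) (x (nat_lit 14726)) (x (nat_lit 14728)) (x (nat_lit 14730))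
    (x (nat_lit 14734)) (x (nat_lit 14736)) (x (nat_lit 14750)) (x (nat_lit 14756))
    (x (nat_lit 14758)) (x (nat_lit 14762)) (x (nat_lit 14764)) (x (nat_lit 14766))
    (x (nat_lit 14774)) (x (nat_lit 14776)) (x (nat_lit 14780)) (x (nat_lit 14782))
    (x (nat_lit 14784)) (x (nat_lit 14788)) (x (nat_lit 14790)) (x (nat_lit 14798))
    (x (nat_lit 14800)) (x (nat_lit 14802)) (x (nat_lit 14806)) (x (nat_lit 14808))
    (x (nat_lit 14814)) (x (nat_lit 14840)) (x (nat_lit 14846)) (x (nat_lit 14848))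
    (x (nat_lit 14858)) (x (nat_lit 14864)) (x (nat_lit 14866)) (x (nat_lit 14870))
    (x (nat_lit 14872)) (x (nat_lit 14874)) (x (nat_lit 14882)) (x (nat_lit 14884))
    (x (nat_lit 14888)) (x (nat_lit 14890)) (x (nat_lit 14892)) (x (nat_lit 14896))
    (x (nat_lit 14898)) (x (nat_lit 14912)) (x (nat_lit 14918)) (x (nat_lit 14920))
    (x (nat_lit 14924)) (x (nat_lit 14926)) (x (nat_lit 14928)) (x (nat_lit 14936))
    (x (nat_lit 14938)) (x (nat_lit 14942)) (x (nat_lit 14944)) (x (nat_lit 14946))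
    (x (nat_lit 14950)) (x (nat_lit 14952)) (x (nat_lit 14960)) (x (nat_lit 14962))
    (x (nat_lit 14964)) (x (nat_lit 14968)) (x (nat_lit 14970)) (x (nat_lit 14976))
    (x (nat_lit 14990)) (x (nat_lit 14992)) (x (nat_lit 14996)) (x (nat_lit 14998))
    (x (nat_lit 15000)) (x (nat_lit 15004)) (x (nat_lit 15006)) (x (nat_lit 15014))
    (x (nat_lit 15016)) (x (nat_lit 15018)) (x (nat_lit 15022)) (x (nat_lit 15024))
    (x (nat_lit 15030)) (x (nat_lit 15040)) (x (nat_lit 15042)) (x (nat_lit 15048))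
    (x (nat_lit 15074)) (x (nat_lit 15080)) (x (nat_lit 15082)) (x (nat_lit 15086))
    (x (nat_lit 15088)) (x (nat_lit 15090)) (x (nat_lit 15098)) (x (nat_lit 15100))
    (x (nat_lit 15104)) (x (nat_lit 15106)) (x (nat_lit 15108)) (x (nat_lit 15112))
    (x (nat_lit 15114)) (x (nat_lit 15122)) (x (nat_lit 15124)) (x (nat_lit 15126))
    (x (nat_lit 15130)) (x (nat_lit 15132)) (x (nat_lit 15138)) (x (nat_lit 15152))
    (x (nat_lit 15154)) (x (nat_lit 15158)) (x (nat_lit 15160)) (x (nat_lit 15162))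
    (x (nat_lit 15166)) (x (nat_lit 15168)) (x (nat_lit 15176)) (x (nat_lit 15178))
    (x (nat_lit 15180)) (x (nat_lit 15184)) (x (nat_lit 15186)) (x (nat_lit 15192))
    (x (nat_lit 15202)) (x (nat_lit 15204)) (x (nat_lit 15210)) (x (nat_lit 15230))
    (x (nat_lit 15232)) (x (nat_lit 15234)) (x (nat_lit 15238)) (x (nat_lit 15240))
    (x (nat_lit 15246)) (x (nat_lit 15256)) (x (nat_lit 15258)) (x (nat_lit 15264))
    (x (nat_lit 15282)) (x (nat_lit 15362)) (x (nat_lit 15380)) (x (nat_lit 15386))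
    (x (nat_lit 15388)) (x (nat_lit 15416)) (x (nat_lit 15434)) (x (nat_lit 15440))
    (x (nat_lit 15442)) (x (nat_lit 15452)) (x (nat_lit 15458)) (x (nat_lit 15460))
    (x (nat_lit 15464)) (x (nat_lit 15466)) (x (nat_lit 15468)) (x (nat_lit 15488))
    (x (nat_lit 15494)) (x (nat_lit 15496)) (x (nat_lit 15506)) (x (nat_lit 15512))
    (x (nat_lit 15514)) (x (nat_lit 15518)) (x (nat_lit 15520)) (x (nat_lit 15522))
    (x (nat_lit 15530)) (x (nat_lit 15532)) (x (nat_lit 15536)) (x (nat_lit 15538))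
    (x (nat_lit 15540)) (x (nat_lit 15544)) (x (nat_lit 15546)) (x (nat_lit 15578))
    (x (nat_lit 15596)) (x (nat_lit 15602)) (x (nat_lit 15604)) (x (nat_lit 15614))
    (x (nat_lit 15620)) (x (nat_lit 15622)) (x (nat_lit 15626)) (x (nat_lit 15628))
    (x (nat_lit 15630)) (x (nat_lit 15650)) (x (nat_lit 15656)) (x (nat_lit 15658))
    (x (nat_lit 15668)) (x (nat_lit 15674)) (x (nat_lit 15676)) (x (nat_lit 15680))
    (x (nat_lit 15682)) (x (nat_lit 15684)) (x (nat_lit 15692)) (x (nat_lit 15694))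
    (x (nat_lit 15698)) (x (nat_lit 15700)) (x (nat_lit 15702)) (x (nat_lit 15706))
    (x (nat_lit 15708)) (x (nat_lit 15722)) (x (nat_lit 15728)) (x (nat_lit 15730))
    (x (nat_lit 15734)) (x (nat_lit 15736)) (x (nat_lit 15738)) (x (nat_lit 15746))
    (x (nat_lit 15748)) (x (nat_lit 15752)) (x (nat_lit 15754)) (x (nat_lit 15756))
    (x (nat_lit 15760)) (x (nat_lit 15762)) (x (nat_lit 15770)) (x (nat_lit 15772))
    (x (nat_lit 15774)) (x (nat_lit 15778)) (x (nat_lit 15780)) (x (nat_lit 15786))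
    (x (nat_lit 15812)) (x (nat_lit 15818)) (x (nat_lit 15820)) (x (nat_lit 15830))
    (x (nat_lit 15836)) (x (nat_lit 15838)) (x (nat_lit 15842)) (x (nat_lit 15844))
    (x (nat_lit 15846)) (x (nat_lit 15854)) (x (nat_lit 15856)) (x (nat_lit 15860))
    (x (nat_lit 15862)) (x (nat_lit 15864)) (x (nat_lit 15868)) (x (nat_lit 15870))
    (x (nat_lit 15884)) (x (nat_lit 15890)) (x (nat_lit 15892)) (x (nat_lit 15896))
    (x (nat_lit 15898)) (x (nat_lit 15900)) (x (nat_lit 15908)) (x (nat_lit 15910))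
    (x (nat_lit 15914)) (x (nat_lit 15916)) (x (nat_lit 15918)) (x (nat_lit 15922))
    (x (nat_lit 15924)) (x (nat_lit 15932)) (x (nat_lit 15934)) (x (nat_lit 15936))
    (x (nat_lit 15940)) (x (nat_lit 15942)) (x (nat_lit 15948)) (x (nat_lit 15962))
    (x (nat_lit 15964)) (x (nat_lit 15968)) (x (nat_lit 15970)) (x (nat_lit 15972))
    (x (nat_lit 15976)) (x (nat_lit 15978)) (x (nat_lit 15986)) (x (nat_lit 15988))
    (x (nat_lit 15990)) (x (nat_lit 15994)) (x (nat_lit 15996)) (x (nat_lit 16002))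
    (x (nat_lit 16012)) (x (nat_lit 16014)) (x (nat_lit 16020)) (x (nat_lit 16064))
    (x (nat_lit 16082)) (x (nat_lit 16088)) (x (nat_lit 16090)) (x (nat_lit 16100))
    (x (nat_lit 16106)) (x (nat_lit 16108)) (x (nat_lit 16112)) (x (nat_lit 16114))
    (x (nat_lit 16116)) (x (nat_lit 16136)) (x (nat_lit 16142)) (x (nat_lit 16144))
    (x (nat_lit 16154)) (x (nat_lit 16160)) (x (nat_lit 16162)) (x (nat_lit 16166))
    (x (nat_lit 16168)) (x (nat_lit 16170)) (x (nat_lit 16178)) (x (nat_lit 16180))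
    (x (nat_lit 16184)) (x (nat_lit 16186)) (x (nat_lit 16188)) (x (nat_lit 16192))
    (x (nat_lit 16194)) (x (nat_lit 16208)) (x (nat_lit 16214)) (x (nat_lit 16216))
    (x (nat_lit 16220)) (x (nat_lit 16222)) (x (nat_lit 16224)) (x (nat_lit 16232))
    (x (nat_lit 16234)) (x (nat_lit 16238)) (x (nat_lit 16240)) (x (nat_lit 16242))
    (x (nat_lit 16246)) (x (nat_lit 16248)) (x (nat_lit 16256)) (x (nat_lit 16258))
    (x (nat_lit 16260)) (x (nat_lit 16264)) (x (nat_lit 16266)) (x (nat_lit 16272))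
    (x (nat_lit 16298)) (x (nat_lit 16304)) (x (nat_lit 16306)) (x (nat_lit 16316))
    (x (nat_lit 16322)) (x (nat_lit 16324)) (x (nat_lit 16328)) (x (nat_lit 16330))
    (x (nat_lit 16332)) (x (nat_lit 16340)) (x (nat_lit 16342)) (x (nat_lit 16346))
    (x (nat_lit 16348)) (x (nat_lit 16350)) (x (nat_lit 16354)) (x (nat_lit 16356))
    (x (nat_lit 16370)) (x (nat_lit 16376)) (x (nat_lit 16378)) (x (nat_lit 16382))
    (x (nat_lit 16384)) (x (nat_lit 16386)) (x (nat_lit 16394)) (x (nat_lit 16396))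
    (x (nat_lit 16400)) (x (nat_lit 16402)) (x (nat_lit 16404)) (x (nat_lit 16408))
    (x (nat_lit 16410)) (x (nat_lit 16418)) (x (nat_lit 16420)) (x (nat_lit 16422))
    (x (nat_lit 16426)) (x (nat_lit 16428)) (x (nat_lit 16434)) (x (nat_lit 16448))
    (x (nat_lit 16450)) (x (nat_lit 16454)) (x (nat_lit 16456)) (x (nat_lit 16458))
    (x (nat_lit 16462)) (x (nat_lit 16464)) (x (nat_lit 16472)) (x (nat_lit 16474))
    (x (nat_lit 16476)) (x (nat_lit 16480)) (x (nat_lit 16482)) (x (nat_lit 16488))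
    (x (nat_lit 16498)) (x (nat_lit 16500)) (x (nat_lit 16506)) (x (nat_lit 16532))
    (x (nat_lit 16538)) (x (nat_lit 16540)) (x (nat_lit 16544)) (x (nat_lit 16546))
    (x (nat_lit 16548)) (x (nat_lit 16556)) (x (nat_lit 16558)) (x (nat_lit 16562))
    (x (nat_lit 16564)) (x (nat_lit 16566)) (x (nat_lit 16570)) (x (nat_lit 16572))
    (x (nat_lit 16580)) (x (nat_lit 16582)) (x (nat_lit 16584)) (x (nat_lit 16588))
    (x (nat_lit 16590)) (x (nat_lit 16596)) (x (nat_lit 16610)) (x (nat_lit 16612))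
    (x (nat_lit 16616)) (x (nat_lit 16618)) (x (nat_lit 16620)) (x (nat_lit 16624))
    (x (nat_lit 16626)) (x (nat_lit 16634)) (x (nat_lit 16636)) (x (nat_lit 16638))
    (x (nat_lit 16642)) (x (nat_lit 16644)) (x (nat_lit 16650)) (x (nat_lit 16660))
    (x (nat_lit 16662)) (x (nat_lit 16668)) (x (nat_lit 16688)) (x (nat_lit 16690))
    (x (nat_lit 16692)) (x (nat_lit 16696)) (x (nat_lit 16698)) (x (nat_lit 16704))
    (x (nat_lit 16714)) (x (nat_lit 16716)) (x (nat_lit 16722)) (x (nat_lit 16740))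
    (x (nat_lit 16784)) (x (nat_lit 16790)) (x (nat_lit 16792)) (x (nat_lit 16802))
    (x (nat_lit 16808)) (x (nat_lit 16810)) (x (nat_lit 16814)) (x (nat_lit 16816))
    (x (nat_lit 16818)) (x (nat_lit 16826)) (x (nat_lit 16828)) (x (nat_lit 16832))
    (x (nat_lit 16834)) (x (nat_lit 16836)) (x (nat_lit 16840)) (x (nat_lit 16842))
    (x (nat_lit 16856)) (x (nat_lit 16862)) (x (nat_lit 16864)) (x (nat_lit 16868))
    (x (nat_lit 16870)) (x (nat_lit 16872)) (x (nat_lit 16880)) (x (nat_lit 16882))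
    (x (nat_lit 16886)) (x (nat_lit 16888)) (x (nat_lit 16890)) (x (nat_lit 16894))
    (x (nat_lit 16896)) (x (nat_lit 16904)) (x (nat_lit 16906)) (x (nat_lit 16908))
    (x (nat_lit 16912)) (x (nat_lit 16914)) (x (nat_lit 16920)) (x (nat_lit 16934))
    (x (nat_lit 16936)) (x (nat_lit 16940)) (x (nat_lit 16942)) (x (nat_lit 16944))
    (x (nat_lit 16948)) (x (nat_lit 16950)) (x (nat_lit 16958)) (x (nat_lit 16960))
    (x (nat_lit 16962)) (x (nat_lit 16966)) (x (nat_lit 16968)) (x (nat_lit 16974))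
    (x (nat_lit 16984)) (x (nat_lit 16986)) (x (nat_lit 16992)) (x (nat_lit 17018))
    (x (nat_lit 17024)) (x (nat_lit 17026)) (x (nat_lit 17030)) (x (nat_lit 17032))
    (x (nat_lit 17034)) (x (nat_lit 17042)) (x (nat_lit 17044)) (x (nat_lit 17048))
    (x (nat_lit 17050)) (x (nat_lit 17052)) (x (nat_lit 17056)) (x (nat_lit 17058))
    (x (nat_lit 17066)) (x (nat_lit 17068)) (x (nat_lit 17070)) (x (nat_lit 17074))
    (x (nat_lit 17076)) (x (nat_lit 17082)) (x (nat_lit 17096)) (x (nat_lit 17098))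
    (x (nat_lit 17102)) (x (nat_lit 17104)) (x (nat_lit 17106)) (x (nat_lit 17110))
    (x (nat_lit 17112)) (x (nat_lit 17120)) (x (nat_lit 17122)) (x (nat_lit 17124))
    (x (nat_lit 17128)) (x (nat_lit 17130)) (x (nat_lit 17136)) (x (nat_lit 17146))
    (x (nat_lit 17148)) (x (nat_lit 17154)) (x (nat_lit 17174)) (x (nat_lit 17176))
    (x (nat_lit 17178)) (x (nat_lit 17182)) (x (nat_lit 17184)) (x (nat_lit 17190))
    (x (nat_lit 17200)) (x (nat_lit 17202)) (x (nat_lit 17208)) (x (nat_lit 17226))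
    (x (nat_lit 17258)) (x (nat_lit 17260)) (x (nat_lit 17264)) (x (nat_lit 17266))
    (x (nat_lit 17268)) (x (nat_lit 17272)) (x (nat_lit 17274)) (x (nat_lit 17282))
    (x (nat_lit 17284)) (x (nat_lit 17286)) (x (nat_lit 17290)) (x (nat_lit 17292))
    (x (nat_lit 17298)) (x (nat_lit 17308)) (x (nat_lit 17310)) (x (nat_lit 17316))
    (x (nat_lit 17336)) (x (nat_lit 17338)) (x (nat_lit 17340)) (x (nat_lit 17344))
    (x (nat_lit 17346)) (x (nat_lit 17352)) (x (nat_lit 17362)) (x (nat_lit 17364))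
    (x (nat_lit 17370)) (x (nat_lit 17388)) (x (nat_lit 17416)) (x (nat_lit 17418))
    (x (nat_lit 17424)) (x (nat_lit 17442)) (x (nat_lit 17522)) (x (nat_lit 17540))
    (x (nat_lit 17546)) (x (nat_lit 17548)) (x (nat_lit 17558)) (x (nat_lit 17564))
    (x (nat_lit 17566)) (x (nat_lit 17570)) (x (nat_lit 17572)) (x (nat_lit 17574))
    (x (nat_lit 17594)) (x (nat_lit 17600)) (x (nat_lit 17602)) (x (nat_lit 17612))
    (x (nat_lit 17618)) (x (nat_lit 17620)) (x (nat_lit 17624)) (x (nat_lit 17626))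
    (x (nat_lit 17628)) (x (nat_lit 17636)) (x (nat_lit 17638)) (x (nat_lit 17642))
    (x (nat_lit 17644)) (x (nat_lit 17646)) (x (nat_lit 17650)) (x (nat_lit 17652))
    (x (nat_lit 17666)) (x (nat_lit 17672)) (x (nat_lit 17674)) (x (nat_lit 17678))
    (x (nat_lit 17680)) (x (nat_lit 17682)) (x (nat_lit 17690)) (x (nat_lit 17692))
    (x (nat_lit 17696)) (x (nat_lit 17698)) (x (nat_lit 17700)) (x (nat_lit 17704))
    (x (nat_lit 17706)) (x (nat_lit 17714)) (x (nat_lit 17716)) (x (nat_lit 17718))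
    (x (nat_lit 17722)) (x (nat_lit 17724)) (x (nat_lit 17730)) (x (nat_lit 17756))
    (x (nat_lit 17762)) (x (nat_lit 17764)) (x (nat_lit 17774)) (x (nat_lit 17780))
    (x (nat_lit 17782)) (x (nat_lit 17786)) (x (nat_lit 17788)) (x (nat_lit 17790))
    (x (nat_lit 17798)) (x (nat_lit 17800)) (x (nat_lit 17804)) (x (nat_lit 17806))
    (x (nat_lit 17808)) (x (nat_lit 17812)) (x (nat_lit 17814)) (x (nat_lit 17828))
    (x (nat_lit 17834)) (x (nat_lit 17836)) (x (nat_lit 17840)) (x (nat_lit 17842))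
    (x (nat_lit 17844)) (x (nat_lit 17852)) (x (nat_lit 17854)) (x (nat_lit 17858))
    (x (nat_lit 17860)) (x (nat_lit 17862)) (x (nat_lit 17866)) (x (nat_lit 17868))
    (x (nat_lit 17876)) (x (nat_lit 17878)) (x (nat_lit 17880)) (x (nat_lit 17884))
    (x (nat_lit 17886)) (x (nat_lit 17892)) (x (nat_lit 17906)) (x (nat_lit 17908))
    (x (nat_lit 17912)) (x (nat_lit 17914)) (x (nat_lit 17916)) (x (nat_lit 17920))
    (x (nat_lit 17922)) (x (nat_lit 17930)) (x (nat_lit 17932)) (x (nat_lit 17934))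
    (x (nat_lit 17938)) (x (nat_lit 17940)) (x (nat_lit 17946)) (x (nat_lit 17956))
    (x (nat_lit 17958)) (x (nat_lit 17964)) (x (nat_lit 17990)) (x (nat_lit 17996))
    (x (nat_lit 17998)) (x (nat_lit 18002)) (x (nat_lit 18004)) (x (nat_lit 18006))
    (x (nat_lit 18014)) (x (nat_lit 18016)) (x (nat_lit 18020)) (x (nat_lit 18022))
    (x (nat_lit 18024)) (x (nat_lit 18028)) (x (nat_lit 18030)) (x (nat_lit 18038))
    (x (nat_lit 18040)) (x (nat_lit 18042)) (x (nat_lit 18046)) (x (nat_lit 18048))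
    (x (nat_lit 18054)) (x (nat_lit 18068)) (x (nat_lit 18070)) (x (nat_lit 18074))
    (x (nat_lit 18076)) (x (nat_lit 18078)) (x (nat_lit 18082)) (x (nat_lit 18084))
    (x (nat_lit 18092)) (x (nat_lit 18094)) (x (nat_lit 18096)) (x (nat_lit 18100))
    (x (nat_lit 18102)) (x (nat_lit 18108)) (x (nat_lit 18118)) (x (nat_lit 18120))
    (x (nat_lit 18126)) (x (nat_lit 18146)) (x (nat_lit 18148)) (x (nat_lit 18150))
    (x (nat_lit 18154)) (x (nat_lit 18156)) (x (nat_lit 18162)) (x (nat_lit 18172))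
    (x (nat_lit 18174)) (x (nat_lit 18180)) (x (nat_lit 18198)) (x (nat_lit 18242))
    (x (nat_lit 18248)) (x (nat_lit 18250)) (x (nat_lit 18260)) (x (nat_lit 18266))
    (x (nat_lit 18268)) (x (nat_lit 18272)) (x (nat_lit 18274)) (x (nat_lit 18276))
    (x (nat_lit 18284)) (x (nat_lit 18286)) (x (nat_lit 18290)) (x (nat_lit 18292))
    (x (nat_lit 18294)) (x (nat_lit 18298)) (x (nat_lit 18300)) (x (nat_lit 18314))
    (x (nat_lit 18320)) (x (nat_lit 18322)) (x (nat_lit 18326)) (x (nat_lit 18328))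
    (x (nat_lit 18330)) (x (nat_lit 18338)) (x (nat_lit 18340)) (x (nat_lit 18344))
    (x (nat_lit 18346)) (x (nat_lit 18348)) (x (nat_lit 18352)) (x (nat_lit 18354))
    (x (nat_lit 18362)) (x (nat_lit 18364)) (x (nat_lit 18366)) (x (nat_lit 18370))
    (x (nat_lit 18372)) (x (nat_lit 18378)) (x (nat_lit 18392)) (x (nat_lit 18394))
    (x (nat_lit 18398)) (x (nat_lit 18400)) (x (nat_lit 18402)) (x (nat_lit 18406))
    (x (nat_lit 18408)) (x (nat_lit 18416)) (x (nat_lit 18418)) (x (nat_lit 18420))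
    (x (nat_lit 18424)) (x (nat_lit 18426)) (x (nat_lit 18432)) (x (nat_lit 18442))
    (x (nat_lit 18444)) (x (nat_lit 18450)) (x (nat_lit 18476)) (x (nat_lit 18482))
    (x (nat_lit 18484)) (x (nat_lit 18488)) (x (nat_lit 18490)) (x (nat_lit 18492))
    (x (nat_lit 18500)) (x (nat_lit 18502)) (x (nat_lit 18506)) (x (nat_lit 18508))
    (x (nat_lit 18510)) (x (nat_lit 18514)) (x (nat_lit 18516)) (x (nat_lit 18524))
    (x (nat_lit 18526)) (x (nat_lit 18528)) (x (nat_lit 18532)) (x (nat_lit 18534))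
    (x (nat_lit 18540)) (x (nat_lit 18554)) (x (nat_lit 18556)) (x (nat_lit 18560))
    (x (nat_lit 18562)) (x (nat_lit 18564)) (x (nat_lit 18568)) (x (nat_lit 18570))
    (x (nat_lit 18578)) (x (nat_lit 18580)) (x (nat_lit 18582)) (x (nat_lit 18586))
    (x (nat_lit 18588)) (x (nat_lit 18594)) (x (nat_lit 18604)) (x (nat_lit 18606))
    (x (nat_lit 18612)) (x (nat_lit 18632)) (x (nat_lit 18634)) (x (nat_lit 18636))
    (x (nat_lit 18640)) (x (nat_lit 18642)) (x (nat_lit 18648)) (x (nat_lit 18658))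
    (x (nat_lit 18660)) (x (nat_lit 18666)) (x (nat_lit 18684)) (x (nat_lit 18716))
    (x (nat_lit 18718)) (x (nat_lit 18722)) (x (nat_lit 18724)) (x (nat_lit 18726))
    (x (nat_lit 18730)) (x (nat_lit 18732)) (x (nat_lit 18740)) (x (nat_lit 18742))
    (x (nat_lit 18744)) (x (nat_lit 18748)) (x (nat_lit 18750)) (x (nat_lit 18756))
    (x (nat_lit 18766)) (x (nat_lit 18768)) (x (nat_lit 18774)) (x (nat_lit 18794))
    (x (nat_lit 18796)) (x (nat_lit 18798)) (x (nat_lit 18802)) (x (nat_lit 18804))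
    (x (nat_lit 18810)) (x (nat_lit 18820)) (x (nat_lit 18822)) (x (nat_lit 18828))
    (x (nat_lit 18846)) (x (nat_lit 18874)) (x (nat_lit 18876)) (x (nat_lit 18882))
    (x (nat_lit 18900)) (x (nat_lit 18962)) (x (nat_lit 18968)) (x (nat_lit 18970))
    (x (nat_lit 18974)) (x (nat_lit 18976)) (x (nat_lit 18978)) (x (nat_lit 18986))
    (x (nat_lit 18988)) (x (nat_lit 18992)) (x (nat_lit 18994)) (x (nat_lit 18996))
    (x (nat_lit 19000)) (x (nat_lit 19002)) (x (nat_lit 19010)) (x (nat_lit 19012))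
    (x (nat_lit 19014)) (x (nat_lit 19018)) (x (nat_lit 19020)) (x (nat_lit 19026))
    (x (nat_lit 19040)) (x (nat_lit 19042)) (x (nat_lit 19046)) (x (nat_lit 19048))
    (x (nat_lit 19050)) (x (nat_lit 19054)) (x (nat_lit 19056)) (x (nat_lit 19064))
    (x (nat_lit 19066)) (x (nat_lit 19068)) (x (nat_lit 19072)) (x (nat_lit 19074))
    (x (nat_lit 19080)) (x (nat_lit 19090)) (x (nat_lit 19092)) (x (nat_lit 19098))
    (x (nat_lit 19118)) (x (nat_lit 19120)) (x (nat_lit 19122)) (x (nat_lit 19126))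
    (x (nat_lit 19128)) (x (nat_lit 19134)) (x (nat_lit 19144)) (x (nat_lit 19146))
    (x (nat_lit 19152)) (x (nat_lit 19170)) (x (nat_lit 19202)) (x (nat_lit 19204))
    (x (nat_lit 19208)) (x (nat_lit 19210)) (x (nat_lit 19212)) (x (nat_lit 19216))
    (x (nat_lit 19218)) (x (nat_lit 19226)) (x (nat_lit 19228)) (x (nat_lit 19230))
    (x (nat_lit 19234)) (x (nat_lit 19236)) (x (nat_lit 19242)) (x (nat_lit 19252))
    (x (nat_lit 19254)) (x (nat_lit 19260)) (x (nat_lit 19280)) (x (nat_lit 19282))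
    (x (nat_lit 19284)) (x (nat_lit 19288)) (x (nat_lit 19290)) (x (nat_lit 19296))
    (x (nat_lit 19306)) (x (nat_lit 19308)) (x (nat_lit 19314)) (x (nat_lit 19332))
    (x (nat_lit 19360)) (x (nat_lit 19362)) (x (nat_lit 19368)) (x (nat_lit 19386))
    (x (nat_lit 19442)) (x (nat_lit 19444)) (x (nat_lit 19446)) (x (nat_lit 19450))
    (x (nat_lit 19452)) (x (nat_lit 19458)) (x (nat_lit 19468)) (x (nat_lit 19470))
    (x (nat_lit 19476)) (x (nat_lit 19494)) (x (nat_lit 19522)) (x (nat_lit 19524))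
    (x (nat_lit 19530)) (x (nat_lit 19548)) (x (nat_lit 19602)) (x (nat_lit 19844))
    (x (nat_lit 19898)) (x (nat_lit 19916)) (x (nat_lit 19922)) (x (nat_lit 19924))
    (x (nat_lit 20006)) (x (nat_lit 20060)) (x (nat_lit 20078)) (x (nat_lit 20084))
    (x (nat_lit 20086)) (x (nat_lit 20114)) (x (nat_lit 20132)) (x (nat_lit 20138))
    (x (nat_lit 20140)) (x (nat_lit 20150)) (x (nat_lit 20156)) (x (nat_lit 20158))
    (x (nat_lit 20162)) (x (nat_lit 20164)) (x (nat_lit 20166)) (x (nat_lit 20222))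
    (x (nat_lit 20240)) (x (nat_lit 20246)) (x (nat_lit 20248)) (x (nat_lit 20276))
    (x (nat_lit 20294)) (x (nat_lit 20300)) (x (nat_lit 20302)) (x (nat_lit 20312))
    (x (nat_lit 20318)) (x (nat_lit 20320)) (x (nat_lit 20324)) (x (nat_lit 20326))
    (x (nat_lit 20328)) (x (nat_lit 20348)) (x (nat_lit 20354)) (x (nat_lit 20356))
    (x (nat_lit 20366)) (x (nat_lit 20372)) (x (nat_lit 20374)) (x (nat_lit 20378))
    (x (nat_lit 20380)) (x (nat_lit 20382)) (x (nat_lit 20390)) (x (nat_lit 20392))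
    (x (nat_lit 20396)) (x (nat_lit 20398)) (x (nat_lit 20400)) (x (nat_lit 20404))
    (x (nat_lit 20406)) (x (nat_lit 20492)) (x (nat_lit 20546)) (x (nat_lit 20564))
    (x (nat_lit 20570)) (x (nat_lit 20572)) (x (nat_lit 20600)) (x (nat_lit 20618))
    (x (nat_lit 20624)) (x (nat_lit 20626)) (x (nat_lit 20636)) (x (nat_lit 20642))
    (x (nat_lit 20644)) (x (nat_lit 20648)) (x (nat_lit 20650)) (x (nat_lit 20652))
    (x (nat_lit 20708)) (x (nat_lit 20726)) (x (nat_lit 20732)) (x (nat_lit 20734))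
    (x (nat_lit 20762)) (x (nat_lit 20780)) (x (nat_lit 20786)) (x (nat_lit 20788))
    (x (nat_lit 20798)) (x (nat_lit 20804)) (x (nat_lit 20806)) (x (nat_lit 20810))
    (x (nat_lit 20812)) (x (nat_lit 20814)) (x (nat_lit 20834)) (x (nat_lit 20840))
    (x (nat_lit 20842)) (x (nat_lit 20852)) (x (nat_lit 20858)) (x (nat_lit 20860))
    (x (nat_lit 20864)) (x (nat_lit 20866)) (x (nat_lit 20868)) (x (nat_lit 20876))
    (x (nat_lit 20878)) (x (nat_lit 20882)) (x (nat_lit 20884)) (x (nat_lit 20886))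
    (x (nat_lit 20890)) (x (nat_lit 20892)) (x (nat_lit 20924)) (x (nat_lit 20942))
    (x (nat_lit 20948)) (x (nat_lit 20950)) (x (nat_lit 20960)) (x (nat_lit 20966))
    (x (nat_lit 20968)) (x (nat_lit 20972)) (x (nat_lit 20974)) (x (nat_lit 20976))
    (x (nat_lit 20996)) (x (nat_lit 21002)) (x (nat_lit 21004)) (x (nat_lit 21014))
    (x (nat_lit 21020)) (x (nat_lit 21022)) (x (nat_lit 21026)) (x (nat_lit 21028))
    (x (nat_lit 21030)) (x (nat_lit 21038)) (x (nat_lit 21040)) (x (nat_lit 21044))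
    (x (nat_lit 21046)) (x (nat_lit 21048)) (x (nat_lit 21052)) (x (nat_lit 21054))
    (x (nat_lit 21068)) (x (nat_lit 21074)) (x (nat_lit 21076)) (x (nat_lit 21080))
    (x (nat_lit 21082)) (x (nat_lit 21084)) (x (nat_lit 21092)) (x (nat_lit 21094))
    (x (nat_lit 21098)) (x (nat_lit 21100)) (x (nat_lit 21102)) (x (nat_lit 21106))
    (x (nat_lit 21108)) (x (nat_lit 21116)) (x (nat_lit 21118)) (x (nat_lit 21120))
    (x (nat_lit 21124)) (x (nat_lit 21126)) (x (nat_lit 21132)) (x (nat_lit 21194))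
    (x (nat_lit 21212)) (x (nat_lit 21218)) (x (nat_lit 21220)) (x (nat_lit 21248))
    (x (nat_lit 21266)) (x (nat_lit 21272)) (x (nat_lit 21274)) (x (nat_lit 21284))
    (x (nat_lit 21290)) (x (nat_lit 21292)) (x (nat_lit 21296)) (x (nat_lit 21298))
    (x (nat_lit 21300)) (x (nat_lit 21320)) (x (nat_lit 21326)) (x (nat_lit 21328))
    (x (nat_lit 21338)) (x (nat_lit 21344)) (x (nat_lit 21346)) (x (nat_lit 21350))
    (x (nat_lit 21352)) (x (nat_lit 21354)) (x (nat_lit 21362)) (x (nat_lit 21364))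
    (x (nat_lit 21368)) (x (nat_lit 21370)) (x (nat_lit 21372)) (x (nat_lit 21376))
    (x (nat_lit 21378)) (x (nat_lit 21410)) (x (nat_lit 21428)) (x (nat_lit 21434))
    (x (nat_lit 21436)) (x (nat_lit 21446)) (x (nat_lit 21452)) (x (nat_lit 21454))
    (x (nat_lit 21458)) (x (nat_lit 21460)) (x (nat_lit 21462)) (x (nat_lit 21482))
    (x (nat_lit 21488)) (x (nat_lit 21490)) (x (nat_lit 21500)) (x (nat_lit 21506))
    (x (nat_lit 21508)) (x (nat_lit 21512)) (x (nat_lit 21514)) (x (nat_lit 21516))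
    (x (nat_lit 21524)) (x (nat_lit 21526)) (x (nat_lit 21530)) (x (nat_lit 21532))
    (x (nat_lit 21534)) (x (nat_lit 21538)) (x (nat_lit 21540)) (x (nat_lit 21554))
    (x (nat_lit 21560)) (x (nat_lit 21562)) (x (nat_lit 21566)) (x (nat_lit 21568))
    (x (nat_lit 21570)) (x (nat_lit 21578)) (x (nat_lit 21580)) (x (nat_lit 21584))
    (x (nat_lit 21586)) (x (nat_lit 21588)) (x (nat_lit 21592)) (x (nat_lit 21594))
    (x (nat_lit 21602)) (x (nat_lit 21604)) (x (nat_lit 21606)) (x (nat_lit 21610))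
    (x (nat_lit 21612)) (x (nat_lit 21618)) (x (nat_lit 21644)) (x (nat_lit 21650))
    (x (nat_lit 21652)) (x (nat_lit 21662)) (x (nat_lit 21668)) (x (nat_lit 21670))
    (x (nat_lit 21674)) (x (nat_lit 21676)) (x (nat_lit 21678)) (x (nat_lit 21686))
    (x (nat_lit 21688)) (x (nat_lit 21692)) (x (nat_lit 21694)) (x (nat_lit 21696))
    (x (nat_lit 21700)) (x (nat_lit 21702)) (x (nat_lit 21716)) (x (nat_lit 21722))
    (x (nat_lit 21724)) (x (nat_lit 21728)) (x (nat_lit 21730)) (x (nat_lit 21732))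
    (x (nat_lit 21740)) (x (nat_lit 21742)) (x (nat_lit 21746)) (x (nat_lit 21748))
    (x (nat_lit 21750)) (x (nat_lit 21754)) (x (nat_lit 21756)) (x (nat_lit 21764))
    (x (nat_lit 21766)) (x (nat_lit 21768)) (x (nat_lit 21772)) (x (nat_lit 21774))
    (x (nat_lit 21780)) (x (nat_lit 21794)) (x (nat_lit 21796)) (x (nat_lit 21800))
    (x (nat_lit 21802)) (x (nat_lit 21804)) (x (nat_lit 21808)) (x (nat_lit 21810))
    (x (nat_lit 21818)) (x (nat_lit 21820)) (x (nat_lit 21822)) (x (nat_lit 21826))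
    (x (nat_lit 21828)) (x (nat_lit 21834)) (x (nat_lit 21844)) (x (nat_lit 21846))
    (x (nat_lit 21852)) (x (nat_lit 21950)) (x (nat_lit 22004)) (x (nat_lit 22022))
    (x (nat_lit 22028)) (x (nat_lit 22030)) (x (nat_lit 22058)) (x (nat_lit 22076))
    (x (nat_lit 22082)) (x (nat_lit 22084)) (x (nat_lit 22094)) (x (nat_lit 22100))
    (x (nat_lit 22102)) (x (nat_lit 22106)) (x (nat_lit 22108)) (x (nat_lit 22110))
    (x (nat_lit 22166)) (x (nat_lit 22184)) (x (nat_lit 22190)) (x (nat_lit 22192))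
    (x (nat_lit 22220)) (x (nat_lit 22238)) (x (nat_lit 22244)) (x (nat_lit 22246))
    (x (nat_lit 22256)) (x (nat_lit 22262)) (x (nat_lit 22264)) (x (nat_lit 22268))
    (x (nat_lit 22270)) (x (nat_lit 22272)) (x (nat_lit 22292)) (x (nat_lit 22298))
    (x (nat_lit 22300)) (x (nat_lit 22310)) (x (nat_lit 22316)) (x (nat_lit 22318))
    (x (nat_lit 22322)) (x (nat_lit 22324)) (x (nat_lit 22326)) (x (nat_lit 22334))
    (x (nat_lit 22336)) (x (nat_lit 22340)) (x (nat_lit 22342)) (x (nat_lit 22344))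
    (x (nat_lit 22348)) (x (nat_lit 22350)) (x (nat_lit 22382)) (x (nat_lit 22400))
    (x (nat_lit 22406)) (x (nat_lit 22408)) (x (nat_lit 22418)) (x (nat_lit 22424))
    (x (nat_lit 22426)) (x (nat_lit 22430)) (x (nat_lit 22432)) (x (nat_lit 22434))
    (x (nat_lit 22454)) (x (nat_lit 22460)) (x (nat_lit 22462)) (x (nat_lit 22472))
    (x (nat_lit 22478)) (x (nat_lit 22480)) (x (nat_lit 22484)) (x (nat_lit 22486))
    (x (nat_lit 22488)) (x (nat_lit 22496)) (x (nat_lit 22498)) (x (nat_lit 22502))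
    (x (nat_lit 22504)) (x (nat_lit 22506)) (x (nat_lit 22510)) (x (nat_lit 22512))
    (x (nat_lit 22526)) (x (nat_lit 22532)) (x (nat_lit 22534)) (x (nat_lit 22538))
    (x (nat_lit 22540)) (x (nat_lit 22542)) (x (nat_lit 22550)) (x (nat_lit 22552))
    (x (nat_lit 22556)) (x (nat_lit 22558)) (x (nat_lit 22560)) (x (nat_lit 22564))
    (x (nat_lit 22566)) (x (nat_lit 22574)) (x (nat_lit 22576)) (x (nat_lit 22578))
    (x (nat_lit 22582)) (x (nat_lit 22584)) (x (nat_lit 22590)) (x (nat_lit 22652))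
    (x (nat_lit 22670)) (x (nat_lit 22676)) (x (nat_lit 22678)) (x (nat_lit 22706))
    (x (nat_lit 22724)) (x (nat_lit 22730)) (x (nat_lit 22732)) (x (nat_lit 22742))
    (x (nat_lit 22748)) (x (nat_lit 22750)) (x (nat_lit 22754)) (x (nat_lit 22756))
    (x (nat_lit 22758)) (x (nat_lit 22778)) (x (nat_lit 22784)) (x (nat_lit 22786))
    (x (nat_lit 22796)) (x (nat_lit 22802)) (x (nat_lit 22804)) (x (nat_lit 22808))
    (x (nat_lit 22810)) (x (nat_lit 22812)) (x (nat_lit 22820)) (x (nat_lit 22822))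
    (x (nat_lit 22826)) (x (nat_lit 22828)) (x (nat_lit 22830)) (x (nat_lit 22834))
    (x (nat_lit 22836)) (x (nat_lit 22868)) (x (nat_lit 22886)) (x (nat_lit 22892))
    (x (nat_lit 22894)) (x (nat_lit 22904)) (x (nat_lit 22910)) (x (nat_lit 22912))
    (x (nat_lit 22916)) (x (nat_lit 22918)) (x (nat_lit 22920)) (x (nat_lit 22940))
    (x (nat_lit 22946)) (x (nat_lit 22948)) (x (nat_lit 22958)) (x (nat_lit 22964))
    (x (nat_lit 22966)) (x (nat_lit 22970)) (x (nat_lit 22972)) (x (nat_lit 22974))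
    (x (nat_lit 22982)) (x (nat_lit 22984)) (x (nat_lit 22988)) (x (nat_lit 22990))
    (x (nat_lit 22992)) (x (nat_lit 22996)) (x (nat_lit 22998)) (x (nat_lit 23012))
    (x (nat_lit 23018)) (x (nat_lit 23020)) (x (nat_lit 23024)) (x (nat_lit 23026))
    (x (nat_lit 23028)) (x (nat_lit 23036)) (x (nat_lit 23038)) (x (nat_lit 23042))
    (x (nat_lit 23044)) (x (nat_lit 23046)) (x (nat_lit 23050)) (x (nat_lit 23052))
    (x (nat_lit 23060)) (x (nat_lit 23062)) (x (nat_lit 23064)) (x (nat_lit 23068))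
    (x (nat_lit 23070)) (x (nat_lit 23076)) (x (nat_lit 23102)) (x (nat_lit 23108))
    (x (nat_lit 23110)) (x (nat_lit 23120)) (x (nat_lit 23126)) (x (nat_lit 23128))
    (x (nat_lit 23132)) (x (nat_lit 23134)) (x (nat_lit 23136)) (x (nat_lit 23144))
    (x (nat_lit 23146)) (x (nat_lit 23150)) (x (nat_lit 23152)) (x (nat_lit 23154))
    (x (nat_lit 23158)) (x (nat_lit 23160)) (x (nat_lit 23174)) (x (nat_lit 23180))
    (x (nat_lit 23182)) (x (nat_lit 23186)) (x (nat_lit 23188)) (x (nat_lit 23190))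
    (x (nat_lit 23198)) (x (nat_lit 23200)) (x (nat_lit 23204)) (x (nat_lit 23206))
    (x (nat_lit 23208)) (x (nat_lit 23212)) (x (nat_lit 23214)) (x (nat_lit 23222))
    (x (nat_lit 23224)) (x (nat_lit 23226)) (x (nat_lit 23230)) (x (nat_lit 23232))
    (x (nat_lit 23238)) (x (nat_lit 23252)) (x (nat_lit 23254)) (x (nat_lit 23258))
    (x (nat_lit 23260)) (x (nat_lit 23262)) (x (nat_lit 23266)) (x (nat_lit 23268))
    (x (nat_lit 23276)) (x (nat_lit 23278)) (x (nat_lit 23280)) (x (nat_lit 23284))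
    (x (nat_lit 23286)) (x (nat_lit 23292)) (x (nat_lit 23302)) (x (nat_lit 23304))
    (x (nat_lit 23310)) (x (nat_lit 23354)) (x (nat_lit 23372)) (x (nat_lit 23378))
    (x (nat_lit 23380)) (x (nat_lit 23390)) (x (nat_lit 23396)) (x (nat_lit 23398))
    (x (nat_lit 23402)) (x (nat_lit 23404)) (x (nat_lit 23406)) (x (nat_lit 23426))
    (x (nat_lit 23432)) (x (nat_lit 23434)) (x (nat_lit 23444)) (x (nat_lit 23450))
    (x (nat_lit 23452)) (x (nat_lit 23456)) (x (nat_lit 23458)) (x (nat_lit 23460))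
    (x (nat_lit 23468)) (x (nat_lit 23470)) (x (nat_lit 23474)) (x (nat_lit 23476))
    (x (nat_lit 23478)) (x (nat_lit 23482)) (x (nat_lit 23484)) (x (nat_lit 23498))
    (x (nat_lit 23504)) (x (nat_lit 23506)) (x (nat_lit 23510)) (x (nat_lit 23512))
    (x (nat_lit 23514)) (x (nat_lit 23522)) (x (nat_lit 23524)) (x (nat_lit 23528))
    (x (nat_lit 23530)) (x (nat_lit 23532)) (x (nat_lit 23536)) (x (nat_lit 23538))
    (x (nat_lit 23546)) (x (nat_lit 23548)) (x (nat_lit 23550)) (x (nat_lit 23554))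
    (x (nat_lit 23556)) (x (nat_lit 23562)) (x (nat_lit 23588)) (x (nat_lit 23594))
    (x (nat_lit 23596)) (x (nat_lit 23606)) (x (nat_lit 23612)) (x (nat_lit 23614))
    (x (nat_lit 23618)) (x (nat_lit 23620)) (x (nat_lit 23622)) (x (nat_lit 23630))
    (x (nat_lit 23632)) (x (nat_lit 23636)) (x (nat_lit 23638)) (x (nat_lit 23640))
    (x (nat_lit 23644)) (x (nat_lit 23646)) (x (nat_lit 23660)) (x (nat_lit 23666))
    (x (nat_lit 23668)) (x (nat_lit 23672)) (x (nat_lit 23674)) (x (nat_lit 23676))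
    (x (nat_lit 23684)) (x (nat_lit 23686)) (x (nat_lit 23690)) (x (nat_lit 23692))
    (x (nat_lit 23694)) (x (nat_lit 23698)) (x (nat_lit 23700)) (x (nat_lit 23708))
    (x (nat_lit 23710)) (x (nat_lit 23712)) (x (nat_lit 23716)) (x (nat_lit 23718))
    (x (nat_lit 23724)) (x (nat_lit 23738)) (x (nat_lit 23740)) (x (nat_lit 23744))
    (x (nat_lit 23746)) (x (nat_lit 23748)) (x (nat_lit 23752)) (x (nat_lit 23754))
    (x (nat_lit 23762)) (x (nat_lit 23764)) (x (nat_lit 23766)) (x (nat_lit 23770))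
    (x (nat_lit 23772)) (x (nat_lit 23778)) (x (nat_lit 23788)) (x (nat_lit 23790))
    (x (nat_lit 23796)) (x (nat_lit 23822)) (x (nat_lit 23828)) (x (nat_lit 23830))
    (x (nat_lit 23834)) (x (nat_lit 23836)) (x (nat_lit 23838)) (x (nat_lit 23846))
    (x (nat_lit 23848)) (x (nat_lit 23852)) (x (nat_lit 23854)) (x (nat_lit 23856))
    (x (nat_lit 23860)) (x (nat_lit 23862)) (x (nat_lit 23870)) (x (nat_lit 23872))
    (x (nat_lit 23874)) (x (nat_lit 23878)) (x (nat_lit 23880)) (x (nat_lit 23886))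
    (x (nat_lit 23900)) (x (nat_lit 23902)) (x (nat_lit 23906)) (x (nat_lit 23908))
    (x (nat_lit 23910)) (x (nat_lit 23914)) (x (nat_lit 23916)) (x (nat_lit 23924))
    (x (nat_lit 23926)) (x (nat_lit 23928)) (x (nat_lit 23932)) (x (nat_lit 23934))
    (x (nat_lit 23940)) (x (nat_lit 23950)) (x (nat_lit 23952)) (x (nat_lit 23958))
    (x (nat_lit 23978)) (x (nat_lit 23980)) (x (nat_lit 23982)) (x (nat_lit 23986))
    (x (nat_lit 23988)) (x (nat_lit 23994)) (x (nat_lit 24004)) (x (nat_lit 24006))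
    (x (nat_lit 24012)) (x (nat_lit 24030)) (x (nat_lit 24110)) (x (nat_lit 24128))
    (x (nat_lit 24134)) (x (nat_lit 24136)) (x (nat_lit 24164)) (x (nat_lit 24182))
    (x (nat_lit 24188)) (x (nat_lit 24190)) (x (nat_lit 24200)) (x (nat_lit 24206))
    (x (nat_lit 24208)) (x (nat_lit 24212)) (x (nat_lit 24214)) (x (nat_lit 24216))
    (x (nat_lit 24236)) (x (nat_lit 24242)) (x (nat_lit 24244)) (x (nat_lit 24254))
    (x (nat_lit 24260)) (x (nat_lit 24262)) (x (nat_lit 24266)) (x (nat_lit 24268))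
    (x (nat_lit 24270)) (x (nat_lit 24278)) (x (nat_lit 24280)) (x (nat_lit 24284))
    (x (nat_lit 24286)) (x (nat_lit 24288)) (x (nat_lit 24292)) (x (nat_lit 24294))
    (x (nat_lit 24326)) (x (nat_lit 24344)) (x (nat_lit 24350)) (x (nat_lit 24352))
    (x (nat_lit 24362)) (x (nat_lit 24368)) (x (nat_lit 24370)) (x (nat_lit 24374))
    (x (nat_lit 24376)) (x (nat_lit 24378)) (x (nat_lit 24398)) (x (nat_lit 24404))
    (x (nat_lit 24406)) (x (nat_lit 24416)) (x (nat_lit 24422)) (x (nat_lit 24424))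
    (x (nat_lit 24428)) (x (nat_lit 24430)) (x (nat_lit 24432)) (x (nat_lit 24440))
    (x (nat_lit 24442)) (x (nat_lit 24446)) (x (nat_lit 24448)) (x (nat_lit 24450))
    (x (nat_lit 24454)) (x (nat_lit 24456)) (x (nat_lit 24470)) (x (nat_lit 24476))
    (x (nat_lit 24478)) (x (nat_lit 24482)) (x (nat_lit 24484)) (x (nat_lit 24486))
    (x (nat_lit 24494)) (x (nat_lit 24496)) (x (nat_lit 24500)) (x (nat_lit 24502))
    (x (nat_lit 24504)) (x (nat_lit 24508)) (x (nat_lit 24510)) (x (nat_lit 24518))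
    (x (nat_lit 24520)) (x (nat_lit 24522)) (x (nat_lit 24526)) (x (nat_lit 24528))
    (x (nat_lit 24534)) (x (nat_lit 24560)) (x (nat_lit 24566)) (x (nat_lit 24568))
    (x (nat_lit 24578)) (x (nat_lit 24584)) (x (nat_lit 24586)) (x (nat_lit 24590))
    (x (nat_lit 24592)) (x (nat_lit 24594)) (x (nat_lit 24602)) (x (nat_lit 24604))
    (x (nat_lit 24608)) (x (nat_lit 24610)) (x (nat_lit 24612)) (x (nat_lit 24616))
    (x (nat_lit 24618)) (x (nat_lit 24632)) (x (nat_lit 24638)) (x (nat_lit 24640))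
    (x (nat_lit 24644)) (x (nat_lit 24646)) (x (nat_lit 24648)) (x (nat_lit 24656))
    (x (nat_lit 24658)) (x (nat_lit 24662)) (x (nat_lit 24664)) (x (nat_lit 24666))
    (x (nat_lit 24670)) (x (nat_lit 24672)) (x (nat_lit 24680)) (x (nat_lit 24682))
    (x (nat_lit 24684)) (x (nat_lit 24688)) (x (nat_lit 24690)) (x (nat_lit 24696))
    (x (nat_lit 24710)) (x (nat_lit 24712)) (x (nat_lit 24716)) (x (nat_lit 24718))
    (x (nat_lit 24720)) (x (nat_lit 24724)) (x (nat_lit 24726)) (x (nat_lit 24734))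
    (x (nat_lit 24736)) (x (nat_lit 24738)) (x (nat_lit 24742)) (x (nat_lit 24744))
    (x (nat_lit 24750)) (x (nat_lit 24760)) (x (nat_lit 24762)) (x (nat_lit 24768))
    (x (nat_lit 24812)) (x (nat_lit 24830)) (x (nat_lit 24836)) (x (nat_lit 24838))
    (x (nat_lit 24848)) (x (nat_lit 24854)) (x (nat_lit 24856)) (x (nat_lit 24860))
    (x (nat_lit 24862)) (x (nat_lit 24864)) (x (nat_lit 24884)) (x (nat_lit 24890))
    (x (nat_lit 24892)) (x (nat_lit 24902)) (x (nat_lit 24908)) (x (nat_lit 24910))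
    (x (nat_lit 24914)) (x (nat_lit 24916)) (x (nat_lit 24918)) (x (nat_lit 24926))
    (x (nat_lit 24928)) (x (nat_lit 24932)) (x (nat_lit 24934)) (x (nat_lit 24936))
    (x (nat_lit 24940)) (x (nat_lit 24942)) (x (nat_lit 24956)) (x (nat_lit 24962))
    (x (nat_lit 24964)) (x (nat_lit 24968)) (x (nat_lit 24970)) (x (nat_lit 24972))
    (x (nat_lit 24980)) (x (nat_lit 24982)) (x (nat_lit 24986)) (x (nat_lit 24988))
    (x (nat_lit 24990)) (x (nat_lit 24994)) (x (nat_lit 24996)) (x (nat_lit 25004))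
    (x (nat_lit 25006)) (x (nat_lit 25008)) (x (nat_lit 25012)) (x (nat_lit 25014))
    (x (nat_lit 25020)) (x (nat_lit 25046)) (x (nat_lit 25052)) (x (nat_lit 25054))
    (x (nat_lit 25064)) (x (nat_lit 25070)) (x (nat_lit 25072)) (x (nat_lit 25076))
    (x (nat_lit 25078)) (x (nat_lit 25080)) (x (nat_lit 25088)) (x (nat_lit 25090))
    (x (nat_lit 25094)) (x (nat_lit 25096)) (x (nat_lit 25098)) (x (nat_lit 25102))
    (x (nat_lit 25104)) (x (nat_lit 25118)) (x (nat_lit 25124)) (x (nat_lit 25126))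
    (x (nat_lit 25130)) (x (nat_lit 25132)) (x (nat_lit 25134)) (x (nat_lit 25142))
    (x (nat_lit 25144)) (x (nat_lit 25148)) (x (nat_lit 25150)) (x (nat_lit 25152))
    (x (nat_lit 25156)) (x (nat_lit 25158)) (x (nat_lit 25166)) (x (nat_lit 25168))
    (x (nat_lit 25170)) (x (nat_lit 25174)) (x (nat_lit 25176)) (x (nat_lit 25182))
    (x (nat_lit 25196)) (x (nat_lit 25198)) (x (nat_lit 25202)) (x (nat_lit 25204))
    (x (nat_lit 25206)) (x (nat_lit 25210)) (x (nat_lit 25212)) (x (nat_lit 25220))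
    (x (nat_lit 25222)) (x (nat_lit 25224)) (x (nat_lit 25228)) (x (nat_lit 25230))
    (x (nat_lit 25236)) (x (nat_lit 25246)) (x (nat_lit 25248)) (x (nat_lit 25254))
    (x (nat_lit 25280)) (x (nat_lit 25286)) (x (nat_lit 25288)) (x (nat_lit 25292))
    (x (nat_lit 25294)) (x (nat_lit 25296)) (x (nat_lit 25304)) (x (nat_lit 25306))
    (x (nat_lit 25310)) (x (nat_lit 25312)) (x (nat_lit 25314)) (x (nat_lit 25318))
    (x (nat_lit 25320)) (x (nat_lit 25328)) (x (nat_lit 25330)) (x (nat_lit 25332))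
    (x (nat_lit 25336)) (x (nat_lit 25338)) (x (nat_lit 25344)) (x (nat_lit 25358))
    (x (nat_lit 25360)) (x (nat_lit 25364)) (x (nat_lit 25366)) (x (nat_lit 25368))
    (x (nat_lit 25372)) (x (nat_lit 25374)) (x (nat_lit 25382)) (x (nat_lit 25384))
    (x (nat_lit 25386)) (x (nat_lit 25390)) (x (nat_lit 25392)) (x (nat_lit 25398))
    (x (nat_lit 25408)) (x (nat_lit 25410)) (x (nat_lit 25416)) (x (nat_lit 25436))
    (x (nat_lit 25438)) (x (nat_lit 25440)) (x (nat_lit 25444)) (x (nat_lit 25446))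
    (x (nat_lit 25452)) (x (nat_lit 25462)) (x (nat_lit 25464)) (x (nat_lit 25470))
    (x (nat_lit 25488)) (x (nat_lit 25532)) (x (nat_lit 25538)) (x (nat_lit 25540))
    (x (nat_lit 25550)) (x (nat_lit 25556)) (x (nat_lit 25558)) (x (nat_lit 25562))
    (x (nat_lit 25564)) (x (nat_lit 25566)) (x (nat_lit 25574)) (x (nat_lit 25576))
    (x (nat_lit 25580)) (x (nat_lit 25582)) (x (nat_lit 25584)) (x (nat_lit 25588))
    (x (nat_lit 25590)) (x (nat_lit 25604)) (x (nat_lit 25610)) (x (nat_lit 25612))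
    (x (nat_lit 25616)) (x (nat_lit 25618)) (x (nat_lit 25620)) (x (nat_lit 25628))
    (x (nat_lit 25630)) (x (nat_lit 25634)) (x (nat_lit 25636)) (x (nat_lit 25638))
    (x (nat_lit 25642)) (x (nat_lit 25644)) (x (nat_lit 25652)) (x (nat_lit 25654))
    (x (nat_lit 25656)) (x (nat_lit 25660)) (x (nat_lit 25662)) (x (nat_lit 25668))
    (x (nat_lit 25682)) (x (nat_lit 25684)) (x (nat_lit 25688)) (x (nat_lit 25690))
    (x (nat_lit 25692)) (x (nat_lit 25696)) (x (nat_lit 25698)) (x (nat_lit 25706))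
    (x (nat_lit 25708)) (x (nat_lit 25710)) (x (nat_lit 25714)) (x (nat_lit 25716))
    (x (nat_lit 25722)) (x (nat_lit 25732)) (x (nat_lit 25734)) (x (nat_lit 25740))
    (x (nat_lit 25766)) (x (nat_lit 25772)) (x (nat_lit 25774)) (x (nat_lit 25778))
    (x (nat_lit 25780)) (x (nat_lit 25782)) (x (nat_lit 25790)) (x (nat_lit 25792))
    (x (nat_lit 25796)) (x (nat_lit 25798)) (x (nat_lit 25800)) (x (nat_lit 25804))
    (x (nat_lit 25806)) (x (nat_lit 25814)) (x (nat_lit 25816)) (x (nat_lit 25818))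
    (x (nat_lit 25822)) (x (nat_lit 25824)) (x (nat_lit 25830)) (x (nat_lit 25844))
    (x (nat_lit 25846)) (x (nat_lit 25850)) (x (nat_lit 25852)) (x (nat_lit 25854))
    (x (nat_lit 25858)) (x (nat_lit 25860)) (x (nat_lit 25868)) (x (nat_lit 25870))
    (x (nat_lit 25872)) (x (nat_lit 25876)) (x (nat_lit 25878)) (x (nat_lit 25884))
    (x (nat_lit 25894)) (x (nat_lit 25896)) (x (nat_lit 25902)) (x (nat_lit 25922))
    (x (nat_lit 25924)) (x (nat_lit 25926)) (x (nat_lit 25930)) (x (nat_lit 25932))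
    (x (nat_lit 25938)) (x (nat_lit 25948)) (x (nat_lit 25950)) (x (nat_lit 25956))
    (x (nat_lit 25974)) (x (nat_lit 26006)) (x (nat_lit 26008)) (x (nat_lit 26012))
    (x (nat_lit 26014)) (x (nat_lit 26016)) (x (nat_lit 26020)) (x (nat_lit 26022))
    (x (nat_lit 26030)) (x (nat_lit 26032)) (x (nat_lit 26034)) (x (nat_lit 26038))
    (x (nat_lit 26040)) (x (nat_lit 26046)) (x (nat_lit 26056)) (x (nat_lit 26058))
    (x (nat_lit 26064)) (x (nat_lit 26084)) (x (nat_lit 26086)) (x (nat_lit 26088))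
    (x (nat_lit 26092)) (x (nat_lit 26094)) (x (nat_lit 26100)) (x (nat_lit 26110))
    (x (nat_lit 26112)) (x (nat_lit 26118)) (x (nat_lit 26136)) (x (nat_lit 26164))
    (x (nat_lit 26166)) (x (nat_lit 26172)) (x (nat_lit 26190)) (x (nat_lit 26324))
    (x (nat_lit 26378)) (x (nat_lit 26396)) (x (nat_lit 26402)) (x (nat_lit 26404))
    (x (nat_lit 26432)) (x (nat_lit 26450)) (x (nat_lit 26456)) (x (nat_lit 26458))
    (x (nat_lit 26468)) (x (nat_lit 26474)) (x (nat_lit 26476)) (x (nat_lit 26480))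
    (x (nat_lit 26482)) (x (nat_lit 26484)) (x (nat_lit 26540)) (x (nat_lit 26558))
    (x (nat_lit 26564)) (x (nat_lit 26566)) (x (nat_lit 26594)) (x (nat_lit 26612))
    (x (nat_lit 26618)) (x (nat_lit 26620)) (x (nat_lit 26630)) (x (nat_lit 26636))
    (x (nat_lit 26638)) (x (nat_lit 26642)) (x (nat_lit 26644)) (x (nat_lit 26646))
    (x (nat_lit 26666)) (x (nat_lit 26672)) (x (nat_lit 26674)) (x (nat_lit 26684))
    (x (nat_lit 26690)) (x (nat_lit 26692)) (x (nat_lit 26696)) (x (nat_lit 26698))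
    (x (nat_lit 26700)) (x (nat_lit 26708)) (x (nat_lit 26710)) (x (nat_lit 26714))
    (x (nat_lit 26716)) (x (nat_lit 26718)) (x (nat_lit 26722)) (x (nat_lit 26724))
    (x (nat_lit 26756)) (x (nat_lit 26774)) (x (nat_lit 26780)) (x (nat_lit 26782))
    (x (nat_lit 26792)) (x (nat_lit 26798)) (x (nat_lit 26800)) (x (nat_lit 26804))
    (x (nat_lit 26806)) (x (nat_lit 26808)) (x (nat_lit 26828)) (x (nat_lit 26834))
    (x (nat_lit 26836)) (x (nat_lit 26846)) (x (nat_lit 26852)) (x (nat_lit 26854))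
    (x (nat_lit 26858)) (x (nat_lit 26860)) (x (nat_lit 26862)) (x (nat_lit 26870))
    (x (nat_lit 26872)) (x (nat_lit 26876)) (x (nat_lit 26878)) (x (nat_lit 26880))
    (x (nat_lit 26884)) (x (nat_lit 26886)) (x (nat_lit 26900)) (x (nat_lit 26906))
    (x (nat_lit 26908)) (x (nat_lit 26912)) (x (nat_lit 26914)) (x (nat_lit 26916))
    (x (nat_lit 26924)) (x (nat_lit 26926)) (x (nat_lit 26930)) (x (nat_lit 26932))
    (x (nat_lit 26934)) (x (nat_lit 26938)) (x (nat_lit 26940)) (x (nat_lit 26948))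
    (x (nat_lit 26950)) (x (nat_lit 26952)) (x (nat_lit 26956)) (x (nat_lit 26958))
    (x (nat_lit 26964)) (x (nat_lit 27026)) (x (nat_lit 27044)) (x (nat_lit 27050))
    (x (nat_lit 27052)) (x (nat_lit 27080)) (x (nat_lit 27098)) (x (nat_lit 27104))
    (x (nat_lit 27106)) (x (nat_lit 27116)) (x (nat_lit 27122)) (x (nat_lit 27124))
    (x (nat_lit 27128)) (x (nat_lit 27130)) (x (nat_lit 27132)) (x (nat_lit 27152))
    (x (nat_lit 27158)) (x (nat_lit 27160)) (x (nat_lit 27170)) (x (nat_lit 27176))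
    (x (nat_lit 27178)) (x (nat_lit 27182)) (x (nat_lit 27184)) (x (nat_lit 27186))
    (x (nat_lit 27194)) (x (nat_lit 27196)) (x (nat_lit 27200)) (x (nat_lit 27202))
    (x (nat_lit 27204)) (x (nat_lit 27208)) (x (nat_lit 27210)) (x (nat_lit 27242))
    (x (nat_lit 27260)) (x (nat_lit 27266)) (x (nat_lit 27268)) (x (nat_lit 27278))
    (x (nat_lit 27284)) (x (nat_lit 27286)) (x (nat_lit 27290)) (x (nat_lit 27292))
    (x (nat_lit 27294)) (x (nat_lit 27314)) (x (nat_lit 27320)) (x (nat_lit 27322))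
    (x (nat_lit 27332)) (x (nat_lit 27338)) (x (nat_lit 27340)) (x (nat_lit 27344))
    (x (nat_lit 27346)) (x (nat_lit 27348)) (x (nat_lit 27356)) (x (nat_lit 27358))
    (x (nat_lit 27362)) (x (nat_lit 27364)) (x (nat_lit 27366)) (x (nat_lit 27370))
    (x (nat_lit 27372)) (x (nat_lit 27386)) (x (nat_lit 27392)) (x (nat_lit 27394))
    (x (nat_lit 27398)) (x (nat_lit 27400)) (x (nat_lit 27402)) (x (nat_lit 27410))
    (x (nat_lit 27412)) (x (nat_lit 27416)) (x (nat_lit 27418)) (x (nat_lit 27420))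
    (x (nat_lit 27424)) (x (nat_lit 27426)) (x (nat_lit 27434)) (x (nat_lit 27436))
    (x (nat_lit 27438)) (x (nat_lit 27442)) (x (nat_lit 27444)) (x (nat_lit 27450))
    (x (nat_lit 27476)) (x (nat_lit 27482)) (x (nat_lit 27484)) (x (nat_lit 27494))
    (x (nat_lit 27500)) (x (nat_lit 27502)) (x (nat_lit 27506)) (x (nat_lit 27508))
    (x (nat_lit 27510)) (x (nat_lit 27518)) (x (nat_lit 27520)) (x (nat_lit 27524))
    (x (nat_lit 27526)) (x (nat_lit 27528)) (x (nat_lit 27532)) (x (nat_lit 27534))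
    (x (nat_lit 27548)) (x (nat_lit 27554)) (x (nat_lit 27556)) (x (nat_lit 27560))
    (x (nat_lit 27562)) (x (nat_lit 27564)) (x (nat_lit 27572)) (x (nat_lit 27574))
    (x (nat_lit 27578)) (x (nat_lit 27580)) (x (nat_lit 27582)) (x (nat_lit 27586))
    (x (nat_lit 27588)) (x (nat_lit 27596)) (x (nat_lit 27598)) (x (nat_lit 27600))
    (x (nat_lit 27604)) (x (nat_lit 27606)) (x (nat_lit 27612)) (x (nat_lit 27626))
    (x (nat_lit 27628)) (x (nat_lit 27632)) (x (nat_lit 27634)) (x (nat_lit 27636))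
    (x (nat_lit 27640)) (x (nat_lit 27642)) (x (nat_lit 27650)) (x (nat_lit 27652))
    (x (nat_lit 27654)) (x (nat_lit 27658)) (x (nat_lit 27660)) (x (nat_lit 27666))
    (x (nat_lit 27676)) (x (nat_lit 27678)) (x (nat_lit 27684)) (x (nat_lit 27728))
    (x (nat_lit 27746)) (x (nat_lit 27752)) (x (nat_lit 27754)) (x (nat_lit 27764))
    (x (nat_lit 27770)) (x (nat_lit 27772)) (x (nat_lit 27776)) (x (nat_lit 27778))
    (x (nat_lit 27780)) (x (nat_lit 27800)) (x (nat_lit 27806)) (x (nat_lit 27808))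
    (x (nat_lit 27818)) (x (nat_lit 27824)) (x (nat_lit 27826)) (x (nat_lit 27830))
    (x (nat_lit 27832)) (x (nat_lit 27834)) (x (nat_lit 27842)) (x (nat_lit 27844))
    (x (nat_lit 27848)) (x (nat_lit 27850)) (x (nat_lit 27852)) (x (nat_lit 27856))
    (x (nat_lit 27858)) (x (nat_lit 27872)) (x (nat_lit 27878)) (x (nat_lit 27880))
    (x (nat_lit 27884)) (x (nat_lit 27886)) (x (nat_lit 27888)) (x (nat_lit 27896))
    (x (nat_lit 27898)) (x (nat_lit 27902)) (x (nat_lit 27904)) (x (nat_lit 27906))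
    (x (nat_lit 27910)) (x (nat_lit 27912)) (x (nat_lit 27920)) (x (nat_lit 27922))
    (x (nat_lit 27924)) (x (nat_lit 27928)) (x (nat_lit 27930)) (x (nat_lit 27936))
    (x (nat_lit 27962)) (x (nat_lit 27968)) (x (nat_lit 27970)) (x (nat_lit 27980))
    (x (nat_lit 27986)) (x (nat_lit 27988)) (x (nat_lit 27992)) (x (nat_lit 27994))
    (x (nat_lit 27996)) (x (nat_lit 28004)) (x (nat_lit 28006)) (x (nat_lit 28010))
    (x (nat_lit 28012)) (x (nat_lit 28014)) (x (nat_lit 28018)) (x (nat_lit 28020))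
    (x (nat_lit 28034)) (x (nat_lit 28040)) (x (nat_lit 28042)) (x (nat_lit 28046))
    (x (nat_lit 28048)) (x (nat_lit 28050)) (x (nat_lit 28058)) (x (nat_lit 28060))
    (x (nat_lit 28064)) (x (nat_lit 28066)) (x (nat_lit 28068)) (x (nat_lit 28072))
    (x (nat_lit 28074)) (x (nat_lit 28082)) (x (nat_lit 28084)) (x (nat_lit 28086))
    (x (nat_lit 28090)) (x (nat_lit 28092)) (x (nat_lit 28098)) (x (nat_lit 28112))
    (x (nat_lit 28114)) (x (nat_lit 28118)) (x (nat_lit 28120)) (x (nat_lit 28122))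
    (x (nat_lit 28126)) (x (nat_lit 28128)) (x (nat_lit 28136)) (x (nat_lit 28138))
    (x (nat_lit 28140)) (x (nat_lit 28144)) (x (nat_lit 28146)) (x (nat_lit 28152))
    (x (nat_lit 28162)) (x (nat_lit 28164)) (x (nat_lit 28170)) (x (nat_lit 28196))
    (x (nat_lit 28202)) (x (nat_lit 28204)) (x (nat_lit 28208)) (x (nat_lit 28210))
    (x (nat_lit 28212)) (x (nat_lit 28220)) (x (nat_lit 28222)) (x (nat_lit 28226))
    (x (nat_lit 28228)) (x (nat_lit 28230)) (x (nat_lit 28234)) (x (nat_lit 28236))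
    (x (nat_lit 28244)) (x (nat_lit 28246)) (x (nat_lit 28248)) (x (nat_lit 28252))
    (x (nat_lit 28254)) (x (nat_lit 28260)) (x (nat_lit 28274)) (x (nat_lit 28276))
    (x (nat_lit 28280)) (x (nat_lit 28282)) (x (nat_lit 28284)) (x (nat_lit 28288))
    (x (nat_lit 28290)) (x (nat_lit 28298)) (x (nat_lit 28300)) (x (nat_lit 28302))
    (x (nat_lit 28306)) (x (nat_lit 28308)) (x (nat_lit 28314)) (x (nat_lit 28324))
    (x (nat_lit 28326)) (x (nat_lit 28332)) (x (nat_lit 28352)) (x (nat_lit 28354))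
    (x (nat_lit 28356)) (x (nat_lit 28360)) (x (nat_lit 28362)) (x (nat_lit 28368))
    (x (nat_lit 28378)) (x (nat_lit 28380)) (x (nat_lit 28386)) (x (nat_lit 28404))
    (x (nat_lit 28484)) (x (nat_lit 28502)) (x (nat_lit 28508)) (x (nat_lit 28510))
    (x (nat_lit 28538)) (x (nat_lit 28556)) (x (nat_lit 28562)) (x (nat_lit 28564))
    (x (nat_lit 28574)) (x (nat_lit 28580)) (x (nat_lit 28582)) (x (nat_lit 28586))
    (x (nat_lit 28588)) (x (nat_lit 28590)) (x (nat_lit 28610)) (x (nat_lit 28616))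
    (x (nat_lit 28618)) (x (nat_lit 28628)) (x (nat_lit 28634)) (x (nat_lit 28636))
    (x (nat_lit 28640)) (x (nat_lit 28642)) (x (nat_lit 28644)) (x (nat_lit 28652))
    (x (nat_lit 28654)) (x (nat_lit 28658)) (x (nat_lit 28660)) (x (nat_lit 28662))
    (x (nat_lit 28666)) (x (nat_lit 28668)) (x (nat_lit 28700)) (x (nat_lit 28718))
    (x (nat_lit 28724)) (x (nat_lit 28726)) (x (nat_lit 28736)) (x (nat_lit 28742))
    (x (nat_lit 28744)) (x (nat_lit 28748)) (x (nat_lit 28750)) (x (nat_lit 28752))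
    (x (nat_lit 28772)) (x (nat_lit 28778)) (x (nat_lit 28780)) (x (nat_lit 28790))
    (x (nat_lit 28796)) (x (nat_lit 28798)) (x (nat_lit 28802)) (x (nat_lit 28804))
    (x (nat_lit 28806)) (x (nat_lit 28814)) (x (nat_lit 28816)) (x (nat_lit 28820))
    (x (nat_lit 28822)) (x (nat_lit 28824)) (x (nat_lit 28828)) (x (nat_lit 28830))
    (x (nat_lit 28844)) (x (nat_lit 28850)) (x (nat_lit 28852)) (x (nat_lit 28856))
    (x (nat_lit 28858)) (x (nat_lit 28860)) (x (nat_lit 28868)) (x (nat_lit 28870))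
    (x (nat_lit 28874)) (x (nat_lit 28876)) (x (nat_lit 28878)) (x (nat_lit 28882))
    (x (nat_lit 28884)) (x (nat_lit 28892)) (x (nat_lit 28894)) (x (nat_lit 28896))
    (x (nat_lit 28900)) (x (nat_lit 28902)) (x (nat_lit 28908)) (x (nat_lit 28934))
    (x (nat_lit 28940)) (x (nat_lit 28942)) (x (nat_lit 28952)) (x (nat_lit 28958))
    (x (nat_lit 28960)) (x (nat_lit 28964)) (x (nat_lit 28966)) (x (nat_lit 28968))
    (x (nat_lit 28976)) (x (nat_lit 28978)) (x (nat_lit 28982)) (x (nat_lit 28984))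
    (x (nat_lit 28986)) (x (nat_lit 28990)) (x (nat_lit 28992)) (x (nat_lit 29006))
    (x (nat_lit 29012)) (x (nat_lit 29014)) (x (nat_lit 29018)) (x (nat_lit 29020))
    (x (nat_lit 29022)) (x (nat_lit 29030)) (x (nat_lit 29032)) (x (nat_lit 29036))
    (x (nat_lit 29038)) (x (nat_lit 29040)) (x (nat_lit 29044)) (x (nat_lit 29046))
    (x (nat_lit 29054)) (x (nat_lit 29056)) (x (nat_lit 29058)) (x (nat_lit 29062))
    (x (nat_lit 29064)) (x (nat_lit 29070)) (x (nat_lit 29084)) (x (nat_lit 29086))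
    (x (nat_lit 29090)) (x (nat_lit 29092)) (x (nat_lit 29094)) (x (nat_lit 29098))
    (x (nat_lit 29100)) (x (nat_lit 29108)) (x (nat_lit 29110)) (x (nat_lit 29112))
    (x (nat_lit 29116)) (x (nat_lit 29118)) (x (nat_lit 29124)) (x (nat_lit 29134))
    (x (nat_lit 29136)) (x (nat_lit 29142)) (x (nat_lit 29186)) (x (nat_lit 29204))
    (x (nat_lit 29210)) (x (nat_lit 29212)) (x (nat_lit 29222)) (x (nat_lit 29228))
    (x (nat_lit 29230)) (x (nat_lit 29234)) (x (nat_lit 29236)) (x (nat_lit 29238))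
    (x (nat_lit 29258)) (x (nat_lit 29264)) (x (nat_lit 29266)) (x (nat_lit 29276))
    (x (nat_lit 29282)) (x (nat_lit 29284)) (x (nat_lit 29288)) (x (nat_lit 29290))
    (x (nat_lit 29292)) (x (nat_lit 29300)) (x (nat_lit 29302)) (x (nat_lit 29306))
    (x (nat_lit 29308)) (x (nat_lit 29310)) (x (nat_lit 29314)) (x (nat_lit 29316))
    (x (nat_lit 29330)) (x (nat_lit 29336)) (x (nat_lit 29338)) (x (nat_lit 29342))
    (x (nat_lit 29344)) (x (nat_lit 29346)) (x (nat_lit 29354)) (x (nat_lit 29356))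
    (x (nat_lit 29360)) (x (nat_lit 29362)) (x (nat_lit 29364)) (x (nat_lit 29368))
    (x (nat_lit 29370)) (x (nat_lit 29378)) (x (nat_lit 29380)) (x (nat_lit 29382))
    (x (nat_lit 29386)) (x (nat_lit 29388)) (x (nat_lit 29394)) (x (nat_lit 29420))
    (x (nat_lit 29426)) (x (nat_lit 29428)) (x (nat_lit 29438)) (x (nat_lit 29444))
    (x (nat_lit 29446)) (x (nat_lit 29450)) (x (nat_lit 29452)) (x (nat_lit 29454))
    (x (nat_lit 29462)) (x (nat_lit 29464)) (x (nat_lit 29468)) (x (nat_lit 29470))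
    (x (nat_lit 29472)) (x (nat_lit 29476)) (x (nat_lit 29478)) (x (nat_lit 29492))
    (x (nat_lit 29498)) (x (nat_lit 29500)) (x (nat_lit 29504)) (x (nat_lit 29506))
    (x (nat_lit 29508)) (x (nat_lit 29516)) (x (nat_lit 29518)) (x (nat_lit 29522))
    (x (nat_lit 29524)) (x (nat_lit 29526)) (x (nat_lit 29530)) (x (nat_lit 29532))
    (x (nat_lit 29540)) (x (nat_lit 29542)) (x (nat_lit 29544)) (x (nat_lit 29548))
    (x (nat_lit 29550)) (x (nat_lit 29556)) (x (nat_lit 29570)) (x (nat_lit 29572))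
    (x (nat_lit 29576)) (x (nat_lit 29578)) (x (nat_lit 29580)) (x (nat_lit 29584))
    (x (nat_lit 29586)) (x (nat_lit 29594)) (x (nat_lit 29596)) (x (nat_lit 29598))
    (x (nat_lit 29602)) (x (nat_lit 29604)) (x (nat_lit 29610)) (x (nat_lit 29620))
    (x (nat_lit 29622)) (x (nat_lit 29628)) (x (nat_lit 29654)) (x (nat_lit 29660))
    (x (nat_lit 29662)) (x (nat_lit 29666)) (x (nat_lit 29668)) (x (nat_lit 29670))
    (x (nat_lit 29678)) (x (nat_lit 29680)) (x (nat_lit 29684)) (x (nat_lit 29686))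
    (x (nat_lit 29688)) (x (nat_lit 29692)) (x (nat_lit 29694)) (x (nat_lit 29702))
    (x (nat_lit 29704)) (x (nat_lit 29706)) (x (nat_lit 29710)) (x (nat_lit 29712))
    (x (nat_lit 29718)) (x (nat_lit 29732)) (x (nat_lit 29734)) (x (nat_lit 29738))
    (x (nat_lit 29740)) (x (nat_lit 29742)) (x (nat_lit 29746)) (x (nat_lit 29748))
    (x (nat_lit 29756)) (x (nat_lit 29758)) (x (nat_lit 29760)) (x (nat_lit 29764))
    (x (nat_lit 29766)) (x (nat_lit 29772)) (x (nat_lit 29782)) (x (nat_lit 29784))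
    (x (nat_lit 29790)) (x (nat_lit 29810)) (x (nat_lit 29812)) (x (nat_lit 29814))
    (x (nat_lit 29818)) (x (nat_lit 29820)) (x (nat_lit 29826)) (x (nat_lit 29836))
    (x (nat_lit 29838)) (x (nat_lit 29844)) (x (nat_lit 29862)) (x (nat_lit 29906))
    (x (nat_lit 29912)) (x (nat_lit 29914)) (x (nat_lit 29924)) (x (nat_lit 29930))
    (x (nat_lit 29932)) (x (nat_lit 29936)) (x (nat_lit 29938)) (x (nat_lit 29940))
    (x (nat_lit 29948)) (x (nat_lit 29950)) (x (nat_lit 29954)) (x (nat_lit 29956))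
    (x (nat_lit 29958)) (x (nat_lit 29962)) (x (nat_lit 29964)) (x (nat_lit 29978))
    (x (nat_lit 29984)) (x (nat_lit 29986)) (x (nat_lit 29990)) (x (nat_lit 29992))
    (x (nat_lit 29994)) (x (nat_lit 30002)) (x (nat_lit 30004)) (x (nat_lit 30008))
    (x (nat_lit 30010)) (x (nat_lit 30012)) (x (nat_lit 30016)) (x (nat_lit 30018))
    (x (nat_lit 30026)) (x (nat_lit 30028)) (x (nat_lit 30030)) (x (nat_lit 30034))
    (x (nat_lit 30036)) (x (nat_lit 30042)) (x (nat_lit 30056)) (x (nat_lit 30058))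
    (x (nat_lit 30062)) (x (nat_lit 30064)) (x (nat_lit 30066)) (x (nat_lit 30070))
    (x (nat_lit 30072)) (x (nat_lit 30080)) (x (nat_lit 30082)) (x (nat_lit 30084))
    (x (nat_lit 30088)) (x (nat_lit 30090)) (x (nat_lit 30096)) (x (nat_lit 30106))
    (x (nat_lit 30108)) (x (nat_lit 30114)) (x (nat_lit 30140)) (x (nat_lit 30146))
    (x (nat_lit 30148)) (x (nat_lit 30152)) (x (nat_lit 30154)) (x (nat_lit 30156))
    (x (nat_lit 30164)) (x (nat_lit 30166)) (x (nat_lit 30170)) (x (nat_lit 30172))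
    (x (nat_lit 30174)) (x (nat_lit 30178)) (x (nat_lit 30180)) (x (nat_lit 30188))
    (x (nat_lit 30190)) (x (nat_lit 30192)) (x (nat_lit 30196)) (x (nat_lit 30198))
    (x (nat_lit 30204)) (x (nat_lit 30218)) (x (nat_lit 30220)) (x (nat_lit 30224))
    (x (nat_lit 30226)) (x (nat_lit 30228)) (x (nat_lit 30232)) (x (nat_lit 30234))
    (x (nat_lit 30242)) (x (nat_lit 30244)) (x (nat_lit 30246)) (x (nat_lit 30250))
    (x (nat_lit 30252)) (x (nat_lit 30258)) (x (nat_lit 30268)) (x (nat_lit 30270))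
    (x (nat_lit 30276)) (x (nat_lit 30296)) (x (nat_lit 30298)) (x (nat_lit 30300))
    (x (nat_lit 30304)) (x (nat_lit 30306)) (x (nat_lit 30312)) (x (nat_lit 30322))
    (x (nat_lit 30324)) (x (nat_lit 30330)) (x (nat_lit 30348)) (x (nat_lit 30380))
    (x (nat_lit 30382)) (x (nat_lit 30386)) (x (nat_lit 30388)) (x (nat_lit 30390))
    (x (nat_lit 30394)) (x (nat_lit 30396)) (x (nat_lit 30404)) (x (nat_lit 30406))
    (x (nat_lit 30408)) (x (nat_lit 30412)) (x (nat_lit 30414)) (x (nat_lit 30420))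
    (x (nat_lit 30430)) (x (nat_lit 30432)) (x (nat_lit 30438)) (x (nat_lit 30458))
    (x (nat_lit 30460)) (x (nat_lit 30462)) (x (nat_lit 30466)) (x (nat_lit 30468))
    (x (nat_lit 30474)) (x (nat_lit 30484)) (x (nat_lit 30486)) (x (nat_lit 30492))
    (x (nat_lit 30510)) (x (nat_lit 30538)) (x (nat_lit 30540)) (x (nat_lit 30546))
    (x (nat_lit 30564)) (x (nat_lit 30644)) (x (nat_lit 30662)) (x (nat_lit 30668))
    (x (nat_lit 30670)) (x (nat_lit 30680)) (x (nat_lit 30686)) (x (nat_lit 30688))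
    (x (nat_lit 30692)) (x (nat_lit 30694)) (x (nat_lit 30696)) (x (nat_lit 30716))
    (x (nat_lit 30722)) (x (nat_lit 30724)) (x (nat_lit 30734)) (x (nat_lit 30740))
    (x (nat_lit 30742)) (x (nat_lit 30746)) (x (nat_lit 30748)) (x (nat_lit 30750))
    (x (nat_lit 30758)) (x (nat_lit 30760)) (x (nat_lit 30764)) (x (nat_lit 30766))
    (x (nat_lit 30768)) (x (nat_lit 30772)) (x (nat_lit 30774)) (x (nat_lit 30788))
    (x (nat_lit 30794)) (x (nat_lit 30796)) (x (nat_lit 30800)) (x (nat_lit 30802))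
    (x (nat_lit 30804)) (x (nat_lit 30812)) (x (nat_lit 30814)) (x (nat_lit 30818))
    (x (nat_lit 30820)) (x (nat_lit 30822)) (x (nat_lit 30826)) (x (nat_lit 30828))
    (x (nat_lit 30836)) (x (nat_lit 30838)) (x (nat_lit 30840)) (x (nat_lit 30844))
    (x (nat_lit 30846)) (x (nat_lit 30852)) (x (nat_lit 30878)) (x (nat_lit 30884))
    (x (nat_lit 30886)) (x (nat_lit 30896)) (x (nat_lit 30902)) (x (nat_lit 30904))
    (x (nat_lit 30908)) (x (nat_lit 30910)) (x (nat_lit 30912)) (x (nat_lit 30920))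
    (x (nat_lit 30922)) (x (nat_lit 30926)) (x (nat_lit 30928)) (x (nat_lit 30930))
    (x (nat_lit 30934)) (x (nat_lit 30936)) (x (nat_lit 30950)) (x (nat_lit 30956))
    (x (nat_lit 30958)) (x (nat_lit 30962)) (x (nat_lit 30964)) (x (nat_lit 30966))
    (x (nat_lit 30974)) (x (nat_lit 30976)) (x (nat_lit 30980)) (x (nat_lit 30982))
    (x (nat_lit 30984)) (x (nat_lit 30988)) (x (nat_lit 30990)) (x (nat_lit 30998))
    (x (nat_lit 31000)) (x (nat_lit 31002)) (x (nat_lit 31006)) (x (nat_lit 31008))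
    (x (nat_lit 31014)) (x (nat_lit 31028)) (x (nat_lit 31030)) (x (nat_lit 31034))
    (x (nat_lit 31036)) (x (nat_lit 31038)) (x (nat_lit 31042)) (x (nat_lit 31044))
    (x (nat_lit 31052)) (x (nat_lit 31054)) (x (nat_lit 31056)) (x (nat_lit 31060))
    (x (nat_lit 31062)) (x (nat_lit 31068)) (x (nat_lit 31078)) (x (nat_lit 31080))
    (x (nat_lit 31086)) (x (nat_lit 31112)) (x (nat_lit 31118)) (x (nat_lit 31120))
    (x (nat_lit 31124)) (x (nat_lit 31126)) (x (nat_lit 31128)) (x (nat_lit 31136))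
    (x (nat_lit 31138)) (x (nat_lit 31142)) (x (nat_lit 31144)) (x (nat_lit 31146))
    (x (nat_lit 31150)) (x (nat_lit 31152)) (x (nat_lit 31160)) (x (nat_lit 31162))
    (x (nat_lit 31164)) (x (nat_lit 31168)) (x (nat_lit 31170)) (x (nat_lit 31176))
    (x (nat_lit 31190)) (x (nat_lit 31192)) (x (nat_lit 31196)) (x (nat_lit 31198))
    (x (nat_lit 31200)) (x (nat_lit 31204)) (x (nat_lit 31206)) (x (nat_lit 31214))
    (x (nat_lit 31216)) (x (nat_lit 31218)) (x (nat_lit 31222)) (x (nat_lit 31224))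
    (x (nat_lit 31230)) (x (nat_lit 31240)) (x (nat_lit 31242)) (x (nat_lit 31248))
    (x (nat_lit 31268)) (x (nat_lit 31270)) (x (nat_lit 31272)) (x (nat_lit 31276))
    (x (nat_lit 31278)) (x (nat_lit 31284)) (x (nat_lit 31294)) (x (nat_lit 31296))
    (x (nat_lit 31302)) (x (nat_lit 31320)) (x (nat_lit 31364)) (x (nat_lit 31370))
    (x (nat_lit 31372)) (x (nat_lit 31382)) (x (nat_lit 31388)) (x (nat_lit 31390))
    (x (nat_lit 31394)) (x (nat_lit 31396)) (x (nat_lit 31398)) (x (nat_lit 31406))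
    (x (nat_lit 31408)) (x (nat_lit 31412)) (x (nat_lit 31414)) (x (nat_lit 31416))
    (x (nat_lit 31420)) (x (nat_lit 31422)) (x (nat_lit 31436)) (x (nat_lit 31442))
    (x (nat_lit 31444)) (x (nat_lit 31448)) (x (nat_lit 31450)) (x (nat_lit 31452))
    (x (nat_lit 31460)) (x (nat_lit 31462)) (x (nat_lit 31466)) (x (nat_lit 31468))
    (x (nat_lit 31470)) (x (nat_lit 31474)) (x (nat_lit 31476)) (x (nat_lit 31484))
    (x (nat_lit 31486)) (x (nat_lit 31488)) (x (nat_lit 31492)) (x (nat_lit 31494))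
    (x (nat_lit 31500)) (x (nat_lit 31514)) (x (nat_lit 31516)) (x (nat_lit 31520))
    (x (nat_lit 31522)) (x (nat_lit 31524)) (x (nat_lit 31528)) (x (nat_lit 31530))
    (x (nat_lit 31538)) (x (nat_lit 31540)) (x (nat_lit 31542)) (x (nat_lit 31546))
    (x (nat_lit 31548)) (x (nat_lit 31554)) (x (nat_lit 31564)) (x (nat_lit 31566))
    (x (nat_lit 31572)) (x (nat_lit 31598)) (x (nat_lit 31604)) (x (nat_lit 31606))
    (x (nat_lit 31610)) (x (nat_lit 31612)) (x (nat_lit 31614)) (x (nat_lit 31622))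
    (x (nat_lit 31624)) (x (nat_lit 31628)) (x (nat_lit 31630)) (x (nat_lit 31632))
    (x (nat_lit 31636)) (x (nat_lit 31638)) (x (nat_lit 31646)) (x (nat_lit 31648))
    (x (nat_lit 31650)) (x (nat_lit 31654)) (x (nat_lit 31656)) (x (nat_lit 31662))
    (x (nat_lit 31676)) (x (nat_lit 31678)) (x (nat_lit 31682)) (x (nat_lit 31684))
    (x (nat_lit 31686)) (x (nat_lit 31690)) (x (nat_lit 31692)) (x (nat_lit 31700))
    (x (nat_lit 31702)) (x (nat_lit 31704)) (x (nat_lit 31708)) (x (nat_lit 31710))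
    (x (nat_lit 31716)) (x (nat_lit 31726)) (x (nat_lit 31728)) (x (nat_lit 31734))
    (x (nat_lit 31754)) (x (nat_lit 31756)) (x (nat_lit 31758)) (x (nat_lit 31762))
    (x (nat_lit 31764)) (x (nat_lit 31770)) (x (nat_lit 31780)) (x (nat_lit 31782))
    (x (nat_lit 31788)) (x (nat_lit 31806)) (x (nat_lit 31838)) (x (nat_lit 31840))
    (x (nat_lit 31844)) (x (nat_lit 31846)) (x (nat_lit 31848)) (x (nat_lit 31852))
    (x (nat_lit 31854)) (x (nat_lit 31862)) (x (nat_lit 31864)) (x (nat_lit 31866))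
    (x (nat_lit 31870)) (x (nat_lit 31872)) (x (nat_lit 31878)) (x (nat_lit 31888))
    (x (nat_lit 31890)) (x (nat_lit 31896)) (x (nat_lit 31916)) (x (nat_lit 31918))
    (x (nat_lit 31920)) (x (nat_lit 31924)) (x (nat_lit 31926)) (x (nat_lit 31932))
    (x (nat_lit 31942)) (x (nat_lit 31944)) (x (nat_lit 31950)) (x (nat_lit 31968))
    (x (nat_lit 31996)) (x (nat_lit 31998)) (x (nat_lit 32004)) (x (nat_lit 32022))
    (x (nat_lit 32084)) (x (nat_lit 32090)) (x (nat_lit 32092)) (x (nat_lit 32096))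
    (x (nat_lit 32098)) (x (nat_lit 32100)) (x (nat_lit 32108)) (x (nat_lit 32110))
    (x (nat_lit 32114)) (x (nat_lit 32116)) (x (nat_lit 32118)) (x (nat_lit 32122))
    (x (nat_lit 32124)) (x (nat_lit 32132)) (x (nat_lit 32134)) (x (nat_lit 32136))
    (x (nat_lit 32140)) (x (nat_lit 32142)) (x (nat_lit 32148)) (x (nat_lit 32162))
    (x (nat_lit 32164)) (x (nat_lit 32168)) (x (nat_lit 32170)) (x (nat_lit 32172))
    (x (nat_lit 32176)) (x (nat_lit 32178)) (x (nat_lit 32186)) (x (nat_lit 32188))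
    (x (nat_lit 32190)) (x (nat_lit 32194)) (x (nat_lit 32196)) (x (nat_lit 32202))
    (x (nat_lit 32212)) (x (nat_lit 32214)) (x (nat_lit 32220)) (x (nat_lit 32240))
    (x (nat_lit 32242)) (x (nat_lit 32244)) (x (nat_lit 32248)) (x (nat_lit 32250))
    (x (nat_lit 32256)) (x (nat_lit 32266)) (x (nat_lit 32268)) (x (nat_lit 32274))
    (x (nat_lit 32292)) (x (nat_lit 32324)) (x (nat_lit 32326)) (x (nat_lit 32330))
    (x (nat_lit 32332)) (x (nat_lit 32334)) (x (nat_lit 32338)) (x (nat_lit 32340))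
    (x (nat_lit 32348)) (x (nat_lit 32350)) (x (nat_lit 32352)) (x (nat_lit 32356))
    (x (nat_lit 32358)) (x (nat_lit 32364)) (x (nat_lit 32374)) (x (nat_lit 32376))
    (x (nat_lit 32382)) (x (nat_lit 32402)) (x (nat_lit 32404)) (x (nat_lit 32406))
    (x (nat_lit 32410)) (x (nat_lit 32412)) (x (nat_lit 32418)) (x (nat_lit 32428))
    (x (nat_lit 32430)) (x (nat_lit 32436)) (x (nat_lit 32454)) (x (nat_lit 32482))
    (x (nat_lit 32484)) (x (nat_lit 32490)) (x (nat_lit 32508)) (x (nat_lit 32564))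
    (x (nat_lit 32566)) (x (nat_lit 32568)) (x (nat_lit 32572)) (x (nat_lit 32574))
    (x (nat_lit 32580)) (x (nat_lit 32590)) (x (nat_lit 32592)) (x (nat_lit 32598))
    (x (nat_lit 32616)) (x (nat_lit 32644)) (x (nat_lit 32646)) (x (nat_lit 32652))
    (x (nat_lit 32670)) (x (nat_lit 32724)) (x (nat_lit 32858)) (x (nat_lit 32876))
    (x (nat_lit 32882)) (x (nat_lit 32884)) (x (nat_lit 32912)) (x (nat_lit 32930))
    (x (nat_lit 32936)) (x (nat_lit 32938)) (x (nat_lit 32948)) (x (nat_lit 32954))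
    (x (nat_lit 32956)) (x (nat_lit 32960)) (x (nat_lit 32962)) (x (nat_lit 32964))
    (x (nat_lit 32984)) (x (nat_lit 32990)) (x (nat_lit 32992)) (x (nat_lit 33002))
    (x (nat_lit 33008)) (x (nat_lit 33010)) (x (nat_lit 33014)) (x (nat_lit 33016))
    (x (nat_lit 33018)) (x (nat_lit 33026)) (x (nat_lit 33028)) (x (nat_lit 33032))
    (x (nat_lit 33034)) (x (nat_lit 33036)) (x (nat_lit 33040)) (x (nat_lit 33042))
    (x (nat_lit 33074)) (x (nat_lit 33092)) (x (nat_lit 33098)) (x (nat_lit 33100))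
    (x (nat_lit 33110)) (x (nat_lit 33116)) (x (nat_lit 33118)) (x (nat_lit 33122))
    (x (nat_lit 33124)) (x (nat_lit 33126)) (x (nat_lit 33146)) (x (nat_lit 33152))
    (x (nat_lit 33154)) (x (nat_lit 33164)) (x (nat_lit 33170)) (x (nat_lit 33172))
    (x (nat_lit 33176)) (x (nat_lit 33178)) (x (nat_lit 33180)) (x (nat_lit 33188))
    (x (nat_lit 33190)) (x (nat_lit 33194)) (x (nat_lit 33196)) (x (nat_lit 33198))
    (x (nat_lit 33202)) (x (nat_lit 33204)) (x (nat_lit 33218)) (x (nat_lit 33224))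
    (x (nat_lit 33226)) (x (nat_lit 33230)) (x (nat_lit 33232)) (x (nat_lit 33234))
    (x (nat_lit 33242)) (x (nat_lit 33244)) (x (nat_lit 33248)) (x (nat_lit 33250))
    (x (nat_lit 33252)) (x (nat_lit 33256)) (x (nat_lit 33258)) (x (nat_lit 33266))
    (x (nat_lit 33268)) (x (nat_lit 33270)) (x (nat_lit 33274)) (x (nat_lit 33276))
    (x (nat_lit 33282)) (x (nat_lit 33308)) (x (nat_lit 33314)) (x (nat_lit 33316))
    (x (nat_lit 33326)) (x (nat_lit 33332)) (x (nat_lit 33334)) (x (nat_lit 33338))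
    (x (nat_lit 33340)) (x (nat_lit 33342)) (x (nat_lit 33350)) (x (nat_lit 33352))
    (x (nat_lit 33356)) (x (nat_lit 33358)) (x (nat_lit 33360)) (x (nat_lit 33364))
    (x (nat_lit 33366)) (x (nat_lit 33380)) (x (nat_lit 33386)) (x (nat_lit 33388))
    (x (nat_lit 33392)) (x (nat_lit 33394)) (x (nat_lit 33396)) (x (nat_lit 33404))
    (x (nat_lit 33406)) (x (nat_lit 33410)) (x (nat_lit 33412)) (x (nat_lit 33414))
    (x (nat_lit 33418)) (x (nat_lit 33420)) (x (nat_lit 33428)) (x (nat_lit 33430))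
    (x (nat_lit 33432)) (x (nat_lit 33436)) (x (nat_lit 33438)) (x (nat_lit 33444))
    (x (nat_lit 33458)) (x (nat_lit 33460)) (x (nat_lit 33464)) (x (nat_lit 33466))
    (x (nat_lit 33468)) (x (nat_lit 33472)) (x (nat_lit 33474)) (x (nat_lit 33482))
    (x (nat_lit 33484)) (x (nat_lit 33486)) (x (nat_lit 33490)) (x (nat_lit 33492))
    (x (nat_lit 33498)) (x (nat_lit 33508)) (x (nat_lit 33510)) (x (nat_lit 33516))
    (x (nat_lit 33560)) (x (nat_lit 33578)) (x (nat_lit 33584)) (x (nat_lit 33586))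
    (x (nat_lit 33596)) (x (nat_lit 33602)) (x (nat_lit 33604)) (x (nat_lit 33608))
    (x (nat_lit 33610)) (x (nat_lit 33612)) (x (nat_lit 33632)) (x (nat_lit 33638))
    (x (nat_lit 33640)) (x (nat_lit 33650)) (x (nat_lit 33656)) (x (nat_lit 33658))
    (x (nat_lit 33662)) (x (nat_lit 33664)) (x (nat_lit 33666)) (x (nat_lit 33674))
    (x (nat_lit 33676)) (x (nat_lit 33680)) (x (nat_lit 33682)) (x (nat_lit 33684))
    (x (nat_lit 33688)) (x (nat_lit 33690)) (x (nat_lit 33704)) (x (nat_lit 33710))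
    (x (nat_lit 33712)) (x (nat_lit 33716)) (x (nat_lit 33718)) (x (nat_lit 33720))
    (x (nat_lit 33728)) (x (nat_lit 33730)) (x (nat_lit 33734)) (x (nat_lit 33736))
    (x (nat_lit 33738)) (x (nat_lit 33742)) (x (nat_lit 33744)) (x (nat_lit 33752))
    (x (nat_lit 33754)) (x (nat_lit 33756)) (x (nat_lit 33760)) (x (nat_lit 33762))
    (x (nat_lit 33768)) (x (nat_lit 33794)) (x (nat_lit 33800)) (x (nat_lit 33802))
    (x (nat_lit 33812)) (x (nat_lit 33818)) (x (nat_lit 33820)) (x (nat_lit 33824))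
    (x (nat_lit 33826)) (x (nat_lit 33828)) (x (nat_lit 33836)) (x (nat_lit 33838))
    (x (nat_lit 33842)) (x (nat_lit 33844)) (x (nat_lit 33846)) (x (nat_lit 33850))
    (x (nat_lit 33852)) (x (nat_lit 33866)) (x (nat_lit 33872)) (x (nat_lit 33874))
    (x (nat_lit 33878)) (x (nat_lit 33880)) (x (nat_lit 33882)) (x (nat_lit 33890))
    (x (nat_lit 33892)) (x (nat_lit 33896)) (x (nat_lit 33898)) (x (nat_lit 33900))
    (x (nat_lit 33904)) (x (nat_lit 33906)) (x (nat_lit 33914)) (x (nat_lit 33916))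
    (x (nat_lit 33918)) (x (nat_lit 33922)) (x (nat_lit 33924)) (x (nat_lit 33930))
    (x (nat_lit 33944)) (x (nat_lit 33946)) (x (nat_lit 33950)) (x (nat_lit 33952))
    (x (nat_lit 33954)) (x (nat_lit 33958)) (x (nat_lit 33960)) (x (nat_lit 33968))
    (x (nat_lit 33970)) (x (nat_lit 33972)) (x (nat_lit 33976)) (x (nat_lit 33978))
    (x (nat_lit 33984)) (x (nat_lit 33994)) (x (nat_lit 33996)) (x (nat_lit 34002))
    (x (nat_lit 34028)) (x (nat_lit 34034)) (x (nat_lit 34036)) (x (nat_lit 34040))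
    (x (nat_lit 34042)) (x (nat_lit 34044)) (x (nat_lit 34052)) (x (nat_lit 34054))
    (x (nat_lit 34058)) (x (nat_lit 34060)) (x (nat_lit 34062)) (x (nat_lit 34066))
    (x (nat_lit 34068)) (x (nat_lit 34076)) (x (nat_lit 34078)) (x (nat_lit 34080))
    (x (nat_lit 34084)) (x (nat_lit 34086)) (x (nat_lit 34092)) (x (nat_lit 34106))
    (x (nat_lit 34108)) (x (nat_lit 34112)) (x (nat_lit 34114)) (x (nat_lit 34116))
    (x (nat_lit 34120)) (x (nat_lit 34122)) (x (nat_lit 34130)) (x (nat_lit 34132))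
    (x (nat_lit 34134)) (x (nat_lit 34138)) (x (nat_lit 34140)) (x (nat_lit 34146))
    (x (nat_lit 34156)) (x (nat_lit 34158)) (x (nat_lit 34164)) (x (nat_lit 34184))
    (x (nat_lit 34186)) (x (nat_lit 34188)) (x (nat_lit 34192)) (x (nat_lit 34194))
    (x (nat_lit 34200)) (x (nat_lit 34210)) (x (nat_lit 34212)) (x (nat_lit 34218))
    (x (nat_lit 34236)) (x (nat_lit 34280)) (x (nat_lit 34286)) (x (nat_lit 34288))
    (x (nat_lit 34298)) (x (nat_lit 34304)) (x (nat_lit 34306)) (x (nat_lit 34310))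
    (x (nat_lit 34312)) (x (nat_lit 34314)) (x (nat_lit 34322)) (x (nat_lit 34324))
    (x (nat_lit 34328)) (x (nat_lit 34330)) (x (nat_lit 34332)) (x (nat_lit 34336))
    (x (nat_lit 34338)) (x (nat_lit 34352)) (x (nat_lit 34358)) (x (nat_lit 34360))
    (x (nat_lit 34364)) (x (nat_lit 34366)) (x (nat_lit 34368)) (x (nat_lit 34376))
    (x (nat_lit 34378)) (x (nat_lit 34382)) (x (nat_lit 34384)) (x (nat_lit 34386))
    (x (nat_lit 34390)) (x (nat_lit 34392)) (x (nat_lit 34400)) (x (nat_lit 34402))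
    (x (nat_lit 34404)) (x (nat_lit 34408)) (x (nat_lit 34410)) (x (nat_lit 34416))
    (x (nat_lit 34430)) (x (nat_lit 34432)) (x (nat_lit 34436)) (x (nat_lit 34438))
    (x (nat_lit 34440)) (x (nat_lit 34444)) (x (nat_lit 34446)) (x (nat_lit 34454))
    (x (nat_lit 34456)) (x (nat_lit 34458)) (x (nat_lit 34462)) (x (nat_lit 34464))
    (x (nat_lit 34470)) (x (nat_lit 34480)) (x (nat_lit 34482)) (x (nat_lit 34488))
    (x (nat_lit 34514)) (x (nat_lit 34520)) (x (nat_lit 34522)) (x (nat_lit 34526))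
    (x (nat_lit 34528)) (x (nat_lit 34530)) (x (nat_lit 34538)) (x (nat_lit 34540))
    (x (nat_lit 34544)) (x (nat_lit 34546)) (x (nat_lit 34548)) (x (nat_lit 34552))
    (x (nat_lit 34554)) (x (nat_lit 34562)) (x (nat_lit 34564)) (x (nat_lit 34566))
    (x (nat_lit 34570)) (x (nat_lit 34572)) (x (nat_lit 34578)) (x (nat_lit 34592))
    (x (nat_lit 34594)) (x (nat_lit 34598)) (x (nat_lit 34600)) (x (nat_lit 34602))
    (x (nat_lit 34606)) (x (nat_lit 34608)) (x (nat_lit 34616)) (x (nat_lit 34618))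
    (x (nat_lit 34620)) (x (nat_lit 34624)) (x (nat_lit 34626)) (x (nat_lit 34632))
    (x (nat_lit 34642)) (x (nat_lit 34644)) (x (nat_lit 34650)) (x (nat_lit 34670))
    (x (nat_lit 34672)) (x (nat_lit 34674)) (x (nat_lit 34678)) (x (nat_lit 34680))
    (x (nat_lit 34686)) (x (nat_lit 34696)) (x (nat_lit 34698)) (x (nat_lit 34704))
    (x (nat_lit 34722)) (x (nat_lit 34754)) (x (nat_lit 34756)) (x (nat_lit 34760))
    (x (nat_lit 34762)) (x (nat_lit 34764)) (x (nat_lit 34768)) (x (nat_lit 34770))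
    (x (nat_lit 34778)) (x (nat_lit 34780)) (x (nat_lit 34782)) (x (nat_lit 34786))
    (x (nat_lit 34788)) (x (nat_lit 34794)) (x (nat_lit 34804)) (x (nat_lit 34806))
    (x (nat_lit 34812)) (x (nat_lit 34832)) (x (nat_lit 34834)) (x (nat_lit 34836))
    (x (nat_lit 34840)) (x (nat_lit 34842)) (x (nat_lit 34848)) (x (nat_lit 34858))
    (x (nat_lit 34860)) (x (nat_lit 34866)) (x (nat_lit 34884)) (x (nat_lit 34912))
    (x (nat_lit 34914)) (x (nat_lit 34920)) (x (nat_lit 34938)) (x (nat_lit 35018))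
    (x (nat_lit 35036)) (x (nat_lit 35042)) (x (nat_lit 35044)) (x (nat_lit 35054))
    (x (nat_lit 35060)) (x (nat_lit 35062)) (x (nat_lit 35066)) (x (nat_lit 35068))
    (x (nat_lit 35070)) (x (nat_lit 35090)) (x (nat_lit 35096)) (x (nat_lit 35098))
    (x (nat_lit 35108)) (x (nat_lit 35114)) (x (nat_lit 35116)) (x (nat_lit 35120))
    (x (nat_lit 35122)) (x (nat_lit 35124)) (x (nat_lit 35132)) (x (nat_lit 35134))
    (x (nat_lit 35138)) (x (nat_lit 35140)) (x (nat_lit 35142)) (x (nat_lit 35146))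
    (x (nat_lit 35148)) (x (nat_lit 35162)) (x (nat_lit 35168)) (x (nat_lit 35170))
    (x (nat_lit 35174)) (x (nat_lit 35176)) (x (nat_lit 35178)) (x (nat_lit 35186))
    (x (nat_lit 35188)) (x (nat_lit 35192)) (x (nat_lit 35194)) (x (nat_lit 35196))
    (x (nat_lit 35200)) (x (nat_lit 35202)) (x (nat_lit 35210)) (x (nat_lit 35212))
    (x (nat_lit 35214)) (x (nat_lit 35218)) (x (nat_lit 35220)) (x (nat_lit 35226))
    (x (nat_lit 35252)) (x (nat_lit 35258)) (x (nat_lit 35260)) (x (nat_lit 35270))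
    (x (nat_lit 35276)) (x (nat_lit 35278)) (x (nat_lit 35282)) (x (nat_lit 35284))
    (x (nat_lit 35286)) (x (nat_lit 35294)) (x (nat_lit 35296)) (x (nat_lit 35300))
    (x (nat_lit 35302)) (x (nat_lit 35304)) (x (nat_lit 35308)) (x (nat_lit 35310))
    (x (nat_lit 35324)) (x (nat_lit 35330)) (x (nat_lit 35332)) (x (nat_lit 35336))
    (x (nat_lit 35338)) (x (nat_lit 35340)) (x (nat_lit 35348)) (x (nat_lit 35350))
    (x (nat_lit 35354)) (x (nat_lit 35356)) (x (nat_lit 35358)) (x (nat_lit 35362))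
    (x (nat_lit 35364)) (x (nat_lit 35372)) (x (nat_lit 35374)) (x (nat_lit 35376))
    (x (nat_lit 35380)) (x (nat_lit 35382)) (x (nat_lit 35388)) (x (nat_lit 35402))
    (x (nat_lit 35404)) (x (nat_lit 35408)) (x (nat_lit 35410)) (x (nat_lit 35412))
    (x (nat_lit 35416)) (x (nat_lit 35418)) (x (nat_lit 35426)) (x (nat_lit 35428))
    (x (nat_lit 35430)) (x (nat_lit 35434)) (x (nat_lit 35436)) (x (nat_lit 35442))
    (x (nat_lit 35452)) (x (nat_lit 35454)) (x (nat_lit 35460)) (x (nat_lit 35486))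
    (x (nat_lit 35492)) (x (nat_lit 35494)) (x (nat_lit 35498)) (x (nat_lit 35500))
    (x (nat_lit 35502)) (x (nat_lit 35510)) (x (nat_lit 35512)) (x (nat_lit 35516))
    (x (nat_lit 35518)) (x (nat_lit 35520)) (x (nat_lit 35524)) (x (nat_lit 35526))
    (x (nat_lit 35534)) (x (nat_lit 35536)) (x (nat_lit 35538)) (x (nat_lit 35542))
    (x (nat_lit 35544)) (x (nat_lit 35550)) (x (nat_lit 35564)) (x (nat_lit 35566))
    (x (nat_lit 35570)) (x (nat_lit 35572)) (x (nat_lit 35574)) (x (nat_lit 35578))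
    (x (nat_lit 35580)) (x (nat_lit 35588)) (x (nat_lit 35590)) (x (nat_lit 35592))
    (x (nat_lit 35596)) (x (nat_lit 35598)) (x (nat_lit 35604)) (x (nat_lit 35614))
    (x (nat_lit 35616)) (x (nat_lit 35622)) (x (nat_lit 35642)) (x (nat_lit 35644))
    (x (nat_lit 35646)) (x (nat_lit 35650)) (x (nat_lit 35652)) (x (nat_lit 35658))
    (x (nat_lit 35668)) (x (nat_lit 35670)) (x (nat_lit 35676)) (x (nat_lit 35694))
    (x (nat_lit 35738)) (x (nat_lit 35744)) (x (nat_lit 35746)) (x (nat_lit 35756))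
    (x (nat_lit 35762)) (x (nat_lit 35764)) (x (nat_lit 35768)) (x (nat_lit 35770))
    (x (nat_lit 35772)) (x (nat_lit 35780)) (x (nat_lit 35782)) (x (nat_lit 35786))
    (x (nat_lit 35788)) (x (nat_lit 35790)) (x (nat_lit 35794)) (x (nat_lit 35796))
    (x (nat_lit 35810)) (x (nat_lit 35816)) (x (nat_lit 35818)) (x (nat_lit 35822))
    (x (nat_lit 35824)) (x (nat_lit 35826)) (x (nat_lit 35834)) (x (nat_lit 35836))
    (x (nat_lit 35840)) (x (nat_lit 35842)) (x (nat_lit 35844)) (x (nat_lit 35848))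
    (x (nat_lit 35850)) (x (nat_lit 35858)) (x (nat_lit 35860)) (x (nat_lit 35862))
    (x (nat_lit 35866)) (x (nat_lit 35868)) (x (nat_lit 35874)) (x (nat_lit 35888))
    (x (nat_lit 35890)) (x (nat_lit 35894)) (x (nat_lit 35896)) (x (nat_lit 35898))
    (x (nat_lit 35902)) (x (nat_lit 35904)) (x (nat_lit 35912)) (x (nat_lit 35914))
    (x (nat_lit 35916)) (x (nat_lit 35920)) (x (nat_lit 35922)) (x (nat_lit 35928))
    (x (nat_lit 35938)) (x (nat_lit 35940)) (x (nat_lit 35946)) (x (nat_lit 35972))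
    (x (nat_lit 35978)) (x (nat_lit 35980)) (x (nat_lit 35984)) (x (nat_lit 35986))
    (x (nat_lit 35988)) (x (nat_lit 35996)) (x (nat_lit 35998)) (x (nat_lit 36002))
    (x (nat_lit 36004)) (x (nat_lit 36006)) (x (nat_lit 36010)) (x (nat_lit 36012))
    (x (nat_lit 36020)) (x (nat_lit 36022)) (x (nat_lit 36024)) (x (nat_lit 36028))
    (x (nat_lit 36030)) (x (nat_lit 36036)) (x (nat_lit 36050)) (x (nat_lit 36052))
    (x (nat_lit 36056)) (x (nat_lit 36058)) (x (nat_lit 36060)) (x (nat_lit 36064))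
    (x (nat_lit 36066)) (x (nat_lit 36074)) (x (nat_lit 36076)) (x (nat_lit 36078))
    (x (nat_lit 36082)) (x (nat_lit 36084)) (x (nat_lit 36090)) (x (nat_lit 36100))
    (x (nat_lit 36102)) (x (nat_lit 36108)) (x (nat_lit 36128)) (x (nat_lit 36130))
    (x (nat_lit 36132)) (x (nat_lit 36136)) (x (nat_lit 36138)) (x (nat_lit 36144))
    (x (nat_lit 36154)) (x (nat_lit 36156)) (x (nat_lit 36162)) (x (nat_lit 36180))
    (x (nat_lit 36212)) (x (nat_lit 36214)) (x (nat_lit 36218)) (x (nat_lit 36220))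
    (x (nat_lit 36222)) (x (nat_lit 36226)) (x (nat_lit 36228)) (x (nat_lit 36236))
    (x (nat_lit 36238)) (x (nat_lit 36240)) (x (nat_lit 36244)) (x (nat_lit 36246))
    (x (nat_lit 36252)) (x (nat_lit 36262)) (x (nat_lit 36264)) (x (nat_lit 36270))
    (x (nat_lit 36290)) (x (nat_lit 36292)) (x (nat_lit 36294)) (x (nat_lit 36298))
    (x (nat_lit 36300)) (x (nat_lit 36306)) (x (nat_lit 36316)) (x (nat_lit 36318))
    (x (nat_lit 36324)) (x (nat_lit 36342)) (x (nat_lit 36370)) (x (nat_lit 36372))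
    (x (nat_lit 36378)) (x (nat_lit 36396)) (x (nat_lit 36458)) (x (nat_lit 36464))
    (x (nat_lit 36466)) (x (nat_lit 36470)) (x (nat_lit 36472)) (x (nat_lit 36474))
    (x (nat_lit 36482)) (x (nat_lit 36484)) (x (nat_lit 36488)) (x (nat_lit 36490))
    (x (nat_lit 36492)) (x (nat_lit 36496)) (x (nat_lit 36498)) (x (nat_lit 36506))
    (x (nat_lit 36508)) (x (nat_lit 36510)) (x (nat_lit 36514)) (x (nat_lit 36516))
    (x (nat_lit 36522)) (x (nat_lit 36536)) (x (nat_lit 36538)) (x (nat_lit 36542))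
    (x (nat_lit 36544)) (x (nat_lit 36546)) (x (nat_lit 36550)) (x (nat_lit 36552))
    (x (nat_lit 36560)) (x (nat_lit 36562)) (x (nat_lit 36564)) (x (nat_lit 36568))
    (x (nat_lit 36570)) (x (nat_lit 36576)) (x (nat_lit 36586)) (x (nat_lit 36588))
    (x (nat_lit 36594)) (x (nat_lit 36614)) (x (nat_lit 36616)) (x (nat_lit 36618))
    (x (nat_lit 36622)) (x (nat_lit 36624)) (x (nat_lit 36630)) (x (nat_lit 36640))
    (x (nat_lit 36642)) (x (nat_lit 36648)) (x (nat_lit 36666)) (x (nat_lit 36698))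
    (x (nat_lit 36700)) (x (nat_lit 36704)) (x (nat_lit 36706)) (x (nat_lit 36708))
    (x (nat_lit 36712)) (x (nat_lit 36714)) (x (nat_lit 36722)) (x (nat_lit 36724))
    (x (nat_lit 36726)) (x (nat_lit 36730)) (x (nat_lit 36732)) (x (nat_lit 36738))
    (x (nat_lit 36748)) (x (nat_lit 36750)) (x (nat_lit 36756)) (x (nat_lit 36776))
    (x (nat_lit 36778)) (x (nat_lit 36780)) (x (nat_lit 36784)) (x (nat_lit 36786))
    (x (nat_lit 36792)) (x (nat_lit 36802)) (x (nat_lit 36804)) (x (nat_lit 36810))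
    (x (nat_lit 36828)) (x (nat_lit 36856)) (x (nat_lit 36858)) (x (nat_lit 36864))
    (x (nat_lit 36882)) (x (nat_lit 36938)) (x (nat_lit 36940)) (x (nat_lit 36942))
    (x (nat_lit 36946)) (x (nat_lit 36948)) (x (nat_lit 36954)) (x (nat_lit 36964))
    (x (nat_lit 36966)) (x (nat_lit 36972)) (x (nat_lit 36990)) (x (nat_lit 37018))
    (x (nat_lit 37020)) (x (nat_lit 37026)) (x (nat_lit 37044)) (x (nat_lit 37098))
    (x (nat_lit 37196)) (x (nat_lit 37202)) (x (nat_lit 37204)) (x (nat_lit 37214))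
    (x (nat_lit 37220)) (x (nat_lit 37222)) (x (nat_lit 37226)) (x (nat_lit 37228))
    (x (nat_lit 37230)) (x (nat_lit 37238)) (x (nat_lit 37240)) (x (nat_lit 37244))
    (x (nat_lit 37246)) (x (nat_lit 37248)) (x (nat_lit 37252)) (x (nat_lit 37254))
    (x (nat_lit 37268)) (x (nat_lit 37274)) (x (nat_lit 37276)) (x (nat_lit 37280))
    (x (nat_lit 37282)) (x (nat_lit 37284)) (x (nat_lit 37292)) (x (nat_lit 37294))
    (x (nat_lit 37298)) (x (nat_lit 37300)) (x (nat_lit 37302)) (x (nat_lit 37306))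
    (x (nat_lit 37308)) (x (nat_lit 37316)) (x (nat_lit 37318)) (x (nat_lit 37320))
    (x (nat_lit 37324)) (x (nat_lit 37326)) (x (nat_lit 37332)) (x (nat_lit 37346))
    (x (nat_lit 37348)) (x (nat_lit 37352)) (x (nat_lit 37354)) (x (nat_lit 37356))
    (x (nat_lit 37360)) (x (nat_lit 37362)) (x (nat_lit 37370)) (x (nat_lit 37372))
    (x (nat_lit 37374)) (x (nat_lit 37378)) (x (nat_lit 37380)) (x (nat_lit 37386))
    (x (nat_lit 37396)) (x (nat_lit 37398)) (x (nat_lit 37404)) (x (nat_lit 37430))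
    (x (nat_lit 37436)) (x (nat_lit 37438)) (x (nat_lit 37442)) (x (nat_lit 37444))
    (x (nat_lit 37446)) (x (nat_lit 37454)) (x (nat_lit 37456)) (x (nat_lit 37460))
    (x (nat_lit 37462)) (x (nat_lit 37464)) (x (nat_lit 37468)) (x (nat_lit 37470))
    (x (nat_lit 37478)) (x (nat_lit 37480)) (x (nat_lit 37482)) (x (nat_lit 37486))
    (x (nat_lit 37488)) (x (nat_lit 37494)) (x (nat_lit 37508)) (x (nat_lit 37510))
    (x (nat_lit 37514)) (x (nat_lit 37516)) (x (nat_lit 37518)) (x (nat_lit 37522))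
    (x (nat_lit 37524)) (x (nat_lit 37532)) (x (nat_lit 37534)) (x (nat_lit 37536))
    (x (nat_lit 37540)) (x (nat_lit 37542)) (x (nat_lit 37548)) (x (nat_lit 37558))
    (x (nat_lit 37560)) (x (nat_lit 37566)) (x (nat_lit 37586)) (x (nat_lit 37588))
    (x (nat_lit 37590)) (x (nat_lit 37594)) (x (nat_lit 37596)) (x (nat_lit 37602))
    (x (nat_lit 37612)) (x (nat_lit 37614)) (x (nat_lit 37620)) (x (nat_lit 37638))
    (x (nat_lit 37670)) (x (nat_lit 37672)) (x (nat_lit 37676)) (x (nat_lit 37678))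
    (x (nat_lit 37680)) (x (nat_lit 37684)) (x (nat_lit 37686)) (x (nat_lit 37694))
    (x (nat_lit 37696)) (x (nat_lit 37698)) (x (nat_lit 37702)) (x (nat_lit 37704))
    (x (nat_lit 37710)) (x (nat_lit 37720)) (x (nat_lit 37722)) (x (nat_lit 37728))
    (x (nat_lit 37748)) (x (nat_lit 37750)) (x (nat_lit 37752)) (x (nat_lit 37756))
    (x (nat_lit 37758)) (x (nat_lit 37764)) (x (nat_lit 37774)) (x (nat_lit 37776))
    (x (nat_lit 37782)) (x (nat_lit 37800)) (x (nat_lit 37828)) (x (nat_lit 37830))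
    (x (nat_lit 37836)) (x (nat_lit 37854)) (x (nat_lit 37916)) (x (nat_lit 37922))
    (x (nat_lit 37924)) (x (nat_lit 37928)) (x (nat_lit 37930)) (x (nat_lit 37932))
    (x (nat_lit 37940)) (x (nat_lit 37942)) (x (nat_lit 37946)) (x (nat_lit 37948))
    (x (nat_lit 37950)) (x (nat_lit 37954)) (x (nat_lit 37956)) (x (nat_lit 37964))
    (x (nat_lit 37966)) (x (nat_lit 37968)) (x (nat_lit 37972)) (x (nat_lit 37974))
    (x (nat_lit 37980)) (x (nat_lit 37994)) (x (nat_lit 37996)) (x (nat_lit 38000))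
    (x (nat_lit 38002)) (x (nat_lit 38004)) (x (nat_lit 38008)) (x (nat_lit 38010))
    (x (nat_lit 38018)) (x (nat_lit 38020)) (x (nat_lit 38022)) (x (nat_lit 38026))
    (x (nat_lit 38028)) (x (nat_lit 38034)) (x (nat_lit 38044)) (x (nat_lit 38046))
    (x (nat_lit 38052)) (x (nat_lit 38072)) (x (nat_lit 38074)) (x (nat_lit 38076))
    (x (nat_lit 38080)) (x (nat_lit 38082)) (x (nat_lit 38088)) (x (nat_lit 38098))
    (x (nat_lit 38100)) (x (nat_lit 38106)) (x (nat_lit 38124)) (x (nat_lit 38156))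
    (x (nat_lit 38158)) (x (nat_lit 38162)) (x (nat_lit 38164)) (x (nat_lit 38166))
    (x (nat_lit 38170)) (x (nat_lit 38172)) (x (nat_lit 38180)) (x (nat_lit 38182))
    (x (nat_lit 38184)) (x (nat_lit 38188)) (x (nat_lit 38190)) (x (nat_lit 38196))
    (x (nat_lit 38206)) (x (nat_lit 38208)) (x (nat_lit 38214)) (x (nat_lit 38234))
    (x (nat_lit 38236)) (x (nat_lit 38238)) (x (nat_lit 38242)) (x (nat_lit 38244))
    (x (nat_lit 38250)) (x (nat_lit 38260)) (x (nat_lit 38262)) (x (nat_lit 38268))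
    (x (nat_lit 38286)) (x (nat_lit 38314)) (x (nat_lit 38316)) (x (nat_lit 38322))
    (x (nat_lit 38340)) (x (nat_lit 38396)) (x (nat_lit 38398)) (x (nat_lit 38400))
    (x (nat_lit 38404)) (x (nat_lit 38406)) (x (nat_lit 38412)) (x (nat_lit 38422))
    (x (nat_lit 38424)) (x (nat_lit 38430)) (x (nat_lit 38448)) (x (nat_lit 38476))
    (x (nat_lit 38478)) (x (nat_lit 38484)) (x (nat_lit 38502)) (x (nat_lit 38556))
    (x (nat_lit 38642)) (x (nat_lit 38644)) (x (nat_lit 38648)) (x (nat_lit 38650))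
    (x (nat_lit 38652)) (x (nat_lit 38656)) (x (nat_lit 38658)) (x (nat_lit 38666))
    (x (nat_lit 38668)) (x (nat_lit 38670)) (x (nat_lit 38674)) (x (nat_lit 38676))
    (x (nat_lit 38682)) (x (nat_lit 38692)) (x (nat_lit 38694)) (x (nat_lit 38700))
    (x (nat_lit 38720)) (x (nat_lit 38722)) (x (nat_lit 38724)) (x (nat_lit 38728))
    (x (nat_lit 38730)) (x (nat_lit 38736)) (x (nat_lit 38746)) (x (nat_lit 38748))
    (x (nat_lit 38754)) (x (nat_lit 38772)) (x (nat_lit 38800)) (x (nat_lit 38802))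
    (x (nat_lit 38808)) (x (nat_lit 38826)) (x (nat_lit 38882)) (x (nat_lit 38884))
    (x (nat_lit 38886)) (x (nat_lit 38890)) (x (nat_lit 38892)) (x (nat_lit 38898))
    (x (nat_lit 38908)) (x (nat_lit 38910)) (x (nat_lit 38916)) (x (nat_lit 38934))
    (x (nat_lit 38962)) (x (nat_lit 38964)) (x (nat_lit 38970)) (x (nat_lit 38988))
    (x (nat_lit 39042)) (x (nat_lit 39124)) (x (nat_lit 39126)) (x (nat_lit 39132))
    (x (nat_lit 39150)) (x (nat_lit 39204)) (x (nat_lit 39446)) (x (nat_lit 39500))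
    (x (nat_lit 39518)) (x (nat_lit 39524)) (x (nat_lit 39526)) (x (nat_lit 39554))
    (x (nat_lit 39572)) (x (nat_lit 39578)) (x (nat_lit 39580)) (x (nat_lit 39590))
    (x (nat_lit 39596)) (x (nat_lit 39598)) (x (nat_lit 39602)) (x (nat_lit 39604))
    (x (nat_lit 39606)) (x (nat_lit 39662)) (x (nat_lit 39680)) (x (nat_lit 39686))
    (x (nat_lit 39688)) (x (nat_lit 39716)) (x (nat_lit 39734)) (x (nat_lit 39740))
    (x (nat_lit 39742)) (x (nat_lit 39752)) (x (nat_lit 39758)) (x (nat_lit 39760))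
    (x (nat_lit 39764)) (x (nat_lit 39766)) (x (nat_lit 39768)) (x (nat_lit 39788))
    (x (nat_lit 39794)) (x (nat_lit 39796)) (x (nat_lit 39806)) (x (nat_lit 39812))
    (x (nat_lit 39814)) (x (nat_lit 39818)) (x (nat_lit 39820)) (x (nat_lit 39822))
    (x (nat_lit 39830)) (x (nat_lit 39832)) (x (nat_lit 39836)) (x (nat_lit 39838))
    (x (nat_lit 39840)) (x (nat_lit 39844)) (x (nat_lit 39846)) (x (nat_lit 39878))
    (x (nat_lit 39896)) (x (nat_lit 39902)) (x (nat_lit 39904)) (x (nat_lit 39914))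
    (x (nat_lit 39920)) (x (nat_lit 39922)) (x (nat_lit 39926)) (x (nat_lit 39928))
    (x (nat_lit 39930)) (x (nat_lit 39950)) (x (nat_lit 39956)) (x (nat_lit 39958))
    (x (nat_lit 39968)) (x (nat_lit 39974)) (x (nat_lit 39976)) (x (nat_lit 39980))
    (x (nat_lit 39982)) (x (nat_lit 39984)) (x (nat_lit 39992)) (x (nat_lit 39994))
    (x (nat_lit 39998)) (x (nat_lit 40000)) (x (nat_lit 40002)) (x (nat_lit 40006))
    (x (nat_lit 40008)) (x (nat_lit 40022)) (x (nat_lit 40028)) (x (nat_lit 40030))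
    (x (nat_lit 40034)) (x (nat_lit 40036)) (x (nat_lit 40038)) (x (nat_lit 40046))
    (x (nat_lit 40048)) (x (nat_lit 40052)) (x (nat_lit 40054)) (x (nat_lit 40056))
    (x (nat_lit 40060)) (x (nat_lit 40062)) (x (nat_lit 40070)) (x (nat_lit 40072))
    (x (nat_lit 40074)) (x (nat_lit 40078)) (x (nat_lit 40080)) (x (nat_lit 40086))
    (x (nat_lit 40148)) (x (nat_lit 40166)) (x (nat_lit 40172)) (x (nat_lit 40174))
    (x (nat_lit 40202)) (x (nat_lit 40220)) (x (nat_lit 40226)) (x (nat_lit 40228))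
    (x (nat_lit 40238)) (x (nat_lit 40244)) (x (nat_lit 40246)) (x (nat_lit 40250))
    (x (nat_lit 40252)) (x (nat_lit 40254)) (x (nat_lit 40274)) (x (nat_lit 40280))
    (x (nat_lit 40282)) (x (nat_lit 40292)) (x (nat_lit 40298)) (x (nat_lit 40300))
    (x (nat_lit 40304)) (x (nat_lit 40306)) (x (nat_lit 40308)) (x (nat_lit 40316))
    (x (nat_lit 40318)) (x (nat_lit 40322)) (x (nat_lit 40324)) (x (nat_lit 40326))
    (x (nat_lit 40330)) (x (nat_lit 40332)) (x (nat_lit 40364)) (x (nat_lit 40382))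
    (x (nat_lit 40388)) (x (nat_lit 40390)) (x (nat_lit 40400)) (x (nat_lit 40406))
    (x (nat_lit 40408)) (x (nat_lit 40412)) (x (nat_lit 40414)) (x (nat_lit 40416))
    (x (nat_lit 40436)) (x (nat_lit 40442)) (x (nat_lit 40444)) (x (nat_lit 40454))
    (x (nat_lit 40460)) (x (nat_lit 40462)) (x (nat_lit 40466)) (x (nat_lit 40468))
    (x (nat_lit 40470)) (x (nat_lit 40478)) (x (nat_lit 40480)) (x (nat_lit 40484))
    (x (nat_lit 40486)) (x (nat_lit 40488)) (x (nat_lit 40492)) (x (nat_lit 40494))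
    (x (nat_lit 40508)) (x (nat_lit 40514)) (x (nat_lit 40516)) (x (nat_lit 40520))
    (x (nat_lit 40522)) (x (nat_lit 40524)) (x (nat_lit 40532)) (x (nat_lit 40534))
    (x (nat_lit 40538)) (x (nat_lit 40540)) (x (nat_lit 40542)) (x (nat_lit 40546))
    (x (nat_lit 40548)) (x (nat_lit 40556)) (x (nat_lit 40558)) (x (nat_lit 40560))
    (x (nat_lit 40564)) (x (nat_lit 40566)) (x (nat_lit 40572)) (x (nat_lit 40598))
    (x (nat_lit 40604)) (x (nat_lit 40606)) (x (nat_lit 40616)) (x (nat_lit 40622))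
    (x (nat_lit 40624)) (x (nat_lit 40628)) (x (nat_lit 40630)) (x (nat_lit 40632))
    (x (nat_lit 40640)) (x (nat_lit 40642)) (x (nat_lit 40646)) (x (nat_lit 40648))
    (x (nat_lit 40650)) (x (nat_lit 40654)) (x (nat_lit 40656)) (x (nat_lit 40670))
    (x (nat_lit 40676)) (x (nat_lit 40678)) (x (nat_lit 40682)) (x (nat_lit 40684))
    (x (nat_lit 40686)) (x (nat_lit 40694)) (x (nat_lit 40696)) (x (nat_lit 40700))
    (x (nat_lit 40702)) (x (nat_lit 40704)) (x (nat_lit 40708)) (x (nat_lit 40710))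
    (x (nat_lit 40718)) (x (nat_lit 40720)) (x (nat_lit 40722)) (x (nat_lit 40726))
    (x (nat_lit 40728)) (x (nat_lit 40734)) (x (nat_lit 40748)) (x (nat_lit 40750))
    (x (nat_lit 40754)) (x (nat_lit 40756)) (x (nat_lit 40758)) (x (nat_lit 40762))
    (x (nat_lit 40764)) (x (nat_lit 40772)) (x (nat_lit 40774)) (x (nat_lit 40776))
    (x (nat_lit 40780)) (x (nat_lit 40782)) (x (nat_lit 40788)) (x (nat_lit 40798))
    (x (nat_lit 40800)) (x (nat_lit 40806)) (x (nat_lit 40850)) (x (nat_lit 40868))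
    (x (nat_lit 40874)) (x (nat_lit 40876)) (x (nat_lit 40886)) (x (nat_lit 40892))
    (x (nat_lit 40894)) (x (nat_lit 40898)) (x (nat_lit 40900)) (x (nat_lit 40902))
    (x (nat_lit 40922)) (x (nat_lit 40928)) (x (nat_lit 40930)) (x (nat_lit 40940))
    (x (nat_lit 40946)) (x (nat_lit 40948)) (x (nat_lit 40952)) (x (nat_lit 40954))
    (x (nat_lit 40956)) (x (nat_lit 40964)) (x (nat_lit 40966)) (x (nat_lit 40970))
    (x (nat_lit 40972)) (x (nat_lit 40974)) (x (nat_lit 40978)) (x (nat_lit 40980))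
    (x (nat_lit 40994)) (x (nat_lit 41000)) (x (nat_lit 41002)) (x (nat_lit 41006))
    (x (nat_lit 41008)) (x (nat_lit 41010)) (x (nat_lit 41018)) (x (nat_lit 41020))
    (x (nat_lit 41024)) (x (nat_lit 41026)) (x (nat_lit 41028)) (x (nat_lit 41032))
    (x (nat_lit 41034)) (x (nat_lit 41042)) (x (nat_lit 41044)) (x (nat_lit 41046))
    (x (nat_lit 41050)) (x (nat_lit 41052)) (x (nat_lit 41058)) (x (nat_lit 41084))
    (x (nat_lit 41090)) (x (nat_lit 41092)) (x (nat_lit 41102)) (x (nat_lit 41108))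
    (x (nat_lit 41110)) (x (nat_lit 41114)) (x (nat_lit 41116)) (x (nat_lit 41118))
    (x (nat_lit 41126)) (x (nat_lit 41128)) (x (nat_lit 41132)) (x (nat_lit 41134))
    (x (nat_lit 41136)) (x (nat_lit 41140)) (x (nat_lit 41142)) (x (nat_lit 41156))
    (x (nat_lit 41162)) (x (nat_lit 41164)) (x (nat_lit 41168)) (x (nat_lit 41170))
    (x (nat_lit 41172)) (x (nat_lit 41180)) (x (nat_lit 41182)) (x (nat_lit 41186))
    (x (nat_lit 41188)) (x (nat_lit 41190)) (x (nat_lit 41194)) (x (nat_lit 41196))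
    (x (nat_lit 41204)) (x (nat_lit 41206)) (x (nat_lit 41208)) (x (nat_lit 41212))
    (x (nat_lit 41214)) (x (nat_lit 41220)) (x (nat_lit 41234)) (x (nat_lit 41236))
    (x (nat_lit 41240)) (x (nat_lit 41242)) (x (nat_lit 41244)) (x (nat_lit 41248))
    (x (nat_lit 41250)) (x (nat_lit 41258)) (x (nat_lit 41260)) (x (nat_lit 41262))
    (x (nat_lit 41266)) (x (nat_lit 41268)) (x (nat_lit 41274)) (x (nat_lit 41284))
    (x (nat_lit 41286)) (x (nat_lit 41292)) (x (nat_lit 41318)) (x (nat_lit 41324))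
    (x (nat_lit 41326)) (x (nat_lit 41330)) (x (nat_lit 41332)) (x (nat_lit 41334))
    (x (nat_lit 41342)) (x (nat_lit 41344)) (x (nat_lit 41348)) (x (nat_lit 41350))
    (x (nat_lit 41352)) (x (nat_lit 41356)) (x (nat_lit 41358)) (x (nat_lit 41366))
    (x (nat_lit 41368)) (x (nat_lit 41370)) (x (nat_lit 41374)) (x (nat_lit 41376))
    (x (nat_lit 41382)) (x (nat_lit 41396)) (x (nat_lit 41398)) (x (nat_lit 41402))
    (x (nat_lit 41404)) (x (nat_lit 41406)) (x (nat_lit 41410)) (x (nat_lit 41412))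
    (x (nat_lit 41420)) (x (nat_lit 41422)) (x (nat_lit 41424)) (x (nat_lit 41428))
    (x (nat_lit 41430)) (x (nat_lit 41436)) (x (nat_lit 41446)) (x (nat_lit 41448))
    (x (nat_lit 41454)) (x (nat_lit 41474)) (x (nat_lit 41476)) (x (nat_lit 41478))
    (x (nat_lit 41482)) (x (nat_lit 41484)) (x (nat_lit 41490)) (x (nat_lit 41500))
    (x (nat_lit 41502)) (x (nat_lit 41508)) (x (nat_lit 41526)) (x (nat_lit 41606))
    (x (nat_lit 41624)) (x (nat_lit 41630)) (x (nat_lit 41632)) (x (nat_lit 41660))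
    (x (nat_lit 41678)) (x (nat_lit 41684)) (x (nat_lit 41686)) (x (nat_lit 41696))
    (x (nat_lit 41702)) (x (nat_lit 41704)) (x (nat_lit 41708)) (x (nat_lit 41710))
    (x (nat_lit 41712)) (x (nat_lit 41732)) (x (nat_lit 41738)) (x (nat_lit 41740))
    (x (nat_lit 41750)) (x (nat_lit 41756)) (x (nat_lit 41758)) (x (nat_lit 41762))
    (x (nat_lit 41764)) (x (nat_lit 41766)) (x (nat_lit 41774)) (x (nat_lit 41776))
    (x (nat_lit 41780)) (x (nat_lit 41782)) (x (nat_lit 41784)) (x (nat_lit 41788))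
    (x (nat_lit 41790)) (x (nat_lit 41822)) (x (nat_lit 41840)) (x (nat_lit 41846))
    (x (nat_lit 41848)) (x (nat_lit 41858)) (x (nat_lit 41864)) (x (nat_lit 41866))
    (x (nat_lit 41870)) (x (nat_lit 41872)) (x (nat_lit 41874)) (x (nat_lit 41894))
    (x (nat_lit 41900)) (x (nat_lit 41902)) (x (nat_lit 41912)) (x (nat_lit 41918))
    (x (nat_lit 41920)) (x (nat_lit 41924)) (x (nat_lit 41926)) (x (nat_lit 41928))
    (x (nat_lit 41936)) (x (nat_lit 41938)) (x (nat_lit 41942)) (x (nat_lit 41944))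
    (x (nat_lit 41946)) (x (nat_lit 41950)) (x (nat_lit 41952)) (x (nat_lit 41966))
    (x (nat_lit 41972)) (x (nat_lit 41974)) (x (nat_lit 41978)) (x (nat_lit 41980))
    (x (nat_lit 41982)) (x (nat_lit 41990)) (x (nat_lit 41992)) (x (nat_lit 41996))
    (x (nat_lit 41998)) (x (nat_lit 42000)) (x (nat_lit 42004)) (x (nat_lit 42006))
    (x (nat_lit 42014)) (x (nat_lit 42016)) (x (nat_lit 42018)) (x (nat_lit 42022))
    (x (nat_lit 42024)) (x (nat_lit 42030)) (x (nat_lit 42056)) (x (nat_lit 42062))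
    (x (nat_lit 42064)) (x (nat_lit 42074)) (x (nat_lit 42080)) (x (nat_lit 42082))
    (x (nat_lit 42086)) (x (nat_lit 42088)) (x (nat_lit 42090)) (x (nat_lit 42098))
    (x (nat_lit 42100)) (x (nat_lit 42104)) (x (nat_lit 42106)) (x (nat_lit 42108))
    (x (nat_lit 42112)) (x (nat_lit 42114)) (x (nat_lit 42128)) (x (nat_lit 42134))
    (x (nat_lit 42136)) (x (nat_lit 42140)) (x (nat_lit 42142)) (x (nat_lit 42144))
    (x (nat_lit 42152)) (x (nat_lit 42154)) (x (nat_lit 42158)) (x (nat_lit 42160))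
    (x (nat_lit 42162)) (x (nat_lit 42166)) (x (nat_lit 42168)) (x (nat_lit 42176))
    (x (nat_lit 42178)) (x (nat_lit 42180)) (x (nat_lit 42184)) (x (nat_lit 42186))
    (x (nat_lit 42192)) (x (nat_lit 42206)) (x (nat_lit 42208)) (x (nat_lit 42212))
    (x (nat_lit 42214)) (x (nat_lit 42216)) (x (nat_lit 42220)) (x (nat_lit 42222))
    (x (nat_lit 42230)) (x (nat_lit 42232)) (x (nat_lit 42234)) (x (nat_lit 42238))
    (x (nat_lit 42240)) (x (nat_lit 42246)) (x (nat_lit 42256)) (x (nat_lit 42258))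
    (x (nat_lit 42264)) (x (nat_lit 42308)) (x (nat_lit 42326)) (x (nat_lit 42332))
    (x (nat_lit 42334)) (x (nat_lit 42344)) (x (nat_lit 42350)) (x (nat_lit 42352))
    (x (nat_lit 42356)) (x (nat_lit 42358)) (x (nat_lit 42360)) (x (nat_lit 42380))
    (x (nat_lit 42386)) (x (nat_lit 42388)) (x (nat_lit 42398)) (x (nat_lit 42404))
    (x (nat_lit 42406)) (x (nat_lit 42410)) (x (nat_lit 42412)) (x (nat_lit 42414))
    (x (nat_lit 42422)) (x (nat_lit 42424)) (x (nat_lit 42428)) (x (nat_lit 42430))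
    (x (nat_lit 42432)) (x (nat_lit 42436)) (x (nat_lit 42438)) (x (nat_lit 42452))
    (x (nat_lit 42458)) (x (nat_lit 42460)) (x (nat_lit 42464)) (x (nat_lit 42466))
    (x (nat_lit 42468)) (x (nat_lit 42476)) (x (nat_lit 42478)) (x (nat_lit 42482))
    (x (nat_lit 42484)) (x (nat_lit 42486)) (x (nat_lit 42490)) (x (nat_lit 42492))
    (x (nat_lit 42500)) (x (nat_lit 42502)) (x (nat_lit 42504)) (x (nat_lit 42508))
    (x (nat_lit 42510)) (x (nat_lit 42516)) (x (nat_lit 42542)) (x (nat_lit 42548))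
    (x (nat_lit 42550)) (x (nat_lit 42560)) (x (nat_lit 42566)) (x (nat_lit 42568))
    (x (nat_lit 42572)) (x (nat_lit 42574)) (x (nat_lit 42576)) (x (nat_lit 42584))
    (x (nat_lit 42586)) (x (nat_lit 42590)) (x (nat_lit 42592)) (x (nat_lit 42594))
    (x (nat_lit 42598)) (x (nat_lit 42600)) (x (nat_lit 42614)) (x (nat_lit 42620))
    (x (nat_lit 42622)) (x (nat_lit 42626)) (x (nat_lit 42628)) (x (nat_lit 42630))
    (x (nat_lit 42638)) (x (nat_lit 42640)) (x (nat_lit 42644)) (x (nat_lit 42646))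
    (x (nat_lit 42648)) (x (nat_lit 42652)) (x (nat_lit 42654)) (x (nat_lit 42662))
    (x (nat_lit 42664)) (x (nat_lit 42666)) (x (nat_lit 42670)) (x (nat_lit 42672))
    (x (nat_lit 42678)) (x (nat_lit 42692)) (x (nat_lit 42694)) (x (nat_lit 42698))
    (x (nat_lit 42700)) (x (nat_lit 42702)) (x (nat_lit 42706)) (x (nat_lit 42708))
    (x (nat_lit 42716)) (x (nat_lit 42718)) (x (nat_lit 42720)) (x (nat_lit 42724))
    (x (nat_lit 42726)) (x (nat_lit 42732)) (x (nat_lit 42742)) (x (nat_lit 42744))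
    (x (nat_lit 42750)) (x (nat_lit 42776)) (x (nat_lit 42782)) (x (nat_lit 42784))
    (x (nat_lit 42788)) (x (nat_lit 42790)) (x (nat_lit 42792)) (x (nat_lit 42800))
    (x (nat_lit 42802)) (x (nat_lit 42806)) (x (nat_lit 42808)) (x (nat_lit 42810))
    (x (nat_lit 42814)) (x (nat_lit 42816)) (x (nat_lit 42824)) (x (nat_lit 42826))
    (x (nat_lit 42828)) (x (nat_lit 42832)) (x (nat_lit 42834)) (x (nat_lit 42840))
    (x (nat_lit 42854)) (x (nat_lit 42856)) (x (nat_lit 42860)) (x (nat_lit 42862))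
    (x (nat_lit 42864)) (x (nat_lit 42868)) (x (nat_lit 42870)) (x (nat_lit 42878))
    (x (nat_lit 42880)) (x (nat_lit 42882)) (x (nat_lit 42886)) (x (nat_lit 42888))
    (x (nat_lit 42894)) (x (nat_lit 42904)) (x (nat_lit 42906)) (x (nat_lit 42912))
    (x (nat_lit 42932)) (x (nat_lit 42934)) (x (nat_lit 42936)) (x (nat_lit 42940))
    (x (nat_lit 42942)) (x (nat_lit 42948)) (x (nat_lit 42958)) (x (nat_lit 42960))
    (x (nat_lit 42966)) (x (nat_lit 42984)) (x (nat_lit 43028)) (x (nat_lit 43034))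
    (x (nat_lit 43036)) (x (nat_lit 43046)) (x (nat_lit 43052)) (x (nat_lit 43054))
    (x (nat_lit 43058)) (x (nat_lit 43060)) (x (nat_lit 43062)) (x (nat_lit 43070))
    (x (nat_lit 43072)) (x (nat_lit 43076)) (x (nat_lit 43078)) (x (nat_lit 43080))
    (x (nat_lit 43084)) (x (nat_lit 43086)) (x (nat_lit 43100)) (x (nat_lit 43106))
    (x (nat_lit 43108)) (x (nat_lit 43112)) (x (nat_lit 43114)) (x (nat_lit 43116))
    (x (nat_lit 43124)) (x (nat_lit 43126)) (x (nat_lit 43130)) (x (nat_lit 43132))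
    (x (nat_lit 43134)) (x (nat_lit 43138)) (x (nat_lit 43140)) (x (nat_lit 43148))
    (x (nat_lit 43150)) (x (nat_lit 43152)) (x (nat_lit 43156)) (x (nat_lit 43158))
    (x (nat_lit 43164)) (x (nat_lit 43178)) (x (nat_lit 43180)) (x (nat_lit 43184))
    (x (nat_lit 43186)) (x (nat_lit 43188)) (x (nat_lit 43192)) (x (nat_lit 43194))
    (x (nat_lit 43202)) (x (nat_lit 43204)) (x (nat_lit 43206)) (x (nat_lit 43210))
    (x (nat_lit 43212)) (x (nat_lit 43218)) (x (nat_lit 43228)) (x (nat_lit 43230))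
    (x (nat_lit 43236)) (x (nat_lit 43262)) (x (nat_lit 43268)) (x (nat_lit 43270))
    (x (nat_lit 43274)) (x (nat_lit 43276)) (x (nat_lit 43278)) (x (nat_lit 43286))
    (x (nat_lit 43288)) (x (nat_lit 43292)) (x (nat_lit 43294)) (x (nat_lit 43296))
    (x (nat_lit 43300)) (x (nat_lit 43302)) (x (nat_lit 43310)) (x (nat_lit 43312))
    (x (nat_lit 43314)) (x (nat_lit 43318)) (x (nat_lit 43320)) (x (nat_lit 43326))
    (x (nat_lit 43340)) (x (nat_lit 43342)) (x (nat_lit 43346)) (x (nat_lit 43348))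
    (x (nat_lit 43350)) (x (nat_lit 43354)) (x (nat_lit 43356)) (x (nat_lit 43364))
    (x (nat_lit 43366)) (x (nat_lit 43368)) (x (nat_lit 43372)) (x (nat_lit 43374))
    (x (nat_lit 43380)) (x (nat_lit 43390)) (x (nat_lit 43392)) (x (nat_lit 43398))
    (x (nat_lit 43418)) (x (nat_lit 43420)) (x (nat_lit 43422)) (x (nat_lit 43426))
    (x (nat_lit 43428)) (x (nat_lit 43434)) (x (nat_lit 43444)) (x (nat_lit 43446))
    (x (nat_lit 43452)) (x (nat_lit 43470)) (x (nat_lit 43502)) (x (nat_lit 43504))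
    (x (nat_lit 43508)) (x (nat_lit 43510)) (x (nat_lit 43512)) (x (nat_lit 43516))
    (x (nat_lit 43518)) (x (nat_lit 43526)) (x (nat_lit 43528)) (x (nat_lit 43530))
    (x (nat_lit 43534)) (x (nat_lit 43536)) (x (nat_lit 43542)) (x (nat_lit 43552))
    (x (nat_lit 43554)) (x (nat_lit 43560)) (x (nat_lit 43580)) (x (nat_lit 43582))
    (x (nat_lit 43584)) (x (nat_lit 43588)) (x (nat_lit 43590)) (x (nat_lit 43596))
    (x (nat_lit 43606)) (x (nat_lit 43608)) (x (nat_lit 43614)) (x (nat_lit 43632))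
    (x (nat_lit 43660)) (x (nat_lit 43662)) (x (nat_lit 43668)) (x (nat_lit 43686))
    (x (nat_lit 43766)) (x (nat_lit 43784)) (x (nat_lit 43790)) (x (nat_lit 43792))
    (x (nat_lit 43802)) (x (nat_lit 43808)) (x (nat_lit 43810)) (x (nat_lit 43814))
    (x (nat_lit 43816)) (x (nat_lit 43818)) (x (nat_lit 43838)) (x (nat_lit 43844))
    (x (nat_lit 43846)) (x (nat_lit 43856)) (x (nat_lit 43862)) (x (nat_lit 43864))
    (x (nat_lit 43868)) (x (nat_lit 43870)) (x (nat_lit 43872)) (x (nat_lit 43880))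
    (x (nat_lit 43882)) (x (nat_lit 43886)) (x (nat_lit 43888)) (x (nat_lit 43890))
    (x (nat_lit 43894)) (x (nat_lit 43896)) (x (nat_lit 43910)) (x (nat_lit 43916))
    (x (nat_lit 43918)) (x (nat_lit 43922)) (x (nat_lit 43924)) (x (nat_lit 43926))
    (x (nat_lit 43934)) (x (nat_lit 43936)) (x (nat_lit 43940)) (x (nat_lit 43942))
    (x (nat_lit 43944)) (x (nat_lit 43948)) (x (nat_lit 43950)) (x (nat_lit 43958))
    (x (nat_lit 43960)) (x (nat_lit 43962)) (x (nat_lit 43966)) (x (nat_lit 43968))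
    (x (nat_lit 43974)) (x (nat_lit 44000)) (x (nat_lit 44006)) (x (nat_lit 44008))
    (x (nat_lit 44018)) (x (nat_lit 44024)) (x (nat_lit 44026)) (x (nat_lit 44030))
    (x (nat_lit 44032)) (x (nat_lit 44034)) (x (nat_lit 44042)) (x (nat_lit 44044))
    (x (nat_lit 44048)) (x (nat_lit 44050)) (x (nat_lit 44052)) (x (nat_lit 44056))
    (x (nat_lit 44058)) (x (nat_lit 44072)) (x (nat_lit 44078)) (x (nat_lit 44080))
    (x (nat_lit 44084)) (x (nat_lit 44086)) (x (nat_lit 44088)) (x (nat_lit 44096))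
    (x (nat_lit 44098)) (x (nat_lit 44102)) (x (nat_lit 44104)) (x (nat_lit 44106))
    (x (nat_lit 44110)) (x (nat_lit 44112)) (x (nat_lit 44120)) (x (nat_lit 44122))
    (x (nat_lit 44124)) (x (nat_lit 44128)) (x (nat_lit 44130)) (x (nat_lit 44136))
    (x (nat_lit 44150)) (x (nat_lit 44152)) (x (nat_lit 44156)) (x (nat_lit 44158))
    (x (nat_lit 44160)) (x (nat_lit 44164)) (x (nat_lit 44166)) (x (nat_lit 44174))
    (x (nat_lit 44176)) (x (nat_lit 44178)) (x (nat_lit 44182)) (x (nat_lit 44184))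
    (x (nat_lit 44190)) (x (nat_lit 44200)) (x (nat_lit 44202)) (x (nat_lit 44208))
    (x (nat_lit 44234)) (x (nat_lit 44240)) (x (nat_lit 44242)) (x (nat_lit 44246))
    (x (nat_lit 44248)) (x (nat_lit 44250)) (x (nat_lit 44258)) (x (nat_lit 44260))
    (x (nat_lit 44264)) (x (nat_lit 44266)) (x (nat_lit 44268)) (x (nat_lit 44272))
    (x (nat_lit 44274)) (x (nat_lit 44282)) (x (nat_lit 44284)) (x (nat_lit 44286))
    (x (nat_lit 44290)) (x (nat_lit 44292)) (x (nat_lit 44298)) (x (nat_lit 44312))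
    (x (nat_lit 44314)) (x (nat_lit 44318)) (x (nat_lit 44320)) (x (nat_lit 44322))
    (x (nat_lit 44326)) (x (nat_lit 44328)) (x (nat_lit 44336)) (x (nat_lit 44338))
    (x (nat_lit 44340)) (x (nat_lit 44344)) (x (nat_lit 44346)) (x (nat_lit 44352))
    (x (nat_lit 44362)) (x (nat_lit 44364)) (x (nat_lit 44370)) (x (nat_lit 44390))
    (x (nat_lit 44392)) (x (nat_lit 44394)) (x (nat_lit 44398)) (x (nat_lit 44400))
    (x (nat_lit 44406)) (x (nat_lit 44416)) (x (nat_lit 44418)) (x (nat_lit 44424))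
    (x (nat_lit 44442)) (x (nat_lit 44486)) (x (nat_lit 44492)) (x (nat_lit 44494))
    (x (nat_lit 44504)) (x (nat_lit 44510)) (x (nat_lit 44512)) (x (nat_lit 44516))
    (x (nat_lit 44518)) (x (nat_lit 44520)) (x (nat_lit 44528)) (x (nat_lit 44530))
    (x (nat_lit 44534)) (x (nat_lit 44536)) (x (nat_lit 44538)) (x (nat_lit 44542))
    (x (nat_lit 44544)) (x (nat_lit 44558)) (x (nat_lit 44564)) (x (nat_lit 44566))
    (x (nat_lit 44570)) (x (nat_lit 44572)) (x (nat_lit 44574)) (x (nat_lit 44582))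
    (x (nat_lit 44584)) (x (nat_lit 44588)) (x (nat_lit 44590)) (x (nat_lit 44592))
    (x (nat_lit 44596)) (x (nat_lit 44598)) (x (nat_lit 44606)) (x (nat_lit 44608))
    (x (nat_lit 44610)) (x (nat_lit 44614)) (x (nat_lit 44616)) (x (nat_lit 44622))
    (x (nat_lit 44636)) (x (nat_lit 44638)) (x (nat_lit 44642)) (x (nat_lit 44644))
    (x (nat_lit 44646)) (x (nat_lit 44650)) (x (nat_lit 44652)) (x (nat_lit 44660))
    (x (nat_lit 44662)) (x (nat_lit 44664)) (x (nat_lit 44668)) (x (nat_lit 44670))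
    (x (nat_lit 44676)) (x (nat_lit 44686)) (x (nat_lit 44688)) (x (nat_lit 44694))
    (x (nat_lit 44720)) (x (nat_lit 44726)) (x (nat_lit 44728)) (x (nat_lit 44732))
    (x (nat_lit 44734)) (x (nat_lit 44736)) (x (nat_lit 44744)) (x (nat_lit 44746))
    (x (nat_lit 44750)) (x (nat_lit 44752)) (x (nat_lit 44754)) (x (nat_lit 44758))
    (x (nat_lit 44760)) (x (nat_lit 44768)) (x (nat_lit 44770)) (x (nat_lit 44772))
    (x (nat_lit 44776)) (x (nat_lit 44778)) (x (nat_lit 44784)) (x (nat_lit 44798))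
    (x (nat_lit 44800)) (x (nat_lit 44804)) (x (nat_lit 44806)) (x (nat_lit 44808))
    (x (nat_lit 44812)) (x (nat_lit 44814)) (x (nat_lit 44822)) (x (nat_lit 44824))
    (x (nat_lit 44826)) (x (nat_lit 44830)) (x (nat_lit 44832)) (x (nat_lit 44838))
    (x (nat_lit 44848)) (x (nat_lit 44850)) (x (nat_lit 44856)) (x (nat_lit 44876))
    (x (nat_lit 44878)) (x (nat_lit 44880)) (x (nat_lit 44884)) (x (nat_lit 44886))
    (x (nat_lit 44892)) (x (nat_lit 44902)) (x (nat_lit 44904)) (x (nat_lit 44910))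
    (x (nat_lit 44928)) (x (nat_lit 44960)) (x (nat_lit 44962)) (x (nat_lit 44966))
    (x (nat_lit 44968)) (x (nat_lit 44970)) (x (nat_lit 44974)) (x (nat_lit 44976))
    (x (nat_lit 44984)) (x (nat_lit 44986)) (x (nat_lit 44988)) (x (nat_lit 44992))
    (x (nat_lit 44994)) (x (nat_lit 45000)) (x (nat_lit 45010)) (x (nat_lit 45012))
    (x (nat_lit 45018)) (x (nat_lit 45038)) (x (nat_lit 45040)) (x (nat_lit 45042))
    (x (nat_lit 45046)) (x (nat_lit 45048)) (x (nat_lit 45054)) (x (nat_lit 45064))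
    (x (nat_lit 45066)) (x (nat_lit 45072)) (x (nat_lit 45090)) (x (nat_lit 45118))
    (x (nat_lit 45120)) (x (nat_lit 45126)) (x (nat_lit 45144)) (x (nat_lit 45206))
    (x (nat_lit 45212)) (x (nat_lit 45214)) (x (nat_lit 45218)) (x (nat_lit 45220))
    (x (nat_lit 45222)) (x (nat_lit 45230)) (x (nat_lit 45232)) (x (nat_lit 45236))
    (x (nat_lit 45238)) (x (nat_lit 45240)) (x (nat_lit 45244)) (x (nat_lit 45246))
    (x (nat_lit 45254)) (x (nat_lit 45256)) (x (nat_lit 45258)) (x (nat_lit 45262))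
    (x (nat_lit 45264)) (x (nat_lit 45270)) (x (nat_lit 45284)) (x (nat_lit 45286))
    (x (nat_lit 45290)) (x (nat_lit 45292)) (x (nat_lit 45294)) (x (nat_lit 45298))
    (x (nat_lit 45300)) (x (nat_lit 45308)) (x (nat_lit 45310)) (x (nat_lit 45312))
    (x (nat_lit 45316)) (x (nat_lit 45318)) (x (nat_lit 45324)) (x (nat_lit 45334))
    (x (nat_lit 45336)) (x (nat_lit 45342)) (x (nat_lit 45362)) (x (nat_lit 45364))
    (x (nat_lit 45366)) (x (nat_lit 45370)) (x (nat_lit 45372)) (x (nat_lit 45378))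
    (x (nat_lit 45388)) (x (nat_lit 45390)) (x (nat_lit 45396)) (x (nat_lit 45414))
    (x (nat_lit 45446)) (x (nat_lit 45448)) (x (nat_lit 45452)) (x (nat_lit 45454))
    (x (nat_lit 45456)) (x (nat_lit 45460)) (x (nat_lit 45462)) (x (nat_lit 45470))
    (x (nat_lit 45472)) (x (nat_lit 45474)) (x (nat_lit 45478)) (x (nat_lit 45480))
    (x (nat_lit 45486)) (x (nat_lit 45496)) (x (nat_lit 45498)) (x (nat_lit 45504))
    (x (nat_lit 45524)) (x (nat_lit 45526)) (x (nat_lit 45528)) (x (nat_lit 45532))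
    (x (nat_lit 45534)) (x (nat_lit 45540)) (x (nat_lit 45550)) (x (nat_lit 45552))
    (x (nat_lit 45558)) (x (nat_lit 45576)) (x (nat_lit 45604)) (x (nat_lit 45606))
    (x (nat_lit 45612)) (x (nat_lit 45630)) (x (nat_lit 45686)) (x (nat_lit 45688))
    (x (nat_lit 45690)) (x (nat_lit 45694)) (x (nat_lit 45696)) (x (nat_lit 45702))
    (x (nat_lit 45712)) (x (nat_lit 45714)) (x (nat_lit 45720)) (x (nat_lit 45738))
    (x (nat_lit 45766)) (x (nat_lit 45768)) (x (nat_lit 45774)) (x (nat_lit 45792))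
    (x (nat_lit 45846)) (x (nat_lit 45980)) (x (nat_lit 45998)) (x (nat_lit 46004))
    (x (nat_lit 46006)) (x (nat_lit 46034)) (x (nat_lit 46052)) (x (nat_lit 46058))
    (x (nat_lit 46060)) (x (nat_lit 46070)) (x (nat_lit 46076)) (x (nat_lit 46078))
    (x (nat_lit 46082)) (x (nat_lit 46084)) (x (nat_lit 46086)) (x (nat_lit 46106))
    (x (nat_lit 46112)) (x (nat_lit 46114)) (x (nat_lit 46124)) (x (nat_lit 46130))
    (x (nat_lit 46132)) (x (nat_lit 46136)) (x (nat_lit 46138)) (x (nat_lit 46140))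
    (x (nat_lit 46148)) (x (nat_lit 46150)) (x (nat_lit 46154)) (x (nat_lit 46156))
    (x (nat_lit 46158)) (x (nat_lit 46162)) (x (nat_lit 46164)) (x (nat_lit 46196))
    (x (nat_lit 46214)) (x (nat_lit 46220)) (x (nat_lit 46222)) (x (nat_lit 46232))
    (x (nat_lit 46238)) (x (nat_lit 46240)) (x (nat_lit 46244)) (x (nat_lit 46246))
    (x (nat_lit 46248)) (x (nat_lit 46268)) (x (nat_lit 46274)) (x (nat_lit 46276))
    (x (nat_lit 46286)) (x (nat_lit 46292)) (x (nat_lit 46294)) (x (nat_lit 46298))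
    (x (nat_lit 46300)) (x (nat_lit 46302)) (x (nat_lit 46310)) (x (nat_lit 46312))
    (x (nat_lit 46316)) (x (nat_lit 46318)) (x (nat_lit 46320)) (x (nat_lit 46324))
    (x (nat_lit 46326)) (x (nat_lit 46340)) (x (nat_lit 46346)) (x (nat_lit 46348))
    (x (nat_lit 46352)) (x (nat_lit 46354)) (x (nat_lit 46356)) (x (nat_lit 46364))
    (x (nat_lit 46366)) (x (nat_lit 46370)) (x (nat_lit 46372)) (x (nat_lit 46374))
    (x (nat_lit 46378)) (x (nat_lit 46380)) (x (nat_lit 46388)) (x (nat_lit 46390))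
    (x (nat_lit 46392)) (x (nat_lit 46396)) (x (nat_lit 46398)) (x (nat_lit 46404))
    (x (nat_lit 46430)) (x (nat_lit 46436)) (x (nat_lit 46438)) (x (nat_lit 46448))
    (x (nat_lit 46454)) (x (nat_lit 46456)) (x (nat_lit 46460)) (x (nat_lit 46462))
    (x (nat_lit 46464)) (x (nat_lit 46472)) (x (nat_lit 46474)) (x (nat_lit 46478))
    (x (nat_lit 46480)) (x (nat_lit 46482)) (x (nat_lit 46486)) (x (nat_lit 46488))
    (x (nat_lit 46502)) (x (nat_lit 46508)) (x (nat_lit 46510)) (x (nat_lit 46514))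
    (x (nat_lit 46516)) (x (nat_lit 46518)) (x (nat_lit 46526)) (x (nat_lit 46528))
    (x (nat_lit 46532)) (x (nat_lit 46534)) (x (nat_lit 46536)) (x (nat_lit 46540))
    (x (nat_lit 46542)) (x (nat_lit 46550)) (x (nat_lit 46552)) (x (nat_lit 46554))
    (x (nat_lit 46558)) (x (nat_lit 46560)) (x (nat_lit 46566)) (x (nat_lit 46580))
    (x (nat_lit 46582)) (x (nat_lit 46586)) (x (nat_lit 46588)) (x (nat_lit 46590))
    (x (nat_lit 46594)) (x (nat_lit 46596)) (x (nat_lit 46604)) (x (nat_lit 46606))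
    (x (nat_lit 46608)) (x (nat_lit 46612)) (x (nat_lit 46614)) (x (nat_lit 46620))
    (x (nat_lit 46630)) (x (nat_lit 46632)) (x (nat_lit 46638)) (x (nat_lit 46682))
    (x (nat_lit 46700)) (x (nat_lit 46706)) (x (nat_lit 46708)) (x (nat_lit 46718))
    (x (nat_lit 46724)) (x (nat_lit 46726)) (x (nat_lit 46730)) (x (nat_lit 46732))
    (x (nat_lit 46734)) (x (nat_lit 46754)) (x (nat_lit 46760)) (x (nat_lit 46762))
    (x (nat_lit 46772)) (x (nat_lit 46778)) (x (nat_lit 46780)) (x (nat_lit 46784))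
    (x (nat_lit 46786)) (x (nat_lit 46788)) (x (nat_lit 46796)) (x (nat_lit 46798))
    (x (nat_lit 46802)) (x (nat_lit 46804)) (x (nat_lit 46806)) (x (nat_lit 46810))
    (x (nat_lit 46812)) (x (nat_lit 46826)) (x (nat_lit 46832)) (x (nat_lit 46834))
    (x (nat_lit 46838)) (x (nat_lit 46840)) (x (nat_lit 46842)) (x (nat_lit 46850))
    (x (nat_lit 46852)) (x (nat_lit 46856)) (x (nat_lit 46858)) (x (nat_lit 46860))
    (x (nat_lit 46864)) (x (nat_lit 46866)) (x (nat_lit 46874)) (x (nat_lit 46876))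
    (x (nat_lit 46878)) (x (nat_lit 46882)) (x (nat_lit 46884)) (x (nat_lit 46890))
    (x (nat_lit 46916)) (x (nat_lit 46922)) (x (nat_lit 46924)) (x (nat_lit 46934))
    (x (nat_lit 46940)) (x (nat_lit 46942)) (x (nat_lit 46946)) (x (nat_lit 46948))
    (x (nat_lit 46950)) (x (nat_lit 46958)) (x (nat_lit 46960)) (x (nat_lit 46964))
    (x (nat_lit 46966)) (x (nat_lit 46968)) (x (nat_lit 46972)) (x (nat_lit 46974))
    (x (nat_lit 46988)) (x (nat_lit 46994)) (x (nat_lit 46996)) (x (nat_lit 47000))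
    (x (nat_lit 47002)) (x (nat_lit 47004)) (x (nat_lit 47012)) (x (nat_lit 47014))
    (x (nat_lit 47018)) (x (nat_lit 47020)) (x (nat_lit 47022)) (x (nat_lit 47026))
    (x (nat_lit 47028)) (x (nat_lit 47036)) (x (nat_lit 47038)) (x (nat_lit 47040))
    (x (nat_lit 47044)) (x (nat_lit 47046)) (x (nat_lit 47052)) (x (nat_lit 47066))
    (x (nat_lit 47068)) (x (nat_lit 47072)) (x (nat_lit 47074)) (x (nat_lit 47076))
    (x (nat_lit 47080)) (x (nat_lit 47082)) (x (nat_lit 47090)) (x (nat_lit 47092))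
    (x (nat_lit 47094)) (x (nat_lit 47098)) (x (nat_lit 47100)) (x (nat_lit 47106))
    (x (nat_lit 47116)) (x (nat_lit 47118)) (x (nat_lit 47124)) (x (nat_lit 47150))
    (x (nat_lit 47156)) (x (nat_lit 47158)) (x (nat_lit 47162)) (x (nat_lit 47164))
    (x (nat_lit 47166)) (x (nat_lit 47174)) (x (nat_lit 47176)) (x (nat_lit 47180))
    (x (nat_lit 47182)) (x (nat_lit 47184)) (x (nat_lit 47188)) (x (nat_lit 47190))
    (x (nat_lit 47198)) (x (nat_lit 47200)) (x (nat_lit 47202)) (x (nat_lit 47206))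
    (x (nat_lit 47208)) (x (nat_lit 47214)) (x (nat_lit 47228)) (x (nat_lit 47230))
    (x (nat_lit 47234)) (x (nat_lit 47236)) (x (nat_lit 47238)) (x (nat_lit 47242))
    (x (nat_lit 47244)) (x (nat_lit 47252)) (x (nat_lit 47254)) (x (nat_lit 47256))
    (x (nat_lit 47260)) (x (nat_lit 47262)) (x (nat_lit 47268)) (x (nat_lit 47278))
    (x (nat_lit 47280)) (x (nat_lit 47286)) (x (nat_lit 47306)) (x (nat_lit 47308))
    (x (nat_lit 47310)) (x (nat_lit 47314)) (x (nat_lit 47316)) (x (nat_lit 47322))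
    (x (nat_lit 47332)) (x (nat_lit 47334)) (x (nat_lit 47340)) (x (nat_lit 47358))
    (x (nat_lit 47402)) (x (nat_lit 47408)) (x (nat_lit 47410)) (x (nat_lit 47420))
    (x (nat_lit 47426)) (x (nat_lit 47428)) (x (nat_lit 47432)) (x (nat_lit 47434))
    (x (nat_lit 47436)) (x (nat_lit 47444)) (x (nat_lit 47446)) (x (nat_lit 47450))
    (x (nat_lit 47452)) (x (nat_lit 47454)) (x (nat_lit 47458)) (x (nat_lit 47460))
    (x (nat_lit 47474)) (x (nat_lit 47480)) (x (nat_lit 47482)) (x (nat_lit 47486))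
    (x (nat_lit 47488)) (x (nat_lit 47490)) (x (nat_lit 47498)) (x (nat_lit 47500))
    (x (nat_lit 47504)) (x (nat_lit 47506)) (x (nat_lit 47508)) (x (nat_lit 47512))
    (x (nat_lit 47514)) (x (nat_lit 47522)) (x (nat_lit 47524)) (x (nat_lit 47526))
    (x (nat_lit 47530)) (x (nat_lit 47532)) (x (nat_lit 47538)) (x (nat_lit 47552))
    (x (nat_lit 47554)) (x (nat_lit 47558)) (x (nat_lit 47560)) (x (nat_lit 47562))
    (x (nat_lit 47566)) (x (nat_lit 47568)) (x (nat_lit 47576)) (x (nat_lit 47578))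
    (x (nat_lit 47580)) (x (nat_lit 47584)) (x (nat_lit 47586)) (x (nat_lit 47592))
    (x (nat_lit 47602)) (x (nat_lit 47604)) (x (nat_lit 47610)) (x (nat_lit 47636))
    (x (nat_lit 47642)) (x (nat_lit 47644)) (x (nat_lit 47648)) (x (nat_lit 47650))
    (x (nat_lit 47652)) (x (nat_lit 47660)) (x (nat_lit 47662)) (x (nat_lit 47666))
    (x (nat_lit 47668)) (x (nat_lit 47670)) (x (nat_lit 47674)) (x (nat_lit 47676))
    (x (nat_lit 47684)) (x (nat_lit 47686)) (x (nat_lit 47688)) (x (nat_lit 47692))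
    (x (nat_lit 47694)) (x (nat_lit 47700)) (x (nat_lit 47714)) (x (nat_lit 47716))
    (x (nat_lit 47720)) (x (nat_lit 47722)) (x (nat_lit 47724)) (x (nat_lit 47728))
    (x (nat_lit 47730)) (x (nat_lit 47738)) (x (nat_lit 47740)) (x (nat_lit 47742))
    (x (nat_lit 47746)) (x (nat_lit 47748)) (x (nat_lit 47754)) (x (nat_lit 47764))
    (x (nat_lit 47766)) (x (nat_lit 47772)) (x (nat_lit 47792)) (x (nat_lit 47794))
    (x (nat_lit 47796)) (x (nat_lit 47800)) (x (nat_lit 47802)) (x (nat_lit 47808))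
    (x (nat_lit 47818)) (x (nat_lit 47820)) (x (nat_lit 47826)) (x (nat_lit 47844))
    (x (nat_lit 47876)) (x (nat_lit 47878)) (x (nat_lit 47882)) (x (nat_lit 47884))
    (x (nat_lit 47886)) (x (nat_lit 47890)) (x (nat_lit 47892)) (x (nat_lit 47900))
    (x (nat_lit 47902)) (x (nat_lit 47904)) (x (nat_lit 47908)) (x (nat_lit 47910))
    (x (nat_lit 47916)) (x (nat_lit 47926)) (x (nat_lit 47928)) (x (nat_lit 47934))
    (x (nat_lit 47954)) (x (nat_lit 47956)) (x (nat_lit 47958)) (x (nat_lit 47962))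
    (x (nat_lit 47964)) (x (nat_lit 47970)) (x (nat_lit 47980)) (x (nat_lit 47982))
    (x (nat_lit 47988)) (x (nat_lit 48006)) (x (nat_lit 48034)) (x (nat_lit 48036))
    (x (nat_lit 48042)) (x (nat_lit 48060)) (x (nat_lit 48140)) (x (nat_lit 48158))
    (x (nat_lit 48164)) (x (nat_lit 48166)) (x (nat_lit 48176)) (x (nat_lit 48182))
    (x (nat_lit 48184)) (x (nat_lit 48188)) (x (nat_lit 48190)) (x (nat_lit 48192))
    (x (nat_lit 48212)) (x (nat_lit 48218)) (x (nat_lit 48220)) (x (nat_lit 48230))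
    (x (nat_lit 48236)) (x (nat_lit 48238)) (x (nat_lit 48242)) (x (nat_lit 48244))
    (x (nat_lit 48246)) (x (nat_lit 48254)) (x (nat_lit 48256)) (x (nat_lit 48260))
    (x (nat_lit 48262)) (x (nat_lit 48264)) (x (nat_lit 48268)) (x (nat_lit 48270))
    (x (nat_lit 48284)) (x (nat_lit 48290)) (x (nat_lit 48292)) (x (nat_lit 48296))
    (x (nat_lit 48298)) (x (nat_lit 48300)) (x (nat_lit 48308)) (x (nat_lit 48310))
    (x (nat_lit 48314)) (x (nat_lit 48316)) (x (nat_lit 48318)) (x (nat_lit 48322))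
    (x (nat_lit 48324)) (x (nat_lit 48332)) (x (nat_lit 48334)) (x (nat_lit 48336))
    (x (nat_lit 48340)) (x (nat_lit 48342)) (x (nat_lit 48348)) (x (nat_lit 48374))
    (x (nat_lit 48380)) (x (nat_lit 48382)) (x (nat_lit 48392)) (x (nat_lit 48398))
    (x (nat_lit 48400)) (x (nat_lit 48404)) (x (nat_lit 48406)) (x (nat_lit 48408))
    (x (nat_lit 48416)) (x (nat_lit 48418)) (x (nat_lit 48422)) (x (nat_lit 48424))
    (x (nat_lit 48426)) (x (nat_lit 48430)) (x (nat_lit 48432)) (x (nat_lit 48446))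
    (x (nat_lit 48452)) (x (nat_lit 48454)) (x (nat_lit 48458)) (x (nat_lit 48460))
    (x (nat_lit 48462)) (x (nat_lit 48470)) (x (nat_lit 48472)) (x (nat_lit 48476))
    (x (nat_lit 48478)) (x (nat_lit 48480)) (x (nat_lit 48484)) (x (nat_lit 48486))
    (x (nat_lit 48494)) (x (nat_lit 48496)) (x (nat_lit 48498)) (x (nat_lit 48502))
    (x (nat_lit 48504)) (x (nat_lit 48510)) (x (nat_lit 48524)) (x (nat_lit 48526))
    (x (nat_lit 48530)) (x (nat_lit 48532)) (x (nat_lit 48534)) (x (nat_lit 48538))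
    (x (nat_lit 48540)) (x (nat_lit 48548)) (x (nat_lit 48550)) (x (nat_lit 48552))
    (x (nat_lit 48556)) (x (nat_lit 48558)) (x (nat_lit 48564)) (x (nat_lit 48574))
    (x (nat_lit 48576)) (x (nat_lit 48582)) (x (nat_lit 48608)) (x (nat_lit 48614))
    (x (nat_lit 48616)) (x (nat_lit 48620)) (x (nat_lit 48622)) (x (nat_lit 48624))
    (x (nat_lit 48632)) (x (nat_lit 48634)) (x (nat_lit 48638)) (x (nat_lit 48640))
    (x (nat_lit 48642)) (x (nat_lit 48646)) (x (nat_lit 48648)) (x (nat_lit 48656))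
    (x (nat_lit 48658)) (x (nat_lit 48660)) (x (nat_lit 48664)) (x (nat_lit 48666))
    (x (nat_lit 48672)) (x (nat_lit 48686)) (x (nat_lit 48688)) (x (nat_lit 48692))
    (x (nat_lit 48694)) (x (nat_lit 48696)) (x (nat_lit 48700)) (x (nat_lit 48702))
    (x (nat_lit 48710)) (x (nat_lit 48712)) (x (nat_lit 48714)) (x (nat_lit 48718))
    (x (nat_lit 48720)) (x (nat_lit 48726)) (x (nat_lit 48736)) (x (nat_lit 48738))
    (x (nat_lit 48744)) (x (nat_lit 48764)) (x (nat_lit 48766)) (x (nat_lit 48768))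
    (x (nat_lit 48772)) (x (nat_lit 48774)) (x (nat_lit 48780)) (x (nat_lit 48790))
    (x (nat_lit 48792)) (x (nat_lit 48798)) (x (nat_lit 48816)) (x (nat_lit 48860))
    (x (nat_lit 48866)) (x (nat_lit 48868)) (x (nat_lit 48878)) (x (nat_lit 48884))
    (x (nat_lit 48886)) (x (nat_lit 48890)) (x (nat_lit 48892)) (x (nat_lit 48894))
    (x (nat_lit 48902)) (x (nat_lit 48904)) (x (nat_lit 48908)) (x (nat_lit 48910))
    (x (nat_lit 48912)) (x (nat_lit 48916)) (x (nat_lit 48918)) (x (nat_lit 48932))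
    (x (nat_lit 48938)) (x (nat_lit 48940)) (x (nat_lit 48944)) (x (nat_lit 48946))
    (x (nat_lit 48948)) (x (nat_lit 48956)) (x (nat_lit 48958)) (x (nat_lit 48962))
    (x (nat_lit 48964)) (x (nat_lit 48966)) (x (nat_lit 48970)) (x (nat_lit 48972))
    (x (nat_lit 48980)) (x (nat_lit 48982)) (x (nat_lit 48984)) (x (nat_lit 48988))
    (x (nat_lit 48990)) (x (nat_lit 48996)) (x (nat_lit 49010)) (x (nat_lit 49012))
    (x (nat_lit 49016)) (x (nat_lit 49018)) (x (nat_lit 49020)) (x (nat_lit 49024))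
    (x (nat_lit 49026)) (x (nat_lit 49034)) (x (nat_lit 49036)) (x (nat_lit 49038))
    (x (nat_lit 49042)) (x (nat_lit 49044)) (x (nat_lit 49050)) (x (nat_lit 49060))
    (x (nat_lit 49062)) (x (nat_lit 49068)) (x (nat_lit 49094)) (x (nat_lit 49100))
    (x (nat_lit 49102)) (x (nat_lit 49106)) (x (nat_lit 49108)) (x (nat_lit 49110))
    (x (nat_lit 49118)) (x (nat_lit 49120)) (x (nat_lit 49124)) (x (nat_lit 49126))
    (x (nat_lit 49128)) (x (nat_lit 49132)) (x (nat_lit 49134)) (x (nat_lit 49142))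
    (x (nat_lit 49144)) (x (nat_lit 49146)) (x (nat_lit 49150)) (x (nat_lit 49152))
    (x (nat_lit 49158)) (x (nat_lit 49172)) (x (nat_lit 49174)) (x (nat_lit 49178))
    (x (nat_lit 49180)) (x (nat_lit 49182)) (x (nat_lit 49186)) (x (nat_lit 49188))
    (x (nat_lit 49196)) (x (nat_lit 49198)) (x (nat_lit 49200)) (x (nat_lit 49204))
    (x (nat_lit 49206)) (x (nat_lit 49212)) (x (nat_lit 49222)) (x (nat_lit 49224))
    (x (nat_lit 49230)) (x (nat_lit 49250)) (x (nat_lit 49252)) (x (nat_lit 49254))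
    (x (nat_lit 49258)) (x (nat_lit 49260)) (x (nat_lit 49266)) (x (nat_lit 49276))
    (x (nat_lit 49278)) (x (nat_lit 49284)) (x (nat_lit 49302)) (x (nat_lit 49334))
    (x (nat_lit 49336)) (x (nat_lit 49340)) (x (nat_lit 49342)) (x (nat_lit 49344))
    (x (nat_lit 49348)) (x (nat_lit 49350)) (x (nat_lit 49358)) (x (nat_lit 49360))
    (x (nat_lit 49362)) (x (nat_lit 49366)) (x (nat_lit 49368)) (x (nat_lit 49374))
    (x (nat_lit 49384)) (x (nat_lit 49386)) (x (nat_lit 49392)) (x (nat_lit 49412))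
    (x (nat_lit 49414)) (x (nat_lit 49416)) (x (nat_lit 49420)) (x (nat_lit 49422))
    (x (nat_lit 49428)) (x (nat_lit 49438)) (x (nat_lit 49440)) (x (nat_lit 49446))
    (x (nat_lit 49464)) (x (nat_lit 49492)) (x (nat_lit 49494)) (x (nat_lit 49500))
    (x (nat_lit 49518)) (x (nat_lit 49580)) (x (nat_lit 49586)) (x (nat_lit 49588))
    (x (nat_lit 49592)) (x (nat_lit 49594)) (x (nat_lit 49596)) (x (nat_lit 49604))
    (x (nat_lit 49606)) (x (nat_lit 49610)) (x (nat_lit 49612)) (x (nat_lit 49614))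
    (x (nat_lit 49618)) (x (nat_lit 49620)) (x (nat_lit 49628)) (x (nat_lit 49630))
    (x (nat_lit 49632)) (x (nat_lit 49636)) (x (nat_lit 49638)) (x (nat_lit 49644))
    (x (nat_lit 49658)) (x (nat_lit 49660)) (x (nat_lit 49664)) (x (nat_lit 49666))
    (x (nat_lit 49668)) (x (nat_lit 49672)) (x (nat_lit 49674)) (x (nat_lit 49682))
    (x (nat_lit 49684)) (x (nat_lit 49686)) (x (nat_lit 49690)) (x (nat_lit 49692))
    (x (nat_lit 49698)) (x (nat_lit 49708)) (x (nat_lit 49710)) (x (nat_lit 49716))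
    (x (nat_lit 49736)) (x (nat_lit 49738)) (x (nat_lit 49740)) (x (nat_lit 49744))
    (x (nat_lit 49746)) (x (nat_lit 49752)) (x (nat_lit 49762)) (x (nat_lit 49764))
    (x (nat_lit 49770)) (x (nat_lit 49788)) (x (nat_lit 49820)) (x (nat_lit 49822))
    (x (nat_lit 49826)) (x (nat_lit 49828)) (x (nat_lit 49830)) (x (nat_lit 49834))
    (x (nat_lit 49836)) (x (nat_lit 49844)) (x (nat_lit 49846)) (x (nat_lit 49848))
    (x (nat_lit 49852)) (x (nat_lit 49854)) (x (nat_lit 49860)) (x (nat_lit 49870))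
    (x (nat_lit 49872)) (x (nat_lit 49878)) (x (nat_lit 49898)) (x (nat_lit 49900))
    (x (nat_lit 49902)) (x (nat_lit 49906)) (x (nat_lit 49908)) (x (nat_lit 49914))
    (x (nat_lit 49924)) (x (nat_lit 49926)) (x (nat_lit 49932)) (x (nat_lit 49950))
    (x (nat_lit 49978)) (x (nat_lit 49980)) (x (nat_lit 49986)) (x (nat_lit 50004))
    (x (nat_lit 50060)) (x (nat_lit 50062)) (x (nat_lit 50064)) (x (nat_lit 50068))
    (x (nat_lit 50070)) (x (nat_lit 50076)) (x (nat_lit 50086)) (x (nat_lit 50088))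
    (x (nat_lit 50094)) (x (nat_lit 50112)) (x (nat_lit 50140)) (x (nat_lit 50142))
    (x (nat_lit 50148)) (x (nat_lit 50166)) (x (nat_lit 50220)) (x (nat_lit 50318))
    (x (nat_lit 50324)) (x (nat_lit 50326)) (x (nat_lit 50336)) (x (nat_lit 50342))
    (x (nat_lit 50344)) (x (nat_lit 50348)) (x (nat_lit 50350)) (x (nat_lit 50352))
    (x (nat_lit 50360)) (x (nat_lit 50362)) (x (nat_lit 50366)) (x (nat_lit 50368))
    (x (nat_lit 50370)) (x (nat_lit 50374)) (x (nat_lit 50376)) (x (nat_lit 50390))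
    (x (nat_lit 50396)) (x (nat_lit 50398)) (x (nat_lit 50402)) (x (nat_lit 50404))
    (x (nat_lit 50406)) (x (nat_lit 50414)) (x (nat_lit 50416)) (x (nat_lit 50420))
    (x (nat_lit 50422)) (x (nat_lit 50424)) (x (nat_lit 50428)) (x (nat_lit 50430))
    (x (nat_lit 50438)) (x (nat_lit 50440)) (x (nat_lit 50442)) (x (nat_lit 50446))
    (x (nat_lit 50448)) (x (nat_lit 50454)) (x (nat_lit 50468)) (x (nat_lit 50470))
    (x (nat_lit 50474)) (x (nat_lit 50476)) (x (nat_lit 50478)) (x (nat_lit 50482))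
    (x (nat_lit 50484)) (x (nat_lit 50492)) (x (nat_lit 50494)) (x (nat_lit 50496))
    (x (nat_lit 50500)) (x (nat_lit 50502)) (x (nat_lit 50508)) (x (nat_lit 50518))
    (x (nat_lit 50520)) (x (nat_lit 50526)) (x (nat_lit 50552)) (x (nat_lit 50558))
    (x (nat_lit 50560)) (x (nat_lit 50564)) (x (nat_lit 50566)) (x (nat_lit 50568))
    (x (nat_lit 50576)) (x (nat_lit 50578)) (x (nat_lit 50582)) (x (nat_lit 50584))
    (x (nat_lit 50586)) (x (nat_lit 50590)) (x (nat_lit 50592)) (x (nat_lit 50600))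
    (x (nat_lit 50602)) (x (nat_lit 50604)) (x (nat_lit 50608)) (x (nat_lit 50610))
    (x (nat_lit 50616)) (x (nat_lit 50630)) (x (nat_lit 50632)) (x (nat_lit 50636))
    (x (nat_lit 50638)) (x (nat_lit 50640)) (x (nat_lit 50644)) (x (nat_lit 50646))
    (x (nat_lit 50654)) (x (nat_lit 50656)) (x (nat_lit 50658)) (x (nat_lit 50662))
    (x (nat_lit 50664)) (x (nat_lit 50670)) (x (nat_lit 50680)) (x (nat_lit 50682))
    (x (nat_lit 50688)) (x (nat_lit 50708)) (x (nat_lit 50710)) (x (nat_lit 50712))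
    (x (nat_lit 50716)) (x (nat_lit 50718)) (x (nat_lit 50724)) (x (nat_lit 50734))
    (x (nat_lit 50736)) (x (nat_lit 50742)) (x (nat_lit 50760)) (x (nat_lit 50792))
    (x (nat_lit 50794)) (x (nat_lit 50798)) (x (nat_lit 50800)) (x (nat_lit 50802))
    (x (nat_lit 50806)) (x (nat_lit 50808)) (x (nat_lit 50816)) (x (nat_lit 50818))
    (x (nat_lit 50820)) (x (nat_lit 50824)) (x (nat_lit 50826)) (x (nat_lit 50832))
    (x (nat_lit 50842)) (x (nat_lit 50844)) (x (nat_lit 50850)) (x (nat_lit 50870))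
    (x (nat_lit 50872)) (x (nat_lit 50874)) (x (nat_lit 50878)) (x (nat_lit 50880))
    (x (nat_lit 50886)) (x (nat_lit 50896)) (x (nat_lit 50898)) (x (nat_lit 50904))
    (x (nat_lit 50922)) (x (nat_lit 50950)) (x (nat_lit 50952)) (x (nat_lit 50958))
    (x (nat_lit 50976)) (x (nat_lit 51038)) (x (nat_lit 51044)) (x (nat_lit 51046))
    (x (nat_lit 51050)) (x (nat_lit 51052)) (x (nat_lit 51054)) (x (nat_lit 51062))
    (x (nat_lit 51064)) (x (nat_lit 51068)) (x (nat_lit 51070)) (x (nat_lit 51072))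
    (x (nat_lit 51076)) (x (nat_lit 51078)) (x (nat_lit 51086)) (x (nat_lit 51088))
    (x (nat_lit 51090)) (x (nat_lit 51094)) (x (nat_lit 51096)) (x (nat_lit 51102))
    (x (nat_lit 51116)) (x (nat_lit 51118)) (x (nat_lit 51122)) (x (nat_lit 51124))
    (x (nat_lit 51126)) (x (nat_lit 51130)) (x (nat_lit 51132)) (x (nat_lit 51140))
    (x (nat_lit 51142)) (x (nat_lit 51144)) (x (nat_lit 51148)) (x (nat_lit 51150))
    (x (nat_lit 51156)) (x (nat_lit 51166)) (x (nat_lit 51168)) (x (nat_lit 51174))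
    (x (nat_lit 51194)) (x (nat_lit 51196)) (x (nat_lit 51198)) (x (nat_lit 51202))
    (x (nat_lit 51204)) (x (nat_lit 51210)) (x (nat_lit 51220)) (x (nat_lit 51222))
    (x (nat_lit 51228)) (x (nat_lit 51246)) (x (nat_lit 51278)) (x (nat_lit 51280))
    (x (nat_lit 51284)) (x (nat_lit 51286)) (x (nat_lit 51288)) (x (nat_lit 51292))
    (x (nat_lit 51294)) (x (nat_lit 51302)) (x (nat_lit 51304)) (x (nat_lit 51306))
    (x (nat_lit 51310)) (x (nat_lit 51312)) (x (nat_lit 51318)) (x (nat_lit 51328))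
    (x (nat_lit 51330)) (x (nat_lit 51336)) (x (nat_lit 51356)) (x (nat_lit 51358))
    (x (nat_lit 51360)) (x (nat_lit 51364)) (x (nat_lit 51366)) (x (nat_lit 51372))
    (x (nat_lit 51382)) (x (nat_lit 51384)) (x (nat_lit 51390)) (x (nat_lit 51408))
    (x (nat_lit 51436)) (x (nat_lit 51438)) (x (nat_lit 51444)) (x (nat_lit 51462))
    (x (nat_lit 51518)) (x (nat_lit 51520)) (x (nat_lit 51522)) (x (nat_lit 51526))
    (x (nat_lit 51528)) (x (nat_lit 51534)) (x (nat_lit 51544)) (x (nat_lit 51546))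
    (x (nat_lit 51552)) (x (nat_lit 51570)) (x (nat_lit 51598)) (x (nat_lit 51600))
    (x (nat_lit 51606)) (x (nat_lit 51624)) (x (nat_lit 51678)) (x (nat_lit 51764))
    (x (nat_lit 51766)) (x (nat_lit 51770)) (x (nat_lit 51772)) (x (nat_lit 51774))
    (x (nat_lit 51778)) (x (nat_lit 51780)) (x (nat_lit 51788)) (x (nat_lit 51790))
    (x (nat_lit 51792)) (x (nat_lit 51796)) (x (nat_lit 51798)) (x (nat_lit 51804))
    (x (nat_lit 51814)) (x (nat_lit 51816)) (x (nat_lit 51822)) (x (nat_lit 51842))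
    (x (nat_lit 51844)) (x (nat_lit 51846)) (x (nat_lit 51850)) (x (nat_lit 51852))
    (x (nat_lit 51858)) (x (nat_lit 51868)) (x (nat_lit 51870)) (x (nat_lit 51876))
    (x (nat_lit 51894)) (x (nat_lit 51922)) (x (nat_lit 51924)) (x (nat_lit 51930))
    (x (nat_lit 51948)) (x (nat_lit 52004)) (x (nat_lit 52006)) (x (nat_lit 52008))
    (x (nat_lit 52012)) (x (nat_lit 52014)) (x (nat_lit 52020)) (x (nat_lit 52030))
    (x (nat_lit 52032)) (x (nat_lit 52038)) (x (nat_lit 52056)) (x (nat_lit 52084))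
    (x (nat_lit 52086)) (x (nat_lit 52092)) (x (nat_lit 52110)) (x (nat_lit 52164))
    (x (nat_lit 52246)) (x (nat_lit 52248)) (x (nat_lit 52254)) (x (nat_lit 52272))
    (x (nat_lit 52326)) (x (nat_lit 52514)) (x (nat_lit 52532)) (x (nat_lit 52538))
    (x (nat_lit 52540)) (x (nat_lit 52550)) (x (nat_lit 52556)) (x (nat_lit 52558))
    (x (nat_lit 52562)) (x (nat_lit 52564)) (x (nat_lit 52566)) (x (nat_lit 52586))
    (x (nat_lit 52592)) (x (nat_lit 52594)) (x (nat_lit 52604)) (x (nat_lit 52610))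
    (x (nat_lit 52612)) (x (nat_lit 52616)) (x (nat_lit 52618)) (x (nat_lit 52620))
    (x (nat_lit 52628)) (x (nat_lit 52630)) (x (nat_lit 52634)) (x (nat_lit 52636))
    (x (nat_lit 52638)) (x (nat_lit 52642)) (x (nat_lit 52644)) (x (nat_lit 52658))
    (x (nat_lit 52664)) (x (nat_lit 52666)) (x (nat_lit 52670)) (x (nat_lit 52672))
    (x (nat_lit 52674)) (x (nat_lit 52682)) (x (nat_lit 52684)) (x (nat_lit 52688))
    (x (nat_lit 52690)) (x (nat_lit 52692)) (x (nat_lit 52696)) (x (nat_lit 52698))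
    (x (nat_lit 52706)) (x (nat_lit 52708)) (x (nat_lit 52710)) (x (nat_lit 52714))
    (x (nat_lit 52716)) (x (nat_lit 52722)) (x (nat_lit 52748)) (x (nat_lit 52754))
    (x (nat_lit 52756)) (x (nat_lit 52766)) (x (nat_lit 52772)) (x (nat_lit 52774))
    (x (nat_lit 52778)) (x (nat_lit 52780)) (x (nat_lit 52782)) (x (nat_lit 52790))
    (x (nat_lit 52792)) (x (nat_lit 52796)) (x (nat_lit 52798)) (x (nat_lit 52800))
    (x (nat_lit 52804)) (x (nat_lit 52806)) (x (nat_lit 52820)) (x (nat_lit 52826))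
    (x (nat_lit 52828)) (x (nat_lit 52832)) (x (nat_lit 52834)) (x (nat_lit 52836))
    (x (nat_lit 52844)) (x (nat_lit 52846)) (x (nat_lit 52850)) (x (nat_lit 52852))
    (x (nat_lit 52854)) (x (nat_lit 52858)) (x (nat_lit 52860)) (x (nat_lit 52868))
    (x (nat_lit 52870)) (x (nat_lit 52872)) (x (nat_lit 52876)) (x (nat_lit 52878))
    (x (nat_lit 52884)) (x (nat_lit 52898)) (x (nat_lit 52900)) (x (nat_lit 52904))
    (x (nat_lit 52906)) (x (nat_lit 52908)) (x (nat_lit 52912)) (x (nat_lit 52914))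
    (x (nat_lit 52922)) (x (nat_lit 52924)) (x (nat_lit 52926)) (x (nat_lit 52930))
    (x (nat_lit 52932)) (x (nat_lit 52938)) (x (nat_lit 52948)) (x (nat_lit 52950))
    (x (nat_lit 52956)) (x (nat_lit 52982)) (x (nat_lit 52988)) (x (nat_lit 52990))
    (x (nat_lit 52994)) (x (nat_lit 52996)) (x (nat_lit 52998)) (x (nat_lit 53006))
    (x (nat_lit 53008)) (x (nat_lit 53012)) (x (nat_lit 53014)) (x (nat_lit 53016))
    (x (nat_lit 53020)) (x (nat_lit 53022)) (x (nat_lit 53030)) (x (nat_lit 53032))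
    (x (nat_lit 53034)) (x (nat_lit 53038)) (x (nat_lit 53040)) (x (nat_lit 53046))
    (x (nat_lit 53060)) (x (nat_lit 53062)) (x (nat_lit 53066)) (x (nat_lit 53068))
    (x (nat_lit 53070)) (x (nat_lit 53074)) (x (nat_lit 53076)) (x (nat_lit 53084))
    (x (nat_lit 53086)) (x (nat_lit 53088)) (x (nat_lit 53092)) (x (nat_lit 53094))
    (x (nat_lit 53100)) (x (nat_lit 53110)) (x (nat_lit 53112)) (x (nat_lit 53118))
    (x (nat_lit 53138)) (x (nat_lit 53140)) (x (nat_lit 53142)) (x (nat_lit 53146))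
    (x (nat_lit 53148)) (x (nat_lit 53154)) (x (nat_lit 53164)) (x (nat_lit 53166))
    (x (nat_lit 53172)) (x (nat_lit 53190)) (x (nat_lit 53234)) (x (nat_lit 53240))
    (x (nat_lit 53242)) (x (nat_lit 53252)) (x (nat_lit 53258)) (x (nat_lit 53260))
    (x (nat_lit 53264)) (x (nat_lit 53266)) (x (nat_lit 53268)) (x (nat_lit 53276))
    (x (nat_lit 53278)) (x (nat_lit 53282)) (x (nat_lit 53284)) (x (nat_lit 53286))
    (x (nat_lit 53290)) (x (nat_lit 53292)) (x (nat_lit 53306)) (x (nat_lit 53312))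
    (x (nat_lit 53314)) (x (nat_lit 53318)) (x (nat_lit 53320)) (x (nat_lit 53322))
    (x (nat_lit 53330)) (x (nat_lit 53332)) (x (nat_lit 53336)) (x (nat_lit 53338))
    (x (nat_lit 53340)) (x (nat_lit 53344)) (x (nat_lit 53346)) (x (nat_lit 53354))
    (x (nat_lit 53356)) (x (nat_lit 53358)) (x (nat_lit 53362)) (x (nat_lit 53364))
    (x (nat_lit 53370)) (x (nat_lit 53384)) (x (nat_lit 53386)) (x (nat_lit 53390))
    (x (nat_lit 53392)) (x (nat_lit 53394)) (x (nat_lit 53398)) (x (nat_lit 53400))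
    (x (nat_lit 53408)) (x (nat_lit 53410)) (x (nat_lit 53412)) (x (nat_lit 53416))
    (x (nat_lit 53418)) (x (nat_lit 53424)) (x (nat_lit 53434)) (x (nat_lit 53436))
    (x (nat_lit 53442)) (x (nat_lit 53468)) (x (nat_lit 53474)) (x (nat_lit 53476))
    (x (nat_lit 53480)) (x (nat_lit 53482)) (x (nat_lit 53484)) (x (nat_lit 53492))
    (x (nat_lit 53494)) (x (nat_lit 53498)) (x (nat_lit 53500)) (x (nat_lit 53502))
    (x (nat_lit 53506)) (x (nat_lit 53508)) (x (nat_lit 53516)) (x (nat_lit 53518))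
    (x (nat_lit 53520)) (x (nat_lit 53524)) (x (nat_lit 53526)) (x (nat_lit 53532))
    (x (nat_lit 53546)) (x (nat_lit 53548)) (x (nat_lit 53552)) (x (nat_lit 53554))
    (x (nat_lit 53556)) (x (nat_lit 53560)) (x (nat_lit 53562)) (x (nat_lit 53570))
    (x (nat_lit 53572)) (x (nat_lit 53574)) (x (nat_lit 53578)) (x (nat_lit 53580))
    (x (nat_lit 53586)) (x (nat_lit 53596)) (x (nat_lit 53598)) (x (nat_lit 53604))
    (x (nat_lit 53624)) (x (nat_lit 53626)) (x (nat_lit 53628)) (x (nat_lit 53632))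
    (x (nat_lit 53634)) (x (nat_lit 53640)) (x (nat_lit 53650)) (x (nat_lit 53652))
    (x (nat_lit 53658)) (x (nat_lit 53676)) (x (nat_lit 53708)) (x (nat_lit 53710))
    (x (nat_lit 53714)) (x (nat_lit 53716)) (x (nat_lit 53718)) (x (nat_lit 53722))
    (x (nat_lit 53724)) (x (nat_lit 53732)) (x (nat_lit 53734)) (x (nat_lit 53736))
    (x (nat_lit 53740)) (x (nat_lit 53742)) (x (nat_lit 53748)) (x (nat_lit 53758))
    (x (nat_lit 53760)) (x (nat_lit 53766)) (x (nat_lit 53786)) (x (nat_lit 53788))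
    (x (nat_lit 53790)) (x (nat_lit 53794)) (x (nat_lit 53796)) (x (nat_lit 53802))
    (x (nat_lit 53812)) (x (nat_lit 53814)) (x (nat_lit 53820)) (x (nat_lit 53838))
    (x (nat_lit 53866)) (x (nat_lit 53868)) (x (nat_lit 53874)) (x (nat_lit 53892))
    (x (nat_lit 53954)) (x (nat_lit 53960)) (x (nat_lit 53962)) (x (nat_lit 53966))
    (x (nat_lit 53968)) (x (nat_lit 53970)) (x (nat_lit 53978)) (x (nat_lit 53980))
    (x (nat_lit 53984)) (x (nat_lit 53986)) (x (nat_lit 53988)) (x (nat_lit 53992))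
    (x (nat_lit 53994)) (x (nat_lit 54002)) (x (nat_lit 54004)) (x (nat_lit 54006))
    (x (nat_lit 54010)) (x (nat_lit 54012)) (x (nat_lit 54018)) (x (nat_lit 54032))
    (x (nat_lit 54034)) (x (nat_lit 54038)) (x (nat_lit 54040)) (x (nat_lit 54042))
    (x (nat_lit 54046)) (x (nat_lit 54048)) (x (nat_lit 54056)) (x (nat_lit 54058))
    (x (nat_lit 54060)) (x (nat_lit 54064)) (x (nat_lit 54066)) (x (nat_lit 54072))
    (x (nat_lit 54082)) (x (nat_lit 54084)) (x (nat_lit 54090)) (x (nat_lit 54110))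
    (x (nat_lit 54112)) (x (nat_lit 54114)) (x (nat_lit 54118)) (x (nat_lit 54120))
    (x (nat_lit 54126)) (x (nat_lit 54136)) (x (nat_lit 54138)) (x (nat_lit 54144))
    (x (nat_lit 54162)) (x (nat_lit 54194)) (x (nat_lit 54196)) (x (nat_lit 54200))
    (x (nat_lit 54202)) (x (nat_lit 54204)) (x (nat_lit 54208)) (x (nat_lit 54210))
    (x (nat_lit 54218)) (x (nat_lit 54220)) (x (nat_lit 54222)) (x (nat_lit 54226))
    (x (nat_lit 54228)) (x (nat_lit 54234)) (x (nat_lit 54244)) (x (nat_lit 54246))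
    (x (nat_lit 54252)) (x (nat_lit 54272)) (x (nat_lit 54274)) (x (nat_lit 54276))
    (x (nat_lit 54280)) (x (nat_lit 54282)) (x (nat_lit 54288)) (x (nat_lit 54298))
    (x (nat_lit 54300)) (x (nat_lit 54306)) (x (nat_lit 54324)) (x (nat_lit 54352))
    (x (nat_lit 54354)) (x (nat_lit 54360)) (x (nat_lit 54378)) (x (nat_lit 54434))
    (x (nat_lit 54436)) (x (nat_lit 54438)) (x (nat_lit 54442)) (x (nat_lit 54444))
    (x (nat_lit 54450)) (x (nat_lit 54460)) (x (nat_lit 54462)) (x (nat_lit 54468))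
    (x (nat_lit 54486)) (x (nat_lit 54514)) (x (nat_lit 54516)) (x (nat_lit 54522))
    (x (nat_lit 54540)) (x (nat_lit 54594)) (x (nat_lit 54692)) (x (nat_lit 54698))
    (x (nat_lit 54700)) (x (nat_lit 54710)) (x (nat_lit 54716)) (x (nat_lit 54718))
    (x (nat_lit 54722)) (x (nat_lit 54724)) (x (nat_lit 54726)) (x (nat_lit 54734))
    (x (nat_lit 54736)) (x (nat_lit 54740)) (x (nat_lit 54742)) (x (nat_lit 54744))
    (x (nat_lit 54748)) (x (nat_lit 54750)) (x (nat_lit 54764)) (x (nat_lit 54770))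
    (x (nat_lit 54772)) (x (nat_lit 54776)) (x (nat_lit 54778)) (x (nat_lit 54780))
    (x (nat_lit 54788)) (x (nat_lit 54790)) (x (nat_lit 54794)) (x (nat_lit 54796))
    (x (nat_lit 54798)) (x (nat_lit 54802)) (x (nat_lit 54804)) (x (nat_lit 54812))
    (x (nat_lit 54814)) (x (nat_lit 54816)) (x (nat_lit 54820)) (x (nat_lit 54822))
    (x (nat_lit 54828)) (x (nat_lit 54842)) (x (nat_lit 54844)) (x (nat_lit 54848))
    (x (nat_lit 54850)) (x (nat_lit 54852)) (x (nat_lit 54856)) (x (nat_lit 54858))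
    (x (nat_lit 54866)) (x (nat_lit 54868)) (x (nat_lit 54870)) (x (nat_lit 54874))
    (x (nat_lit 54876)) (x (nat_lit 54882)) (x (nat_lit 54892)) (x (nat_lit 54894))
    (x (nat_lit 54900)) (x (nat_lit 54926)) (x (nat_lit 54932)) (x (nat_lit 54934))
    (x (nat_lit 54938)) (x (nat_lit 54940)) (x (nat_lit 54942)) (x (nat_lit 54950))
    (x (nat_lit 54952)) (x (nat_lit 54956)) (x (nat_lit 54958)) (x (nat_lit 54960))
    (x (nat_lit 54964)) (x (nat_lit 54966)) (x (nat_lit 54974)) (x (nat_lit 54976))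
    (x (nat_lit 54978)) (x (nat_lit 54982)) (x (nat_lit 54984)) (x (nat_lit 54990))
    (x (nat_lit 55004)) (x (nat_lit 55006)) (x (nat_lit 55010)) (x (nat_lit 55012))
    (x (nat_lit 55014)) (x (nat_lit 55018)) (x (nat_lit 55020)) (x (nat_lit 55028))
    (x (nat_lit 55030)) (x (nat_lit 55032)) (x (nat_lit 55036)) (x (nat_lit 55038))
    (x (nat_lit 55044)) (x (nat_lit 55054)) (x (nat_lit 55056)) (x (nat_lit 55062))
    (x (nat_lit 55082)) (x (nat_lit 55084)) (x (nat_lit 55086)) (x (nat_lit 55090))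
    (x (nat_lit 55092)) (x (nat_lit 55098)) (x (nat_lit 55108)) (x (nat_lit 55110))
    (x (nat_lit 55116)) (x (nat_lit 55134)) (x (nat_lit 55166)) (x (nat_lit 55168))
    (x (nat_lit 55172)) (x (nat_lit 55174)) (x (nat_lit 55176)) (x (nat_lit 55180))
    (x (nat_lit 55182)) (x (nat_lit 55190)) (x (nat_lit 55192)) (x (nat_lit 55194))
    (x (nat_lit 55198)) (x (nat_lit 55200)) (x (nat_lit 55206)) (x (nat_lit 55216))
    (x (nat_lit 55218)) (x (nat_lit 55224)) (x (nat_lit 55244)) (x (nat_lit 55246))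
    (x (nat_lit 55248)) (x (nat_lit 55252)) (x (nat_lit 55254)) (x (nat_lit 55260))
    (x (nat_lit 55270)) (x (nat_lit 55272)) (x (nat_lit 55278)) (x (nat_lit 55296))
    (x (nat_lit 55324)) (x (nat_lit 55326)) (x (nat_lit 55332)) (x (nat_lit 55350))
    (x (nat_lit 55412)) (x (nat_lit 55418)) (x (nat_lit 55420)) (x (nat_lit 55424))
    (x (nat_lit 55426)) (x (nat_lit 55428)) (x (nat_lit 55436)) (x (nat_lit 55438))
    (x (nat_lit 55442)) (x (nat_lit 55444)) (x (nat_lit 55446)) (x (nat_lit 55450))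
    (x (nat_lit 55452)) (x (nat_lit 55460)) (x (nat_lit 55462)) (x (nat_lit 55464))
    (x (nat_lit 55468)) (x (nat_lit 55470)) (x (nat_lit 55476)) (x (nat_lit 55490))
    (x (nat_lit 55492)) (x (nat_lit 55496)) (x (nat_lit 55498)) (x (nat_lit 55500))
    (x (nat_lit 55504)) (x (nat_lit 55506)) (x (nat_lit 55514)) (x (nat_lit 55516))
    (x (nat_lit 55518)) (x (nat_lit 55522)) (x (nat_lit 55524)) (x (nat_lit 55530))
    (x (nat_lit 55540)) (x (nat_lit 55542)) (x (nat_lit 55548)) (x (nat_lit 55568))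
    (x (nat_lit 55570)) (x (nat_lit 55572)) (x (nat_lit 55576)) (x (nat_lit 55578))
    (x (nat_lit 55584)) (x (nat_lit 55594)) (x (nat_lit 55596)) (x (nat_lit 55602))
    (x (nat_lit 55620)) (x (nat_lit 55652)) (x (nat_lit 55654)) (x (nat_lit 55658))
    (x (nat_lit 55660)) (x (nat_lit 55662)) (x (nat_lit 55666)) (x (nat_lit 55668))
    (x (nat_lit 55676)) (x (nat_lit 55678)) (x (nat_lit 55680)) (x (nat_lit 55684))
    (x (nat_lit 55686)) (x (nat_lit 55692)) (x (nat_lit 55702)) (x (nat_lit 55704))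
    (x (nat_lit 55710)) (x (nat_lit 55730)) (x (nat_lit 55732)) (x (nat_lit 55734))
    (x (nat_lit 55738)) (x (nat_lit 55740)) (x (nat_lit 55746)) (x (nat_lit 55756))
    (x (nat_lit 55758)) (x (nat_lit 55764)) (x (nat_lit 55782)) (x (nat_lit 55810))
    (x (nat_lit 55812)) (x (nat_lit 55818)) (x (nat_lit 55836)) (x (nat_lit 55892))
    (x (nat_lit 55894)) (x (nat_lit 55896)) (x (nat_lit 55900)) (x (nat_lit 55902))
    (x (nat_lit 55908)) (x (nat_lit 55918)) (x (nat_lit 55920)) (x (nat_lit 55926))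
    (x (nat_lit 55944)) (x (nat_lit 55972)) (x (nat_lit 55974)) (x (nat_lit 55980))
    (x (nat_lit 55998)) (x (nat_lit 56052)) (x (nat_lit 56138)) (x (nat_lit 56140))
    (x (nat_lit 56144)) (x (nat_lit 56146)) (x (nat_lit 56148)) (x (nat_lit 56152))
    (x (nat_lit 56154)) (x (nat_lit 56162)) (x (nat_lit 56164)) (x (nat_lit 56166))
    (x (nat_lit 56170)) (x (nat_lit 56172)) (x (nat_lit 56178)) (x (nat_lit 56188))
    (x (nat_lit 56190)) (x (nat_lit 56196)) (x (nat_lit 56216)) (x (nat_lit 56218))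
    (x (nat_lit 56220)) (x (nat_lit 56224)) (x (nat_lit 56226)) (x (nat_lit 56232))
    (x (nat_lit 56242)) (x (nat_lit 56244)) (x (nat_lit 56250)) (x (nat_lit 56268))
    (x (nat_lit 56296)) (x (nat_lit 56298)) (x (nat_lit 56304)) (x (nat_lit 56322))
    (x (nat_lit 56378)) (x (nat_lit 56380)) (x (nat_lit 56382)) (x (nat_lit 56386))
    (x (nat_lit 56388)) (x (nat_lit 56394)) (x (nat_lit 56404)) (x (nat_lit 56406))
    (x (nat_lit 56412)) (x (nat_lit 56430)) (x (nat_lit 56458)) (x (nat_lit 56460))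
    (x (nat_lit 56466)) (x (nat_lit 56484)) (x (nat_lit 56538)) (x (nat_lit 56620))
    (x (nat_lit 56622)) (x (nat_lit 56628)) (x (nat_lit 56646)) (x (nat_lit 56700))
    (x (nat_lit 56870)) (x (nat_lit 56876)) (x (nat_lit 56878)) (x (nat_lit 56882))
    (x (nat_lit 56884)) (x (nat_lit 56886)) (x (nat_lit 56894)) (x (nat_lit 56896))
    (x (nat_lit 56900)) (x (nat_lit 56902)) (x (nat_lit 56904)) (x (nat_lit 56908))
    (x (nat_lit 56910)) (x (nat_lit 56918)) (x (nat_lit 56920)) (x (nat_lit 56922))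
    (x (nat_lit 56926)) (x (nat_lit 56928)) (x (nat_lit 56934)) (x (nat_lit 56948))
    (x (nat_lit 56950)) (x (nat_lit 56954)) (x (nat_lit 56956)) (x (nat_lit 56958))
    (x (nat_lit 56962)) (x (nat_lit 56964)) (x (nat_lit 56972)) (x (nat_lit 56974))
    (x (nat_lit 56976)) (x (nat_lit 56980)) (x (nat_lit 56982)) (x (nat_lit 56988))
    (x (nat_lit 56998)) (x (nat_lit 57000)) (x (nat_lit 57006)) (x (nat_lit 57026))
    (x (nat_lit 57028)) (x (nat_lit 57030)) (x (nat_lit 57034)) (x (nat_lit 57036))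
    (x (nat_lit 57042)) (x (nat_lit 57052)) (x (nat_lit 57054)) (x (nat_lit 57060))
    (x (nat_lit 57078)) (x (nat_lit 57110)) (x (nat_lit 57112)) (x (nat_lit 57116))
    (x (nat_lit 57118)) (x (nat_lit 57120)) (x (nat_lit 57124)) (x (nat_lit 57126))
    (x (nat_lit 57134)) (x (nat_lit 57136)) (x (nat_lit 57138)) (x (nat_lit 57142))
    (x (nat_lit 57144)) (x (nat_lit 57150)) (x (nat_lit 57160)) (x (nat_lit 57162))
    (x (nat_lit 57168)) (x (nat_lit 57188)) (x (nat_lit 57190)) (x (nat_lit 57192))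
    (x (nat_lit 57196)) (x (nat_lit 57198)) (x (nat_lit 57204)) (x (nat_lit 57214))
    (x (nat_lit 57216)) (x (nat_lit 57222)) (x (nat_lit 57240)) (x (nat_lit 57268))
    (x (nat_lit 57270)) (x (nat_lit 57276)) (x (nat_lit 57294)) (x (nat_lit 57350))
    (x (nat_lit 57352)) (x (nat_lit 57354)) (x (nat_lit 57358)) (x (nat_lit 57360))
    (x (nat_lit 57366)) (x (nat_lit 57376)) (x (nat_lit 57378)) (x (nat_lit 57384))
    (x (nat_lit 57402)) (x (nat_lit 57430)) (x (nat_lit 57432)) (x (nat_lit 57438))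
    (x (nat_lit 57456)) (x (nat_lit 57510)) (x (nat_lit 57596)) (x (nat_lit 57598))
    (x (nat_lit 57602)) (x (nat_lit 57604)) (x (nat_lit 57606)) (x (nat_lit 57610))
    (x (nat_lit 57612)) (x (nat_lit 57620)) (x (nat_lit 57622)) (x (nat_lit 57624))
    (x (nat_lit 57628)) (x (nat_lit 57630)) (x (nat_lit 57636)) (x (nat_lit 57646))
    (x (nat_lit 57648)) (x (nat_lit 57654)) (x (nat_lit 57674)) (x (nat_lit 57676))
    (x (nat_lit 57678)) (x (nat_lit 57682)) (x (nat_lit 57684)) (x (nat_lit 57690))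
    (x (nat_lit 57700)) (x (nat_lit 57702)) (x (nat_lit 57708)) (x (nat_lit 57726))
    (x (nat_lit 57754)) (x (nat_lit 57756)) (x (nat_lit 57762)) (x (nat_lit 57780))
    (x (nat_lit 57836)) (x (nat_lit 57838)) (x (nat_lit 57840)) (x (nat_lit 57844))
    (x (nat_lit 57846)) (x (nat_lit 57852)) (x (nat_lit 57862)) (x (nat_lit 57864))
    (x (nat_lit 57870)) (x (nat_lit 57888)) (x (nat_lit 57916)) (x (nat_lit 57918))
    (x (nat_lit 57924)) (x (nat_lit 57942)) (x (nat_lit 57996)) (x (nat_lit 58078))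
    (x (nat_lit 58080)) (x (nat_lit 58086)) (x (nat_lit 58104)) (x (nat_lit 58158))
    (x (nat_lit 58322)) (x (nat_lit 58324)) (x (nat_lit 58326)) (x (nat_lit 58330))
    (x (nat_lit 58332)) (x (nat_lit 58338)) (x (nat_lit 58348)) (x (nat_lit 58350))
    (x (nat_lit 58356)) (x (nat_lit 58374)) (x (nat_lit 58402)) (x (nat_lit 58404))
    (x (nat_lit 58410)) (x (nat_lit 58428)) (x (nat_lit 58482)) (x (nat_lit 58564))
    (x (nat_lit 58566)) (x (nat_lit 58572)) (x (nat_lit 58590)) (x (nat_lit 58644))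
    (x (nat_lit 58806))

theorem ap_eq (x : Nat → Nat) (k : FnLL cds) : apLL (fun t => x t.cd) cds k = ap x k :=
  Eq.refl (ap x k)

theorem codes_ok : beqL (codes cds) (secL 10 10 0 []) = true := by decide +kernel

noncomputable def fin (f : Nat → Nat) (v1 : Nat) (
    x242 x404 x458 x476 x482 x484 x566 x620 x638 x644 x646 x674 x692 x698 x700 x710 x716 x718 x722
    x724 x726 x890 x944 x962 x968 x970 x1052 x1106 x1124 x1130 x1132 x1160 x1178 x1184 x1186 x1196
    x1202 x1204 x1208 x1210 x1212 x1268 x1286 x1292 x1294 x1322 x1340 x1346 x1348 x1358 x1364 x1366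
    x1370 x1372 x1374 x1394 x1400 x1402 x1412 x1418 x1420 x1424 x1426 x1428 x1436 x1438 x1442 x1444
    x1446 x1450 x1452 x1538 x1592 x1610 x1616 x1618 x1646 x1664 x1670 x1672 x1682 x1688 x1690 x1694
    x1696 x1698 x1754 x1772 x1778 x1780 x1808 x1826 x1832 x1834 x1844 x1850 x1852 x1856 x1858 x1860
    x1880 x1886 x1888 x1898 x1904 x1906 x1910 x1912 x1914 x1922 x1924 x1928 x1930 x1932 x1936 x1938
    x1970 x1988 x1994 x1996 x2006 x2012 x2014 x2018 x2020 x2022 x2042 x2048 x2050 x2060 x2066 x2068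
    x2072 x2074 x2076 x2084 x2086 x2090 x2092 x2094 x2098 x2100 x2114 x2120 x2122 x2126 x2128 x2130
    x2138 x2140 x2144 x2146 x2148 x2152 x2154 x2162 x2164 x2166 x2170 x2172 x2178 x2348 x2402 x2420
    x2426 x2428 x2510 x2564 x2582 x2588 x2590 x2618 x2636 x2642 x2644 x2654 x2660 x2662 x2666 x2668
    x2670 x2726 x2744 x2750 x2752 x2780 x2798 x2804 x2806 x2816 x2822 x2824 x2828 x2830 x2832 x2852
    x2858 x2860 x2870 x2876 x2878 x2882 x2884 x2886 x2894 x2896 x2900 x2902 x2904 x2908 x2910 x2996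
    x3050 x3068 x3074 x3076 x3104 x3122 x3128 x3130 x3140 x3146 x3148 x3152 x3154 x3156 x3212 x3230
    x3236 x3238 x3266 x3284 x3290 x3292 x3302 x3308 x3310 x3314 x3316 x3318 x3338 x3344 x3346 x3356
    x3362 x3364 x3368 x3370 x3372 x3380 x3382 x3386 x3388 x3390 x3394 x3396 x3428 x3446 x3452 x3454
    x3464 x3470 x3472 x3476 x3478 x3480 x3500 x3506 x3508 x3518 x3524 x3526 x3530 x3532 x3534 x3542
    x3544 x3548 x3550 x3552 x3556 x3558 x3572 x3578 x3580 x3584 x3586 x3588 x3596 x3598 x3602 x3604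
    x3606 x3610 x3612 x3620 x3622 x3624 x3628 x3630 x3636 x3698 x3716 x3722 x3724 x3752 x3770 x3776
    x3778 x3788 x3794 x3796 x3800 x3802 x3804 x3824 x3830 x3832 x3842 x3848 x3850 x3854 x3856 x3858
    x3866 x3868 x3872 x3874 x3876 x3880 x3882 x3914 x3932 x3938 x3940 x3950 x3956 x3958 x3962 x3964
    x3966 x3986 x3992 x3994 x4004 x4010 x4012 x4016 x4018 x4020 x4028 x4030 x4034 x4036 x4038 x4042
    x4044 x4058 x4064 x4066 x4070 x4072 x4074 x4082 x4084 x4088 x4090 x4092 x4096 x4098 x4106 x4108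
    x4110 x4114 x4116 x4122 x4148 x4154 x4156 x4166 x4172 x4174 x4178 x4180 x4182 x4190 x4192 x4196
    x4198 x4200 x4204 x4206 x4220 x4226 x4228 x4232 x4234 x4236 x4244 x4246 x4250 x4252 x4254 x4258
    x4260 x4268 x4270 x4272 x4276 x4278 x4284 x4298 x4300 x4304 x4306 x4308 x4312 x4314 x4322 x4324
    x4326 x4330 x4332 x4338 x4348 x4350 x4356 x4454 x4508 x4526 x4532 x4534 x4562 x4580 x4586 x4588
    x4598 x4604 x4606 x4610 x4612 x4614 x4670 x4688 x4694 x4696 x4724 x4742 x4748 x4750 x4760 x4766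
    x4768 x4772 x4774 x4776 x4796 x4802 x4804 x4814 x4820 x4822 x4826 x4828 x4830 x4838 x4840 x4844
    x4846 x4848 x4852 x4854 x4886 x4904 x4910 x4912 x4922 x4928 x4930 x4934 x4936 x4938 x4958 x4964
    x4966 x4976 x4982 x4984 x4988 x4990 x4992 x5000 x5002 x5006 x5008 x5010 x5014 x5016 x5030 x5036
    x5038 x5042 x5044 x5046 x5054 x5056 x5060 x5062 x5064 x5068 x5070 x5078 x5080 x5082 x5086 x5088
    x5094 x5156 x5174 x5180 x5182 x5210 x5228 x5234 x5236 x5246 x5252 x5254 x5258 x5260 x5262 x5282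
    x5288 x5290 x5300 x5306 x5308 x5312 x5314 x5316 x5324 x5326 x5330 x5332 x5334 x5338 x5340 x5372
    x5390 x5396 x5398 x5408 x5414 x5416 x5420 x5422 x5424 x5444 x5450 x5452 x5462 x5468 x5470 x5474
    x5476 x5478 x5486 x5488 x5492 x5494 x5496 x5500 x5502 x5516 x5522 x5524 x5528 x5530 x5532 x5540
    x5542 x5546 x5548 x5550 x5554 x5556 x5564 x5566 x5568 x5572 x5574 x5580 x5606 x5612 x5614 x5624
    x5630 x5632 x5636 x5638 x5640 x5648 x5650 x5654 x5656 x5658 x5662 x5664 x5678 x5684 x5686 x5690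
    x5692 x5694 x5702 x5704 x5708 x5710 x5712 x5716 x5718 x5726 x5728 x5730 x5734 x5736 x5742 x5756
    x5758 x5762 x5764 x5766 x5770 x5772 x5780 x5782 x5784 x5788 x5790 x5796 x5806 x5808 x5814 x5858
    x5876 x5882 x5884 x5894 x5900 x5902 x5906 x5908 x5910 x5930 x5936 x5938 x5948 x5954 x5956 x5960
    x5962 x5964 x5972 x5974 x5978 x5980 x5982 x5986 x5988 x6002 x6008 x6010 x6014 x6016 x6018 x6026
    x6028 x6032 x6034 x6036 x6040 x6042 x6050 x6052 x6054 x6058 x6060 x6066 x6092 x6098 x6100 x6110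
    x6116 x6118 x6122 x6124 x6126 x6134 x6136 x6140 x6142 x6144 x6148 x6150 x6164 x6170 x6172 x6176
    x6178 x6180 x6188 x6190 x6194 x6196 x6198 x6202 x6204 x6212 x6214 x6216 x6220 x6222 x6228 x6242
    x6244 x6248 x6250 x6252 x6256 x6258 x6266 x6268 x6270 x6274 x6276 x6282 x6292 x6294 x6300 x6326
    x6332 x6334 x6338 x6340 x6342 x6350 x6352 x6356 x6358 x6360 x6364 x6366 x6374 x6376 x6378 x6382
    x6384 x6390 x6404 x6406 x6410 x6412 x6414 x6418 x6420 x6428 x6430 x6432 x6436 x6438 x6444 x6454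
    x6456 x6462 x6482 x6484 x6486 x6490 x6492 x6498 x6508 x6510 x6516 x6534 x6722 x6776 x6794 x6800
    x6802 x6884 x6938 x6956 x6962 x6964 x6992 x7010 x7016 x7018 x7028 x7034 x7036 x7040 x7042 x7044
    x7100 x7118 x7124 x7126 x7154 x7172 x7178 x7180 x7190 x7196 x7198 x7202 x7204 x7206 x7226 x7232
    x7234 x7244 x7250 x7252 x7256 x7258 x7260 x7268 x7270 x7274 x7276 x7278 x7282 x7284 x7370 x7424
    x7442 x7448 x7450 x7478 x7496 x7502 x7504 x7514 x7520 x7522 x7526 x7528 x7530 x7586 x7604 x7610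
    x7612 x7640 x7658 x7664 x7666 x7676 x7682 x7684 x7688 x7690 x7692 x7712 x7718 x7720 x7730 x7736
    x7738 x7742 x7744 x7746 x7754 x7756 x7760 x7762 x7764 x7768 x7770 x7802 x7820 x7826 x7828 x7838
    x7844 x7846 x7850 x7852 x7854 x7874 x7880 x7882 x7892 x7898 x7900 x7904 x7906 x7908 x7916 x7918
    x7922 x7924 x7926 x7930 x7932 x7946 x7952 x7954 x7958 x7960 x7962 x7970 x7972 x7976 x7978 x7980
    x7984 x7986 x7994 x7996 x7998 x8002 x8004 x8010 x8072 x8090 x8096 x8098 x8126 x8144 x8150 x8152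
    x8162 x8168 x8170 x8174 x8176 x8178 x8198 x8204 x8206 x8216 x8222 x8224 x8228 x8230 x8232 x8240
    x8242 x8246 x8248 x8250 x8254 x8256 x8288 x8306 x8312 x8314 x8324 x8330 x8332 x8336 x8338 x8340
    x8360 x8366 x8368 x8378 x8384 x8386 x8390 x8392 x8394 x8402 x8404 x8408 x8410 x8412 x8416 x8418
    x8432 x8438 x8440 x8444 x8446 x8448 x8456 x8458 x8462 x8464 x8466 x8470 x8472 x8480 x8482 x8484
    x8488 x8490 x8496 x8522 x8528 x8530 x8540 x8546 x8548 x8552 x8554 x8556 x8564 x8566 x8570 x8572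
    x8574 x8578 x8580 x8594 x8600 x8602 x8606 x8608 x8610 x8618 x8620 x8624 x8626 x8628 x8632 x8634
    x8642 x8644 x8646 x8650 x8652 x8658 x8672 x8674 x8678 x8680 x8682 x8686 x8688 x8696 x8698 x8700
    x8704 x8706 x8712 x8722 x8724 x8730 x8828 x8882 x8900 x8906 x8908 x8936 x8954 x8960 x8962 x8972
    x8978 x8980 x8984 x8986 x8988 x9044 x9062 x9068 x9070 x9098 x9116 x9122 x9124 x9134 x9140 x9142
    x9146 x9148 x9150 x9170 x9176 x9178 x9188 x9194 x9196 x9200 x9202 x9204 x9212 x9214 x9218 x9220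
    x9222 x9226 x9228 x9260 x9278 x9284 x9286 x9296 x9302 x9304 x9308 x9310 x9312 x9332 x9338 x9340
    x9350 x9356 x9358 x9362 x9364 x9366 x9374 x9376 x9380 x9382 x9384 x9388 x9390 x9404 x9410 x9412
    x9416 x9418 x9420 x9428 x9430 x9434 x9436 x9438 x9442 x9444 x9452 x9454 x9456 x9460 x9462 x9468
    x9530 x9548 x9554 x9556 x9584 x9602 x9608 x9610 x9620 x9626 x9628 x9632 x9634 x9636 x9656 x9662
    x9664 x9674 x9680 x9682 x9686 x9688 x9690 x9698 x9700 x9704 x9706 x9708 x9712 x9714 x9746 x9764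
    x9770 x9772 x9782 x9788 x9790 x9794 x9796 x9798 x9818 x9824 x9826 x9836 x9842 x9844 x9848 x9850
    x9852 x9860 x9862 x9866 x9868 x9870 x9874 x9876 x9890 x9896 x9898 x9902 x9904 x9906 x9914 x9916
    x9920 x9922 x9924 x9928 x9930 x9938 x9940 x9942 x9946 x9948 x9954 x9980 x9986 x9988 x9998
    x10004 x10006 x10010 x10012 x10014 x10022 x10024 x10028 x10030 x10032 x10036 x10038 x10052
    x10058 x10060 x10064 x10066 x10068 x10076 x10078 x10082 x10084 x10086 x10090 x10092 x10100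
    x10102 x10104 x10108 x10110 x10116 x10130 x10132 x10136 x10138 x10140 x10144 x10146 x10154
    x10156 x10158 x10162 x10164 x10170 x10180 x10182 x10188 x10232 x10250 x10256 x10258 x10268
    x10274 x10276 x10280 x10282 x10284 x10304 x10310 x10312 x10322 x10328 x10330 x10334 x10336
    x10338 x10346 x10348 x10352 x10354 x10356 x10360 x10362 x10376 x10382 x10384 x10388 x10390
    x10392 x10400 x10402 x10406 x10408 x10410 x10414 x10416 x10424 x10426 x10428 x10432 x10434
    x10440 x10466 x10472 x10474 x10484 x10490 x10492 x10496 x10498 x10500 x10508 x10510 x10514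
    x10516 x10518 x10522 x10524 x10538 x10544 x10546 x10550 x10552 x10554 x10562 x10564 x10568
    x10570 x10572 x10576 x10578 x10586 x10588 x10590 x10594 x10596 x10602 x10616 x10618 x10622
    x10624 x10626 x10630 x10632 x10640 x10642 x10644 x10648 x10650 x10656 x10666 x10668 x10674
    x10700 x10706 x10708 x10712 x10714 x10716 x10724 x10726 x10730 x10732 x10734 x10738 x10740
    x10748 x10750 x10752 x10756 x10758 x10764 x10778 x10780 x10784 x10786 x10788 x10792 x10794
    x10802 x10804 x10806 x10810 x10812 x10818 x10828 x10830 x10836 x10856 x10858 x10860 x10864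
    x10866 x10872 x10882 x10884 x10890 x10908 x10988 x11006 x11012 x11014 x11042 x11060 x11066
    x11068 x11078 x11084 x11086 x11090 x11092 x11094 x11114 x11120 x11122 x11132 x11138 x11140
    x11144 x11146 x11148 x11156 x11158 x11162 x11164 x11166 x11170 x11172 x11204 x11222 x11228
    x11230 x11240 x11246 x11248 x11252 x11254 x11256 x11276 x11282 x11284 x11294 x11300 x11302
    x11306 x11308 x11310 x11318 x11320 x11324 x11326 x11328 x11332 x11334 x11348 x11354 x11356
    x11360 x11362 x11364 x11372 x11374 x11378 x11380 x11382 x11386 x11388 x11396 x11398 x11400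
    x11404 x11406 x11412 x11438 x11444 x11446 x11456 x11462 x11464 x11468 x11470 x11472 x11480
    x11482 x11486 x11488 x11490 x11494 x11496 x11510 x11516 x11518 x11522 x11524 x11526 x11534
    x11536 x11540 x11542 x11544 x11548 x11550 x11558 x11560 x11562 x11566 x11568 x11574 x11588
    x11590 x11594 x11596 x11598 x11602 x11604 x11612 x11614 x11616 x11620 x11622 x11628 x11638
    x11640 x11646 x11690 x11708 x11714 x11716 x11726 x11732 x11734 x11738 x11740 x11742 x11762
    x11768 x11770 x11780 x11786 x11788 x11792 x11794 x11796 x11804 x11806 x11810 x11812 x11814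
    x11818 x11820 x11834 x11840 x11842 x11846 x11848 x11850 x11858 x11860 x11864 x11866 x11868
    x11872 x11874 x11882 x11884 x11886 x11890 x11892 x11898 x11924 x11930 x11932 x11942 x11948
    x11950 x11954 x11956 x11958 x11966 x11968 x11972 x11974 x11976 x11980 x11982 x11996 x12002
    x12004 x12008 x12010 x12012 x12020 x12022 x12026 x12028 x12030 x12034 x12036 x12044 x12046
    x12048 x12052 x12054 x12060 x12074 x12076 x12080 x12082 x12084 x12088 x12090 x12098 x12100
    x12102 x12106 x12108 x12114 x12124 x12126 x12132 x12158 x12164 x12166 x12170 x12172 x12174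
    x12182 x12184 x12188 x12190 x12192 x12196 x12198 x12206 x12208 x12210 x12214 x12216 x12222
    x12236 x12238 x12242 x12244 x12246 x12250 x12252 x12260 x12262 x12264 x12268 x12270 x12276
    x12286 x12288 x12294 x12314 x12316 x12318 x12322 x12324 x12330 x12340 x12342 x12348 x12366
    x12410 x12416 x12418 x12428 x12434 x12436 x12440 x12442 x12444 x12452 x12454 x12458 x12460
    x12462 x12466 x12468 x12482 x12488 x12490 x12494 x12496 x12498 x12506 x12508 x12512 x12514
    x12516 x12520 x12522 x12530 x12532 x12534 x12538 x12540 x12546 x12560 x12562 x12566 x12568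
    x12570 x12574 x12576 x12584 x12586 x12588 x12592 x12594 x12600 x12610 x12612 x12618 x12644
    x12650 x12652 x12656 x12658 x12660 x12668 x12670 x12674 x12676 x12678 x12682 x12684 x12692
    x12694 x12696 x12700 x12702 x12708 x12722 x12724 x12728 x12730 x12732 x12736 x12738 x12746
    x12748 x12750 x12754 x12756 x12762 x12772 x12774 x12780 x12800 x12802 x12804 x12808 x12810
    x12816 x12826 x12828 x12834 x12852 x12884 x12886 x12890 x12892 x12894 x12898 x12900 x12908
    x12910 x12912 x12916 x12918 x12924 x12934 x12936 x12942 x12962 x12964 x12966 x12970 x12972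
    x12978 x12988 x12990 x12996 x13014 x13042 x13044 x13050 x13068 x13202 x13256 x13274 x13280
    x13282 x13310 x13328 x13334 x13336 x13346 x13352 x13354 x13358 x13360 x13362 x13418 x13436
    x13442 x13444 x13472 x13490 x13496 x13498 x13508 x13514 x13516 x13520 x13522 x13524 x13544
    x13550 x13552 x13562 x13568 x13570 x13574 x13576 x13578 x13586 x13588 x13592 x13594 x13596
    x13600 x13602 x13634 x13652 x13658 x13660 x13670 x13676 x13678 x13682 x13684 x13686 x13706
    x13712 x13714 x13724 x13730 x13732 x13736 x13738 x13740 x13748 x13750 x13754 x13756 x13758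
    x13762 x13764 x13778 x13784 x13786 x13790 x13792 x13794 x13802 x13804 x13808 x13810 x13812
    x13816 x13818 x13826 x13828 x13830 x13834 x13836 x13842 x13904 x13922 x13928 x13930 x13958
    x13976 x13982 x13984 x13994 x14000 x14002 x14006 x14008 x14010 x14030 x14036 x14038 x14048
    x14054 x14056 x14060 x14062 x14064 x14072 x14074 x14078 x14080 x14082 x14086 x14088 x14120
    x14138 x14144 x14146 x14156 x14162 x14164 x14168 x14170 x14172 x14192 x14198 x14200 x14210
    x14216 x14218 x14222 x14224 x14226 x14234 x14236 x14240 x14242 x14244 x14248 x14250 x14264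
    x14270 x14272 x14276 x14278 x14280 x14288 x14290 x14294 x14296 x14298 x14302 x14304 x14312
    x14314 x14316 x14320 x14322 x14328 x14354 x14360 x14362 x14372 x14378 x14380 x14384 x14386
    x14388 x14396 x14398 x14402 x14404 x14406 x14410 x14412 x14426 x14432 x14434 x14438 x14440
    x14442 x14450 x14452 x14456 x14458 x14460 x14464 x14466 x14474 x14476 x14478 x14482 x14484
    x14490 x14504 x14506 x14510 x14512 x14514 x14518 x14520 x14528 x14530 x14532 x14536 x14538
    x14544 x14554 x14556 x14562 x14606 x14624 x14630 x14632 x14642 x14648 x14650 x14654 x14656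
    x14658 x14678 x14684 x14686 x14696 x14702 x14704 x14708 x14710 x14712 x14720 x14722 x14726
    x14728 x14730 x14734 x14736 x14750 x14756 x14758 x14762 x14764 x14766 x14774 x14776 x14780
    x14782 x14784 x14788 x14790 x14798 x14800 x14802 x14806 x14808 x14814 x14840 x14846 x14848
    x14858 x14864 x14866 x14870 x14872 x14874 x14882 x14884 x14888 x14890 x14892 x14896 x14898
    x14912 x14918 x14920 x14924 x14926 x14928 x14936 x14938 x14942 x14944 x14946 x14950 x14952
    x14960 x14962 x14964 x14968 x14970 x14976 x14990 x14992 x14996 x14998 x15000 x15004 x15006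
    x15014 x15016 x15018 x15022 x15024 x15030 x15040 x15042 x15048 x15074 x15080 x15082 x15086
    x15088 x15090 x15098 x15100 x15104 x15106 x15108 x15112 x15114 x15122 x15124 x15126 x15130
    x15132 x15138 x15152 x15154 x15158 x15160 x15162 x15166 x15168 x15176 x15178 x15180 x15184
    x15186 x15192 x15202 x15204 x15210 x15230 x15232 x15234 x15238 x15240 x15246 x15256 x15258
    x15264 x15282 x15362 x15380 x15386 x15388 x15416 x15434 x15440 x15442 x15452 x15458 x15460
    x15464 x15466 x15468 x15488 x15494 x15496 x15506 x15512 x15514 x15518 x15520 x15522 x15530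
    x15532 x15536 x15538 x15540 x15544 x15546 x15578 x15596 x15602 x15604 x15614 x15620 x15622
    x15626 x15628 x15630 x15650 x15656 x15658 x15668 x15674 x15676 x15680 x15682 x15684 x15692
    x15694 x15698 x15700 x15702 x15706 x15708 x15722 x15728 x15730 x15734 x15736 x15738 x15746
    x15748 x15752 x15754 x15756 x15760 x15762 x15770 x15772 x15774 x15778 x15780 x15786 x15812
    x15818 x15820 x15830 x15836 x15838 x15842 x15844 x15846 x15854 x15856 x15860 x15862 x15864
    x15868 x15870 x15884 x15890 x15892 x15896 x15898 x15900 x15908 x15910 x15914 x15916 x15918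
    x15922 x15924 x15932 x15934 x15936 x15940 x15942 x15948 x15962 x15964 x15968 x15970 x15972
    x15976 x15978 x15986 x15988 x15990 x15994 x15996 x16002 x16012 x16014 x16020 x16064 x16082
    x16088 x16090 x16100 x16106 x16108 x16112 x16114 x16116 x16136 x16142 x16144 x16154 x16160
    x16162 x16166 x16168 x16170 x16178 x16180 x16184 x16186 x16188 x16192 x16194 x16208 x16214
    x16216 x16220 x16222 x16224 x16232 x16234 x16238 x16240 x16242 x16246 x16248 x16256 x16258
    x16260 x16264 x16266 x16272 x16298 x16304 x16306 x16316 x16322 x16324 x16328 x16330 x16332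
    x16340 x16342 x16346 x16348 x16350 x16354 x16356 x16370 x16376 x16378 x16382 x16384 x16386
    x16394 x16396 x16400 x16402 x16404 x16408 x16410 x16418 x16420 x16422 x16426 x16428 x16434
    x16448 x16450 x16454 x16456 x16458 x16462 x16464 x16472 x16474 x16476 x16480 x16482 x16488
    x16498 x16500 x16506 x16532 x16538 x16540 x16544 x16546 x16548 x16556 x16558 x16562 x16564
    x16566 x16570 x16572 x16580 x16582 x16584 x16588 x16590 x16596 x16610 x16612 x16616 x16618
    x16620 x16624 x16626 x16634 x16636 x16638 x16642 x16644 x16650 x16660 x16662 x16668 x16688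
    x16690 x16692 x16696 x16698 x16704 x16714 x16716 x16722 x16740 x16784 x16790 x16792 x16802
    x16808 x16810 x16814 x16816 x16818 x16826 x16828 x16832 x16834 x16836 x16840 x16842 x16856
    x16862 x16864 x16868 x16870 x16872 x16880 x16882 x16886 x16888 x16890 x16894 x16896 x16904
    x16906 x16908 x16912 x16914 x16920 x16934 x16936 x16940 x16942 x16944 x16948 x16950 x16958
    x16960 x16962 x16966 x16968 x16974 x16984 x16986 x16992 x17018 x17024 x17026 x17030 x17032
    x17034 x17042 x17044 x17048 x17050 x17052 x17056 x17058 x17066 x17068 x17070 x17074 x17076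
    x17082 x17096 x17098 x17102 x17104 x17106 x17110 x17112 x17120 x17122 x17124 x17128 x17130
    x17136 x17146 x17148 x17154 x17174 x17176 x17178 x17182 x17184 x17190 x17200 x17202 x17208
    x17226 x17258 x17260 x17264 x17266 x17268 x17272 x17274 x17282 x17284 x17286 x17290 x17292
    x17298 x17308 x17310 x17316 x17336 x17338 x17340 x17344 x17346 x17352 x17362 x17364 x17370
    x17388 x17416 x17418 x17424 x17442 x17522 x17540 x17546 x17548 x17558 x17564 x17566 x17570
    x17572 x17574 x17594 x17600 x17602 x17612 x17618 x17620 x17624 x17626 x17628 x17636 x17638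
    x17642 x17644 x17646 x17650 x17652 x17666 x17672 x17674 x17678 x17680 x17682 x17690 x17692
    x17696 x17698 x17700 x17704 x17706 x17714 x17716 x17718 x17722 x17724 x17730 x17756 x17762
    x17764 x17774 x17780 x17782 x17786 x17788 x17790 x17798 x17800 x17804 x17806 x17808 x17812
    x17814 x17828 x17834 x17836 x17840 x17842 x17844 x17852 x17854 x17858 x17860 x17862 x17866
    x17868 x17876 x17878 x17880 x17884 x17886 x17892 x17906 x17908 x17912 x17914 x17916 x17920
    x17922 x17930 x17932 x17934 x17938 x17940 x17946 x17956 x17958 x17964 x17990 x17996 x17998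
    x18002 x18004 x18006 x18014 x18016 x18020 x18022 x18024 x18028 x18030 x18038 x18040 x18042
    x18046 x18048 x18054 x18068 x18070 x18074 x18076 x18078 x18082 x18084 x18092 x18094 x18096
    x18100 x18102 x18108 x18118 x18120 x18126 x18146 x18148 x18150 x18154 x18156 x18162 x18172
    x18174 x18180 x18198 x18242 x18248 x18250 x18260 x18266 x18268 x18272 x18274 x18276 x18284
    x18286 x18290 x18292 x18294 x18298 x18300 x18314 x18320 x18322 x18326 x18328 x18330 x18338
    x18340 x18344 x18346 x18348 x18352 x18354 x18362 x18364 x18366 x18370 x18372 x18378 x18392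
    x18394 x18398 x18400 x18402 x18406 x18408 x18416 x18418 x18420 x18424 x18426 x18432 x18442
    x18444 x18450 x18476 x18482 x18484 x18488 x18490 x18492 x18500 x18502 x18506 x18508 x18510
    x18514 x18516 x18524 x18526 x18528 x18532 x18534 x18540 x18554 x18556 x18560 x18562 x18564
    x18568 x18570 x18578 x18580 x18582 x18586 x18588 x18594 x18604 x18606 x18612 x18632 x18634
    x18636 x18640 x18642 x18648 x18658 x18660 x18666 x18684 x18716 x18718 x18722 x18724 x18726
    x18730 x18732 x18740 x18742 x18744 x18748 x18750 x18756 x18766 x18768 x18774 x18794 x18796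
    x18798 x18802 x18804 x18810 x18820 x18822 x18828 x18846 x18874 x18876 x18882 x18900 x18962
    x18968 x18970 x18974 x18976 x18978 x18986 x18988 x18992 x18994 x18996 x19000 x19002 x19010
    x19012 x19014 x19018 x19020 x19026 x19040 x19042 x19046 x19048 x19050 x19054 x19056 x19064
    x19066 x19068 x19072 x19074 x19080 x19090 x19092 x19098 x19118 x19120 x19122 x19126 x19128
    x19134 x19144 x19146 x19152 x19170 x19202 x19204 x19208 x19210 x19212 x19216 x19218 x19226
    x19228 x19230 x19234 x19236 x19242 x19252 x19254 x19260 x19280 x19282 x19284 x19288 x19290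
    x19296 x19306 x19308 x19314 x19332 x19360 x19362 x19368 x19386 x19442 x19444 x19446 x19450
    x19452 x19458 x19468 x19470 x19476 x19494 x19522 x19524 x19530 x19548 x19602 x19844 x19898
    x19916 x19922 x19924 x20006 x20060 x20078 x20084 x20086 x20114 x20132 x20138 x20140 x20150
    x20156 x20158 x20162 x20164 x20166 x20222 x20240 x20246 x20248 x20276 x20294 x20300 x20302
    x20312 x20318 x20320 x20324 x20326 x20328 x20348 x20354 x20356 x20366 x20372 x20374 x20378
    x20380 x20382 x20390 x20392 x20396 x20398 x20400 x20404 x20406 x20492 x20546 x20564 x20570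
    x20572 x20600 x20618 x20624 x20626 x20636 x20642 x20644 x20648 x20650 x20652 x20708 x20726
    x20732 x20734 x20762 x20780 x20786 x20788 x20798 x20804 x20806 x20810 x20812 x20814 x20834
    x20840 x20842 x20852 x20858 x20860 x20864 x20866 x20868 x20876 x20878 x20882 x20884 x20886
    x20890 x20892 x20924 x20942 x20948 x20950 x20960 x20966 x20968 x20972 x20974 x20976 x20996
    x21002 x21004 x21014 x21020 x21022 x21026 x21028 x21030 x21038 x21040 x21044 x21046 x21048
    x21052 x21054 x21068 x21074 x21076 x21080 x21082 x21084 x21092 x21094 x21098 x21100 x21102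
    x21106 x21108 x21116 x21118 x21120 x21124 x21126 x21132 x21194 x21212 x21218 x21220 x21248
    x21266 x21272 x21274 x21284 x21290 x21292 x21296 x21298 x21300 x21320 x21326 x21328 x21338
    x21344 x21346 x21350 x21352 x21354 x21362 x21364 x21368 x21370 x21372 x21376 x21378 x21410
    x21428 x21434 x21436 x21446 x21452 x21454 x21458 x21460 x21462 x21482 x21488 x21490 x21500
    x21506 x21508 x21512 x21514 x21516 x21524 x21526 x21530 x21532 x21534 x21538 x21540 x21554
    x21560 x21562 x21566 x21568 x21570 x21578 x21580 x21584 x21586 x21588 x21592 x21594 x21602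
    x21604 x21606 x21610 x21612 x21618 x21644 x21650 x21652 x21662 x21668 x21670 x21674 x21676
    x21678 x21686 x21688 x21692 x21694 x21696 x21700 x21702 x21716 x21722 x21724 x21728 x21730
    x21732 x21740 x21742 x21746 x21748 x21750 x21754 x21756 x21764 x21766 x21768 x21772 x21774
    x21780 x21794 x21796 x21800 x21802 x21804 x21808 x21810 x21818 x21820 x21822 x21826 x21828
    x21834 x21844 x21846 x21852 x21950 x22004 x22022 x22028 x22030 x22058 x22076 x22082 x22084
    x22094 x22100 x22102 x22106 x22108 x22110 x22166 x22184 x22190 x22192 x22220 x22238 x22244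
    x22246 x22256 x22262 x22264 x22268 x22270 x22272 x22292 x22298 x22300 x22310 x22316 x22318
    x22322 x22324 x22326 x22334 x22336 x22340 x22342 x22344 x22348 x22350 x22382 x22400 x22406
    x22408 x22418 x22424 x22426 x22430 x22432 x22434 x22454 x22460 x22462 x22472 x22478 x22480
    x22484 x22486 x22488 x22496 x22498 x22502 x22504 x22506 x22510 x22512 x22526 x22532 x22534
    x22538 x22540 x22542 x22550 x22552 x22556 x22558 x22560 x22564 x22566 x22574 x22576 x22578
    x22582 x22584 x22590 x22652 x22670 x22676 x22678 x22706 x22724 x22730 x22732 x22742 x22748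
    x22750 x22754 x22756 x22758 x22778 x22784 x22786 x22796 x22802 x22804 x22808 x22810 x22812
    x22820 x22822 x22826 x22828 x22830 x22834 x22836 x22868 x22886 x22892 x22894 x22904 x22910
    x22912 x22916 x22918 x22920 x22940 x22946 x22948 x22958 x22964 x22966 x22970 x22972 x22974
    x22982 x22984 x22988 x22990 x22992 x22996 x22998 x23012 x23018 x23020 x23024 x23026 x23028
    x23036 x23038 x23042 x23044 x23046 x23050 x23052 x23060 x23062 x23064 x23068 x23070 x23076
    x23102 x23108 x23110 x23120 x23126 x23128 x23132 x23134 x23136 x23144 x23146 x23150 x23152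
    x23154 x23158 x23160 x23174 x23180 x23182 x23186 x23188 x23190 x23198 x23200 x23204 x23206
    x23208 x23212 x23214 x23222 x23224 x23226 x23230 x23232 x23238 x23252 x23254 x23258 x23260
    x23262 x23266 x23268 x23276 x23278 x23280 x23284 x23286 x23292 x23302 x23304 x23310 x23354
    x23372 x23378 x23380 x23390 x23396 x23398 x23402 x23404 x23406 x23426 x23432 x23434 x23444
    x23450 x23452 x23456 x23458 x23460 x23468 x23470 x23474 x23476 x23478 x23482 x23484 x23498
    x23504 x23506 x23510 x23512 x23514 x23522 x23524 x23528 x23530 x23532 x23536 x23538 x23546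
    x23548 x23550 x23554 x23556 x23562 x23588 x23594 x23596 x23606 x23612 x23614 x23618 x23620
    x23622 x23630 x23632 x23636 x23638 x23640 x23644 x23646 x23660 x23666 x23668 x23672 x23674
    x23676 x23684 x23686 x23690 x23692 x23694 x23698 x23700 x23708 x23710 x23712 x23716 x23718
    x23724 x23738 x23740 x23744 x23746 x23748 x23752 x23754 x23762 x23764 x23766 x23770 x23772
    x23778 x23788 x23790 x23796 x23822 x23828 x23830 x23834 x23836 x23838 x23846 x23848 x23852
    x23854 x23856 x23860 x23862 x23870 x23872 x23874 x23878 x23880 x23886 x23900 x23902 x23906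
    x23908 x23910 x23914 x23916 x23924 x23926 x23928 x23932 x23934 x23940 x23950 x23952 x23958
    x23978 x23980 x23982 x23986 x23988 x23994 x24004 x24006 x24012 x24030 x24110 x24128 x24134
    x24136 x24164 x24182 x24188 x24190 x24200 x24206 x24208 x24212 x24214 x24216 x24236 x24242
    x24244 x24254 x24260 x24262 x24266 x24268 x24270 x24278 x24280 x24284 x24286 x24288 x24292
    x24294 x24326 x24344 x24350 x24352 x24362 x24368 x24370 x24374 x24376 x24378 x24398 x24404
    x24406 x24416 x24422 x24424 x24428 x24430 x24432 x24440 x24442 x24446 x24448 x24450 x24454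
    x24456 x24470 x24476 x24478 x24482 x24484 x24486 x24494 x24496 x24500 x24502 x24504 x24508
    x24510 x24518 x24520 x24522 x24526 x24528 x24534 x24560 x24566 x24568 x24578 x24584 x24586
    x24590 x24592 x24594 x24602 x24604 x24608 x24610 x24612 x24616 x24618 x24632 x24638 x24640
    x24644 x24646 x24648 x24656 x24658 x24662 x24664 x24666 x24670 x24672 x24680 x24682 x24684
    x24688 x24690 x24696 x24710 x24712 x24716 x24718 x24720 x24724 x24726 x24734 x24736 x24738
    x24742 x24744 x24750 x24760 x24762 x24768 x24812 x24830 x24836 x24838 x24848 x24854 x24856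
    x24860 x24862 x24864 x24884 x24890 x24892 x24902 x24908 x24910 x24914 x24916 x24918 x24926
    x24928 x24932 x24934 x24936 x24940 x24942 x24956 x24962 x24964 x24968 x24970 x24972 x24980
    x24982 x24986 x24988 x24990 x24994 x24996 x25004 x25006 x25008 x25012 x25014 x25020 x25046
    x25052 x25054 x25064 x25070 x25072 x25076 x25078 x25080 x25088 x25090 x25094 x25096 x25098
    x25102 x25104 x25118 x25124 x25126 x25130 x25132 x25134 x25142 x25144 x25148 x25150 x25152
    x25156 x25158 x25166 x25168 x25170 x25174 x25176 x25182 x25196 x25198 x25202 x25204 x25206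
    x25210 x25212 x25220 x25222 x25224 x25228 x25230 x25236 x25246 x25248 x25254 x25280 x25286
    x25288 x25292 x25294 x25296 x25304 x25306 x25310 x25312 x25314 x25318 x25320 x25328 x25330
    x25332 x25336 x25338 x25344 x25358 x25360 x25364 x25366 x25368 x25372 x25374 x25382 x25384
    x25386 x25390 x25392 x25398 x25408 x25410 x25416 x25436 x25438 x25440 x25444 x25446 x25452
    x25462 x25464 x25470 x25488 x25532 x25538 x25540 x25550 x25556 x25558 x25562 x25564 x25566
    x25574 x25576 x25580 x25582 x25584 x25588 x25590 x25604 x25610 x25612 x25616 x25618 x25620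
    x25628 x25630 x25634 x25636 x25638 x25642 x25644 x25652 x25654 x25656 x25660 x25662 x25668
    x25682 x25684 x25688 x25690 x25692 x25696 x25698 x25706 x25708 x25710 x25714 x25716 x25722
    x25732 x25734 x25740 x25766 x25772 x25774 x25778 x25780 x25782 x25790 x25792 x25796 x25798
    x25800 x25804 x25806 x25814 x25816 x25818 x25822 x25824 x25830 x25844 x25846 x25850 x25852
    x25854 x25858 x25860 x25868 x25870 x25872 x25876 x25878 x25884 x25894 x25896 x25902 x25922
    x25924 x25926 x25930 x25932 x25938 x25948 x25950 x25956 x25974 x26006 x26008 x26012 x26014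
    x26016 x26020 x26022 x26030 x26032 x26034 x26038 x26040 x26046 x26056 x26058 x26064 x26084
    x26086 x26088 x26092 x26094 x26100 x26110 x26112 x26118 x26136 x26164 x26166 x26172 x26190
    x26324 x26378 x26396 x26402 x26404 x26432 x26450 x26456 x26458 x26468 x26474 x26476 x26480
    x26482 x26484 x26540 x26558 x26564 x26566 x26594 x26612 x26618 x26620 x26630 x26636 x26638
    x26642 x26644 x26646 x26666 x26672 x26674 x26684 x26690 x26692 x26696 x26698 x26700 x26708
    x26710 x26714 x26716 x26718 x26722 x26724 x26756 x26774 x26780 x26782 x26792 x26798 x26800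
    x26804 x26806 x26808 x26828 x26834 x26836 x26846 x26852 x26854 x26858 x26860 x26862 x26870
    x26872 x26876 x26878 x26880 x26884 x26886 x26900 x26906 x26908 x26912 x26914 x26916 x26924
    x26926 x26930 x26932 x26934 x26938 x26940 x26948 x26950 x26952 x26956 x26958 x26964 x27026
    x27044 x27050 x27052 x27080 x27098 x27104 x27106 x27116 x27122 x27124 x27128 x27130 x27132
    x27152 x27158 x27160 x27170 x27176 x27178 x27182 x27184 x27186 x27194 x27196 x27200 x27202
    x27204 x27208 x27210 x27242 x27260 x27266 x27268 x27278 x27284 x27286 x27290 x27292 x27294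
    x27314 x27320 x27322 x27332 x27338 x27340 x27344 x27346 x27348 x27356 x27358 x27362 x27364
    x27366 x27370 x27372 x27386 x27392 x27394 x27398 x27400 x27402 x27410 x27412 x27416 x27418
    x27420 x27424 x27426 x27434 x27436 x27438 x27442 x27444 x27450 x27476 x27482 x27484 x27494
    x27500 x27502 x27506 x27508 x27510 x27518 x27520 x27524 x27526 x27528 x27532 x27534 x27548
    x27554 x27556 x27560 x27562 x27564 x27572 x27574 x27578 x27580 x27582 x27586 x27588 x27596
    x27598 x27600 x27604 x27606 x27612 x27626 x27628 x27632 x27634 x27636 x27640 x27642 x27650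
    x27652 x27654 x27658 x27660 x27666 x27676 x27678 x27684 x27728 x27746 x27752 x27754 x27764
    x27770 x27772 x27776 x27778 x27780 x27800 x27806 x27808 x27818 x27824 x27826 x27830 x27832
    x27834 x27842 x27844 x27848 x27850 x27852 x27856 x27858 x27872 x27878 x27880 x27884 x27886
    x27888 x27896 x27898 x27902 x27904 x27906 x27910 x27912 x27920 x27922 x27924 x27928 x27930
    x27936 x27962 x27968 x27970 x27980 x27986 x27988 x27992 x27994 x27996 x28004 x28006 x28010
    x28012 x28014 x28018 x28020 x28034 x28040 x28042 x28046 x28048 x28050 x28058 x28060 x28064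
    x28066 x28068 x28072 x28074 x28082 x28084 x28086 x28090 x28092 x28098 x28112 x28114 x28118
    x28120 x28122 x28126 x28128 x28136 x28138 x28140 x28144 x28146 x28152 x28162 x28164 x28170
    x28196 x28202 x28204 x28208 x28210 x28212 x28220 x28222 x28226 x28228 x28230 x28234 x28236
    x28244 x28246 x28248 x28252 x28254 x28260 x28274 x28276 x28280 x28282 x28284 x28288 x28290
    x28298 x28300 x28302 x28306 x28308 x28314 x28324 x28326 x28332 x28352 x28354 x28356 x28360
    x28362 x28368 x28378 x28380 x28386 x28404 x28484 x28502 x28508 x28510 x28538 x28556 x28562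
    x28564 x28574 x28580 x28582 x28586 x28588 x28590 x28610 x28616 x28618 x28628 x28634 x28636
    x28640 x28642 x28644 x28652 x28654 x28658 x28660 x28662 x28666 x28668 x28700 x28718 x28724
    x28726 x28736 x28742 x28744 x28748 x28750 x28752 x28772 x28778 x28780 x28790 x28796 x28798
    x28802 x28804 x28806 x28814 x28816 x28820 x28822 x28824 x28828 x28830 x28844 x28850 x28852
    x28856 x28858 x28860 x28868 x28870 x28874 x28876 x28878 x28882 x28884 x28892 x28894 x28896
    x28900 x28902 x28908 x28934 x28940 x28942 x28952 x28958 x28960 x28964 x28966 x28968 x28976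
    x28978 x28982 x28984 x28986 x28990 x28992 x29006 x29012 x29014 x29018 x29020 x29022 x29030
    x29032 x29036 x29038 x29040 x29044 x29046 x29054 x29056 x29058 x29062 x29064 x29070 x29084
    x29086 x29090 x29092 x29094 x29098 x29100 x29108 x29110 x29112 x29116 x29118 x29124 x29134
    x29136 x29142 x29186 x29204 x29210 x29212 x29222 x29228 x29230 x29234 x29236 x29238 x29258
    x29264 x29266 x29276 x29282 x29284 x29288 x29290 x29292 x29300 x29302 x29306 x29308 x29310
    x29314 x29316 x29330 x29336 x29338 x29342 x29344 x29346 x29354 x29356 x29360 x29362 x29364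
    x29368 x29370 x29378 x29380 x29382 x29386 x29388 x29394 x29420 x29426 x29428 x29438 x29444
    x29446 x29450 x29452 x29454 x29462 x29464 x29468 x29470 x29472 x29476 x29478 x29492 x29498
    x29500 x29504 x29506 x29508 x29516 x29518 x29522 x29524 x29526 x29530 x29532 x29540 x29542
    x29544 x29548 x29550 x29556 x29570 x29572 x29576 x29578 x29580 x29584 x29586 x29594 x29596
    x29598 x29602 x29604 x29610 x29620 x29622 x29628 x29654 x29660 x29662 x29666 x29668 x29670
    x29678 x29680 x29684 x29686 x29688 x29692 x29694 x29702 x29704 x29706 x29710 x29712 x29718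
    x29732 x29734 x29738 x29740 x29742 x29746 x29748 x29756 x29758 x29760 x29764 x29766 x29772
    x29782 x29784 x29790 x29810 x29812 x29814 x29818 x29820 x29826 x29836 x29838 x29844 x29862
    x29906 x29912 x29914 x29924 x29930 x29932 x29936 x29938 x29940 x29948 x29950 x29954 x29956
    x29958 x29962 x29964 x29978 x29984 x29986 x29990 x29992 x29994 x30002 x30004 x30008 x30010
    x30012 x30016 x30018 x30026 x30028 x30030 x30034 x30036 x30042 x30056 x30058 x30062 x30064
    x30066 x30070 x30072 x30080 x30082 x30084 x30088 x30090 x30096 x30106 x30108 x30114 x30140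
    x30146 x30148 x30152 x30154 x30156 x30164 x30166 x30170 x30172 x30174 x30178 x30180 x30188
    x30190 x30192 x30196 x30198 x30204 x30218 x30220 x30224 x30226 x30228 x30232 x30234 x30242
    x30244 x30246 x30250 x30252 x30258 x30268 x30270 x30276 x30296 x30298 x30300 x30304 x30306
    x30312 x30322 x30324 x30330 x30348 x30380 x30382 x30386 x30388 x30390 x30394 x30396 x30404
    x30406 x30408 x30412 x30414 x30420 x30430 x30432 x30438 x30458 x30460 x30462 x30466 x30468
    x30474 x30484 x30486 x30492 x30510 x30538 x30540 x30546 x30564 x30644 x30662 x30668 x30670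
    x30680 x30686 x30688 x30692 x30694 x30696 x30716 x30722 x30724 x30734 x30740 x30742 x30746
    x30748 x30750 x30758 x30760 x30764 x30766 x30768 x30772 x30774 x30788 x30794 x30796 x30800
    x30802 x30804 x30812 x30814 x30818 x30820 x30822 x30826 x30828 x30836 x30838 x30840 x30844
    x30846 x30852 x30878 x30884 x30886 x30896 x30902 x30904 x30908 x30910 x30912 x30920 x30922
    x30926 x30928 x30930 x30934 x30936 x30950 x30956 x30958 x30962 x30964 x30966 x30974 x30976
    x30980 x30982 x30984 x30988 x30990 x30998 x31000 x31002 x31006 x31008 x31014 x31028 x31030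
    x31034 x31036 x31038 x31042 x31044 x31052 x31054 x31056 x31060 x31062 x31068 x31078 x31080
    x31086 x31112 x31118 x31120 x31124 x31126 x31128 x31136 x31138 x31142 x31144 x31146 x31150
    x31152 x31160 x31162 x31164 x31168 x31170 x31176 x31190 x31192 x31196 x31198 x31200 x31204
    x31206 x31214 x31216 x31218 x31222 x31224 x31230 x31240 x31242 x31248 x31268 x31270 x31272
    x31276 x31278 x31284 x31294 x31296 x31302 x31320 x31364 x31370 x31372 x31382 x31388 x31390
    x31394 x31396 x31398 x31406 x31408 x31412 x31414 x31416 x31420 x31422 x31436 x31442 x31444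
    x31448 x31450 x31452 x31460 x31462 x31466 x31468 x31470 x31474 x31476 x31484 x31486 x31488
    x31492 x31494 x31500 x31514 x31516 x31520 x31522 x31524 x31528 x31530 x31538 x31540 x31542
    x31546 x31548 x31554 x31564 x31566 x31572 x31598 x31604 x31606 x31610 x31612 x31614 x31622
    x31624 x31628 x31630 x31632 x31636 x31638 x31646 x31648 x31650 x31654 x31656 x31662 x31676
    x31678 x31682 x31684 x31686 x31690 x31692 x31700 x31702 x31704 x31708 x31710 x31716 x31726
    x31728 x31734 x31754 x31756 x31758 x31762 x31764 x31770 x31780 x31782 x31788 x31806 x31838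
    x31840 x31844 x31846 x31848 x31852 x31854 x31862 x31864 x31866 x31870 x31872 x31878 x31888
    x31890 x31896 x31916 x31918 x31920 x31924 x31926 x31932 x31942 x31944 x31950 x31968 x31996
    x31998 x32004 x32022 x32084 x32090 x32092 x32096 x32098 x32100 x32108 x32110 x32114 x32116
    x32118 x32122 x32124 x32132 x32134 x32136 x32140 x32142 x32148 x32162 x32164 x32168 x32170
    x32172 x32176 x32178 x32186 x32188 x32190 x32194 x32196 x32202 x32212 x32214 x32220 x32240
    x32242 x32244 x32248 x32250 x32256 x32266 x32268 x32274 x32292 x32324 x32326 x32330 x32332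
    x32334 x32338 x32340 x32348 x32350 x32352 x32356 x32358 x32364 x32374 x32376 x32382 x32402
    x32404 x32406 x32410 x32412 x32418 x32428 x32430 x32436 x32454 x32482 x32484 x32490 x32508
    x32564 x32566 x32568 x32572 x32574 x32580 x32590 x32592 x32598 x32616 x32644 x32646 x32652
    x32670 x32724 x32858 x32876 x32882 x32884 x32912 x32930 x32936 x32938 x32948 x32954 x32956
    x32960 x32962 x32964 x32984 x32990 x32992 x33002 x33008 x33010 x33014 x33016 x33018 x33026
    x33028 x33032 x33034 x33036 x33040 x33042 x33074 x33092 x33098 x33100 x33110 x33116 x33118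
    x33122 x33124 x33126 x33146 x33152 x33154 x33164 x33170 x33172 x33176 x33178 x33180 x33188
    x33190 x33194 x33196 x33198 x33202 x33204 x33218 x33224 x33226 x33230 x33232 x33234 x33242
    x33244 x33248 x33250 x33252 x33256 x33258 x33266 x33268 x33270 x33274 x33276 x33282 x33308
    x33314 x33316 x33326 x33332 x33334 x33338 x33340 x33342 x33350 x33352 x33356 x33358 x33360
    x33364 x33366 x33380 x33386 x33388 x33392 x33394 x33396 x33404 x33406 x33410 x33412 x33414
    x33418 x33420 x33428 x33430 x33432 x33436 x33438 x33444 x33458 x33460 x33464 x33466 x33468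
    x33472 x33474 x33482 x33484 x33486 x33490 x33492 x33498 x33508 x33510 x33516 x33560 x33578
    x33584 x33586 x33596 x33602 x33604 x33608 x33610 x33612 x33632 x33638 x33640 x33650 x33656
    x33658 x33662 x33664 x33666 x33674 x33676 x33680 x33682 x33684 x33688 x33690 x33704 x33710
    x33712 x33716 x33718 x33720 x33728 x33730 x33734 x33736 x33738 x33742 x33744 x33752 x33754
    x33756 x33760 x33762 x33768 x33794 x33800 x33802 x33812 x33818 x33820 x33824 x33826 x33828
    x33836 x33838 x33842 x33844 x33846 x33850 x33852 x33866 x33872 x33874 x33878 x33880 x33882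
    x33890 x33892 x33896 x33898 x33900 x33904 x33906 x33914 x33916 x33918 x33922 x33924 x33930
    x33944 x33946 x33950 x33952 x33954 x33958 x33960 x33968 x33970 x33972 x33976 x33978 x33984
    x33994 x33996 x34002 x34028 x34034 x34036 x34040 x34042 x34044 x34052 x34054 x34058 x34060
    x34062 x34066 x34068 x34076 x34078 x34080 x34084 x34086 x34092 x34106 x34108 x34112 x34114
    x34116 x34120 x34122 x34130 x34132 x34134 x34138 x34140 x34146 x34156 x34158 x34164 x34184
    x34186 x34188 x34192 x34194 x34200 x34210 x34212 x34218 x34236 x34280 x34286 x34288 x34298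
    x34304 x34306 x34310 x34312 x34314 x34322 x34324 x34328 x34330 x34332 x34336 x34338 x34352
    x34358 x34360 x34364 x34366 x34368 x34376 x34378 x34382 x34384 x34386 x34390 x34392 x34400
    x34402 x34404 x34408 x34410 x34416 x34430 x34432 x34436 x34438 x34440 x34444 x34446 x34454
    x34456 x34458 x34462 x34464 x34470 x34480 x34482 x34488 x34514 x34520 x34522 x34526 x34528
    x34530 x34538 x34540 x34544 x34546 x34548 x34552 x34554 x34562 x34564 x34566 x34570 x34572
    x34578 x34592 x34594 x34598 x34600 x34602 x34606 x34608 x34616 x34618 x34620 x34624 x34626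
    x34632 x34642 x34644 x34650 x34670 x34672 x34674 x34678 x34680 x34686 x34696 x34698 x34704
    x34722 x34754 x34756 x34760 x34762 x34764 x34768 x34770 x34778 x34780 x34782 x34786 x34788
    x34794 x34804 x34806 x34812 x34832 x34834 x34836 x34840 x34842 x34848 x34858 x34860 x34866
    x34884 x34912 x34914 x34920 x34938 x35018 x35036 x35042 x35044 x35054 x35060 x35062 x35066
    x35068 x35070 x35090 x35096 x35098 x35108 x35114 x35116 x35120 x35122 x35124 x35132 x35134
    x35138 x35140 x35142 x35146 x35148 x35162 x35168 x35170 x35174 x35176 x35178 x35186 x35188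
    x35192 x35194 x35196 x35200 x35202 x35210 x35212 x35214 x35218 x35220 x35226 x35252 x35258
    x35260 x35270 x35276 x35278 x35282 x35284 x35286 x35294 x35296 x35300 x35302 x35304 x35308
    x35310 x35324 x35330 x35332 x35336 x35338 x35340 x35348 x35350 x35354 x35356 x35358 x35362
    x35364 x35372 x35374 x35376 x35380 x35382 x35388 x35402 x35404 x35408 x35410 x35412 x35416
    x35418 x35426 x35428 x35430 x35434 x35436 x35442 x35452 x35454 x35460 x35486 x35492 x35494
    x35498 x35500 x35502 x35510 x35512 x35516 x35518 x35520 x35524 x35526 x35534 x35536 x35538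
    x35542 x35544 x35550 x35564 x35566 x35570 x35572 x35574 x35578 x35580 x35588 x35590 x35592
    x35596 x35598 x35604 x35614 x35616 x35622 x35642 x35644 x35646 x35650 x35652 x35658 x35668
    x35670 x35676 x35694 x35738 x35744 x35746 x35756 x35762 x35764 x35768 x35770 x35772 x35780
    x35782 x35786 x35788 x35790 x35794 x35796 x35810 x35816 x35818 x35822 x35824 x35826 x35834
    x35836 x35840 x35842 x35844 x35848 x35850 x35858 x35860 x35862 x35866 x35868 x35874 x35888
    x35890 x35894 x35896 x35898 x35902 x35904 x35912 x35914 x35916 x35920 x35922 x35928 x35938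
    x35940 x35946 x35972 x35978 x35980 x35984 x35986 x35988 x35996 x35998 x36002 x36004 x36006
    x36010 x36012 x36020 x36022 x36024 x36028 x36030 x36036 x36050 x36052 x36056 x36058 x36060
    x36064 x36066 x36074 x36076 x36078 x36082 x36084 x36090 x36100 x36102 x36108 x36128 x36130
    x36132 x36136 x36138 x36144 x36154 x36156 x36162 x36180 x36212 x36214 x36218 x36220 x36222
    x36226 x36228 x36236 x36238 x36240 x36244 x36246 x36252 x36262 x36264 x36270 x36290 x36292
    x36294 x36298 x36300 x36306 x36316 x36318 x36324 x36342 x36370 x36372 x36378 x36396 x36458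
    x36464 x36466 x36470 x36472 x36474 x36482 x36484 x36488 x36490 x36492 x36496 x36498 x36506
    x36508 x36510 x36514 x36516 x36522 x36536 x36538 x36542 x36544 x36546 x36550 x36552 x36560
    x36562 x36564 x36568 x36570 x36576 x36586 x36588 x36594 x36614 x36616 x36618 x36622 x36624
    x36630 x36640 x36642 x36648 x36666 x36698 x36700 x36704 x36706 x36708 x36712 x36714 x36722
    x36724 x36726 x36730 x36732 x36738 x36748 x36750 x36756 x36776 x36778 x36780 x36784 x36786
    x36792 x36802 x36804 x36810 x36828 x36856 x36858 x36864 x36882 x36938 x36940 x36942 x36946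
    x36948 x36954 x36964 x36966 x36972 x36990 x37018 x37020 x37026 x37044 x37098 x37196 x37202
    x37204 x37214 x37220 x37222 x37226 x37228 x37230 x37238 x37240 x37244 x37246 x37248 x37252
    x37254 x37268 x37274 x37276 x37280 x37282 x37284 x37292 x37294 x37298 x37300 x37302 x37306
    x37308 x37316 x37318 x37320 x37324 x37326 x37332 x37346 x37348 x37352 x37354 x37356 x37360
    x37362 x37370 x37372 x37374 x37378 x37380 x37386 x37396 x37398 x37404 x37430 x37436 x37438
    x37442 x37444 x37446 x37454 x37456 x37460 x37462 x37464 x37468 x37470 x37478 x37480 x37482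
    x37486 x37488 x37494 x37508 x37510 x37514 x37516 x37518 x37522 x37524 x37532 x37534 x37536
    x37540 x37542 x37548 x37558 x37560 x37566 x37586 x37588 x37590 x37594 x37596 x37602 x37612
    x37614 x37620 x37638 x37670 x37672 x37676 x37678 x37680 x37684 x37686 x37694 x37696 x37698
    x37702 x37704 x37710 x37720 x37722 x37728 x37748 x37750 x37752 x37756 x37758 x37764 x37774
    x37776 x37782 x37800 x37828 x37830 x37836 x37854 x37916 x37922 x37924 x37928 x37930 x37932
    x37940 x37942 x37946 x37948 x37950 x37954 x37956 x37964 x37966 x37968 x37972 x37974 x37980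
    x37994 x37996 x38000 x38002 x38004 x38008 x38010 x38018 x38020 x38022 x38026 x38028 x38034
    x38044 x38046 x38052 x38072 x38074 x38076 x38080 x38082 x38088 x38098 x38100 x38106 x38124
    x38156 x38158 x38162 x38164 x38166 x38170 x38172 x38180 x38182 x38184 x38188 x38190 x38196
    x38206 x38208 x38214 x38234 x38236 x38238 x38242 x38244 x38250 x38260 x38262 x38268 x38286
    x38314 x38316 x38322 x38340 x38396 x38398 x38400 x38404 x38406 x38412 x38422 x38424 x38430
    x38448 x38476 x38478 x38484 x38502 x38556 x38642 x38644 x38648 x38650 x38652 x38656 x38658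
    x38666 x38668 x38670 x38674 x38676 x38682 x38692 x38694 x38700 x38720 x38722 x38724 x38728
    x38730 x38736 x38746 x38748 x38754 x38772 x38800 x38802 x38808 x38826 x38882 x38884 x38886
    x38890 x38892 x38898 x38908 x38910 x38916 x38934 x38962 x38964 x38970 x38988 x39042 x39124
    x39126 x39132 x39150 x39204 x39446 x39500 x39518 x39524 x39526 x39554 x39572 x39578 x39580
    x39590 x39596 x39598 x39602 x39604 x39606 x39662 x39680 x39686 x39688 x39716 x39734 x39740
    x39742 x39752 x39758 x39760 x39764 x39766 x39768 x39788 x39794 x39796 x39806 x39812 x39814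
    x39818 x39820 x39822 x39830 x39832 x39836 x39838 x39840 x39844 x39846 x39878 x39896 x39902
    x39904 x39914 x39920 x39922 x39926 x39928 x39930 x39950 x39956 x39958 x39968 x39974 x39976
    x39980 x39982 x39984 x39992 x39994 x39998 x40000 x40002 x40006 x40008 x40022 x40028 x40030
    x40034 x40036 x40038 x40046 x40048 x40052 x40054 x40056 x40060 x40062 x40070 x40072 x40074
    x40078 x40080 x40086 x40148 x40166 x40172 x40174 x40202 x40220 x40226 x40228 x40238 x40244
    x40246 x40250 x40252 x40254 x40274 x40280 x40282 x40292 x40298 x40300 x40304 x40306 x40308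
    x40316 x40318 x40322 x40324 x40326 x40330 x40332 x40364 x40382 x40388 x40390 x40400 x40406
    x40408 x40412 x40414 x40416 x40436 x40442 x40444 x40454 x40460 x40462 x40466 x40468 x40470
    x40478 x40480 x40484 x40486 x40488 x40492 x40494 x40508 x40514 x40516 x40520 x40522 x40524
    x40532 x40534 x40538 x40540 x40542 x40546 x40548 x40556 x40558 x40560 x40564 x40566 x40572
    x40598 x40604 x40606 x40616 x40622 x40624 x40628 x40630 x40632 x40640 x40642 x40646 x40648
    x40650 x40654 x40656 x40670 x40676 x40678 x40682 x40684 x40686 x40694 x40696 x40700 x40702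
    x40704 x40708 x40710 x40718 x40720 x40722 x40726 x40728 x40734 x40748 x40750 x40754 x40756
    x40758 x40762 x40764 x40772 x40774 x40776 x40780 x40782 x40788 x40798 x40800 x40806 x40850
    x40868 x40874 x40876 x40886 x40892 x40894 x40898 x40900 x40902 x40922 x40928 x40930 x40940
    x40946 x40948 x40952 x40954 x40956 x40964 x40966 x40970 x40972 x40974 x40978 x40980 x40994
    x41000 x41002 x41006 x41008 x41010 x41018 x41020 x41024 x41026 x41028 x41032 x41034 x41042
    x41044 x41046 x41050 x41052 x41058 x41084 x41090 x41092 x41102 x41108 x41110 x41114 x41116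
    x41118 x41126 x41128 x41132 x41134 x41136 x41140 x41142 x41156 x41162 x41164 x41168 x41170
    x41172 x41180 x41182 x41186 x41188 x41190 x41194 x41196 x41204 x41206 x41208 x41212 x41214
    x41220 x41234 x41236 x41240 x41242 x41244 x41248 x41250 x41258 x41260 x41262 x41266 x41268
    x41274 x41284 x41286 x41292 x41318 x41324 x41326 x41330 x41332 x41334 x41342 x41344 x41348
    x41350 x41352 x41356 x41358 x41366 x41368 x41370 x41374 x41376 x41382 x41396 x41398 x41402
    x41404 x41406 x41410 x41412 x41420 x41422 x41424 x41428 x41430 x41436 x41446 x41448 x41454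
    x41474 x41476 x41478 x41482 x41484 x41490 x41500 x41502 x41508 x41526 x41606 x41624 x41630
    x41632 x41660 x41678 x41684 x41686 x41696 x41702 x41704 x41708 x41710 x41712 x41732 x41738
    x41740 x41750 x41756 x41758 x41762 x41764 x41766 x41774 x41776 x41780 x41782 x41784 x41788
    x41790 x41822 x41840 x41846 x41848 x41858 x41864 x41866 x41870 x41872 x41874 x41894 x41900
    x41902 x41912 x41918 x41920 x41924 x41926 x41928 x41936 x41938 x41942 x41944 x41946 x41950
    x41952 x41966 x41972 x41974 x41978 x41980 x41982 x41990 x41992 x41996 x41998 x42000 x42004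
    x42006 x42014 x42016 x42018 x42022 x42024 x42030 x42056 x42062 x42064 x42074 x42080 x42082
    x42086 x42088 x42090 x42098 x42100 x42104 x42106 x42108 x42112 x42114 x42128 x42134 x42136
    x42140 x42142 x42144 x42152 x42154 x42158 x42160 x42162 x42166 x42168 x42176 x42178 x42180
    x42184 x42186 x42192 x42206 x42208 x42212 x42214 x42216 x42220 x42222 x42230 x42232 x42234
    x42238 x42240 x42246 x42256 x42258 x42264 x42308 x42326 x42332 x42334 x42344 x42350 x42352
    x42356 x42358 x42360 x42380 x42386 x42388 x42398 x42404 x42406 x42410 x42412 x42414 x42422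
    x42424 x42428 x42430 x42432 x42436 x42438 x42452 x42458 x42460 x42464 x42466 x42468 x42476
    x42478 x42482 x42484 x42486 x42490 x42492 x42500 x42502 x42504 x42508 x42510 x42516 x42542
    x42548 x42550 x42560 x42566 x42568 x42572 x42574 x42576 x42584 x42586 x42590 x42592 x42594
    x42598 x42600 x42614 x42620 x42622 x42626 x42628 x42630 x42638 x42640 x42644 x42646 x42648
    x42652 x42654 x42662 x42664 x42666 x42670 x42672 x42678 x42692 x42694 x42698 x42700 x42702
    x42706 x42708 x42716 x42718 x42720 x42724 x42726 x42732 x42742 x42744 x42750 x42776 x42782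
    x42784 x42788 x42790 x42792 x42800 x42802 x42806 x42808 x42810 x42814 x42816 x42824 x42826
    x42828 x42832 x42834 x42840 x42854 x42856 x42860 x42862 x42864 x42868 x42870 x42878 x42880
    x42882 x42886 x42888 x42894 x42904 x42906 x42912 x42932 x42934 x42936 x42940 x42942 x42948
    x42958 x42960 x42966 x42984 x43028 x43034 x43036 x43046 x43052 x43054 x43058 x43060 x43062
    x43070 x43072 x43076 x43078 x43080 x43084 x43086 x43100 x43106 x43108 x43112 x43114 x43116
    x43124 x43126 x43130 x43132 x43134 x43138 x43140 x43148 x43150 x43152 x43156 x43158 x43164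
    x43178 x43180 x43184 x43186 x43188 x43192 x43194 x43202 x43204 x43206 x43210 x43212 x43218
    x43228 x43230 x43236 x43262 x43268 x43270 x43274 x43276 x43278 x43286 x43288 x43292 x43294
    x43296 x43300 x43302 x43310 x43312 x43314 x43318 x43320 x43326 x43340 x43342 x43346 x43348
    x43350 x43354 x43356 x43364 x43366 x43368 x43372 x43374 x43380 x43390 x43392 x43398 x43418
    x43420 x43422 x43426 x43428 x43434 x43444 x43446 x43452 x43470 x43502 x43504 x43508 x43510
    x43512 x43516 x43518 x43526 x43528 x43530 x43534 x43536 x43542 x43552 x43554 x43560 x43580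
    x43582 x43584 x43588 x43590 x43596 x43606 x43608 x43614 x43632 x43660 x43662 x43668 x43686
    x43766 x43784 x43790 x43792 x43802 x43808 x43810 x43814 x43816 x43818 x43838 x43844 x43846
    x43856 x43862 x43864 x43868 x43870 x43872 x43880 x43882 x43886 x43888 x43890 x43894 x43896
    x43910 x43916 x43918 x43922 x43924 x43926 x43934 x43936 x43940 x43942 x43944 x43948 x43950
    x43958 x43960 x43962 x43966 x43968 x43974 x44000 x44006 x44008 x44018 x44024 x44026 x44030
    x44032 x44034 x44042 x44044 x44048 x44050 x44052 x44056 x44058 x44072 x44078 x44080 x44084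
    x44086 x44088 x44096 x44098 x44102 x44104 x44106 x44110 x44112 x44120 x44122 x44124 x44128
    x44130 x44136 x44150 x44152 x44156 x44158 x44160 x44164 x44166 x44174 x44176 x44178 x44182
    x44184 x44190 x44200 x44202 x44208 x44234 x44240 x44242 x44246 x44248 x44250 x44258 x44260
    x44264 x44266 x44268 x44272 x44274 x44282 x44284 x44286 x44290 x44292 x44298 x44312 x44314
    x44318 x44320 x44322 x44326 x44328 x44336 x44338 x44340 x44344 x44346 x44352 x44362 x44364
    x44370 x44390 x44392 x44394 x44398 x44400 x44406 x44416 x44418 x44424 x44442 x44486 x44492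
    x44494 x44504 x44510 x44512 x44516 x44518 x44520 x44528 x44530 x44534 x44536 x44538 x44542
    x44544 x44558 x44564 x44566 x44570 x44572 x44574 x44582 x44584 x44588 x44590 x44592 x44596
    x44598 x44606 x44608 x44610 x44614 x44616 x44622 x44636 x44638 x44642 x44644 x44646 x44650
    x44652 x44660 x44662 x44664 x44668 x44670 x44676 x44686 x44688 x44694 x44720 x44726 x44728
    x44732 x44734 x44736 x44744 x44746 x44750 x44752 x44754 x44758 x44760 x44768 x44770 x44772
    x44776 x44778 x44784 x44798 x44800 x44804 x44806 x44808 x44812 x44814 x44822 x44824 x44826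
    x44830 x44832 x44838 x44848 x44850 x44856 x44876 x44878 x44880 x44884 x44886 x44892 x44902
    x44904 x44910 x44928 x44960 x44962 x44966 x44968 x44970 x44974 x44976 x44984 x44986 x44988
    x44992 x44994 x45000 x45010 x45012 x45018 x45038 x45040 x45042 x45046 x45048 x45054 x45064
    x45066 x45072 x45090 x45118 x45120 x45126 x45144 x45206 x45212 x45214 x45218 x45220 x45222
    x45230 x45232 x45236 x45238 x45240 x45244 x45246 x45254 x45256 x45258 x45262 x45264 x45270
    x45284 x45286 x45290 x45292 x45294 x45298 x45300 x45308 x45310 x45312 x45316 x45318 x45324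
    x45334 x45336 x45342 x45362 x45364 x45366 x45370 x45372 x45378 x45388 x45390 x45396 x45414
    x45446 x45448 x45452 x45454 x45456 x45460 x45462 x45470 x45472 x45474 x45478 x45480 x45486
    x45496 x45498 x45504 x45524 x45526 x45528 x45532 x45534 x45540 x45550 x45552 x45558 x45576
    x45604 x45606 x45612 x45630 x45686 x45688 x45690 x45694 x45696 x45702 x45712 x45714 x45720
    x45738 x45766 x45768 x45774 x45792 x45846 x45980 x45998 x46004 x46006 x46034 x46052 x46058
    x46060 x46070 x46076 x46078 x46082 x46084 x46086 x46106 x46112 x46114 x46124 x46130 x46132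
    x46136 x46138 x46140 x46148 x46150 x46154 x46156 x46158 x46162 x46164 x46196 x46214 x46220
    x46222 x46232 x46238 x46240 x46244 x46246 x46248 x46268 x46274 x46276 x46286 x46292 x46294
    x46298 x46300 x46302 x46310 x46312 x46316 x46318 x46320 x46324 x46326 x46340 x46346 x46348
    x46352 x46354 x46356 x46364 x46366 x46370 x46372 x46374 x46378 x46380 x46388 x46390 x46392
    x46396 x46398 x46404 x46430 x46436 x46438 x46448 x46454 x46456 x46460 x46462 x46464 x46472
    x46474 x46478 x46480 x46482 x46486 x46488 x46502 x46508 x46510 x46514 x46516 x46518 x46526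
    x46528 x46532 x46534 x46536 x46540 x46542 x46550 x46552 x46554 x46558 x46560 x46566 x46580
    x46582 x46586 x46588 x46590 x46594 x46596 x46604 x46606 x46608 x46612 x46614 x46620 x46630
    x46632 x46638 x46682 x46700 x46706 x46708 x46718 x46724 x46726 x46730 x46732 x46734 x46754
    x46760 x46762 x46772 x46778 x46780 x46784 x46786 x46788 x46796 x46798 x46802 x46804 x46806
    x46810 x46812 x46826 x46832 x46834 x46838 x46840 x46842 x46850 x46852 x46856 x46858 x46860
    x46864 x46866 x46874 x46876 x46878 x46882 x46884 x46890 x46916 x46922 x46924 x46934 x46940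
    x46942 x46946 x46948 x46950 x46958 x46960 x46964 x46966 x46968 x46972 x46974 x46988 x46994
    x46996 x47000 x47002 x47004 x47012 x47014 x47018 x47020 x47022 x47026 x47028 x47036 x47038
    x47040 x47044 x47046 x47052 x47066 x47068 x47072 x47074 x47076 x47080 x47082 x47090 x47092
    x47094 x47098 x47100 x47106 x47116 x47118 x47124 x47150 x47156 x47158 x47162 x47164 x47166
    x47174 x47176 x47180 x47182 x47184 x47188 x47190 x47198 x47200 x47202 x47206 x47208 x47214
    x47228 x47230 x47234 x47236 x47238 x47242 x47244 x47252 x47254 x47256 x47260 x47262 x47268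
    x47278 x47280 x47286 x47306 x47308 x47310 x47314 x47316 x47322 x47332 x47334 x47340 x47358
    x47402 x47408 x47410 x47420 x47426 x47428 x47432 x47434 x47436 x47444 x47446 x47450 x47452
    x47454 x47458 x47460 x47474 x47480 x47482 x47486 x47488 x47490 x47498 x47500 x47504 x47506
    x47508 x47512 x47514 x47522 x47524 x47526 x47530 x47532 x47538 x47552 x47554 x47558 x47560
    x47562 x47566 x47568 x47576 x47578 x47580 x47584 x47586 x47592 x47602 x47604 x47610 x47636
    x47642 x47644 x47648 x47650 x47652 x47660 x47662 x47666 x47668 x47670 x47674 x47676 x47684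
    x47686 x47688 x47692 x47694 x47700 x47714 x47716 x47720 x47722 x47724 x47728 x47730 x47738
    x47740 x47742 x47746 x47748 x47754 x47764 x47766 x47772 x47792 x47794 x47796 x47800 x47802
    x47808 x47818 x47820 x47826 x47844 x47876 x47878 x47882 x47884 x47886 x47890 x47892 x47900
    x47902 x47904 x47908 x47910 x47916 x47926 x47928 x47934 x47954 x47956 x47958 x47962 x47964
    x47970 x47980 x47982 x47988 x48006 x48034 x48036 x48042 x48060 x48140 x48158 x48164 x48166
    x48176 x48182 x48184 x48188 x48190 x48192 x48212 x48218 x48220 x48230 x48236 x48238 x48242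
    x48244 x48246 x48254 x48256 x48260 x48262 x48264 x48268 x48270 x48284 x48290 x48292 x48296
    x48298 x48300 x48308 x48310 x48314 x48316 x48318 x48322 x48324 x48332 x48334 x48336 x48340
    x48342 x48348 x48374 x48380 x48382 x48392 x48398 x48400 x48404 x48406 x48408 x48416 x48418
    x48422 x48424 x48426 x48430 x48432 x48446 x48452 x48454 x48458 x48460 x48462 x48470 x48472
    x48476 x48478 x48480 x48484 x48486 x48494 x48496 x48498 x48502 x48504 x48510 x48524 x48526
    x48530 x48532 x48534 x48538 x48540 x48548 x48550 x48552 x48556 x48558 x48564 x48574 x48576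
    x48582 x48608 x48614 x48616 x48620 x48622 x48624 x48632 x48634 x48638 x48640 x48642 x48646
    x48648 x48656 x48658 x48660 x48664 x48666 x48672 x48686 x48688 x48692 x48694 x48696 x48700
    x48702 x48710 x48712 x48714 x48718 x48720 x48726 x48736 x48738 x48744 x48764 x48766 x48768
    x48772 x48774 x48780 x48790 x48792 x48798 x48816 x48860 x48866 x48868 x48878 x48884 x48886
    x48890 x48892 x48894 x48902 x48904 x48908 x48910 x48912 x48916 x48918 x48932 x48938 x48940
    x48944 x48946 x48948 x48956 x48958 x48962 x48964 x48966 x48970 x48972 x48980 x48982 x48984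
    x48988 x48990 x48996 x49010 x49012 x49016 x49018 x49020 x49024 x49026 x49034 x49036 x49038
    x49042 x49044 x49050 x49060 x49062 x49068 x49094 x49100 x49102 x49106 x49108 x49110 x49118
    x49120 x49124 x49126 x49128 x49132 x49134 x49142 x49144 x49146 x49150 x49152 x49158 x49172
    x49174 x49178 x49180 x49182 x49186 x49188 x49196 x49198 x49200 x49204 x49206 x49212 x49222
    x49224 x49230 x49250 x49252 x49254 x49258 x49260 x49266 x49276 x49278 x49284 x49302 x49334
    x49336 x49340 x49342 x49344 x49348 x49350 x49358 x49360 x49362 x49366 x49368 x49374 x49384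
    x49386 x49392 x49412 x49414 x49416 x49420 x49422 x49428 x49438 x49440 x49446 x49464 x49492
    x49494 x49500 x49518 x49580 x49586 x49588 x49592 x49594 x49596 x49604 x49606 x49610 x49612
    x49614 x49618 x49620 x49628 x49630 x49632 x49636 x49638 x49644 x49658 x49660 x49664 x49666
    x49668 x49672 x49674 x49682 x49684 x49686 x49690 x49692 x49698 x49708 x49710 x49716 x49736
    x49738 x49740 x49744 x49746 x49752 x49762 x49764 x49770 x49788 x49820 x49822 x49826 x49828
    x49830 x49834 x49836 x49844 x49846 x49848 x49852 x49854 x49860 x49870 x49872 x49878 x49898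
    x49900 x49902 x49906 x49908 x49914 x49924 x49926 x49932 x49950 x49978 x49980 x49986 x50004
    x50060 x50062 x50064 x50068 x50070 x50076 x50086 x50088 x50094 x50112 x50140 x50142 x50148
    x50166 x50220 x50318 x50324 x50326 x50336 x50342 x50344 x50348 x50350 x50352 x50360 x50362
    x50366 x50368 x50370 x50374 x50376 x50390 x50396 x50398 x50402 x50404 x50406 x50414 x50416
    x50420 x50422 x50424 x50428 x50430 x50438 x50440 x50442 x50446 x50448 x50454 x50468 x50470
    x50474 x50476 x50478 x50482 x50484 x50492 x50494 x50496 x50500 x50502 x50508 x50518 x50520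
    x50526 x50552 x50558 x50560 x50564 x50566 x50568 x50576 x50578 x50582 x50584 x50586 x50590
    x50592 x50600 x50602 x50604 x50608 x50610 x50616 x50630 x50632 x50636 x50638 x50640 x50644
    x50646 x50654 x50656 x50658 x50662 x50664 x50670 x50680 x50682 x50688 x50708 x50710 x50712
    x50716 x50718 x50724 x50734 x50736 x50742 x50760 x50792 x50794 x50798 x50800 x50802 x50806
    x50808 x50816 x50818 x50820 x50824 x50826 x50832 x50842 x50844 x50850 x50870 x50872 x50874
    x50878 x50880 x50886 x50896 x50898 x50904 x50922 x50950 x50952 x50958 x50976 x51038 x51044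
    x51046 x51050 x51052 x51054 x51062 x51064 x51068 x51070 x51072 x51076 x51078 x51086 x51088
    x51090 x51094 x51096 x51102 x51116 x51118 x51122 x51124 x51126 x51130 x51132 x51140 x51142
    x51144 x51148 x51150 x51156 x51166 x51168 x51174 x51194 x51196 x51198 x51202 x51204 x51210
    x51220 x51222 x51228 x51246 x51278 x51280 x51284 x51286 x51288 x51292 x51294 x51302 x51304
    x51306 x51310 x51312 x51318 x51328 x51330 x51336 x51356 x51358 x51360 x51364 x51366 x51372
    x51382 x51384 x51390 x51408 x51436 x51438 x51444 x51462 x51518 x51520 x51522 x51526 x51528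
    x51534 x51544 x51546 x51552 x51570 x51598 x51600 x51606 x51624 x51678 x51764 x51766 x51770
    x51772 x51774 x51778 x51780 x51788 x51790 x51792 x51796 x51798 x51804 x51814 x51816 x51822
    x51842 x51844 x51846 x51850 x51852 x51858 x51868 x51870 x51876 x51894 x51922 x51924 x51930
    x51948 x52004 x52006 x52008 x52012 x52014 x52020 x52030 x52032 x52038 x52056 x52084 x52086
    x52092 x52110 x52164 x52246 x52248 x52254 x52272 x52326 x52514 x52532 x52538 x52540 x52550
    x52556 x52558 x52562 x52564 x52566 x52586 x52592 x52594 x52604 x52610 x52612 x52616 x52618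
    x52620 x52628 x52630 x52634 x52636 x52638 x52642 x52644 x52658 x52664 x52666 x52670 x52672
    x52674 x52682 x52684 x52688 x52690 x52692 x52696 x52698 x52706 x52708 x52710 x52714 x52716
    x52722 x52748 x52754 x52756 x52766 x52772 x52774 x52778 x52780 x52782 x52790 x52792 x52796
    x52798 x52800 x52804 x52806 x52820 x52826 x52828 x52832 x52834 x52836 x52844 x52846 x52850
    x52852 x52854 x52858 x52860 x52868 x52870 x52872 x52876 x52878 x52884 x52898 x52900 x52904
    x52906 x52908 x52912 x52914 x52922 x52924 x52926 x52930 x52932 x52938 x52948 x52950 x52956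
    x52982 x52988 x52990 x52994 x52996 x52998 x53006 x53008 x53012 x53014 x53016 x53020 x53022
    x53030 x53032 x53034 x53038 x53040 x53046 x53060 x53062 x53066 x53068 x53070 x53074 x53076
    x53084 x53086 x53088 x53092 x53094 x53100 x53110 x53112 x53118 x53138 x53140 x53142 x53146
    x53148 x53154 x53164 x53166 x53172 x53190 x53234 x53240 x53242 x53252 x53258 x53260 x53264
    x53266 x53268 x53276 x53278 x53282 x53284 x53286 x53290 x53292 x53306 x53312 x53314 x53318
    x53320 x53322 x53330 x53332 x53336 x53338 x53340 x53344 x53346 x53354 x53356 x53358 x53362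
    x53364 x53370 x53384 x53386 x53390 x53392 x53394 x53398 x53400 x53408 x53410 x53412 x53416
    x53418 x53424 x53434 x53436 x53442 x53468 x53474 x53476 x53480 x53482 x53484 x53492 x53494
    x53498 x53500 x53502 x53506 x53508 x53516 x53518 x53520 x53524 x53526 x53532 x53546 x53548
    x53552 x53554 x53556 x53560 x53562 x53570 x53572 x53574 x53578 x53580 x53586 x53596 x53598
    x53604 x53624 x53626 x53628 x53632 x53634 x53640 x53650 x53652 x53658 x53676 x53708 x53710
    x53714 x53716 x53718 x53722 x53724 x53732 x53734 x53736 x53740 x53742 x53748 x53758 x53760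
    x53766 x53786 x53788 x53790 x53794 x53796 x53802 x53812 x53814 x53820 x53838 x53866 x53868
    x53874 x53892 x53954 x53960 x53962 x53966 x53968 x53970 x53978 x53980 x53984 x53986 x53988
    x53992 x53994 x54002 x54004 x54006 x54010 x54012 x54018 x54032 x54034 x54038 x54040 x54042
    x54046 x54048 x54056 x54058 x54060 x54064 x54066 x54072 x54082 x54084 x54090 x54110 x54112
    x54114 x54118 x54120 x54126 x54136 x54138 x54144 x54162 x54194 x54196 x54200 x54202 x54204
    x54208 x54210 x54218 x54220 x54222 x54226 x54228 x54234 x54244 x54246 x54252 x54272 x54274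
    x54276 x54280 x54282 x54288 x54298 x54300 x54306 x54324 x54352 x54354 x54360 x54378 x54434
    x54436 x54438 x54442 x54444 x54450 x54460 x54462 x54468 x54486 x54514 x54516 x54522 x54540
    x54594 x54692 x54698 x54700 x54710 x54716 x54718 x54722 x54724 x54726 x54734 x54736 x54740
    x54742 x54744 x54748 x54750 x54764 x54770 x54772 x54776 x54778 x54780 x54788 x54790 x54794
    x54796 x54798 x54802 x54804 x54812 x54814 x54816 x54820 x54822 x54828 x54842 x54844 x54848
    x54850 x54852 x54856 x54858 x54866 x54868 x54870 x54874 x54876 x54882 x54892 x54894 x54900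
    x54926 x54932 x54934 x54938 x54940 x54942 x54950 x54952 x54956 x54958 x54960 x54964 x54966
    x54974 x54976 x54978 x54982 x54984 x54990 x55004 x55006 x55010 x55012 x55014 x55018 x55020
    x55028 x55030 x55032 x55036 x55038 x55044 x55054 x55056 x55062 x55082 x55084 x55086 x55090
    x55092 x55098 x55108 x55110 x55116 x55134 x55166 x55168 x55172 x55174 x55176 x55180 x55182
    x55190 x55192 x55194 x55198 x55200 x55206 x55216 x55218 x55224 x55244 x55246 x55248 x55252
    x55254 x55260 x55270 x55272 x55278 x55296 x55324 x55326 x55332 x55350 x55412 x55418 x55420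
    x55424 x55426 x55428 x55436 x55438 x55442 x55444 x55446 x55450 x55452 x55460 x55462 x55464
    x55468 x55470 x55476 x55490 x55492 x55496 x55498 x55500 x55504 x55506 x55514 x55516 x55518
    x55522 x55524 x55530 x55540 x55542 x55548 x55568 x55570 x55572 x55576 x55578 x55584 x55594
    x55596 x55602 x55620 x55652 x55654 x55658 x55660 x55662 x55666 x55668 x55676 x55678 x55680
    x55684 x55686 x55692 x55702 x55704 x55710 x55730 x55732 x55734 x55738 x55740 x55746 x55756
    x55758 x55764 x55782 x55810 x55812 x55818 x55836 x55892 x55894 x55896 x55900 x55902 x55908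
    x55918 x55920 x55926 x55944 x55972 x55974 x55980 x55998 x56052 x56138 x56140 x56144 x56146
    x56148 x56152 x56154 x56162 x56164 x56166 x56170 x56172 x56178 x56188 x56190 x56196 x56216
    x56218 x56220 x56224 x56226 x56232 x56242 x56244 x56250 x56268 x56296 x56298 x56304 x56322
    x56378 x56380 x56382 x56386 x56388 x56394 x56404 x56406 x56412 x56430 x56458 x56460 x56466
    x56484 x56538 x56620 x56622 x56628 x56646 x56700 x56870 x56876 x56878 x56882 x56884 x56886
    x56894 x56896 x56900 x56902 x56904 x56908 x56910 x56918 x56920 x56922 x56926 x56928 x56934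
    x56948 x56950 x56954 x56956 x56958 x56962 x56964 x56972 x56974 x56976 x56980 x56982 x56988
    x56998 x57000 x57006 x57026 x57028 x57030 x57034 x57036 x57042 x57052 x57054 x57060 x57078
    x57110 x57112 x57116 x57118 x57120 x57124 x57126 x57134 x57136 x57138 x57142 x57144 x57150
    x57160 x57162 x57168 x57188 x57190 x57192 x57196 x57198 x57204 x57214 x57216 x57222 x57240
    x57268 x57270 x57276 x57294 x57350 x57352 x57354 x57358 x57360 x57366 x57376 x57378 x57384
    x57402 x57430 x57432 x57438 x57456 x57510 x57596 x57598 x57602 x57604 x57606 x57610 x57612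
    x57620 x57622 x57624 x57628 x57630 x57636 x57646 x57648 x57654 x57674 x57676 x57678 x57682
    x57684 x57690 x57700 x57702 x57708 x57726 x57754 x57756 x57762 x57780 x57836 x57838 x57840
    x57844 x57846 x57852 x57862 x57864 x57870 x57888 x57916 x57918 x57924 x57942 x57996 x58078
    x58080 x58086 x58104 x58158 x58322 x58324 x58326 x58330 x58332 x58338 x58348 x58350 x58356
    x58374 x58402 x58404 x58410 x58428 x58482 x58564 x58566 x58572 x58590 x58644 x58806 : Nat) : Bool :=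
  Nat.beq
    (Nat.add (Nat.add (f x242) (Nat.add (f x404) (Nat.add (f x458) (Nat.add (f x476) (Nat.add
    (f x482) (Nat.add (f x484) (Nat.add (f x566) (Nat.add (f x620) (Nat.add (f x638) (Nat.add
    (f x644) (Nat.add (f x646) (Nat.add (f x674) (Nat.add (f x692) (Nat.add (f x698) (Nat.add
    (f x700) (Nat.add (f x710) (Nat.add (f x716) (Nat.add (f x718) (Nat.add (f x722) (Nat.add
    (f x724) (Nat.add (f x726) (Nat.add (f x890) (Nat.add (f x944) (Nat.add (f x962) (Nat.add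
    (f x968) (Nat.add (f x970) (Nat.add (f x1052) (Nat.add (f x1106) (Nat.add (f x1124) (Nat.add
    (f x1130) (Nat.add (f x1132) (Nat.add (f x1160) (Nat.add (f x1178) (Nat.add (f x1184) (Nat.add
    (f x1186) (Nat.add (f x1196) (Nat.add (f x1202) (Nat.add (f x1204) (Nat.add (f x1208) (Nat.add
    (f x1210) (Nat.add (f x1212) (Nat.add (f x1268) (Nat.add (f x1286) (Nat.add (f x1292) (Nat.add
    (f x1294) (Nat.add (f x1322) (Nat.add (f x1340) (Nat.add (f x1346) (Nat.add (f x1348) (Nat.add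
    (f x1358) (Nat.add (f x1364) (Nat.add (f x1366) (Nat.add (f x1370) (Nat.add (f x1372) (Nat.add
    (f x1374) (Nat.add (f x1394) (Nat.add (f x1400) (Nat.add (f x1402) (Nat.add (f x1412) (Nat.add
    (f x1418) 0)))))))))))))))))))))))))))))))))))))))))))))))))))))))))))) (Nat.add (Nat.add
    (f x1420) (Nat.add (f x1424) (Nat.add (f x1426) (Nat.add (f x1428) (Nat.add (f x1436) (Nat.add
    (f x1438) (Nat.add (f x1442) (Nat.add (f x1444) (Nat.add (f x1446) (Nat.add (f x1450) (Nat.add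
    (f x1452) (Nat.add (f x1538) (Nat.add (f x1592) (Nat.add (f x1610) (Nat.add (f x1616) (Nat.add
    (f x1618) (Nat.add (f x1646) (Nat.add (f x1664) (Nat.add (f x1670) (Nat.add (f x1672) (Nat.add
    (f x1682) (Nat.add (f x1688) (Nat.add (f x1690) (Nat.add (f x1694) (Nat.add (f x1696) (Nat.add
    (f x1698) (Nat.add (f x1754) (Nat.add (f x1772) (Nat.add (f x1778) (Nat.add (f x1780) (Nat.add
    (f x1808) (Nat.add (f x1826) (Nat.add (f x1832) (Nat.add (f x1834) (Nat.add (f x1844) (Nat.add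
    (f x1850) (Nat.add (f x1852) (Nat.add (f x1856) (Nat.add (f x1858) (Nat.add (f x1860) (Nat.add
    (f x1880) (Nat.add (f x1886) (Nat.add (f x1888) (Nat.add (f x1898) (Nat.add (f x1904) (Nat.add
    (f x1906) (Nat.add (f x1910) (Nat.add (f x1912) (Nat.add (f x1914) (Nat.add (f x1922) (Nat.add
    (f x1924) (Nat.add (f x1928) (Nat.add (f x1930) (Nat.add (f x1932) (Nat.add (f x1936) (Nat.add
    (f x1938) (Nat.add (f x1970) (Nat.add (f x1988) (Nat.add (f x1994) (Nat.add (f x1996)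
    0)))))))))))))))))))))))))))))))))))))))))))))))))))))))))))) (Nat.add (Nat.add (f x2006)
    (Nat.add (f x2012) (Nat.add (f x2014) (Nat.add (f x2018) (Nat.add (f x2020) (Nat.add (f x2022)
    (Nat.add (f x2042) (Nat.add (f x2048) (Nat.add (f x2050) (Nat.add (f x2060) (Nat.add (f x2066)
    (Nat.add (f x2068) (Nat.add (f x2072) (Nat.add (f x2074) (Nat.add (f x2076) (Nat.add (f x2084)
    (Nat.add (f x2086) (Nat.add (f x2090) (Nat.add (f x2092) (Nat.add (f x2094) (Nat.add (f x2098)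
    (Nat.add (f x2100) (Nat.add (f x2114) (Nat.add (f x2120) (Nat.add (f x2122) (Nat.add (f x2126)
    (Nat.add (f x2128) (Nat.add (f x2130) (Nat.add (f x2138) (Nat.add (f x2140) (Nat.add (f x2144)
    (Nat.add (f x2146) (Nat.add (f x2148) (Nat.add (f x2152) (Nat.add (f x2154) (Nat.add (f x2162)
    (Nat.add (f x2164) (Nat.add (f x2166) (Nat.add (f x2170) (Nat.add (f x2172) (Nat.add (f x2178)
    (Nat.add (f x2348) (Nat.add (f x2402) (Nat.add (f x2420) (Nat.add (f x2426) (Nat.add (f x2428)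
    (Nat.add (f x2510) (Nat.add (f x2564) (Nat.add (f x2582) (Nat.add (f x2588) (Nat.add (f x2590)
    (Nat.add (f x2618) (Nat.add (f x2636) (Nat.add (f x2642) (Nat.add (f x2644) (Nat.add (f x2654)
    (Nat.add (f x2660) (Nat.add (f x2662) (Nat.add (f x2666) (Nat.add (f x2668)
    0)))))))))))))))))))))))))))))))))))))))))))))))))))))))))))) (Nat.add (Nat.add (f x2670)
    (Nat.add (f x2726) (Nat.add (f x2744) (Nat.add (f x2750) (Nat.add (f x2752) (Nat.add (f x2780)
    (Nat.add (f x2798) (Nat.add (f x2804) (Nat.add (f x2806) (Nat.add (f x2816) (Nat.add (f x2822)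
    (Nat.add (f x2824) (Nat.add (f x2828) (Nat.add (f x2830) (Nat.add (f x2832) (Nat.add (f x2852)
    (Nat.add (f x2858) (Nat.add (f x2860) (Nat.add (f x2870) (Nat.add (f x2876) (Nat.add (f x2878)
    (Nat.add (f x2882) (Nat.add (f x2884) (Nat.add (f x2886) (Nat.add (f x2894) (Nat.add (f x2896)
    (Nat.add (f x2900) (Nat.add (f x2902) (Nat.add (f x2904) (Nat.add (f x2908) (Nat.add (f x2910)
    (Nat.add (f x2996) (Nat.add (f x3050) (Nat.add (f x3068) (Nat.add (f x3074) (Nat.add (f x3076)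
    (Nat.add (f x3104) (Nat.add (f x3122) (Nat.add (f x3128) (Nat.add (f x3130) (Nat.add (f x3140)
    (Nat.add (f x3146) (Nat.add (f x3148) (Nat.add (f x3152) (Nat.add (f x3154) (Nat.add (f x3156)
    (Nat.add (f x3212) (Nat.add (f x3230) (Nat.add (f x3236) (Nat.add (f x3238) (Nat.add (f x3266)
    (Nat.add (f x3284) (Nat.add (f x3290) (Nat.add (f x3292) (Nat.add (f x3302) (Nat.add (f x3308)
    (Nat.add (f x3310) (Nat.add (f x3314) (Nat.add (f x3316) (Nat.add (f x3318)
    0)))))))))))))))))))))))))))))))))))))))))))))))))))))))))))) (Nat.add (Nat.add (f x3338)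
    (Nat.add (f x3344) (Nat.add (f x3346) (Nat.add (f x3356) (Nat.add (f x3362) (Nat.add (f x3364)
    (Nat.add (f x3368) (Nat.add (f x3370) (Nat.add (f x3372) (Nat.add (f x3380) (Nat.add (f x3382)
    (Nat.add (f x3386) (Nat.add (f x3388) (Nat.add (f x3390) (Nat.add (f x3394) (Nat.add (f x3396)
    (Nat.add (f x3428) (Nat.add (f x3446) (Nat.add (f x3452) (Nat.add (f x3454) (Nat.add (f x3464)
    (Nat.add (f x3470) (Nat.add (f x3472) (Nat.add (f x3476) (Nat.add (f x3478) (Nat.add (f x3480)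
    (Nat.add (f x3500) (Nat.add (f x3506) (Nat.add (f x3508) (Nat.add (f x3518) (Nat.add (f x3524)
    (Nat.add (f x3526) (Nat.add (f x3530) (Nat.add (f x3532) (Nat.add (f x3534) (Nat.add (f x3542)
    (Nat.add (f x3544) (Nat.add (f x3548) (Nat.add (f x3550) (Nat.add (f x3552) (Nat.add (f x3556)
    (Nat.add (f x3558) (Nat.add (f x3572) (Nat.add (f x3578) (Nat.add (f x3580) (Nat.add (f x3584)
    (Nat.add (f x3586) (Nat.add (f x3588) (Nat.add (f x3596) (Nat.add (f x3598) (Nat.add (f x3602)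
    (Nat.add (f x3604) (Nat.add (f x3606) (Nat.add (f x3610) (Nat.add (f x3612) (Nat.add (f x3620)
    (Nat.add (f x3622) (Nat.add (f x3624) (Nat.add (f x3628) (Nat.add (f x3630)
    0)))))))))))))))))))))))))))))))))))))))))))))))))))))))))))) (Nat.add (Nat.add (f x3636)
    (Nat.add (f x3698) (Nat.add (f x3716) (Nat.add (f x3722) (Nat.add (f x3724) (Nat.add (f x3752)
    (Nat.add (f x3770) (Nat.add (f x3776) (Nat.add (f x3778) (Nat.add (f x3788) (Nat.add (f x3794)
    (Nat.add (f x3796) (Nat.add (f x3800) (Nat.add (f x3802) (Nat.add (f x3804) (Nat.add (f x3824)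
    (Nat.add (f x3830) (Nat.add (f x3832) (Nat.add (f x3842) (Nat.add (f x3848) (Nat.add (f x3850)
    (Nat.add (f x3854) (Nat.add (f x3856) (Nat.add (f x3858) (Nat.add (f x3866) (Nat.add (f x3868)
    (Nat.add (f x3872) (Nat.add (f x3874) (Nat.add (f x3876) (Nat.add (f x3880) (Nat.add (f x3882)
    (Nat.add (f x3914) (Nat.add (f x3932) (Nat.add (f x3938) (Nat.add (f x3940) (Nat.add (f x3950)
    (Nat.add (f x3956) (Nat.add (f x3958) (Nat.add (f x3962) (Nat.add (f x3964) (Nat.add (f x3966)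
    (Nat.add (f x3986) (Nat.add (f x3992) (Nat.add (f x3994) (Nat.add (f x4004) (Nat.add (f x4010)
    (Nat.add (f x4012) (Nat.add (f x4016) (Nat.add (f x4018) (Nat.add (f x4020) (Nat.add (f x4028)
    (Nat.add (f x4030) (Nat.add (f x4034) (Nat.add (f x4036) (Nat.add (f x4038) (Nat.add (f x4042)
    (Nat.add (f x4044) (Nat.add (f x4058) (Nat.add (f x4064) (Nat.add (f x4066)
    0)))))))))))))))))))))))))))))))))))))))))))))))))))))))))))) (Nat.add (Nat.add (f x4070)
    (Nat.add (f x4072) (Nat.add (f x4074) (Nat.add (f x4082) (Nat.add (f x4084) (Nat.add (f x4088)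
    (Nat.add (f x4090) (Nat.add (f x4092) (Nat.add (f x4096) (Nat.add (f x4098) (Nat.add (f x4106)
    (Nat.add (f x4108) (Nat.add (f x4110) (Nat.add (f x4114) (Nat.add (f x4116) (Nat.add (f x4122)
    (Nat.add (f x4148) (Nat.add (f x4154) (Nat.add (f x4156) (Nat.add (f x4166) (Nat.add (f x4172)
    (Nat.add (f x4174) (Nat.add (f x4178) (Nat.add (f x4180) (Nat.add (f x4182) (Nat.add (f x4190)
    (Nat.add (f x4192) (Nat.add (f x4196) (Nat.add (f x4198) (Nat.add (f x4200) (Nat.add (f x4204)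
    (Nat.add (f x4206) (Nat.add (f x4220) (Nat.add (f x4226) (Nat.add (f x4228) (Nat.add (f x4232)
    (Nat.add (f x4234) (Nat.add (f x4236) (Nat.add (f x4244) (Nat.add (f x4246) (Nat.add (f x4250)
    (Nat.add (f x4252) (Nat.add (f x4254) (Nat.add (f x4258) (Nat.add (f x4260) (Nat.add (f x4268)
    (Nat.add (f x4270) (Nat.add (f x4272) (Nat.add (f x4276) (Nat.add (f x4278) (Nat.add (f x4284)
    (Nat.add (f x4298) (Nat.add (f x4300) (Nat.add (f x4304) (Nat.add (f x4306) (Nat.add (f x4308)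
    (Nat.add (f x4312) (Nat.add (f x4314) (Nat.add (f x4322) (Nat.add (f x4324)
    0)))))))))))))))))))))))))))))))))))))))))))))))))))))))))))) (Nat.add (Nat.add (f x4326)
    (Nat.add (f x4330) (Nat.add (f x4332) (Nat.add (f x4338) (Nat.add (f x4348) (Nat.add (f x4350)
    (Nat.add (f x4356) (Nat.add (f x4454) (Nat.add (f x4508) (Nat.add (f x4526) (Nat.add (f x4532)
    (Nat.add (f x4534) (Nat.add (f x4562) (Nat.add (f x4580) (Nat.add (f x4586) (Nat.add (f x4588)
    (Nat.add (f x4598) (Nat.add (f x4604) (Nat.add (f x4606) (Nat.add (f x4610) (Nat.add (f x4612)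
    (Nat.add (f x4614) (Nat.add (f x4670) (Nat.add (f x4688) (Nat.add (f x4694) (Nat.add (f x4696)
    (Nat.add (f x4724) (Nat.add (f x4742) (Nat.add (f x4748) (Nat.add (f x4750) (Nat.add (f x4760)
    (Nat.add (f x4766) (Nat.add (f x4768) (Nat.add (f x4772) (Nat.add (f x4774) (Nat.add (f x4776)
    (Nat.add (f x4796) (Nat.add (f x4802) (Nat.add (f x4804) (Nat.add (f x4814) (Nat.add (f x4820)
    (Nat.add (f x4822) (Nat.add (f x4826) (Nat.add (f x4828) (Nat.add (f x4830) (Nat.add (f x4838)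
    (Nat.add (f x4840) (Nat.add (f x4844) (Nat.add (f x4846) (Nat.add (f x4848) (Nat.add (f x4852)
    (Nat.add (f x4854) (Nat.add (f x4886) (Nat.add (f x4904) (Nat.add (f x4910) (Nat.add (f x4912)
    (Nat.add (f x4922) (Nat.add (f x4928) (Nat.add (f x4930) (Nat.add (f x4934)
    0)))))))))))))))))))))))))))))))))))))))))))))))))))))))))))) (Nat.add (Nat.add (f x4936)
    (Nat.add (f x4938) (Nat.add (f x4958) (Nat.add (f x4964) (Nat.add (f x4966) (Nat.add (f x4976)
    (Nat.add (f x4982) (Nat.add (f x4984) (Nat.add (f x4988) (Nat.add (f x4990) (Nat.add (f x4992)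
    (Nat.add (f x5000) (Nat.add (f x5002) (Nat.add (f x5006) (Nat.add (f x5008) (Nat.add (f x5010)
    (Nat.add (f x5014) (Nat.add (f x5016) (Nat.add (f x5030) (Nat.add (f x5036) (Nat.add (f x5038)
    (Nat.add (f x5042) (Nat.add (f x5044) (Nat.add (f x5046) (Nat.add (f x5054) (Nat.add (f x5056)
    (Nat.add (f x5060) (Nat.add (f x5062) (Nat.add (f x5064) (Nat.add (f x5068) (Nat.add (f x5070)
    (Nat.add (f x5078) (Nat.add (f x5080) (Nat.add (f x5082) (Nat.add (f x5086) (Nat.add (f x5088)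
    (Nat.add (f x5094) (Nat.add (f x5156) (Nat.add (f x5174) (Nat.add (f x5180) (Nat.add (f x5182)
    (Nat.add (f x5210) (Nat.add (f x5228) (Nat.add (f x5234) (Nat.add (f x5236) (Nat.add (f x5246)
    (Nat.add (f x5252) (Nat.add (f x5254) (Nat.add (f x5258) (Nat.add (f x5260) (Nat.add (f x5262)
    (Nat.add (f x5282) (Nat.add (f x5288) (Nat.add (f x5290) (Nat.add (f x5300) (Nat.add (f x5306)
    (Nat.add (f x5308) (Nat.add (f x5312) (Nat.add (f x5314) (Nat.add (f x5316)
    0)))))))))))))))))))))))))))))))))))))))))))))))))))))))))))) (Nat.add (Nat.add (f x5324)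
    (Nat.add (f x5326) (Nat.add (f x5330) (Nat.add (f x5332) (Nat.add (f x5334) (Nat.add (f x5338)
    (Nat.add (f x5340) (Nat.add (f x5372) (Nat.add (f x5390) (Nat.add (f x5396) (Nat.add (f x5398)
    (Nat.add (f x5408) (Nat.add (f x5414) (Nat.add (f x5416) (Nat.add (f x5420) (Nat.add (f x5422)
    (Nat.add (f x5424) (Nat.add (f x5444) (Nat.add (f x5450) (Nat.add (f x5452) (Nat.add (f x5462)
    (Nat.add (f x5468) (Nat.add (f x5470) (Nat.add (f x5474) (Nat.add (f x5476) (Nat.add (f x5478)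
    (Nat.add (f x5486) (Nat.add (f x5488) (Nat.add (f x5492) (Nat.add (f x5494) (Nat.add (f x5496)
    (Nat.add (f x5500) (Nat.add (f x5502) (Nat.add (f x5516) (Nat.add (f x5522) (Nat.add (f x5524)
    (Nat.add (f x5528) (Nat.add (f x5530) (Nat.add (f x5532) (Nat.add (f x5540) (Nat.add (f x5542)
    (Nat.add (f x5546) (Nat.add (f x5548) (Nat.add (f x5550) (Nat.add (f x5554) (Nat.add (f x5556)
    (Nat.add (f x5564) (Nat.add (f x5566) (Nat.add (f x5568) (Nat.add (f x5572) (Nat.add (f x5574)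
    (Nat.add (f x5580) (Nat.add (f x5606) (Nat.add (f x5612) (Nat.add (f x5614) (Nat.add (f x5624)
    (Nat.add (f x5630) (Nat.add (f x5632) (Nat.add (f x5636) (Nat.add (f x5638)
    0)))))))))))))))))))))))))))))))))))))))))))))))))))))))))))) (Nat.add (Nat.add (f x5640)
    (Nat.add (f x5648) (Nat.add (f x5650) (Nat.add (f x5654) (Nat.add (f x5656) (Nat.add (f x5658)
    (Nat.add (f x5662) (Nat.add (f x5664) (Nat.add (f x5678) (Nat.add (f x5684) (Nat.add (f x5686)
    (Nat.add (f x5690) (Nat.add (f x5692) (Nat.add (f x5694) (Nat.add (f x5702) (Nat.add (f x5704)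
    (Nat.add (f x5708) (Nat.add (f x5710) (Nat.add (f x5712) (Nat.add (f x5716) (Nat.add (f x5718)
    (Nat.add (f x5726) (Nat.add (f x5728) (Nat.add (f x5730) (Nat.add (f x5734) (Nat.add (f x5736)
    (Nat.add (f x5742) (Nat.add (f x5756) (Nat.add (f x5758) (Nat.add (f x5762) (Nat.add (f x5764)
    (Nat.add (f x5766) (Nat.add (f x5770) (Nat.add (f x5772) (Nat.add (f x5780) (Nat.add (f x5782)
    (Nat.add (f x5784) (Nat.add (f x5788) (Nat.add (f x5790) (Nat.add (f x5796) (Nat.add (f x5806)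
    (Nat.add (f x5808) (Nat.add (f x5814) (Nat.add (f x5858) (Nat.add (f x5876) (Nat.add (f x5882)
    (Nat.add (f x5884) (Nat.add (f x5894) (Nat.add (f x5900) (Nat.add (f x5902) (Nat.add (f x5906)
    (Nat.add (f x5908) (Nat.add (f x5910) (Nat.add (f x5930) (Nat.add (f x5936) (Nat.add (f x5938)
    (Nat.add (f x5948) (Nat.add (f x5954) (Nat.add (f x5956) (Nat.add (f x5960)
    0)))))))))))))))))))))))))))))))))))))))))))))))))))))))))))) (Nat.add (Nat.add (f x5962)
    (Nat.add (f x5964) (Nat.add (f x5972) (Nat.add (f x5974) (Nat.add (f x5978) (Nat.add (f x5980)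
    (Nat.add (f x5982) (Nat.add (f x5986) (Nat.add (f x5988) (Nat.add (f x6002) (Nat.add (f x6008)
    (Nat.add (f x6010) (Nat.add (f x6014) (Nat.add (f x6016) (Nat.add (f x6018) (Nat.add (f x6026)
    (Nat.add (f x6028) (Nat.add (f x6032) (Nat.add (f x6034) (Nat.add (f x6036) (Nat.add (f x6040)
    (Nat.add (f x6042) (Nat.add (f x6050) (Nat.add (f x6052) (Nat.add (f x6054) (Nat.add (f x6058)
    (Nat.add (f x6060) (Nat.add (f x6066) (Nat.add (f x6092) (Nat.add (f x6098) (Nat.add (f x6100)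
    (Nat.add (f x6110) (Nat.add (f x6116) (Nat.add (f x6118) (Nat.add (f x6122) (Nat.add (f x6124)
    (Nat.add (f x6126) (Nat.add (f x6134) (Nat.add (f x6136) (Nat.add (f x6140) (Nat.add (f x6142)
    (Nat.add (f x6144) (Nat.add (f x6148) (Nat.add (f x6150) (Nat.add (f x6164) (Nat.add (f x6170)
    (Nat.add (f x6172) (Nat.add (f x6176) (Nat.add (f x6178) (Nat.add (f x6180) (Nat.add (f x6188)
    (Nat.add (f x6190) (Nat.add (f x6194) (Nat.add (f x6196) (Nat.add (f x6198) (Nat.add (f x6202)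
    (Nat.add (f x6204) (Nat.add (f x6212) (Nat.add (f x6214) (Nat.add (f x6216)
    0)))))))))))))))))))))))))))))))))))))))))))))))))))))))))))) (Nat.add (Nat.add (f x6220)
    (Nat.add (f x6222) (Nat.add (f x6228) (Nat.add (f x6242) (Nat.add (f x6244) (Nat.add (f x6248)
    (Nat.add (f x6250) (Nat.add (f x6252) (Nat.add (f x6256) (Nat.add (f x6258) (Nat.add (f x6266)
    (Nat.add (f x6268) (Nat.add (f x6270) (Nat.add (f x6274) (Nat.add (f x6276) (Nat.add (f x6282)
    (Nat.add (f x6292) (Nat.add (f x6294) (Nat.add (f x6300) (Nat.add (f x6326) (Nat.add (f x6332)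
    (Nat.add (f x6334) (Nat.add (f x6338) (Nat.add (f x6340) (Nat.add (f x6342) (Nat.add (f x6350)
    (Nat.add (f x6352) (Nat.add (f x6356) (Nat.add (f x6358) (Nat.add (f x6360) (Nat.add (f x6364)
    (Nat.add (f x6366) (Nat.add (f x6374) (Nat.add (f x6376) (Nat.add (f x6378) (Nat.add (f x6382)
    (Nat.add (f x6384) (Nat.add (f x6390) (Nat.add (f x6404) (Nat.add (f x6406) (Nat.add (f x6410)
    (Nat.add (f x6412) (Nat.add (f x6414) (Nat.add (f x6418) (Nat.add (f x6420) (Nat.add (f x6428)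
    (Nat.add (f x6430) (Nat.add (f x6432) (Nat.add (f x6436) (Nat.add (f x6438) (Nat.add (f x6444)
    (Nat.add (f x6454) (Nat.add (f x6456) (Nat.add (f x6462) (Nat.add (f x6482) (Nat.add (f x6484)
    (Nat.add (f x6486) (Nat.add (f x6490) (Nat.add (f x6492) (Nat.add (f x6498)
    0)))))))))))))))))))))))))))))))))))))))))))))))))))))))))))) (Nat.add (Nat.add (f x6508)
    (Nat.add (f x6510) (Nat.add (f x6516) (Nat.add (f x6534) (Nat.add (f x6722) (Nat.add (f x6776)
    (Nat.add (f x6794) (Nat.add (f x6800) (Nat.add (f x6802) (Nat.add (f x6884) (Nat.add (f x6938)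
    (Nat.add (f x6956) (Nat.add (f x6962) (Nat.add (f x6964) (Nat.add (f x6992) (Nat.add (f x7010)
    (Nat.add (f x7016) (Nat.add (f x7018) (Nat.add (f x7028) (Nat.add (f x7034) (Nat.add (f x7036)
    (Nat.add (f x7040) (Nat.add (f x7042) (Nat.add (f x7044) (Nat.add (f x7100) (Nat.add (f x7118)
    (Nat.add (f x7124) (Nat.add (f x7126) (Nat.add (f x7154) (Nat.add (f x7172) (Nat.add (f x7178)
    (Nat.add (f x7180) (Nat.add (f x7190) (Nat.add (f x7196) (Nat.add (f x7198) (Nat.add (f x7202)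
    (Nat.add (f x7204) (Nat.add (f x7206) (Nat.add (f x7226) (Nat.add (f x7232) (Nat.add (f x7234)
    (Nat.add (f x7244) (Nat.add (f x7250) (Nat.add (f x7252) (Nat.add (f x7256) (Nat.add (f x7258)
    (Nat.add (f x7260) (Nat.add (f x7268) (Nat.add (f x7270) (Nat.add (f x7274) (Nat.add (f x7276)
    (Nat.add (f x7278) (Nat.add (f x7282) (Nat.add (f x7284) (Nat.add (f x7370) (Nat.add (f x7424)
    (Nat.add (f x7442) (Nat.add (f x7448) (Nat.add (f x7450) (Nat.add (f x7478)
    0)))))))))))))))))))))))))))))))))))))))))))))))))))))))))))) (Nat.add (Nat.add (f x7496)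
    (Nat.add (f x7502) (Nat.add (f x7504) (Nat.add (f x7514) (Nat.add (f x7520) (Nat.add (f x7522)
    (Nat.add (f x7526) (Nat.add (f x7528) (Nat.add (f x7530) (Nat.add (f x7586) (Nat.add (f x7604)
    (Nat.add (f x7610) (Nat.add (f x7612) (Nat.add (f x7640) (Nat.add (f x7658) (Nat.add (f x7664)
    (Nat.add (f x7666) (Nat.add (f x7676) (Nat.add (f x7682) (Nat.add (f x7684) (Nat.add (f x7688)
    (Nat.add (f x7690) (Nat.add (f x7692) (Nat.add (f x7712) (Nat.add (f x7718) (Nat.add (f x7720)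
    (Nat.add (f x7730) (Nat.add (f x7736) (Nat.add (f x7738) (Nat.add (f x7742) (Nat.add (f x7744)
    (Nat.add (f x7746) (Nat.add (f x7754) (Nat.add (f x7756) (Nat.add (f x7760) (Nat.add (f x7762)
    (Nat.add (f x7764) (Nat.add (f x7768) (Nat.add (f x7770) (Nat.add (f x7802) (Nat.add (f x7820)
    (Nat.add (f x7826) (Nat.add (f x7828) (Nat.add (f x7838) (Nat.add (f x7844) (Nat.add (f x7846)
    (Nat.add (f x7850) (Nat.add (f x7852) (Nat.add (f x7854) (Nat.add (f x7874) (Nat.add (f x7880)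
    (Nat.add (f x7882) (Nat.add (f x7892) (Nat.add (f x7898) (Nat.add (f x7900) (Nat.add (f x7904)
    (Nat.add (f x7906) (Nat.add (f x7908) (Nat.add (f x7916) (Nat.add (f x7918)
    0)))))))))))))))))))))))))))))))))))))))))))))))))))))))))))) (Nat.add (Nat.add (f x7922)
    (Nat.add (f x7924) (Nat.add (f x7926) (Nat.add (f x7930) (Nat.add (f x7932) (Nat.add (f x7946)
    (Nat.add (f x7952) (Nat.add (f x7954) (Nat.add (f x7958) (Nat.add (f x7960) (Nat.add (f x7962)
    (Nat.add (f x7970) (Nat.add (f x7972) (Nat.add (f x7976) (Nat.add (f x7978) (Nat.add (f x7980)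
    (Nat.add (f x7984) (Nat.add (f x7986) (Nat.add (f x7994) (Nat.add (f x7996) (Nat.add (f x7998)
    (Nat.add (f x8002) (Nat.add (f x8004) (Nat.add (f x8010) (Nat.add (f x8072) (Nat.add (f x8090)
    (Nat.add (f x8096) (Nat.add (f x8098) (Nat.add (f x8126) (Nat.add (f x8144) (Nat.add (f x8150)
    (Nat.add (f x8152) (Nat.add (f x8162) (Nat.add (f x8168) (Nat.add (f x8170) (Nat.add (f x8174)
    (Nat.add (f x8176) (Nat.add (f x8178) (Nat.add (f x8198) (Nat.add (f x8204) (Nat.add (f x8206)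
    (Nat.add (f x8216) (Nat.add (f x8222) (Nat.add (f x8224) (Nat.add (f x8228) (Nat.add (f x8230)
    (Nat.add (f x8232) (Nat.add (f x8240) (Nat.add (f x8242) (Nat.add (f x8246) (Nat.add (f x8248)
    (Nat.add (f x8250) (Nat.add (f x8254) (Nat.add (f x8256) (Nat.add (f x8288) (Nat.add (f x8306)
    (Nat.add (f x8312) (Nat.add (f x8314) (Nat.add (f x8324) (Nat.add (f x8330)
    0)))))))))))))))))))))))))))))))))))))))))))))))))))))))))))) (Nat.add (Nat.add (f x8332)
    (Nat.add (f x8336) (Nat.add (f x8338) (Nat.add (f x8340) (Nat.add (f x8360) (Nat.add (f x8366)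
    (Nat.add (f x8368) (Nat.add (f x8378) (Nat.add (f x8384) (Nat.add (f x8386) (Nat.add (f x8390)
    (Nat.add (f x8392) (Nat.add (f x8394) (Nat.add (f x8402) (Nat.add (f x8404) (Nat.add (f x8408)
    (Nat.add (f x8410) (Nat.add (f x8412) (Nat.add (f x8416) (Nat.add (f x8418) (Nat.add (f x8432)
    (Nat.add (f x8438) (Nat.add (f x8440) (Nat.add (f x8444) (Nat.add (f x8446) (Nat.add (f x8448)
    (Nat.add (f x8456) (Nat.add (f x8458) (Nat.add (f x8462) (Nat.add (f x8464) (Nat.add (f x8466)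
    (Nat.add (f x8470) (Nat.add (f x8472) (Nat.add (f x8480) (Nat.add (f x8482) (Nat.add (f x8484)
    (Nat.add (f x8488) (Nat.add (f x8490) (Nat.add (f x8496) (Nat.add (f x8522) (Nat.add (f x8528)
    (Nat.add (f x8530) (Nat.add (f x8540) (Nat.add (f x8546) (Nat.add (f x8548) (Nat.add (f x8552)
    (Nat.add (f x8554) (Nat.add (f x8556) (Nat.add (f x8564) (Nat.add (f x8566) (Nat.add (f x8570)
    (Nat.add (f x8572) (Nat.add (f x8574) (Nat.add (f x8578) (Nat.add (f x8580) (Nat.add (f x8594)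
    (Nat.add (f x8600) (Nat.add (f x8602) (Nat.add (f x8606) (Nat.add (f x8608)
    0)))))))))))))))))))))))))))))))))))))))))))))))))))))))))))) (Nat.add (Nat.add (f x8610)
    (Nat.add (f x8618) (Nat.add (f x8620) (Nat.add (f x8624) (Nat.add (f x8626) (Nat.add (f x8628)
    (Nat.add (f x8632) (Nat.add (f x8634) (Nat.add (f x8642) (Nat.add (f x8644) (Nat.add (f x8646)
    (Nat.add (f x8650) (Nat.add (f x8652) (Nat.add (f x8658) (Nat.add (f x8672) (Nat.add (f x8674)
    (Nat.add (f x8678) (Nat.add (f x8680) (Nat.add (f x8682) (Nat.add (f x8686) (Nat.add (f x8688)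
    (Nat.add (f x8696) (Nat.add (f x8698) (Nat.add (f x8700) (Nat.add (f x8704) (Nat.add (f x8706)
    (Nat.add (f x8712) (Nat.add (f x8722) (Nat.add (f x8724) (Nat.add (f x8730) (Nat.add (f x8828)
    (Nat.add (f x8882) (Nat.add (f x8900) (Nat.add (f x8906) (Nat.add (f x8908) (Nat.add (f x8936)
    (Nat.add (f x8954) (Nat.add (f x8960) (Nat.add (f x8962) (Nat.add (f x8972) (Nat.add (f x8978)
    (Nat.add (f x8980) (Nat.add (f x8984) (Nat.add (f x8986) (Nat.add (f x8988) (Nat.add (f x9044)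
    (Nat.add (f x9062) (Nat.add (f x9068) (Nat.add (f x9070) (Nat.add (f x9098) (Nat.add (f x9116)
    (Nat.add (f x9122) (Nat.add (f x9124) (Nat.add (f x9134) (Nat.add (f x9140) (Nat.add (f x9142)
    (Nat.add (f x9146) (Nat.add (f x9148) (Nat.add (f x9150) (Nat.add (f x9170)
    0)))))))))))))))))))))))))))))))))))))))))))))))))))))))))))) (Nat.add (Nat.add (f x9176)
    (Nat.add (f x9178) (Nat.add (f x9188) (Nat.add (f x9194) (Nat.add (f x9196) (Nat.add (f x9200)
    (Nat.add (f x9202) (Nat.add (f x9204) (Nat.add (f x9212) (Nat.add (f x9214) (Nat.add (f x9218)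
    (Nat.add (f x9220) (Nat.add (f x9222) (Nat.add (f x9226) (Nat.add (f x9228) (Nat.add (f x9260)
    (Nat.add (f x9278) (Nat.add (f x9284) (Nat.add (f x9286) (Nat.add (f x9296) (Nat.add (f x9302)
    (Nat.add (f x9304) (Nat.add (f x9308) (Nat.add (f x9310) (Nat.add (f x9312) (Nat.add (f x9332)
    (Nat.add (f x9338) (Nat.add (f x9340) (Nat.add (f x9350) (Nat.add (f x9356) (Nat.add (f x9358)
    (Nat.add (f x9362) (Nat.add (f x9364) (Nat.add (f x9366) (Nat.add (f x9374) (Nat.add (f x9376)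
    (Nat.add (f x9380) (Nat.add (f x9382) (Nat.add (f x9384) (Nat.add (f x9388) (Nat.add (f x9390)
    (Nat.add (f x9404) (Nat.add (f x9410) (Nat.add (f x9412) (Nat.add (f x9416) (Nat.add (f x9418)
    (Nat.add (f x9420) (Nat.add (f x9428) (Nat.add (f x9430) (Nat.add (f x9434) (Nat.add (f x9436)
    (Nat.add (f x9438) (Nat.add (f x9442) (Nat.add (f x9444) (Nat.add (f x9452) (Nat.add (f x9454)
    (Nat.add (f x9456) (Nat.add (f x9460) (Nat.add (f x9462) (Nat.add (f x9468)
    0)))))))))))))))))))))))))))))))))))))))))))))))))))))))))))) (Nat.add (Nat.add (f x9530)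
    (Nat.add (f x9548) (Nat.add (f x9554) (Nat.add (f x9556) (Nat.add (f x9584) (Nat.add (f x9602)
    (Nat.add (f x9608) (Nat.add (f x9610) (Nat.add (f x9620) (Nat.add (f x9626) (Nat.add (f x9628)
    (Nat.add (f x9632) (Nat.add (f x9634) (Nat.add (f x9636) (Nat.add (f x9656) (Nat.add (f x9662)
    (Nat.add (f x9664) (Nat.add (f x9674) (Nat.add (f x9680) (Nat.add (f x9682) (Nat.add (f x9686)
    (Nat.add (f x9688) (Nat.add (f x9690) (Nat.add (f x9698) (Nat.add (f x9700) (Nat.add (f x9704)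
    (Nat.add (f x9706) (Nat.add (f x9708) (Nat.add (f x9712) (Nat.add (f x9714) (Nat.add (f x9746)
    (Nat.add (f x9764) (Nat.add (f x9770) (Nat.add (f x9772) (Nat.add (f x9782) (Nat.add (f x9788)
    (Nat.add (f x9790) (Nat.add (f x9794) (Nat.add (f x9796) (Nat.add (f x9798) (Nat.add (f x9818)
    (Nat.add (f x9824) (Nat.add (f x9826) (Nat.add (f x9836) (Nat.add (f x9842) (Nat.add (f x9844)
    (Nat.add (f x9848) (Nat.add (f x9850) (Nat.add (f x9852) (Nat.add (f x9860) (Nat.add (f x9862)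
    (Nat.add (f x9866) (Nat.add (f x9868) (Nat.add (f x9870) (Nat.add (f x9874) (Nat.add (f x9876)
    (Nat.add (f x9890) (Nat.add (f x9896) (Nat.add (f x9898) (Nat.add (f x9902)
    0)))))))))))))))))))))))))))))))))))))))))))))))))))))))))))) (Nat.add (Nat.add (f x9904)
    (Nat.add (f x9906) (Nat.add (f x9914) (Nat.add (f x9916) (Nat.add (f x9920) (Nat.add (f x9922)
    (Nat.add (f x9924) (Nat.add (f x9928) (Nat.add (f x9930) (Nat.add (f x9938) (Nat.add (f x9940)
    (Nat.add (f x9942) (Nat.add (f x9946) (Nat.add (f x9948) (Nat.add (f x9954) (Nat.add (f x9980)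
    (Nat.add (f x9986) (Nat.add (f x9988) (Nat.add (f x9998) (Nat.add (f x10004) (Nat.add
    (f x10006) (Nat.add (f x10010) (Nat.add (f x10012) (Nat.add (f x10014) (Nat.add (f x10022)
    (Nat.add (f x10024) (Nat.add (f x10028) (Nat.add (f x10030) (Nat.add (f x10032) (Nat.add
    (f x10036) (Nat.add (f x10038) (Nat.add (f x10052) (Nat.add (f x10058) (Nat.add (f x10060)
    (Nat.add (f x10064) (Nat.add (f x10066) (Nat.add (f x10068) (Nat.add (f x10076) (Nat.add
    (f x10078) (Nat.add (f x10082) (Nat.add (f x10084) (Nat.add (f x10086) (Nat.add (f x10090)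
    (Nat.add (f x10092) (Nat.add (f x10100) (Nat.add (f x10102) (Nat.add (f x10104) (Nat.add
    (f x10108) (Nat.add (f x10110) (Nat.add (f x10116) (Nat.add (f x10130) (Nat.add (f x10132)
    (Nat.add (f x10136) (Nat.add (f x10138) (Nat.add (f x10140) (Nat.add (f x10144) (Nat.add
    (f x10146) (Nat.add (f x10154) (Nat.add (f x10156) (Nat.add (f x10158)
    0)))))))))))))))))))))))))))))))))))))))))))))))))))))))))))) (Nat.add (Nat.add (f x10162)
    (Nat.add (f x10164) (Nat.add (f x10170) (Nat.add (f x10180) (Nat.add (f x10182) (Nat.add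
    (f x10188) (Nat.add (f x10232) (Nat.add (f x10250) (Nat.add (f x10256) (Nat.add (f x10258)
    (Nat.add (f x10268) (Nat.add (f x10274) (Nat.add (f x10276) (Nat.add (f x10280) (Nat.add
    (f x10282) (Nat.add (f x10284) (Nat.add (f x10304) (Nat.add (f x10310) (Nat.add (f x10312)
    (Nat.add (f x10322) (Nat.add (f x10328) (Nat.add (f x10330) (Nat.add (f x10334) (Nat.add
    (f x10336) (Nat.add (f x10338) (Nat.add (f x10346) (Nat.add (f x10348) (Nat.add (f x10352)
    (Nat.add (f x10354) (Nat.add (f x10356) (Nat.add (f x10360) (Nat.add (f x10362) (Nat.add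
    (f x10376) (Nat.add (f x10382) (Nat.add (f x10384) (Nat.add (f x10388) (Nat.add (f x10390)
    (Nat.add (f x10392) (Nat.add (f x10400) (Nat.add (f x10402) (Nat.add (f x10406) (Nat.add
    (f x10408) (Nat.add (f x10410) (Nat.add (f x10414) (Nat.add (f x10416) (Nat.add (f x10424)
    (Nat.add (f x10426) (Nat.add (f x10428) (Nat.add (f x10432) (Nat.add (f x10434) (Nat.add
    (f x10440) (Nat.add (f x10466) (Nat.add (f x10472) (Nat.add (f x10474) (Nat.add (f x10484)
    (Nat.add (f x10490) (Nat.add (f x10492) (Nat.add (f x10496) (Nat.add (f x10498) (Nat.add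
    (f x10500) 0)))))))))))))))))))))))))))))))))))))))))))))))))))))))))))) (Nat.add (Nat.add
    (f x10508) (Nat.add (f x10510) (Nat.add (f x10514) (Nat.add (f x10516) (Nat.add (f x10518)
    (Nat.add (f x10522) (Nat.add (f x10524) (Nat.add (f x10538) (Nat.add (f x10544) (Nat.add
    (f x10546) (Nat.add (f x10550) (Nat.add (f x10552) (Nat.add (f x10554) (Nat.add (f x10562)
    (Nat.add (f x10564) (Nat.add (f x10568) (Nat.add (f x10570) (Nat.add (f x10572) (Nat.add
    (f x10576) (Nat.add (f x10578) (Nat.add (f x10586) (Nat.add (f x10588) (Nat.add (f x10590)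
    (Nat.add (f x10594) (Nat.add (f x10596) (Nat.add (f x10602) (Nat.add (f x10616) (Nat.add
    (f x10618) (Nat.add (f x10622) (Nat.add (f x10624) (Nat.add (f x10626) (Nat.add (f x10630)
    (Nat.add (f x10632) (Nat.add (f x10640) (Nat.add (f x10642) (Nat.add (f x10644) (Nat.add
    (f x10648) (Nat.add (f x10650) (Nat.add (f x10656) (Nat.add (f x10666) (Nat.add (f x10668)
    (Nat.add (f x10674) (Nat.add (f x10700) (Nat.add (f x10706) (Nat.add (f x10708) (Nat.add
    (f x10712) (Nat.add (f x10714) (Nat.add (f x10716) (Nat.add (f x10724) (Nat.add (f x10726)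
    (Nat.add (f x10730) (Nat.add (f x10732) (Nat.add (f x10734) (Nat.add (f x10738) (Nat.add
    (f x10740) (Nat.add (f x10748) (Nat.add (f x10750) (Nat.add (f x10752) (Nat.add (f x10756)
    (Nat.add (f x10758) 0)))))))))))))))))))))))))))))))))))))))))))))))))))))))))))) (Nat.add
    (Nat.add (f x10764) (Nat.add (f x10778) (Nat.add (f x10780) (Nat.add (f x10784) (Nat.add
    (f x10786) (Nat.add (f x10788) (Nat.add (f x10792) (Nat.add (f x10794) (Nat.add (f x10802)
    (Nat.add (f x10804) (Nat.add (f x10806) (Nat.add (f x10810) (Nat.add (f x10812) (Nat.add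
    (f x10818) (Nat.add (f x10828) (Nat.add (f x10830) (Nat.add (f x10836) (Nat.add (f x10856)
    (Nat.add (f x10858) (Nat.add (f x10860) (Nat.add (f x10864) (Nat.add (f x10866) (Nat.add
    (f x10872) (Nat.add (f x10882) (Nat.add (f x10884) (Nat.add (f x10890) (Nat.add (f x10908)
    (Nat.add (f x10988) (Nat.add (f x11006) (Nat.add (f x11012) (Nat.add (f x11014) (Nat.add
    (f x11042) (Nat.add (f x11060) (Nat.add (f x11066) (Nat.add (f x11068) (Nat.add (f x11078)
    (Nat.add (f x11084) (Nat.add (f x11086) (Nat.add (f x11090) (Nat.add (f x11092) (Nat.add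
    (f x11094) (Nat.add (f x11114) (Nat.add (f x11120) (Nat.add (f x11122) (Nat.add (f x11132)
    (Nat.add (f x11138) (Nat.add (f x11140) (Nat.add (f x11144) (Nat.add (f x11146) (Nat.add
    (f x11148) (Nat.add (f x11156) (Nat.add (f x11158) (Nat.add (f x11162) (Nat.add (f x11164)
    (Nat.add (f x11166) (Nat.add (f x11170) (Nat.add (f x11172) (Nat.add (f x11204) (Nat.add
    (f x11222) (Nat.add (f x11228) 0))))))))))))))))))))))))))))))))))))))))))))))))))))))))))))
    (Nat.add (Nat.add (f x11230) (Nat.add (f x11240) (Nat.add (f x11246) (Nat.add (f x11248)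
    (Nat.add (f x11252) (Nat.add (f x11254) (Nat.add (f x11256) (Nat.add (f x11276) (Nat.add
    (f x11282) (Nat.add (f x11284) (Nat.add (f x11294) (Nat.add (f x11300) (Nat.add (f x11302)
    (Nat.add (f x11306) (Nat.add (f x11308) (Nat.add (f x11310) (Nat.add (f x11318) (Nat.add
    (f x11320) (Nat.add (f x11324) (Nat.add (f x11326) (Nat.add (f x11328) (Nat.add (f x11332)
    (Nat.add (f x11334) (Nat.add (f x11348) (Nat.add (f x11354) (Nat.add (f x11356) (Nat.add
    (f x11360) (Nat.add (f x11362) (Nat.add (f x11364) (Nat.add (f x11372) (Nat.add (f x11374)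
    (Nat.add (f x11378) (Nat.add (f x11380) (Nat.add (f x11382) (Nat.add (f x11386) (Nat.add
    (f x11388) (Nat.add (f x11396) (Nat.add (f x11398) (Nat.add (f x11400) (Nat.add (f x11404)
    (Nat.add (f x11406) (Nat.add (f x11412) (Nat.add (f x11438) (Nat.add (f x11444) (Nat.add
    (f x11446) (Nat.add (f x11456) (Nat.add (f x11462) (Nat.add (f x11464) (Nat.add (f x11468)
    (Nat.add (f x11470) (Nat.add (f x11472) (Nat.add (f x11480) (Nat.add (f x11482) (Nat.add
    (f x11486) (Nat.add (f x11488) (Nat.add (f x11490) (Nat.add (f x11494) (Nat.add (f x11496)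
    (Nat.add (f x11510) (Nat.add (f x11516)
    0)))))))))))))))))))))))))))))))))))))))))))))))))))))))))))) (Nat.add (Nat.add (f x11518)
    (Nat.add (f x11522) (Nat.add (f x11524) (Nat.add (f x11526) (Nat.add (f x11534) (Nat.add
    (f x11536) (Nat.add (f x11540) (Nat.add (f x11542) (Nat.add (f x11544) (Nat.add (f x11548)
    (Nat.add (f x11550) (Nat.add (f x11558) (Nat.add (f x11560) (Nat.add (f x11562) (Nat.add
    (f x11566) (Nat.add (f x11568) (Nat.add (f x11574) (Nat.add (f x11588) (Nat.add (f x11590)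
    (Nat.add (f x11594) (Nat.add (f x11596) (Nat.add (f x11598) (Nat.add (f x11602) (Nat.add
    (f x11604) (Nat.add (f x11612) (Nat.add (f x11614) (Nat.add (f x11616) (Nat.add (f x11620)
    (Nat.add (f x11622) (Nat.add (f x11628) (Nat.add (f x11638) (Nat.add (f x11640) (Nat.add
    (f x11646) (Nat.add (f x11690) (Nat.add (f x11708) (Nat.add (f x11714) (Nat.add (f x11716)
    (Nat.add (f x11726) (Nat.add (f x11732) (Nat.add (f x11734) (Nat.add (f x11738) (Nat.add
    (f x11740) (Nat.add (f x11742) (Nat.add (f x11762) (Nat.add (f x11768) (Nat.add (f x11770)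
    (Nat.add (f x11780) (Nat.add (f x11786) (Nat.add (f x11788) (Nat.add (f x11792) (Nat.add
    (f x11794) (Nat.add (f x11796) (Nat.add (f x11804) (Nat.add (f x11806) (Nat.add (f x11810)
    (Nat.add (f x11812) (Nat.add (f x11814) (Nat.add (f x11818) (Nat.add (f x11820) (Nat.add
    (f x11834) 0)))))))))))))))))))))))))))))))))))))))))))))))))))))))))))) (Nat.add (Nat.add
    (f x11840) (Nat.add (f x11842) (Nat.add (f x11846) (Nat.add (f x11848) (Nat.add (f x11850)
    (Nat.add (f x11858) (Nat.add (f x11860) (Nat.add (f x11864) (Nat.add (f x11866) (Nat.add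
    (f x11868) (Nat.add (f x11872) (Nat.add (f x11874) (Nat.add (f x11882) (Nat.add (f x11884)
    (Nat.add (f x11886) (Nat.add (f x11890) (Nat.add (f x11892) (Nat.add (f x11898) (Nat.add
    (f x11924) (Nat.add (f x11930) (Nat.add (f x11932) (Nat.add (f x11942) (Nat.add (f x11948)
    (Nat.add (f x11950) (Nat.add (f x11954) (Nat.add (f x11956) (Nat.add (f x11958) (Nat.add
    (f x11966) (Nat.add (f x11968) (Nat.add (f x11972) (Nat.add (f x11974) (Nat.add (f x11976)
    (Nat.add (f x11980) (Nat.add (f x11982) (Nat.add (f x11996) (Nat.add (f x12002) (Nat.add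
    (f x12004) (Nat.add (f x12008) (Nat.add (f x12010) (Nat.add (f x12012) (Nat.add (f x12020)
    (Nat.add (f x12022) (Nat.add (f x12026) (Nat.add (f x12028) (Nat.add (f x12030) (Nat.add
    (f x12034) (Nat.add (f x12036) (Nat.add (f x12044) (Nat.add (f x12046) (Nat.add (f x12048)
    (Nat.add (f x12052) (Nat.add (f x12054) (Nat.add (f x12060) (Nat.add (f x12074) (Nat.add
    (f x12076) (Nat.add (f x12080) (Nat.add (f x12082) (Nat.add (f x12084) (Nat.add (f x12088)
    (Nat.add (f x12090) 0)))))))))))))))))))))))))))))))))))))))))))))))))))))))))))) (Nat.add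
    (Nat.add (f x12098) (Nat.add (f x12100) (Nat.add (f x12102) (Nat.add (f x12106) (Nat.add
    (f x12108) (Nat.add (f x12114) (Nat.add (f x12124) (Nat.add (f x12126) (Nat.add (f x12132)
    (Nat.add (f x12158) (Nat.add (f x12164) (Nat.add (f x12166) (Nat.add (f x12170) (Nat.add
    (f x12172) (Nat.add (f x12174) (Nat.add (f x12182) (Nat.add (f x12184) (Nat.add (f x12188)
    (Nat.add (f x12190) (Nat.add (f x12192) (Nat.add (f x12196) (Nat.add (f x12198) (Nat.add
    (f x12206) (Nat.add (f x12208) (Nat.add (f x12210) (Nat.add (f x12214) (Nat.add (f x12216)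
    (Nat.add (f x12222) (Nat.add (f x12236) (Nat.add (f x12238) (Nat.add (f x12242) (Nat.add
    (f x12244) (Nat.add (f x12246) (Nat.add (f x12250) (Nat.add (f x12252) (Nat.add (f x12260)
    (Nat.add (f x12262) (Nat.add (f x12264) (Nat.add (f x12268) (Nat.add (f x12270) (Nat.add
    (f x12276) (Nat.add (f x12286) (Nat.add (f x12288) (Nat.add (f x12294) (Nat.add (f x12314)
    (Nat.add (f x12316) (Nat.add (f x12318) (Nat.add (f x12322) (Nat.add (f x12324) (Nat.add
    (f x12330) (Nat.add (f x12340) (Nat.add (f x12342) (Nat.add (f x12348) (Nat.add (f x12366)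
    (Nat.add (f x12410) (Nat.add (f x12416) (Nat.add (f x12418) (Nat.add (f x12428) (Nat.add
    (f x12434) (Nat.add (f x12436) 0))))))))))))))))))))))))))))))))))))))))))))))))))))))))))))
    (Nat.add (Nat.add (f x12440) (Nat.add (f x12442) (Nat.add (f x12444) (Nat.add (f x12452)
    (Nat.add (f x12454) (Nat.add (f x12458) (Nat.add (f x12460) (Nat.add (f x12462) (Nat.add
    (f x12466) (Nat.add (f x12468) (Nat.add (f x12482) (Nat.add (f x12488) (Nat.add (f x12490)
    (Nat.add (f x12494) (Nat.add (f x12496) (Nat.add (f x12498) (Nat.add (f x12506) (Nat.add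
    (f x12508) (Nat.add (f x12512) (Nat.add (f x12514) (Nat.add (f x12516) (Nat.add (f x12520)
    (Nat.add (f x12522) (Nat.add (f x12530) (Nat.add (f x12532) (Nat.add (f x12534) (Nat.add
    (f x12538) (Nat.add (f x12540) (Nat.add (f x12546) (Nat.add (f x12560) (Nat.add (f x12562)
    (Nat.add (f x12566) (Nat.add (f x12568) (Nat.add (f x12570) (Nat.add (f x12574) (Nat.add
    (f x12576) (Nat.add (f x12584) (Nat.add (f x12586) (Nat.add (f x12588) (Nat.add (f x12592)
    (Nat.add (f x12594) (Nat.add (f x12600) (Nat.add (f x12610) (Nat.add (f x12612) (Nat.add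
    (f x12618) (Nat.add (f x12644) (Nat.add (f x12650) (Nat.add (f x12652) (Nat.add (f x12656)
    (Nat.add (f x12658) (Nat.add (f x12660) (Nat.add (f x12668) (Nat.add (f x12670) (Nat.add
    (f x12674) (Nat.add (f x12676) (Nat.add (f x12678) (Nat.add (f x12682) (Nat.add (f x12684)
    (Nat.add (f x12692) (Nat.add (f x12694)
    0)))))))))))))))))))))))))))))))))))))))))))))))))))))))))))) (Nat.add (Nat.add (f x12696)
    (Nat.add (f x12700) (Nat.add (f x12702) (Nat.add (f x12708) (Nat.add (f x12722) (Nat.add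
    (f x12724) (Nat.add (f x12728) (Nat.add (f x12730) (Nat.add (f x12732) (Nat.add (f x12736)
    (Nat.add (f x12738) (Nat.add (f x12746) (Nat.add (f x12748) (Nat.add (f x12750) (Nat.add
    (f x12754) (Nat.add (f x12756) (Nat.add (f x12762) (Nat.add (f x12772) (Nat.add (f x12774)
    (Nat.add (f x12780) (Nat.add (f x12800) (Nat.add (f x12802) (Nat.add (f x12804) (Nat.add
    (f x12808) (Nat.add (f x12810) (Nat.add (f x12816) (Nat.add (f x12826) (Nat.add (f x12828)
    (Nat.add (f x12834) (Nat.add (f x12852) (Nat.add (f x12884) (Nat.add (f x12886) (Nat.add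
    (f x12890) (Nat.add (f x12892) (Nat.add (f x12894) (Nat.add (f x12898) (Nat.add (f x12900)
    (Nat.add (f x12908) (Nat.add (f x12910) (Nat.add (f x12912) (Nat.add (f x12916) (Nat.add
    (f x12918) (Nat.add (f x12924) (Nat.add (f x12934) (Nat.add (f x12936) (Nat.add (f x12942)
    (Nat.add (f x12962) (Nat.add (f x12964) (Nat.add (f x12966) (Nat.add (f x12970) (Nat.add
    (f x12972) (Nat.add (f x12978) (Nat.add (f x12988) (Nat.add (f x12990) (Nat.add (f x12996)
    (Nat.add (f x13014) (Nat.add (f x13042) (Nat.add (f x13044) (Nat.add (f x13050) (Nat.add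
    (f x13068) 0)))))))))))))))))))))))))))))))))))))))))))))))))))))))))))) (Nat.add (Nat.add
    (f x13202) (Nat.add (f x13256) (Nat.add (f x13274) (Nat.add (f x13280) (Nat.add (f x13282)
    (Nat.add (f x13310) (Nat.add (f x13328) (Nat.add (f x13334) (Nat.add (f x13336) (Nat.add
    (f x13346) (Nat.add (f x13352) (Nat.add (f x13354) (Nat.add (f x13358) (Nat.add (f x13360)
    (Nat.add (f x13362) (Nat.add (f x13418) (Nat.add (f x13436) (Nat.add (f x13442) (Nat.add
    (f x13444) (Nat.add (f x13472) (Nat.add (f x13490) (Nat.add (f x13496) (Nat.add (f x13498)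
    (Nat.add (f x13508) (Nat.add (f x13514) (Nat.add (f x13516) (Nat.add (f x13520) (Nat.add
    (f x13522) (Nat.add (f x13524) (Nat.add (f x13544) (Nat.add (f x13550) (Nat.add (f x13552)
    (Nat.add (f x13562) (Nat.add (f x13568) (Nat.add (f x13570) (Nat.add (f x13574) (Nat.add
    (f x13576) (Nat.add (f x13578) (Nat.add (f x13586) (Nat.add (f x13588) (Nat.add (f x13592)
    (Nat.add (f x13594) (Nat.add (f x13596) (Nat.add (f x13600) (Nat.add (f x13602) (Nat.add
    (f x13634) (Nat.add (f x13652) (Nat.add (f x13658) (Nat.add (f x13660) (Nat.add (f x13670)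
    (Nat.add (f x13676) (Nat.add (f x13678) (Nat.add (f x13682) (Nat.add (f x13684) (Nat.add
    (f x13686) (Nat.add (f x13706) (Nat.add (f x13712) (Nat.add (f x13714) (Nat.add (f x13724)
    (Nat.add (f x13730) 0)))))))))))))))))))))))))))))))))))))))))))))))))))))))))))) (Nat.add
    (Nat.add (f x13732) (Nat.add (f x13736) (Nat.add (f x13738) (Nat.add (f x13740) (Nat.add
    (f x13748) (Nat.add (f x13750) (Nat.add (f x13754) (Nat.add (f x13756) (Nat.add (f x13758)
    (Nat.add (f x13762) (Nat.add (f x13764) (Nat.add (f x13778) (Nat.add (f x13784) (Nat.add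
    (f x13786) (Nat.add (f x13790) (Nat.add (f x13792) (Nat.add (f x13794) (Nat.add (f x13802)
    (Nat.add (f x13804) (Nat.add (f x13808) (Nat.add (f x13810) (Nat.add (f x13812) (Nat.add
    (f x13816) (Nat.add (f x13818) (Nat.add (f x13826) (Nat.add (f x13828) (Nat.add (f x13830)
    (Nat.add (f x13834) (Nat.add (f x13836) (Nat.add (f x13842) (Nat.add (f x13904) (Nat.add
    (f x13922) (Nat.add (f x13928) (Nat.add (f x13930) (Nat.add (f x13958) (Nat.add (f x13976)
    (Nat.add (f x13982) (Nat.add (f x13984) (Nat.add (f x13994) (Nat.add (f x14000) (Nat.add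
    (f x14002) (Nat.add (f x14006) (Nat.add (f x14008) (Nat.add (f x14010) (Nat.add (f x14030)
    (Nat.add (f x14036) (Nat.add (f x14038) (Nat.add (f x14048) (Nat.add (f x14054) (Nat.add
    (f x14056) (Nat.add (f x14060) (Nat.add (f x14062) (Nat.add (f x14064) (Nat.add (f x14072)
    (Nat.add (f x14074) (Nat.add (f x14078) (Nat.add (f x14080) (Nat.add (f x14082) (Nat.add
    (f x14086) (Nat.add (f x14088) 0))))))))))))))))))))))))))))))))))))))))))))))))))))))))))))
    (Nat.add (Nat.add (f x14120) (Nat.add (f x14138) (Nat.add (f x14144) (Nat.add (f x14146)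
    (Nat.add (f x14156) (Nat.add (f x14162) (Nat.add (f x14164) (Nat.add (f x14168) (Nat.add
    (f x14170) (Nat.add (f x14172) (Nat.add (f x14192) (Nat.add (f x14198) (Nat.add (f x14200)
    (Nat.add (f x14210) (Nat.add (f x14216) (Nat.add (f x14218) (Nat.add (f x14222) (Nat.add
    (f x14224) (Nat.add (f x14226) (Nat.add (f x14234) (Nat.add (f x14236) (Nat.add (f x14240)
    (Nat.add (f x14242) (Nat.add (f x14244) (Nat.add (f x14248) (Nat.add (f x14250) (Nat.add
    (f x14264) (Nat.add (f x14270) (Nat.add (f x14272) (Nat.add (f x14276) (Nat.add (f x14278)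
    (Nat.add (f x14280) (Nat.add (f x14288) (Nat.add (f x14290) (Nat.add (f x14294) (Nat.add
    (f x14296) (Nat.add (f x14298) (Nat.add (f x14302) (Nat.add (f x14304) (Nat.add (f x14312)
    (Nat.add (f x14314) (Nat.add (f x14316) (Nat.add (f x14320) (Nat.add (f x14322) (Nat.add
    (f x14328) (Nat.add (f x14354) (Nat.add (f x14360) (Nat.add (f x14362) (Nat.add (f x14372)
    (Nat.add (f x14378) (Nat.add (f x14380) (Nat.add (f x14384) (Nat.add (f x14386) (Nat.add
    (f x14388) (Nat.add (f x14396) (Nat.add (f x14398) (Nat.add (f x14402) (Nat.add (f x14404)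
    (Nat.add (f x14406) (Nat.add (f x14410)
    0)))))))))))))))))))))))))))))))))))))))))))))))))))))))))))) (Nat.add (Nat.add (f x14412)
    (Nat.add (f x14426) (Nat.add (f x14432) (Nat.add (f x14434) (Nat.add (f x14438) (Nat.add
    (f x14440) (Nat.add (f x14442) (Nat.add (f x14450) (Nat.add (f x14452) (Nat.add (f x14456)
    (Nat.add (f x14458) (Nat.add (f x14460) (Nat.add (f x14464) (Nat.add (f x14466) (Nat.add
    (f x14474) (Nat.add (f x14476) (Nat.add (f x14478) (Nat.add (f x14482) (Nat.add (f x14484)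
    (Nat.add (f x14490) (Nat.add (f x14504) (Nat.add (f x14506) (Nat.add (f x14510) (Nat.add
    (f x14512) (Nat.add (f x14514) (Nat.add (f x14518) (Nat.add (f x14520) (Nat.add (f x14528)
    (Nat.add (f x14530) (Nat.add (f x14532) (Nat.add (f x14536) (Nat.add (f x14538) (Nat.add
    (f x14544) (Nat.add (f x14554) (Nat.add (f x14556) (Nat.add (f x14562) (Nat.add (f x14606)
    (Nat.add (f x14624) (Nat.add (f x14630) (Nat.add (f x14632) (Nat.add (f x14642) (Nat.add
    (f x14648) (Nat.add (f x14650) (Nat.add (f x14654) (Nat.add (f x14656) (Nat.add (f x14658)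
    (Nat.add (f x14678) (Nat.add (f x14684) (Nat.add (f x14686) (Nat.add (f x14696) (Nat.add
    (f x14702) (Nat.add (f x14704) (Nat.add (f x14708) (Nat.add (f x14710) (Nat.add (f x14712)
    (Nat.add (f x14720) (Nat.add (f x14722) (Nat.add (f x14726) (Nat.add (f x14728) (Nat.add
    (f x14730) 0)))))))))))))))))))))))))))))))))))))))))))))))))))))))))))) (Nat.add (Nat.add
    (f x14734) (Nat.add (f x14736) (Nat.add (f x14750) (Nat.add (f x14756) (Nat.add (f x14758)
    (Nat.add (f x14762) (Nat.add (f x14764) (Nat.add (f x14766) (Nat.add (f x14774) (Nat.add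
    (f x14776) (Nat.add (f x14780) (Nat.add (f x14782) (Nat.add (f x14784) (Nat.add (f x14788)
    (Nat.add (f x14790) (Nat.add (f x14798) (Nat.add (f x14800) (Nat.add (f x14802) (Nat.add
    (f x14806) (Nat.add (f x14808) (Nat.add (f x14814) (Nat.add (f x14840) (Nat.add (f x14846)
    (Nat.add (f x14848) (Nat.add (f x14858) (Nat.add (f x14864) (Nat.add (f x14866) (Nat.add
    (f x14870) (Nat.add (f x14872) (Nat.add (f x14874) (Nat.add (f x14882) (Nat.add (f x14884)
    (Nat.add (f x14888) (Nat.add (f x14890) (Nat.add (f x14892) (Nat.add (f x14896) (Nat.add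
    (f x14898) (Nat.add (f x14912) (Nat.add (f x14918) (Nat.add (f x14920) (Nat.add (f x14924)
    (Nat.add (f x14926) (Nat.add (f x14928) (Nat.add (f x14936) (Nat.add (f x14938) (Nat.add
    (f x14942) (Nat.add (f x14944) (Nat.add (f x14946) (Nat.add (f x14950) (Nat.add (f x14952)
    (Nat.add (f x14960) (Nat.add (f x14962) (Nat.add (f x14964) (Nat.add (f x14968) (Nat.add
    (f x14970) (Nat.add (f x14976) (Nat.add (f x14990) (Nat.add (f x14992) (Nat.add (f x14996)
    (Nat.add (f x14998) 0)))))))))))))))))))))))))))))))))))))))))))))))))))))))))))) (Nat.add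
    (Nat.add (f x15000) (Nat.add (f x15004) (Nat.add (f x15006) (Nat.add (f x15014) (Nat.add
    (f x15016) (Nat.add (f x15018) (Nat.add (f x15022) (Nat.add (f x15024) (Nat.add (f x15030)
    (Nat.add (f x15040) (Nat.add (f x15042) (Nat.add (f x15048) (Nat.add (f x15074) (Nat.add
    (f x15080) (Nat.add (f x15082) (Nat.add (f x15086) (Nat.add (f x15088) (Nat.add (f x15090)
    (Nat.add (f x15098) (Nat.add (f x15100) (Nat.add (f x15104) (Nat.add (f x15106) (Nat.add
    (f x15108) (Nat.add (f x15112) (Nat.add (f x15114) (Nat.add (f x15122) (Nat.add (f x15124)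
    (Nat.add (f x15126) (Nat.add (f x15130) (Nat.add (f x15132) (Nat.add (f x15138) (Nat.add
    (f x15152) (Nat.add (f x15154) (Nat.add (f x15158) (Nat.add (f x15160) (Nat.add (f x15162)
    (Nat.add (f x15166) (Nat.add (f x15168) (Nat.add (f x15176) (Nat.add (f x15178) (Nat.add
    (f x15180) (Nat.add (f x15184) (Nat.add (f x15186) (Nat.add (f x15192) (Nat.add (f x15202)
    (Nat.add (f x15204) (Nat.add (f x15210) (Nat.add (f x15230) (Nat.add (f x15232) (Nat.add
    (f x15234) (Nat.add (f x15238) (Nat.add (f x15240) (Nat.add (f x15246) (Nat.add (f x15256)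
    (Nat.add (f x15258) (Nat.add (f x15264) (Nat.add (f x15282) (Nat.add (f x15362) (Nat.add
    (f x15380) (Nat.add (f x15386) 0))))))))))))))))))))))))))))))))))))))))))))))))))))))))))))
    (Nat.add (Nat.add (f x15388) (Nat.add (f x15416) (Nat.add (f x15434) (Nat.add (f x15440)
    (Nat.add (f x15442) (Nat.add (f x15452) (Nat.add (f x15458) (Nat.add (f x15460) (Nat.add
    (f x15464) (Nat.add (f x15466) (Nat.add (f x15468) (Nat.add (f x15488) (Nat.add (f x15494)
    (Nat.add (f x15496) (Nat.add (f x15506) (Nat.add (f x15512) (Nat.add (f x15514) (Nat.add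
    (f x15518) (Nat.add (f x15520) (Nat.add (f x15522) (Nat.add (f x15530) (Nat.add (f x15532)
    (Nat.add (f x15536) (Nat.add (f x15538) (Nat.add (f x15540) (Nat.add (f x15544) (Nat.add
    (f x15546) (Nat.add (f x15578) (Nat.add (f x15596) (Nat.add (f x15602) (Nat.add (f x15604)
    (Nat.add (f x15614) (Nat.add (f x15620) (Nat.add (f x15622) (Nat.add (f x15626) (Nat.add
    (f x15628) (Nat.add (f x15630) (Nat.add (f x15650) (Nat.add (f x15656) (Nat.add (f x15658)
    (Nat.add (f x15668) (Nat.add (f x15674) (Nat.add (f x15676) (Nat.add (f x15680) (Nat.add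
    (f x15682) (Nat.add (f x15684) (Nat.add (f x15692) (Nat.add (f x15694) (Nat.add (f x15698)
    (Nat.add (f x15700) (Nat.add (f x15702) (Nat.add (f x15706) (Nat.add (f x15708) (Nat.add
    (f x15722) (Nat.add (f x15728) (Nat.add (f x15730) (Nat.add (f x15734) (Nat.add (f x15736)
    (Nat.add (f x15738) (Nat.add (f x15746)
    0)))))))))))))))))))))))))))))))))))))))))))))))))))))))))))) (Nat.add (Nat.add (f x15748)
    (Nat.add (f x15752) (Nat.add (f x15754) (Nat.add (f x15756) (Nat.add (f x15760) (Nat.add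
    (f x15762) (Nat.add (f x15770) (Nat.add (f x15772) (Nat.add (f x15774) (Nat.add (f x15778)
    (Nat.add (f x15780) (Nat.add (f x15786) (Nat.add (f x15812) (Nat.add (f x15818) (Nat.add
    (f x15820) (Nat.add (f x15830) (Nat.add (f x15836) (Nat.add (f x15838) (Nat.add (f x15842)
    (Nat.add (f x15844) (Nat.add (f x15846) (Nat.add (f x15854) (Nat.add (f x15856) (Nat.add
    (f x15860) (Nat.add (f x15862) (Nat.add (f x15864) (Nat.add (f x15868) (Nat.add (f x15870)
    (Nat.add (f x15884) (Nat.add (f x15890) (Nat.add (f x15892) (Nat.add (f x15896) (Nat.add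
    (f x15898) (Nat.add (f x15900) (Nat.add (f x15908) (Nat.add (f x15910) (Nat.add (f x15914)
    (Nat.add (f x15916) (Nat.add (f x15918) (Nat.add (f x15922) (Nat.add (f x15924) (Nat.add
    (f x15932) (Nat.add (f x15934) (Nat.add (f x15936) (Nat.add (f x15940) (Nat.add (f x15942)
    (Nat.add (f x15948) (Nat.add (f x15962) (Nat.add (f x15964) (Nat.add (f x15968) (Nat.add
    (f x15970) (Nat.add (f x15972) (Nat.add (f x15976) (Nat.add (f x15978) (Nat.add (f x15986)
    (Nat.add (f x15988) (Nat.add (f x15990) (Nat.add (f x15994) (Nat.add (f x15996) (Nat.add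
    (f x16002) 0)))))))))))))))))))))))))))))))))))))))))))))))))))))))))))) (Nat.add (Nat.add
    (f x16012) (Nat.add (f x16014) (Nat.add (f x16020) (Nat.add (f x16064) (Nat.add (f x16082)
    (Nat.add (f x16088) (Nat.add (f x16090) (Nat.add (f x16100) (Nat.add (f x16106) (Nat.add
    (f x16108) (Nat.add (f x16112) (Nat.add (f x16114) (Nat.add (f x16116) (Nat.add (f x16136)
    (Nat.add (f x16142) (Nat.add (f x16144) (Nat.add (f x16154) (Nat.add (f x16160) (Nat.add
    (f x16162) (Nat.add (f x16166) (Nat.add (f x16168) (Nat.add (f x16170) (Nat.add (f x16178)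
    (Nat.add (f x16180) (Nat.add (f x16184) (Nat.add (f x16186) (Nat.add (f x16188) (Nat.add
    (f x16192) (Nat.add (f x16194) (Nat.add (f x16208) (Nat.add (f x16214) (Nat.add (f x16216)
    (Nat.add (f x16220) (Nat.add (f x16222) (Nat.add (f x16224) (Nat.add (f x16232) (Nat.add
    (f x16234) (Nat.add (f x16238) (Nat.add (f x16240) (Nat.add (f x16242) (Nat.add (f x16246)
    (Nat.add (f x16248) (Nat.add (f x16256) (Nat.add (f x16258) (Nat.add (f x16260) (Nat.add
    (f x16264) (Nat.add (f x16266) (Nat.add (f x16272) (Nat.add (f x16298) (Nat.add (f x16304)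
    (Nat.add (f x16306) (Nat.add (f x16316) (Nat.add (f x16322) (Nat.add (f x16324) (Nat.add
    (f x16328) (Nat.add (f x16330) (Nat.add (f x16332) (Nat.add (f x16340) (Nat.add (f x16342)
    (Nat.add (f x16346) 0)))))))))))))))))))))))))))))))))))))))))))))))))))))))))))) (Nat.add
    (Nat.add (f x16348) (Nat.add (f x16350) (Nat.add (f x16354) (Nat.add (f x16356) (Nat.add
    (f x16370) (Nat.add (f x16376) (Nat.add (f x16378) (Nat.add (f x16382) (Nat.add (f x16384)
    (Nat.add (f x16386) (Nat.add (f x16394) (Nat.add (f x16396) (Nat.add (f x16400) (Nat.add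
    (f x16402) (Nat.add (f x16404) (Nat.add (f x16408) (Nat.add (f x16410) (Nat.add (f x16418)
    (Nat.add (f x16420) (Nat.add (f x16422) (Nat.add (f x16426) (Nat.add (f x16428) (Nat.add
    (f x16434) (Nat.add (f x16448) (Nat.add (f x16450) (Nat.add (f x16454) (Nat.add (f x16456)
    (Nat.add (f x16458) (Nat.add (f x16462) (Nat.add (f x16464) (Nat.add (f x16472) (Nat.add
    (f x16474) (Nat.add (f x16476) (Nat.add (f x16480) (Nat.add (f x16482) (Nat.add (f x16488)
    (Nat.add (f x16498) (Nat.add (f x16500) (Nat.add (f x16506) (Nat.add (f x16532) (Nat.add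
    (f x16538) (Nat.add (f x16540) (Nat.add (f x16544) (Nat.add (f x16546) (Nat.add (f x16548)
    (Nat.add (f x16556) (Nat.add (f x16558) (Nat.add (f x16562) (Nat.add (f x16564) (Nat.add
    (f x16566) (Nat.add (f x16570) (Nat.add (f x16572) (Nat.add (f x16580) (Nat.add (f x16582)
    (Nat.add (f x16584) (Nat.add (f x16588) (Nat.add (f x16590) (Nat.add (f x16596) (Nat.add
    (f x16610) (Nat.add (f x16612) 0))))))))))))))))))))))))))))))))))))))))))))))))))))))))))))
    (Nat.add (Nat.add (f x16616) (Nat.add (f x16618) (Nat.add (f x16620) (Nat.add (f x16624)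
    (Nat.add (f x16626) (Nat.add (f x16634) (Nat.add (f x16636) (Nat.add (f x16638) (Nat.add
    (f x16642) (Nat.add (f x16644) (Nat.add (f x16650) (Nat.add (f x16660) (Nat.add (f x16662)
    (Nat.add (f x16668) (Nat.add (f x16688) (Nat.add (f x16690) (Nat.add (f x16692) (Nat.add
    (f x16696) (Nat.add (f x16698) (Nat.add (f x16704) (Nat.add (f x16714) (Nat.add (f x16716)
    (Nat.add (f x16722) (Nat.add (f x16740) (Nat.add (f x16784) (Nat.add (f x16790) (Nat.add
    (f x16792) (Nat.add (f x16802) (Nat.add (f x16808) (Nat.add (f x16810) (Nat.add (f x16814)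
    (Nat.add (f x16816) (Nat.add (f x16818) (Nat.add (f x16826) (Nat.add (f x16828) (Nat.add
    (f x16832) (Nat.add (f x16834) (Nat.add (f x16836) (Nat.add (f x16840) (Nat.add (f x16842)
    (Nat.add (f x16856) (Nat.add (f x16862) (Nat.add (f x16864) (Nat.add (f x16868) (Nat.add
    (f x16870) (Nat.add (f x16872) (Nat.add (f x16880) (Nat.add (f x16882) (Nat.add (f x16886)
    (Nat.add (f x16888) (Nat.add (f x16890) (Nat.add (f x16894) (Nat.add (f x16896) (Nat.add
    (f x16904) (Nat.add (f x16906) (Nat.add (f x16908) (Nat.add (f x16912) (Nat.add (f x16914)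
    (Nat.add (f x16920) (Nat.add (f x16934)
    0)))))))))))))))))))))))))))))))))))))))))))))))))))))))))))) (Nat.add (Nat.add (f x16936)
    (Nat.add (f x16940) (Nat.add (f x16942) (Nat.add (f x16944) (Nat.add (f x16948) (Nat.add
    (f x16950) (Nat.add (f x16958) (Nat.add (f x16960) (Nat.add (f x16962) (Nat.add (f x16966)
    (Nat.add (f x16968) (Nat.add (f x16974) (Nat.add (f x16984) (Nat.add (f x16986) (Nat.add
    (f x16992) (Nat.add (f x17018) (Nat.add (f x17024) (Nat.add (f x17026) (Nat.add (f x17030)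
    (Nat.add (f x17032) (Nat.add (f x17034) (Nat.add (f x17042) (Nat.add (f x17044) (Nat.add
    (f x17048) (Nat.add (f x17050) (Nat.add (f x17052) (Nat.add (f x17056) (Nat.add (f x17058)
    (Nat.add (f x17066) (Nat.add (f x17068) (Nat.add (f x17070) (Nat.add (f x17074) (Nat.add
    (f x17076) (Nat.add (f x17082) (Nat.add (f x17096) (Nat.add (f x17098) (Nat.add (f x17102)
    (Nat.add (f x17104) (Nat.add (f x17106) (Nat.add (f x17110) (Nat.add (f x17112) (Nat.add
    (f x17120) (Nat.add (f x17122) (Nat.add (f x17124) (Nat.add (f x17128) (Nat.add (f x17130)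
    (Nat.add (f x17136) (Nat.add (f x17146) (Nat.add (f x17148) (Nat.add (f x17154) (Nat.add
    (f x17174) (Nat.add (f x17176) (Nat.add (f x17178) (Nat.add (f x17182) (Nat.add (f x17184)
    (Nat.add (f x17190) (Nat.add (f x17200) (Nat.add (f x17202) (Nat.add (f x17208) (Nat.add
    (f x17226) 0)))))))))))))))))))))))))))))))))))))))))))))))))))))))))))) (Nat.add (Nat.add
    (f x17258) (Nat.add (f x17260) (Nat.add (f x17264) (Nat.add (f x17266) (Nat.add (f x17268)
    (Nat.add (f x17272) (Nat.add (f x17274) (Nat.add (f x17282) (Nat.add (f x17284) (Nat.add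
    (f x17286) (Nat.add (f x17290) (Nat.add (f x17292) (Nat.add (f x17298) (Nat.add (f x17308)
    (Nat.add (f x17310) (Nat.add (f x17316) (Nat.add (f x17336) (Nat.add (f x17338) (Nat.add
    (f x17340) (Nat.add (f x17344) (Nat.add (f x17346) (Nat.add (f x17352) (Nat.add (f x17362)
    (Nat.add (f x17364) (Nat.add (f x17370) (Nat.add (f x17388) (Nat.add (f x17416) (Nat.add
    (f x17418) (Nat.add (f x17424) (Nat.add (f x17442) (Nat.add (f x17522) (Nat.add (f x17540)
    (Nat.add (f x17546) (Nat.add (f x17548) (Nat.add (f x17558) (Nat.add (f x17564) (Nat.add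
    (f x17566) (Nat.add (f x17570) (Nat.add (f x17572) (Nat.add (f x17574) (Nat.add (f x17594)
    (Nat.add (f x17600) (Nat.add (f x17602) (Nat.add (f x17612) (Nat.add (f x17618) (Nat.add
    (f x17620) (Nat.add (f x17624) (Nat.add (f x17626) (Nat.add (f x17628) (Nat.add (f x17636)
    (Nat.add (f x17638) (Nat.add (f x17642) (Nat.add (f x17644) (Nat.add (f x17646) (Nat.add
    (f x17650) (Nat.add (f x17652) (Nat.add (f x17666) (Nat.add (f x17672) (Nat.add (f x17674)
    (Nat.add (f x17678) 0)))))))))))))))))))))))))))))))))))))))))))))))))))))))))))) (Nat.add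
    (Nat.add (f x17680) (Nat.add (f x17682) (Nat.add (f x17690) (Nat.add (f x17692) (Nat.add
    (f x17696) (Nat.add (f x17698) (Nat.add (f x17700) (Nat.add (f x17704) (Nat.add (f x17706)
    (Nat.add (f x17714) (Nat.add (f x17716) (Nat.add (f x17718) (Nat.add (f x17722) (Nat.add
    (f x17724) (Nat.add (f x17730) (Nat.add (f x17756) (Nat.add (f x17762) (Nat.add (f x17764)
    (Nat.add (f x17774) (Nat.add (f x17780) (Nat.add (f x17782) (Nat.add (f x17786) (Nat.add
    (f x17788) (Nat.add (f x17790) (Nat.add (f x17798) (Nat.add (f x17800) (Nat.add (f x17804)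
    (Nat.add (f x17806) (Nat.add (f x17808) (Nat.add (f x17812) (Nat.add (f x17814) (Nat.add
    (f x17828) (Nat.add (f x17834) (Nat.add (f x17836) (Nat.add (f x17840) (Nat.add (f x17842)
    (Nat.add (f x17844) (Nat.add (f x17852) (Nat.add (f x17854) (Nat.add (f x17858) (Nat.add
    (f x17860) (Nat.add (f x17862) (Nat.add (f x17866) (Nat.add (f x17868) (Nat.add (f x17876)
    (Nat.add (f x17878) (Nat.add (f x17880) (Nat.add (f x17884) (Nat.add (f x17886) (Nat.add
    (f x17892) (Nat.add (f x17906) (Nat.add (f x17908) (Nat.add (f x17912) (Nat.add (f x17914)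
    (Nat.add (f x17916) (Nat.add (f x17920) (Nat.add (f x17922) (Nat.add (f x17930) (Nat.add
    (f x17932) (Nat.add (f x17934) 0))))))))))))))))))))))))))))))))))))))))))))))))))))))))))))
    (Nat.add (Nat.add (f x17938) (Nat.add (f x17940) (Nat.add (f x17946) (Nat.add (f x17956)
    (Nat.add (f x17958) (Nat.add (f x17964) (Nat.add (f x17990) (Nat.add (f x17996) (Nat.add
    (f x17998) (Nat.add (f x18002) (Nat.add (f x18004) (Nat.add (f x18006) (Nat.add (f x18014)
    (Nat.add (f x18016) (Nat.add (f x18020) (Nat.add (f x18022) (Nat.add (f x18024) (Nat.add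
    (f x18028) (Nat.add (f x18030) (Nat.add (f x18038) (Nat.add (f x18040) (Nat.add (f x18042)
    (Nat.add (f x18046) (Nat.add (f x18048) (Nat.add (f x18054) (Nat.add (f x18068) (Nat.add
    (f x18070) (Nat.add (f x18074) (Nat.add (f x18076) (Nat.add (f x18078) (Nat.add (f x18082)
    (Nat.add (f x18084) (Nat.add (f x18092) (Nat.add (f x18094) (Nat.add (f x18096) (Nat.add
    (f x18100) (Nat.add (f x18102) (Nat.add (f x18108) (Nat.add (f x18118) (Nat.add (f x18120)
    (Nat.add (f x18126) (Nat.add (f x18146) (Nat.add (f x18148) (Nat.add (f x18150) (Nat.add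
    (f x18154) (Nat.add (f x18156) (Nat.add (f x18162) (Nat.add (f x18172) (Nat.add (f x18174)
    (Nat.add (f x18180) (Nat.add (f x18198) (Nat.add (f x18242) (Nat.add (f x18248) (Nat.add
    (f x18250) (Nat.add (f x18260) (Nat.add (f x18266) (Nat.add (f x18268) (Nat.add (f x18272)
    (Nat.add (f x18274) (Nat.add (f x18276)
    0)))))))))))))))))))))))))))))))))))))))))))))))))))))))))))) (Nat.add (Nat.add (f x18284)
    (Nat.add (f x18286) (Nat.add (f x18290) (Nat.add (f x18292) (Nat.add (f x18294) (Nat.add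
    (f x18298) (Nat.add (f x18300) (Nat.add (f x18314) (Nat.add (f x18320) (Nat.add (f x18322)
    (Nat.add (f x18326) (Nat.add (f x18328) (Nat.add (f x18330) (Nat.add (f x18338) (Nat.add
    (f x18340) (Nat.add (f x18344) (Nat.add (f x18346) (Nat.add (f x18348) (Nat.add (f x18352)
    (Nat.add (f x18354) (Nat.add (f x18362) (Nat.add (f x18364) (Nat.add (f x18366) (Nat.add
    (f x18370) (Nat.add (f x18372) (Nat.add (f x18378) (Nat.add (f x18392) (Nat.add (f x18394)
    (Nat.add (f x18398) (Nat.add (f x18400) (Nat.add (f x18402) (Nat.add (f x18406) (Nat.add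
    (f x18408) (Nat.add (f x18416) (Nat.add (f x18418) (Nat.add (f x18420) (Nat.add (f x18424)
    (Nat.add (f x18426) (Nat.add (f x18432) (Nat.add (f x18442) (Nat.add (f x18444) (Nat.add
    (f x18450) (Nat.add (f x18476) (Nat.add (f x18482) (Nat.add (f x18484) (Nat.add (f x18488)
    (Nat.add (f x18490) (Nat.add (f x18492) (Nat.add (f x18500) (Nat.add (f x18502) (Nat.add
    (f x18506) (Nat.add (f x18508) (Nat.add (f x18510) (Nat.add (f x18514) (Nat.add (f x18516)
    (Nat.add (f x18524) (Nat.add (f x18526) (Nat.add (f x18528) (Nat.add (f x18532) (Nat.add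
    (f x18534) 0)))))))))))))))))))))))))))))))))))))))))))))))))))))))))))) (Nat.add (Nat.add
    (f x18540) (Nat.add (f x18554) (Nat.add (f x18556) (Nat.add (f x18560) (Nat.add (f x18562)
    (Nat.add (f x18564) (Nat.add (f x18568) (Nat.add (f x18570) (Nat.add (f x18578) (Nat.add
    (f x18580) (Nat.add (f x18582) (Nat.add (f x18586) (Nat.add (f x18588) (Nat.add (f x18594)
    (Nat.add (f x18604) (Nat.add (f x18606) (Nat.add (f x18612) (Nat.add (f x18632) (Nat.add
    (f x18634) (Nat.add (f x18636) (Nat.add (f x18640) (Nat.add (f x18642) (Nat.add (f x18648)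
    (Nat.add (f x18658) (Nat.add (f x18660) (Nat.add (f x18666) (Nat.add (f x18684) (Nat.add
    (f x18716) (Nat.add (f x18718) (Nat.add (f x18722) (Nat.add (f x18724) (Nat.add (f x18726)
    (Nat.add (f x18730) (Nat.add (f x18732) (Nat.add (f x18740) (Nat.add (f x18742) (Nat.add
    (f x18744) (Nat.add (f x18748) (Nat.add (f x18750) (Nat.add (f x18756) (Nat.add (f x18766)
    (Nat.add (f x18768) (Nat.add (f x18774) (Nat.add (f x18794) (Nat.add (f x18796) (Nat.add
    (f x18798) (Nat.add (f x18802) (Nat.add (f x18804) (Nat.add (f x18810) (Nat.add (f x18820)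
    (Nat.add (f x18822) (Nat.add (f x18828) (Nat.add (f x18846) (Nat.add (f x18874) (Nat.add
    (f x18876) (Nat.add (f x18882) (Nat.add (f x18900) (Nat.add (f x18962) (Nat.add (f x18968)
    (Nat.add (f x18970) 0)))))))))))))))))))))))))))))))))))))))))))))))))))))))))))) (Nat.add
    (Nat.add (f x18974) (Nat.add (f x18976) (Nat.add (f x18978) (Nat.add (f x18986) (Nat.add
    (f x18988) (Nat.add (f x18992) (Nat.add (f x18994) (Nat.add (f x18996) (Nat.add (f x19000)
    (Nat.add (f x19002) (Nat.add (f x19010) (Nat.add (f x19012) (Nat.add (f x19014) (Nat.add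
    (f x19018) (Nat.add (f x19020) (Nat.add (f x19026) (Nat.add (f x19040) (Nat.add (f x19042)
    (Nat.add (f x19046) (Nat.add (f x19048) (Nat.add (f x19050) (Nat.add (f x19054) (Nat.add
    (f x19056) (Nat.add (f x19064) (Nat.add (f x19066) (Nat.add (f x19068) (Nat.add (f x19072)
    (Nat.add (f x19074) (Nat.add (f x19080) (Nat.add (f x19090) (Nat.add (f x19092) (Nat.add
    (f x19098) (Nat.add (f x19118) (Nat.add (f x19120) (Nat.add (f x19122) (Nat.add (f x19126)
    (Nat.add (f x19128) (Nat.add (f x19134) (Nat.add (f x19144) (Nat.add (f x19146) (Nat.add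
    (f x19152) (Nat.add (f x19170) (Nat.add (f x19202) (Nat.add (f x19204) (Nat.add (f x19208)
    (Nat.add (f x19210) (Nat.add (f x19212) (Nat.add (f x19216) (Nat.add (f x19218) (Nat.add
    (f x19226) (Nat.add (f x19228) (Nat.add (f x19230) (Nat.add (f x19234) (Nat.add (f x19236)
    (Nat.add (f x19242) (Nat.add (f x19252) (Nat.add (f x19254) (Nat.add (f x19260) (Nat.add
    (f x19280) (Nat.add (f x19282) 0))))))))))))))))))))))))))))))))))))))))))))))))))))))))))))
    (Nat.add (Nat.add (f x19284) (Nat.add (f x19288) (Nat.add (f x19290) (Nat.add (f x19296)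
    (Nat.add (f x19306) (Nat.add (f x19308) (Nat.add (f x19314) (Nat.add (f x19332) (Nat.add
    (f x19360) (Nat.add (f x19362) (Nat.add (f x19368) (Nat.add (f x19386) (Nat.add (f x19442)
    (Nat.add (f x19444) (Nat.add (f x19446) (Nat.add (f x19450) (Nat.add (f x19452) (Nat.add
    (f x19458) (Nat.add (f x19468) (Nat.add (f x19470) (Nat.add (f x19476) (Nat.add (f x19494)
    (Nat.add (f x19522) (Nat.add (f x19524) (Nat.add (f x19530) (Nat.add (f x19548) (Nat.add
    (f x19602) (Nat.add (f x19844) (Nat.add (f x19898) (Nat.add (f x19916) (Nat.add (f x19922)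
    (Nat.add (f x19924) (Nat.add (f x20006) (Nat.add (f x20060) (Nat.add (f x20078) (Nat.add
    (f x20084) (Nat.add (f x20086) (Nat.add (f x20114) (Nat.add (f x20132) (Nat.add (f x20138)
    (Nat.add (f x20140) (Nat.add (f x20150) (Nat.add (f x20156) (Nat.add (f x20158) (Nat.add
    (f x20162) (Nat.add (f x20164) (Nat.add (f x20166) (Nat.add (f x20222) (Nat.add (f x20240)
    (Nat.add (f x20246) (Nat.add (f x20248) (Nat.add (f x20276) (Nat.add (f x20294) (Nat.add
    (f x20300) (Nat.add (f x20302) (Nat.add (f x20312) (Nat.add (f x20318) (Nat.add (f x20320)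
    (Nat.add (f x20324) (Nat.add (f x20326)
    0)))))))))))))))))))))))))))))))))))))))))))))))))))))))))))) (Nat.add (Nat.add (f x20328)
    (Nat.add (f x20348) (Nat.add (f x20354) (Nat.add (f x20356) (Nat.add (f x20366) (Nat.add
    (f x20372) (Nat.add (f x20374) (Nat.add (f x20378) (Nat.add (f x20380) (Nat.add (f x20382)
    (Nat.add (f x20390) (Nat.add (f x20392) (Nat.add (f x20396) (Nat.add (f x20398) (Nat.add
    (f x20400) (Nat.add (f x20404) (Nat.add (f x20406) (Nat.add (f x20492) (Nat.add (f x20546)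
    (Nat.add (f x20564) (Nat.add (f x20570) (Nat.add (f x20572) (Nat.add (f x20600) (Nat.add
    (f x20618) (Nat.add (f x20624) (Nat.add (f x20626) (Nat.add (f x20636) (Nat.add (f x20642)
    (Nat.add (f x20644) (Nat.add (f x20648) (Nat.add (f x20650) (Nat.add (f x20652) (Nat.add
    (f x20708) (Nat.add (f x20726) (Nat.add (f x20732) (Nat.add (f x20734) (Nat.add (f x20762)
    (Nat.add (f x20780) (Nat.add (f x20786) (Nat.add (f x20788) (Nat.add (f x20798) (Nat.add
    (f x20804) (Nat.add (f x20806) (Nat.add (f x20810) (Nat.add (f x20812) (Nat.add (f x20814)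
    (Nat.add (f x20834) (Nat.add (f x20840) (Nat.add (f x20842) (Nat.add (f x20852) (Nat.add
    (f x20858) (Nat.add (f x20860) (Nat.add (f x20864) (Nat.add (f x20866) (Nat.add (f x20868)
    (Nat.add (f x20876) (Nat.add (f x20878) (Nat.add (f x20882) (Nat.add (f x20884) (Nat.add
    (f x20886) 0)))))))))))))))))))))))))))))))))))))))))))))))))))))))))))) (Nat.add (Nat.add
    (f x20890) (Nat.add (f x20892) (Nat.add (f x20924) (Nat.add (f x20942) (Nat.add (f x20948)
    (Nat.add (f x20950) (Nat.add (f x20960) (Nat.add (f x20966) (Nat.add (f x20968) (Nat.add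
    (f x20972) (Nat.add (f x20974) (Nat.add (f x20976) (Nat.add (f x20996) (Nat.add (f x21002)
    (Nat.add (f x21004) (Nat.add (f x21014) (Nat.add (f x21020) (Nat.add (f x21022) (Nat.add
    (f x21026) (Nat.add (f x21028) (Nat.add (f x21030) (Nat.add (f x21038) (Nat.add (f x21040)
    (Nat.add (f x21044) (Nat.add (f x21046) (Nat.add (f x21048) (Nat.add (f x21052) (Nat.add
    (f x21054) (Nat.add (f x21068) (Nat.add (f x21074) (Nat.add (f x21076) (Nat.add (f x21080)
    (Nat.add (f x21082) (Nat.add (f x21084) (Nat.add (f x21092) (Nat.add (f x21094) (Nat.add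
    (f x21098) (Nat.add (f x21100) (Nat.add (f x21102) (Nat.add (f x21106) (Nat.add (f x21108)
    (Nat.add (f x21116) (Nat.add (f x21118) (Nat.add (f x21120) (Nat.add (f x21124) (Nat.add
    (f x21126) (Nat.add (f x21132) (Nat.add (f x21194) (Nat.add (f x21212) (Nat.add (f x21218)
    (Nat.add (f x21220) (Nat.add (f x21248) (Nat.add (f x21266) (Nat.add (f x21272) (Nat.add
    (f x21274) (Nat.add (f x21284) (Nat.add (f x21290) (Nat.add (f x21292) (Nat.add (f x21296)
    (Nat.add (f x21298) 0)))))))))))))))))))))))))))))))))))))))))))))))))))))))))))) (Nat.add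
    (Nat.add (f x21300) (Nat.add (f x21320) (Nat.add (f x21326) (Nat.add (f x21328) (Nat.add
    (f x21338) (Nat.add (f x21344) (Nat.add (f x21346) (Nat.add (f x21350) (Nat.add (f x21352)
    (Nat.add (f x21354) (Nat.add (f x21362) (Nat.add (f x21364) (Nat.add (f x21368) (Nat.add
    (f x21370) (Nat.add (f x21372) (Nat.add (f x21376) (Nat.add (f x21378) (Nat.add (f x21410)
    (Nat.add (f x21428) (Nat.add (f x21434) (Nat.add (f x21436) (Nat.add (f x21446) (Nat.add
    (f x21452) (Nat.add (f x21454) (Nat.add (f x21458) (Nat.add (f x21460) (Nat.add (f x21462)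
    (Nat.add (f x21482) (Nat.add (f x21488) (Nat.add (f x21490) (Nat.add (f x21500) (Nat.add
    (f x21506) (Nat.add (f x21508) (Nat.add (f x21512) (Nat.add (f x21514) (Nat.add (f x21516)
    (Nat.add (f x21524) (Nat.add (f x21526) (Nat.add (f x21530) (Nat.add (f x21532) (Nat.add
    (f x21534) (Nat.add (f x21538) (Nat.add (f x21540) (Nat.add (f x21554) (Nat.add (f x21560)
    (Nat.add (f x21562) (Nat.add (f x21566) (Nat.add (f x21568) (Nat.add (f x21570) (Nat.add
    (f x21578) (Nat.add (f x21580) (Nat.add (f x21584) (Nat.add (f x21586) (Nat.add (f x21588)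
    (Nat.add (f x21592) (Nat.add (f x21594) (Nat.add (f x21602) (Nat.add (f x21604) (Nat.add
    (f x21606) (Nat.add (f x21610) 0))))))))))))))))))))))))))))))))))))))))))))))))))))))))))))
    (Nat.add (Nat.add (f x21612) (Nat.add (f x21618) (Nat.add (f x21644) (Nat.add (f x21650)
    (Nat.add (f x21652) (Nat.add (f x21662) (Nat.add (f x21668) (Nat.add (f x21670) (Nat.add
    (f x21674) (Nat.add (f x21676) (Nat.add (f x21678) (Nat.add (f x21686) (Nat.add (f x21688)
    (Nat.add (f x21692) (Nat.add (f x21694) (Nat.add (f x21696) (Nat.add (f x21700) (Nat.add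
    (f x21702) (Nat.add (f x21716) (Nat.add (f x21722) (Nat.add (f x21724) (Nat.add (f x21728)
    (Nat.add (f x21730) (Nat.add (f x21732) (Nat.add (f x21740) (Nat.add (f x21742) (Nat.add
    (f x21746) (Nat.add (f x21748) (Nat.add (f x21750) (Nat.add (f x21754) (Nat.add (f x21756)
    (Nat.add (f x21764) (Nat.add (f x21766) (Nat.add (f x21768) (Nat.add (f x21772) (Nat.add
    (f x21774) (Nat.add (f x21780) (Nat.add (f x21794) (Nat.add (f x21796) (Nat.add (f x21800)
    (Nat.add (f x21802) (Nat.add (f x21804) (Nat.add (f x21808) (Nat.add (f x21810) (Nat.add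
    (f x21818) (Nat.add (f x21820) (Nat.add (f x21822) (Nat.add (f x21826) (Nat.add (f x21828)
    (Nat.add (f x21834) (Nat.add (f x21844) (Nat.add (f x21846) (Nat.add (f x21852) (Nat.add
    (f x21950) (Nat.add (f x22004) (Nat.add (f x22022) (Nat.add (f x22028) (Nat.add (f x22030)
    (Nat.add (f x22058) (Nat.add (f x22076)
    0)))))))))))))))))))))))))))))))))))))))))))))))))))))))))))) (Nat.add (Nat.add (f x22082)
    (Nat.add (f x22084) (Nat.add (f x22094) (Nat.add (f x22100) (Nat.add (f x22102) (Nat.add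
    (f x22106) (Nat.add (f x22108) (Nat.add (f x22110) (Nat.add (f x22166) (Nat.add (f x22184)
    (Nat.add (f x22190) (Nat.add (f x22192) (Nat.add (f x22220) (Nat.add (f x22238) (Nat.add
    (f x22244) (Nat.add (f x22246) (Nat.add (f x22256) (Nat.add (f x22262) (Nat.add (f x22264)
    (Nat.add (f x22268) (Nat.add (f x22270) (Nat.add (f x22272) (Nat.add (f x22292) (Nat.add
    (f x22298) (Nat.add (f x22300) (Nat.add (f x22310) (Nat.add (f x22316) (Nat.add (f x22318)
    (Nat.add (f x22322) (Nat.add (f x22324) (Nat.add (f x22326) (Nat.add (f x22334) (Nat.add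
    (f x22336) (Nat.add (f x22340) (Nat.add (f x22342) (Nat.add (f x22344) (Nat.add (f x22348)
    (Nat.add (f x22350) (Nat.add (f x22382) (Nat.add (f x22400) (Nat.add (f x22406) (Nat.add
    (f x22408) (Nat.add (f x22418) (Nat.add (f x22424) (Nat.add (f x22426) (Nat.add (f x22430)
    (Nat.add (f x22432) (Nat.add (f x22434) (Nat.add (f x22454) (Nat.add (f x22460) (Nat.add
    (f x22462) (Nat.add (f x22472) (Nat.add (f x22478) (Nat.add (f x22480) (Nat.add (f x22484)
    (Nat.add (f x22486) (Nat.add (f x22488) (Nat.add (f x22496) (Nat.add (f x22498) (Nat.add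
    (f x22502) 0)))))))))))))))))))))))))))))))))))))))))))))))))))))))))))) (Nat.add (Nat.add
    (f x22504) (Nat.add (f x22506) (Nat.add (f x22510) (Nat.add (f x22512) (Nat.add (f x22526)
    (Nat.add (f x22532) (Nat.add (f x22534) (Nat.add (f x22538) (Nat.add (f x22540) (Nat.add
    (f x22542) (Nat.add (f x22550) (Nat.add (f x22552) (Nat.add (f x22556) (Nat.add (f x22558)
    (Nat.add (f x22560) (Nat.add (f x22564) (Nat.add (f x22566) (Nat.add (f x22574) (Nat.add
    (f x22576) (Nat.add (f x22578) (Nat.add (f x22582) (Nat.add (f x22584) (Nat.add (f x22590)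
    (Nat.add (f x22652) (Nat.add (f x22670) (Nat.add (f x22676) (Nat.add (f x22678) (Nat.add
    (f x22706) (Nat.add (f x22724) (Nat.add (f x22730) (Nat.add (f x22732) (Nat.add (f x22742)
    (Nat.add (f x22748) (Nat.add (f x22750) (Nat.add (f x22754) (Nat.add (f x22756) (Nat.add
    (f x22758) (Nat.add (f x22778) (Nat.add (f x22784) (Nat.add (f x22786) (Nat.add (f x22796)
    (Nat.add (f x22802) (Nat.add (f x22804) (Nat.add (f x22808) (Nat.add (f x22810) (Nat.add
    (f x22812) (Nat.add (f x22820) (Nat.add (f x22822) (Nat.add (f x22826) (Nat.add (f x22828)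
    (Nat.add (f x22830) (Nat.add (f x22834) (Nat.add (f x22836) (Nat.add (f x22868) (Nat.add
    (f x22886) (Nat.add (f x22892) (Nat.add (f x22894) (Nat.add (f x22904) (Nat.add (f x22910)
    (Nat.add (f x22912) 0)))))))))))))))))))))))))))))))))))))))))))))))))))))))))))) (Nat.add
    (Nat.add (f x22916) (Nat.add (f x22918) (Nat.add (f x22920) (Nat.add (f x22940) (Nat.add
    (f x22946) (Nat.add (f x22948) (Nat.add (f x22958) (Nat.add (f x22964) (Nat.add (f x22966)
    (Nat.add (f x22970) (Nat.add (f x22972) (Nat.add (f x22974) (Nat.add (f x22982) (Nat.add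
    (f x22984) (Nat.add (f x22988) (Nat.add (f x22990) (Nat.add (f x22992) (Nat.add (f x22996)
    (Nat.add (f x22998) (Nat.add (f x23012) (Nat.add (f x23018) (Nat.add (f x23020) (Nat.add
    (f x23024) (Nat.add (f x23026) (Nat.add (f x23028) (Nat.add (f x23036) (Nat.add (f x23038)
    (Nat.add (f x23042) (Nat.add (f x23044) (Nat.add (f x23046) (Nat.add (f x23050) (Nat.add
    (f x23052) (Nat.add (f x23060) (Nat.add (f x23062) (Nat.add (f x23064) (Nat.add (f x23068)
    (Nat.add (f x23070) (Nat.add (f x23076) (Nat.add (f x23102) (Nat.add (f x23108) (Nat.add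
    (f x23110) (Nat.add (f x23120) (Nat.add (f x23126) (Nat.add (f x23128) (Nat.add (f x23132)
    (Nat.add (f x23134) (Nat.add (f x23136) (Nat.add (f x23144) (Nat.add (f x23146) (Nat.add
    (f x23150) (Nat.add (f x23152) (Nat.add (f x23154) (Nat.add (f x23158) (Nat.add (f x23160)
    (Nat.add (f x23174) (Nat.add (f x23180) (Nat.add (f x23182) (Nat.add (f x23186) (Nat.add
    (f x23188) (Nat.add (f x23190) 0))))))))))))))))))))))))))))))))))))))))))))))))))))))))))))
    (Nat.add (Nat.add (f x23198) (Nat.add (f x23200) (Nat.add (f x23204) (Nat.add (f x23206)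
    (Nat.add (f x23208) (Nat.add (f x23212) (Nat.add (f x23214) (Nat.add (f x23222) (Nat.add
    (f x23224) (Nat.add (f x23226) (Nat.add (f x23230) (Nat.add (f x23232) (Nat.add (f x23238)
    (Nat.add (f x23252) (Nat.add (f x23254) (Nat.add (f x23258) (Nat.add (f x23260) (Nat.add
    (f x23262) (Nat.add (f x23266) (Nat.add (f x23268) (Nat.add (f x23276) (Nat.add (f x23278)
    (Nat.add (f x23280) (Nat.add (f x23284) (Nat.add (f x23286) (Nat.add (f x23292) (Nat.add
    (f x23302) (Nat.add (f x23304) (Nat.add (f x23310) (Nat.add (f x23354) (Nat.add (f x23372)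
    (Nat.add (f x23378) (Nat.add (f x23380) (Nat.add (f x23390) (Nat.add (f x23396) (Nat.add
    (f x23398) (Nat.add (f x23402) (Nat.add (f x23404) (Nat.add (f x23406) (Nat.add (f x23426)
    (Nat.add (f x23432) (Nat.add (f x23434) (Nat.add (f x23444) (Nat.add (f x23450) (Nat.add
    (f x23452) (Nat.add (f x23456) (Nat.add (f x23458) (Nat.add (f x23460) (Nat.add (f x23468)
    (Nat.add (f x23470) (Nat.add (f x23474) (Nat.add (f x23476) (Nat.add (f x23478) (Nat.add
    (f x23482) (Nat.add (f x23484) (Nat.add (f x23498) (Nat.add (f x23504) (Nat.add (f x23506)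
    (Nat.add (f x23510) (Nat.add (f x23512)
    0)))))))))))))))))))))))))))))))))))))))))))))))))))))))))))) (Nat.add (Nat.add (f x23514)
    (Nat.add (f x23522) (Nat.add (f x23524) (Nat.add (f x23528) (Nat.add (f x23530) (Nat.add
    (f x23532) (Nat.add (f x23536) (Nat.add (f x23538) (Nat.add (f x23546) (Nat.add (f x23548)
    (Nat.add (f x23550) (Nat.add (f x23554) (Nat.add (f x23556) (Nat.add (f x23562) (Nat.add
    (f x23588) (Nat.add (f x23594) (Nat.add (f x23596) (Nat.add (f x23606) (Nat.add (f x23612)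
    (Nat.add (f x23614) (Nat.add (f x23618) (Nat.add (f x23620) (Nat.add (f x23622) (Nat.add
    (f x23630) (Nat.add (f x23632) (Nat.add (f x23636) (Nat.add (f x23638) (Nat.add (f x23640)
    (Nat.add (f x23644) (Nat.add (f x23646) (Nat.add (f x23660) (Nat.add (f x23666) (Nat.add
    (f x23668) (Nat.add (f x23672) (Nat.add (f x23674) (Nat.add (f x23676) (Nat.add (f x23684)
    (Nat.add (f x23686) (Nat.add (f x23690) (Nat.add (f x23692) (Nat.add (f x23694) (Nat.add
    (f x23698) (Nat.add (f x23700) (Nat.add (f x23708) (Nat.add (f x23710) (Nat.add (f x23712)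
    (Nat.add (f x23716) (Nat.add (f x23718) (Nat.add (f x23724) (Nat.add (f x23738) (Nat.add
    (f x23740) (Nat.add (f x23744) (Nat.add (f x23746) (Nat.add (f x23748) (Nat.add (f x23752)
    (Nat.add (f x23754) (Nat.add (f x23762) (Nat.add (f x23764) (Nat.add (f x23766) (Nat.add
    (f x23770) 0)))))))))))))))))))))))))))))))))))))))))))))))))))))))))))) (Nat.add (Nat.add
    (f x23772) (Nat.add (f x23778) (Nat.add (f x23788) (Nat.add (f x23790) (Nat.add (f x23796)
    (Nat.add (f x23822) (Nat.add (f x23828) (Nat.add (f x23830) (Nat.add (f x23834) (Nat.add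
    (f x23836) (Nat.add (f x23838) (Nat.add (f x23846) (Nat.add (f x23848) (Nat.add (f x23852)
    (Nat.add (f x23854) (Nat.add (f x23856) (Nat.add (f x23860) (Nat.add (f x23862) (Nat.add
    (f x23870) (Nat.add (f x23872) (Nat.add (f x23874) (Nat.add (f x23878) (Nat.add (f x23880)
    (Nat.add (f x23886) (Nat.add (f x23900) (Nat.add (f x23902) (Nat.add (f x23906) (Nat.add
    (f x23908) (Nat.add (f x23910) (Nat.add (f x23914) (Nat.add (f x23916) (Nat.add (f x23924)
    (Nat.add (f x23926) (Nat.add (f x23928) (Nat.add (f x23932) (Nat.add (f x23934) (Nat.add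
    (f x23940) (Nat.add (f x23950) (Nat.add (f x23952) (Nat.add (f x23958) (Nat.add (f x23978)
    (Nat.add (f x23980) (Nat.add (f x23982) (Nat.add (f x23986) (Nat.add (f x23988) (Nat.add
    (f x23994) (Nat.add (f x24004) (Nat.add (f x24006) (Nat.add (f x24012) (Nat.add (f x24030)
    (Nat.add (f x24110) (Nat.add (f x24128) (Nat.add (f x24134) (Nat.add (f x24136) (Nat.add
    (f x24164) (Nat.add (f x24182) (Nat.add (f x24188) (Nat.add (f x24190) (Nat.add (f x24200)
    (Nat.add (f x24206) 0)))))))))))))))))))))))))))))))))))))))))))))))))))))))))))) (Nat.add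
    (Nat.add (f x24208) (Nat.add (f x24212) (Nat.add (f x24214) (Nat.add (f x24216) (Nat.add
    (f x24236) (Nat.add (f x24242) (Nat.add (f x24244) (Nat.add (f x24254) (Nat.add (f x24260)
    (Nat.add (f x24262) (Nat.add (f x24266) (Nat.add (f x24268) (Nat.add (f x24270) (Nat.add
    (f x24278) (Nat.add (f x24280) (Nat.add (f x24284) (Nat.add (f x24286) (Nat.add (f x24288)
    (Nat.add (f x24292) (Nat.add (f x24294) (Nat.add (f x24326) (Nat.add (f x24344) (Nat.add
    (f x24350) (Nat.add (f x24352) (Nat.add (f x24362) (Nat.add (f x24368) (Nat.add (f x24370)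
    (Nat.add (f x24374) (Nat.add (f x24376) (Nat.add (f x24378) (Nat.add (f x24398) (Nat.add
    (f x24404) (Nat.add (f x24406) (Nat.add (f x24416) (Nat.add (f x24422) (Nat.add (f x24424)
    (Nat.add (f x24428) (Nat.add (f x24430) (Nat.add (f x24432) (Nat.add (f x24440) (Nat.add
    (f x24442) (Nat.add (f x24446) (Nat.add (f x24448) (Nat.add (f x24450) (Nat.add (f x24454)
    (Nat.add (f x24456) (Nat.add (f x24470) (Nat.add (f x24476) (Nat.add (f x24478) (Nat.add
    (f x24482) (Nat.add (f x24484) (Nat.add (f x24486) (Nat.add (f x24494) (Nat.add (f x24496)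
    (Nat.add (f x24500) (Nat.add (f x24502) (Nat.add (f x24504) (Nat.add (f x24508) (Nat.add
    (f x24510) (Nat.add (f x24518) 0))))))))))))))))))))))))))))))))))))))))))))))))))))))))))))
    (Nat.add (Nat.add (f x24520) (Nat.add (f x24522) (Nat.add (f x24526) (Nat.add (f x24528)
    (Nat.add (f x24534) (Nat.add (f x24560) (Nat.add (f x24566) (Nat.add (f x24568) (Nat.add
    (f x24578) (Nat.add (f x24584) (Nat.add (f x24586) (Nat.add (f x24590) (Nat.add (f x24592)
    (Nat.add (f x24594) (Nat.add (f x24602) (Nat.add (f x24604) (Nat.add (f x24608) (Nat.add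
    (f x24610) (Nat.add (f x24612) (Nat.add (f x24616) (Nat.add (f x24618) (Nat.add (f x24632)
    (Nat.add (f x24638) (Nat.add (f x24640) (Nat.add (f x24644) (Nat.add (f x24646) (Nat.add
    (f x24648) (Nat.add (f x24656) (Nat.add (f x24658) (Nat.add (f x24662) (Nat.add (f x24664)
    (Nat.add (f x24666) (Nat.add (f x24670) (Nat.add (f x24672) (Nat.add (f x24680) (Nat.add
    (f x24682) (Nat.add (f x24684) (Nat.add (f x24688) (Nat.add (f x24690) (Nat.add (f x24696)
    (Nat.add (f x24710) (Nat.add (f x24712) (Nat.add (f x24716) (Nat.add (f x24718) (Nat.add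
    (f x24720) (Nat.add (f x24724) (Nat.add (f x24726) (Nat.add (f x24734) (Nat.add (f x24736)
    (Nat.add (f x24738) (Nat.add (f x24742) (Nat.add (f x24744) (Nat.add (f x24750) (Nat.add
    (f x24760) (Nat.add (f x24762) (Nat.add (f x24768) (Nat.add (f x24812) (Nat.add (f x24830)
    (Nat.add (f x24836) (Nat.add (f x24838)
    0)))))))))))))))))))))))))))))))))))))))))))))))))))))))))))) (Nat.add (Nat.add (f x24848)
    (Nat.add (f x24854) (Nat.add (f x24856) (Nat.add (f x24860) (Nat.add (f x24862) (Nat.add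
    (f x24864) (Nat.add (f x24884) (Nat.add (f x24890) (Nat.add (f x24892) (Nat.add (f x24902)
    (Nat.add (f x24908) (Nat.add (f x24910) (Nat.add (f x24914) (Nat.add (f x24916) (Nat.add
    (f x24918) (Nat.add (f x24926) (Nat.add (f x24928) (Nat.add (f x24932) (Nat.add (f x24934)
    (Nat.add (f x24936) (Nat.add (f x24940) (Nat.add (f x24942) (Nat.add (f x24956) (Nat.add
    (f x24962) (Nat.add (f x24964) (Nat.add (f x24968) (Nat.add (f x24970) (Nat.add (f x24972)
    (Nat.add (f x24980) (Nat.add (f x24982) (Nat.add (f x24986) (Nat.add (f x24988) (Nat.add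
    (f x24990) (Nat.add (f x24994) (Nat.add (f x24996) (Nat.add (f x25004) (Nat.add (f x25006)
    (Nat.add (f x25008) (Nat.add (f x25012) (Nat.add (f x25014) (Nat.add (f x25020) (Nat.add
    (f x25046) (Nat.add (f x25052) (Nat.add (f x25054) (Nat.add (f x25064) (Nat.add (f x25070)
    (Nat.add (f x25072) (Nat.add (f x25076) (Nat.add (f x25078) (Nat.add (f x25080) (Nat.add
    (f x25088) (Nat.add (f x25090) (Nat.add (f x25094) (Nat.add (f x25096) (Nat.add (f x25098)
    (Nat.add (f x25102) (Nat.add (f x25104) (Nat.add (f x25118) (Nat.add (f x25124) (Nat.add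
    (f x25126) 0)))))))))))))))))))))))))))))))))))))))))))))))))))))))))))) (Nat.add (Nat.add
    (f x25130) (Nat.add (f x25132) (Nat.add (f x25134) (Nat.add (f x25142) (Nat.add (f x25144)
    (Nat.add (f x25148) (Nat.add (f x25150) (Nat.add (f x25152) (Nat.add (f x25156) (Nat.add
    (f x25158) (Nat.add (f x25166) (Nat.add (f x25168) (Nat.add (f x25170) (Nat.add (f x25174)
    (Nat.add (f x25176) (Nat.add (f x25182) (Nat.add (f x25196) (Nat.add (f x25198) (Nat.add
    (f x25202) (Nat.add (f x25204) (Nat.add (f x25206) (Nat.add (f x25210) (Nat.add (f x25212)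
    (Nat.add (f x25220) (Nat.add (f x25222) (Nat.add (f x25224) (Nat.add (f x25228) (Nat.add
    (f x25230) (Nat.add (f x25236) (Nat.add (f x25246) (Nat.add (f x25248) (Nat.add (f x25254)
    (Nat.add (f x25280) (Nat.add (f x25286) (Nat.add (f x25288) (Nat.add (f x25292) (Nat.add
    (f x25294) (Nat.add (f x25296) (Nat.add (f x25304) (Nat.add (f x25306) (Nat.add (f x25310)
    (Nat.add (f x25312) (Nat.add (f x25314) (Nat.add (f x25318) (Nat.add (f x25320) (Nat.add
    (f x25328) (Nat.add (f x25330) (Nat.add (f x25332) (Nat.add (f x25336) (Nat.add (f x25338)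
    (Nat.add (f x25344) (Nat.add (f x25358) (Nat.add (f x25360) (Nat.add (f x25364) (Nat.add
    (f x25366) (Nat.add (f x25368) (Nat.add (f x25372) (Nat.add (f x25374) (Nat.add (f x25382)
    (Nat.add (f x25384) 0)))))))))))))))))))))))))))))))))))))))))))))))))))))))))))) (Nat.add
    (Nat.add (f x25386) (Nat.add (f x25390) (Nat.add (f x25392) (Nat.add (f x25398) (Nat.add
    (f x25408) (Nat.add (f x25410) (Nat.add (f x25416) (Nat.add (f x25436) (Nat.add (f x25438)
    (Nat.add (f x25440) (Nat.add (f x25444) (Nat.add (f x25446) (Nat.add (f x25452) (Nat.add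
    (f x25462) (Nat.add (f x25464) (Nat.add (f x25470) (Nat.add (f x25488) (Nat.add (f x25532)
    (Nat.add (f x25538) (Nat.add (f x25540) (Nat.add (f x25550) (Nat.add (f x25556) (Nat.add
    (f x25558) (Nat.add (f x25562) (Nat.add (f x25564) (Nat.add (f x25566) (Nat.add (f x25574)
    (Nat.add (f x25576) (Nat.add (f x25580) (Nat.add (f x25582) (Nat.add (f x25584) (Nat.add
    (f x25588) (Nat.add (f x25590) (Nat.add (f x25604) (Nat.add (f x25610) (Nat.add (f x25612)
    (Nat.add (f x25616) (Nat.add (f x25618) (Nat.add (f x25620) (Nat.add (f x25628) (Nat.add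
    (f x25630) (Nat.add (f x25634) (Nat.add (f x25636) (Nat.add (f x25638) (Nat.add (f x25642)
    (Nat.add (f x25644) (Nat.add (f x25652) (Nat.add (f x25654) (Nat.add (f x25656) (Nat.add
    (f x25660) (Nat.add (f x25662) (Nat.add (f x25668) (Nat.add (f x25682) (Nat.add (f x25684)
    (Nat.add (f x25688) (Nat.add (f x25690) (Nat.add (f x25692) (Nat.add (f x25696) (Nat.add
    (f x25698) (Nat.add (f x25706) 0))))))))))))))))))))))))))))))))))))))))))))))))))))))))))))
    (Nat.add (Nat.add (f x25708) (Nat.add (f x25710) (Nat.add (f x25714) (Nat.add (f x25716)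
    (Nat.add (f x25722) (Nat.add (f x25732) (Nat.add (f x25734) (Nat.add (f x25740) (Nat.add
    (f x25766) (Nat.add (f x25772) (Nat.add (f x25774) (Nat.add (f x25778) (Nat.add (f x25780)
    (Nat.add (f x25782) (Nat.add (f x25790) (Nat.add (f x25792) (Nat.add (f x25796) (Nat.add
    (f x25798) (Nat.add (f x25800) (Nat.add (f x25804) (Nat.add (f x25806) (Nat.add (f x25814)
    (Nat.add (f x25816) (Nat.add (f x25818) (Nat.add (f x25822) (Nat.add (f x25824) (Nat.add
    (f x25830) (Nat.add (f x25844) (Nat.add (f x25846) (Nat.add (f x25850) (Nat.add (f x25852)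
    (Nat.add (f x25854) (Nat.add (f x25858) (Nat.add (f x25860) (Nat.add (f x25868) (Nat.add
    (f x25870) (Nat.add (f x25872) (Nat.add (f x25876) (Nat.add (f x25878) (Nat.add (f x25884)
    (Nat.add (f x25894) (Nat.add (f x25896) (Nat.add (f x25902) (Nat.add (f x25922) (Nat.add
    (f x25924) (Nat.add (f x25926) (Nat.add (f x25930) (Nat.add (f x25932) (Nat.add (f x25938)
    (Nat.add (f x25948) (Nat.add (f x25950) (Nat.add (f x25956) (Nat.add (f x25974) (Nat.add
    (f x26006) (Nat.add (f x26008) (Nat.add (f x26012) (Nat.add (f x26014) (Nat.add (f x26016)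
    (Nat.add (f x26020) (Nat.add (f x26022)
    0)))))))))))))))))))))))))))))))))))))))))))))))))))))))))))) (Nat.add (Nat.add (f x26030)
    (Nat.add (f x26032) (Nat.add (f x26034) (Nat.add (f x26038) (Nat.add (f x26040) (Nat.add
    (f x26046) (Nat.add (f x26056) (Nat.add (f x26058) (Nat.add (f x26064) (Nat.add (f x26084)
    (Nat.add (f x26086) (Nat.add (f x26088) (Nat.add (f x26092) (Nat.add (f x26094) (Nat.add
    (f x26100) (Nat.add (f x26110) (Nat.add (f x26112) (Nat.add (f x26118) (Nat.add (f x26136)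
    (Nat.add (f x26164) (Nat.add (f x26166) (Nat.add (f x26172) (Nat.add (f x26190) (Nat.add
    (f x26324) (Nat.add (f x26378) (Nat.add (f x26396) (Nat.add (f x26402) (Nat.add (f x26404)
    (Nat.add (f x26432) (Nat.add (f x26450) (Nat.add (f x26456) (Nat.add (f x26458) (Nat.add
    (f x26468) (Nat.add (f x26474) (Nat.add (f x26476) (Nat.add (f x26480) (Nat.add (f x26482)
    (Nat.add (f x26484) (Nat.add (f x26540) (Nat.add (f x26558) (Nat.add (f x26564) (Nat.add
    (f x26566) (Nat.add (f x26594) (Nat.add (f x26612) (Nat.add (f x26618) (Nat.add (f x26620)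
    (Nat.add (f x26630) (Nat.add (f x26636) (Nat.add (f x26638) (Nat.add (f x26642) (Nat.add
    (f x26644) (Nat.add (f x26646) (Nat.add (f x26666) (Nat.add (f x26672) (Nat.add (f x26674)
    (Nat.add (f x26684) (Nat.add (f x26690) (Nat.add (f x26692) (Nat.add (f x26696) (Nat.add
    (f x26698) 0)))))))))))))))))))))))))))))))))))))))))))))))))))))))))))) (Nat.add (Nat.add
    (f x26700) (Nat.add (f x26708) (Nat.add (f x26710) (Nat.add (f x26714) (Nat.add (f x26716)
    (Nat.add (f x26718) (Nat.add (f x26722) (Nat.add (f x26724) (Nat.add (f x26756) (Nat.add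
    (f x26774) (Nat.add (f x26780) (Nat.add (f x26782) (Nat.add (f x26792) (Nat.add (f x26798)
    (Nat.add (f x26800) (Nat.add (f x26804) (Nat.add (f x26806) (Nat.add (f x26808) (Nat.add
    (f x26828) (Nat.add (f x26834) (Nat.add (f x26836) (Nat.add (f x26846) (Nat.add (f x26852)
    (Nat.add (f x26854) (Nat.add (f x26858) (Nat.add (f x26860) (Nat.add (f x26862) (Nat.add
    (f x26870) (Nat.add (f x26872) (Nat.add (f x26876) (Nat.add (f x26878) (Nat.add (f x26880)
    (Nat.add (f x26884) (Nat.add (f x26886) (Nat.add (f x26900) (Nat.add (f x26906) (Nat.add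
    (f x26908) (Nat.add (f x26912) (Nat.add (f x26914) (Nat.add (f x26916) (Nat.add (f x26924)
    (Nat.add (f x26926) (Nat.add (f x26930) (Nat.add (f x26932) (Nat.add (f x26934) (Nat.add
    (f x26938) (Nat.add (f x26940) (Nat.add (f x26948) (Nat.add (f x26950) (Nat.add (f x26952)
    (Nat.add (f x26956) (Nat.add (f x26958) (Nat.add (f x26964) (Nat.add (f x27026) (Nat.add
    (f x27044) (Nat.add (f x27050) (Nat.add (f x27052) (Nat.add (f x27080) (Nat.add (f x27098)
    (Nat.add (f x27104) 0)))))))))))))))))))))))))))))))))))))))))))))))))))))))))))) (Nat.add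
    (Nat.add (f x27106) (Nat.add (f x27116) (Nat.add (f x27122) (Nat.add (f x27124) (Nat.add
    (f x27128) (Nat.add (f x27130) (Nat.add (f x27132) (Nat.add (f x27152) (Nat.add (f x27158)
    (Nat.add (f x27160) (Nat.add (f x27170) (Nat.add (f x27176) (Nat.add (f x27178) (Nat.add
    (f x27182) (Nat.add (f x27184) (Nat.add (f x27186) (Nat.add (f x27194) (Nat.add (f x27196)
    (Nat.add (f x27200) (Nat.add (f x27202) (Nat.add (f x27204) (Nat.add (f x27208) (Nat.add
    (f x27210) (Nat.add (f x27242) (Nat.add (f x27260) (Nat.add (f x27266) (Nat.add (f x27268)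
    (Nat.add (f x27278) (Nat.add (f x27284) (Nat.add (f x27286) (Nat.add (f x27290) (Nat.add
    (f x27292) (Nat.add (f x27294) (Nat.add (f x27314) (Nat.add (f x27320) (Nat.add (f x27322)
    (Nat.add (f x27332) (Nat.add (f x27338) (Nat.add (f x27340) (Nat.add (f x27344) (Nat.add
    (f x27346) (Nat.add (f x27348) (Nat.add (f x27356) (Nat.add (f x27358) (Nat.add (f x27362)
    (Nat.add (f x27364) (Nat.add (f x27366) (Nat.add (f x27370) (Nat.add (f x27372) (Nat.add
    (f x27386) (Nat.add (f x27392) (Nat.add (f x27394) (Nat.add (f x27398) (Nat.add (f x27400)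
    (Nat.add (f x27402) (Nat.add (f x27410) (Nat.add (f x27412) (Nat.add (f x27416) (Nat.add
    (f x27418) (Nat.add (f x27420) 0))))))))))))))))))))))))))))))))))))))))))))))))))))))))))))
    (Nat.add (Nat.add (f x27424) (Nat.add (f x27426) (Nat.add (f x27434) (Nat.add (f x27436)
    (Nat.add (f x27438) (Nat.add (f x27442) (Nat.add (f x27444) (Nat.add (f x27450) (Nat.add
    (f x27476) (Nat.add (f x27482) (Nat.add (f x27484) (Nat.add (f x27494) (Nat.add (f x27500)
    (Nat.add (f x27502) (Nat.add (f x27506) (Nat.add (f x27508) (Nat.add (f x27510) (Nat.add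
    (f x27518) (Nat.add (f x27520) (Nat.add (f x27524) (Nat.add (f x27526) (Nat.add (f x27528)
    (Nat.add (f x27532) (Nat.add (f x27534) (Nat.add (f x27548) (Nat.add (f x27554) (Nat.add
    (f x27556) (Nat.add (f x27560) (Nat.add (f x27562) (Nat.add (f x27564) (Nat.add (f x27572)
    (Nat.add (f x27574) (Nat.add (f x27578) (Nat.add (f x27580) (Nat.add (f x27582) (Nat.add
    (f x27586) (Nat.add (f x27588) (Nat.add (f x27596) (Nat.add (f x27598) (Nat.add (f x27600)
    (Nat.add (f x27604) (Nat.add (f x27606) (Nat.add (f x27612) (Nat.add (f x27626) (Nat.add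
    (f x27628) (Nat.add (f x27632) (Nat.add (f x27634) (Nat.add (f x27636) (Nat.add (f x27640)
    (Nat.add (f x27642) (Nat.add (f x27650) (Nat.add (f x27652) (Nat.add (f x27654) (Nat.add
    (f x27658) (Nat.add (f x27660) (Nat.add (f x27666) (Nat.add (f x27676) (Nat.add (f x27678)
    (Nat.add (f x27684) (Nat.add (f x27728)
    0)))))))))))))))))))))))))))))))))))))))))))))))))))))))))))) (Nat.add (Nat.add (f x27746)
    (Nat.add (f x27752) (Nat.add (f x27754) (Nat.add (f x27764) (Nat.add (f x27770) (Nat.add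
    (f x27772) (Nat.add (f x27776) (Nat.add (f x27778) (Nat.add (f x27780) (Nat.add (f x27800)
    (Nat.add (f x27806) (Nat.add (f x27808) (Nat.add (f x27818) (Nat.add (f x27824) (Nat.add
    (f x27826) (Nat.add (f x27830) (Nat.add (f x27832) (Nat.add (f x27834) (Nat.add (f x27842)
    (Nat.add (f x27844) (Nat.add (f x27848) (Nat.add (f x27850) (Nat.add (f x27852) (Nat.add
    (f x27856) (Nat.add (f x27858) (Nat.add (f x27872) (Nat.add (f x27878) (Nat.add (f x27880)
    (Nat.add (f x27884) (Nat.add (f x27886) (Nat.add (f x27888) (Nat.add (f x27896) (Nat.add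
    (f x27898) (Nat.add (f x27902) (Nat.add (f x27904) (Nat.add (f x27906) (Nat.add (f x27910)
    (Nat.add (f x27912) (Nat.add (f x27920) (Nat.add (f x27922) (Nat.add (f x27924) (Nat.add
    (f x27928) (Nat.add (f x27930) (Nat.add (f x27936) (Nat.add (f x27962) (Nat.add (f x27968)
    (Nat.add (f x27970) (Nat.add (f x27980) (Nat.add (f x27986) (Nat.add (f x27988) (Nat.add
    (f x27992) (Nat.add (f x27994) (Nat.add (f x27996) (Nat.add (f x28004) (Nat.add (f x28006)
    (Nat.add (f x28010) (Nat.add (f x28012) (Nat.add (f x28014) (Nat.add (f x28018) (Nat.add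
    (f x28020) 0)))))))))))))))))))))))))))))))))))))))))))))))))))))))))))) (Nat.add (Nat.add
    (f x28034) (Nat.add (f x28040) (Nat.add (f x28042) (Nat.add (f x28046) (Nat.add (f x28048)
    (Nat.add (f x28050) (Nat.add (f x28058) (Nat.add (f x28060) (Nat.add (f x28064) (Nat.add
    (f x28066) (Nat.add (f x28068) (Nat.add (f x28072) (Nat.add (f x28074) (Nat.add (f x28082)
    (Nat.add (f x28084) (Nat.add (f x28086) (Nat.add (f x28090) (Nat.add (f x28092) (Nat.add
    (f x28098) (Nat.add (f x28112) (Nat.add (f x28114) (Nat.add (f x28118) (Nat.add (f x28120)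
    (Nat.add (f x28122) (Nat.add (f x28126) (Nat.add (f x28128) (Nat.add (f x28136) (Nat.add
    (f x28138) (Nat.add (f x28140) (Nat.add (f x28144) (Nat.add (f x28146) (Nat.add (f x28152)
    (Nat.add (f x28162) (Nat.add (f x28164) (Nat.add (f x28170) (Nat.add (f x28196) (Nat.add
    (f x28202) (Nat.add (f x28204) (Nat.add (f x28208) (Nat.add (f x28210) (Nat.add (f x28212)
    (Nat.add (f x28220) (Nat.add (f x28222) (Nat.add (f x28226) (Nat.add (f x28228) (Nat.add
    (f x28230) (Nat.add (f x28234) (Nat.add (f x28236) (Nat.add (f x28244) (Nat.add (f x28246)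
    (Nat.add (f x28248) (Nat.add (f x28252) (Nat.add (f x28254) (Nat.add (f x28260) (Nat.add
    (f x28274) (Nat.add (f x28276) (Nat.add (f x28280) (Nat.add (f x28282) (Nat.add (f x28284)
    (Nat.add (f x28288) 0)))))))))))))))))))))))))))))))))))))))))))))))))))))))))))) (Nat.add
    (Nat.add (f x28290) (Nat.add (f x28298) (Nat.add (f x28300) (Nat.add (f x28302) (Nat.add
    (f x28306) (Nat.add (f x28308) (Nat.add (f x28314) (Nat.add (f x28324) (Nat.add (f x28326)
    (Nat.add (f x28332) (Nat.add (f x28352) (Nat.add (f x28354) (Nat.add (f x28356) (Nat.add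
    (f x28360) (Nat.add (f x28362) (Nat.add (f x28368) (Nat.add (f x28378) (Nat.add (f x28380)
    (Nat.add (f x28386) (Nat.add (f x28404) (Nat.add (f x28484) (Nat.add (f x28502) (Nat.add
    (f x28508) (Nat.add (f x28510) (Nat.add (f x28538) (Nat.add (f x28556) (Nat.add (f x28562)
    (Nat.add (f x28564) (Nat.add (f x28574) (Nat.add (f x28580) (Nat.add (f x28582) (Nat.add
    (f x28586) (Nat.add (f x28588) (Nat.add (f x28590) (Nat.add (f x28610) (Nat.add (f x28616)
    (Nat.add (f x28618) (Nat.add (f x28628) (Nat.add (f x28634) (Nat.add (f x28636) (Nat.add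
    (f x28640) (Nat.add (f x28642) (Nat.add (f x28644) (Nat.add (f x28652) (Nat.add (f x28654)
    (Nat.add (f x28658) (Nat.add (f x28660) (Nat.add (f x28662) (Nat.add (f x28666) (Nat.add
    (f x28668) (Nat.add (f x28700) (Nat.add (f x28718) (Nat.add (f x28724) (Nat.add (f x28726)
    (Nat.add (f x28736) (Nat.add (f x28742) (Nat.add (f x28744) (Nat.add (f x28748) (Nat.add
    (f x28750) (Nat.add (f x28752) 0))))))))))))))))))))))))))))))))))))))))))))))))))))))))))))
    (Nat.add (Nat.add (f x28772) (Nat.add (f x28778) (Nat.add (f x28780) (Nat.add (f x28790)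
    (Nat.add (f x28796) (Nat.add (f x28798) (Nat.add (f x28802) (Nat.add (f x28804) (Nat.add
    (f x28806) (Nat.add (f x28814) (Nat.add (f x28816) (Nat.add (f x28820) (Nat.add (f x28822)
    (Nat.add (f x28824) (Nat.add (f x28828) (Nat.add (f x28830) (Nat.add (f x28844) (Nat.add
    (f x28850) (Nat.add (f x28852) (Nat.add (f x28856) (Nat.add (f x28858) (Nat.add (f x28860)
    (Nat.add (f x28868) (Nat.add (f x28870) (Nat.add (f x28874) (Nat.add (f x28876) (Nat.add
    (f x28878) (Nat.add (f x28882) (Nat.add (f x28884) (Nat.add (f x28892) (Nat.add (f x28894)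
    (Nat.add (f x28896) (Nat.add (f x28900) (Nat.add (f x28902) (Nat.add (f x28908) (Nat.add
    (f x28934) (Nat.add (f x28940) (Nat.add (f x28942) (Nat.add (f x28952) (Nat.add (f x28958)
    (Nat.add (f x28960) (Nat.add (f x28964) (Nat.add (f x28966) (Nat.add (f x28968) (Nat.add
    (f x28976) (Nat.add (f x28978) (Nat.add (f x28982) (Nat.add (f x28984) (Nat.add (f x28986)
    (Nat.add (f x28990) (Nat.add (f x28992) (Nat.add (f x29006) (Nat.add (f x29012) (Nat.add
    (f x29014) (Nat.add (f x29018) (Nat.add (f x29020) (Nat.add (f x29022) (Nat.add (f x29030)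
    (Nat.add (f x29032) (Nat.add (f x29036)
    0)))))))))))))))))))))))))))))))))))))))))))))))))))))))))))) (Nat.add (Nat.add (f x29038)
    (Nat.add (f x29040) (Nat.add (f x29044) (Nat.add (f x29046) (Nat.add (f x29054) (Nat.add
    (f x29056) (Nat.add (f x29058) (Nat.add (f x29062) (Nat.add (f x29064) (Nat.add (f x29070)
    (Nat.add (f x29084) (Nat.add (f x29086) (Nat.add (f x29090) (Nat.add (f x29092) (Nat.add
    (f x29094) (Nat.add (f x29098) (Nat.add (f x29100) (Nat.add (f x29108) (Nat.add (f x29110)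
    (Nat.add (f x29112) (Nat.add (f x29116) (Nat.add (f x29118) (Nat.add (f x29124) (Nat.add
    (f x29134) (Nat.add (f x29136) (Nat.add (f x29142) (Nat.add (f x29186) (Nat.add (f x29204)
    (Nat.add (f x29210) (Nat.add (f x29212) (Nat.add (f x29222) (Nat.add (f x29228) (Nat.add
    (f x29230) (Nat.add (f x29234) (Nat.add (f x29236) (Nat.add (f x29238) (Nat.add (f x29258)
    (Nat.add (f x29264) (Nat.add (f x29266) (Nat.add (f x29276) (Nat.add (f x29282) (Nat.add
    (f x29284) (Nat.add (f x29288) (Nat.add (f x29290) (Nat.add (f x29292) (Nat.add (f x29300)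
    (Nat.add (f x29302) (Nat.add (f x29306) (Nat.add (f x29308) (Nat.add (f x29310) (Nat.add
    (f x29314) (Nat.add (f x29316) (Nat.add (f x29330) (Nat.add (f x29336) (Nat.add (f x29338)
    (Nat.add (f x29342) (Nat.add (f x29344) (Nat.add (f x29346) (Nat.add (f x29354) (Nat.add
    (f x29356) 0)))))))))))))))))))))))))))))))))))))))))))))))))))))))))))) (Nat.add (Nat.add
    (f x29360) (Nat.add (f x29362) (Nat.add (f x29364) (Nat.add (f x29368) (Nat.add (f x29370)
    (Nat.add (f x29378) (Nat.add (f x29380) (Nat.add (f x29382) (Nat.add (f x29386) (Nat.add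
    (f x29388) (Nat.add (f x29394) (Nat.add (f x29420) (Nat.add (f x29426) (Nat.add (f x29428)
    (Nat.add (f x29438) (Nat.add (f x29444) (Nat.add (f x29446) (Nat.add (f x29450) (Nat.add
    (f x29452) (Nat.add (f x29454) (Nat.add (f x29462) (Nat.add (f x29464) (Nat.add (f x29468)
    (Nat.add (f x29470) (Nat.add (f x29472) (Nat.add (f x29476) (Nat.add (f x29478) (Nat.add
    (f x29492) (Nat.add (f x29498) (Nat.add (f x29500) (Nat.add (f x29504) (Nat.add (f x29506)
    (Nat.add (f x29508) (Nat.add (f x29516) (Nat.add (f x29518) (Nat.add (f x29522) (Nat.add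
    (f x29524) (Nat.add (f x29526) (Nat.add (f x29530) (Nat.add (f x29532) (Nat.add (f x29540)
    (Nat.add (f x29542) (Nat.add (f x29544) (Nat.add (f x29548) (Nat.add (f x29550) (Nat.add
    (f x29556) (Nat.add (f x29570) (Nat.add (f x29572) (Nat.add (f x29576) (Nat.add (f x29578)
    (Nat.add (f x29580) (Nat.add (f x29584) (Nat.add (f x29586) (Nat.add (f x29594) (Nat.add
    (f x29596) (Nat.add (f x29598) (Nat.add (f x29602) (Nat.add (f x29604) (Nat.add (f x29610)
    (Nat.add (f x29620) 0)))))))))))))))))))))))))))))))))))))))))))))))))))))))))))) (Nat.add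
    (Nat.add (f x29622) (Nat.add (f x29628) (Nat.add (f x29654) (Nat.add (f x29660) (Nat.add
    (f x29662) (Nat.add (f x29666) (Nat.add (f x29668) (Nat.add (f x29670) (Nat.add (f x29678)
    (Nat.add (f x29680) (Nat.add (f x29684) (Nat.add (f x29686) (Nat.add (f x29688) (Nat.add
    (f x29692) (Nat.add (f x29694) (Nat.add (f x29702) (Nat.add (f x29704) (Nat.add (f x29706)
    (Nat.add (f x29710) (Nat.add (f x29712) (Nat.add (f x29718) (Nat.add (f x29732) (Nat.add
    (f x29734) (Nat.add (f x29738) (Nat.add (f x29740) (Nat.add (f x29742) (Nat.add (f x29746)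
    (Nat.add (f x29748) (Nat.add (f x29756) (Nat.add (f x29758) (Nat.add (f x29760) (Nat.add
    (f x29764) (Nat.add (f x29766) (Nat.add (f x29772) (Nat.add (f x29782) (Nat.add (f x29784)
    (Nat.add (f x29790) (Nat.add (f x29810) (Nat.add (f x29812) (Nat.add (f x29814) (Nat.add
    (f x29818) (Nat.add (f x29820) (Nat.add (f x29826) (Nat.add (f x29836) (Nat.add (f x29838)
    (Nat.add (f x29844) (Nat.add (f x29862) (Nat.add (f x29906) (Nat.add (f x29912) (Nat.add
    (f x29914) (Nat.add (f x29924) (Nat.add (f x29930) (Nat.add (f x29932) (Nat.add (f x29936)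
    (Nat.add (f x29938) (Nat.add (f x29940) (Nat.add (f x29948) (Nat.add (f x29950) (Nat.add
    (f x29954) (Nat.add (f x29956) 0))))))))))))))))))))))))))))))))))))))))))))))))))))))))))))
    (Nat.add (Nat.add (f x29958) (Nat.add (f x29962) (Nat.add (f x29964) (Nat.add (f x29978)
    (Nat.add (f x29984) (Nat.add (f x29986) (Nat.add (f x29990) (Nat.add (f x29992) (Nat.add
    (f x29994) (Nat.add (f x30002) (Nat.add (f x30004) (Nat.add (f x30008) (Nat.add (f x30010)
    (Nat.add (f x30012) (Nat.add (f x30016) (Nat.add (f x30018) (Nat.add (f x30026) (Nat.add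
    (f x30028) (Nat.add (f x30030) (Nat.add (f x30034) (Nat.add (f x30036) (Nat.add (f x30042)
    (Nat.add (f x30056) (Nat.add (f x30058) (Nat.add (f x30062) (Nat.add (f x30064) (Nat.add
    (f x30066) (Nat.add (f x30070) (Nat.add (f x30072) (Nat.add (f x30080) (Nat.add (f x30082)
    (Nat.add (f x30084) (Nat.add (f x30088) (Nat.add (f x30090) (Nat.add (f x30096) (Nat.add
    (f x30106) (Nat.add (f x30108) (Nat.add (f x30114) (Nat.add (f x30140) (Nat.add (f x30146)
    (Nat.add (f x30148) (Nat.add (f x30152) (Nat.add (f x30154) (Nat.add (f x30156) (Nat.add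
    (f x30164) (Nat.add (f x30166) (Nat.add (f x30170) (Nat.add (f x30172) (Nat.add (f x30174)
    (Nat.add (f x30178) (Nat.add (f x30180) (Nat.add (f x30188) (Nat.add (f x30190) (Nat.add
    (f x30192) (Nat.add (f x30196) (Nat.add (f x30198) (Nat.add (f x30204) (Nat.add (f x30218)
    (Nat.add (f x30220) (Nat.add (f x30224)
    0)))))))))))))))))))))))))))))))))))))))))))))))))))))))))))) (Nat.add (Nat.add (f x30226)
    (Nat.add (f x30228) (Nat.add (f x30232) (Nat.add (f x30234) (Nat.add (f x30242) (Nat.add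
    (f x30244) (Nat.add (f x30246) (Nat.add (f x30250) (Nat.add (f x30252) (Nat.add (f x30258)
    (Nat.add (f x30268) (Nat.add (f x30270) (Nat.add (f x30276) (Nat.add (f x30296) (Nat.add
    (f x30298) (Nat.add (f x30300) (Nat.add (f x30304) (Nat.add (f x30306) (Nat.add (f x30312)
    (Nat.add (f x30322) (Nat.add (f x30324) (Nat.add (f x30330) (Nat.add (f x30348) (Nat.add
    (f x30380) (Nat.add (f x30382) (Nat.add (f x30386) (Nat.add (f x30388) (Nat.add (f x30390)
    (Nat.add (f x30394) (Nat.add (f x30396) (Nat.add (f x30404) (Nat.add (f x30406) (Nat.add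
    (f x30408) (Nat.add (f x30412) (Nat.add (f x30414) (Nat.add (f x30420) (Nat.add (f x30430)
    (Nat.add (f x30432) (Nat.add (f x30438) (Nat.add (f x30458) (Nat.add (f x30460) (Nat.add
    (f x30462) (Nat.add (f x30466) (Nat.add (f x30468) (Nat.add (f x30474) (Nat.add (f x30484)
    (Nat.add (f x30486) (Nat.add (f x30492) (Nat.add (f x30510) (Nat.add (f x30538) (Nat.add
    (f x30540) (Nat.add (f x30546) (Nat.add (f x30564) (Nat.add (f x30644) (Nat.add (f x30662)
    (Nat.add (f x30668) (Nat.add (f x30670) (Nat.add (f x30680) (Nat.add (f x30686) (Nat.add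
    (f x30688) 0)))))))))))))))))))))))))))))))))))))))))))))))))))))))))))) (Nat.add (Nat.add
    (f x30692) (Nat.add (f x30694) (Nat.add (f x30696) (Nat.add (f x30716) (Nat.add (f x30722)
    (Nat.add (f x30724) (Nat.add (f x30734) (Nat.add (f x30740) (Nat.add (f x30742) (Nat.add
    (f x30746) (Nat.add (f x30748) (Nat.add (f x30750) (Nat.add (f x30758) (Nat.add (f x30760)
    (Nat.add (f x30764) (Nat.add (f x30766) (Nat.add (f x30768) (Nat.add (f x30772) (Nat.add
    (f x30774) (Nat.add (f x30788) (Nat.add (f x30794) (Nat.add (f x30796) (Nat.add (f x30800)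
    (Nat.add (f x30802) (Nat.add (f x30804) (Nat.add (f x30812) (Nat.add (f x30814) (Nat.add
    (f x30818) (Nat.add (f x30820) (Nat.add (f x30822) (Nat.add (f x30826) (Nat.add (f x30828)
    (Nat.add (f x30836) (Nat.add (f x30838) (Nat.add (f x30840) (Nat.add (f x30844) (Nat.add
    (f x30846) (Nat.add (f x30852) (Nat.add (f x30878) (Nat.add (f x30884) (Nat.add (f x30886)
    (Nat.add (f x30896) (Nat.add (f x30902) (Nat.add (f x30904) (Nat.add (f x30908) (Nat.add
    (f x30910) (Nat.add (f x30912) (Nat.add (f x30920) (Nat.add (f x30922) (Nat.add (f x30926)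
    (Nat.add (f x30928) (Nat.add (f x30930) (Nat.add (f x30934) (Nat.add (f x30936) (Nat.add
    (f x30950) (Nat.add (f x30956) (Nat.add (f x30958) (Nat.add (f x30962) (Nat.add (f x30964)
    (Nat.add (f x30966) 0)))))))))))))))))))))))))))))))))))))))))))))))))))))))))))) (Nat.add
    (Nat.add (f x30974) (Nat.add (f x30976) (Nat.add (f x30980) (Nat.add (f x30982) (Nat.add
    (f x30984) (Nat.add (f x30988) (Nat.add (f x30990) (Nat.add (f x30998) (Nat.add (f x31000)
    (Nat.add (f x31002) (Nat.add (f x31006) (Nat.add (f x31008) (Nat.add (f x31014) (Nat.add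
    (f x31028) (Nat.add (f x31030) (Nat.add (f x31034) (Nat.add (f x31036) (Nat.add (f x31038)
    (Nat.add (f x31042) (Nat.add (f x31044) (Nat.add (f x31052) (Nat.add (f x31054) (Nat.add
    (f x31056) (Nat.add (f x31060) (Nat.add (f x31062) (Nat.add (f x31068) (Nat.add (f x31078)
    (Nat.add (f x31080) (Nat.add (f x31086) (Nat.add (f x31112) (Nat.add (f x31118) (Nat.add
    (f x31120) (Nat.add (f x31124) (Nat.add (f x31126) (Nat.add (f x31128) (Nat.add (f x31136)
    (Nat.add (f x31138) (Nat.add (f x31142) (Nat.add (f x31144) (Nat.add (f x31146) (Nat.add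
    (f x31150) (Nat.add (f x31152) (Nat.add (f x31160) (Nat.add (f x31162) (Nat.add (f x31164)
    (Nat.add (f x31168) (Nat.add (f x31170) (Nat.add (f x31176) (Nat.add (f x31190) (Nat.add
    (f x31192) (Nat.add (f x31196) (Nat.add (f x31198) (Nat.add (f x31200) (Nat.add (f x31204)
    (Nat.add (f x31206) (Nat.add (f x31214) (Nat.add (f x31216) (Nat.add (f x31218) (Nat.add
    (f x31222) (Nat.add (f x31224) 0))))))))))))))))))))))))))))))))))))))))))))))))))))))))))))
    (Nat.add (Nat.add (f x31230) (Nat.add (f x31240) (Nat.add (f x31242) (Nat.add (f x31248)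
    (Nat.add (f x31268) (Nat.add (f x31270) (Nat.add (f x31272) (Nat.add (f x31276) (Nat.add
    (f x31278) (Nat.add (f x31284) (Nat.add (f x31294) (Nat.add (f x31296) (Nat.add (f x31302)
    (Nat.add (f x31320) (Nat.add (f x31364) (Nat.add (f x31370) (Nat.add (f x31372) (Nat.add
    (f x31382) (Nat.add (f x31388) (Nat.add (f x31390) (Nat.add (f x31394) (Nat.add (f x31396)
    (Nat.add (f x31398) (Nat.add (f x31406) (Nat.add (f x31408) (Nat.add (f x31412) (Nat.add
    (f x31414) (Nat.add (f x31416) (Nat.add (f x31420) (Nat.add (f x31422) (Nat.add (f x31436)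
    (Nat.add (f x31442) (Nat.add (f x31444) (Nat.add (f x31448) (Nat.add (f x31450) (Nat.add
    (f x31452) (Nat.add (f x31460) (Nat.add (f x31462) (Nat.add (f x31466) (Nat.add (f x31468)
    (Nat.add (f x31470) (Nat.add (f x31474) (Nat.add (f x31476) (Nat.add (f x31484) (Nat.add
    (f x31486) (Nat.add (f x31488) (Nat.add (f x31492) (Nat.add (f x31494) (Nat.add (f x31500)
    (Nat.add (f x31514) (Nat.add (f x31516) (Nat.add (f x31520) (Nat.add (f x31522) (Nat.add
    (f x31524) (Nat.add (f x31528) (Nat.add (f x31530) (Nat.add (f x31538) (Nat.add (f x31540)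
    (Nat.add (f x31542) (Nat.add (f x31546)
    0)))))))))))))))))))))))))))))))))))))))))))))))))))))))))))) (Nat.add (Nat.add (f x31548)
    (Nat.add (f x31554) (Nat.add (f x31564) (Nat.add (f x31566) (Nat.add (f x31572) (Nat.add
    (f x31598) (Nat.add (f x31604) (Nat.add (f x31606) (Nat.add (f x31610) (Nat.add (f x31612)
    (Nat.add (f x31614) (Nat.add (f x31622) (Nat.add (f x31624) (Nat.add (f x31628) (Nat.add
    (f x31630) (Nat.add (f x31632) (Nat.add (f x31636) (Nat.add (f x31638) (Nat.add (f x31646)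
    (Nat.add (f x31648) (Nat.add (f x31650) (Nat.add (f x31654) (Nat.add (f x31656) (Nat.add
    (f x31662) (Nat.add (f x31676) (Nat.add (f x31678) (Nat.add (f x31682) (Nat.add (f x31684)
    (Nat.add (f x31686) (Nat.add (f x31690) (Nat.add (f x31692) (Nat.add (f x31700) (Nat.add
    (f x31702) (Nat.add (f x31704) (Nat.add (f x31708) (Nat.add (f x31710) (Nat.add (f x31716)
    (Nat.add (f x31726) (Nat.add (f x31728) (Nat.add (f x31734) (Nat.add (f x31754) (Nat.add
    (f x31756) (Nat.add (f x31758) (Nat.add (f x31762) (Nat.add (f x31764) (Nat.add (f x31770)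
    (Nat.add (f x31780) (Nat.add (f x31782) (Nat.add (f x31788) (Nat.add (f x31806) (Nat.add
    (f x31838) (Nat.add (f x31840) (Nat.add (f x31844) (Nat.add (f x31846) (Nat.add (f x31848)
    (Nat.add (f x31852) (Nat.add (f x31854) (Nat.add (f x31862) (Nat.add (f x31864) (Nat.add
    (f x31866) 0)))))))))))))))))))))))))))))))))))))))))))))))))))))))))))) (Nat.add (Nat.add
    (f x31870) (Nat.add (f x31872) (Nat.add (f x31878) (Nat.add (f x31888) (Nat.add (f x31890)
    (Nat.add (f x31896) (Nat.add (f x31916) (Nat.add (f x31918) (Nat.add (f x31920) (Nat.add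
    (f x31924) (Nat.add (f x31926) (Nat.add (f x31932) (Nat.add (f x31942) (Nat.add (f x31944)
    (Nat.add (f x31950) (Nat.add (f x31968) (Nat.add (f x31996) (Nat.add (f x31998) (Nat.add
    (f x32004) (Nat.add (f x32022) (Nat.add (f x32084) (Nat.add (f x32090) (Nat.add (f x32092)
    (Nat.add (f x32096) (Nat.add (f x32098) (Nat.add (f x32100) (Nat.add (f x32108) (Nat.add
    (f x32110) (Nat.add (f x32114) (Nat.add (f x32116) (Nat.add (f x32118) (Nat.add (f x32122)
    (Nat.add (f x32124) (Nat.add (f x32132) (Nat.add (f x32134) (Nat.add (f x32136) (Nat.add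
    (f x32140) (Nat.add (f x32142) (Nat.add (f x32148) (Nat.add (f x32162) (Nat.add (f x32164)
    (Nat.add (f x32168) (Nat.add (f x32170) (Nat.add (f x32172) (Nat.add (f x32176) (Nat.add
    (f x32178) (Nat.add (f x32186) (Nat.add (f x32188) (Nat.add (f x32190) (Nat.add (f x32194)
    (Nat.add (f x32196) (Nat.add (f x32202) (Nat.add (f x32212) (Nat.add (f x32214) (Nat.add
    (f x32220) (Nat.add (f x32240) (Nat.add (f x32242) (Nat.add (f x32244) (Nat.add (f x32248)
    (Nat.add (f x32250) 0)))))))))))))))))))))))))))))))))))))))))))))))))))))))))))) (Nat.add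
    (Nat.add (f x32256) (Nat.add (f x32266) (Nat.add (f x32268) (Nat.add (f x32274) (Nat.add
    (f x32292) (Nat.add (f x32324) (Nat.add (f x32326) (Nat.add (f x32330) (Nat.add (f x32332)
    (Nat.add (f x32334) (Nat.add (f x32338) (Nat.add (f x32340) (Nat.add (f x32348) (Nat.add
    (f x32350) (Nat.add (f x32352) (Nat.add (f x32356) (Nat.add (f x32358) (Nat.add (f x32364)
    (Nat.add (f x32374) (Nat.add (f x32376) (Nat.add (f x32382) (Nat.add (f x32402) (Nat.add
    (f x32404) (Nat.add (f x32406) (Nat.add (f x32410) (Nat.add (f x32412) (Nat.add (f x32418)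
    (Nat.add (f x32428) (Nat.add (f x32430) (Nat.add (f x32436) (Nat.add (f x32454) (Nat.add
    (f x32482) (Nat.add (f x32484) (Nat.add (f x32490) (Nat.add (f x32508) (Nat.add (f x32564)
    (Nat.add (f x32566) (Nat.add (f x32568) (Nat.add (f x32572) (Nat.add (f x32574) (Nat.add
    (f x32580) (Nat.add (f x32590) (Nat.add (f x32592) (Nat.add (f x32598) (Nat.add (f x32616)
    (Nat.add (f x32644) (Nat.add (f x32646) (Nat.add (f x32652) (Nat.add (f x32670) (Nat.add
    (f x32724) (Nat.add (f x32858) (Nat.add (f x32876) (Nat.add (f x32882) (Nat.add (f x32884)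
    (Nat.add (f x32912) (Nat.add (f x32930) (Nat.add (f x32936) (Nat.add (f x32938) (Nat.add
    (f x32948) (Nat.add (f x32954) 0))))))))))))))))))))))))))))))))))))))))))))))))))))))))))))
    (Nat.add (Nat.add (f x32956) (Nat.add (f x32960) (Nat.add (f x32962) (Nat.add (f x32964)
    (Nat.add (f x32984) (Nat.add (f x32990) (Nat.add (f x32992) (Nat.add (f x33002) (Nat.add
    (f x33008) (Nat.add (f x33010) (Nat.add (f x33014) (Nat.add (f x33016) (Nat.add (f x33018)
    (Nat.add (f x33026) (Nat.add (f x33028) (Nat.add (f x33032) (Nat.add (f x33034) (Nat.add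
    (f x33036) (Nat.add (f x33040) (Nat.add (f x33042) (Nat.add (f x33074) (Nat.add (f x33092)
    (Nat.add (f x33098) (Nat.add (f x33100) (Nat.add (f x33110) (Nat.add (f x33116) (Nat.add
    (f x33118) (Nat.add (f x33122) (Nat.add (f x33124) (Nat.add (f x33126) (Nat.add (f x33146)
    (Nat.add (f x33152) (Nat.add (f x33154) (Nat.add (f x33164) (Nat.add (f x33170) (Nat.add
    (f x33172) (Nat.add (f x33176) (Nat.add (f x33178) (Nat.add (f x33180) (Nat.add (f x33188)
    (Nat.add (f x33190) (Nat.add (f x33194) (Nat.add (f x33196) (Nat.add (f x33198) (Nat.add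
    (f x33202) (Nat.add (f x33204) (Nat.add (f x33218) (Nat.add (f x33224) (Nat.add (f x33226)
    (Nat.add (f x33230) (Nat.add (f x33232) (Nat.add (f x33234) (Nat.add (f x33242) (Nat.add
    (f x33244) (Nat.add (f x33248) (Nat.add (f x33250) (Nat.add (f x33252) (Nat.add (f x33256)
    (Nat.add (f x33258) (Nat.add (f x33266)
    0)))))))))))))))))))))))))))))))))))))))))))))))))))))))))))) (Nat.add (Nat.add (f x33268)
    (Nat.add (f x33270) (Nat.add (f x33274) (Nat.add (f x33276) (Nat.add (f x33282) (Nat.add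
    (f x33308) (Nat.add (f x33314) (Nat.add (f x33316) (Nat.add (f x33326) (Nat.add (f x33332)
    (Nat.add (f x33334) (Nat.add (f x33338) (Nat.add (f x33340) (Nat.add (f x33342) (Nat.add
    (f x33350) (Nat.add (f x33352) (Nat.add (f x33356) (Nat.add (f x33358) (Nat.add (f x33360)
    (Nat.add (f x33364) (Nat.add (f x33366) (Nat.add (f x33380) (Nat.add (f x33386) (Nat.add
    (f x33388) (Nat.add (f x33392) (Nat.add (f x33394) (Nat.add (f x33396) (Nat.add (f x33404)
    (Nat.add (f x33406) (Nat.add (f x33410) (Nat.add (f x33412) (Nat.add (f x33414) (Nat.add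
    (f x33418) (Nat.add (f x33420) (Nat.add (f x33428) (Nat.add (f x33430) (Nat.add (f x33432)
    (Nat.add (f x33436) (Nat.add (f x33438) (Nat.add (f x33444) (Nat.add (f x33458) (Nat.add
    (f x33460) (Nat.add (f x33464) (Nat.add (f x33466) (Nat.add (f x33468) (Nat.add (f x33472)
    (Nat.add (f x33474) (Nat.add (f x33482) (Nat.add (f x33484) (Nat.add (f x33486) (Nat.add
    (f x33490) (Nat.add (f x33492) (Nat.add (f x33498) (Nat.add (f x33508) (Nat.add (f x33510)
    (Nat.add (f x33516) (Nat.add (f x33560) (Nat.add (f x33578) (Nat.add (f x33584) (Nat.add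
    (f x33586) 0)))))))))))))))))))))))))))))))))))))))))))))))))))))))))))) (Nat.add (Nat.add
    (f x33596) (Nat.add (f x33602) (Nat.add (f x33604) (Nat.add (f x33608) (Nat.add (f x33610)
    (Nat.add (f x33612) (Nat.add (f x33632) (Nat.add (f x33638) (Nat.add (f x33640) (Nat.add
    (f x33650) (Nat.add (f x33656) (Nat.add (f x33658) (Nat.add (f x33662) (Nat.add (f x33664)
    (Nat.add (f x33666) (Nat.add (f x33674) (Nat.add (f x33676) (Nat.add (f x33680) (Nat.add
    (f x33682) (Nat.add (f x33684) (Nat.add (f x33688) (Nat.add (f x33690) (Nat.add (f x33704)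
    (Nat.add (f x33710) (Nat.add (f x33712) (Nat.add (f x33716) (Nat.add (f x33718) (Nat.add
    (f x33720) (Nat.add (f x33728) (Nat.add (f x33730) (Nat.add (f x33734) (Nat.add (f x33736)
    (Nat.add (f x33738) (Nat.add (f x33742) (Nat.add (f x33744) (Nat.add (f x33752) (Nat.add
    (f x33754) (Nat.add (f x33756) (Nat.add (f x33760) (Nat.add (f x33762) (Nat.add (f x33768)
    (Nat.add (f x33794) (Nat.add (f x33800) (Nat.add (f x33802) (Nat.add (f x33812) (Nat.add
    (f x33818) (Nat.add (f x33820) (Nat.add (f x33824) (Nat.add (f x33826) (Nat.add (f x33828)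
    (Nat.add (f x33836) (Nat.add (f x33838) (Nat.add (f x33842) (Nat.add (f x33844) (Nat.add
    (f x33846) (Nat.add (f x33850) (Nat.add (f x33852) (Nat.add (f x33866) (Nat.add (f x33872)
    (Nat.add (f x33874) 0)))))))))))))))))))))))))))))))))))))))))))))))))))))))))))) (Nat.add
    (Nat.add (f x33878) (Nat.add (f x33880) (Nat.add (f x33882) (Nat.add (f x33890) (Nat.add
    (f x33892) (Nat.add (f x33896) (Nat.add (f x33898) (Nat.add (f x33900) (Nat.add (f x33904)
    (Nat.add (f x33906) (Nat.add (f x33914) (Nat.add (f x33916) (Nat.add (f x33918) (Nat.add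
    (f x33922) (Nat.add (f x33924) (Nat.add (f x33930) (Nat.add (f x33944) (Nat.add (f x33946)
    (Nat.add (f x33950) (Nat.add (f x33952) (Nat.add (f x33954) (Nat.add (f x33958) (Nat.add
    (f x33960) (Nat.add (f x33968) (Nat.add (f x33970) (Nat.add (f x33972) (Nat.add (f x33976)
    (Nat.add (f x33978) (Nat.add (f x33984) (Nat.add (f x33994) (Nat.add (f x33996) (Nat.add
    (f x34002) (Nat.add (f x34028) (Nat.add (f x34034) (Nat.add (f x34036) (Nat.add (f x34040)
    (Nat.add (f x34042) (Nat.add (f x34044) (Nat.add (f x34052) (Nat.add (f x34054) (Nat.add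
    (f x34058) (Nat.add (f x34060) (Nat.add (f x34062) (Nat.add (f x34066) (Nat.add (f x34068)
    (Nat.add (f x34076) (Nat.add (f x34078) (Nat.add (f x34080) (Nat.add (f x34084) (Nat.add
    (f x34086) (Nat.add (f x34092) (Nat.add (f x34106) (Nat.add (f x34108) (Nat.add (f x34112)
    (Nat.add (f x34114) (Nat.add (f x34116) (Nat.add (f x34120) (Nat.add (f x34122) (Nat.add
    (f x34130) (Nat.add (f x34132) 0))))))))))))))))))))))))))))))))))))))))))))))))))))))))))))
    (Nat.add (Nat.add (f x34134) (Nat.add (f x34138) (Nat.add (f x34140) (Nat.add (f x34146)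
    (Nat.add (f x34156) (Nat.add (f x34158) (Nat.add (f x34164) (Nat.add (f x34184) (Nat.add
    (f x34186) (Nat.add (f x34188) (Nat.add (f x34192) (Nat.add (f x34194) (Nat.add (f x34200)
    (Nat.add (f x34210) (Nat.add (f x34212) (Nat.add (f x34218) (Nat.add (f x34236) (Nat.add
    (f x34280) (Nat.add (f x34286) (Nat.add (f x34288) (Nat.add (f x34298) (Nat.add (f x34304)
    (Nat.add (f x34306) (Nat.add (f x34310) (Nat.add (f x34312) (Nat.add (f x34314) (Nat.add
    (f x34322) (Nat.add (f x34324) (Nat.add (f x34328) (Nat.add (f x34330) (Nat.add (f x34332)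
    (Nat.add (f x34336) (Nat.add (f x34338) (Nat.add (f x34352) (Nat.add (f x34358) (Nat.add
    (f x34360) (Nat.add (f x34364) (Nat.add (f x34366) (Nat.add (f x34368) (Nat.add (f x34376)
    (Nat.add (f x34378) (Nat.add (f x34382) (Nat.add (f x34384) (Nat.add (f x34386) (Nat.add
    (f x34390) (Nat.add (f x34392) (Nat.add (f x34400) (Nat.add (f x34402) (Nat.add (f x34404)
    (Nat.add (f x34408) (Nat.add (f x34410) (Nat.add (f x34416) (Nat.add (f x34430) (Nat.add
    (f x34432) (Nat.add (f x34436) (Nat.add (f x34438) (Nat.add (f x34440) (Nat.add (f x34444)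
    (Nat.add (f x34446) (Nat.add (f x34454)
    0)))))))))))))))))))))))))))))))))))))))))))))))))))))))))))) (Nat.add (Nat.add (f x34456)
    (Nat.add (f x34458) (Nat.add (f x34462) (Nat.add (f x34464) (Nat.add (f x34470) (Nat.add
    (f x34480) (Nat.add (f x34482) (Nat.add (f x34488) (Nat.add (f x34514) (Nat.add (f x34520)
    (Nat.add (f x34522) (Nat.add (f x34526) (Nat.add (f x34528) (Nat.add (f x34530) (Nat.add
    (f x34538) (Nat.add (f x34540) (Nat.add (f x34544) (Nat.add (f x34546) (Nat.add (f x34548)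
    (Nat.add (f x34552) (Nat.add (f x34554) (Nat.add (f x34562) (Nat.add (f x34564) (Nat.add
    (f x34566) (Nat.add (f x34570) (Nat.add (f x34572) (Nat.add (f x34578) (Nat.add (f x34592)
    (Nat.add (f x34594) (Nat.add (f x34598) (Nat.add (f x34600) (Nat.add (f x34602) (Nat.add
    (f x34606) (Nat.add (f x34608) (Nat.add (f x34616) (Nat.add (f x34618) (Nat.add (f x34620)
    (Nat.add (f x34624) (Nat.add (f x34626) (Nat.add (f x34632) (Nat.add (f x34642) (Nat.add
    (f x34644) (Nat.add (f x34650) (Nat.add (f x34670) (Nat.add (f x34672) (Nat.add (f x34674)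
    (Nat.add (f x34678) (Nat.add (f x34680) (Nat.add (f x34686) (Nat.add (f x34696) (Nat.add
    (f x34698) (Nat.add (f x34704) (Nat.add (f x34722) (Nat.add (f x34754) (Nat.add (f x34756)
    (Nat.add (f x34760) (Nat.add (f x34762) (Nat.add (f x34764) (Nat.add (f x34768) (Nat.add
    (f x34770) 0)))))))))))))))))))))))))))))))))))))))))))))))))))))))))))) (Nat.add (Nat.add
    (f x34778) (Nat.add (f x34780) (Nat.add (f x34782) (Nat.add (f x34786) (Nat.add (f x34788)
    (Nat.add (f x34794) (Nat.add (f x34804) (Nat.add (f x34806) (Nat.add (f x34812) (Nat.add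
    (f x34832) (Nat.add (f x34834) (Nat.add (f x34836) (Nat.add (f x34840) (Nat.add (f x34842)
    (Nat.add (f x34848) (Nat.add (f x34858) (Nat.add (f x34860) (Nat.add (f x34866) (Nat.add
    (f x34884) (Nat.add (f x34912) (Nat.add (f x34914) (Nat.add (f x34920) (Nat.add (f x34938)
    (Nat.add (f x35018) (Nat.add (f x35036) (Nat.add (f x35042) (Nat.add (f x35044) (Nat.add
    (f x35054) (Nat.add (f x35060) (Nat.add (f x35062) (Nat.add (f x35066) (Nat.add (f x35068)
    (Nat.add (f x35070) (Nat.add (f x35090) (Nat.add (f x35096) (Nat.add (f x35098) (Nat.add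
    (f x35108) (Nat.add (f x35114) (Nat.add (f x35116) (Nat.add (f x35120) (Nat.add (f x35122)
    (Nat.add (f x35124) (Nat.add (f x35132) (Nat.add (f x35134) (Nat.add (f x35138) (Nat.add
    (f x35140) (Nat.add (f x35142) (Nat.add (f x35146) (Nat.add (f x35148) (Nat.add (f x35162)
    (Nat.add (f x35168) (Nat.add (f x35170) (Nat.add (f x35174) (Nat.add (f x35176) (Nat.add
    (f x35178) (Nat.add (f x35186) (Nat.add (f x35188) (Nat.add (f x35192) (Nat.add (f x35194)
    (Nat.add (f x35196) 0)))))))))))))))))))))))))))))))))))))))))))))))))))))))))))) (Nat.add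
    (Nat.add (f x35200) (Nat.add (f x35202) (Nat.add (f x35210) (Nat.add (f x35212) (Nat.add
    (f x35214) (Nat.add (f x35218) (Nat.add (f x35220) (Nat.add (f x35226) (Nat.add (f x35252)
    (Nat.add (f x35258) (Nat.add (f x35260) (Nat.add (f x35270) (Nat.add (f x35276) (Nat.add
    (f x35278) (Nat.add (f x35282) (Nat.add (f x35284) (Nat.add (f x35286) (Nat.add (f x35294)
    (Nat.add (f x35296) (Nat.add (f x35300) (Nat.add (f x35302) (Nat.add (f x35304) (Nat.add
    (f x35308) (Nat.add (f x35310) (Nat.add (f x35324) (Nat.add (f x35330) (Nat.add (f x35332)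
    (Nat.add (f x35336) (Nat.add (f x35338) (Nat.add (f x35340) (Nat.add (f x35348) (Nat.add
    (f x35350) (Nat.add (f x35354) (Nat.add (f x35356) (Nat.add (f x35358) (Nat.add (f x35362)
    (Nat.add (f x35364) (Nat.add (f x35372) (Nat.add (f x35374) (Nat.add (f x35376) (Nat.add
    (f x35380) (Nat.add (f x35382) (Nat.add (f x35388) (Nat.add (f x35402) (Nat.add (f x35404)
    (Nat.add (f x35408) (Nat.add (f x35410) (Nat.add (f x35412) (Nat.add (f x35416) (Nat.add
    (f x35418) (Nat.add (f x35426) (Nat.add (f x35428) (Nat.add (f x35430) (Nat.add (f x35434)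
    (Nat.add (f x35436) (Nat.add (f x35442) (Nat.add (f x35452) (Nat.add (f x35454) (Nat.add
    (f x35460) (Nat.add (f x35486) 0))))))))))))))))))))))))))))))))))))))))))))))))))))))))))))
    (Nat.add (Nat.add (f x35492) (Nat.add (f x35494) (Nat.add (f x35498) (Nat.add (f x35500)
    (Nat.add (f x35502) (Nat.add (f x35510) (Nat.add (f x35512) (Nat.add (f x35516) (Nat.add
    (f x35518) (Nat.add (f x35520) (Nat.add (f x35524) (Nat.add (f x35526) (Nat.add (f x35534)
    (Nat.add (f x35536) (Nat.add (f x35538) (Nat.add (f x35542) (Nat.add (f x35544) (Nat.add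
    (f x35550) (Nat.add (f x35564) (Nat.add (f x35566) (Nat.add (f x35570) (Nat.add (f x35572)
    (Nat.add (f x35574) (Nat.add (f x35578) (Nat.add (f x35580) (Nat.add (f x35588) (Nat.add
    (f x35590) (Nat.add (f x35592) (Nat.add (f x35596) (Nat.add (f x35598) (Nat.add (f x35604)
    (Nat.add (f x35614) (Nat.add (f x35616) (Nat.add (f x35622) (Nat.add (f x35642) (Nat.add
    (f x35644) (Nat.add (f x35646) (Nat.add (f x35650) (Nat.add (f x35652) (Nat.add (f x35658)
    (Nat.add (f x35668) (Nat.add (f x35670) (Nat.add (f x35676) (Nat.add (f x35694) (Nat.add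
    (f x35738) (Nat.add (f x35744) (Nat.add (f x35746) (Nat.add (f x35756) (Nat.add (f x35762)
    (Nat.add (f x35764) (Nat.add (f x35768) (Nat.add (f x35770) (Nat.add (f x35772) (Nat.add
    (f x35780) (Nat.add (f x35782) (Nat.add (f x35786) (Nat.add (f x35788) (Nat.add (f x35790)
    (Nat.add (f x35794) (Nat.add (f x35796)
    0)))))))))))))))))))))))))))))))))))))))))))))))))))))))))))) (Nat.add (Nat.add (f x35810)
    (Nat.add (f x35816) (Nat.add (f x35818) (Nat.add (f x35822) (Nat.add (f x35824) (Nat.add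
    (f x35826) (Nat.add (f x35834) (Nat.add (f x35836) (Nat.add (f x35840) (Nat.add (f x35842)
    (Nat.add (f x35844) (Nat.add (f x35848) (Nat.add (f x35850) (Nat.add (f x35858) (Nat.add
    (f x35860) (Nat.add (f x35862) (Nat.add (f x35866) (Nat.add (f x35868) (Nat.add (f x35874)
    (Nat.add (f x35888) (Nat.add (f x35890) (Nat.add (f x35894) (Nat.add (f x35896) (Nat.add
    (f x35898) (Nat.add (f x35902) (Nat.add (f x35904) (Nat.add (f x35912) (Nat.add (f x35914)
    (Nat.add (f x35916) (Nat.add (f x35920) (Nat.add (f x35922) (Nat.add (f x35928) (Nat.add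
    (f x35938) (Nat.add (f x35940) (Nat.add (f x35946) (Nat.add (f x35972) (Nat.add (f x35978)
    (Nat.add (f x35980) (Nat.add (f x35984) (Nat.add (f x35986) (Nat.add (f x35988) (Nat.add
    (f x35996) (Nat.add (f x35998) (Nat.add (f x36002) (Nat.add (f x36004) (Nat.add (f x36006)
    (Nat.add (f x36010) (Nat.add (f x36012) (Nat.add (f x36020) (Nat.add (f x36022) (Nat.add
    (f x36024) (Nat.add (f x36028) (Nat.add (f x36030) (Nat.add (f x36036) (Nat.add (f x36050)
    (Nat.add (f x36052) (Nat.add (f x36056) (Nat.add (f x36058) (Nat.add (f x36060) (Nat.add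
    (f x36064) 0)))))))))))))))))))))))))))))))))))))))))))))))))))))))))))) (Nat.add (Nat.add
    (f x36066) (Nat.add (f x36074) (Nat.add (f x36076) (Nat.add (f x36078) (Nat.add (f x36082)
    (Nat.add (f x36084) (Nat.add (f x36090) (Nat.add (f x36100) (Nat.add (f x36102) (Nat.add
    (f x36108) (Nat.add (f x36128) (Nat.add (f x36130) (Nat.add (f x36132) (Nat.add (f x36136)
    (Nat.add (f x36138) (Nat.add (f x36144) (Nat.add (f x36154) (Nat.add (f x36156) (Nat.add
    (f x36162) (Nat.add (f x36180) (Nat.add (f x36212) (Nat.add (f x36214) (Nat.add (f x36218)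
    (Nat.add (f x36220) (Nat.add (f x36222) (Nat.add (f x36226) (Nat.add (f x36228) (Nat.add
    (f x36236) (Nat.add (f x36238) (Nat.add (f x36240) (Nat.add (f x36244) (Nat.add (f x36246)
    (Nat.add (f x36252) (Nat.add (f x36262) (Nat.add (f x36264) (Nat.add (f x36270) (Nat.add
    (f x36290) (Nat.add (f x36292) (Nat.add (f x36294) (Nat.add (f x36298) (Nat.add (f x36300)
    (Nat.add (f x36306) (Nat.add (f x36316) (Nat.add (f x36318) (Nat.add (f x36324) (Nat.add
    (f x36342) (Nat.add (f x36370) (Nat.add (f x36372) (Nat.add (f x36378) (Nat.add (f x36396)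
    (Nat.add (f x36458) (Nat.add (f x36464) (Nat.add (f x36466) (Nat.add (f x36470) (Nat.add
    (f x36472) (Nat.add (f x36474) (Nat.add (f x36482) (Nat.add (f x36484) (Nat.add (f x36488)
    (Nat.add (f x36490) 0)))))))))))))))))))))))))))))))))))))))))))))))))))))))))))) (Nat.add
    (Nat.add (f x36492) (Nat.add (f x36496) (Nat.add (f x36498) (Nat.add (f x36506) (Nat.add
    (f x36508) (Nat.add (f x36510) (Nat.add (f x36514) (Nat.add (f x36516) (Nat.add (f x36522)
    (Nat.add (f x36536) (Nat.add (f x36538) (Nat.add (f x36542) (Nat.add (f x36544) (Nat.add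
    (f x36546) (Nat.add (f x36550) (Nat.add (f x36552) (Nat.add (f x36560) (Nat.add (f x36562)
    (Nat.add (f x36564) (Nat.add (f x36568) (Nat.add (f x36570) (Nat.add (f x36576) (Nat.add
    (f x36586) (Nat.add (f x36588) (Nat.add (f x36594) (Nat.add (f x36614) (Nat.add (f x36616)
    (Nat.add (f x36618) (Nat.add (f x36622) (Nat.add (f x36624) (Nat.add (f x36630) (Nat.add
    (f x36640) (Nat.add (f x36642) (Nat.add (f x36648) (Nat.add (f x36666) (Nat.add (f x36698)
    (Nat.add (f x36700) (Nat.add (f x36704) (Nat.add (f x36706) (Nat.add (f x36708) (Nat.add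
    (f x36712) (Nat.add (f x36714) (Nat.add (f x36722) (Nat.add (f x36724) (Nat.add (f x36726)
    (Nat.add (f x36730) (Nat.add (f x36732) (Nat.add (f x36738) (Nat.add (f x36748) (Nat.add
    (f x36750) (Nat.add (f x36756) (Nat.add (f x36776) (Nat.add (f x36778) (Nat.add (f x36780)
    (Nat.add (f x36784) (Nat.add (f x36786) (Nat.add (f x36792) (Nat.add (f x36802) (Nat.add
    (f x36804) (Nat.add (f x36810) 0))))))))))))))))))))))))))))))))))))))))))))))))))))))))))))
    (Nat.add (Nat.add (f x36828) (Nat.add (f x36856) (Nat.add (f x36858) (Nat.add (f x36864)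
    (Nat.add (f x36882) (Nat.add (f x36938) (Nat.add (f x36940) (Nat.add (f x36942) (Nat.add
    (f x36946) (Nat.add (f x36948) (Nat.add (f x36954) (Nat.add (f x36964) (Nat.add (f x36966)
    (Nat.add (f x36972) (Nat.add (f x36990) (Nat.add (f x37018) (Nat.add (f x37020) (Nat.add
    (f x37026) (Nat.add (f x37044) (Nat.add (f x37098) (Nat.add (f x37196) (Nat.add (f x37202)
    (Nat.add (f x37204) (Nat.add (f x37214) (Nat.add (f x37220) (Nat.add (f x37222) (Nat.add
    (f x37226) (Nat.add (f x37228) (Nat.add (f x37230) (Nat.add (f x37238) (Nat.add (f x37240)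
    (Nat.add (f x37244) (Nat.add (f x37246) (Nat.add (f x37248) (Nat.add (f x37252) (Nat.add
    (f x37254) (Nat.add (f x37268) (Nat.add (f x37274) (Nat.add (f x37276) (Nat.add (f x37280)
    (Nat.add (f x37282) (Nat.add (f x37284) (Nat.add (f x37292) (Nat.add (f x37294) (Nat.add
    (f x37298) (Nat.add (f x37300) (Nat.add (f x37302) (Nat.add (f x37306) (Nat.add (f x37308)
    (Nat.add (f x37316) (Nat.add (f x37318) (Nat.add (f x37320) (Nat.add (f x37324) (Nat.add
    (f x37326) (Nat.add (f x37332) (Nat.add (f x37346) (Nat.add (f x37348) (Nat.add (f x37352)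
    (Nat.add (f x37354) (Nat.add (f x37356)
    0)))))))))))))))))))))))))))))))))))))))))))))))))))))))))))) (Nat.add (Nat.add (f x37360)
    (Nat.add (f x37362) (Nat.add (f x37370) (Nat.add (f x37372) (Nat.add (f x37374) (Nat.add
    (f x37378) (Nat.add (f x37380) (Nat.add (f x37386) (Nat.add (f x37396) (Nat.add (f x37398)
    (Nat.add (f x37404) (Nat.add (f x37430) (Nat.add (f x37436) (Nat.add (f x37438) (Nat.add
    (f x37442) (Nat.add (f x37444) (Nat.add (f x37446) (Nat.add (f x37454) (Nat.add (f x37456)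
    (Nat.add (f x37460) (Nat.add (f x37462) (Nat.add (f x37464) (Nat.add (f x37468) (Nat.add
    (f x37470) (Nat.add (f x37478) (Nat.add (f x37480) (Nat.add (f x37482) (Nat.add (f x37486)
    (Nat.add (f x37488) (Nat.add (f x37494) (Nat.add (f x37508) (Nat.add (f x37510) (Nat.add
    (f x37514) (Nat.add (f x37516) (Nat.add (f x37518) (Nat.add (f x37522) (Nat.add (f x37524)
    (Nat.add (f x37532) (Nat.add (f x37534) (Nat.add (f x37536) (Nat.add (f x37540) (Nat.add
    (f x37542) (Nat.add (f x37548) (Nat.add (f x37558) (Nat.add (f x37560) (Nat.add (f x37566)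
    (Nat.add (f x37586) (Nat.add (f x37588) (Nat.add (f x37590) (Nat.add (f x37594) (Nat.add
    (f x37596) (Nat.add (f x37602) (Nat.add (f x37612) (Nat.add (f x37614) (Nat.add (f x37620)
    (Nat.add (f x37638) (Nat.add (f x37670) (Nat.add (f x37672) (Nat.add (f x37676) (Nat.add
    (f x37678) 0)))))))))))))))))))))))))))))))))))))))))))))))))))))))))))) (Nat.add (Nat.add
    (f x37680) (Nat.add (f x37684) (Nat.add (f x37686) (Nat.add (f x37694) (Nat.add (f x37696)
    (Nat.add (f x37698) (Nat.add (f x37702) (Nat.add (f x37704) (Nat.add (f x37710) (Nat.add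
    (f x37720) (Nat.add (f x37722) (Nat.add (f x37728) (Nat.add (f x37748) (Nat.add (f x37750)
    (Nat.add (f x37752) (Nat.add (f x37756) (Nat.add (f x37758) (Nat.add (f x37764) (Nat.add
    (f x37774) (Nat.add (f x37776) (Nat.add (f x37782) (Nat.add (f x37800) (Nat.add (f x37828)
    (Nat.add (f x37830) (Nat.add (f x37836) (Nat.add (f x37854) (Nat.add (f x37916) (Nat.add
    (f x37922) (Nat.add (f x37924) (Nat.add (f x37928) (Nat.add (f x37930) (Nat.add (f x37932)
    (Nat.add (f x37940) (Nat.add (f x37942) (Nat.add (f x37946) (Nat.add (f x37948) (Nat.add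
    (f x37950) (Nat.add (f x37954) (Nat.add (f x37956) (Nat.add (f x37964) (Nat.add (f x37966)
    (Nat.add (f x37968) (Nat.add (f x37972) (Nat.add (f x37974) (Nat.add (f x37980) (Nat.add
    (f x37994) (Nat.add (f x37996) (Nat.add (f x38000) (Nat.add (f x38002) (Nat.add (f x38004)
    (Nat.add (f x38008) (Nat.add (f x38010) (Nat.add (f x38018) (Nat.add (f x38020) (Nat.add
    (f x38022) (Nat.add (f x38026) (Nat.add (f x38028) (Nat.add (f x38034) (Nat.add (f x38044)
    (Nat.add (f x38046) 0)))))))))))))))))))))))))))))))))))))))))))))))))))))))))))) (Nat.add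
    (Nat.add (f x38052) (Nat.add (f x38072) (Nat.add (f x38074) (Nat.add (f x38076) (Nat.add
    (f x38080) (Nat.add (f x38082) (Nat.add (f x38088) (Nat.add (f x38098) (Nat.add (f x38100)
    (Nat.add (f x38106) (Nat.add (f x38124) (Nat.add (f x38156) (Nat.add (f x38158) (Nat.add
    (f x38162) (Nat.add (f x38164) (Nat.add (f x38166) (Nat.add (f x38170) (Nat.add (f x38172)
    (Nat.add (f x38180) (Nat.add (f x38182) (Nat.add (f x38184) (Nat.add (f x38188) (Nat.add
    (f x38190) (Nat.add (f x38196) (Nat.add (f x38206) (Nat.add (f x38208) (Nat.add (f x38214)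
    (Nat.add (f x38234) (Nat.add (f x38236) (Nat.add (f x38238) (Nat.add (f x38242) (Nat.add
    (f x38244) (Nat.add (f x38250) (Nat.add (f x38260) (Nat.add (f x38262) (Nat.add (f x38268)
    (Nat.add (f x38286) (Nat.add (f x38314) (Nat.add (f x38316) (Nat.add (f x38322) (Nat.add
    (f x38340) (Nat.add (f x38396) (Nat.add (f x38398) (Nat.add (f x38400) (Nat.add (f x38404)
    (Nat.add (f x38406) (Nat.add (f x38412) (Nat.add (f x38422) (Nat.add (f x38424) (Nat.add
    (f x38430) (Nat.add (f x38448) (Nat.add (f x38476) (Nat.add (f x38478) (Nat.add (f x38484)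
    (Nat.add (f x38502) (Nat.add (f x38556) (Nat.add (f x38642) (Nat.add (f x38644) (Nat.add
    (f x38648) (Nat.add (f x38650) 0))))))))))))))))))))))))))))))))))))))))))))))))))))))))))))
    (Nat.add (Nat.add (f x38652) (Nat.add (f x38656) (Nat.add (f x38658) (Nat.add (f x38666)
    (Nat.add (f x38668) (Nat.add (f x38670) (Nat.add (f x38674) (Nat.add (f x38676) (Nat.add
    (f x38682) (Nat.add (f x38692) (Nat.add (f x38694) (Nat.add (f x38700) (Nat.add (f x38720)
    (Nat.add (f x38722) (Nat.add (f x38724) (Nat.add (f x38728) (Nat.add (f x38730) (Nat.add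
    (f x38736) (Nat.add (f x38746) (Nat.add (f x38748) (Nat.add (f x38754) (Nat.add (f x38772)
    (Nat.add (f x38800) (Nat.add (f x38802) (Nat.add (f x38808) (Nat.add (f x38826) (Nat.add
    (f x38882) (Nat.add (f x38884) (Nat.add (f x38886) (Nat.add (f x38890) (Nat.add (f x38892)
    (Nat.add (f x38898) (Nat.add (f x38908) (Nat.add (f x38910) (Nat.add (f x38916) (Nat.add
    (f x38934) (Nat.add (f x38962) (Nat.add (f x38964) (Nat.add (f x38970) (Nat.add (f x38988)
    (Nat.add (f x39042) (Nat.add (f x39124) (Nat.add (f x39126) (Nat.add (f x39132) (Nat.add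
    (f x39150) (Nat.add (f x39204) (Nat.add (f x39446) (Nat.add (f x39500) (Nat.add (f x39518)
    (Nat.add (f x39524) (Nat.add (f x39526) (Nat.add (f x39554) (Nat.add (f x39572) (Nat.add
    (f x39578) (Nat.add (f x39580) (Nat.add (f x39590) (Nat.add (f x39596) (Nat.add (f x39598)
    (Nat.add (f x39602) (Nat.add (f x39604)
    0)))))))))))))))))))))))))))))))))))))))))))))))))))))))))))) (Nat.add (Nat.add (f x39606)
    (Nat.add (f x39662) (Nat.add (f x39680) (Nat.add (f x39686) (Nat.add (f x39688) (Nat.add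
    (f x39716) (Nat.add (f x39734) (Nat.add (f x39740) (Nat.add (f x39742) (Nat.add (f x39752)
    (Nat.add (f x39758) (Nat.add (f x39760) (Nat.add (f x39764) (Nat.add (f x39766) (Nat.add
    (f x39768) (Nat.add (f x39788) (Nat.add (f x39794) (Nat.add (f x39796) (Nat.add (f x39806)
    (Nat.add (f x39812) (Nat.add (f x39814) (Nat.add (f x39818) (Nat.add (f x39820) (Nat.add
    (f x39822) (Nat.add (f x39830) (Nat.add (f x39832) (Nat.add (f x39836) (Nat.add (f x39838)
    (Nat.add (f x39840) (Nat.add (f x39844) (Nat.add (f x39846) (Nat.add (f x39878) (Nat.add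
    (f x39896) (Nat.add (f x39902) (Nat.add (f x39904) (Nat.add (f x39914) (Nat.add (f x39920)
    (Nat.add (f x39922) (Nat.add (f x39926) (Nat.add (f x39928) (Nat.add (f x39930) (Nat.add
    (f x39950) (Nat.add (f x39956) (Nat.add (f x39958) (Nat.add (f x39968) (Nat.add (f x39974)
    (Nat.add (f x39976) (Nat.add (f x39980) (Nat.add (f x39982) (Nat.add (f x39984) (Nat.add
    (f x39992) (Nat.add (f x39994) (Nat.add (f x39998) (Nat.add (f x40000) (Nat.add (f x40002)
    (Nat.add (f x40006) (Nat.add (f x40008) (Nat.add (f x40022) (Nat.add (f x40028) (Nat.add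
    (f x40030) 0)))))))))))))))))))))))))))))))))))))))))))))))))))))))))))) (Nat.add (Nat.add
    (f x40034) (Nat.add (f x40036) (Nat.add (f x40038) (Nat.add (f x40046) (Nat.add (f x40048)
    (Nat.add (f x40052) (Nat.add (f x40054) (Nat.add (f x40056) (Nat.add (f x40060) (Nat.add
    (f x40062) (Nat.add (f x40070) (Nat.add (f x40072) (Nat.add (f x40074) (Nat.add (f x40078)
    (Nat.add (f x40080) (Nat.add (f x40086) (Nat.add (f x40148) (Nat.add (f x40166) (Nat.add
    (f x40172) (Nat.add (f x40174) (Nat.add (f x40202) (Nat.add (f x40220) (Nat.add (f x40226)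
    (Nat.add (f x40228) (Nat.add (f x40238) (Nat.add (f x40244) (Nat.add (f x40246) (Nat.add
    (f x40250) (Nat.add (f x40252) (Nat.add (f x40254) (Nat.add (f x40274) (Nat.add (f x40280)
    (Nat.add (f x40282) (Nat.add (f x40292) (Nat.add (f x40298) (Nat.add (f x40300) (Nat.add
    (f x40304) (Nat.add (f x40306) (Nat.add (f x40308) (Nat.add (f x40316) (Nat.add (f x40318)
    (Nat.add (f x40322) (Nat.add (f x40324) (Nat.add (f x40326) (Nat.add (f x40330) (Nat.add
    (f x40332) (Nat.add (f x40364) (Nat.add (f x40382) (Nat.add (f x40388) (Nat.add (f x40390)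
    (Nat.add (f x40400) (Nat.add (f x40406) (Nat.add (f x40408) (Nat.add (f x40412) (Nat.add
    (f x40414) (Nat.add (f x40416) (Nat.add (f x40436) (Nat.add (f x40442) (Nat.add (f x40444)
    (Nat.add (f x40454) 0)))))))))))))))))))))))))))))))))))))))))))))))))))))))))))) (Nat.add
    (Nat.add (f x40460) (Nat.add (f x40462) (Nat.add (f x40466) (Nat.add (f x40468) (Nat.add
    (f x40470) (Nat.add (f x40478) (Nat.add (f x40480) (Nat.add (f x40484) (Nat.add (f x40486)
    (Nat.add (f x40488) (Nat.add (f x40492) (Nat.add (f x40494) (Nat.add (f x40508) (Nat.add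
    (f x40514) (Nat.add (f x40516) (Nat.add (f x40520) (Nat.add (f x40522) (Nat.add (f x40524)
    (Nat.add (f x40532) (Nat.add (f x40534) (Nat.add (f x40538) (Nat.add (f x40540) (Nat.add
    (f x40542) (Nat.add (f x40546) (Nat.add (f x40548) (Nat.add (f x40556) (Nat.add (f x40558)
    (Nat.add (f x40560) (Nat.add (f x40564) (Nat.add (f x40566) (Nat.add (f x40572) (Nat.add
    (f x40598) (Nat.add (f x40604) (Nat.add (f x40606) (Nat.add (f x40616) (Nat.add (f x40622)
    (Nat.add (f x40624) (Nat.add (f x40628) (Nat.add (f x40630) (Nat.add (f x40632) (Nat.add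
    (f x40640) (Nat.add (f x40642) (Nat.add (f x40646) (Nat.add (f x40648) (Nat.add (f x40650)
    (Nat.add (f x40654) (Nat.add (f x40656) (Nat.add (f x40670) (Nat.add (f x40676) (Nat.add
    (f x40678) (Nat.add (f x40682) (Nat.add (f x40684) (Nat.add (f x40686) (Nat.add (f x40694)
    (Nat.add (f x40696) (Nat.add (f x40700) (Nat.add (f x40702) (Nat.add (f x40704) (Nat.add
    (f x40708) (Nat.add (f x40710) 0))))))))))))))))))))))))))))))))))))))))))))))))))))))))))))
    (Nat.add (Nat.add (f x40718) (Nat.add (f x40720) (Nat.add (f x40722) (Nat.add (f x40726)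
    (Nat.add (f x40728) (Nat.add (f x40734) (Nat.add (f x40748) (Nat.add (f x40750) (Nat.add
    (f x40754) (Nat.add (f x40756) (Nat.add (f x40758) (Nat.add (f x40762) (Nat.add (f x40764)
    (Nat.add (f x40772) (Nat.add (f x40774) (Nat.add (f x40776) (Nat.add (f x40780) (Nat.add
    (f x40782) (Nat.add (f x40788) (Nat.add (f x40798) (Nat.add (f x40800) (Nat.add (f x40806)
    (Nat.add (f x40850) (Nat.add (f x40868) (Nat.add (f x40874) (Nat.add (f x40876) (Nat.add
    (f x40886) (Nat.add (f x40892) (Nat.add (f x40894) (Nat.add (f x40898) (Nat.add (f x40900)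
    (Nat.add (f x40902) (Nat.add (f x40922) (Nat.add (f x40928) (Nat.add (f x40930) (Nat.add
    (f x40940) (Nat.add (f x40946) (Nat.add (f x40948) (Nat.add (f x40952) (Nat.add (f x40954)
    (Nat.add (f x40956) (Nat.add (f x40964) (Nat.add (f x40966) (Nat.add (f x40970) (Nat.add
    (f x40972) (Nat.add (f x40974) (Nat.add (f x40978) (Nat.add (f x40980) (Nat.add (f x40994)
    (Nat.add (f x41000) (Nat.add (f x41002) (Nat.add (f x41006) (Nat.add (f x41008) (Nat.add
    (f x41010) (Nat.add (f x41018) (Nat.add (f x41020) (Nat.add (f x41024) (Nat.add (f x41026)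
    (Nat.add (f x41028) (Nat.add (f x41032)
    0)))))))))))))))))))))))))))))))))))))))))))))))))))))))))))) (Nat.add (Nat.add (f x41034)
    (Nat.add (f x41042) (Nat.add (f x41044) (Nat.add (f x41046) (Nat.add (f x41050) (Nat.add
    (f x41052) (Nat.add (f x41058) (Nat.add (f x41084) (Nat.add (f x41090) (Nat.add (f x41092)
    (Nat.add (f x41102) (Nat.add (f x41108) (Nat.add (f x41110) (Nat.add (f x41114) (Nat.add
    (f x41116) (Nat.add (f x41118) (Nat.add (f x41126) (Nat.add (f x41128) (Nat.add (f x41132)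
    (Nat.add (f x41134) (Nat.add (f x41136) (Nat.add (f x41140) (Nat.add (f x41142) (Nat.add
    (f x41156) (Nat.add (f x41162) (Nat.add (f x41164) (Nat.add (f x41168) (Nat.add (f x41170)
    (Nat.add (f x41172) (Nat.add (f x41180) (Nat.add (f x41182) (Nat.add (f x41186) (Nat.add
    (f x41188) (Nat.add (f x41190) (Nat.add (f x41194) (Nat.add (f x41196) (Nat.add (f x41204)
    (Nat.add (f x41206) (Nat.add (f x41208) (Nat.add (f x41212) (Nat.add (f x41214) (Nat.add
    (f x41220) (Nat.add (f x41234) (Nat.add (f x41236) (Nat.add (f x41240) (Nat.add (f x41242)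
    (Nat.add (f x41244) (Nat.add (f x41248) (Nat.add (f x41250) (Nat.add (f x41258) (Nat.add
    (f x41260) (Nat.add (f x41262) (Nat.add (f x41266) (Nat.add (f x41268) (Nat.add (f x41274)
    (Nat.add (f x41284) (Nat.add (f x41286) (Nat.add (f x41292) (Nat.add (f x41318) (Nat.add
    (f x41324) 0)))))))))))))))))))))))))))))))))))))))))))))))))))))))))))) (Nat.add (Nat.add
    (f x41326) (Nat.add (f x41330) (Nat.add (f x41332) (Nat.add (f x41334) (Nat.add (f x41342)
    (Nat.add (f x41344) (Nat.add (f x41348) (Nat.add (f x41350) (Nat.add (f x41352) (Nat.add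
    (f x41356) (Nat.add (f x41358) (Nat.add (f x41366) (Nat.add (f x41368) (Nat.add (f x41370)
    (Nat.add (f x41374) (Nat.add (f x41376) (Nat.add (f x41382) (Nat.add (f x41396) (Nat.add
    (f x41398) (Nat.add (f x41402) (Nat.add (f x41404) (Nat.add (f x41406) (Nat.add (f x41410)
    (Nat.add (f x41412) (Nat.add (f x41420) (Nat.add (f x41422) (Nat.add (f x41424) (Nat.add
    (f x41428) (Nat.add (f x41430) (Nat.add (f x41436) (Nat.add (f x41446) (Nat.add (f x41448)
    (Nat.add (f x41454) (Nat.add (f x41474) (Nat.add (f x41476) (Nat.add (f x41478) (Nat.add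
    (f x41482) (Nat.add (f x41484) (Nat.add (f x41490) (Nat.add (f x41500) (Nat.add (f x41502)
    (Nat.add (f x41508) (Nat.add (f x41526) (Nat.add (f x41606) (Nat.add (f x41624) (Nat.add
    (f x41630) (Nat.add (f x41632) (Nat.add (f x41660) (Nat.add (f x41678) (Nat.add (f x41684)
    (Nat.add (f x41686) (Nat.add (f x41696) (Nat.add (f x41702) (Nat.add (f x41704) (Nat.add
    (f x41708) (Nat.add (f x41710) (Nat.add (f x41712) (Nat.add (f x41732) (Nat.add (f x41738)
    (Nat.add (f x41740) 0)))))))))))))))))))))))))))))))))))))))))))))))))))))))))))) (Nat.add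
    (Nat.add (f x41750) (Nat.add (f x41756) (Nat.add (f x41758) (Nat.add (f x41762) (Nat.add
    (f x41764) (Nat.add (f x41766) (Nat.add (f x41774) (Nat.add (f x41776) (Nat.add (f x41780)
    (Nat.add (f x41782) (Nat.add (f x41784) (Nat.add (f x41788) (Nat.add (f x41790) (Nat.add
    (f x41822) (Nat.add (f x41840) (Nat.add (f x41846) (Nat.add (f x41848) (Nat.add (f x41858)
    (Nat.add (f x41864) (Nat.add (f x41866) (Nat.add (f x41870) (Nat.add (f x41872) (Nat.add
    (f x41874) (Nat.add (f x41894) (Nat.add (f x41900) (Nat.add (f x41902) (Nat.add (f x41912)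
    (Nat.add (f x41918) (Nat.add (f x41920) (Nat.add (f x41924) (Nat.add (f x41926) (Nat.add
    (f x41928) (Nat.add (f x41936) (Nat.add (f x41938) (Nat.add (f x41942) (Nat.add (f x41944)
    (Nat.add (f x41946) (Nat.add (f x41950) (Nat.add (f x41952) (Nat.add (f x41966) (Nat.add
    (f x41972) (Nat.add (f x41974) (Nat.add (f x41978) (Nat.add (f x41980) (Nat.add (f x41982)
    (Nat.add (f x41990) (Nat.add (f x41992) (Nat.add (f x41996) (Nat.add (f x41998) (Nat.add
    (f x42000) (Nat.add (f x42004) (Nat.add (f x42006) (Nat.add (f x42014) (Nat.add (f x42016)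
    (Nat.add (f x42018) (Nat.add (f x42022) (Nat.add (f x42024) (Nat.add (f x42030) (Nat.add
    (f x42056) (Nat.add (f x42062) 0))))))))))))))))))))))))))))))))))))))))))))))))))))))))))))
    (Nat.add (Nat.add (f x42064) (Nat.add (f x42074) (Nat.add (f x42080) (Nat.add (f x42082)
    (Nat.add (f x42086) (Nat.add (f x42088) (Nat.add (f x42090) (Nat.add (f x42098) (Nat.add
    (f x42100) (Nat.add (f x42104) (Nat.add (f x42106) (Nat.add (f x42108) (Nat.add (f x42112)
    (Nat.add (f x42114) (Nat.add (f x42128) (Nat.add (f x42134) (Nat.add (f x42136) (Nat.add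
    (f x42140) (Nat.add (f x42142) (Nat.add (f x42144) (Nat.add (f x42152) (Nat.add (f x42154)
    (Nat.add (f x42158) (Nat.add (f x42160) (Nat.add (f x42162) (Nat.add (f x42166) (Nat.add
    (f x42168) (Nat.add (f x42176) (Nat.add (f x42178) (Nat.add (f x42180) (Nat.add (f x42184)
    (Nat.add (f x42186) (Nat.add (f x42192) (Nat.add (f x42206) (Nat.add (f x42208) (Nat.add
    (f x42212) (Nat.add (f x42214) (Nat.add (f x42216) (Nat.add (f x42220) (Nat.add (f x42222)
    (Nat.add (f x42230) (Nat.add (f x42232) (Nat.add (f x42234) (Nat.add (f x42238) (Nat.add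
    (f x42240) (Nat.add (f x42246) (Nat.add (f x42256) (Nat.add (f x42258) (Nat.add (f x42264)
    (Nat.add (f x42308) (Nat.add (f x42326) (Nat.add (f x42332) (Nat.add (f x42334) (Nat.add
    (f x42344) (Nat.add (f x42350) (Nat.add (f x42352) (Nat.add (f x42356) (Nat.add (f x42358)
    (Nat.add (f x42360) (Nat.add (f x42380)
    0)))))))))))))))))))))))))))))))))))))))))))))))))))))))))))) (Nat.add (Nat.add (f x42386)
    (Nat.add (f x42388) (Nat.add (f x42398) (Nat.add (f x42404) (Nat.add (f x42406) (Nat.add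
    (f x42410) (Nat.add (f x42412) (Nat.add (f x42414) (Nat.add (f x42422) (Nat.add (f x42424)
    (Nat.add (f x42428) (Nat.add (f x42430) (Nat.add (f x42432) (Nat.add (f x42436) (Nat.add
    (f x42438) (Nat.add (f x42452) (Nat.add (f x42458) (Nat.add (f x42460) (Nat.add (f x42464)
    (Nat.add (f x42466) (Nat.add (f x42468) (Nat.add (f x42476) (Nat.add (f x42478) (Nat.add
    (f x42482) (Nat.add (f x42484) (Nat.add (f x42486) (Nat.add (f x42490) (Nat.add (f x42492)
    (Nat.add (f x42500) (Nat.add (f x42502) (Nat.add (f x42504) (Nat.add (f x42508) (Nat.add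
    (f x42510) (Nat.add (f x42516) (Nat.add (f x42542) (Nat.add (f x42548) (Nat.add (f x42550)
    (Nat.add (f x42560) (Nat.add (f x42566) (Nat.add (f x42568) (Nat.add (f x42572) (Nat.add
    (f x42574) (Nat.add (f x42576) (Nat.add (f x42584) (Nat.add (f x42586) (Nat.add (f x42590)
    (Nat.add (f x42592) (Nat.add (f x42594) (Nat.add (f x42598) (Nat.add (f x42600) (Nat.add
    (f x42614) (Nat.add (f x42620) (Nat.add (f x42622) (Nat.add (f x42626) (Nat.add (f x42628)
    (Nat.add (f x42630) (Nat.add (f x42638) (Nat.add (f x42640) (Nat.add (f x42644) (Nat.add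
    (f x42646) 0)))))))))))))))))))))))))))))))))))))))))))))))))))))))))))) (Nat.add (Nat.add
    (f x42648) (Nat.add (f x42652) (Nat.add (f x42654) (Nat.add (f x42662) (Nat.add (f x42664)
    (Nat.add (f x42666) (Nat.add (f x42670) (Nat.add (f x42672) (Nat.add (f x42678) (Nat.add
    (f x42692) (Nat.add (f x42694) (Nat.add (f x42698) (Nat.add (f x42700) (Nat.add (f x42702)
    (Nat.add (f x42706) (Nat.add (f x42708) (Nat.add (f x42716) (Nat.add (f x42718) (Nat.add
    (f x42720) (Nat.add (f x42724) (Nat.add (f x42726) (Nat.add (f x42732) (Nat.add (f x42742)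
    (Nat.add (f x42744) (Nat.add (f x42750) (Nat.add (f x42776) (Nat.add (f x42782) (Nat.add
    (f x42784) (Nat.add (f x42788) (Nat.add (f x42790) (Nat.add (f x42792) (Nat.add (f x42800)
    (Nat.add (f x42802) (Nat.add (f x42806) (Nat.add (f x42808) (Nat.add (f x42810) (Nat.add
    (f x42814) (Nat.add (f x42816) (Nat.add (f x42824) (Nat.add (f x42826) (Nat.add (f x42828)
    (Nat.add (f x42832) (Nat.add (f x42834) (Nat.add (f x42840) (Nat.add (f x42854) (Nat.add
    (f x42856) (Nat.add (f x42860) (Nat.add (f x42862) (Nat.add (f x42864) (Nat.add (f x42868)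
    (Nat.add (f x42870) (Nat.add (f x42878) (Nat.add (f x42880) (Nat.add (f x42882) (Nat.add
    (f x42886) (Nat.add (f x42888) (Nat.add (f x42894) (Nat.add (f x42904) (Nat.add (f x42906)
    (Nat.add (f x42912) 0)))))))))))))))))))))))))))))))))))))))))))))))))))))))))))) (Nat.add
    (Nat.add (f x42932) (Nat.add (f x42934) (Nat.add (f x42936) (Nat.add (f x42940) (Nat.add
    (f x42942) (Nat.add (f x42948) (Nat.add (f x42958) (Nat.add (f x42960) (Nat.add (f x42966)
    (Nat.add (f x42984) (Nat.add (f x43028) (Nat.add (f x43034) (Nat.add (f x43036) (Nat.add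
    (f x43046) (Nat.add (f x43052) (Nat.add (f x43054) (Nat.add (f x43058) (Nat.add (f x43060)
    (Nat.add (f x43062) (Nat.add (f x43070) (Nat.add (f x43072) (Nat.add (f x43076) (Nat.add
    (f x43078) (Nat.add (f x43080) (Nat.add (f x43084) (Nat.add (f x43086) (Nat.add (f x43100)
    (Nat.add (f x43106) (Nat.add (f x43108) (Nat.add (f x43112) (Nat.add (f x43114) (Nat.add
    (f x43116) (Nat.add (f x43124) (Nat.add (f x43126) (Nat.add (f x43130) (Nat.add (f x43132)
    (Nat.add (f x43134) (Nat.add (f x43138) (Nat.add (f x43140) (Nat.add (f x43148) (Nat.add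
    (f x43150) (Nat.add (f x43152) (Nat.add (f x43156) (Nat.add (f x43158) (Nat.add (f x43164)
    (Nat.add (f x43178) (Nat.add (f x43180) (Nat.add (f x43184) (Nat.add (f x43186) (Nat.add
    (f x43188) (Nat.add (f x43192) (Nat.add (f x43194) (Nat.add (f x43202) (Nat.add (f x43204)
    (Nat.add (f x43206) (Nat.add (f x43210) (Nat.add (f x43212) (Nat.add (f x43218) (Nat.add
    (f x43228) (Nat.add (f x43230) 0))))))))))))))))))))))))))))))))))))))))))))))))))))))))))))
    (Nat.add (Nat.add (f x43236) (Nat.add (f x43262) (Nat.add (f x43268) (Nat.add (f x43270)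
    (Nat.add (f x43274) (Nat.add (f x43276) (Nat.add (f x43278) (Nat.add (f x43286) (Nat.add
    (f x43288) (Nat.add (f x43292) (Nat.add (f x43294) (Nat.add (f x43296) (Nat.add (f x43300)
    (Nat.add (f x43302) (Nat.add (f x43310) (Nat.add (f x43312) (Nat.add (f x43314) (Nat.add
    (f x43318) (Nat.add (f x43320) (Nat.add (f x43326) (Nat.add (f x43340) (Nat.add (f x43342)
    (Nat.add (f x43346) (Nat.add (f x43348) (Nat.add (f x43350) (Nat.add (f x43354) (Nat.add
    (f x43356) (Nat.add (f x43364) (Nat.add (f x43366) (Nat.add (f x43368) (Nat.add (f x43372)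
    (Nat.add (f x43374) (Nat.add (f x43380) (Nat.add (f x43390) (Nat.add (f x43392) (Nat.add
    (f x43398) (Nat.add (f x43418) (Nat.add (f x43420) (Nat.add (f x43422) (Nat.add (f x43426)
    (Nat.add (f x43428) (Nat.add (f x43434) (Nat.add (f x43444) (Nat.add (f x43446) (Nat.add
    (f x43452) (Nat.add (f x43470) (Nat.add (f x43502) (Nat.add (f x43504) (Nat.add (f x43508)
    (Nat.add (f x43510) (Nat.add (f x43512) (Nat.add (f x43516) (Nat.add (f x43518) (Nat.add
    (f x43526) (Nat.add (f x43528) (Nat.add (f x43530) (Nat.add (f x43534) (Nat.add (f x43536)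
    (Nat.add (f x43542) (Nat.add (f x43552)
    0)))))))))))))))))))))))))))))))))))))))))))))))))))))))))))) (Nat.add (Nat.add (f x43554)
    (Nat.add (f x43560) (Nat.add (f x43580) (Nat.add (f x43582) (Nat.add (f x43584) (Nat.add
    (f x43588) (Nat.add (f x43590) (Nat.add (f x43596) (Nat.add (f x43606) (Nat.add (f x43608)
    (Nat.add (f x43614) (Nat.add (f x43632) (Nat.add (f x43660) (Nat.add (f x43662) (Nat.add
    (f x43668) (Nat.add (f x43686) (Nat.add (f x43766) (Nat.add (f x43784) (Nat.add (f x43790)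
    (Nat.add (f x43792) (Nat.add (f x43802) (Nat.add (f x43808) (Nat.add (f x43810) (Nat.add
    (f x43814) (Nat.add (f x43816) (Nat.add (f x43818) (Nat.add (f x43838) (Nat.add (f x43844)
    (Nat.add (f x43846) (Nat.add (f x43856) (Nat.add (f x43862) (Nat.add (f x43864) (Nat.add
    (f x43868) (Nat.add (f x43870) (Nat.add (f x43872) (Nat.add (f x43880) (Nat.add (f x43882)
    (Nat.add (f x43886) (Nat.add (f x43888) (Nat.add (f x43890) (Nat.add (f x43894) (Nat.add
    (f x43896) (Nat.add (f x43910) (Nat.add (f x43916) (Nat.add (f x43918) (Nat.add (f x43922)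
    (Nat.add (f x43924) (Nat.add (f x43926) (Nat.add (f x43934) (Nat.add (f x43936) (Nat.add
    (f x43940) (Nat.add (f x43942) (Nat.add (f x43944) (Nat.add (f x43948) (Nat.add (f x43950)
    (Nat.add (f x43958) (Nat.add (f x43960) (Nat.add (f x43962) (Nat.add (f x43966) (Nat.add
    (f x43968) 0)))))))))))))))))))))))))))))))))))))))))))))))))))))))))))) (Nat.add (Nat.add
    (f x43974) (Nat.add (f x44000) (Nat.add (f x44006) (Nat.add (f x44008) (Nat.add (f x44018)
    (Nat.add (f x44024) (Nat.add (f x44026) (Nat.add (f x44030) (Nat.add (f x44032) (Nat.add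
    (f x44034) (Nat.add (f x44042) (Nat.add (f x44044) (Nat.add (f x44048) (Nat.add (f x44050)
    (Nat.add (f x44052) (Nat.add (f x44056) (Nat.add (f x44058) (Nat.add (f x44072) (Nat.add
    (f x44078) (Nat.add (f x44080) (Nat.add (f x44084) (Nat.add (f x44086) (Nat.add (f x44088)
    (Nat.add (f x44096) (Nat.add (f x44098) (Nat.add (f x44102) (Nat.add (f x44104) (Nat.add
    (f x44106) (Nat.add (f x44110) (Nat.add (f x44112) (Nat.add (f x44120) (Nat.add (f x44122)
    (Nat.add (f x44124) (Nat.add (f x44128) (Nat.add (f x44130) (Nat.add (f x44136) (Nat.add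
    (f x44150) (Nat.add (f x44152) (Nat.add (f x44156) (Nat.add (f x44158) (Nat.add (f x44160)
    (Nat.add (f x44164) (Nat.add (f x44166) (Nat.add (f x44174) (Nat.add (f x44176) (Nat.add
    (f x44178) (Nat.add (f x44182) (Nat.add (f x44184) (Nat.add (f x44190) (Nat.add (f x44200)
    (Nat.add (f x44202) (Nat.add (f x44208) (Nat.add (f x44234) (Nat.add (f x44240) (Nat.add
    (f x44242) (Nat.add (f x44246) (Nat.add (f x44248) (Nat.add (f x44250) (Nat.add (f x44258)
    (Nat.add (f x44260) 0)))))))))))))))))))))))))))))))))))))))))))))))))))))))))))) (Nat.add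
    (Nat.add (f x44264) (Nat.add (f x44266) (Nat.add (f x44268) (Nat.add (f x44272) (Nat.add
    (f x44274) (Nat.add (f x44282) (Nat.add (f x44284) (Nat.add (f x44286) (Nat.add (f x44290)
    (Nat.add (f x44292) (Nat.add (f x44298) (Nat.add (f x44312) (Nat.add (f x44314) (Nat.add
    (f x44318) (Nat.add (f x44320) (Nat.add (f x44322) (Nat.add (f x44326) (Nat.add (f x44328)
    (Nat.add (f x44336) (Nat.add (f x44338) (Nat.add (f x44340) (Nat.add (f x44344) (Nat.add
    (f x44346) (Nat.add (f x44352) (Nat.add (f x44362) (Nat.add (f x44364) (Nat.add (f x44370)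
    (Nat.add (f x44390) (Nat.add (f x44392) (Nat.add (f x44394) (Nat.add (f x44398) (Nat.add
    (f x44400) (Nat.add (f x44406) (Nat.add (f x44416) (Nat.add (f x44418) (Nat.add (f x44424)
    (Nat.add (f x44442) (Nat.add (f x44486) (Nat.add (f x44492) (Nat.add (f x44494) (Nat.add
    (f x44504) (Nat.add (f x44510) (Nat.add (f x44512) (Nat.add (f x44516) (Nat.add (f x44518)
    (Nat.add (f x44520) (Nat.add (f x44528) (Nat.add (f x44530) (Nat.add (f x44534) (Nat.add
    (f x44536) (Nat.add (f x44538) (Nat.add (f x44542) (Nat.add (f x44544) (Nat.add (f x44558)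
    (Nat.add (f x44564) (Nat.add (f x44566) (Nat.add (f x44570) (Nat.add (f x44572) (Nat.add
    (f x44574) (Nat.add (f x44582) 0))))))))))))))))))))))))))))))))))))))))))))))))))))))))))))
    (Nat.add (Nat.add (f x44584) (Nat.add (f x44588) (Nat.add (f x44590) (Nat.add (f x44592)
    (Nat.add (f x44596) (Nat.add (f x44598) (Nat.add (f x44606) (Nat.add (f x44608) (Nat.add
    (f x44610) (Nat.add (f x44614) (Nat.add (f x44616) (Nat.add (f x44622) (Nat.add (f x44636)
    (Nat.add (f x44638) (Nat.add (f x44642) (Nat.add (f x44644) (Nat.add (f x44646) (Nat.add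
    (f x44650) (Nat.add (f x44652) (Nat.add (f x44660) (Nat.add (f x44662) (Nat.add (f x44664)
    (Nat.add (f x44668) (Nat.add (f x44670) (Nat.add (f x44676) (Nat.add (f x44686) (Nat.add
    (f x44688) (Nat.add (f x44694) (Nat.add (f x44720) (Nat.add (f x44726) (Nat.add (f x44728)
    (Nat.add (f x44732) (Nat.add (f x44734) (Nat.add (f x44736) (Nat.add (f x44744) (Nat.add
    (f x44746) (Nat.add (f x44750) (Nat.add (f x44752) (Nat.add (f x44754) (Nat.add (f x44758)
    (Nat.add (f x44760) (Nat.add (f x44768) (Nat.add (f x44770) (Nat.add (f x44772) (Nat.add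
    (f x44776) (Nat.add (f x44778) (Nat.add (f x44784) (Nat.add (f x44798) (Nat.add (f x44800)
    (Nat.add (f x44804) (Nat.add (f x44806) (Nat.add (f x44808) (Nat.add (f x44812) (Nat.add
    (f x44814) (Nat.add (f x44822) (Nat.add (f x44824) (Nat.add (f x44826) (Nat.add (f x44830)
    (Nat.add (f x44832) (Nat.add (f x44838)
    0)))))))))))))))))))))))))))))))))))))))))))))))))))))))))))) (Nat.add (Nat.add (f x44848)
    (Nat.add (f x44850) (Nat.add (f x44856) (Nat.add (f x44876) (Nat.add (f x44878) (Nat.add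
    (f x44880) (Nat.add (f x44884) (Nat.add (f x44886) (Nat.add (f x44892) (Nat.add (f x44902)
    (Nat.add (f x44904) (Nat.add (f x44910) (Nat.add (f x44928) (Nat.add (f x44960) (Nat.add
    (f x44962) (Nat.add (f x44966) (Nat.add (f x44968) (Nat.add (f x44970) (Nat.add (f x44974)
    (Nat.add (f x44976) (Nat.add (f x44984) (Nat.add (f x44986) (Nat.add (f x44988) (Nat.add
    (f x44992) (Nat.add (f x44994) (Nat.add (f x45000) (Nat.add (f x45010) (Nat.add (f x45012)
    (Nat.add (f x45018) (Nat.add (f x45038) (Nat.add (f x45040) (Nat.add (f x45042) (Nat.add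
    (f x45046) (Nat.add (f x45048) (Nat.add (f x45054) (Nat.add (f x45064) (Nat.add (f x45066)
    (Nat.add (f x45072) (Nat.add (f x45090) (Nat.add (f x45118) (Nat.add (f x45120) (Nat.add
    (f x45126) (Nat.add (f x45144) (Nat.add (f x45206) (Nat.add (f x45212) (Nat.add (f x45214)
    (Nat.add (f x45218) (Nat.add (f x45220) (Nat.add (f x45222) (Nat.add (f x45230) (Nat.add
    (f x45232) (Nat.add (f x45236) (Nat.add (f x45238) (Nat.add (f x45240) (Nat.add (f x45244)
    (Nat.add (f x45246) (Nat.add (f x45254) (Nat.add (f x45256) (Nat.add (f x45258) (Nat.add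
    (f x45262) 0)))))))))))))))))))))))))))))))))))))))))))))))))))))))))))) (Nat.add (Nat.add
    (f x45264) (Nat.add (f x45270) (Nat.add (f x45284) (Nat.add (f x45286) (Nat.add (f x45290)
    (Nat.add (f x45292) (Nat.add (f x45294) (Nat.add (f x45298) (Nat.add (f x45300) (Nat.add
    (f x45308) (Nat.add (f x45310) (Nat.add (f x45312) (Nat.add (f x45316) (Nat.add (f x45318)
    (Nat.add (f x45324) (Nat.add (f x45334) (Nat.add (f x45336) (Nat.add (f x45342) (Nat.add
    (f x45362) (Nat.add (f x45364) (Nat.add (f x45366) (Nat.add (f x45370) (Nat.add (f x45372)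
    (Nat.add (f x45378) (Nat.add (f x45388) (Nat.add (f x45390) (Nat.add (f x45396) (Nat.add
    (f x45414) (Nat.add (f x45446) (Nat.add (f x45448) (Nat.add (f x45452) (Nat.add (f x45454)
    (Nat.add (f x45456) (Nat.add (f x45460) (Nat.add (f x45462) (Nat.add (f x45470) (Nat.add
    (f x45472) (Nat.add (f x45474) (Nat.add (f x45478) (Nat.add (f x45480) (Nat.add (f x45486)
    (Nat.add (f x45496) (Nat.add (f x45498) (Nat.add (f x45504) (Nat.add (f x45524) (Nat.add
    (f x45526) (Nat.add (f x45528) (Nat.add (f x45532) (Nat.add (f x45534) (Nat.add (f x45540)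
    (Nat.add (f x45550) (Nat.add (f x45552) (Nat.add (f x45558) (Nat.add (f x45576) (Nat.add
    (f x45604) (Nat.add (f x45606) (Nat.add (f x45612) (Nat.add (f x45630) (Nat.add (f x45686)
    (Nat.add (f x45688) 0)))))))))))))))))))))))))))))))))))))))))))))))))))))))))))) (Nat.add
    (Nat.add (f x45690) (Nat.add (f x45694) (Nat.add (f x45696) (Nat.add (f x45702) (Nat.add
    (f x45712) (Nat.add (f x45714) (Nat.add (f x45720) (Nat.add (f x45738) (Nat.add (f x45766)
    (Nat.add (f x45768) (Nat.add (f x45774) (Nat.add (f x45792) (Nat.add (f x45846) (Nat.add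
    (f x45980) (Nat.add (f x45998) (Nat.add (f x46004) (Nat.add (f x46006) (Nat.add (f x46034)
    (Nat.add (f x46052) (Nat.add (f x46058) (Nat.add (f x46060) (Nat.add (f x46070) (Nat.add
    (f x46076) (Nat.add (f x46078) (Nat.add (f x46082) (Nat.add (f x46084) (Nat.add (f x46086)
    (Nat.add (f x46106) (Nat.add (f x46112) (Nat.add (f x46114) (Nat.add (f x46124) (Nat.add
    (f x46130) (Nat.add (f x46132) (Nat.add (f x46136) (Nat.add (f x46138) (Nat.add (f x46140)
    (Nat.add (f x46148) (Nat.add (f x46150) (Nat.add (f x46154) (Nat.add (f x46156) (Nat.add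
    (f x46158) (Nat.add (f x46162) (Nat.add (f x46164) (Nat.add (f x46196) (Nat.add (f x46214)
    (Nat.add (f x46220) (Nat.add (f x46222) (Nat.add (f x46232) (Nat.add (f x46238) (Nat.add
    (f x46240) (Nat.add (f x46244) (Nat.add (f x46246) (Nat.add (f x46248) (Nat.add (f x46268)
    (Nat.add (f x46274) (Nat.add (f x46276) (Nat.add (f x46286) (Nat.add (f x46292) (Nat.add
    (f x46294) (Nat.add (f x46298) 0))))))))))))))))))))))))))))))))))))))))))))))))))))))))))))
    (Nat.add (Nat.add (f x46300) (Nat.add (f x46302) (Nat.add (f x46310) (Nat.add (f x46312)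
    (Nat.add (f x46316) (Nat.add (f x46318) (Nat.add (f x46320) (Nat.add (f x46324) (Nat.add
    (f x46326) (Nat.add (f x46340) (Nat.add (f x46346) (Nat.add (f x46348) (Nat.add (f x46352)
    (Nat.add (f x46354) (Nat.add (f x46356) (Nat.add (f x46364) (Nat.add (f x46366) (Nat.add
    (f x46370) (Nat.add (f x46372) (Nat.add (f x46374) (Nat.add (f x46378) (Nat.add (f x46380)
    (Nat.add (f x46388) (Nat.add (f x46390) (Nat.add (f x46392) (Nat.add (f x46396) (Nat.add
    (f x46398) (Nat.add (f x46404) (Nat.add (f x46430) (Nat.add (f x46436) (Nat.add (f x46438)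
    (Nat.add (f x46448) (Nat.add (f x46454) (Nat.add (f x46456) (Nat.add (f x46460) (Nat.add
    (f x46462) (Nat.add (f x46464) (Nat.add (f x46472) (Nat.add (f x46474) (Nat.add (f x46478)
    (Nat.add (f x46480) (Nat.add (f x46482) (Nat.add (f x46486) (Nat.add (f x46488) (Nat.add
    (f x46502) (Nat.add (f x46508) (Nat.add (f x46510) (Nat.add (f x46514) (Nat.add (f x46516)
    (Nat.add (f x46518) (Nat.add (f x46526) (Nat.add (f x46528) (Nat.add (f x46532) (Nat.add
    (f x46534) (Nat.add (f x46536) (Nat.add (f x46540) (Nat.add (f x46542) (Nat.add (f x46550)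
    (Nat.add (f x46552) (Nat.add (f x46554)
    0)))))))))))))))))))))))))))))))))))))))))))))))))))))))))))) (Nat.add (Nat.add (f x46558)
    (Nat.add (f x46560) (Nat.add (f x46566) (Nat.add (f x46580) (Nat.add (f x46582) (Nat.add
    (f x46586) (Nat.add (f x46588) (Nat.add (f x46590) (Nat.add (f x46594) (Nat.add (f x46596)
    (Nat.add (f x46604) (Nat.add (f x46606) (Nat.add (f x46608) (Nat.add (f x46612) (Nat.add
    (f x46614) (Nat.add (f x46620) (Nat.add (f x46630) (Nat.add (f x46632) (Nat.add (f x46638)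
    (Nat.add (f x46682) (Nat.add (f x46700) (Nat.add (f x46706) (Nat.add (f x46708) (Nat.add
    (f x46718) (Nat.add (f x46724) (Nat.add (f x46726) (Nat.add (f x46730) (Nat.add (f x46732)
    (Nat.add (f x46734) (Nat.add (f x46754) (Nat.add (f x46760) (Nat.add (f x46762) (Nat.add
    (f x46772) (Nat.add (f x46778) (Nat.add (f x46780) (Nat.add (f x46784) (Nat.add (f x46786)
    (Nat.add (f x46788) (Nat.add (f x46796) (Nat.add (f x46798) (Nat.add (f x46802) (Nat.add
    (f x46804) (Nat.add (f x46806) (Nat.add (f x46810) (Nat.add (f x46812) (Nat.add (f x46826)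
    (Nat.add (f x46832) (Nat.add (f x46834) (Nat.add (f x46838) (Nat.add (f x46840) (Nat.add
    (f x46842) (Nat.add (f x46850) (Nat.add (f x46852) (Nat.add (f x46856) (Nat.add (f x46858)
    (Nat.add (f x46860) (Nat.add (f x46864) (Nat.add (f x46866) (Nat.add (f x46874) (Nat.add
    (f x46876) 0)))))))))))))))))))))))))))))))))))))))))))))))))))))))))))) (Nat.add (Nat.add
    (f x46878) (Nat.add (f x46882) (Nat.add (f x46884) (Nat.add (f x46890) (Nat.add (f x46916)
    (Nat.add (f x46922) (Nat.add (f x46924) (Nat.add (f x46934) (Nat.add (f x46940) (Nat.add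
    (f x46942) (Nat.add (f x46946) (Nat.add (f x46948) (Nat.add (f x46950) (Nat.add (f x46958)
    (Nat.add (f x46960) (Nat.add (f x46964) (Nat.add (f x46966) (Nat.add (f x46968) (Nat.add
    (f x46972) (Nat.add (f x46974) (Nat.add (f x46988) (Nat.add (f x46994) (Nat.add (f x46996)
    (Nat.add (f x47000) (Nat.add (f x47002) (Nat.add (f x47004) (Nat.add (f x47012) (Nat.add
    (f x47014) (Nat.add (f x47018) (Nat.add (f x47020) (Nat.add (f x47022) (Nat.add (f x47026)
    (Nat.add (f x47028) (Nat.add (f x47036) (Nat.add (f x47038) (Nat.add (f x47040) (Nat.add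
    (f x47044) (Nat.add (f x47046) (Nat.add (f x47052) (Nat.add (f x47066) (Nat.add (f x47068)
    (Nat.add (f x47072) (Nat.add (f x47074) (Nat.add (f x47076) (Nat.add (f x47080) (Nat.add
    (f x47082) (Nat.add (f x47090) (Nat.add (f x47092) (Nat.add (f x47094) (Nat.add (f x47098)
    (Nat.add (f x47100) (Nat.add (f x47106) (Nat.add (f x47116) (Nat.add (f x47118) (Nat.add
    (f x47124) (Nat.add (f x47150) (Nat.add (f x47156) (Nat.add (f x47158) (Nat.add (f x47162)
    (Nat.add (f x47164) 0)))))))))))))))))))))))))))))))))))))))))))))))))))))))))))) (Nat.add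
    (Nat.add (f x47166) (Nat.add (f x47174) (Nat.add (f x47176) (Nat.add (f x47180) (Nat.add
    (f x47182) (Nat.add (f x47184) (Nat.add (f x47188) (Nat.add (f x47190) (Nat.add (f x47198)
    (Nat.add (f x47200) (Nat.add (f x47202) (Nat.add (f x47206) (Nat.add (f x47208) (Nat.add
    (f x47214) (Nat.add (f x47228) (Nat.add (f x47230) (Nat.add (f x47234) (Nat.add (f x47236)
    (Nat.add (f x47238) (Nat.add (f x47242) (Nat.add (f x47244) (Nat.add (f x47252) (Nat.add
    (f x47254) (Nat.add (f x47256) (Nat.add (f x47260) (Nat.add (f x47262) (Nat.add (f x47268)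
    (Nat.add (f x47278) (Nat.add (f x47280) (Nat.add (f x47286) (Nat.add (f x47306) (Nat.add
    (f x47308) (Nat.add (f x47310) (Nat.add (f x47314) (Nat.add (f x47316) (Nat.add (f x47322)
    (Nat.add (f x47332) (Nat.add (f x47334) (Nat.add (f x47340) (Nat.add (f x47358) (Nat.add
    (f x47402) (Nat.add (f x47408) (Nat.add (f x47410) (Nat.add (f x47420) (Nat.add (f x47426)
    (Nat.add (f x47428) (Nat.add (f x47432) (Nat.add (f x47434) (Nat.add (f x47436) (Nat.add
    (f x47444) (Nat.add (f x47446) (Nat.add (f x47450) (Nat.add (f x47452) (Nat.add (f x47454)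
    (Nat.add (f x47458) (Nat.add (f x47460) (Nat.add (f x47474) (Nat.add (f x47480) (Nat.add
    (f x47482) (Nat.add (f x47486) 0))))))))))))))))))))))))))))))))))))))))))))))))))))))))))))
    (Nat.add (Nat.add (f x47488) (Nat.add (f x47490) (Nat.add (f x47498) (Nat.add (f x47500)
    (Nat.add (f x47504) (Nat.add (f x47506) (Nat.add (f x47508) (Nat.add (f x47512) (Nat.add
    (f x47514) (Nat.add (f x47522) (Nat.add (f x47524) (Nat.add (f x47526) (Nat.add (f x47530)
    (Nat.add (f x47532) (Nat.add (f x47538) (Nat.add (f x47552) (Nat.add (f x47554) (Nat.add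
    (f x47558) (Nat.add (f x47560) (Nat.add (f x47562) (Nat.add (f x47566) (Nat.add (f x47568)
    (Nat.add (f x47576) (Nat.add (f x47578) (Nat.add (f x47580) (Nat.add (f x47584) (Nat.add
    (f x47586) (Nat.add (f x47592) (Nat.add (f x47602) (Nat.add (f x47604) (Nat.add (f x47610)
    (Nat.add (f x47636) (Nat.add (f x47642) (Nat.add (f x47644) (Nat.add (f x47648) (Nat.add
    (f x47650) (Nat.add (f x47652) (Nat.add (f x47660) (Nat.add (f x47662) (Nat.add (f x47666)
    (Nat.add (f x47668) (Nat.add (f x47670) (Nat.add (f x47674) (Nat.add (f x47676) (Nat.add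
    (f x47684) (Nat.add (f x47686) (Nat.add (f x47688) (Nat.add (f x47692) (Nat.add (f x47694)
    (Nat.add (f x47700) (Nat.add (f x47714) (Nat.add (f x47716) (Nat.add (f x47720) (Nat.add
    (f x47722) (Nat.add (f x47724) (Nat.add (f x47728) (Nat.add (f x47730) (Nat.add (f x47738)
    (Nat.add (f x47740) (Nat.add (f x47742)
    0)))))))))))))))))))))))))))))))))))))))))))))))))))))))))))) (Nat.add (Nat.add (f x47746)
    (Nat.add (f x47748) (Nat.add (f x47754) (Nat.add (f x47764) (Nat.add (f x47766) (Nat.add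
    (f x47772) (Nat.add (f x47792) (Nat.add (f x47794) (Nat.add (f x47796) (Nat.add (f x47800)
    (Nat.add (f x47802) (Nat.add (f x47808) (Nat.add (f x47818) (Nat.add (f x47820) (Nat.add
    (f x47826) (Nat.add (f x47844) (Nat.add (f x47876) (Nat.add (f x47878) (Nat.add (f x47882)
    (Nat.add (f x47884) (Nat.add (f x47886) (Nat.add (f x47890) (Nat.add (f x47892) (Nat.add
    (f x47900) (Nat.add (f x47902) (Nat.add (f x47904) (Nat.add (f x47908) (Nat.add (f x47910)
    (Nat.add (f x47916) (Nat.add (f x47926) (Nat.add (f x47928) (Nat.add (f x47934) (Nat.add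
    (f x47954) (Nat.add (f x47956) (Nat.add (f x47958) (Nat.add (f x47962) (Nat.add (f x47964)
    (Nat.add (f x47970) (Nat.add (f x47980) (Nat.add (f x47982) (Nat.add (f x47988) (Nat.add
    (f x48006) (Nat.add (f x48034) (Nat.add (f x48036) (Nat.add (f x48042) (Nat.add (f x48060)
    (Nat.add (f x48140) (Nat.add (f x48158) (Nat.add (f x48164) (Nat.add (f x48166) (Nat.add
    (f x48176) (Nat.add (f x48182) (Nat.add (f x48184) (Nat.add (f x48188) (Nat.add (f x48190)
    (Nat.add (f x48192) (Nat.add (f x48212) (Nat.add (f x48218) (Nat.add (f x48220) (Nat.add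
    (f x48230) 0)))))))))))))))))))))))))))))))))))))))))))))))))))))))))))) (Nat.add (Nat.add
    (f x48236) (Nat.add (f x48238) (Nat.add (f x48242) (Nat.add (f x48244) (Nat.add (f x48246)
    (Nat.add (f x48254) (Nat.add (f x48256) (Nat.add (f x48260) (Nat.add (f x48262) (Nat.add
    (f x48264) (Nat.add (f x48268) (Nat.add (f x48270) (Nat.add (f x48284) (Nat.add (f x48290)
    (Nat.add (f x48292) (Nat.add (f x48296) (Nat.add (f x48298) (Nat.add (f x48300) (Nat.add
    (f x48308) (Nat.add (f x48310) (Nat.add (f x48314) (Nat.add (f x48316) (Nat.add (f x48318)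
    (Nat.add (f x48322) (Nat.add (f x48324) (Nat.add (f x48332) (Nat.add (f x48334) (Nat.add
    (f x48336) (Nat.add (f x48340) (Nat.add (f x48342) (Nat.add (f x48348) (Nat.add (f x48374)
    (Nat.add (f x48380) (Nat.add (f x48382) (Nat.add (f x48392) (Nat.add (f x48398) (Nat.add
    (f x48400) (Nat.add (f x48404) (Nat.add (f x48406) (Nat.add (f x48408) (Nat.add (f x48416)
    (Nat.add (f x48418) (Nat.add (f x48422) (Nat.add (f x48424) (Nat.add (f x48426) (Nat.add
    (f x48430) (Nat.add (f x48432) (Nat.add (f x48446) (Nat.add (f x48452) (Nat.add (f x48454)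
    (Nat.add (f x48458) (Nat.add (f x48460) (Nat.add (f x48462) (Nat.add (f x48470) (Nat.add
    (f x48472) (Nat.add (f x48476) (Nat.add (f x48478) (Nat.add (f x48480) (Nat.add (f x48484)
    (Nat.add (f x48486) 0)))))))))))))))))))))))))))))))))))))))))))))))))))))))))))) (Nat.add
    (Nat.add (f x48494) (Nat.add (f x48496) (Nat.add (f x48498) (Nat.add (f x48502) (Nat.add
    (f x48504) (Nat.add (f x48510) (Nat.add (f x48524) (Nat.add (f x48526) (Nat.add (f x48530)
    (Nat.add (f x48532) (Nat.add (f x48534) (Nat.add (f x48538) (Nat.add (f x48540) (Nat.add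
    (f x48548) (Nat.add (f x48550) (Nat.add (f x48552) (Nat.add (f x48556) (Nat.add (f x48558)
    (Nat.add (f x48564) (Nat.add (f x48574) (Nat.add (f x48576) (Nat.add (f x48582) (Nat.add
    (f x48608) (Nat.add (f x48614) (Nat.add (f x48616) (Nat.add (f x48620) (Nat.add (f x48622)
    (Nat.add (f x48624) (Nat.add (f x48632) (Nat.add (f x48634) (Nat.add (f x48638) (Nat.add
    (f x48640) (Nat.add (f x48642) (Nat.add (f x48646) (Nat.add (f x48648) (Nat.add (f x48656)
    (Nat.add (f x48658) (Nat.add (f x48660) (Nat.add (f x48664) (Nat.add (f x48666) (Nat.add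
    (f x48672) (Nat.add (f x48686) (Nat.add (f x48688) (Nat.add (f x48692) (Nat.add (f x48694)
    (Nat.add (f x48696) (Nat.add (f x48700) (Nat.add (f x48702) (Nat.add (f x48710) (Nat.add
    (f x48712) (Nat.add (f x48714) (Nat.add (f x48718) (Nat.add (f x48720) (Nat.add (f x48726)
    (Nat.add (f x48736) (Nat.add (f x48738) (Nat.add (f x48744) (Nat.add (f x48764) (Nat.add
    (f x48766) (Nat.add (f x48768) 0))))))))))))))))))))))))))))))))))))))))))))))))))))))))))))
    (Nat.add (Nat.add (f x48772) (Nat.add (f x48774) (Nat.add (f x48780) (Nat.add (f x48790)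
    (Nat.add (f x48792) (Nat.add (f x48798) (Nat.add (f x48816) (Nat.add (f x48860) (Nat.add
    (f x48866) (Nat.add (f x48868) (Nat.add (f x48878) (Nat.add (f x48884) (Nat.add (f x48886)
    (Nat.add (f x48890) (Nat.add (f x48892) (Nat.add (f x48894) (Nat.add (f x48902) (Nat.add
    (f x48904) (Nat.add (f x48908) (Nat.add (f x48910) (Nat.add (f x48912) (Nat.add (f x48916)
    (Nat.add (f x48918) (Nat.add (f x48932) (Nat.add (f x48938) (Nat.add (f x48940) (Nat.add
    (f x48944) (Nat.add (f x48946) (Nat.add (f x48948) (Nat.add (f x48956) (Nat.add (f x48958)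
    (Nat.add (f x48962) (Nat.add (f x48964) (Nat.add (f x48966) (Nat.add (f x48970) (Nat.add
    (f x48972) (Nat.add (f x48980) (Nat.add (f x48982) (Nat.add (f x48984) (Nat.add (f x48988)
    (Nat.add (f x48990) (Nat.add (f x48996) (Nat.add (f x49010) (Nat.add (f x49012) (Nat.add
    (f x49016) (Nat.add (f x49018) (Nat.add (f x49020) (Nat.add (f x49024) (Nat.add (f x49026)
    (Nat.add (f x49034) (Nat.add (f x49036) (Nat.add (f x49038) (Nat.add (f x49042) (Nat.add
    (f x49044) (Nat.add (f x49050) (Nat.add (f x49060) (Nat.add (f x49062) (Nat.add (f x49068)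
    (Nat.add (f x49094) (Nat.add (f x49100)
    0)))))))))))))))))))))))))))))))))))))))))))))))))))))))))))) (Nat.add (Nat.add (f x49102)
    (Nat.add (f x49106) (Nat.add (f x49108) (Nat.add (f x49110) (Nat.add (f x49118) (Nat.add
    (f x49120) (Nat.add (f x49124) (Nat.add (f x49126) (Nat.add (f x49128) (Nat.add (f x49132)
    (Nat.add (f x49134) (Nat.add (f x49142) (Nat.add (f x49144) (Nat.add (f x49146) (Nat.add
    (f x49150) (Nat.add (f x49152) (Nat.add (f x49158) (Nat.add (f x49172) (Nat.add (f x49174)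
    (Nat.add (f x49178) (Nat.add (f x49180) (Nat.add (f x49182) (Nat.add (f x49186) (Nat.add
    (f x49188) (Nat.add (f x49196) (Nat.add (f x49198) (Nat.add (f x49200) (Nat.add (f x49204)
    (Nat.add (f x49206) (Nat.add (f x49212) (Nat.add (f x49222) (Nat.add (f x49224) (Nat.add
    (f x49230) (Nat.add (f x49250) (Nat.add (f x49252) (Nat.add (f x49254) (Nat.add (f x49258)
    (Nat.add (f x49260) (Nat.add (f x49266) (Nat.add (f x49276) (Nat.add (f x49278) (Nat.add
    (f x49284) (Nat.add (f x49302) (Nat.add (f x49334) (Nat.add (f x49336) (Nat.add (f x49340)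
    (Nat.add (f x49342) (Nat.add (f x49344) (Nat.add (f x49348) (Nat.add (f x49350) (Nat.add
    (f x49358) (Nat.add (f x49360) (Nat.add (f x49362) (Nat.add (f x49366) (Nat.add (f x49368)
    (Nat.add (f x49374) (Nat.add (f x49384) (Nat.add (f x49386) (Nat.add (f x49392) (Nat.add
    (f x49412) 0)))))))))))))))))))))))))))))))))))))))))))))))))))))))))))) (Nat.add (Nat.add
    (f x49414) (Nat.add (f x49416) (Nat.add (f x49420) (Nat.add (f x49422) (Nat.add (f x49428)
    (Nat.add (f x49438) (Nat.add (f x49440) (Nat.add (f x49446) (Nat.add (f x49464) (Nat.add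
    (f x49492) (Nat.add (f x49494) (Nat.add (f x49500) (Nat.add (f x49518) (Nat.add (f x49580)
    (Nat.add (f x49586) (Nat.add (f x49588) (Nat.add (f x49592) (Nat.add (f x49594) (Nat.add
    (f x49596) (Nat.add (f x49604) (Nat.add (f x49606) (Nat.add (f x49610) (Nat.add (f x49612)
    (Nat.add (f x49614) (Nat.add (f x49618) (Nat.add (f x49620) (Nat.add (f x49628) (Nat.add
    (f x49630) (Nat.add (f x49632) (Nat.add (f x49636) (Nat.add (f x49638) (Nat.add (f x49644)
    (Nat.add (f x49658) (Nat.add (f x49660) (Nat.add (f x49664) (Nat.add (f x49666) (Nat.add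
    (f x49668) (Nat.add (f x49672) (Nat.add (f x49674) (Nat.add (f x49682) (Nat.add (f x49684)
    (Nat.add (f x49686) (Nat.add (f x49690) (Nat.add (f x49692) (Nat.add (f x49698) (Nat.add
    (f x49708) (Nat.add (f x49710) (Nat.add (f x49716) (Nat.add (f x49736) (Nat.add (f x49738)
    (Nat.add (f x49740) (Nat.add (f x49744) (Nat.add (f x49746) (Nat.add (f x49752) (Nat.add
    (f x49762) (Nat.add (f x49764) (Nat.add (f x49770) (Nat.add (f x49788) (Nat.add (f x49820)
    (Nat.add (f x49822) 0)))))))))))))))))))))))))))))))))))))))))))))))))))))))))))) (Nat.add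
    (Nat.add (f x49826) (Nat.add (f x49828) (Nat.add (f x49830) (Nat.add (f x49834) (Nat.add
    (f x49836) (Nat.add (f x49844) (Nat.add (f x49846) (Nat.add (f x49848) (Nat.add (f x49852)
    (Nat.add (f x49854) (Nat.add (f x49860) (Nat.add (f x49870) (Nat.add (f x49872) (Nat.add
    (f x49878) (Nat.add (f x49898) (Nat.add (f x49900) (Nat.add (f x49902) (Nat.add (f x49906)
    (Nat.add (f x49908) (Nat.add (f x49914) (Nat.add (f x49924) (Nat.add (f x49926) (Nat.add
    (f x49932) (Nat.add (f x49950) (Nat.add (f x49978) (Nat.add (f x49980) (Nat.add (f x49986)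
    (Nat.add (f x50004) (Nat.add (f x50060) (Nat.add (f x50062) (Nat.add (f x50064) (Nat.add
    (f x50068) (Nat.add (f x50070) (Nat.add (f x50076) (Nat.add (f x50086) (Nat.add (f x50088)
    (Nat.add (f x50094) (Nat.add (f x50112) (Nat.add (f x50140) (Nat.add (f x50142) (Nat.add
    (f x50148) (Nat.add (f x50166) (Nat.add (f x50220) (Nat.add (f x50318) (Nat.add (f x50324)
    (Nat.add (f x50326) (Nat.add (f x50336) (Nat.add (f x50342) (Nat.add (f x50344) (Nat.add
    (f x50348) (Nat.add (f x50350) (Nat.add (f x50352) (Nat.add (f x50360) (Nat.add (f x50362)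
    (Nat.add (f x50366) (Nat.add (f x50368) (Nat.add (f x50370) (Nat.add (f x50374) (Nat.add
    (f x50376) (Nat.add (f x50390) 0))))))))))))))))))))))))))))))))))))))))))))))))))))))))))))
    (Nat.add (Nat.add (f x50396) (Nat.add (f x50398) (Nat.add (f x50402) (Nat.add (f x50404)
    (Nat.add (f x50406) (Nat.add (f x50414) (Nat.add (f x50416) (Nat.add (f x50420) (Nat.add
    (f x50422) (Nat.add (f x50424) (Nat.add (f x50428) (Nat.add (f x50430) (Nat.add (f x50438)
    (Nat.add (f x50440) (Nat.add (f x50442) (Nat.add (f x50446) (Nat.add (f x50448) (Nat.add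
    (f x50454) (Nat.add (f x50468) (Nat.add (f x50470) (Nat.add (f x50474) (Nat.add (f x50476)
    (Nat.add (f x50478) (Nat.add (f x50482) (Nat.add (f x50484) (Nat.add (f x50492) (Nat.add
    (f x50494) (Nat.add (f x50496) (Nat.add (f x50500) (Nat.add (f x50502) (Nat.add (f x50508)
    (Nat.add (f x50518) (Nat.add (f x50520) (Nat.add (f x50526) (Nat.add (f x50552) (Nat.add
    (f x50558) (Nat.add (f x50560) (Nat.add (f x50564) (Nat.add (f x50566) (Nat.add (f x50568)
    (Nat.add (f x50576) (Nat.add (f x50578) (Nat.add (f x50582) (Nat.add (f x50584) (Nat.add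
    (f x50586) (Nat.add (f x50590) (Nat.add (f x50592) (Nat.add (f x50600) (Nat.add (f x50602)
    (Nat.add (f x50604) (Nat.add (f x50608) (Nat.add (f x50610) (Nat.add (f x50616) (Nat.add
    (f x50630) (Nat.add (f x50632) (Nat.add (f x50636) (Nat.add (f x50638) (Nat.add (f x50640)
    (Nat.add (f x50644) (Nat.add (f x50646)
    0)))))))))))))))))))))))))))))))))))))))))))))))))))))))))))) (Nat.add (Nat.add (f x50654)
    (Nat.add (f x50656) (Nat.add (f x50658) (Nat.add (f x50662) (Nat.add (f x50664) (Nat.add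
    (f x50670) (Nat.add (f x50680) (Nat.add (f x50682) (Nat.add (f x50688) (Nat.add (f x50708)
    (Nat.add (f x50710) (Nat.add (f x50712) (Nat.add (f x50716) (Nat.add (f x50718) (Nat.add
    (f x50724) (Nat.add (f x50734) (Nat.add (f x50736) (Nat.add (f x50742) (Nat.add (f x50760)
    (Nat.add (f x50792) (Nat.add (f x50794) (Nat.add (f x50798) (Nat.add (f x50800) (Nat.add
    (f x50802) (Nat.add (f x50806) (Nat.add (f x50808) (Nat.add (f x50816) (Nat.add (f x50818)
    (Nat.add (f x50820) (Nat.add (f x50824) (Nat.add (f x50826) (Nat.add (f x50832) (Nat.add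
    (f x50842) (Nat.add (f x50844) (Nat.add (f x50850) (Nat.add (f x50870) (Nat.add (f x50872)
    (Nat.add (f x50874) (Nat.add (f x50878) (Nat.add (f x50880) (Nat.add (f x50886) (Nat.add
    (f x50896) (Nat.add (f x50898) (Nat.add (f x50904) (Nat.add (f x50922) (Nat.add (f x50950)
    (Nat.add (f x50952) (Nat.add (f x50958) (Nat.add (f x50976) (Nat.add (f x51038) (Nat.add
    (f x51044) (Nat.add (f x51046) (Nat.add (f x51050) (Nat.add (f x51052) (Nat.add (f x51054)
    (Nat.add (f x51062) (Nat.add (f x51064) (Nat.add (f x51068) (Nat.add (f x51070) (Nat.add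
    (f x51072) 0)))))))))))))))))))))))))))))))))))))))))))))))))))))))))))) (Nat.add (Nat.add
    (f x51076) (Nat.add (f x51078) (Nat.add (f x51086) (Nat.add (f x51088) (Nat.add (f x51090)
    (Nat.add (f x51094) (Nat.add (f x51096) (Nat.add (f x51102) (Nat.add (f x51116) (Nat.add
    (f x51118) (Nat.add (f x51122) (Nat.add (f x51124) (Nat.add (f x51126) (Nat.add (f x51130)
    (Nat.add (f x51132) (Nat.add (f x51140) (Nat.add (f x51142) (Nat.add (f x51144) (Nat.add
    (f x51148) (Nat.add (f x51150) (Nat.add (f x51156) (Nat.add (f x51166) (Nat.add (f x51168)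
    (Nat.add (f x51174) (Nat.add (f x51194) (Nat.add (f x51196) (Nat.add (f x51198) (Nat.add
    (f x51202) (Nat.add (f x51204) (Nat.add (f x51210) (Nat.add (f x51220) (Nat.add (f x51222)
    (Nat.add (f x51228) (Nat.add (f x51246) (Nat.add (f x51278) (Nat.add (f x51280) (Nat.add
    (f x51284) (Nat.add (f x51286) (Nat.add (f x51288) (Nat.add (f x51292) (Nat.add (f x51294)
    (Nat.add (f x51302) (Nat.add (f x51304) (Nat.add (f x51306) (Nat.add (f x51310) (Nat.add
    (f x51312) (Nat.add (f x51318) (Nat.add (f x51328) (Nat.add (f x51330) (Nat.add (f x51336)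
    (Nat.add (f x51356) (Nat.add (f x51358) (Nat.add (f x51360) (Nat.add (f x51364) (Nat.add
    (f x51366) (Nat.add (f x51372) (Nat.add (f x51382) (Nat.add (f x51384) (Nat.add (f x51390)
    (Nat.add (f x51408) 0)))))))))))))))))))))))))))))))))))))))))))))))))))))))))))) (Nat.add
    (Nat.add (f x51436) (Nat.add (f x51438) (Nat.add (f x51444) (Nat.add (f x51462) (Nat.add
    (f x51518) (Nat.add (f x51520) (Nat.add (f x51522) (Nat.add (f x51526) (Nat.add (f x51528)
    (Nat.add (f x51534) (Nat.add (f x51544) (Nat.add (f x51546) (Nat.add (f x51552) (Nat.add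
    (f x51570) (Nat.add (f x51598) (Nat.add (f x51600) (Nat.add (f x51606) (Nat.add (f x51624)
    (Nat.add (f x51678) (Nat.add (f x51764) (Nat.add (f x51766) (Nat.add (f x51770) (Nat.add
    (f x51772) (Nat.add (f x51774) (Nat.add (f x51778) (Nat.add (f x51780) (Nat.add (f x51788)
    (Nat.add (f x51790) (Nat.add (f x51792) (Nat.add (f x51796) (Nat.add (f x51798) (Nat.add
    (f x51804) (Nat.add (f x51814) (Nat.add (f x51816) (Nat.add (f x51822) (Nat.add (f x51842)
    (Nat.add (f x51844) (Nat.add (f x51846) (Nat.add (f x51850) (Nat.add (f x51852) (Nat.add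
    (f x51858) (Nat.add (f x51868) (Nat.add (f x51870) (Nat.add (f x51876) (Nat.add (f x51894)
    (Nat.add (f x51922) (Nat.add (f x51924) (Nat.add (f x51930) (Nat.add (f x51948) (Nat.add
    (f x52004) (Nat.add (f x52006) (Nat.add (f x52008) (Nat.add (f x52012) (Nat.add (f x52014)
    (Nat.add (f x52020) (Nat.add (f x52030) (Nat.add (f x52032) (Nat.add (f x52038) (Nat.add
    (f x52056) (Nat.add (f x52084) 0))))))))))))))))))))))))))))))))))))))))))))))))))))))))))))
    (Nat.add (Nat.add (f x52086) (Nat.add (f x52092) (Nat.add (f x52110) (Nat.add (f x52164)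
    (Nat.add (f x52246) (Nat.add (f x52248) (Nat.add (f x52254) (Nat.add (f x52272) (Nat.add
    (f x52326) (Nat.add (f x52514) (Nat.add (f x52532) (Nat.add (f x52538) (Nat.add (f x52540)
    (Nat.add (f x52550) (Nat.add (f x52556) (Nat.add (f x52558) (Nat.add (f x52562) (Nat.add
    (f x52564) (Nat.add (f x52566) (Nat.add (f x52586) (Nat.add (f x52592) (Nat.add (f x52594)
    (Nat.add (f x52604) (Nat.add (f x52610) (Nat.add (f x52612) (Nat.add (f x52616) (Nat.add
    (f x52618) (Nat.add (f x52620) (Nat.add (f x52628) (Nat.add (f x52630) (Nat.add (f x52634)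
    (Nat.add (f x52636) (Nat.add (f x52638) (Nat.add (f x52642) (Nat.add (f x52644) (Nat.add
    (f x52658) (Nat.add (f x52664) (Nat.add (f x52666) (Nat.add (f x52670) (Nat.add (f x52672)
    (Nat.add (f x52674) (Nat.add (f x52682) (Nat.add (f x52684) (Nat.add (f x52688) (Nat.add
    (f x52690) (Nat.add (f x52692) (Nat.add (f x52696) (Nat.add (f x52698) (Nat.add (f x52706)
    (Nat.add (f x52708) (Nat.add (f x52710) (Nat.add (f x52714) (Nat.add (f x52716) (Nat.add
    (f x52722) (Nat.add (f x52748) (Nat.add (f x52754) (Nat.add (f x52756) (Nat.add (f x52766)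
    (Nat.add (f x52772) (Nat.add (f x52774)
    0)))))))))))))))))))))))))))))))))))))))))))))))))))))))))))) (Nat.add (Nat.add (f x52778)
    (Nat.add (f x52780) (Nat.add (f x52782) (Nat.add (f x52790) (Nat.add (f x52792) (Nat.add
    (f x52796) (Nat.add (f x52798) (Nat.add (f x52800) (Nat.add (f x52804) (Nat.add (f x52806)
    (Nat.add (f x52820) (Nat.add (f x52826) (Nat.add (f x52828) (Nat.add (f x52832) (Nat.add
    (f x52834) (Nat.add (f x52836) (Nat.add (f x52844) (Nat.add (f x52846) (Nat.add (f x52850)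
    (Nat.add (f x52852) (Nat.add (f x52854) (Nat.add (f x52858) (Nat.add (f x52860) (Nat.add
    (f x52868) (Nat.add (f x52870) (Nat.add (f x52872) (Nat.add (f x52876) (Nat.add (f x52878)
    (Nat.add (f x52884) (Nat.add (f x52898) (Nat.add (f x52900) (Nat.add (f x52904) (Nat.add
    (f x52906) (Nat.add (f x52908) (Nat.add (f x52912) (Nat.add (f x52914) (Nat.add (f x52922)
    (Nat.add (f x52924) (Nat.add (f x52926) (Nat.add (f x52930) (Nat.add (f x52932) (Nat.add
    (f x52938) (Nat.add (f x52948) (Nat.add (f x52950) (Nat.add (f x52956) (Nat.add (f x52982)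
    (Nat.add (f x52988) (Nat.add (f x52990) (Nat.add (f x52994) (Nat.add (f x52996) (Nat.add
    (f x52998) (Nat.add (f x53006) (Nat.add (f x53008) (Nat.add (f x53012) (Nat.add (f x53014)
    (Nat.add (f x53016) (Nat.add (f x53020) (Nat.add (f x53022) (Nat.add (f x53030) (Nat.add
    (f x53032) 0)))))))))))))))))))))))))))))))))))))))))))))))))))))))))))) (Nat.add (Nat.add
    (f x53034) (Nat.add (f x53038) (Nat.add (f x53040) (Nat.add (f x53046) (Nat.add (f x53060)
    (Nat.add (f x53062) (Nat.add (f x53066) (Nat.add (f x53068) (Nat.add (f x53070) (Nat.add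
    (f x53074) (Nat.add (f x53076) (Nat.add (f x53084) (Nat.add (f x53086) (Nat.add (f x53088)
    (Nat.add (f x53092) (Nat.add (f x53094) (Nat.add (f x53100) (Nat.add (f x53110) (Nat.add
    (f x53112) (Nat.add (f x53118) (Nat.add (f x53138) (Nat.add (f x53140) (Nat.add (f x53142)
    (Nat.add (f x53146) (Nat.add (f x53148) (Nat.add (f x53154) (Nat.add (f x53164) (Nat.add
    (f x53166) (Nat.add (f x53172) (Nat.add (f x53190) (Nat.add (f x53234) (Nat.add (f x53240)
    (Nat.add (f x53242) (Nat.add (f x53252) (Nat.add (f x53258) (Nat.add (f x53260) (Nat.add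
    (f x53264) (Nat.add (f x53266) (Nat.add (f x53268) (Nat.add (f x53276) (Nat.add (f x53278)
    (Nat.add (f x53282) (Nat.add (f x53284) (Nat.add (f x53286) (Nat.add (f x53290) (Nat.add
    (f x53292) (Nat.add (f x53306) (Nat.add (f x53312) (Nat.add (f x53314) (Nat.add (f x53318)
    (Nat.add (f x53320) (Nat.add (f x53322) (Nat.add (f x53330) (Nat.add (f x53332) (Nat.add
    (f x53336) (Nat.add (f x53338) (Nat.add (f x53340) (Nat.add (f x53344) (Nat.add (f x53346)
    (Nat.add (f x53354) 0)))))))))))))))))))))))))))))))))))))))))))))))))))))))))))) (Nat.add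
    (Nat.add (f x53356) (Nat.add (f x53358) (Nat.add (f x53362) (Nat.add (f x53364) (Nat.add
    (f x53370) (Nat.add (f x53384) (Nat.add (f x53386) (Nat.add (f x53390) (Nat.add (f x53392)
    (Nat.add (f x53394) (Nat.add (f x53398) (Nat.add (f x53400) (Nat.add (f x53408) (Nat.add
    (f x53410) (Nat.add (f x53412) (Nat.add (f x53416) (Nat.add (f x53418) (Nat.add (f x53424)
    (Nat.add (f x53434) (Nat.add (f x53436) (Nat.add (f x53442) (Nat.add (f x53468) (Nat.add
    (f x53474) (Nat.add (f x53476) (Nat.add (f x53480) (Nat.add (f x53482) (Nat.add (f x53484)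
    (Nat.add (f x53492) (Nat.add (f x53494) (Nat.add (f x53498) (Nat.add (f x53500) (Nat.add
    (f x53502) (Nat.add (f x53506) (Nat.add (f x53508) (Nat.add (f x53516) (Nat.add (f x53518)
    (Nat.add (f x53520) (Nat.add (f x53524) (Nat.add (f x53526) (Nat.add (f x53532) (Nat.add
    (f x53546) (Nat.add (f x53548) (Nat.add (f x53552) (Nat.add (f x53554) (Nat.add (f x53556)
    (Nat.add (f x53560) (Nat.add (f x53562) (Nat.add (f x53570) (Nat.add (f x53572) (Nat.add
    (f x53574) (Nat.add (f x53578) (Nat.add (f x53580) (Nat.add (f x53586) (Nat.add (f x53596)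
    (Nat.add (f x53598) (Nat.add (f x53604) (Nat.add (f x53624) (Nat.add (f x53626) (Nat.add
    (f x53628) (Nat.add (f x53632) 0))))))))))))))))))))))))))))))))))))))))))))))))))))))))))))
    (Nat.add (Nat.add (f x53634) (Nat.add (f x53640) (Nat.add (f x53650) (Nat.add (f x53652)
    (Nat.add (f x53658) (Nat.add (f x53676) (Nat.add (f x53708) (Nat.add (f x53710) (Nat.add
    (f x53714) (Nat.add (f x53716) (Nat.add (f x53718) (Nat.add (f x53722) (Nat.add (f x53724)
    (Nat.add (f x53732) (Nat.add (f x53734) (Nat.add (f x53736) (Nat.add (f x53740) (Nat.add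
    (f x53742) (Nat.add (f x53748) (Nat.add (f x53758) (Nat.add (f x53760) (Nat.add (f x53766)
    (Nat.add (f x53786) (Nat.add (f x53788) (Nat.add (f x53790) (Nat.add (f x53794) (Nat.add
    (f x53796) (Nat.add (f x53802) (Nat.add (f x53812) (Nat.add (f x53814) (Nat.add (f x53820)
    (Nat.add (f x53838) (Nat.add (f x53866) (Nat.add (f x53868) (Nat.add (f x53874) (Nat.add
    (f x53892) (Nat.add (f x53954) (Nat.add (f x53960) (Nat.add (f x53962) (Nat.add (f x53966)
    (Nat.add (f x53968) (Nat.add (f x53970) (Nat.add (f x53978) (Nat.add (f x53980) (Nat.add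
    (f x53984) (Nat.add (f x53986) (Nat.add (f x53988) (Nat.add (f x53992) (Nat.add (f x53994)
    (Nat.add (f x54002) (Nat.add (f x54004) (Nat.add (f x54006) (Nat.add (f x54010) (Nat.add
    (f x54012) (Nat.add (f x54018) (Nat.add (f x54032) (Nat.add (f x54034) (Nat.add (f x54038)
    (Nat.add (f x54040) (Nat.add (f x54042)
    0)))))))))))))))))))))))))))))))))))))))))))))))))))))))))))) (Nat.add (Nat.add (f x54046)
    (Nat.add (f x54048) (Nat.add (f x54056) (Nat.add (f x54058) (Nat.add (f x54060) (Nat.add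
    (f x54064) (Nat.add (f x54066) (Nat.add (f x54072) (Nat.add (f x54082) (Nat.add (f x54084)
    (Nat.add (f x54090) (Nat.add (f x54110) (Nat.add (f x54112) (Nat.add (f x54114) (Nat.add
    (f x54118) (Nat.add (f x54120) (Nat.add (f x54126) (Nat.add (f x54136) (Nat.add (f x54138)
    (Nat.add (f x54144) (Nat.add (f x54162) (Nat.add (f x54194) (Nat.add (f x54196) (Nat.add
    (f x54200) (Nat.add (f x54202) (Nat.add (f x54204) (Nat.add (f x54208) (Nat.add (f x54210)
    (Nat.add (f x54218) (Nat.add (f x54220) (Nat.add (f x54222) (Nat.add (f x54226) (Nat.add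
    (f x54228) (Nat.add (f x54234) (Nat.add (f x54244) (Nat.add (f x54246) (Nat.add (f x54252)
    (Nat.add (f x54272) (Nat.add (f x54274) (Nat.add (f x54276) (Nat.add (f x54280) (Nat.add
    (f x54282) (Nat.add (f x54288) (Nat.add (f x54298) (Nat.add (f x54300) (Nat.add (f x54306)
    (Nat.add (f x54324) (Nat.add (f x54352) (Nat.add (f x54354) (Nat.add (f x54360) (Nat.add
    (f x54378) (Nat.add (f x54434) (Nat.add (f x54436) (Nat.add (f x54438) (Nat.add (f x54442)
    (Nat.add (f x54444) (Nat.add (f x54450) (Nat.add (f x54460) (Nat.add (f x54462) (Nat.add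
    (f x54468) 0)))))))))))))))))))))))))))))))))))))))))))))))))))))))))))) (Nat.add (Nat.add
    (f x54486) (Nat.add (f x54514) (Nat.add (f x54516) (Nat.add (f x54522) (Nat.add (f x54540)
    (Nat.add (f x54594) (Nat.add (f x54692) (Nat.add (f x54698) (Nat.add (f x54700) (Nat.add
    (f x54710) (Nat.add (f x54716) (Nat.add (f x54718) (Nat.add (f x54722) (Nat.add (f x54724)
    (Nat.add (f x54726) (Nat.add (f x54734) (Nat.add (f x54736) (Nat.add (f x54740) (Nat.add
    (f x54742) (Nat.add (f x54744) (Nat.add (f x54748) (Nat.add (f x54750) (Nat.add (f x54764)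
    (Nat.add (f x54770) (Nat.add (f x54772) (Nat.add (f x54776) (Nat.add (f x54778) (Nat.add
    (f x54780) (Nat.add (f x54788) (Nat.add (f x54790) (Nat.add (f x54794) (Nat.add (f x54796)
    (Nat.add (f x54798) (Nat.add (f x54802) (Nat.add (f x54804) (Nat.add (f x54812) (Nat.add
    (f x54814) (Nat.add (f x54816) (Nat.add (f x54820) (Nat.add (f x54822) (Nat.add (f x54828)
    (Nat.add (f x54842) (Nat.add (f x54844) (Nat.add (f x54848) (Nat.add (f x54850) (Nat.add
    (f x54852) (Nat.add (f x54856) (Nat.add (f x54858) (Nat.add (f x54866) (Nat.add (f x54868)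
    (Nat.add (f x54870) (Nat.add (f x54874) (Nat.add (f x54876) (Nat.add (f x54882) (Nat.add
    (f x54892) (Nat.add (f x54894) (Nat.add (f x54900) (Nat.add (f x54926) (Nat.add (f x54932)
    (Nat.add (f x54934) 0)))))))))))))))))))))))))))))))))))))))))))))))))))))))))))) (Nat.add
    (Nat.add (f x54938) (Nat.add (f x54940) (Nat.add (f x54942) (Nat.add (f x54950) (Nat.add
    (f x54952) (Nat.add (f x54956) (Nat.add (f x54958) (Nat.add (f x54960) (Nat.add (f x54964)
    (Nat.add (f x54966) (Nat.add (f x54974) (Nat.add (f x54976) (Nat.add (f x54978) (Nat.add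
    (f x54982) (Nat.add (f x54984) (Nat.add (f x54990) (Nat.add (f x55004) (Nat.add (f x55006)
    (Nat.add (f x55010) (Nat.add (f x55012) (Nat.add (f x55014) (Nat.add (f x55018) (Nat.add
    (f x55020) (Nat.add (f x55028) (Nat.add (f x55030) (Nat.add (f x55032) (Nat.add (f x55036)
    (Nat.add (f x55038) (Nat.add (f x55044) (Nat.add (f x55054) (Nat.add (f x55056) (Nat.add
    (f x55062) (Nat.add (f x55082) (Nat.add (f x55084) (Nat.add (f x55086) (Nat.add (f x55090)
    (Nat.add (f x55092) (Nat.add (f x55098) (Nat.add (f x55108) (Nat.add (f x55110) (Nat.add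
    (f x55116) (Nat.add (f x55134) (Nat.add (f x55166) (Nat.add (f x55168) (Nat.add (f x55172)
    (Nat.add (f x55174) (Nat.add (f x55176) (Nat.add (f x55180) (Nat.add (f x55182) (Nat.add
    (f x55190) (Nat.add (f x55192) (Nat.add (f x55194) (Nat.add (f x55198) (Nat.add (f x55200)
    (Nat.add (f x55206) (Nat.add (f x55216) (Nat.add (f x55218) (Nat.add (f x55224) (Nat.add
    (f x55244) (Nat.add (f x55246) 0))))))))))))))))))))))))))))))))))))))))))))))))))))))))))))
    (Nat.add (Nat.add (f x55248) (Nat.add (f x55252) (Nat.add (f x55254) (Nat.add (f x55260)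
    (Nat.add (f x55270) (Nat.add (f x55272) (Nat.add (f x55278) (Nat.add (f x55296) (Nat.add
    (f x55324) (Nat.add (f x55326) (Nat.add (f x55332) (Nat.add (f x55350) (Nat.add (f x55412)
    (Nat.add (f x55418) (Nat.add (f x55420) (Nat.add (f x55424) (Nat.add (f x55426) (Nat.add
    (f x55428) (Nat.add (f x55436) (Nat.add (f x55438) (Nat.add (f x55442) (Nat.add (f x55444)
    (Nat.add (f x55446) (Nat.add (f x55450) (Nat.add (f x55452) (Nat.add (f x55460) (Nat.add
    (f x55462) (Nat.add (f x55464) (Nat.add (f x55468) (Nat.add (f x55470) (Nat.add (f x55476)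
    (Nat.add (f x55490) (Nat.add (f x55492) (Nat.add (f x55496) (Nat.add (f x55498) (Nat.add
    (f x55500) (Nat.add (f x55504) (Nat.add (f x55506) (Nat.add (f x55514) (Nat.add (f x55516)
    (Nat.add (f x55518) (Nat.add (f x55522) (Nat.add (f x55524) (Nat.add (f x55530) (Nat.add
    (f x55540) (Nat.add (f x55542) (Nat.add (f x55548) (Nat.add (f x55568) (Nat.add (f x55570)
    (Nat.add (f x55572) (Nat.add (f x55576) (Nat.add (f x55578) (Nat.add (f x55584) (Nat.add
    (f x55594) (Nat.add (f x55596) (Nat.add (f x55602) (Nat.add (f x55620) (Nat.add (f x55652)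
    (Nat.add (f x55654) (Nat.add (f x55658)
    0)))))))))))))))))))))))))))))))))))))))))))))))))))))))))))) (Nat.add (Nat.add (f x55660)
    (Nat.add (f x55662) (Nat.add (f x55666) (Nat.add (f x55668) (Nat.add (f x55676) (Nat.add
    (f x55678) (Nat.add (f x55680) (Nat.add (f x55684) (Nat.add (f x55686) (Nat.add (f x55692)
    (Nat.add (f x55702) (Nat.add (f x55704) (Nat.add (f x55710) (Nat.add (f x55730) (Nat.add
    (f x55732) (Nat.add (f x55734) (Nat.add (f x55738) (Nat.add (f x55740) (Nat.add (f x55746)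
    (Nat.add (f x55756) (Nat.add (f x55758) (Nat.add (f x55764) (Nat.add (f x55782) (Nat.add
    (f x55810) (Nat.add (f x55812) (Nat.add (f x55818) (Nat.add (f x55836) (Nat.add (f x55892)
    (Nat.add (f x55894) (Nat.add (f x55896) (Nat.add (f x55900) (Nat.add (f x55902) (Nat.add
    (f x55908) (Nat.add (f x55918) (Nat.add (f x55920) (Nat.add (f x55926) (Nat.add (f x55944)
    (Nat.add (f x55972) (Nat.add (f x55974) (Nat.add (f x55980) (Nat.add (f x55998) (Nat.add
    (f x56052) (Nat.add (f x56138) (Nat.add (f x56140) (Nat.add (f x56144) (Nat.add (f x56146)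
    (Nat.add (f x56148) (Nat.add (f x56152) (Nat.add (f x56154) (Nat.add (f x56162) (Nat.add
    (f x56164) (Nat.add (f x56166) (Nat.add (f x56170) (Nat.add (f x56172) (Nat.add (f x56178)
    (Nat.add (f x56188) (Nat.add (f x56190) (Nat.add (f x56196) (Nat.add (f x56216) (Nat.add
    (f x56218) 0)))))))))))))))))))))))))))))))))))))))))))))))))))))))))))) (Nat.add (Nat.add
    (f x56220) (Nat.add (f x56224) (Nat.add (f x56226) (Nat.add (f x56232) (Nat.add (f x56242)
    (Nat.add (f x56244) (Nat.add (f x56250) (Nat.add (f x56268) (Nat.add (f x56296) (Nat.add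
    (f x56298) (Nat.add (f x56304) (Nat.add (f x56322) (Nat.add (f x56378) (Nat.add (f x56380)
    (Nat.add (f x56382) (Nat.add (f x56386) (Nat.add (f x56388) (Nat.add (f x56394) (Nat.add
    (f x56404) (Nat.add (f x56406) (Nat.add (f x56412) (Nat.add (f x56430) (Nat.add (f x56458)
    (Nat.add (f x56460) (Nat.add (f x56466) (Nat.add (f x56484) (Nat.add (f x56538) (Nat.add
    (f x56620) (Nat.add (f x56622) (Nat.add (f x56628) (Nat.add (f x56646) (Nat.add (f x56700)
    (Nat.add (f x56870) (Nat.add (f x56876) (Nat.add (f x56878) (Nat.add (f x56882) (Nat.add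
    (f x56884) (Nat.add (f x56886) (Nat.add (f x56894) (Nat.add (f x56896) (Nat.add (f x56900)
    (Nat.add (f x56902) (Nat.add (f x56904) (Nat.add (f x56908) (Nat.add (f x56910) (Nat.add
    (f x56918) (Nat.add (f x56920) (Nat.add (f x56922) (Nat.add (f x56926) (Nat.add (f x56928)
    (Nat.add (f x56934) (Nat.add (f x56948) (Nat.add (f x56950) (Nat.add (f x56954) (Nat.add
    (f x56956) (Nat.add (f x56958) (Nat.add (f x56962) (Nat.add (f x56964) (Nat.add (f x56972)
    (Nat.add (f x56974) 0)))))))))))))))))))))))))))))))))))))))))))))))))))))))))))) (Nat.add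
    (Nat.add (f x56976) (Nat.add (f x56980) (Nat.add (f x56982) (Nat.add (f x56988) (Nat.add
    (f x56998) (Nat.add (f x57000) (Nat.add (f x57006) (Nat.add (f x57026) (Nat.add (f x57028)
    (Nat.add (f x57030) (Nat.add (f x57034) (Nat.add (f x57036) (Nat.add (f x57042) (Nat.add
    (f x57052) (Nat.add (f x57054) (Nat.add (f x57060) (Nat.add (f x57078) (Nat.add (f x57110)
    (Nat.add (f x57112) (Nat.add (f x57116) (Nat.add (f x57118) (Nat.add (f x57120) (Nat.add
    (f x57124) (Nat.add (f x57126) (Nat.add (f x57134) (Nat.add (f x57136) (Nat.add (f x57138)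
    (Nat.add (f x57142) (Nat.add (f x57144) (Nat.add (f x57150) (Nat.add (f x57160) (Nat.add
    (f x57162) (Nat.add (f x57168) (Nat.add (f x57188) (Nat.add (f x57190) (Nat.add (f x57192)
    (Nat.add (f x57196) (Nat.add (f x57198) (Nat.add (f x57204) (Nat.add (f x57214) (Nat.add
    (f x57216) (Nat.add (f x57222) (Nat.add (f x57240) (Nat.add (f x57268) (Nat.add (f x57270)
    (Nat.add (f x57276) (Nat.add (f x57294) (Nat.add (f x57350) (Nat.add (f x57352) (Nat.add
    (f x57354) (Nat.add (f x57358) (Nat.add (f x57360) (Nat.add (f x57366) (Nat.add (f x57376)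
    (Nat.add (f x57378) (Nat.add (f x57384) (Nat.add (f x57402) (Nat.add (f x57430) (Nat.add
    (f x57432) (Nat.add (f x57438) 0))))))))))))))))))))))))))))))))))))))))))))))))))))))))))))
    (Nat.add (Nat.add (f x57456) (Nat.add (f x57510) (Nat.add (f x57596) (Nat.add (f x57598)
    (Nat.add (f x57602) (Nat.add (f x57604) (Nat.add (f x57606) (Nat.add (f x57610) (Nat.add
    (f x57612) (Nat.add (f x57620) (Nat.add (f x57622) (Nat.add (f x57624) (Nat.add (f x57628)
    (Nat.add (f x57630) (Nat.add (f x57636) (Nat.add (f x57646) (Nat.add (f x57648) (Nat.add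
    (f x57654) (Nat.add (f x57674) (Nat.add (f x57676) (Nat.add (f x57678) (Nat.add (f x57682)
    (Nat.add (f x57684) (Nat.add (f x57690) (Nat.add (f x57700) (Nat.add (f x57702) (Nat.add
    (f x57708) (Nat.add (f x57726) (Nat.add (f x57754) (Nat.add (f x57756) (Nat.add (f x57762)
    (Nat.add (f x57780) (Nat.add (f x57836) (Nat.add (f x57838) (Nat.add (f x57840) (Nat.add
    (f x57844) (Nat.add (f x57846) (Nat.add (f x57852) (Nat.add (f x57862) (Nat.add (f x57864)
    (Nat.add (f x57870) (Nat.add (f x57888) (Nat.add (f x57916) (Nat.add (f x57918) (Nat.add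
    (f x57924) (Nat.add (f x57942) (Nat.add (f x57996) (Nat.add (f x58078) (Nat.add (f x58080)
    (Nat.add (f x58086) (Nat.add (f x58104) (Nat.add (f x58158) (Nat.add (f x58322) (Nat.add
    (f x58324) (Nat.add (f x58326) (Nat.add (f x58330) (Nat.add (f x58332) (Nat.add (f x58338)
    (Nat.add (f x58348) (Nat.add (f x58350)
    0)))))))))))))))))))))))))))))))))))))))))))))))))))))))))))) (Nat.add (Nat.add (f x58356)
    (Nat.add (f x58374) (Nat.add (f x58402) (Nat.add (f x58404) (Nat.add (f x58410) (Nat.add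
    (f x58428) (Nat.add (f x58482) (Nat.add (f x58564) (Nat.add (f x58566) (Nat.add (f x58572)
    (Nat.add (f x58590) (Nat.add (f x58644) (Nat.add (f x58806) 0)))))))))))))
    0)))))))))))))))))))))))))))))))))))))))))))))))))))))))))))))))))))))))))))))))))))))))))))))))))))))))))))))))))))))))))))))))))))))))))))))))))))))) v1

theorem fin_eq0 (f : Nat → Nat) (v1 : Nat) (x : Nat → Nat) :
    apLL (fun t => x t.cd) cds (fin f v1) = Nat.beq (sum2 (fun t => f (x t.cd)) cds) v1 :=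
  Eq.refl (apLL (fun t => x t.cd) cds (fin f v1))

theorem fin_eq (f : Nat → Nat) (v1 : Nat) (x : Nat → Nat) :
    ap x (fin f v1) = Nat.beq (sumL (fun s => f (x s)) (secL 10 10 0 [])) v1 :=
  ((ap_eq x (fin f v1)).symm.trans (fin_eq0 f v1 x)).trans
    (congrArg (fun z => Nat.beq z v1) (sum2_eq cds _ codes_ok (fun s => f (x s))))

noncomputable def fin2 (f : Nat → Nat) (v1 v2 : Nat) (
    x242 x404 x458 x476 x482 x484 x566 x620 x638 x644 x646 x674 x692 x698 x700 x710 x716 x718 x722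
    x724 x726 x890 x944 x962 x968 x970 x1052 x1106 x1124 x1130 x1132 x1160 x1178 x1184 x1186 x1196
    x1202 x1204 x1208 x1210 x1212 x1268 x1286 x1292 x1294 x1322 x1340 x1346 x1348 x1358 x1364 x1366
    x1370 x1372 x1374 x1394 x1400 x1402 x1412 x1418 x1420 x1424 x1426 x1428 x1436 x1438 x1442 x1444
    x1446 x1450 x1452 x1538 x1592 x1610 x1616 x1618 x1646 x1664 x1670 x1672 x1682 x1688 x1690 x1694
    x1696 x1698 x1754 x1772 x1778 x1780 x1808 x1826 x1832 x1834 x1844 x1850 x1852 x1856 x1858 x1860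
    x1880 x1886 x1888 x1898 x1904 x1906 x1910 x1912 x1914 x1922 x1924 x1928 x1930 x1932 x1936 x1938
    x1970 x1988 x1994 x1996 x2006 x2012 x2014 x2018 x2020 x2022 x2042 x2048 x2050 x2060 x2066 x2068
    x2072 x2074 x2076 x2084 x2086 x2090 x2092 x2094 x2098 x2100 x2114 x2120 x2122 x2126 x2128 x2130
    x2138 x2140 x2144 x2146 x2148 x2152 x2154 x2162 x2164 x2166 x2170 x2172 x2178 x2348 x2402 x2420
    x2426 x2428 x2510 x2564 x2582 x2588 x2590 x2618 x2636 x2642 x2644 x2654 x2660 x2662 x2666 x2668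
    x2670 x2726 x2744 x2750 x2752 x2780 x2798 x2804 x2806 x2816 x2822 x2824 x2828 x2830 x2832 x2852
    x2858 x2860 x2870 x2876 x2878 x2882 x2884 x2886 x2894 x2896 x2900 x2902 x2904 x2908 x2910 x2996
    x3050 x3068 x3074 x3076 x3104 x3122 x3128 x3130 x3140 x3146 x3148 x3152 x3154 x3156 x3212 x3230
    x3236 x3238 x3266 x3284 x3290 x3292 x3302 x3308 x3310 x3314 x3316 x3318 x3338 x3344 x3346 x3356
    x3362 x3364 x3368 x3370 x3372 x3380 x3382 x3386 x3388 x3390 x3394 x3396 x3428 x3446 x3452 x3454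
    x3464 x3470 x3472 x3476 x3478 x3480 x3500 x3506 x3508 x3518 x3524 x3526 x3530 x3532 x3534 x3542
    x3544 x3548 x3550 x3552 x3556 x3558 x3572 x3578 x3580 x3584 x3586 x3588 x3596 x3598 x3602 x3604
    x3606 x3610 x3612 x3620 x3622 x3624 x3628 x3630 x3636 x3698 x3716 x3722 x3724 x3752 x3770 x3776
    x3778 x3788 x3794 x3796 x3800 x3802 x3804 x3824 x3830 x3832 x3842 x3848 x3850 x3854 x3856 x3858
    x3866 x3868 x3872 x3874 x3876 x3880 x3882 x3914 x3932 x3938 x3940 x3950 x3956 x3958 x3962 x3964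
    x3966 x3986 x3992 x3994 x4004 x4010 x4012 x4016 x4018 x4020 x4028 x4030 x4034 x4036 x4038 x4042
    x4044 x4058 x4064 x4066 x4070 x4072 x4074 x4082 x4084 x4088 x4090 x4092 x4096 x4098 x4106 x4108
    x4110 x4114 x4116 x4122 x4148 x4154 x4156 x4166 x4172 x4174 x4178 x4180 x4182 x4190 x4192 x4196
    x4198 x4200 x4204 x4206 x4220 x4226 x4228 x4232 x4234 x4236 x4244 x4246 x4250 x4252 x4254 x4258
    x4260 x4268 x4270 x4272 x4276 x4278 x4284 x4298 x4300 x4304 x4306 x4308 x4312 x4314 x4322 x4324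
    x4326 x4330 x4332 x4338 x4348 x4350 x4356 x4454 x4508 x4526 x4532 x4534 x4562 x4580 x4586 x4588
    x4598 x4604 x4606 x4610 x4612 x4614 x4670 x4688 x4694 x4696 x4724 x4742 x4748 x4750 x4760 x4766
    x4768 x4772 x4774 x4776 x4796 x4802 x4804 x4814 x4820 x4822 x4826 x4828 x4830 x4838 x4840 x4844
    x4846 x4848 x4852 x4854 x4886 x4904 x4910 x4912 x4922 x4928 x4930 x4934 x4936 x4938 x4958 x4964
    x4966 x4976 x4982 x4984 x4988 x4990 x4992 x5000 x5002 x5006 x5008 x5010 x5014 x5016 x5030 x5036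
    x5038 x5042 x5044 x5046 x5054 x5056 x5060 x5062 x5064 x5068 x5070 x5078 x5080 x5082 x5086 x5088
    x5094 x5156 x5174 x5180 x5182 x5210 x5228 x5234 x5236 x5246 x5252 x5254 x5258 x5260 x5262 x5282
    x5288 x5290 x5300 x5306 x5308 x5312 x5314 x5316 x5324 x5326 x5330 x5332 x5334 x5338 x5340 x5372
    x5390 x5396 x5398 x5408 x5414 x5416 x5420 x5422 x5424 x5444 x5450 x5452 x5462 x5468 x5470 x5474
    x5476 x5478 x5486 x5488 x5492 x5494 x5496 x5500 x5502 x5516 x5522 x5524 x5528 x5530 x5532 x5540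
    x5542 x5546 x5548 x5550 x5554 x5556 x5564 x5566 x5568 x5572 x5574 x5580 x5606 x5612 x5614 x5624
    x5630 x5632 x5636 x5638 x5640 x5648 x5650 x5654 x5656 x5658 x5662 x5664 x5678 x5684 x5686 x5690
    x5692 x5694 x5702 x5704 x5708 x5710 x5712 x5716 x5718 x5726 x5728 x5730 x5734 x5736 x5742 x5756
    x5758 x5762 x5764 x5766 x5770 x5772 x5780 x5782 x5784 x5788 x5790 x5796 x5806 x5808 x5814 x5858
    x5876 x5882 x5884 x5894 x5900 x5902 x5906 x5908 x5910 x5930 x5936 x5938 x5948 x5954 x5956 x5960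
    x5962 x5964 x5972 x5974 x5978 x5980 x5982 x5986 x5988 x6002 x6008 x6010 x6014 x6016 x6018 x6026
    x6028 x6032 x6034 x6036 x6040 x6042 x6050 x6052 x6054 x6058 x6060 x6066 x6092 x6098 x6100 x6110
    x6116 x6118 x6122 x6124 x6126 x6134 x6136 x6140 x6142 x6144 x6148 x6150 x6164 x6170 x6172 x6176
    x6178 x6180 x6188 x6190 x6194 x6196 x6198 x6202 x6204 x6212 x6214 x6216 x6220 x6222 x6228 x6242
    x6244 x6248 x6250 x6252 x6256 x6258 x6266 x6268 x6270 x6274 x6276 x6282 x6292 x6294 x6300 x6326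
    x6332 x6334 x6338 x6340 x6342 x6350 x6352 x6356 x6358 x6360 x6364 x6366 x6374 x6376 x6378 x6382
    x6384 x6390 x6404 x6406 x6410 x6412 x6414 x6418 x6420 x6428 x6430 x6432 x6436 x6438 x6444 x6454
    x6456 x6462 x6482 x6484 x6486 x6490 x6492 x6498 x6508 x6510 x6516 x6534 x6722 x6776 x6794 x6800
    x6802 x6884 x6938 x6956 x6962 x6964 x6992 x7010 x7016 x7018 x7028 x7034 x7036 x7040 x7042 x7044
    x7100 x7118 x7124 x7126 x7154 x7172 x7178 x7180 x7190 x7196 x7198 x7202 x7204 x7206 x7226 x7232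
    x7234 x7244 x7250 x7252 x7256 x7258 x7260 x7268 x7270 x7274 x7276 x7278 x7282 x7284 x7370 x7424
    x7442 x7448 x7450 x7478 x7496 x7502 x7504 x7514 x7520 x7522 x7526 x7528 x7530 x7586 x7604 x7610
    x7612 x7640 x7658 x7664 x7666 x7676 x7682 x7684 x7688 x7690 x7692 x7712 x7718 x7720 x7730 x7736
    x7738 x7742 x7744 x7746 x7754 x7756 x7760 x7762 x7764 x7768 x7770 x7802 x7820 x7826 x7828 x7838
    x7844 x7846 x7850 x7852 x7854 x7874 x7880 x7882 x7892 x7898 x7900 x7904 x7906 x7908 x7916 x7918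
    x7922 x7924 x7926 x7930 x7932 x7946 x7952 x7954 x7958 x7960 x7962 x7970 x7972 x7976 x7978 x7980
    x7984 x7986 x7994 x7996 x7998 x8002 x8004 x8010 x8072 x8090 x8096 x8098 x8126 x8144 x8150 x8152
    x8162 x8168 x8170 x8174 x8176 x8178 x8198 x8204 x8206 x8216 x8222 x8224 x8228 x8230 x8232 x8240
    x8242 x8246 x8248 x8250 x8254 x8256 x8288 x8306 x8312 x8314 x8324 x8330 x8332 x8336 x8338 x8340
    x8360 x8366 x8368 x8378 x8384 x8386 x8390 x8392 x8394 x8402 x8404 x8408 x8410 x8412 x8416 x8418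
    x8432 x8438 x8440 x8444 x8446 x8448 x8456 x8458 x8462 x8464 x8466 x8470 x8472 x8480 x8482 x8484
    x8488 x8490 x8496 x8522 x8528 x8530 x8540 x8546 x8548 x8552 x8554 x8556 x8564 x8566 x8570 x8572
    x8574 x8578 x8580 x8594 x8600 x8602 x8606 x8608 x8610 x8618 x8620 x8624 x8626 x8628 x8632 x8634
    x8642 x8644 x8646 x8650 x8652 x8658 x8672 x8674 x8678 x8680 x8682 x8686 x8688 x8696 x8698 x8700
    x8704 x8706 x8712 x8722 x8724 x8730 x8828 x8882 x8900 x8906 x8908 x8936 x8954 x8960 x8962 x8972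
    x8978 x8980 x8984 x8986 x8988 x9044 x9062 x9068 x9070 x9098 x9116 x9122 x9124 x9134 x9140 x9142
    x9146 x9148 x9150 x9170 x9176 x9178 x9188 x9194 x9196 x9200 x9202 x9204 x9212 x9214 x9218 x9220
    x9222 x9226 x9228 x9260 x9278 x9284 x9286 x9296 x9302 x9304 x9308 x9310 x9312 x9332 x9338 x9340
    x9350 x9356 x9358 x9362 x9364 x9366 x9374 x9376 x9380 x9382 x9384 x9388 x9390 x9404 x9410 x9412
    x9416 x9418 x9420 x9428 x9430 x9434 x9436 x9438 x9442 x9444 x9452 x9454 x9456 x9460 x9462 x9468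
    x9530 x9548 x9554 x9556 x9584 x9602 x9608 x9610 x9620 x9626 x9628 x9632 x9634 x9636 x9656 x9662
    x9664 x9674 x9680 x9682 x9686 x9688 x9690 x9698 x9700 x9704 x9706 x9708 x9712 x9714 x9746 x9764
    x9770 x9772 x9782 x9788 x9790 x9794 x9796 x9798 x9818 x9824 x9826 x9836 x9842 x9844 x9848 x9850
    x9852 x9860 x9862 x9866 x9868 x9870 x9874 x9876 x9890 x9896 x9898 x9902 x9904 x9906 x9914 x9916
    x9920 x9922 x9924 x9928 x9930 x9938 x9940 x9942 x9946 x9948 x9954 x9980 x9986 x9988 x9998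
    x10004 x10006 x10010 x10012 x10014 x10022 x10024 x10028 x10030 x10032 x10036 x10038 x10052
    x10058 x10060 x10064 x10066 x10068 x10076 x10078 x10082 x10084 x10086 x10090 x10092 x10100
    x10102 x10104 x10108 x10110 x10116 x10130 x10132 x10136 x10138 x10140 x10144 x10146 x10154
    x10156 x10158 x10162 x10164 x10170 x10180 x10182 x10188 x10232 x10250 x10256 x10258 x10268
    x10274 x10276 x10280 x10282 x10284 x10304 x10310 x10312 x10322 x10328 x10330 x10334 x10336
    x10338 x10346 x10348 x10352 x10354 x10356 x10360 x10362 x10376 x10382 x10384 x10388 x10390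
    x10392 x10400 x10402 x10406 x10408 x10410 x10414 x10416 x10424 x10426 x10428 x10432 x10434
    x10440 x10466 x10472 x10474 x10484 x10490 x10492 x10496 x10498 x10500 x10508 x10510 x10514
    x10516 x10518 x10522 x10524 x10538 x10544 x10546 x10550 x10552 x10554 x10562 x10564 x10568
    x10570 x10572 x10576 x10578 x10586 x10588 x10590 x10594 x10596 x10602 x10616 x10618 x10622
    x10624 x10626 x10630 x10632 x10640 x10642 x10644 x10648 x10650 x10656 x10666 x10668 x10674
    x10700 x10706 x10708 x10712 x10714 x10716 x10724 x10726 x10730 x10732 x10734 x10738 x10740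
    x10748 x10750 x10752 x10756 x10758 x10764 x10778 x10780 x10784 x10786 x10788 x10792 x10794
    x10802 x10804 x10806 x10810 x10812 x10818 x10828 x10830 x10836 x10856 x10858 x10860 x10864
    x10866 x10872 x10882 x10884 x10890 x10908 x10988 x11006 x11012 x11014 x11042 x11060 x11066
    x11068 x11078 x11084 x11086 x11090 x11092 x11094 x11114 x11120 x11122 x11132 x11138 x11140
    x11144 x11146 x11148 x11156 x11158 x11162 x11164 x11166 x11170 x11172 x11204 x11222 x11228
    x11230 x11240 x11246 x11248 x11252 x11254 x11256 x11276 x11282 x11284 x11294 x11300 x11302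
    x11306 x11308 x11310 x11318 x11320 x11324 x11326 x11328 x11332 x11334 x11348 x11354 x11356
    x11360 x11362 x11364 x11372 x11374 x11378 x11380 x11382 x11386 x11388 x11396 x11398 x11400
    x11404 x11406 x11412 x11438 x11444 x11446 x11456 x11462 x11464 x11468 x11470 x11472 x11480
    x11482 x11486 x11488 x11490 x11494 x11496 x11510 x11516 x11518 x11522 x11524 x11526 x11534
    x11536 x11540 x11542 x11544 x11548 x11550 x11558 x11560 x11562 x11566 x11568 x11574 x11588
    x11590 x11594 x11596 x11598 x11602 x11604 x11612 x11614 x11616 x11620 x11622 x11628 x11638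
    x11640 x11646 x11690 x11708 x11714 x11716 x11726 x11732 x11734 x11738 x11740 x11742 x11762
    x11768 x11770 x11780 x11786 x11788 x11792 x11794 x11796 x11804 x11806 x11810 x11812 x11814
    x11818 x11820 x11834 x11840 x11842 x11846 x11848 x11850 x11858 x11860 x11864 x11866 x11868
    x11872 x11874 x11882 x11884 x11886 x11890 x11892 x11898 x11924 x11930 x11932 x11942 x11948
    x11950 x11954 x11956 x11958 x11966 x11968 x11972 x11974 x11976 x11980 x11982 x11996 x12002
    x12004 x12008 x12010 x12012 x12020 x12022 x12026 x12028 x12030 x12034 x12036 x12044 x12046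
    x12048 x12052 x12054 x12060 x12074 x12076 x12080 x12082 x12084 x12088 x12090 x12098 x12100
    x12102 x12106 x12108 x12114 x12124 x12126 x12132 x12158 x12164 x12166 x12170 x12172 x12174
    x12182 x12184 x12188 x12190 x12192 x12196 x12198 x12206 x12208 x12210 x12214 x12216 x12222
    x12236 x12238 x12242 x12244 x12246 x12250 x12252 x12260 x12262 x12264 x12268 x12270 x12276
    x12286 x12288 x12294 x12314 x12316 x12318 x12322 x12324 x12330 x12340 x12342 x12348 x12366
    x12410 x12416 x12418 x12428 x12434 x12436 x12440 x12442 x12444 x12452 x12454 x12458 x12460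
    x12462 x12466 x12468 x12482 x12488 x12490 x12494 x12496 x12498 x12506 x12508 x12512 x12514
    x12516 x12520 x12522 x12530 x12532 x12534 x12538 x12540 x12546 x12560 x12562 x12566 x12568
    x12570 x12574 x12576 x12584 x12586 x12588 x12592 x12594 x12600 x12610 x12612 x12618 x12644
    x12650 x12652 x12656 x12658 x12660 x12668 x12670 x12674 x12676 x12678 x12682 x12684 x12692
    x12694 x12696 x12700 x12702 x12708 x12722 x12724 x12728 x12730 x12732 x12736 x12738 x12746
    x12748 x12750 x12754 x12756 x12762 x12772 x12774 x12780 x12800 x12802 x12804 x12808 x12810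
    x12816 x12826 x12828 x12834 x12852 x12884 x12886 x12890 x12892 x12894 x12898 x12900 x12908
    x12910 x12912 x12916 x12918 x12924 x12934 x12936 x12942 x12962 x12964 x12966 x12970 x12972
    x12978 x12988 x12990 x12996 x13014 x13042 x13044 x13050 x13068 x13202 x13256 x13274 x13280
    x13282 x13310 x13328 x13334 x13336 x13346 x13352 x13354 x13358 x13360 x13362 x13418 x13436
    x13442 x13444 x13472 x13490 x13496 x13498 x13508 x13514 x13516 x13520 x13522 x13524 x13544
    x13550 x13552 x13562 x13568 x13570 x13574 x13576 x13578 x13586 x13588 x13592 x13594 x13596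
    x13600 x13602 x13634 x13652 x13658 x13660 x13670 x13676 x13678 x13682 x13684 x13686 x13706
    x13712 x13714 x13724 x13730 x13732 x13736 x13738 x13740 x13748 x13750 x13754 x13756 x13758
    x13762 x13764 x13778 x13784 x13786 x13790 x13792 x13794 x13802 x13804 x13808 x13810 x13812
    x13816 x13818 x13826 x13828 x13830 x13834 x13836 x13842 x13904 x13922 x13928 x13930 x13958
    x13976 x13982 x13984 x13994 x14000 x14002 x14006 x14008 x14010 x14030 x14036 x14038 x14048
    x14054 x14056 x14060 x14062 x14064 x14072 x14074 x14078 x14080 x14082 x14086 x14088 x14120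
    x14138 x14144 x14146 x14156 x14162 x14164 x14168 x14170 x14172 x14192 x14198 x14200 x14210
    x14216 x14218 x14222 x14224 x14226 x14234 x14236 x14240 x14242 x14244 x14248 x14250 x14264
    x14270 x14272 x14276 x14278 x14280 x14288 x14290 x14294 x14296 x14298 x14302 x14304 x14312
    x14314 x14316 x14320 x14322 x14328 x14354 x14360 x14362 x14372 x14378 x14380 x14384 x14386
    x14388 x14396 x14398 x14402 x14404 x14406 x14410 x14412 x14426 x14432 x14434 x14438 x14440
    x14442 x14450 x14452 x14456 x14458 x14460 x14464 x14466 x14474 x14476 x14478 x14482 x14484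
    x14490 x14504 x14506 x14510 x14512 x14514 x14518 x14520 x14528 x14530 x14532 x14536 x14538
    x14544 x14554 x14556 x14562 x14606 x14624 x14630 x14632 x14642 x14648 x14650 x14654 x14656
    x14658 x14678 x14684 x14686 x14696 x14702 x14704 x14708 x14710 x14712 x14720 x14722 x14726
    x14728 x14730 x14734 x14736 x14750 x14756 x14758 x14762 x14764 x14766 x14774 x14776 x14780
    x14782 x14784 x14788 x14790 x14798 x14800 x14802 x14806 x14808 x14814 x14840 x14846 x14848
    x14858 x14864 x14866 x14870 x14872 x14874 x14882 x14884 x14888 x14890 x14892 x14896 x14898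
    x14912 x14918 x14920 x14924 x14926 x14928 x14936 x14938 x14942 x14944 x14946 x14950 x14952
    x14960 x14962 x14964 x14968 x14970 x14976 x14990 x14992 x14996 x14998 x15000 x15004 x15006
    x15014 x15016 x15018 x15022 x15024 x15030 x15040 x15042 x15048 x15074 x15080 x15082 x15086
    x15088 x15090 x15098 x15100 x15104 x15106 x15108 x15112 x15114 x15122 x15124 x15126 x15130
    x15132 x15138 x15152 x15154 x15158 x15160 x15162 x15166 x15168 x15176 x15178 x15180 x15184
    x15186 x15192 x15202 x15204 x15210 x15230 x15232 x15234 x15238 x15240 x15246 x15256 x15258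
    x15264 x15282 x15362 x15380 x15386 x15388 x15416 x15434 x15440 x15442 x15452 x15458 x15460
    x15464 x15466 x15468 x15488 x15494 x15496 x15506 x15512 x15514 x15518 x15520 x15522 x15530
    x15532 x15536 x15538 x15540 x15544 x15546 x15578 x15596 x15602 x15604 x15614 x15620 x15622
    x15626 x15628 x15630 x15650 x15656 x15658 x15668 x15674 x15676 x15680 x15682 x15684 x15692
    x15694 x15698 x15700 x15702 x15706 x15708 x15722 x15728 x15730 x15734 x15736 x15738 x15746
    x15748 x15752 x15754 x15756 x15760 x15762 x15770 x15772 x15774 x15778 x15780 x15786 x15812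
    x15818 x15820 x15830 x15836 x15838 x15842 x15844 x15846 x15854 x15856 x15860 x15862 x15864
    x15868 x15870 x15884 x15890 x15892 x15896 x15898 x15900 x15908 x15910 x15914 x15916 x15918
    x15922 x15924 x15932 x15934 x15936 x15940 x15942 x15948 x15962 x15964 x15968 x15970 x15972
    x15976 x15978 x15986 x15988 x15990 x15994 x15996 x16002 x16012 x16014 x16020 x16064 x16082
    x16088 x16090 x16100 x16106 x16108 x16112 x16114 x16116 x16136 x16142 x16144 x16154 x16160
    x16162 x16166 x16168 x16170 x16178 x16180 x16184 x16186 x16188 x16192 x16194 x16208 x16214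
    x16216 x16220 x16222 x16224 x16232 x16234 x16238 x16240 x16242 x16246 x16248 x16256 x16258
    x16260 x16264 x16266 x16272 x16298 x16304 x16306 x16316 x16322 x16324 x16328 x16330 x16332
    x16340 x16342 x16346 x16348 x16350 x16354 x16356 x16370 x16376 x16378 x16382 x16384 x16386
    x16394 x16396 x16400 x16402 x16404 x16408 x16410 x16418 x16420 x16422 x16426 x16428 x16434
    x16448 x16450 x16454 x16456 x16458 x16462 x16464 x16472 x16474 x16476 x16480 x16482 x16488
    x16498 x16500 x16506 x16532 x16538 x16540 x16544 x16546 x16548 x16556 x16558 x16562 x16564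
    x16566 x16570 x16572 x16580 x16582 x16584 x16588 x16590 x16596 x16610 x16612 x16616 x16618
    x16620 x16624 x16626 x16634 x16636 x16638 x16642 x16644 x16650 x16660 x16662 x16668 x16688
    x16690 x16692 x16696 x16698 x16704 x16714 x16716 x16722 x16740 x16784 x16790 x16792 x16802
    x16808 x16810 x16814 x16816 x16818 x16826 x16828 x16832 x16834 x16836 x16840 x16842 x16856
    x16862 x16864 x16868 x16870 x16872 x16880 x16882 x16886 x16888 x16890 x16894 x16896 x16904
    x16906 x16908 x16912 x16914 x16920 x16934 x16936 x16940 x16942 x16944 x16948 x16950 x16958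
    x16960 x16962 x16966 x16968 x16974 x16984 x16986 x16992 x17018 x17024 x17026 x17030 x17032
    x17034 x17042 x17044 x17048 x17050 x17052 x17056 x17058 x17066 x17068 x17070 x17074 x17076
    x17082 x17096 x17098 x17102 x17104 x17106 x17110 x17112 x17120 x17122 x17124 x17128 x17130
    x17136 x17146 x17148 x17154 x17174 x17176 x17178 x17182 x17184 x17190 x17200 x17202 x17208
    x17226 x17258 x17260 x17264 x17266 x17268 x17272 x17274 x17282 x17284 x17286 x17290 x17292
    x17298 x17308 x17310 x17316 x17336 x17338 x17340 x17344 x17346 x17352 x17362 x17364 x17370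
    x17388 x17416 x17418 x17424 x17442 x17522 x17540 x17546 x17548 x17558 x17564 x17566 x17570
    x17572 x17574 x17594 x17600 x17602 x17612 x17618 x17620 x17624 x17626 x17628 x17636 x17638
    x17642 x17644 x17646 x17650 x17652 x17666 x17672 x17674 x17678 x17680 x17682 x17690 x17692
    x17696 x17698 x17700 x17704 x17706 x17714 x17716 x17718 x17722 x17724 x17730 x17756 x17762
    x17764 x17774 x17780 x17782 x17786 x17788 x17790 x17798 x17800 x17804 x17806 x17808 x17812
    x17814 x17828 x17834 x17836 x17840 x17842 x17844 x17852 x17854 x17858 x17860 x17862 x17866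
    x17868 x17876 x17878 x17880 x17884 x17886 x17892 x17906 x17908 x17912 x17914 x17916 x17920
    x17922 x17930 x17932 x17934 x17938 x17940 x17946 x17956 x17958 x17964 x17990 x17996 x17998
    x18002 x18004 x18006 x18014 x18016 x18020 x18022 x18024 x18028 x18030 x18038 x18040 x18042
    x18046 x18048 x18054 x18068 x18070 x18074 x18076 x18078 x18082 x18084 x18092 x18094 x18096
    x18100 x18102 x18108 x18118 x18120 x18126 x18146 x18148 x18150 x18154 x18156 x18162 x18172
    x18174 x18180 x18198 x18242 x18248 x18250 x18260 x18266 x18268 x18272 x18274 x18276 x18284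
    x18286 x18290 x18292 x18294 x18298 x18300 x18314 x18320 x18322 x18326 x18328 x18330 x18338
    x18340 x18344 x18346 x18348 x18352 x18354 x18362 x18364 x18366 x18370 x18372 x18378 x18392
    x18394 x18398 x18400 x18402 x18406 x18408 x18416 x18418 x18420 x18424 x18426 x18432 x18442
    x18444 x18450 x18476 x18482 x18484 x18488 x18490 x18492 x18500 x18502 x18506 x18508 x18510
    x18514 x18516 x18524 x18526 x18528 x18532 x18534 x18540 x18554 x18556 x18560 x18562 x18564
    x18568 x18570 x18578 x18580 x18582 x18586 x18588 x18594 x18604 x18606 x18612 x18632 x18634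
    x18636 x18640 x18642 x18648 x18658 x18660 x18666 x18684 x18716 x18718 x18722 x18724 x18726
    x18730 x18732 x18740 x18742 x18744 x18748 x18750 x18756 x18766 x18768 x18774 x18794 x18796
    x18798 x18802 x18804 x18810 x18820 x18822 x18828 x18846 x18874 x18876 x18882 x18900 x18962
    x18968 x18970 x18974 x18976 x18978 x18986 x18988 x18992 x18994 x18996 x19000 x19002 x19010
    x19012 x19014 x19018 x19020 x19026 x19040 x19042 x19046 x19048 x19050 x19054 x19056 x19064
    x19066 x19068 x19072 x19074 x19080 x19090 x19092 x19098 x19118 x19120 x19122 x19126 x19128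
    x19134 x19144 x19146 x19152 x19170 x19202 x19204 x19208 x19210 x19212 x19216 x19218 x19226
    x19228 x19230 x19234 x19236 x19242 x19252 x19254 x19260 x19280 x19282 x19284 x19288 x19290
    x19296 x19306 x19308 x19314 x19332 x19360 x19362 x19368 x19386 x19442 x19444 x19446 x19450
    x19452 x19458 x19468 x19470 x19476 x19494 x19522 x19524 x19530 x19548 x19602 x19844 x19898
    x19916 x19922 x19924 x20006 x20060 x20078 x20084 x20086 x20114 x20132 x20138 x20140 x20150
    x20156 x20158 x20162 x20164 x20166 x20222 x20240 x20246 x20248 x20276 x20294 x20300 x20302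
    x20312 x20318 x20320 x20324 x20326 x20328 x20348 x20354 x20356 x20366 x20372 x20374 x20378
    x20380 x20382 x20390 x20392 x20396 x20398 x20400 x20404 x20406 x20492 x20546 x20564 x20570
    x20572 x20600 x20618 x20624 x20626 x20636 x20642 x20644 x20648 x20650 x20652 x20708 x20726
    x20732 x20734 x20762 x20780 x20786 x20788 x20798 x20804 x20806 x20810 x20812 x20814 x20834
    x20840 x20842 x20852 x20858 x20860 x20864 x20866 x20868 x20876 x20878 x20882 x20884 x20886
    x20890 x20892 x20924 x20942 x20948 x20950 x20960 x20966 x20968 x20972 x20974 x20976 x20996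
    x21002 x21004 x21014 x21020 x21022 x21026 x21028 x21030 x21038 x21040 x21044 x21046 x21048
    x21052 x21054 x21068 x21074 x21076 x21080 x21082 x21084 x21092 x21094 x21098 x21100 x21102
    x21106 x21108 x21116 x21118 x21120 x21124 x21126 x21132 x21194 x21212 x21218 x21220 x21248
    x21266 x21272 x21274 x21284 x21290 x21292 x21296 x21298 x21300 x21320 x21326 x21328 x21338
    x21344 x21346 x21350 x21352 x21354 x21362 x21364 x21368 x21370 x21372 x21376 x21378 x21410
    x21428 x21434 x21436 x21446 x21452 x21454 x21458 x21460 x21462 x21482 x21488 x21490 x21500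
    x21506 x21508 x21512 x21514 x21516 x21524 x21526 x21530 x21532 x21534 x21538 x21540 x21554
    x21560 x21562 x21566 x21568 x21570 x21578 x21580 x21584 x21586 x21588 x21592 x21594 x21602
    x21604 x21606 x21610 x21612 x21618 x21644 x21650 x21652 x21662 x21668 x21670 x21674 x21676
    x21678 x21686 x21688 x21692 x21694 x21696 x21700 x21702 x21716 x21722 x21724 x21728 x21730
    x21732 x21740 x21742 x21746 x21748 x21750 x21754 x21756 x21764 x21766 x21768 x21772 x21774
    x21780 x21794 x21796 x21800 x21802 x21804 x21808 x21810 x21818 x21820 x21822 x21826 x21828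
    x21834 x21844 x21846 x21852 x21950 x22004 x22022 x22028 x22030 x22058 x22076 x22082 x22084
    x22094 x22100 x22102 x22106 x22108 x22110 x22166 x22184 x22190 x22192 x22220 x22238 x22244
    x22246 x22256 x22262 x22264 x22268 x22270 x22272 x22292 x22298 x22300 x22310 x22316 x22318
    x22322 x22324 x22326 x22334 x22336 x22340 x22342 x22344 x22348 x22350 x22382 x22400 x22406
    x22408 x22418 x22424 x22426 x22430 x22432 x22434 x22454 x22460 x22462 x22472 x22478 x22480
    x22484 x22486 x22488 x22496 x22498 x22502 x22504 x22506 x22510 x22512 x22526 x22532 x22534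
    x22538 x22540 x22542 x22550 x22552 x22556 x22558 x22560 x22564 x22566 x22574 x22576 x22578
    x22582 x22584 x22590 x22652 x22670 x22676 x22678 x22706 x22724 x22730 x22732 x22742 x22748
    x22750 x22754 x22756 x22758 x22778 x22784 x22786 x22796 x22802 x22804 x22808 x22810 x22812
    x22820 x22822 x22826 x22828 x22830 x22834 x22836 x22868 x22886 x22892 x22894 x22904 x22910
    x22912 x22916 x22918 x22920 x22940 x22946 x22948 x22958 x22964 x22966 x22970 x22972 x22974
    x22982 x22984 x22988 x22990 x22992 x22996 x22998 x23012 x23018 x23020 x23024 x23026 x23028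
    x23036 x23038 x23042 x23044 x23046 x23050 x23052 x23060 x23062 x23064 x23068 x23070 x23076
    x23102 x23108 x23110 x23120 x23126 x23128 x23132 x23134 x23136 x23144 x23146 x23150 x23152
    x23154 x23158 x23160 x23174 x23180 x23182 x23186 x23188 x23190 x23198 x23200 x23204 x23206
    x23208 x23212 x23214 x23222 x23224 x23226 x23230 x23232 x23238 x23252 x23254 x23258 x23260
    x23262 x23266 x23268 x23276 x23278 x23280 x23284 x23286 x23292 x23302 x23304 x23310 x23354
    x23372 x23378 x23380 x23390 x23396 x23398 x23402 x23404 x23406 x23426 x23432 x23434 x23444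
    x23450 x23452 x23456 x23458 x23460 x23468 x23470 x23474 x23476 x23478 x23482 x23484 x23498
    x23504 x23506 x23510 x23512 x23514 x23522 x23524 x23528 x23530 x23532 x23536 x23538 x23546
    x23548 x23550 x23554 x23556 x23562 x23588 x23594 x23596 x23606 x23612 x23614 x23618 x23620
    x23622 x23630 x23632 x23636 x23638 x23640 x23644 x23646 x23660 x23666 x23668 x23672 x23674
    x23676 x23684 x23686 x23690 x23692 x23694 x23698 x23700 x23708 x23710 x23712 x23716 x23718
    x23724 x23738 x23740 x23744 x23746 x23748 x23752 x23754 x23762 x23764 x23766 x23770 x23772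
    x23778 x23788 x23790 x23796 x23822 x23828 x23830 x23834 x23836 x23838 x23846 x23848 x23852
    x23854 x23856 x23860 x23862 x23870 x23872 x23874 x23878 x23880 x23886 x23900 x23902 x23906
    x23908 x23910 x23914 x23916 x23924 x23926 x23928 x23932 x23934 x23940 x23950 x23952 x23958
    x23978 x23980 x23982 x23986 x23988 x23994 x24004 x24006 x24012 x24030 x24110 x24128 x24134
    x24136 x24164 x24182 x24188 x24190 x24200 x24206 x24208 x24212 x24214 x24216 x24236 x24242
    x24244 x24254 x24260 x24262 x24266 x24268 x24270 x24278 x24280 x24284 x24286 x24288 x24292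
    x24294 x24326 x24344 x24350 x24352 x24362 x24368 x24370 x24374 x24376 x24378 x24398 x24404
    x24406 x24416 x24422 x24424 x24428 x24430 x24432 x24440 x24442 x24446 x24448 x24450 x24454
    x24456 x24470 x24476 x24478 x24482 x24484 x24486 x24494 x24496 x24500 x24502 x24504 x24508
    x24510 x24518 x24520 x24522 x24526 x24528 x24534 x24560 x24566 x24568 x24578 x24584 x24586
    x24590 x24592 x24594 x24602 x24604 x24608 x24610 x24612 x24616 x24618 x24632 x24638 x24640
    x24644 x24646 x24648 x24656 x24658 x24662 x24664 x24666 x24670 x24672 x24680 x24682 x24684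
    x24688 x24690 x24696 x24710 x24712 x24716 x24718 x24720 x24724 x24726 x24734 x24736 x24738
    x24742 x24744 x24750 x24760 x24762 x24768 x24812 x24830 x24836 x24838 x24848 x24854 x24856
    x24860 x24862 x24864 x24884 x24890 x24892 x24902 x24908 x24910 x24914 x24916 x24918 x24926
    x24928 x24932 x24934 x24936 x24940 x24942 x24956 x24962 x24964 x24968 x24970 x24972 x24980
    x24982 x24986 x24988 x24990 x24994 x24996 x25004 x25006 x25008 x25012 x25014 x25020 x25046
    x25052 x25054 x25064 x25070 x25072 x25076 x25078 x25080 x25088 x25090 x25094 x25096 x25098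
    x25102 x25104 x25118 x25124 x25126 x25130 x25132 x25134 x25142 x25144 x25148 x25150 x25152
    x25156 x25158 x25166 x25168 x25170 x25174 x25176 x25182 x25196 x25198 x25202 x25204 x25206
    x25210 x25212 x25220 x25222 x25224 x25228 x25230 x25236 x25246 x25248 x25254 x25280 x25286
    x25288 x25292 x25294 x25296 x25304 x25306 x25310 x25312 x25314 x25318 x25320 x25328 x25330
    x25332 x25336 x25338 x25344 x25358 x25360 x25364 x25366 x25368 x25372 x25374 x25382 x25384
    x25386 x25390 x25392 x25398 x25408 x25410 x25416 x25436 x25438 x25440 x25444 x25446 x25452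
    x25462 x25464 x25470 x25488 x25532 x25538 x25540 x25550 x25556 x25558 x25562 x25564 x25566
    x25574 x25576 x25580 x25582 x25584 x25588 x25590 x25604 x25610 x25612 x25616 x25618 x25620
    x25628 x25630 x25634 x25636 x25638 x25642 x25644 x25652 x25654 x25656 x25660 x25662 x25668
    x25682 x25684 x25688 x25690 x25692 x25696 x25698 x25706 x25708 x25710 x25714 x25716 x25722
    x25732 x25734 x25740 x25766 x25772 x25774 x25778 x25780 x25782 x25790 x25792 x25796 x25798
    x25800 x25804 x25806 x25814 x25816 x25818 x25822 x25824 x25830 x25844 x25846 x25850 x25852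
    x25854 x25858 x25860 x25868 x25870 x25872 x25876 x25878 x25884 x25894 x25896 x25902 x25922
    x25924 x25926 x25930 x25932 x25938 x25948 x25950 x25956 x25974 x26006 x26008 x26012 x26014
    x26016 x26020 x26022 x26030 x26032 x26034 x26038 x26040 x26046 x26056 x26058 x26064 x26084
    x26086 x26088 x26092 x26094 x26100 x26110 x26112 x26118 x26136 x26164 x26166 x26172 x26190
    x26324 x26378 x26396 x26402 x26404 x26432 x26450 x26456 x26458 x26468 x26474 x26476 x26480
    x26482 x26484 x26540 x26558 x26564 x26566 x26594 x26612 x26618 x26620 x26630 x26636 x26638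
    x26642 x26644 x26646 x26666 x26672 x26674 x26684 x26690 x26692 x26696 x26698 x26700 x26708
    x26710 x26714 x26716 x26718 x26722 x26724 x26756 x26774 x26780 x26782 x26792 x26798 x26800
    x26804 x26806 x26808 x26828 x26834 x26836 x26846 x26852 x26854 x26858 x26860 x26862 x26870
    x26872 x26876 x26878 x26880 x26884 x26886 x26900 x26906 x26908 x26912 x26914 x26916 x26924
    x26926 x26930 x26932 x26934 x26938 x26940 x26948 x26950 x26952 x26956 x26958 x26964 x27026
    x27044 x27050 x27052 x27080 x27098 x27104 x27106 x27116 x27122 x27124 x27128 x27130 x27132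
    x27152 x27158 x27160 x27170 x27176 x27178 x27182 x27184 x27186 x27194 x27196 x27200 x27202
    x27204 x27208 x27210 x27242 x27260 x27266 x27268 x27278 x27284 x27286 x27290 x27292 x27294
    x27314 x27320 x27322 x27332 x27338 x27340 x27344 x27346 x27348 x27356 x27358 x27362 x27364
    x27366 x27370 x27372 x27386 x27392 x27394 x27398 x27400 x27402 x27410 x27412 x27416 x27418
    x27420 x27424 x27426 x27434 x27436 x27438 x27442 x27444 x27450 x27476 x27482 x27484 x27494
    x27500 x27502 x27506 x27508 x27510 x27518 x27520 x27524 x27526 x27528 x27532 x27534 x27548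
    x27554 x27556 x27560 x27562 x27564 x27572 x27574 x27578 x27580 x27582 x27586 x27588 x27596
    x27598 x27600 x27604 x27606 x27612 x27626 x27628 x27632 x27634 x27636 x27640 x27642 x27650
    x27652 x27654 x27658 x27660 x27666 x27676 x27678 x27684 x27728 x27746 x27752 x27754 x27764
    x27770 x27772 x27776 x27778 x27780 x27800 x27806 x27808 x27818 x27824 x27826 x27830 x27832
    x27834 x27842 x27844 x27848 x27850 x27852 x27856 x27858 x27872 x27878 x27880 x27884 x27886
    x27888 x27896 x27898 x27902 x27904 x27906 x27910 x27912 x27920 x27922 x27924 x27928 x27930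
    x27936 x27962 x27968 x27970 x27980 x27986 x27988 x27992 x27994 x27996 x28004 x28006 x28010
    x28012 x28014 x28018 x28020 x28034 x28040 x28042 x28046 x28048 x28050 x28058 x28060 x28064
    x28066 x28068 x28072 x28074 x28082 x28084 x28086 x28090 x28092 x28098 x28112 x28114 x28118
    x28120 x28122 x28126 x28128 x28136 x28138 x28140 x28144 x28146 x28152 x28162 x28164 x28170
    x28196 x28202 x28204 x28208 x28210 x28212 x28220 x28222 x28226 x28228 x28230 x28234 x28236
    x28244 x28246 x28248 x28252 x28254 x28260 x28274 x28276 x28280 x28282 x28284 x28288 x28290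
    x28298 x28300 x28302 x28306 x28308 x28314 x28324 x28326 x28332 x28352 x28354 x28356 x28360
    x28362 x28368 x28378 x28380 x28386 x28404 x28484 x28502 x28508 x28510 x28538 x28556 x28562
    x28564 x28574 x28580 x28582 x28586 x28588 x28590 x28610 x28616 x28618 x28628 x28634 x28636
    x28640 x28642 x28644 x28652 x28654 x28658 x28660 x28662 x28666 x28668 x28700 x28718 x28724
    x28726 x28736 x28742 x28744 x28748 x28750 x28752 x28772 x28778 x28780 x28790 x28796 x28798
    x28802 x28804 x28806 x28814 x28816 x28820 x28822 x28824 x28828 x28830 x28844 x28850 x28852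
    x28856 x28858 x28860 x28868 x28870 x28874 x28876 x28878 x28882 x28884 x28892 x28894 x28896
    x28900 x28902 x28908 x28934 x28940 x28942 x28952 x28958 x28960 x28964 x28966 x28968 x28976
    x28978 x28982 x28984 x28986 x28990 x28992 x29006 x29012 x29014 x29018 x29020 x29022 x29030
    x29032 x29036 x29038 x29040 x29044 x29046 x29054 x29056 x29058 x29062 x29064 x29070 x29084
    x29086 x29090 x29092 x29094 x29098 x29100 x29108 x29110 x29112 x29116 x29118 x29124 x29134
    x29136 x29142 x29186 x29204 x29210 x29212 x29222 x29228 x29230 x29234 x29236 x29238 x29258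
    x29264 x29266 x29276 x29282 x29284 x29288 x29290 x29292 x29300 x29302 x29306 x29308 x29310
    x29314 x29316 x29330 x29336 x29338 x29342 x29344 x29346 x29354 x29356 x29360 x29362 x29364
    x29368 x29370 x29378 x29380 x29382 x29386 x29388 x29394 x29420 x29426 x29428 x29438 x29444
    x29446 x29450 x29452 x29454 x29462 x29464 x29468 x29470 x29472 x29476 x29478 x29492 x29498
    x29500 x29504 x29506 x29508 x29516 x29518 x29522 x29524 x29526 x29530 x29532 x29540 x29542
    x29544 x29548 x29550 x29556 x29570 x29572 x29576 x29578 x29580 x29584 x29586 x29594 x29596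
    x29598 x29602 x29604 x29610 x29620 x29622 x29628 x29654 x29660 x29662 x29666 x29668 x29670
    x29678 x29680 x29684 x29686 x29688 x29692 x29694 x29702 x29704 x29706 x29710 x29712 x29718
    x29732 x29734 x29738 x29740 x29742 x29746 x29748 x29756 x29758 x29760 x29764 x29766 x29772
    x29782 x29784 x29790 x29810 x29812 x29814 x29818 x29820 x29826 x29836 x29838 x29844 x29862
    x29906 x29912 x29914 x29924 x29930 x29932 x29936 x29938 x29940 x29948 x29950 x29954 x29956
    x29958 x29962 x29964 x29978 x29984 x29986 x29990 x29992 x29994 x30002 x30004 x30008 x30010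
    x30012 x30016 x30018 x30026 x30028 x30030 x30034 x30036 x30042 x30056 x30058 x30062 x30064
    x30066 x30070 x30072 x30080 x30082 x30084 x30088 x30090 x30096 x30106 x30108 x30114 x30140
    x30146 x30148 x30152 x30154 x30156 x30164 x30166 x30170 x30172 x30174 x30178 x30180 x30188
    x30190 x30192 x30196 x30198 x30204 x30218 x30220 x30224 x30226 x30228 x30232 x30234 x30242
    x30244 x30246 x30250 x30252 x30258 x30268 x30270 x30276 x30296 x30298 x30300 x30304 x30306
    x30312 x30322 x30324 x30330 x30348 x30380 x30382 x30386 x30388 x30390 x30394 x30396 x30404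
    x30406 x30408 x30412 x30414 x30420 x30430 x30432 x30438 x30458 x30460 x30462 x30466 x30468
    x30474 x30484 x30486 x30492 x30510 x30538 x30540 x30546 x30564 x30644 x30662 x30668 x30670
    x30680 x30686 x30688 x30692 x30694 x30696 x30716 x30722 x30724 x30734 x30740 x30742 x30746
    x30748 x30750 x30758 x30760 x30764 x30766 x30768 x30772 x30774 x30788 x30794 x30796 x30800
    x30802 x30804 x30812 x30814 x30818 x30820 x30822 x30826 x30828 x30836 x30838 x30840 x30844
    x30846 x30852 x30878 x30884 x30886 x30896 x30902 x30904 x30908 x30910 x30912 x30920 x30922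
    x30926 x30928 x30930 x30934 x30936 x30950 x30956 x30958 x30962 x30964 x30966 x30974 x30976
    x30980 x30982 x30984 x30988 x30990 x30998 x31000 x31002 x31006 x31008 x31014 x31028 x31030
    x31034 x31036 x31038 x31042 x31044 x31052 x31054 x31056 x31060 x31062 x31068 x31078 x31080
    x31086 x31112 x31118 x31120 x31124 x31126 x31128 x31136 x31138 x31142 x31144 x31146 x31150
    x31152 x31160 x31162 x31164 x31168 x31170 x31176 x31190 x31192 x31196 x31198 x31200 x31204
    x31206 x31214 x31216 x31218 x31222 x31224 x31230 x31240 x31242 x31248 x31268 x31270 x31272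
    x31276 x31278 x31284 x31294 x31296 x31302 x31320 x31364 x31370 x31372 x31382 x31388 x31390
    x31394 x31396 x31398 x31406 x31408 x31412 x31414 x31416 x31420 x31422 x31436 x31442 x31444
    x31448 x31450 x31452 x31460 x31462 x31466 x31468 x31470 x31474 x31476 x31484 x31486 x31488
    x31492 x31494 x31500 x31514 x31516 x31520 x31522 x31524 x31528 x31530 x31538 x31540 x31542
    x31546 x31548 x31554 x31564 x31566 x31572 x31598 x31604 x31606 x31610 x31612 x31614 x31622
    x31624 x31628 x31630 x31632 x31636 x31638 x31646 x31648 x31650 x31654 x31656 x31662 x31676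
    x31678 x31682 x31684 x31686 x31690 x31692 x31700 x31702 x31704 x31708 x31710 x31716 x31726
    x31728 x31734 x31754 x31756 x31758 x31762 x31764 x31770 x31780 x31782 x31788 x31806 x31838
    x31840 x31844 x31846 x31848 x31852 x31854 x31862 x31864 x31866 x31870 x31872 x31878 x31888
    x31890 x31896 x31916 x31918 x31920 x31924 x31926 x31932 x31942 x31944 x31950 x31968 x31996
    x31998 x32004 x32022 x32084 x32090 x32092 x32096 x32098 x32100 x32108 x32110 x32114 x32116
    x32118 x32122 x32124 x32132 x32134 x32136 x32140 x32142 x32148 x32162 x32164 x32168 x32170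
    x32172 x32176 x32178 x32186 x32188 x32190 x32194 x32196 x32202 x32212 x32214 x32220 x32240
    x32242 x32244 x32248 x32250 x32256 x32266 x32268 x32274 x32292 x32324 x32326 x32330 x32332
    x32334 x32338 x32340 x32348 x32350 x32352 x32356 x32358 x32364 x32374 x32376 x32382 x32402
    x32404 x32406 x32410 x32412 x32418 x32428 x32430 x32436 x32454 x32482 x32484 x32490 x32508
    x32564 x32566 x32568 x32572 x32574 x32580 x32590 x32592 x32598 x32616 x32644 x32646 x32652
    x32670 x32724 x32858 x32876 x32882 x32884 x32912 x32930 x32936 x32938 x32948 x32954 x32956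
    x32960 x32962 x32964 x32984 x32990 x32992 x33002 x33008 x33010 x33014 x33016 x33018 x33026
    x33028 x33032 x33034 x33036 x33040 x33042 x33074 x33092 x33098 x33100 x33110 x33116 x33118
    x33122 x33124 x33126 x33146 x33152 x33154 x33164 x33170 x33172 x33176 x33178 x33180 x33188
    x33190 x33194 x33196 x33198 x33202 x33204 x33218 x33224 x33226 x33230 x33232 x33234 x33242
    x33244 x33248 x33250 x33252 x33256 x33258 x33266 x33268 x33270 x33274 x33276 x33282 x33308
    x33314 x33316 x33326 x33332 x33334 x33338 x33340 x33342 x33350 x33352 x33356 x33358 x33360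
    x33364 x33366 x33380 x33386 x33388 x33392 x33394 x33396 x33404 x33406 x33410 x33412 x33414
    x33418 x33420 x33428 x33430 x33432 x33436 x33438 x33444 x33458 x33460 x33464 x33466 x33468
    x33472 x33474 x33482 x33484 x33486 x33490 x33492 x33498 x33508 x33510 x33516 x33560 x33578
    x33584 x33586 x33596 x33602 x33604 x33608 x33610 x33612 x33632 x33638 x33640 x33650 x33656
    x33658 x33662 x33664 x33666 x33674 x33676 x33680 x33682 x33684 x33688 x33690 x33704 x33710
    x33712 x33716 x33718 x33720 x33728 x33730 x33734 x33736 x33738 x33742 x33744 x33752 x33754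
    x33756 x33760 x33762 x33768 x33794 x33800 x33802 x33812 x33818 x33820 x33824 x33826 x33828
    x33836 x33838 x33842 x33844 x33846 x33850 x33852 x33866 x33872 x33874 x33878 x33880 x33882
    x33890 x33892 x33896 x33898 x33900 x33904 x33906 x33914 x33916 x33918 x33922 x33924 x33930
    x33944 x33946 x33950 x33952 x33954 x33958 x33960 x33968 x33970 x33972 x33976 x33978 x33984
    x33994 x33996 x34002 x34028 x34034 x34036 x34040 x34042 x34044 x34052 x34054 x34058 x34060
    x34062 x34066 x34068 x34076 x34078 x34080 x34084 x34086 x34092 x34106 x34108 x34112 x34114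
    x34116 x34120 x34122 x34130 x34132 x34134 x34138 x34140 x34146 x34156 x34158 x34164 x34184
    x34186 x34188 x34192 x34194 x34200 x34210 x34212 x34218 x34236 x34280 x34286 x34288 x34298
    x34304 x34306 x34310 x34312 x34314 x34322 x34324 x34328 x34330 x34332 x34336 x34338 x34352
    x34358 x34360 x34364 x34366 x34368 x34376 x34378 x34382 x34384 x34386 x34390 x34392 x34400
    x34402 x34404 x34408 x34410 x34416 x34430 x34432 x34436 x34438 x34440 x34444 x34446 x34454
    x34456 x34458 x34462 x34464 x34470 x34480 x34482 x34488 x34514 x34520 x34522 x34526 x34528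
    x34530 x34538 x34540 x34544 x34546 x34548 x34552 x34554 x34562 x34564 x34566 x34570 x34572
    x34578 x34592 x34594 x34598 x34600 x34602 x34606 x34608 x34616 x34618 x34620 x34624 x34626
    x34632 x34642 x34644 x34650 x34670 x34672 x34674 x34678 x34680 x34686 x34696 x34698 x34704
    x34722 x34754 x34756 x34760 x34762 x34764 x34768 x34770 x34778 x34780 x34782 x34786 x34788
    x34794 x34804 x34806 x34812 x34832 x34834 x34836 x34840 x34842 x34848 x34858 x34860 x34866
    x34884 x34912 x34914 x34920 x34938 x35018 x35036 x35042 x35044 x35054 x35060 x35062 x35066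
    x35068 x35070 x35090 x35096 x35098 x35108 x35114 x35116 x35120 x35122 x35124 x35132 x35134
    x35138 x35140 x35142 x35146 x35148 x35162 x35168 x35170 x35174 x35176 x35178 x35186 x35188
    x35192 x35194 x35196 x35200 x35202 x35210 x35212 x35214 x35218 x35220 x35226 x35252 x35258
    x35260 x35270 x35276 x35278 x35282 x35284 x35286 x35294 x35296 x35300 x35302 x35304 x35308
    x35310 x35324 x35330 x35332 x35336 x35338 x35340 x35348 x35350 x35354 x35356 x35358 x35362
    x35364 x35372 x35374 x35376 x35380 x35382 x35388 x35402 x35404 x35408 x35410 x35412 x35416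
    x35418 x35426 x35428 x35430 x35434 x35436 x35442 x35452 x35454 x35460 x35486 x35492 x35494
    x35498 x35500 x35502 x35510 x35512 x35516 x35518 x35520 x35524 x35526 x35534 x35536 x35538
    x35542 x35544 x35550 x35564 x35566 x35570 x35572 x35574 x35578 x35580 x35588 x35590 x35592
    x35596 x35598 x35604 x35614 x35616 x35622 x35642 x35644 x35646 x35650 x35652 x35658 x35668
    x35670 x35676 x35694 x35738 x35744 x35746 x35756 x35762 x35764 x35768 x35770 x35772 x35780
    x35782 x35786 x35788 x35790 x35794 x35796 x35810 x35816 x35818 x35822 x35824 x35826 x35834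
    x35836 x35840 x35842 x35844 x35848 x35850 x35858 x35860 x35862 x35866 x35868 x35874 x35888
    x35890 x35894 x35896 x35898 x35902 x35904 x35912 x35914 x35916 x35920 x35922 x35928 x35938
    x35940 x35946 x35972 x35978 x35980 x35984 x35986 x35988 x35996 x35998 x36002 x36004 x36006
    x36010 x36012 x36020 x36022 x36024 x36028 x36030 x36036 x36050 x36052 x36056 x36058 x36060
    x36064 x36066 x36074 x36076 x36078 x36082 x36084 x36090 x36100 x36102 x36108 x36128 x36130
    x36132 x36136 x36138 x36144 x36154 x36156 x36162 x36180 x36212 x36214 x36218 x36220 x36222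
    x36226 x36228 x36236 x36238 x36240 x36244 x36246 x36252 x36262 x36264 x36270 x36290 x36292
    x36294 x36298 x36300 x36306 x36316 x36318 x36324 x36342 x36370 x36372 x36378 x36396 x36458
    x36464 x36466 x36470 x36472 x36474 x36482 x36484 x36488 x36490 x36492 x36496 x36498 x36506
    x36508 x36510 x36514 x36516 x36522 x36536 x36538 x36542 x36544 x36546 x36550 x36552 x36560
    x36562 x36564 x36568 x36570 x36576 x36586 x36588 x36594 x36614 x36616 x36618 x36622 x36624
    x36630 x36640 x36642 x36648 x36666 x36698 x36700 x36704 x36706 x36708 x36712 x36714 x36722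
    x36724 x36726 x36730 x36732 x36738 x36748 x36750 x36756 x36776 x36778 x36780 x36784 x36786
    x36792 x36802 x36804 x36810 x36828 x36856 x36858 x36864 x36882 x36938 x36940 x36942 x36946
    x36948 x36954 x36964 x36966 x36972 x36990 x37018 x37020 x37026 x37044 x37098 x37196 x37202
    x37204 x37214 x37220 x37222 x37226 x37228 x37230 x37238 x37240 x37244 x37246 x37248 x37252
    x37254 x37268 x37274 x37276 x37280 x37282 x37284 x37292 x37294 x37298 x37300 x37302 x37306
    x37308 x37316 x37318 x37320 x37324 x37326 x37332 x37346 x37348 x37352 x37354 x37356 x37360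
    x37362 x37370 x37372 x37374 x37378 x37380 x37386 x37396 x37398 x37404 x37430 x37436 x37438
    x37442 x37444 x37446 x37454 x37456 x37460 x37462 x37464 x37468 x37470 x37478 x37480 x37482
    x37486 x37488 x37494 x37508 x37510 x37514 x37516 x37518 x37522 x37524 x37532 x37534 x37536
    x37540 x37542 x37548 x37558 x37560 x37566 x37586 x37588 x37590 x37594 x37596 x37602 x37612
    x37614 x37620 x37638 x37670 x37672 x37676 x37678 x37680 x37684 x37686 x37694 x37696 x37698
    x37702 x37704 x37710 x37720 x37722 x37728 x37748 x37750 x37752 x37756 x37758 x37764 x37774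
    x37776 x37782 x37800 x37828 x37830 x37836 x37854 x37916 x37922 x37924 x37928 x37930 x37932
    x37940 x37942 x37946 x37948 x37950 x37954 x37956 x37964 x37966 x37968 x37972 x37974 x37980
    x37994 x37996 x38000 x38002 x38004 x38008 x38010 x38018 x38020 x38022 x38026 x38028 x38034
    x38044 x38046 x38052 x38072 x38074 x38076 x38080 x38082 x38088 x38098 x38100 x38106 x38124
    x38156 x38158 x38162 x38164 x38166 x38170 x38172 x38180 x38182 x38184 x38188 x38190 x38196
    x38206 x38208 x38214 x38234 x38236 x38238 x38242 x38244 x38250 x38260 x38262 x38268 x38286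
    x38314 x38316 x38322 x38340 x38396 x38398 x38400 x38404 x38406 x38412 x38422 x38424 x38430
    x38448 x38476 x38478 x38484 x38502 x38556 x38642 x38644 x38648 x38650 x38652 x38656 x38658
    x38666 x38668 x38670 x38674 x38676 x38682 x38692 x38694 x38700 x38720 x38722 x38724 x38728
    x38730 x38736 x38746 x38748 x38754 x38772 x38800 x38802 x38808 x38826 x38882 x38884 x38886
    x38890 x38892 x38898 x38908 x38910 x38916 x38934 x38962 x38964 x38970 x38988 x39042 x39124
    x39126 x39132 x39150 x39204 x39446 x39500 x39518 x39524 x39526 x39554 x39572 x39578 x39580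
    x39590 x39596 x39598 x39602 x39604 x39606 x39662 x39680 x39686 x39688 x39716 x39734 x39740
    x39742 x39752 x39758 x39760 x39764 x39766 x39768 x39788 x39794 x39796 x39806 x39812 x39814
    x39818 x39820 x39822 x39830 x39832 x39836 x39838 x39840 x39844 x39846 x39878 x39896 x39902
    x39904 x39914 x39920 x39922 x39926 x39928 x39930 x39950 x39956 x39958 x39968 x39974 x39976
    x39980 x39982 x39984 x39992 x39994 x39998 x40000 x40002 x40006 x40008 x40022 x40028 x40030
    x40034 x40036 x40038 x40046 x40048 x40052 x40054 x40056 x40060 x40062 x40070 x40072 x40074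
    x40078 x40080 x40086 x40148 x40166 x40172 x40174 x40202 x40220 x40226 x40228 x40238 x40244
    x40246 x40250 x40252 x40254 x40274 x40280 x40282 x40292 x40298 x40300 x40304 x40306 x40308
    x40316 x40318 x40322 x40324 x40326 x40330 x40332 x40364 x40382 x40388 x40390 x40400 x40406
    x40408 x40412 x40414 x40416 x40436 x40442 x40444 x40454 x40460 x40462 x40466 x40468 x40470
    x40478 x40480 x40484 x40486 x40488 x40492 x40494 x40508 x40514 x40516 x40520 x40522 x40524
    x40532 x40534 x40538 x40540 x40542 x40546 x40548 x40556 x40558 x40560 x40564 x40566 x40572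
    x40598 x40604 x40606 x40616 x40622 x40624 x40628 x40630 x40632 x40640 x40642 x40646 x40648
    x40650 x40654 x40656 x40670 x40676 x40678 x40682 x40684 x40686 x40694 x40696 x40700 x40702
    x40704 x40708 x40710 x40718 x40720 x40722 x40726 x40728 x40734 x40748 x40750 x40754 x40756
    x40758 x40762 x40764 x40772 x40774 x40776 x40780 x40782 x40788 x40798 x40800 x40806 x40850
    x40868 x40874 x40876 x40886 x40892 x40894 x40898 x40900 x40902 x40922 x40928 x40930 x40940
    x40946 x40948 x40952 x40954 x40956 x40964 x40966 x40970 x40972 x40974 x40978 x40980 x40994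
    x41000 x41002 x41006 x41008 x41010 x41018 x41020 x41024 x41026 x41028 x41032 x41034 x41042
    x41044 x41046 x41050 x41052 x41058 x41084 x41090 x41092 x41102 x41108 x41110 x41114 x41116
    x41118 x41126 x41128 x41132 x41134 x41136 x41140 x41142 x41156 x41162 x41164 x41168 x41170
    x41172 x41180 x41182 x41186 x41188 x41190 x41194 x41196 x41204 x41206 x41208 x41212 x41214
    x41220 x41234 x41236 x41240 x41242 x41244 x41248 x41250 x41258 x41260 x41262 x41266 x41268
    x41274 x41284 x41286 x41292 x41318 x41324 x41326 x41330 x41332 x41334 x41342 x41344 x41348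
    x41350 x41352 x41356 x41358 x41366 x41368 x41370 x41374 x41376 x41382 x41396 x41398 x41402
    x41404 x41406 x41410 x41412 x41420 x41422 x41424 x41428 x41430 x41436 x41446 x41448 x41454
    x41474 x41476 x41478 x41482 x41484 x41490 x41500 x41502 x41508 x41526 x41606 x41624 x41630
    x41632 x41660 x41678 x41684 x41686 x41696 x41702 x41704 x41708 x41710 x41712 x41732 x41738
    x41740 x41750 x41756 x41758 x41762 x41764 x41766 x41774 x41776 x41780 x41782 x41784 x41788
    x41790 x41822 x41840 x41846 x41848 x41858 x41864 x41866 x41870 x41872 x41874 x41894 x41900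
    x41902 x41912 x41918 x41920 x41924 x41926 x41928 x41936 x41938 x41942 x41944 x41946 x41950
    x41952 x41966 x41972 x41974 x41978 x41980 x41982 x41990 x41992 x41996 x41998 x42000 x42004
    x42006 x42014 x42016 x42018 x42022 x42024 x42030 x42056 x42062 x42064 x42074 x42080 x42082
    x42086 x42088 x42090 x42098 x42100 x42104 x42106 x42108 x42112 x42114 x42128 x42134 x42136
    x42140 x42142 x42144 x42152 x42154 x42158 x42160 x42162 x42166 x42168 x42176 x42178 x42180
    x42184 x42186 x42192 x42206 x42208 x42212 x42214 x42216 x42220 x42222 x42230 x42232 x42234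
    x42238 x42240 x42246 x42256 x42258 x42264 x42308 x42326 x42332 x42334 x42344 x42350 x42352
    x42356 x42358 x42360 x42380 x42386 x42388 x42398 x42404 x42406 x42410 x42412 x42414 x42422
    x42424 x42428 x42430 x42432 x42436 x42438 x42452 x42458 x42460 x42464 x42466 x42468 x42476
    x42478 x42482 x42484 x42486 x42490 x42492 x42500 x42502 x42504 x42508 x42510 x42516 x42542
    x42548 x42550 x42560 x42566 x42568 x42572 x42574 x42576 x42584 x42586 x42590 x42592 x42594
    x42598 x42600 x42614 x42620 x42622 x42626 x42628 x42630 x42638 x42640 x42644 x42646 x42648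
    x42652 x42654 x42662 x42664 x42666 x42670 x42672 x42678 x42692 x42694 x42698 x42700 x42702
    x42706 x42708 x42716 x42718 x42720 x42724 x42726 x42732 x42742 x42744 x42750 x42776 x42782
    x42784 x42788 x42790 x42792 x42800 x42802 x42806 x42808 x42810 x42814 x42816 x42824 x42826
    x42828 x42832 x42834 x42840 x42854 x42856 x42860 x42862 x42864 x42868 x42870 x42878 x42880
    x42882 x42886 x42888 x42894 x42904 x42906 x42912 x42932 x42934 x42936 x42940 x42942 x42948
    x42958 x42960 x42966 x42984 x43028 x43034 x43036 x43046 x43052 x43054 x43058 x43060 x43062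
    x43070 x43072 x43076 x43078 x43080 x43084 x43086 x43100 x43106 x43108 x43112 x43114 x43116
    x43124 x43126 x43130 x43132 x43134 x43138 x43140 x43148 x43150 x43152 x43156 x43158 x43164
    x43178 x43180 x43184 x43186 x43188 x43192 x43194 x43202 x43204 x43206 x43210 x43212 x43218
    x43228 x43230 x43236 x43262 x43268 x43270 x43274 x43276 x43278 x43286 x43288 x43292 x43294
    x43296 x43300 x43302 x43310 x43312 x43314 x43318 x43320 x43326 x43340 x43342 x43346 x43348
    x43350 x43354 x43356 x43364 x43366 x43368 x43372 x43374 x43380 x43390 x43392 x43398 x43418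
    x43420 x43422 x43426 x43428 x43434 x43444 x43446 x43452 x43470 x43502 x43504 x43508 x43510
    x43512 x43516 x43518 x43526 x43528 x43530 x43534 x43536 x43542 x43552 x43554 x43560 x43580
    x43582 x43584 x43588 x43590 x43596 x43606 x43608 x43614 x43632 x43660 x43662 x43668 x43686
    x43766 x43784 x43790 x43792 x43802 x43808 x43810 x43814 x43816 x43818 x43838 x43844 x43846
    x43856 x43862 x43864 x43868 x43870 x43872 x43880 x43882 x43886 x43888 x43890 x43894 x43896
    x43910 x43916 x43918 x43922 x43924 x43926 x43934 x43936 x43940 x43942 x43944 x43948 x43950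
    x43958 x43960 x43962 x43966 x43968 x43974 x44000 x44006 x44008 x44018 x44024 x44026 x44030
    x44032 x44034 x44042 x44044 x44048 x44050 x44052 x44056 x44058 x44072 x44078 x44080 x44084
    x44086 x44088 x44096 x44098 x44102 x44104 x44106 x44110 x44112 x44120 x44122 x44124 x44128
    x44130 x44136 x44150 x44152 x44156 x44158 x44160 x44164 x44166 x44174 x44176 x44178 x44182
    x44184 x44190 x44200 x44202 x44208 x44234 x44240 x44242 x44246 x44248 x44250 x44258 x44260
    x44264 x44266 x44268 x44272 x44274 x44282 x44284 x44286 x44290 x44292 x44298 x44312 x44314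
    x44318 x44320 x44322 x44326 x44328 x44336 x44338 x44340 x44344 x44346 x44352 x44362 x44364
    x44370 x44390 x44392 x44394 x44398 x44400 x44406 x44416 x44418 x44424 x44442 x44486 x44492
    x44494 x44504 x44510 x44512 x44516 x44518 x44520 x44528 x44530 x44534 x44536 x44538 x44542
    x44544 x44558 x44564 x44566 x44570 x44572 x44574 x44582 x44584 x44588 x44590 x44592 x44596
    x44598 x44606 x44608 x44610 x44614 x44616 x44622 x44636 x44638 x44642 x44644 x44646 x44650
    x44652 x44660 x44662 x44664 x44668 x44670 x44676 x44686 x44688 x44694 x44720 x44726 x44728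
    x44732 x44734 x44736 x44744 x44746 x44750 x44752 x44754 x44758 x44760 x44768 x44770 x44772
    x44776 x44778 x44784 x44798 x44800 x44804 x44806 x44808 x44812 x44814 x44822 x44824 x44826
    x44830 x44832 x44838 x44848 x44850 x44856 x44876 x44878 x44880 x44884 x44886 x44892 x44902
    x44904 x44910 x44928 x44960 x44962 x44966 x44968 x44970 x44974 x44976 x44984 x44986 x44988
    x44992 x44994 x45000 x45010 x45012 x45018 x45038 x45040 x45042 x45046 x45048 x45054 x45064
    x45066 x45072 x45090 x45118 x45120 x45126 x45144 x45206 x45212 x45214 x45218 x45220 x45222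
    x45230 x45232 x45236 x45238 x45240 x45244 x45246 x45254 x45256 x45258 x45262 x45264 x45270
    x45284 x45286 x45290 x45292 x45294 x45298 x45300 x45308 x45310 x45312 x45316 x45318 x45324
    x45334 x45336 x45342 x45362 x45364 x45366 x45370 x45372 x45378 x45388 x45390 x45396 x45414
    x45446 x45448 x45452 x45454 x45456 x45460 x45462 x45470 x45472 x45474 x45478 x45480 x45486
    x45496 x45498 x45504 x45524 x45526 x45528 x45532 x45534 x45540 x45550 x45552 x45558 x45576
    x45604 x45606 x45612 x45630 x45686 x45688 x45690 x45694 x45696 x45702 x45712 x45714 x45720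
    x45738 x45766 x45768 x45774 x45792 x45846 x45980 x45998 x46004 x46006 x46034 x46052 x46058
    x46060 x46070 x46076 x46078 x46082 x46084 x46086 x46106 x46112 x46114 x46124 x46130 x46132
    x46136 x46138 x46140 x46148 x46150 x46154 x46156 x46158 x46162 x46164 x46196 x46214 x46220
    x46222 x46232 x46238 x46240 x46244 x46246 x46248 x46268 x46274 x46276 x46286 x46292 x46294
    x46298 x46300 x46302 x46310 x46312 x46316 x46318 x46320 x46324 x46326 x46340 x46346 x46348
    x46352 x46354 x46356 x46364 x46366 x46370 x46372 x46374 x46378 x46380 x46388 x46390 x46392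
    x46396 x46398 x46404 x46430 x46436 x46438 x46448 x46454 x46456 x46460 x46462 x46464 x46472
    x46474 x46478 x46480 x46482 x46486 x46488 x46502 x46508 x46510 x46514 x46516 x46518 x46526
    x46528 x46532 x46534 x46536 x46540 x46542 x46550 x46552 x46554 x46558 x46560 x46566 x46580
    x46582 x46586 x46588 x46590 x46594 x46596 x46604 x46606 x46608 x46612 x46614 x46620 x46630
    x46632 x46638 x46682 x46700 x46706 x46708 x46718 x46724 x46726 x46730 x46732 x46734 x46754
    x46760 x46762 x46772 x46778 x46780 x46784 x46786 x46788 x46796 x46798 x46802 x46804 x46806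
    x46810 x46812 x46826 x46832 x46834 x46838 x46840 x46842 x46850 x46852 x46856 x46858 x46860
    x46864 x46866 x46874 x46876 x46878 x46882 x46884 x46890 x46916 x46922 x46924 x46934 x46940
    x46942 x46946 x46948 x46950 x46958 x46960 x46964 x46966 x46968 x46972 x46974 x46988 x46994
    x46996 x47000 x47002 x47004 x47012 x47014 x47018 x47020 x47022 x47026 x47028 x47036 x47038
    x47040 x47044 x47046 x47052 x47066 x47068 x47072 x47074 x47076 x47080 x47082 x47090 x47092
    x47094 x47098 x47100 x47106 x47116 x47118 x47124 x47150 x47156 x47158 x47162 x47164 x47166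
    x47174 x47176 x47180 x47182 x47184 x47188 x47190 x47198 x47200 x47202 x47206 x47208 x47214
    x47228 x47230 x47234 x47236 x47238 x47242 x47244 x47252 x47254 x47256 x47260 x47262 x47268
    x47278 x47280 x47286 x47306 x47308 x47310 x47314 x47316 x47322 x47332 x47334 x47340 x47358
    x47402 x47408 x47410 x47420 x47426 x47428 x47432 x47434 x47436 x47444 x47446 x47450 x47452
    x47454 x47458 x47460 x47474 x47480 x47482 x47486 x47488 x47490 x47498 x47500 x47504 x47506
    x47508 x47512 x47514 x47522 x47524 x47526 x47530 x47532 x47538 x47552 x47554 x47558 x47560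
    x47562 x47566 x47568 x47576 x47578 x47580 x47584 x47586 x47592 x47602 x47604 x47610 x47636
    x47642 x47644 x47648 x47650 x47652 x47660 x47662 x47666 x47668 x47670 x47674 x47676 x47684
    x47686 x47688 x47692 x47694 x47700 x47714 x47716 x47720 x47722 x47724 x47728 x47730 x47738
    x47740 x47742 x47746 x47748 x47754 x47764 x47766 x47772 x47792 x47794 x47796 x47800 x47802
    x47808 x47818 x47820 x47826 x47844 x47876 x47878 x47882 x47884 x47886 x47890 x47892 x47900
    x47902 x47904 x47908 x47910 x47916 x47926 x47928 x47934 x47954 x47956 x47958 x47962 x47964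
    x47970 x47980 x47982 x47988 x48006 x48034 x48036 x48042 x48060 x48140 x48158 x48164 x48166
    x48176 x48182 x48184 x48188 x48190 x48192 x48212 x48218 x48220 x48230 x48236 x48238 x48242
    x48244 x48246 x48254 x48256 x48260 x48262 x48264 x48268 x48270 x48284 x48290 x48292 x48296
    x48298 x48300 x48308 x48310 x48314 x48316 x48318 x48322 x48324 x48332 x48334 x48336 x48340
    x48342 x48348 x48374 x48380 x48382 x48392 x48398 x48400 x48404 x48406 x48408 x48416 x48418
    x48422 x48424 x48426 x48430 x48432 x48446 x48452 x48454 x48458 x48460 x48462 x48470 x48472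
    x48476 x48478 x48480 x48484 x48486 x48494 x48496 x48498 x48502 x48504 x48510 x48524 x48526
    x48530 x48532 x48534 x48538 x48540 x48548 x48550 x48552 x48556 x48558 x48564 x48574 x48576
    x48582 x48608 x48614 x48616 x48620 x48622 x48624 x48632 x48634 x48638 x48640 x48642 x48646
    x48648 x48656 x48658 x48660 x48664 x48666 x48672 x48686 x48688 x48692 x48694 x48696 x48700
    x48702 x48710 x48712 x48714 x48718 x48720 x48726 x48736 x48738 x48744 x48764 x48766 x48768
    x48772 x48774 x48780 x48790 x48792 x48798 x48816 x48860 x48866 x48868 x48878 x48884 x48886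
    x48890 x48892 x48894 x48902 x48904 x48908 x48910 x48912 x48916 x48918 x48932 x48938 x48940
    x48944 x48946 x48948 x48956 x48958 x48962 x48964 x48966 x48970 x48972 x48980 x48982 x48984
    x48988 x48990 x48996 x49010 x49012 x49016 x49018 x49020 x49024 x49026 x49034 x49036 x49038
    x49042 x49044 x49050 x49060 x49062 x49068 x49094 x49100 x49102 x49106 x49108 x49110 x49118
    x49120 x49124 x49126 x49128 x49132 x49134 x49142 x49144 x49146 x49150 x49152 x49158 x49172
    x49174 x49178 x49180 x49182 x49186 x49188 x49196 x49198 x49200 x49204 x49206 x49212 x49222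
    x49224 x49230 x49250 x49252 x49254 x49258 x49260 x49266 x49276 x49278 x49284 x49302 x49334
    x49336 x49340 x49342 x49344 x49348 x49350 x49358 x49360 x49362 x49366 x49368 x49374 x49384
    x49386 x49392 x49412 x49414 x49416 x49420 x49422 x49428 x49438 x49440 x49446 x49464 x49492
    x49494 x49500 x49518 x49580 x49586 x49588 x49592 x49594 x49596 x49604 x49606 x49610 x49612
    x49614 x49618 x49620 x49628 x49630 x49632 x49636 x49638 x49644 x49658 x49660 x49664 x49666
    x49668 x49672 x49674 x49682 x49684 x49686 x49690 x49692 x49698 x49708 x49710 x49716 x49736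
    x49738 x49740 x49744 x49746 x49752 x49762 x49764 x49770 x49788 x49820 x49822 x49826 x49828
    x49830 x49834 x49836 x49844 x49846 x49848 x49852 x49854 x49860 x49870 x49872 x49878 x49898
    x49900 x49902 x49906 x49908 x49914 x49924 x49926 x49932 x49950 x49978 x49980 x49986 x50004
    x50060 x50062 x50064 x50068 x50070 x50076 x50086 x50088 x50094 x50112 x50140 x50142 x50148
    x50166 x50220 x50318 x50324 x50326 x50336 x50342 x50344 x50348 x50350 x50352 x50360 x50362
    x50366 x50368 x50370 x50374 x50376 x50390 x50396 x50398 x50402 x50404 x50406 x50414 x50416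
    x50420 x50422 x50424 x50428 x50430 x50438 x50440 x50442 x50446 x50448 x50454 x50468 x50470
    x50474 x50476 x50478 x50482 x50484 x50492 x50494 x50496 x50500 x50502 x50508 x50518 x50520
    x50526 x50552 x50558 x50560 x50564 x50566 x50568 x50576 x50578 x50582 x50584 x50586 x50590
    x50592 x50600 x50602 x50604 x50608 x50610 x50616 x50630 x50632 x50636 x50638 x50640 x50644
    x50646 x50654 x50656 x50658 x50662 x50664 x50670 x50680 x50682 x50688 x50708 x50710 x50712
    x50716 x50718 x50724 x50734 x50736 x50742 x50760 x50792 x50794 x50798 x50800 x50802 x50806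
    x50808 x50816 x50818 x50820 x50824 x50826 x50832 x50842 x50844 x50850 x50870 x50872 x50874
    x50878 x50880 x50886 x50896 x50898 x50904 x50922 x50950 x50952 x50958 x50976 x51038 x51044
    x51046 x51050 x51052 x51054 x51062 x51064 x51068 x51070 x51072 x51076 x51078 x51086 x51088
    x51090 x51094 x51096 x51102 x51116 x51118 x51122 x51124 x51126 x51130 x51132 x51140 x51142
    x51144 x51148 x51150 x51156 x51166 x51168 x51174 x51194 x51196 x51198 x51202 x51204 x51210
    x51220 x51222 x51228 x51246 x51278 x51280 x51284 x51286 x51288 x51292 x51294 x51302 x51304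
    x51306 x51310 x51312 x51318 x51328 x51330 x51336 x51356 x51358 x51360 x51364 x51366 x51372
    x51382 x51384 x51390 x51408 x51436 x51438 x51444 x51462 x51518 x51520 x51522 x51526 x51528
    x51534 x51544 x51546 x51552 x51570 x51598 x51600 x51606 x51624 x51678 x51764 x51766 x51770
    x51772 x51774 x51778 x51780 x51788 x51790 x51792 x51796 x51798 x51804 x51814 x51816 x51822
    x51842 x51844 x51846 x51850 x51852 x51858 x51868 x51870 x51876 x51894 x51922 x51924 x51930
    x51948 x52004 x52006 x52008 x52012 x52014 x52020 x52030 x52032 x52038 x52056 x52084 x52086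
    x52092 x52110 x52164 x52246 x52248 x52254 x52272 x52326 x52514 x52532 x52538 x52540 x52550
    x52556 x52558 x52562 x52564 x52566 x52586 x52592 x52594 x52604 x52610 x52612 x52616 x52618
    x52620 x52628 x52630 x52634 x52636 x52638 x52642 x52644 x52658 x52664 x52666 x52670 x52672
    x52674 x52682 x52684 x52688 x52690 x52692 x52696 x52698 x52706 x52708 x52710 x52714 x52716
    x52722 x52748 x52754 x52756 x52766 x52772 x52774 x52778 x52780 x52782 x52790 x52792 x52796
    x52798 x52800 x52804 x52806 x52820 x52826 x52828 x52832 x52834 x52836 x52844 x52846 x52850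
    x52852 x52854 x52858 x52860 x52868 x52870 x52872 x52876 x52878 x52884 x52898 x52900 x52904
    x52906 x52908 x52912 x52914 x52922 x52924 x52926 x52930 x52932 x52938 x52948 x52950 x52956
    x52982 x52988 x52990 x52994 x52996 x52998 x53006 x53008 x53012 x53014 x53016 x53020 x53022
    x53030 x53032 x53034 x53038 x53040 x53046 x53060 x53062 x53066 x53068 x53070 x53074 x53076
    x53084 x53086 x53088 x53092 x53094 x53100 x53110 x53112 x53118 x53138 x53140 x53142 x53146
    x53148 x53154 x53164 x53166 x53172 x53190 x53234 x53240 x53242 x53252 x53258 x53260 x53264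
    x53266 x53268 x53276 x53278 x53282 x53284 x53286 x53290 x53292 x53306 x53312 x53314 x53318
    x53320 x53322 x53330 x53332 x53336 x53338 x53340 x53344 x53346 x53354 x53356 x53358 x53362
    x53364 x53370 x53384 x53386 x53390 x53392 x53394 x53398 x53400 x53408 x53410 x53412 x53416
    x53418 x53424 x53434 x53436 x53442 x53468 x53474 x53476 x53480 x53482 x53484 x53492 x53494
    x53498 x53500 x53502 x53506 x53508 x53516 x53518 x53520 x53524 x53526 x53532 x53546 x53548
    x53552 x53554 x53556 x53560 x53562 x53570 x53572 x53574 x53578 x53580 x53586 x53596 x53598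
    x53604 x53624 x53626 x53628 x53632 x53634 x53640 x53650 x53652 x53658 x53676 x53708 x53710
    x53714 x53716 x53718 x53722 x53724 x53732 x53734 x53736 x53740 x53742 x53748 x53758 x53760
    x53766 x53786 x53788 x53790 x53794 x53796 x53802 x53812 x53814 x53820 x53838 x53866 x53868
    x53874 x53892 x53954 x53960 x53962 x53966 x53968 x53970 x53978 x53980 x53984 x53986 x53988
    x53992 x53994 x54002 x54004 x54006 x54010 x54012 x54018 x54032 x54034 x54038 x54040 x54042
    x54046 x54048 x54056 x54058 x54060 x54064 x54066 x54072 x54082 x54084 x54090 x54110 x54112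
    x54114 x54118 x54120 x54126 x54136 x54138 x54144 x54162 x54194 x54196 x54200 x54202 x54204
    x54208 x54210 x54218 x54220 x54222 x54226 x54228 x54234 x54244 x54246 x54252 x54272 x54274
    x54276 x54280 x54282 x54288 x54298 x54300 x54306 x54324 x54352 x54354 x54360 x54378 x54434
    x54436 x54438 x54442 x54444 x54450 x54460 x54462 x54468 x54486 x54514 x54516 x54522 x54540
    x54594 x54692 x54698 x54700 x54710 x54716 x54718 x54722 x54724 x54726 x54734 x54736 x54740
    x54742 x54744 x54748 x54750 x54764 x54770 x54772 x54776 x54778 x54780 x54788 x54790 x54794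
    x54796 x54798 x54802 x54804 x54812 x54814 x54816 x54820 x54822 x54828 x54842 x54844 x54848
    x54850 x54852 x54856 x54858 x54866 x54868 x54870 x54874 x54876 x54882 x54892 x54894 x54900
    x54926 x54932 x54934 x54938 x54940 x54942 x54950 x54952 x54956 x54958 x54960 x54964 x54966
    x54974 x54976 x54978 x54982 x54984 x54990 x55004 x55006 x55010 x55012 x55014 x55018 x55020
    x55028 x55030 x55032 x55036 x55038 x55044 x55054 x55056 x55062 x55082 x55084 x55086 x55090
    x55092 x55098 x55108 x55110 x55116 x55134 x55166 x55168 x55172 x55174 x55176 x55180 x55182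
    x55190 x55192 x55194 x55198 x55200 x55206 x55216 x55218 x55224 x55244 x55246 x55248 x55252
    x55254 x55260 x55270 x55272 x55278 x55296 x55324 x55326 x55332 x55350 x55412 x55418 x55420
    x55424 x55426 x55428 x55436 x55438 x55442 x55444 x55446 x55450 x55452 x55460 x55462 x55464
    x55468 x55470 x55476 x55490 x55492 x55496 x55498 x55500 x55504 x55506 x55514 x55516 x55518
    x55522 x55524 x55530 x55540 x55542 x55548 x55568 x55570 x55572 x55576 x55578 x55584 x55594
    x55596 x55602 x55620 x55652 x55654 x55658 x55660 x55662 x55666 x55668 x55676 x55678 x55680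
    x55684 x55686 x55692 x55702 x55704 x55710 x55730 x55732 x55734 x55738 x55740 x55746 x55756
    x55758 x55764 x55782 x55810 x55812 x55818 x55836 x55892 x55894 x55896 x55900 x55902 x55908
    x55918 x55920 x55926 x55944 x55972 x55974 x55980 x55998 x56052 x56138 x56140 x56144 x56146
    x56148 x56152 x56154 x56162 x56164 x56166 x56170 x56172 x56178 x56188 x56190 x56196 x56216
    x56218 x56220 x56224 x56226 x56232 x56242 x56244 x56250 x56268 x56296 x56298 x56304 x56322
    x56378 x56380 x56382 x56386 x56388 x56394 x56404 x56406 x56412 x56430 x56458 x56460 x56466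
    x56484 x56538 x56620 x56622 x56628 x56646 x56700 x56870 x56876 x56878 x56882 x56884 x56886
    x56894 x56896 x56900 x56902 x56904 x56908 x56910 x56918 x56920 x56922 x56926 x56928 x56934
    x56948 x56950 x56954 x56956 x56958 x56962 x56964 x56972 x56974 x56976 x56980 x56982 x56988
    x56998 x57000 x57006 x57026 x57028 x57030 x57034 x57036 x57042 x57052 x57054 x57060 x57078
    x57110 x57112 x57116 x57118 x57120 x57124 x57126 x57134 x57136 x57138 x57142 x57144 x57150
    x57160 x57162 x57168 x57188 x57190 x57192 x57196 x57198 x57204 x57214 x57216 x57222 x57240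
    x57268 x57270 x57276 x57294 x57350 x57352 x57354 x57358 x57360 x57366 x57376 x57378 x57384
    x57402 x57430 x57432 x57438 x57456 x57510 x57596 x57598 x57602 x57604 x57606 x57610 x57612
    x57620 x57622 x57624 x57628 x57630 x57636 x57646 x57648 x57654 x57674 x57676 x57678 x57682
    x57684 x57690 x57700 x57702 x57708 x57726 x57754 x57756 x57762 x57780 x57836 x57838 x57840
    x57844 x57846 x57852 x57862 x57864 x57870 x57888 x57916 x57918 x57924 x57942 x57996 x58078
    x58080 x58086 x58104 x58158 x58322 x58324 x58326 x58330 x58332 x58338 x58348 x58350 x58356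
    x58374 x58402 x58404 x58410 x58428 x58482 x58564 x58566 x58572 x58590 x58644 x58806 : Nat) : Bool :=
  and (Nat.beq
    (Nat.add (Nat.add (f x242) (Nat.add (f x404) (Nat.add (f x458) (Nat.add (f x476) (Nat.add
    (f x482) (Nat.add (f x484) (Nat.add (f x566) (Nat.add (f x620) (Nat.add (f x638) (Nat.add
    (f x644) (Nat.add (f x646) (Nat.add (f x674) (Nat.add (f x692) (Nat.add (f x698) (Nat.add
    (f x700) (Nat.add (f x710) (Nat.add (f x716) (Nat.add (f x718) (Nat.add (f x722) (Nat.add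
    (f x724) (Nat.add (f x726) (Nat.add (f x890) (Nat.add (f x944) (Nat.add (f x962) (Nat.add
    (f x968) (Nat.add (f x970) (Nat.add (f x1052) (Nat.add (f x1106) (Nat.add (f x1124) (Nat.add
    (f x1130) (Nat.add (f x1132) (Nat.add (f x1160) (Nat.add (f x1178) (Nat.add (f x1184) (Nat.add
    (f x1186) (Nat.add (f x1196) (Nat.add (f x1202) (Nat.add (f x1204) (Nat.add (f x1208) (Nat.add
    (f x1210) (Nat.add (f x1212) (Nat.add (f x1268) (Nat.add (f x1286) (Nat.add (f x1292) (Nat.add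
    (f x1294) (Nat.add (f x1322) (Nat.add (f x1340) (Nat.add (f x1346) (Nat.add (f x1348) (Nat.add
    (f x1358) (Nat.add (f x1364) (Nat.add (f x1366) (Nat.add (f x1370) (Nat.add (f x1372) (Nat.add
    (f x1374) (Nat.add (f x1394) (Nat.add (f x1400) (Nat.add (f x1402) (Nat.add (f x1412) (Nat.add
    (f x1418) 0)))))))))))))))))))))))))))))))))))))))))))))))))))))))))))) (Nat.add (Nat.add
    (f x1420) (Nat.add (f x1424) (Nat.add (f x1426) (Nat.add (f x1428) (Nat.add (f x1436) (Nat.add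
    (f x1438) (Nat.add (f x1442) (Nat.add (f x1444) (Nat.add (f x1446) (Nat.add (f x1450) (Nat.add
    (f x1452) (Nat.add (f x1538) (Nat.add (f x1592) (Nat.add (f x1610) (Nat.add (f x1616) (Nat.add
    (f x1618) (Nat.add (f x1646) (Nat.add (f x1664) (Nat.add (f x1670) (Nat.add (f x1672) (Nat.add
    (f x1682) (Nat.add (f x1688) (Nat.add (f x1690) (Nat.add (f x1694) (Nat.add (f x1696) (Nat.add
    (f x1698) (Nat.add (f x1754) (Nat.add (f x1772) (Nat.add (f x1778) (Nat.add (f x1780) (Nat.add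
    (f x1808) (Nat.add (f x1826) (Nat.add (f x1832) (Nat.add (f x1834) (Nat.add (f x1844) (Nat.add
    (f x1850) (Nat.add (f x1852) (Nat.add (f x1856) (Nat.add (f x1858) (Nat.add (f x1860) (Nat.add
    (f x1880) (Nat.add (f x1886) (Nat.add (f x1888) (Nat.add (f x1898) (Nat.add (f x1904) (Nat.add
    (f x1906) (Nat.add (f x1910) (Nat.add (f x1912) (Nat.add (f x1914) (Nat.add (f x1922) (Nat.add
    (f x1924) (Nat.add (f x1928) (Nat.add (f x1930) (Nat.add (f x1932) (Nat.add (f x1936) (Nat.add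
    (f x1938) (Nat.add (f x1970) (Nat.add (f x1988) (Nat.add (f x1994) (Nat.add (f x1996)
    0)))))))))))))))))))))))))))))))))))))))))))))))))))))))))))) (Nat.add (Nat.add (f x2006)
    (Nat.add (f x2012) (Nat.add (f x2014) (Nat.add (f x2018) (Nat.add (f x2020) (Nat.add (f x2022)
    (Nat.add (f x2042) (Nat.add (f x2048) (Nat.add (f x2050) (Nat.add (f x2060) (Nat.add (f x2066)
    (Nat.add (f x2068) (Nat.add (f x2072) (Nat.add (f x2074) (Nat.add (f x2076) (Nat.add (f x2084)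
    (Nat.add (f x2086) (Nat.add (f x2090) (Nat.add (f x2092) (Nat.add (f x2094) (Nat.add (f x2098)
    (Nat.add (f x2100) (Nat.add (f x2114) (Nat.add (f x2120) (Nat.add (f x2122) (Nat.add (f x2126)
    (Nat.add (f x2128) (Nat.add (f x2130) (Nat.add (f x2138) (Nat.add (f x2140) (Nat.add (f x2144)
    (Nat.add (f x2146) (Nat.add (f x2148) (Nat.add (f x2152) (Nat.add (f x2154) (Nat.add (f x2162)
    (Nat.add (f x2164) (Nat.add (f x2166) (Nat.add (f x2170) (Nat.add (f x2172) (Nat.add (f x2178)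
    (Nat.add (f x2348) (Nat.add (f x2402) (Nat.add (f x2420) (Nat.add (f x2426) (Nat.add (f x2428)
    (Nat.add (f x2510) (Nat.add (f x2564) (Nat.add (f x2582) (Nat.add (f x2588) (Nat.add (f x2590)
    (Nat.add (f x2618) (Nat.add (f x2636) (Nat.add (f x2642) (Nat.add (f x2644) (Nat.add (f x2654)
    (Nat.add (f x2660) (Nat.add (f x2662) (Nat.add (f x2666) (Nat.add (f x2668)
    0)))))))))))))))))))))))))))))))))))))))))))))))))))))))))))) (Nat.add (Nat.add (f x2670)
    (Nat.add (f x2726) (Nat.add (f x2744) (Nat.add (f x2750) (Nat.add (f x2752) (Nat.add (f x2780)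
    (Nat.add (f x2798) (Nat.add (f x2804) (Nat.add (f x2806) (Nat.add (f x2816) (Nat.add (f x2822)
    (Nat.add (f x2824) (Nat.add (f x2828) (Nat.add (f x2830) (Nat.add (f x2832) (Nat.add (f x2852)
    (Nat.add (f x2858) (Nat.add (f x2860) (Nat.add (f x2870) (Nat.add (f x2876) (Nat.add (f x2878)
    (Nat.add (f x2882) (Nat.add (f x2884) (Nat.add (f x2886) (Nat.add (f x2894) (Nat.add (f x2896)
    (Nat.add (f x2900) (Nat.add (f x2902) (Nat.add (f x2904) (Nat.add (f x2908) (Nat.add (f x2910)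
    (Nat.add (f x2996) (Nat.add (f x3050) (Nat.add (f x3068) (Nat.add (f x3074) (Nat.add (f x3076)
    (Nat.add (f x3104) (Nat.add (f x3122) (Nat.add (f x3128) (Nat.add (f x3130) (Nat.add (f x3140)
    (Nat.add (f x3146) (Nat.add (f x3148) (Nat.add (f x3152) (Nat.add (f x3154) (Nat.add (f x3156)
    (Nat.add (f x3212) (Nat.add (f x3230) (Nat.add (f x3236) (Nat.add (f x3238) (Nat.add (f x3266)
    (Nat.add (f x3284) (Nat.add (f x3290) (Nat.add (f x3292) (Nat.add (f x3302) (Nat.add (f x3308)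
    (Nat.add (f x3310) (Nat.add (f x3314) (Nat.add (f x3316) (Nat.add (f x3318)
    0)))))))))))))))))))))))))))))))))))))))))))))))))))))))))))) (Nat.add (Nat.add (f x3338)
    (Nat.add (f x3344) (Nat.add (f x3346) (Nat.add (f x3356) (Nat.add (f x3362) (Nat.add (f x3364)
    (Nat.add (f x3368) (Nat.add (f x3370) (Nat.add (f x3372) (Nat.add (f x3380) (Nat.add (f x3382)
    (Nat.add (f x3386) (Nat.add (f x3388) (Nat.add (f x3390) (Nat.add (f x3394) (Nat.add (f x3396)
    (Nat.add (f x3428) (Nat.add (f x3446) (Nat.add (f x3452) (Nat.add (f x3454) (Nat.add (f x3464)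
    (Nat.add (f x3470) (Nat.add (f x3472) (Nat.add (f x3476) (Nat.add (f x3478) (Nat.add (f x3480)
    (Nat.add (f x3500) (Nat.add (f x3506) (Nat.add (f x3508) (Nat.add (f x3518) (Nat.add (f x3524)
    (Nat.add (f x3526) (Nat.add (f x3530) (Nat.add (f x3532) (Nat.add (f x3534) (Nat.add (f x3542)
    (Nat.add (f x3544) (Nat.add (f x3548) (Nat.add (f x3550) (Nat.add (f x3552) (Nat.add (f x3556)
    (Nat.add (f x3558) (Nat.add (f x3572) (Nat.add (f x3578) (Nat.add (f x3580) (Nat.add (f x3584)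
    (Nat.add (f x3586) (Nat.add (f x3588) (Nat.add (f x3596) (Nat.add (f x3598) (Nat.add (f x3602)
    (Nat.add (f x3604) (Nat.add (f x3606) (Nat.add (f x3610) (Nat.add (f x3612) (Nat.add (f x3620)
    (Nat.add (f x3622) (Nat.add (f x3624) (Nat.add (f x3628) (Nat.add (f x3630)
    0)))))))))))))))))))))))))))))))))))))))))))))))))))))))))))) (Nat.add (Nat.add (f x3636)
    (Nat.add (f x3698) (Nat.add (f x3716) (Nat.add (f x3722) (Nat.add (f x3724) (Nat.add (f x3752)
    (Nat.add (f x3770) (Nat.add (f x3776) (Nat.add (f x3778) (Nat.add (f x3788) (Nat.add (f x3794)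
    (Nat.add (f x3796) (Nat.add (f x3800) (Nat.add (f x3802) (Nat.add (f x3804) (Nat.add (f x3824)
    (Nat.add (f x3830) (Nat.add (f x3832) (Nat.add (f x3842) (Nat.add (f x3848) (Nat.add (f x3850)
    (Nat.add (f x3854) (Nat.add (f x3856) (Nat.add (f x3858) (Nat.add (f x3866) (Nat.add (f x3868)
    (Nat.add (f x3872) (Nat.add (f x3874) (Nat.add (f x3876) (Nat.add (f x3880) (Nat.add (f x3882)
    (Nat.add (f x3914) (Nat.add (f x3932) (Nat.add (f x3938) (Nat.add (f x3940) (Nat.add (f x3950)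
    (Nat.add (f x3956) (Nat.add (f x3958) (Nat.add (f x3962) (Nat.add (f x3964) (Nat.add (f x3966)
    (Nat.add (f x3986) (Nat.add (f x3992) (Nat.add (f x3994) (Nat.add (f x4004) (Nat.add (f x4010)
    (Nat.add (f x4012) (Nat.add (f x4016) (Nat.add (f x4018) (Nat.add (f x4020) (Nat.add (f x4028)
    (Nat.add (f x4030) (Nat.add (f x4034) (Nat.add (f x4036) (Nat.add (f x4038) (Nat.add (f x4042)
    (Nat.add (f x4044) (Nat.add (f x4058) (Nat.add (f x4064) (Nat.add (f x4066)
    0)))))))))))))))))))))))))))))))))))))))))))))))))))))))))))) (Nat.add (Nat.add (f x4070)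
    (Nat.add (f x4072) (Nat.add (f x4074) (Nat.add (f x4082) (Nat.add (f x4084) (Nat.add (f x4088)
    (Nat.add (f x4090) (Nat.add (f x4092) (Nat.add (f x4096) (Nat.add (f x4098) (Nat.add (f x4106)
    (Nat.add (f x4108) (Nat.add (f x4110) (Nat.add (f x4114) (Nat.add (f x4116) (Nat.add (f x4122)
    (Nat.add (f x4148) (Nat.add (f x4154) (Nat.add (f x4156) (Nat.add (f x4166) (Nat.add (f x4172)
    (Nat.add (f x4174) (Nat.add (f x4178) (Nat.add (f x4180) (Nat.add (f x4182) (Nat.add (f x4190)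
    (Nat.add (f x4192) (Nat.add (f x4196) (Nat.add (f x4198) (Nat.add (f x4200) (Nat.add (f x4204)
    (Nat.add (f x4206) (Nat.add (f x4220) (Nat.add (f x4226) (Nat.add (f x4228) (Nat.add (f x4232)
    (Nat.add (f x4234) (Nat.add (f x4236) (Nat.add (f x4244) (Nat.add (f x4246) (Nat.add (f x4250)
    (Nat.add (f x4252) (Nat.add (f x4254) (Nat.add (f x4258) (Nat.add (f x4260) (Nat.add (f x4268)
    (Nat.add (f x4270) (Nat.add (f x4272) (Nat.add (f x4276) (Nat.add (f x4278) (Nat.add (f x4284)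
    (Nat.add (f x4298) (Nat.add (f x4300) (Nat.add (f x4304) (Nat.add (f x4306) (Nat.add (f x4308)
    (Nat.add (f x4312) (Nat.add (f x4314) (Nat.add (f x4322) (Nat.add (f x4324)
    0)))))))))))))))))))))))))))))))))))))))))))))))))))))))))))) (Nat.add (Nat.add (f x4326)
    (Nat.add (f x4330) (Nat.add (f x4332) (Nat.add (f x4338) (Nat.add (f x4348) (Nat.add (f x4350)
    (Nat.add (f x4356) (Nat.add (f x4454) (Nat.add (f x4508) (Nat.add (f x4526) (Nat.add (f x4532)
    (Nat.add (f x4534) (Nat.add (f x4562) (Nat.add (f x4580) (Nat.add (f x4586) (Nat.add (f x4588)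
    (Nat.add (f x4598) (Nat.add (f x4604) (Nat.add (f x4606) (Nat.add (f x4610) (Nat.add (f x4612)
    (Nat.add (f x4614) (Nat.add (f x4670) (Nat.add (f x4688) (Nat.add (f x4694) (Nat.add (f x4696)
    (Nat.add (f x4724) (Nat.add (f x4742) (Nat.add (f x4748) (Nat.add (f x4750) (Nat.add (f x4760)
    (Nat.add (f x4766) (Nat.add (f x4768) (Nat.add (f x4772) (Nat.add (f x4774) (Nat.add (f x4776)
    (Nat.add (f x4796) (Nat.add (f x4802) (Nat.add (f x4804) (Nat.add (f x4814) (Nat.add (f x4820)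
    (Nat.add (f x4822) (Nat.add (f x4826) (Nat.add (f x4828) (Nat.add (f x4830) (Nat.add (f x4838)
    (Nat.add (f x4840) (Nat.add (f x4844) (Nat.add (f x4846) (Nat.add (f x4848) (Nat.add (f x4852)
    (Nat.add (f x4854) (Nat.add (f x4886) (Nat.add (f x4904) (Nat.add (f x4910) (Nat.add (f x4912)
    (Nat.add (f x4922) (Nat.add (f x4928) (Nat.add (f x4930) (Nat.add (f x4934)
    0)))))))))))))))))))))))))))))))))))))))))))))))))))))))))))) (Nat.add (Nat.add (f x4936)
    (Nat.add (f x4938) (Nat.add (f x4958) (Nat.add (f x4964) (Nat.add (f x4966) (Nat.add (f x4976)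
    (Nat.add (f x4982) (Nat.add (f x4984) (Nat.add (f x4988) (Nat.add (f x4990) (Nat.add (f x4992)
    (Nat.add (f x5000) (Nat.add (f x5002) (Nat.add (f x5006) (Nat.add (f x5008) (Nat.add (f x5010)
    (Nat.add (f x5014) (Nat.add (f x5016) (Nat.add (f x5030) (Nat.add (f x5036) (Nat.add (f x5038)
    (Nat.add (f x5042) (Nat.add (f x5044) (Nat.add (f x5046) (Nat.add (f x5054) (Nat.add (f x5056)
    (Nat.add (f x5060) (Nat.add (f x5062) (Nat.add (f x5064) (Nat.add (f x5068) (Nat.add (f x5070)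
    (Nat.add (f x5078) (Nat.add (f x5080) (Nat.add (f x5082) (Nat.add (f x5086) (Nat.add (f x5088)
    (Nat.add (f x5094) (Nat.add (f x5156) (Nat.add (f x5174) (Nat.add (f x5180) (Nat.add (f x5182)
    (Nat.add (f x5210) (Nat.add (f x5228) (Nat.add (f x5234) (Nat.add (f x5236) (Nat.add (f x5246)
    (Nat.add (f x5252) (Nat.add (f x5254) (Nat.add (f x5258) (Nat.add (f x5260) (Nat.add (f x5262)
    (Nat.add (f x5282) (Nat.add (f x5288) (Nat.add (f x5290) (Nat.add (f x5300) (Nat.add (f x5306)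
    (Nat.add (f x5308) (Nat.add (f x5312) (Nat.add (f x5314) (Nat.add (f x5316)
    0)))))))))))))))))))))))))))))))))))))))))))))))))))))))))))) (Nat.add (Nat.add (f x5324)
    (Nat.add (f x5326) (Nat.add (f x5330) (Nat.add (f x5332) (Nat.add (f x5334) (Nat.add (f x5338)
    (Nat.add (f x5340) (Nat.add (f x5372) (Nat.add (f x5390) (Nat.add (f x5396) (Nat.add (f x5398)
    (Nat.add (f x5408) (Nat.add (f x5414) (Nat.add (f x5416) (Nat.add (f x5420) (Nat.add (f x5422)
    (Nat.add (f x5424) (Nat.add (f x5444) (Nat.add (f x5450) (Nat.add (f x5452) (Nat.add (f x5462)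
    (Nat.add (f x5468) (Nat.add (f x5470) (Nat.add (f x5474) (Nat.add (f x5476) (Nat.add (f x5478)
    (Nat.add (f x5486) (Nat.add (f x5488) (Nat.add (f x5492) (Nat.add (f x5494) (Nat.add (f x5496)
    (Nat.add (f x5500) (Nat.add (f x5502) (Nat.add (f x5516) (Nat.add (f x5522) (Nat.add (f x5524)
    (Nat.add (f x5528) (Nat.add (f x5530) (Nat.add (f x5532) (Nat.add (f x5540) (Nat.add (f x5542)
    (Nat.add (f x5546) (Nat.add (f x5548) (Nat.add (f x5550) (Nat.add (f x5554) (Nat.add (f x5556)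
    (Nat.add (f x5564) (Nat.add (f x5566) (Nat.add (f x5568) (Nat.add (f x5572) (Nat.add (f x5574)
    (Nat.add (f x5580) (Nat.add (f x5606) (Nat.add (f x5612) (Nat.add (f x5614) (Nat.add (f x5624)
    (Nat.add (f x5630) (Nat.add (f x5632) (Nat.add (f x5636) (Nat.add (f x5638)
    0)))))))))))))))))))))))))))))))))))))))))))))))))))))))))))) (Nat.add (Nat.add (f x5640)
    (Nat.add (f x5648) (Nat.add (f x5650) (Nat.add (f x5654) (Nat.add (f x5656) (Nat.add (f x5658)
    (Nat.add (f x5662) (Nat.add (f x5664) (Nat.add (f x5678) (Nat.add (f x5684) (Nat.add (f x5686)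
    (Nat.add (f x5690) (Nat.add (f x5692) (Nat.add (f x5694) (Nat.add (f x5702) (Nat.add (f x5704)
    (Nat.add (f x5708) (Nat.add (f x5710) (Nat.add (f x5712) (Nat.add (f x5716) (Nat.add (f x5718)
    (Nat.add (f x5726) (Nat.add (f x5728) (Nat.add (f x5730) (Nat.add (f x5734) (Nat.add (f x5736)
    (Nat.add (f x5742) (Nat.add (f x5756) (Nat.add (f x5758) (Nat.add (f x5762) (Nat.add (f x5764)
    (Nat.add (f x5766) (Nat.add (f x5770) (Nat.add (f x5772) (Nat.add (f x5780) (Nat.add (f x5782)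
    (Nat.add (f x5784) (Nat.add (f x5788) (Nat.add (f x5790) (Nat.add (f x5796) (Nat.add (f x5806)
    (Nat.add (f x5808) (Nat.add (f x5814) (Nat.add (f x5858) (Nat.add (f x5876) (Nat.add (f x5882)
    (Nat.add (f x5884) (Nat.add (f x5894) (Nat.add (f x5900) (Nat.add (f x5902) (Nat.add (f x5906)
    (Nat.add (f x5908) (Nat.add (f x5910) (Nat.add (f x5930) (Nat.add (f x5936) (Nat.add (f x5938)
    (Nat.add (f x5948) (Nat.add (f x5954) (Nat.add (f x5956) (Nat.add (f x5960)
    0)))))))))))))))))))))))))))))))))))))))))))))))))))))))))))) (Nat.add (Nat.add (f x5962)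
    (Nat.add (f x5964) (Nat.add (f x5972) (Nat.add (f x5974) (Nat.add (f x5978) (Nat.add (f x5980)
    (Nat.add (f x5982) (Nat.add (f x5986) (Nat.add (f x5988) (Nat.add (f x6002) (Nat.add (f x6008)
    (Nat.add (f x6010) (Nat.add (f x6014) (Nat.add (f x6016) (Nat.add (f x6018) (Nat.add (f x6026)
    (Nat.add (f x6028) (Nat.add (f x6032) (Nat.add (f x6034) (Nat.add (f x6036) (Nat.add (f x6040)
    (Nat.add (f x6042) (Nat.add (f x6050) (Nat.add (f x6052) (Nat.add (f x6054) (Nat.add (f x6058)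
    (Nat.add (f x6060) (Nat.add (f x6066) (Nat.add (f x6092) (Nat.add (f x6098) (Nat.add (f x6100)
    (Nat.add (f x6110) (Nat.add (f x6116) (Nat.add (f x6118) (Nat.add (f x6122) (Nat.add (f x6124)
    (Nat.add (f x6126) (Nat.add (f x6134) (Nat.add (f x6136) (Nat.add (f x6140) (Nat.add (f x6142)
    (Nat.add (f x6144) (Nat.add (f x6148) (Nat.add (f x6150) (Nat.add (f x6164) (Nat.add (f x6170)
    (Nat.add (f x6172) (Nat.add (f x6176) (Nat.add (f x6178) (Nat.add (f x6180) (Nat.add (f x6188)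
    (Nat.add (f x6190) (Nat.add (f x6194) (Nat.add (f x6196) (Nat.add (f x6198) (Nat.add (f x6202)
    (Nat.add (f x6204) (Nat.add (f x6212) (Nat.add (f x6214) (Nat.add (f x6216)
    0)))))))))))))))))))))))))))))))))))))))))))))))))))))))))))) (Nat.add (Nat.add (f x6220)
    (Nat.add (f x6222) (Nat.add (f x6228) (Nat.add (f x6242) (Nat.add (f x6244) (Nat.add (f x6248)
    (Nat.add (f x6250) (Nat.add (f x6252) (Nat.add (f x6256) (Nat.add (f x6258) (Nat.add (f x6266)
    (Nat.add (f x6268) (Nat.add (f x6270) (Nat.add (f x6274) (Nat.add (f x6276) (Nat.add (f x6282)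
    (Nat.add (f x6292) (Nat.add (f x6294) (Nat.add (f x6300) (Nat.add (f x6326) (Nat.add (f x6332)
    (Nat.add (f x6334) (Nat.add (f x6338) (Nat.add (f x6340) (Nat.add (f x6342) (Nat.add (f x6350)
    (Nat.add (f x6352) (Nat.add (f x6356) (Nat.add (f x6358) (Nat.add (f x6360) (Nat.add (f x6364)
    (Nat.add (f x6366) (Nat.add (f x6374) (Nat.add (f x6376) (Nat.add (f x6378) (Nat.add (f x6382)
    (Nat.add (f x6384) (Nat.add (f x6390) (Nat.add (f x6404) (Nat.add (f x6406) (Nat.add (f x6410)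
    (Nat.add (f x6412) (Nat.add (f x6414) (Nat.add (f x6418) (Nat.add (f x6420) (Nat.add (f x6428)
    (Nat.add (f x6430) (Nat.add (f x6432) (Nat.add (f x6436) (Nat.add (f x6438) (Nat.add (f x6444)
    (Nat.add (f x6454) (Nat.add (f x6456) (Nat.add (f x6462) (Nat.add (f x6482) (Nat.add (f x6484)
    (Nat.add (f x6486) (Nat.add (f x6490) (Nat.add (f x6492) (Nat.add (f x6498)
    0)))))))))))))))))))))))))))))))))))))))))))))))))))))))))))) (Nat.add (Nat.add (f x6508)
    (Nat.add (f x6510) (Nat.add (f x6516) (Nat.add (f x6534) (Nat.add (f x6722) (Nat.add (f x6776)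
    (Nat.add (f x6794) (Nat.add (f x6800) (Nat.add (f x6802) (Nat.add (f x6884) (Nat.add (f x6938)
    (Nat.add (f x6956) (Nat.add (f x6962) (Nat.add (f x6964) (Nat.add (f x6992) (Nat.add (f x7010)
    (Nat.add (f x7016) (Nat.add (f x7018) (Nat.add (f x7028) (Nat.add (f x7034) (Nat.add (f x7036)
    (Nat.add (f x7040) (Nat.add (f x7042) (Nat.add (f x7044) (Nat.add (f x7100) (Nat.add (f x7118)
    (Nat.add (f x7124) (Nat.add (f x7126) (Nat.add (f x7154) (Nat.add (f x7172) (Nat.add (f x7178)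
    (Nat.add (f x7180) (Nat.add (f x7190) (Nat.add (f x7196) (Nat.add (f x7198) (Nat.add (f x7202)
    (Nat.add (f x7204) (Nat.add (f x7206) (Nat.add (f x7226) (Nat.add (f x7232) (Nat.add (f x7234)
    (Nat.add (f x7244) (Nat.add (f x7250) (Nat.add (f x7252) (Nat.add (f x7256) (Nat.add (f x7258)
    (Nat.add (f x7260) (Nat.add (f x7268) (Nat.add (f x7270) (Nat.add (f x7274) (Nat.add (f x7276)
    (Nat.add (f x7278) (Nat.add (f x7282) (Nat.add (f x7284) (Nat.add (f x7370) (Nat.add (f x7424)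
    (Nat.add (f x7442) (Nat.add (f x7448) (Nat.add (f x7450) (Nat.add (f x7478)
    0)))))))))))))))))))))))))))))))))))))))))))))))))))))))))))) (Nat.add (Nat.add (f x7496)
    (Nat.add (f x7502) (Nat.add (f x7504) (Nat.add (f x7514) (Nat.add (f x7520) (Nat.add (f x7522)
    (Nat.add (f x7526) (Nat.add (f x7528) (Nat.add (f x7530) (Nat.add (f x7586) (Nat.add (f x7604)
    (Nat.add (f x7610) (Nat.add (f x7612) (Nat.add (f x7640) (Nat.add (f x7658) (Nat.add (f x7664)
    (Nat.add (f x7666) (Nat.add (f x7676) (Nat.add (f x7682) (Nat.add (f x7684) (Nat.add (f x7688)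
    (Nat.add (f x7690) (Nat.add (f x7692) (Nat.add (f x7712) (Nat.add (f x7718) (Nat.add (f x7720)
    (Nat.add (f x7730) (Nat.add (f x7736) (Nat.add (f x7738) (Nat.add (f x7742) (Nat.add (f x7744)
    (Nat.add (f x7746) (Nat.add (f x7754) (Nat.add (f x7756) (Nat.add (f x7760) (Nat.add (f x7762)
    (Nat.add (f x7764) (Nat.add (f x7768) (Nat.add (f x7770) (Nat.add (f x7802) (Nat.add (f x7820)
    (Nat.add (f x7826) (Nat.add (f x7828) (Nat.add (f x7838) (Nat.add (f x7844) (Nat.add (f x7846)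
    (Nat.add (f x7850) (Nat.add (f x7852) (Nat.add (f x7854) (Nat.add (f x7874) (Nat.add (f x7880)
    (Nat.add (f x7882) (Nat.add (f x7892) (Nat.add (f x7898) (Nat.add (f x7900) (Nat.add (f x7904)
    (Nat.add (f x7906) (Nat.add (f x7908) (Nat.add (f x7916) (Nat.add (f x7918)
    0)))))))))))))))))))))))))))))))))))))))))))))))))))))))))))) (Nat.add (Nat.add (f x7922)
    (Nat.add (f x7924) (Nat.add (f x7926) (Nat.add (f x7930) (Nat.add (f x7932) (Nat.add (f x7946)
    (Nat.add (f x7952) (Nat.add (f x7954) (Nat.add (f x7958) (Nat.add (f x7960) (Nat.add (f x7962)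
    (Nat.add (f x7970) (Nat.add (f x7972) (Nat.add (f x7976) (Nat.add (f x7978) (Nat.add (f x7980)
    (Nat.add (f x7984) (Nat.add (f x7986) (Nat.add (f x7994) (Nat.add (f x7996) (Nat.add (f x7998)
    (Nat.add (f x8002) (Nat.add (f x8004) (Nat.add (f x8010) (Nat.add (f x8072) (Nat.add (f x8090)
    (Nat.add (f x8096) (Nat.add (f x8098) (Nat.add (f x8126) (Nat.add (f x8144) (Nat.add (f x8150)
    (Nat.add (f x8152) (Nat.add (f x8162) (Nat.add (f x8168) (Nat.add (f x8170) (Nat.add (f x8174)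
    (Nat.add (f x8176) (Nat.add (f x8178) (Nat.add (f x8198) (Nat.add (f x8204) (Nat.add (f x8206)
    (Nat.add (f x8216) (Nat.add (f x8222) (Nat.add (f x8224) (Nat.add (f x8228) (Nat.add (f x8230)
    (Nat.add (f x8232) (Nat.add (f x8240) (Nat.add (f x8242) (Nat.add (f x8246) (Nat.add (f x8248)
    (Nat.add (f x8250) (Nat.add (f x8254) (Nat.add (f x8256) (Nat.add (f x8288) (Nat.add (f x8306)
    (Nat.add (f x8312) (Nat.add (f x8314) (Nat.add (f x8324) (Nat.add (f x8330)
    0)))))))))))))))))))))))))))))))))))))))))))))))))))))))))))) (Nat.add (Nat.add (f x8332)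
    (Nat.add (f x8336) (Nat.add (f x8338) (Nat.add (f x8340) (Nat.add (f x8360) (Nat.add (f x8366)
    (Nat.add (f x8368) (Nat.add (f x8378) (Nat.add (f x8384) (Nat.add (f x8386) (Nat.add (f x8390)
    (Nat.add (f x8392) (Nat.add (f x8394) (Nat.add (f x8402) (Nat.add (f x8404) (Nat.add (f x8408)
    (Nat.add (f x8410) (Nat.add (f x8412) (Nat.add (f x8416) (Nat.add (f x8418) (Nat.add (f x8432)
    (Nat.add (f x8438) (Nat.add (f x8440) (Nat.add (f x8444) (Nat.add (f x8446) (Nat.add (f x8448)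
    (Nat.add (f x8456) (Nat.add (f x8458) (Nat.add (f x8462) (Nat.add (f x8464) (Nat.add (f x8466)
    (Nat.add (f x8470) (Nat.add (f x8472) (Nat.add (f x8480) (Nat.add (f x8482) (Nat.add (f x8484)
    (Nat.add (f x8488) (Nat.add (f x8490) (Nat.add (f x8496) (Nat.add (f x8522) (Nat.add (f x8528)
    (Nat.add (f x8530) (Nat.add (f x8540) (Nat.add (f x8546) (Nat.add (f x8548) (Nat.add (f x8552)
    (Nat.add (f x8554) (Nat.add (f x8556) (Nat.add (f x8564) (Nat.add (f x8566) (Nat.add (f x8570)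
    (Nat.add (f x8572) (Nat.add (f x8574) (Nat.add (f x8578) (Nat.add (f x8580) (Nat.add (f x8594)
    (Nat.add (f x8600) (Nat.add (f x8602) (Nat.add (f x8606) (Nat.add (f x8608)
    0)))))))))))))))))))))))))))))))))))))))))))))))))))))))))))) (Nat.add (Nat.add (f x8610)
    (Nat.add (f x8618) (Nat.add (f x8620) (Nat.add (f x8624) (Nat.add (f x8626) (Nat.add (f x8628)
    (Nat.add (f x8632) (Nat.add (f x8634) (Nat.add (f x8642) (Nat.add (f x8644) (Nat.add (f x8646)
    (Nat.add (f x8650) (Nat.add (f x8652) (Nat.add (f x8658) (Nat.add (f x8672) (Nat.add (f x8674)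
    (Nat.add (f x8678) (Nat.add (f x8680) (Nat.add (f x8682) (Nat.add (f x8686) (Nat.add (f x8688)
    (Nat.add (f x8696) (Nat.add (f x8698) (Nat.add (f x8700) (Nat.add (f x8704) (Nat.add (f x8706)
    (Nat.add (f x8712) (Nat.add (f x8722) (Nat.add (f x8724) (Nat.add (f x8730) (Nat.add (f x8828)
    (Nat.add (f x8882) (Nat.add (f x8900) (Nat.add (f x8906) (Nat.add (f x8908) (Nat.add (f x8936)
    (Nat.add (f x8954) (Nat.add (f x8960) (Nat.add (f x8962) (Nat.add (f x8972) (Nat.add (f x8978)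
    (Nat.add (f x8980) (Nat.add (f x8984) (Nat.add (f x8986) (Nat.add (f x8988) (Nat.add (f x9044)
    (Nat.add (f x9062) (Nat.add (f x9068) (Nat.add (f x9070) (Nat.add (f x9098) (Nat.add (f x9116)
    (Nat.add (f x9122) (Nat.add (f x9124) (Nat.add (f x9134) (Nat.add (f x9140) (Nat.add (f x9142)
    (Nat.add (f x9146) (Nat.add (f x9148) (Nat.add (f x9150) (Nat.add (f x9170)
    0)))))))))))))))))))))))))))))))))))))))))))))))))))))))))))) (Nat.add (Nat.add (f x9176)
    (Nat.add (f x9178) (Nat.add (f x9188) (Nat.add (f x9194) (Nat.add (f x9196) (Nat.add (f x9200)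
    (Nat.add (f x9202) (Nat.add (f x9204) (Nat.add (f x9212) (Nat.add (f x9214) (Nat.add (f x9218)
    (Nat.add (f x9220) (Nat.add (f x9222) (Nat.add (f x9226) (Nat.add (f x9228) (Nat.add (f x9260)
    (Nat.add (f x9278) (Nat.add (f x9284) (Nat.add (f x9286) (Nat.add (f x9296) (Nat.add (f x9302)
    (Nat.add (f x9304) (Nat.add (f x9308) (Nat.add (f x9310) (Nat.add (f x9312) (Nat.add (f x9332)
    (Nat.add (f x9338) (Nat.add (f x9340) (Nat.add (f x9350) (Nat.add (f x9356) (Nat.add (f x9358)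
    (Nat.add (f x9362) (Nat.add (f x9364) (Nat.add (f x9366) (Nat.add (f x9374) (Nat.add (f x9376)
    (Nat.add (f x9380) (Nat.add (f x9382) (Nat.add (f x9384) (Nat.add (f x9388) (Nat.add (f x9390)
    (Nat.add (f x9404) (Nat.add (f x9410) (Nat.add (f x9412) (Nat.add (f x9416) (Nat.add (f x9418)
    (Nat.add (f x9420) (Nat.add (f x9428) (Nat.add (f x9430) (Nat.add (f x9434) (Nat.add (f x9436)
    (Nat.add (f x9438) (Nat.add (f x9442) (Nat.add (f x9444) (Nat.add (f x9452) (Nat.add (f x9454)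
    (Nat.add (f x9456) (Nat.add (f x9460) (Nat.add (f x9462) (Nat.add (f x9468)
    0)))))))))))))))))))))))))))))))))))))))))))))))))))))))))))) (Nat.add (Nat.add (f x9530)
    (Nat.add (f x9548) (Nat.add (f x9554) (Nat.add (f x9556) (Nat.add (f x9584) (Nat.add (f x9602)
    (Nat.add (f x9608) (Nat.add (f x9610) (Nat.add (f x9620) (Nat.add (f x9626) (Nat.add (f x9628)
    (Nat.add (f x9632) (Nat.add (f x9634) (Nat.add (f x9636) (Nat.add (f x9656) (Nat.add (f x9662)
    (Nat.add (f x9664) (Nat.add (f x9674) (Nat.add (f x9680) (Nat.add (f x9682) (Nat.add (f x9686)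
    (Nat.add (f x9688) (Nat.add (f x9690) (Nat.add (f x9698) (Nat.add (f x9700) (Nat.add (f x9704)
    (Nat.add (f x9706) (Nat.add (f x9708) (Nat.add (f x9712) (Nat.add (f x9714) (Nat.add (f x9746)
    (Nat.add (f x9764) (Nat.add (f x9770) (Nat.add (f x9772) (Nat.add (f x9782) (Nat.add (f x9788)
    (Nat.add (f x9790) (Nat.add (f x9794) (Nat.add (f x9796) (Nat.add (f x9798) (Nat.add (f x9818)
    (Nat.add (f x9824) (Nat.add (f x9826) (Nat.add (f x9836) (Nat.add (f x9842) (Nat.add (f x9844)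
    (Nat.add (f x9848) (Nat.add (f x9850) (Nat.add (f x9852) (Nat.add (f x9860) (Nat.add (f x9862)
    (Nat.add (f x9866) (Nat.add (f x9868) (Nat.add (f x9870) (Nat.add (f x9874) (Nat.add (f x9876)
    (Nat.add (f x9890) (Nat.add (f x9896) (Nat.add (f x9898) (Nat.add (f x9902)
    0)))))))))))))))))))))))))))))))))))))))))))))))))))))))))))) (Nat.add (Nat.add (f x9904)
    (Nat.add (f x9906) (Nat.add (f x9914) (Nat.add (f x9916) (Nat.add (f x9920) (Nat.add (f x9922)
    (Nat.add (f x9924) (Nat.add (f x9928) (Nat.add (f x9930) (Nat.add (f x9938) (Nat.add (f x9940)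
    (Nat.add (f x9942) (Nat.add (f x9946) (Nat.add (f x9948) (Nat.add (f x9954) (Nat.add (f x9980)
    (Nat.add (f x9986) (Nat.add (f x9988) (Nat.add (f x9998) (Nat.add (f x10004) (Nat.add
    (f x10006) (Nat.add (f x10010) (Nat.add (f x10012) (Nat.add (f x10014) (Nat.add (f x10022)
    (Nat.add (f x10024) (Nat.add (f x10028) (Nat.add (f x10030) (Nat.add (f x10032) (Nat.add
    (f x10036) (Nat.add (f x10038) (Nat.add (f x10052) (Nat.add (f x10058) (Nat.add (f x10060)
    (Nat.add (f x10064) (Nat.add (f x10066) (Nat.add (f x10068) (Nat.add (f x10076) (Nat.add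
    (f x10078) (Nat.add (f x10082) (Nat.add (f x10084) (Nat.add (f x10086) (Nat.add (f x10090)
    (Nat.add (f x10092) (Nat.add (f x10100) (Nat.add (f x10102) (Nat.add (f x10104) (Nat.add
    (f x10108) (Nat.add (f x10110) (Nat.add (f x10116) (Nat.add (f x10130) (Nat.add (f x10132)
    (Nat.add (f x10136) (Nat.add (f x10138) (Nat.add (f x10140) (Nat.add (f x10144) (Nat.add
    (f x10146) (Nat.add (f x10154) (Nat.add (f x10156) (Nat.add (f x10158)
    0)))))))))))))))))))))))))))))))))))))))))))))))))))))))))))) (Nat.add (Nat.add (f x10162)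
    (Nat.add (f x10164) (Nat.add (f x10170) (Nat.add (f x10180) (Nat.add (f x10182) (Nat.add
    (f x10188) (Nat.add (f x10232) (Nat.add (f x10250) (Nat.add (f x10256) (Nat.add (f x10258)
    (Nat.add (f x10268) (Nat.add (f x10274) (Nat.add (f x10276) (Nat.add (f x10280) (Nat.add
    (f x10282) (Nat.add (f x10284) (Nat.add (f x10304) (Nat.add (f x10310) (Nat.add (f x10312)
    (Nat.add (f x10322) (Nat.add (f x10328) (Nat.add (f x10330) (Nat.add (f x10334) (Nat.add
    (f x10336) (Nat.add (f x10338) (Nat.add (f x10346) (Nat.add (f x10348) (Nat.add (f x10352)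
    (Nat.add (f x10354) (Nat.add (f x10356) (Nat.add (f x10360) (Nat.add (f x10362) (Nat.add
    (f x10376) (Nat.add (f x10382) (Nat.add (f x10384) (Nat.add (f x10388) (Nat.add (f x10390)
    (Nat.add (f x10392) (Nat.add (f x10400) (Nat.add (f x10402) (Nat.add (f x10406) (Nat.add
    (f x10408) (Nat.add (f x10410) (Nat.add (f x10414) (Nat.add (f x10416) (Nat.add (f x10424)
    (Nat.add (f x10426) (Nat.add (f x10428) (Nat.add (f x10432) (Nat.add (f x10434) (Nat.add
    (f x10440) (Nat.add (f x10466) (Nat.add (f x10472) (Nat.add (f x10474) (Nat.add (f x10484)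
    (Nat.add (f x10490) (Nat.add (f x10492) (Nat.add (f x10496) (Nat.add (f x10498) (Nat.add
    (f x10500) 0)))))))))))))))))))))))))))))))))))))))))))))))))))))))))))) (Nat.add (Nat.add
    (f x10508) (Nat.add (f x10510) (Nat.add (f x10514) (Nat.add (f x10516) (Nat.add (f x10518)
    (Nat.add (f x10522) (Nat.add (f x10524) (Nat.add (f x10538) (Nat.add (f x10544) (Nat.add
    (f x10546) (Nat.add (f x10550) (Nat.add (f x10552) (Nat.add (f x10554) (Nat.add (f x10562)
    (Nat.add (f x10564) (Nat.add (f x10568) (Nat.add (f x10570) (Nat.add (f x10572) (Nat.add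
    (f x10576) (Nat.add (f x10578) (Nat.add (f x10586) (Nat.add (f x10588) (Nat.add (f x10590)
    (Nat.add (f x10594) (Nat.add (f x10596) (Nat.add (f x10602) (Nat.add (f x10616) (Nat.add
    (f x10618) (Nat.add (f x10622) (Nat.add (f x10624) (Nat.add (f x10626) (Nat.add (f x10630)
    (Nat.add (f x10632) (Nat.add (f x10640) (Nat.add (f x10642) (Nat.add (f x10644) (Nat.add
    (f x10648) (Nat.add (f x10650) (Nat.add (f x10656) (Nat.add (f x10666) (Nat.add (f x10668)
    (Nat.add (f x10674) (Nat.add (f x10700) (Nat.add (f x10706) (Nat.add (f x10708) (Nat.add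
    (f x10712) (Nat.add (f x10714) (Nat.add (f x10716) (Nat.add (f x10724) (Nat.add (f x10726)
    (Nat.add (f x10730) (Nat.add (f x10732) (Nat.add (f x10734) (Nat.add (f x10738) (Nat.add
    (f x10740) (Nat.add (f x10748) (Nat.add (f x10750) (Nat.add (f x10752) (Nat.add (f x10756)
    (Nat.add (f x10758) 0)))))))))))))))))))))))))))))))))))))))))))))))))))))))))))) (Nat.add
    (Nat.add (f x10764) (Nat.add (f x10778) (Nat.add (f x10780) (Nat.add (f x10784) (Nat.add
    (f x10786) (Nat.add (f x10788) (Nat.add (f x10792) (Nat.add (f x10794) (Nat.add (f x10802)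
    (Nat.add (f x10804) (Nat.add (f x10806) (Nat.add (f x10810) (Nat.add (f x10812) (Nat.add
    (f x10818) (Nat.add (f x10828) (Nat.add (f x10830) (Nat.add (f x10836) (Nat.add (f x10856)
    (Nat.add (f x10858) (Nat.add (f x10860) (Nat.add (f x10864) (Nat.add (f x10866) (Nat.add
    (f x10872) (Nat.add (f x10882) (Nat.add (f x10884) (Nat.add (f x10890) (Nat.add (f x10908)
    (Nat.add (f x10988) (Nat.add (f x11006) (Nat.add (f x11012) (Nat.add (f x11014) (Nat.add
    (f x11042) (Nat.add (f x11060) (Nat.add (f x11066) (Nat.add (f x11068) (Nat.add (f x11078)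
    (Nat.add (f x11084) (Nat.add (f x11086) (Nat.add (f x11090) (Nat.add (f x11092) (Nat.add
    (f x11094) (Nat.add (f x11114) (Nat.add (f x11120) (Nat.add (f x11122) (Nat.add (f x11132)
    (Nat.add (f x11138) (Nat.add (f x11140) (Nat.add (f x11144) (Nat.add (f x11146) (Nat.add
    (f x11148) (Nat.add (f x11156) (Nat.add (f x11158) (Nat.add (f x11162) (Nat.add (f x11164)
    (Nat.add (f x11166) (Nat.add (f x11170) (Nat.add (f x11172) (Nat.add (f x11204) (Nat.add
    (f x11222) (Nat.add (f x11228) 0))))))))))))))))))))))))))))))))))))))))))))))))))))))))))))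
    (Nat.add (Nat.add (f x11230) (Nat.add (f x11240) (Nat.add (f x11246) (Nat.add (f x11248)
    (Nat.add (f x11252) (Nat.add (f x11254) (Nat.add (f x11256) (Nat.add (f x11276) (Nat.add
    (f x11282) (Nat.add (f x11284) (Nat.add (f x11294) (Nat.add (f x11300) (Nat.add (f x11302)
    (Nat.add (f x11306) (Nat.add (f x11308) (Nat.add (f x11310) (Nat.add (f x11318) (Nat.add
    (f x11320) (Nat.add (f x11324) (Nat.add (f x11326) (Nat.add (f x11328) (Nat.add (f x11332)
    (Nat.add (f x11334) (Nat.add (f x11348) (Nat.add (f x11354) (Nat.add (f x11356) (Nat.add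
    (f x11360) (Nat.add (f x11362) (Nat.add (f x11364) (Nat.add (f x11372) (Nat.add (f x11374)
    (Nat.add (f x11378) (Nat.add (f x11380) (Nat.add (f x11382) (Nat.add (f x11386) (Nat.add
    (f x11388) (Nat.add (f x11396) (Nat.add (f x11398) (Nat.add (f x11400) (Nat.add (f x11404)
    (Nat.add (f x11406) (Nat.add (f x11412) (Nat.add (f x11438) (Nat.add (f x11444) (Nat.add
    (f x11446) (Nat.add (f x11456) (Nat.add (f x11462) (Nat.add (f x11464) (Nat.add (f x11468)
    (Nat.add (f x11470) (Nat.add (f x11472) (Nat.add (f x11480) (Nat.add (f x11482) (Nat.add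
    (f x11486) (Nat.add (f x11488) (Nat.add (f x11490) (Nat.add (f x11494) (Nat.add (f x11496)
    (Nat.add (f x11510) (Nat.add (f x11516)
    0)))))))))))))))))))))))))))))))))))))))))))))))))))))))))))) (Nat.add (Nat.add (f x11518)
    (Nat.add (f x11522) (Nat.add (f x11524) (Nat.add (f x11526) (Nat.add (f x11534) (Nat.add
    (f x11536) (Nat.add (f x11540) (Nat.add (f x11542) (Nat.add (f x11544) (Nat.add (f x11548)
    (Nat.add (f x11550) (Nat.add (f x11558) (Nat.add (f x11560) (Nat.add (f x11562) (Nat.add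
    (f x11566) (Nat.add (f x11568) (Nat.add (f x11574) (Nat.add (f x11588) (Nat.add (f x11590)
    (Nat.add (f x11594) (Nat.add (f x11596) (Nat.add (f x11598) (Nat.add (f x11602) (Nat.add
    (f x11604) (Nat.add (f x11612) (Nat.add (f x11614) (Nat.add (f x11616) (Nat.add (f x11620)
    (Nat.add (f x11622) (Nat.add (f x11628) (Nat.add (f x11638) (Nat.add (f x11640) (Nat.add
    (f x11646) (Nat.add (f x11690) (Nat.add (f x11708) (Nat.add (f x11714) (Nat.add (f x11716)
    (Nat.add (f x11726) (Nat.add (f x11732) (Nat.add (f x11734) (Nat.add (f x11738) (Nat.add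
    (f x11740) (Nat.add (f x11742) (Nat.add (f x11762) (Nat.add (f x11768) (Nat.add (f x11770)
    (Nat.add (f x11780) (Nat.add (f x11786) (Nat.add (f x11788) (Nat.add (f x11792) (Nat.add
    (f x11794) (Nat.add (f x11796) (Nat.add (f x11804) (Nat.add (f x11806) (Nat.add (f x11810)
    (Nat.add (f x11812) (Nat.add (f x11814) (Nat.add (f x11818) (Nat.add (f x11820) (Nat.add
    (f x11834) 0)))))))))))))))))))))))))))))))))))))))))))))))))))))))))))) (Nat.add (Nat.add
    (f x11840) (Nat.add (f x11842) (Nat.add (f x11846) (Nat.add (f x11848) (Nat.add (f x11850)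
    (Nat.add (f x11858) (Nat.add (f x11860) (Nat.add (f x11864) (Nat.add (f x11866) (Nat.add
    (f x11868) (Nat.add (f x11872) (Nat.add (f x11874) (Nat.add (f x11882) (Nat.add (f x11884)
    (Nat.add (f x11886) (Nat.add (f x11890) (Nat.add (f x11892) (Nat.add (f x11898) (Nat.add
    (f x11924) (Nat.add (f x11930) (Nat.add (f x11932) (Nat.add (f x11942) (Nat.add (f x11948)
    (Nat.add (f x11950) (Nat.add (f x11954) (Nat.add (f x11956) (Nat.add (f x11958) (Nat.add
    (f x11966) (Nat.add (f x11968) (Nat.add (f x11972) (Nat.add (f x11974) (Nat.add (f x11976)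
    (Nat.add (f x11980) (Nat.add (f x11982) (Nat.add (f x11996) (Nat.add (f x12002) (Nat.add
    (f x12004) (Nat.add (f x12008) (Nat.add (f x12010) (Nat.add (f x12012) (Nat.add (f x12020)
    (Nat.add (f x12022) (Nat.add (f x12026) (Nat.add (f x12028) (Nat.add (f x12030) (Nat.add
    (f x12034) (Nat.add (f x12036) (Nat.add (f x12044) (Nat.add (f x12046) (Nat.add (f x12048)
    (Nat.add (f x12052) (Nat.add (f x12054) (Nat.add (f x12060) (Nat.add (f x12074) (Nat.add
    (f x12076) (Nat.add (f x12080) (Nat.add (f x12082) (Nat.add (f x12084) (Nat.add (f x12088)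
    (Nat.add (f x12090) 0)))))))))))))))))))))))))))))))))))))))))))))))))))))))))))) (Nat.add
    (Nat.add (f x12098) (Nat.add (f x12100) (Nat.add (f x12102) (Nat.add (f x12106) (Nat.add
    (f x12108) (Nat.add (f x12114) (Nat.add (f x12124) (Nat.add (f x12126) (Nat.add (f x12132)
    (Nat.add (f x12158) (Nat.add (f x12164) (Nat.add (f x12166) (Nat.add (f x12170) (Nat.add
    (f x12172) (Nat.add (f x12174) (Nat.add (f x12182) (Nat.add (f x12184) (Nat.add (f x12188)
    (Nat.add (f x12190) (Nat.add (f x12192) (Nat.add (f x12196) (Nat.add (f x12198) (Nat.add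
    (f x12206) (Nat.add (f x12208) (Nat.add (f x12210) (Nat.add (f x12214) (Nat.add (f x12216)
    (Nat.add (f x12222) (Nat.add (f x12236) (Nat.add (f x12238) (Nat.add (f x12242) (Nat.add
    (f x12244) (Nat.add (f x12246) (Nat.add (f x12250) (Nat.add (f x12252) (Nat.add (f x12260)
    (Nat.add (f x12262) (Nat.add (f x12264) (Nat.add (f x12268) (Nat.add (f x12270) (Nat.add
    (f x12276) (Nat.add (f x12286) (Nat.add (f x12288) (Nat.add (f x12294) (Nat.add (f x12314)
    (Nat.add (f x12316) (Nat.add (f x12318) (Nat.add (f x12322) (Nat.add (f x12324) (Nat.add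
    (f x12330) (Nat.add (f x12340) (Nat.add (f x12342) (Nat.add (f x12348) (Nat.add (f x12366)
    (Nat.add (f x12410) (Nat.add (f x12416) (Nat.add (f x12418) (Nat.add (f x12428) (Nat.add
    (f x12434) (Nat.add (f x12436) 0))))))))))))))))))))))))))))))))))))))))))))))))))))))))))))
    (Nat.add (Nat.add (f x12440) (Nat.add (f x12442) (Nat.add (f x12444) (Nat.add (f x12452)
    (Nat.add (f x12454) (Nat.add (f x12458) (Nat.add (f x12460) (Nat.add (f x12462) (Nat.add
    (f x12466) (Nat.add (f x12468) (Nat.add (f x12482) (Nat.add (f x12488) (Nat.add (f x12490)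
    (Nat.add (f x12494) (Nat.add (f x12496) (Nat.add (f x12498) (Nat.add (f x12506) (Nat.add
    (f x12508) (Nat.add (f x12512) (Nat.add (f x12514) (Nat.add (f x12516) (Nat.add (f x12520)
    (Nat.add (f x12522) (Nat.add (f x12530) (Nat.add (f x12532) (Nat.add (f x12534) (Nat.add
    (f x12538) (Nat.add (f x12540) (Nat.add (f x12546) (Nat.add (f x12560) (Nat.add (f x12562)
    (Nat.add (f x12566) (Nat.add (f x12568) (Nat.add (f x12570) (Nat.add (f x12574) (Nat.add
    (f x12576) (Nat.add (f x12584) (Nat.add (f x12586) (Nat.add (f x12588) (Nat.add (f x12592)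
    (Nat.add (f x12594) (Nat.add (f x12600) (Nat.add (f x12610) (Nat.add (f x12612) (Nat.add
    (f x12618) (Nat.add (f x12644) (Nat.add (f x12650) (Nat.add (f x12652) (Nat.add (f x12656)
    (Nat.add (f x12658) (Nat.add (f x12660) (Nat.add (f x12668) (Nat.add (f x12670) (Nat.add
    (f x12674) (Nat.add (f x12676) (Nat.add (f x12678) (Nat.add (f x12682) (Nat.add (f x12684)
    (Nat.add (f x12692) (Nat.add (f x12694)
    0)))))))))))))))))))))))))))))))))))))))))))))))))))))))))))) (Nat.add (Nat.add (f x12696)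
    (Nat.add (f x12700) (Nat.add (f x12702) (Nat.add (f x12708) (Nat.add (f x12722) (Nat.add
    (f x12724) (Nat.add (f x12728) (Nat.add (f x12730) (Nat.add (f x12732) (Nat.add (f x12736)
    (Nat.add (f x12738) (Nat.add (f x12746) (Nat.add (f x12748) (Nat.add (f x12750) (Nat.add
    (f x12754) (Nat.add (f x12756) (Nat.add (f x12762) (Nat.add (f x12772) (Nat.add (f x12774)
    (Nat.add (f x12780) (Nat.add (f x12800) (Nat.add (f x12802) (Nat.add (f x12804) (Nat.add
    (f x12808) (Nat.add (f x12810) (Nat.add (f x12816) (Nat.add (f x12826) (Nat.add (f x12828)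
    (Nat.add (f x12834) (Nat.add (f x12852) (Nat.add (f x12884) (Nat.add (f x12886) (Nat.add
    (f x12890) (Nat.add (f x12892) (Nat.add (f x12894) (Nat.add (f x12898) (Nat.add (f x12900)
    (Nat.add (f x12908) (Nat.add (f x12910) (Nat.add (f x12912) (Nat.add (f x12916) (Nat.add
    (f x12918) (Nat.add (f x12924) (Nat.add (f x12934) (Nat.add (f x12936) (Nat.add (f x12942)
    (Nat.add (f x12962) (Nat.add (f x12964) (Nat.add (f x12966) (Nat.add (f x12970) (Nat.add
    (f x12972) (Nat.add (f x12978) (Nat.add (f x12988) (Nat.add (f x12990) (Nat.add (f x12996)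
    (Nat.add (f x13014) (Nat.add (f x13042) (Nat.add (f x13044) (Nat.add (f x13050) (Nat.add
    (f x13068) 0)))))))))))))))))))))))))))))))))))))))))))))))))))))))))))) (Nat.add (Nat.add
    (f x13202) (Nat.add (f x13256) (Nat.add (f x13274) (Nat.add (f x13280) (Nat.add (f x13282)
    (Nat.add (f x13310) (Nat.add (f x13328) (Nat.add (f x13334) (Nat.add (f x13336) (Nat.add
    (f x13346) (Nat.add (f x13352) (Nat.add (f x13354) (Nat.add (f x13358) (Nat.add (f x13360)
    (Nat.add (f x13362) (Nat.add (f x13418) (Nat.add (f x13436) (Nat.add (f x13442) (Nat.add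
    (f x13444) (Nat.add (f x13472) (Nat.add (f x13490) (Nat.add (f x13496) (Nat.add (f x13498)
    (Nat.add (f x13508) (Nat.add (f x13514) (Nat.add (f x13516) (Nat.add (f x13520) (Nat.add
    (f x13522) (Nat.add (f x13524) (Nat.add (f x13544) (Nat.add (f x13550) (Nat.add (f x13552)
    (Nat.add (f x13562) (Nat.add (f x13568) (Nat.add (f x13570) (Nat.add (f x13574) (Nat.add
    (f x13576) (Nat.add (f x13578) (Nat.add (f x13586) (Nat.add (f x13588) (Nat.add (f x13592)
    (Nat.add (f x13594) (Nat.add (f x13596) (Nat.add (f x13600) (Nat.add (f x13602) (Nat.add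
    (f x13634) (Nat.add (f x13652) (Nat.add (f x13658) (Nat.add (f x13660) (Nat.add (f x13670)
    (Nat.add (f x13676) (Nat.add (f x13678) (Nat.add (f x13682) (Nat.add (f x13684) (Nat.add
    (f x13686) (Nat.add (f x13706) (Nat.add (f x13712) (Nat.add (f x13714) (Nat.add (f x13724)
    (Nat.add (f x13730) 0)))))))))))))))))))))))))))))))))))))))))))))))))))))))))))) (Nat.add
    (Nat.add (f x13732) (Nat.add (f x13736) (Nat.add (f x13738) (Nat.add (f x13740) (Nat.add
    (f x13748) (Nat.add (f x13750) (Nat.add (f x13754) (Nat.add (f x13756) (Nat.add (f x13758)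
    (Nat.add (f x13762) (Nat.add (f x13764) (Nat.add (f x13778) (Nat.add (f x13784) (Nat.add
    (f x13786) (Nat.add (f x13790) (Nat.add (f x13792) (Nat.add (f x13794) (Nat.add (f x13802)
    (Nat.add (f x13804) (Nat.add (f x13808) (Nat.add (f x13810) (Nat.add (f x13812) (Nat.add
    (f x13816) (Nat.add (f x13818) (Nat.add (f x13826) (Nat.add (f x13828) (Nat.add (f x13830)
    (Nat.add (f x13834) (Nat.add (f x13836) (Nat.add (f x13842) (Nat.add (f x13904) (Nat.add
    (f x13922) (Nat.add (f x13928) (Nat.add (f x13930) (Nat.add (f x13958) (Nat.add (f x13976)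
    (Nat.add (f x13982) (Nat.add (f x13984) (Nat.add (f x13994) (Nat.add (f x14000) (Nat.add
    (f x14002) (Nat.add (f x14006) (Nat.add (f x14008) (Nat.add (f x14010) (Nat.add (f x14030)
    (Nat.add (f x14036) (Nat.add (f x14038) (Nat.add (f x14048) (Nat.add (f x14054) (Nat.add
    (f x14056) (Nat.add (f x14060) (Nat.add (f x14062) (Nat.add (f x14064) (Nat.add (f x14072)
    (Nat.add (f x14074) (Nat.add (f x14078) (Nat.add (f x14080) (Nat.add (f x14082) (Nat.add
    (f x14086) (Nat.add (f x14088) 0))))))))))))))))))))))))))))))))))))))))))))))))))))))))))))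
    (Nat.add (Nat.add (f x14120) (Nat.add (f x14138) (Nat.add (f x14144) (Nat.add (f x14146)
    (Nat.add (f x14156) (Nat.add (f x14162) (Nat.add (f x14164) (Nat.add (f x14168) (Nat.add
    (f x14170) (Nat.add (f x14172) (Nat.add (f x14192) (Nat.add (f x14198) (Nat.add (f x14200)
    (Nat.add (f x14210) (Nat.add (f x14216) (Nat.add (f x14218) (Nat.add (f x14222) (Nat.add
    (f x14224) (Nat.add (f x14226) (Nat.add (f x14234) (Nat.add (f x14236) (Nat.add (f x14240)
    (Nat.add (f x14242) (Nat.add (f x14244) (Nat.add (f x14248) (Nat.add (f x14250) (Nat.add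
    (f x14264) (Nat.add (f x14270) (Nat.add (f x14272) (Nat.add (f x14276) (Nat.add (f x14278)
    (Nat.add (f x14280) (Nat.add (f x14288) (Nat.add (f x14290) (Nat.add (f x14294) (Nat.add
    (f x14296) (Nat.add (f x14298) (Nat.add (f x14302) (Nat.add (f x14304) (Nat.add (f x14312)
    (Nat.add (f x14314) (Nat.add (f x14316) (Nat.add (f x14320) (Nat.add (f x14322) (Nat.add
    (f x14328) (Nat.add (f x14354) (Nat.add (f x14360) (Nat.add (f x14362) (Nat.add (f x14372)
    (Nat.add (f x14378) (Nat.add (f x14380) (Nat.add (f x14384) (Nat.add (f x14386) (Nat.add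
    (f x14388) (Nat.add (f x14396) (Nat.add (f x14398) (Nat.add (f x14402) (Nat.add (f x14404)
    (Nat.add (f x14406) (Nat.add (f x14410)
    0)))))))))))))))))))))))))))))))))))))))))))))))))))))))))))) (Nat.add (Nat.add (f x14412)
    (Nat.add (f x14426) (Nat.add (f x14432) (Nat.add (f x14434) (Nat.add (f x14438) (Nat.add
    (f x14440) (Nat.add (f x14442) (Nat.add (f x14450) (Nat.add (f x14452) (Nat.add (f x14456)
    (Nat.add (f x14458) (Nat.add (f x14460) (Nat.add (f x14464) (Nat.add (f x14466) (Nat.add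
    (f x14474) (Nat.add (f x14476) (Nat.add (f x14478) (Nat.add (f x14482) (Nat.add (f x14484)
    (Nat.add (f x14490) (Nat.add (f x14504) (Nat.add (f x14506) (Nat.add (f x14510) (Nat.add
    (f x14512) (Nat.add (f x14514) (Nat.add (f x14518) (Nat.add (f x14520) (Nat.add (f x14528)
    (Nat.add (f x14530) (Nat.add (f x14532) (Nat.add (f x14536) (Nat.add (f x14538) (Nat.add
    (f x14544) (Nat.add (f x14554) (Nat.add (f x14556) (Nat.add (f x14562) (Nat.add (f x14606)
    (Nat.add (f x14624) (Nat.add (f x14630) (Nat.add (f x14632) (Nat.add (f x14642) (Nat.add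
    (f x14648) (Nat.add (f x14650) (Nat.add (f x14654) (Nat.add (f x14656) (Nat.add (f x14658)
    (Nat.add (f x14678) (Nat.add (f x14684) (Nat.add (f x14686) (Nat.add (f x14696) (Nat.add
    (f x14702) (Nat.add (f x14704) (Nat.add (f x14708) (Nat.add (f x14710) (Nat.add (f x14712)
    (Nat.add (f x14720) (Nat.add (f x14722) (Nat.add (f x14726) (Nat.add (f x14728) (Nat.add
    (f x14730) 0)))))))))))))))))))))))))))))))))))))))))))))))))))))))))))) (Nat.add (Nat.add
    (f x14734) (Nat.add (f x14736) (Nat.add (f x14750) (Nat.add (f x14756) (Nat.add (f x14758)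
    (Nat.add (f x14762) (Nat.add (f x14764) (Nat.add (f x14766) (Nat.add (f x14774) (Nat.add
    (f x14776) (Nat.add (f x14780) (Nat.add (f x14782) (Nat.add (f x14784) (Nat.add (f x14788)
    (Nat.add (f x14790) (Nat.add (f x14798) (Nat.add (f x14800) (Nat.add (f x14802) (Nat.add
    (f x14806) (Nat.add (f x14808) (Nat.add (f x14814) (Nat.add (f x14840) (Nat.add (f x14846)
    (Nat.add (f x14848) (Nat.add (f x14858) (Nat.add (f x14864) (Nat.add (f x14866) (Nat.add
    (f x14870) (Nat.add (f x14872) (Nat.add (f x14874) (Nat.add (f x14882) (Nat.add (f x14884)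
    (Nat.add (f x14888) (Nat.add (f x14890) (Nat.add (f x14892) (Nat.add (f x14896) (Nat.add
    (f x14898) (Nat.add (f x14912) (Nat.add (f x14918) (Nat.add (f x14920) (Nat.add (f x14924)
    (Nat.add (f x14926) (Nat.add (f x14928) (Nat.add (f x14936) (Nat.add (f x14938) (Nat.add
    (f x14942) (Nat.add (f x14944) (Nat.add (f x14946) (Nat.add (f x14950) (Nat.add (f x14952)
    (Nat.add (f x14960) (Nat.add (f x14962) (Nat.add (f x14964) (Nat.add (f x14968) (Nat.add
    (f x14970) (Nat.add (f x14976) (Nat.add (f x14990) (Nat.add (f x14992) (Nat.add (f x14996)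
    (Nat.add (f x14998) 0)))))))))))))))))))))))))))))))))))))))))))))))))))))))))))) (Nat.add
    (Nat.add (f x15000) (Nat.add (f x15004) (Nat.add (f x15006) (Nat.add (f x15014) (Nat.add
    (f x15016) (Nat.add (f x15018) (Nat.add (f x15022) (Nat.add (f x15024) (Nat.add (f x15030)
    (Nat.add (f x15040) (Nat.add (f x15042) (Nat.add (f x15048) (Nat.add (f x15074) (Nat.add
    (f x15080) (Nat.add (f x15082) (Nat.add (f x15086) (Nat.add (f x15088) (Nat.add (f x15090)
    (Nat.add (f x15098) (Nat.add (f x15100) (Nat.add (f x15104) (Nat.add (f x15106) (Nat.add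
    (f x15108) (Nat.add (f x15112) (Nat.add (f x15114) (Nat.add (f x15122) (Nat.add (f x15124)
    (Nat.add (f x15126) (Nat.add (f x15130) (Nat.add (f x15132) (Nat.add (f x15138) (Nat.add
    (f x15152) (Nat.add (f x15154) (Nat.add (f x15158) (Nat.add (f x15160) (Nat.add (f x15162)
    (Nat.add (f x15166) (Nat.add (f x15168) (Nat.add (f x15176) (Nat.add (f x15178) (Nat.add
    (f x15180) (Nat.add (f x15184) (Nat.add (f x15186) (Nat.add (f x15192) (Nat.add (f x15202)
    (Nat.add (f x15204) (Nat.add (f x15210) (Nat.add (f x15230) (Nat.add (f x15232) (Nat.add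
    (f x15234) (Nat.add (f x15238) (Nat.add (f x15240) (Nat.add (f x15246) (Nat.add (f x15256)
    (Nat.add (f x15258) (Nat.add (f x15264) (Nat.add (f x15282) (Nat.add (f x15362) (Nat.add
    (f x15380) (Nat.add (f x15386) 0))))))))))))))))))))))))))))))))))))))))))))))))))))))))))))
    (Nat.add (Nat.add (f x15388) (Nat.add (f x15416) (Nat.add (f x15434) (Nat.add (f x15440)
    (Nat.add (f x15442) (Nat.add (f x15452) (Nat.add (f x15458) (Nat.add (f x15460) (Nat.add
    (f x15464) (Nat.add (f x15466) (Nat.add (f x15468) (Nat.add (f x15488) (Nat.add (f x15494)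
    (Nat.add (f x15496) (Nat.add (f x15506) (Nat.add (f x15512) (Nat.add (f x15514) (Nat.add
    (f x15518) (Nat.add (f x15520) (Nat.add (f x15522) (Nat.add (f x15530) (Nat.add (f x15532)
    (Nat.add (f x15536) (Nat.add (f x15538) (Nat.add (f x15540) (Nat.add (f x15544) (Nat.add
    (f x15546) (Nat.add (f x15578) (Nat.add (f x15596) (Nat.add (f x15602) (Nat.add (f x15604)
    (Nat.add (f x15614) (Nat.add (f x15620) (Nat.add (f x15622) (Nat.add (f x15626) (Nat.add
    (f x15628) (Nat.add (f x15630) (Nat.add (f x15650) (Nat.add (f x15656) (Nat.add (f x15658)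
    (Nat.add (f x15668) (Nat.add (f x15674) (Nat.add (f x15676) (Nat.add (f x15680) (Nat.add
    (f x15682) (Nat.add (f x15684) (Nat.add (f x15692) (Nat.add (f x15694) (Nat.add (f x15698)
    (Nat.add (f x15700) (Nat.add (f x15702) (Nat.add (f x15706) (Nat.add (f x15708) (Nat.add
    (f x15722) (Nat.add (f x15728) (Nat.add (f x15730) (Nat.add (f x15734) (Nat.add (f x15736)
    (Nat.add (f x15738) (Nat.add (f x15746)
    0)))))))))))))))))))))))))))))))))))))))))))))))))))))))))))) (Nat.add (Nat.add (f x15748)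
    (Nat.add (f x15752) (Nat.add (f x15754) (Nat.add (f x15756) (Nat.add (f x15760) (Nat.add
    (f x15762) (Nat.add (f x15770) (Nat.add (f x15772) (Nat.add (f x15774) (Nat.add (f x15778)
    (Nat.add (f x15780) (Nat.add (f x15786) (Nat.add (f x15812) (Nat.add (f x15818) (Nat.add
    (f x15820) (Nat.add (f x15830) (Nat.add (f x15836) (Nat.add (f x15838) (Nat.add (f x15842)
    (Nat.add (f x15844) (Nat.add (f x15846) (Nat.add (f x15854) (Nat.add (f x15856) (Nat.add
    (f x15860) (Nat.add (f x15862) (Nat.add (f x15864) (Nat.add (f x15868) (Nat.add (f x15870)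
    (Nat.add (f x15884) (Nat.add (f x15890) (Nat.add (f x15892) (Nat.add (f x15896) (Nat.add
    (f x15898) (Nat.add (f x15900) (Nat.add (f x15908) (Nat.add (f x15910) (Nat.add (f x15914)
    (Nat.add (f x15916) (Nat.add (f x15918) (Nat.add (f x15922) (Nat.add (f x15924) (Nat.add
    (f x15932) (Nat.add (f x15934) (Nat.add (f x15936) (Nat.add (f x15940) (Nat.add (f x15942)
    (Nat.add (f x15948) (Nat.add (f x15962) (Nat.add (f x15964) (Nat.add (f x15968) (Nat.add
    (f x15970) (Nat.add (f x15972) (Nat.add (f x15976) (Nat.add (f x15978) (Nat.add (f x15986)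
    (Nat.add (f x15988) (Nat.add (f x15990) (Nat.add (f x15994) (Nat.add (f x15996) (Nat.add
    (f x16002) 0)))))))))))))))))))))))))))))))))))))))))))))))))))))))))))) (Nat.add (Nat.add
    (f x16012) (Nat.add (f x16014) (Nat.add (f x16020) (Nat.add (f x16064) (Nat.add (f x16082)
    (Nat.add (f x16088) (Nat.add (f x16090) (Nat.add (f x16100) (Nat.add (f x16106) (Nat.add
    (f x16108) (Nat.add (f x16112) (Nat.add (f x16114) (Nat.add (f x16116) (Nat.add (f x16136)
    (Nat.add (f x16142) (Nat.add (f x16144) (Nat.add (f x16154) (Nat.add (f x16160) (Nat.add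
    (f x16162) (Nat.add (f x16166) (Nat.add (f x16168) (Nat.add (f x16170) (Nat.add (f x16178)
    (Nat.add (f x16180) (Nat.add (f x16184) (Nat.add (f x16186) (Nat.add (f x16188) (Nat.add
    (f x16192) (Nat.add (f x16194) (Nat.add (f x16208) (Nat.add (f x16214) (Nat.add (f x16216)
    (Nat.add (f x16220) (Nat.add (f x16222) (Nat.add (f x16224) (Nat.add (f x16232) (Nat.add
    (f x16234) (Nat.add (f x16238) (Nat.add (f x16240) (Nat.add (f x16242) (Nat.add (f x16246)
    (Nat.add (f x16248) (Nat.add (f x16256) (Nat.add (f x16258) (Nat.add (f x16260) (Nat.add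
    (f x16264) (Nat.add (f x16266) (Nat.add (f x16272) (Nat.add (f x16298) (Nat.add (f x16304)
    (Nat.add (f x16306) (Nat.add (f x16316) (Nat.add (f x16322) (Nat.add (f x16324) (Nat.add
    (f x16328) (Nat.add (f x16330) (Nat.add (f x16332) (Nat.add (f x16340) (Nat.add (f x16342)
    (Nat.add (f x16346) 0)))))))))))))))))))))))))))))))))))))))))))))))))))))))))))) (Nat.add
    (Nat.add (f x16348) (Nat.add (f x16350) (Nat.add (f x16354) (Nat.add (f x16356) (Nat.add
    (f x16370) (Nat.add (f x16376) (Nat.add (f x16378) (Nat.add (f x16382) (Nat.add (f x16384)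
    (Nat.add (f x16386) (Nat.add (f x16394) (Nat.add (f x16396) (Nat.add (f x16400) (Nat.add
    (f x16402) (Nat.add (f x16404) (Nat.add (f x16408) (Nat.add (f x16410) (Nat.add (f x16418)
    (Nat.add (f x16420) (Nat.add (f x16422) (Nat.add (f x16426) (Nat.add (f x16428) (Nat.add
    (f x16434) (Nat.add (f x16448) (Nat.add (f x16450) (Nat.add (f x16454) (Nat.add (f x16456)
    (Nat.add (f x16458) (Nat.add (f x16462) (Nat.add (f x16464) (Nat.add (f x16472) (Nat.add
    (f x16474) (Nat.add (f x16476) (Nat.add (f x16480) (Nat.add (f x16482) (Nat.add (f x16488)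
    (Nat.add (f x16498) (Nat.add (f x16500) (Nat.add (f x16506) (Nat.add (f x16532) (Nat.add
    (f x16538) (Nat.add (f x16540) (Nat.add (f x16544) (Nat.add (f x16546) (Nat.add (f x16548)
    (Nat.add (f x16556) (Nat.add (f x16558) (Nat.add (f x16562) (Nat.add (f x16564) (Nat.add
    (f x16566) (Nat.add (f x16570) (Nat.add (f x16572) (Nat.add (f x16580) (Nat.add (f x16582)
    (Nat.add (f x16584) (Nat.add (f x16588) (Nat.add (f x16590) (Nat.add (f x16596) (Nat.add
    (f x16610) (Nat.add (f x16612) 0))))))))))))))))))))))))))))))))))))))))))))))))))))))))))))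
    (Nat.add (Nat.add (f x16616) (Nat.add (f x16618) (Nat.add (f x16620) (Nat.add (f x16624)
    (Nat.add (f x16626) (Nat.add (f x16634) (Nat.add (f x16636) (Nat.add (f x16638) (Nat.add
    (f x16642) (Nat.add (f x16644) (Nat.add (f x16650) (Nat.add (f x16660) (Nat.add (f x16662)
    (Nat.add (f x16668) (Nat.add (f x16688) (Nat.add (f x16690) (Nat.add (f x16692) (Nat.add
    (f x16696) (Nat.add (f x16698) (Nat.add (f x16704) (Nat.add (f x16714) (Nat.add (f x16716)
    (Nat.add (f x16722) (Nat.add (f x16740) (Nat.add (f x16784) (Nat.add (f x16790) (Nat.add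
    (f x16792) (Nat.add (f x16802) (Nat.add (f x16808) (Nat.add (f x16810) (Nat.add (f x16814)
    (Nat.add (f x16816) (Nat.add (f x16818) (Nat.add (f x16826) (Nat.add (f x16828) (Nat.add
    (f x16832) (Nat.add (f x16834) (Nat.add (f x16836) (Nat.add (f x16840) (Nat.add (f x16842)
    (Nat.add (f x16856) (Nat.add (f x16862) (Nat.add (f x16864) (Nat.add (f x16868) (Nat.add
    (f x16870) (Nat.add (f x16872) (Nat.add (f x16880) (Nat.add (f x16882) (Nat.add (f x16886)
    (Nat.add (f x16888) (Nat.add (f x16890) (Nat.add (f x16894) (Nat.add (f x16896) (Nat.add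
    (f x16904) (Nat.add (f x16906) (Nat.add (f x16908) (Nat.add (f x16912) (Nat.add (f x16914)
    (Nat.add (f x16920) (Nat.add (f x16934)
    0)))))))))))))))))))))))))))))))))))))))))))))))))))))))))))) (Nat.add (Nat.add (f x16936)
    (Nat.add (f x16940) (Nat.add (f x16942) (Nat.add (f x16944) (Nat.add (f x16948) (Nat.add
    (f x16950) (Nat.add (f x16958) (Nat.add (f x16960) (Nat.add (f x16962) (Nat.add (f x16966)
    (Nat.add (f x16968) (Nat.add (f x16974) (Nat.add (f x16984) (Nat.add (f x16986) (Nat.add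
    (f x16992) (Nat.add (f x17018) (Nat.add (f x17024) (Nat.add (f x17026) (Nat.add (f x17030)
    (Nat.add (f x17032) (Nat.add (f x17034) (Nat.add (f x17042) (Nat.add (f x17044) (Nat.add
    (f x17048) (Nat.add (f x17050) (Nat.add (f x17052) (Nat.add (f x17056) (Nat.add (f x17058)
    (Nat.add (f x17066) (Nat.add (f x17068) (Nat.add (f x17070) (Nat.add (f x17074) (Nat.add
    (f x17076) (Nat.add (f x17082) (Nat.add (f x17096) (Nat.add (f x17098) (Nat.add (f x17102)
    (Nat.add (f x17104) (Nat.add (f x17106) (Nat.add (f x17110) (Nat.add (f x17112) (Nat.add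
    (f x17120) (Nat.add (f x17122) (Nat.add (f x17124) (Nat.add (f x17128) (Nat.add (f x17130)
    (Nat.add (f x17136) (Nat.add (f x17146) (Nat.add (f x17148) (Nat.add (f x17154) (Nat.add
    (f x17174) (Nat.add (f x17176) (Nat.add (f x17178) (Nat.add (f x17182) (Nat.add (f x17184)
    (Nat.add (f x17190) (Nat.add (f x17200) (Nat.add (f x17202) (Nat.add (f x17208) (Nat.add
    (f x17226) 0)))))))))))))))))))))))))))))))))))))))))))))))))))))))))))) (Nat.add (Nat.add
    (f x17258) (Nat.add (f x17260) (Nat.add (f x17264) (Nat.add (f x17266) (Nat.add (f x17268)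
    (Nat.add (f x17272) (Nat.add (f x17274) (Nat.add (f x17282) (Nat.add (f x17284) (Nat.add
    (f x17286) (Nat.add (f x17290) (Nat.add (f x17292) (Nat.add (f x17298) (Nat.add (f x17308)
    (Nat.add (f x17310) (Nat.add (f x17316) (Nat.add (f x17336) (Nat.add (f x17338) (Nat.add
    (f x17340) (Nat.add (f x17344) (Nat.add (f x17346) (Nat.add (f x17352) (Nat.add (f x17362)
    (Nat.add (f x17364) (Nat.add (f x17370) (Nat.add (f x17388) (Nat.add (f x17416) (Nat.add
    (f x17418) (Nat.add (f x17424) (Nat.add (f x17442) (Nat.add (f x17522) (Nat.add (f x17540)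
    (Nat.add (f x17546) (Nat.add (f x17548) (Nat.add (f x17558) (Nat.add (f x17564) (Nat.add
    (f x17566) (Nat.add (f x17570) (Nat.add (f x17572) (Nat.add (f x17574) (Nat.add (f x17594)
    (Nat.add (f x17600) (Nat.add (f x17602) (Nat.add (f x17612) (Nat.add (f x17618) (Nat.add
    (f x17620) (Nat.add (f x17624) (Nat.add (f x17626) (Nat.add (f x17628) (Nat.add (f x17636)
    (Nat.add (f x17638) (Nat.add (f x17642) (Nat.add (f x17644) (Nat.add (f x17646) (Nat.add
    (f x17650) (Nat.add (f x17652) (Nat.add (f x17666) (Nat.add (f x17672) (Nat.add (f x17674)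
    (Nat.add (f x17678) 0)))))))))))))))))))))))))))))))))))))))))))))))))))))))))))) (Nat.add
    (Nat.add (f x17680) (Nat.add (f x17682) (Nat.add (f x17690) (Nat.add (f x17692) (Nat.add
    (f x17696) (Nat.add (f x17698) (Nat.add (f x17700) (Nat.add (f x17704) (Nat.add (f x17706)
    (Nat.add (f x17714) (Nat.add (f x17716) (Nat.add (f x17718) (Nat.add (f x17722) (Nat.add
    (f x17724) (Nat.add (f x17730) (Nat.add (f x17756) (Nat.add (f x17762) (Nat.add (f x17764)
    (Nat.add (f x17774) (Nat.add (f x17780) (Nat.add (f x17782) (Nat.add (f x17786) (Nat.add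
    (f x17788) (Nat.add (f x17790) (Nat.add (f x17798) (Nat.add (f x17800) (Nat.add (f x17804)
    (Nat.add (f x17806) (Nat.add (f x17808) (Nat.add (f x17812) (Nat.add (f x17814) (Nat.add
    (f x17828) (Nat.add (f x17834) (Nat.add (f x17836) (Nat.add (f x17840) (Nat.add (f x17842)
    (Nat.add (f x17844) (Nat.add (f x17852) (Nat.add (f x17854) (Nat.add (f x17858) (Nat.add
    (f x17860) (Nat.add (f x17862) (Nat.add (f x17866) (Nat.add (f x17868) (Nat.add (f x17876)
    (Nat.add (f x17878) (Nat.add (f x17880) (Nat.add (f x17884) (Nat.add (f x17886) (Nat.add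
    (f x17892) (Nat.add (f x17906) (Nat.add (f x17908) (Nat.add (f x17912) (Nat.add (f x17914)
    (Nat.add (f x17916) (Nat.add (f x17920) (Nat.add (f x17922) (Nat.add (f x17930) (Nat.add
    (f x17932) (Nat.add (f x17934) 0))))))))))))))))))))))))))))))))))))))))))))))))))))))))))))
    (Nat.add (Nat.add (f x17938) (Nat.add (f x17940) (Nat.add (f x17946) (Nat.add (f x17956)
    (Nat.add (f x17958) (Nat.add (f x17964) (Nat.add (f x17990) (Nat.add (f x17996) (Nat.add
    (f x17998) (Nat.add (f x18002) (Nat.add (f x18004) (Nat.add (f x18006) (Nat.add (f x18014)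
    (Nat.add (f x18016) (Nat.add (f x18020) (Nat.add (f x18022) (Nat.add (f x18024) (Nat.add
    (f x18028) (Nat.add (f x18030) (Nat.add (f x18038) (Nat.add (f x18040) (Nat.add (f x18042)
    (Nat.add (f x18046) (Nat.add (f x18048) (Nat.add (f x18054) (Nat.add (f x18068) (Nat.add
    (f x18070) (Nat.add (f x18074) (Nat.add (f x18076) (Nat.add (f x18078) (Nat.add (f x18082)
    (Nat.add (f x18084) (Nat.add (f x18092) (Nat.add (f x18094) (Nat.add (f x18096) (Nat.add
    (f x18100) (Nat.add (f x18102) (Nat.add (f x18108) (Nat.add (f x18118) (Nat.add (f x18120)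
    (Nat.add (f x18126) (Nat.add (f x18146) (Nat.add (f x18148) (Nat.add (f x18150) (Nat.add
    (f x18154) (Nat.add (f x18156) (Nat.add (f x18162) (Nat.add (f x18172) (Nat.add (f x18174)
    (Nat.add (f x18180) (Nat.add (f x18198) (Nat.add (f x18242) (Nat.add (f x18248) (Nat.add
    (f x18250) (Nat.add (f x18260) (Nat.add (f x18266) (Nat.add (f x18268) (Nat.add (f x18272)
    (Nat.add (f x18274) (Nat.add (f x18276)
    0)))))))))))))))))))))))))))))))))))))))))))))))))))))))))))) (Nat.add (Nat.add (f x18284)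
    (Nat.add (f x18286) (Nat.add (f x18290) (Nat.add (f x18292) (Nat.add (f x18294) (Nat.add
    (f x18298) (Nat.add (f x18300) (Nat.add (f x18314) (Nat.add (f x18320) (Nat.add (f x18322)
    (Nat.add (f x18326) (Nat.add (f x18328) (Nat.add (f x18330) (Nat.add (f x18338) (Nat.add
    (f x18340) (Nat.add (f x18344) (Nat.add (f x18346) (Nat.add (f x18348) (Nat.add (f x18352)
    (Nat.add (f x18354) (Nat.add (f x18362) (Nat.add (f x18364) (Nat.add (f x18366) (Nat.add
    (f x18370) (Nat.add (f x18372) (Nat.add (f x18378) (Nat.add (f x18392) (Nat.add (f x18394)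
    (Nat.add (f x18398) (Nat.add (f x18400) (Nat.add (f x18402) (Nat.add (f x18406) (Nat.add
    (f x18408) (Nat.add (f x18416) (Nat.add (f x18418) (Nat.add (f x18420) (Nat.add (f x18424)
    (Nat.add (f x18426) (Nat.add (f x18432) (Nat.add (f x18442) (Nat.add (f x18444) (Nat.add
    (f x18450) (Nat.add (f x18476) (Nat.add (f x18482) (Nat.add (f x18484) (Nat.add (f x18488)
    (Nat.add (f x18490) (Nat.add (f x18492) (Nat.add (f x18500) (Nat.add (f x18502) (Nat.add
    (f x18506) (Nat.add (f x18508) (Nat.add (f x18510) (Nat.add (f x18514) (Nat.add (f x18516)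
    (Nat.add (f x18524) (Nat.add (f x18526) (Nat.add (f x18528) (Nat.add (f x18532) (Nat.add
    (f x18534) 0)))))))))))))))))))))))))))))))))))))))))))))))))))))))))))) (Nat.add (Nat.add
    (f x18540) (Nat.add (f x18554) (Nat.add (f x18556) (Nat.add (f x18560) (Nat.add (f x18562)
    (Nat.add (f x18564) (Nat.add (f x18568) (Nat.add (f x18570) (Nat.add (f x18578) (Nat.add
    (f x18580) (Nat.add (f x18582) (Nat.add (f x18586) (Nat.add (f x18588) (Nat.add (f x18594)
    (Nat.add (f x18604) (Nat.add (f x18606) (Nat.add (f x18612) (Nat.add (f x18632) (Nat.add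
    (f x18634) (Nat.add (f x18636) (Nat.add (f x18640) (Nat.add (f x18642) (Nat.add (f x18648)
    (Nat.add (f x18658) (Nat.add (f x18660) (Nat.add (f x18666) (Nat.add (f x18684) (Nat.add
    (f x18716) (Nat.add (f x18718) (Nat.add (f x18722) (Nat.add (f x18724) (Nat.add (f x18726)
    (Nat.add (f x18730) (Nat.add (f x18732) (Nat.add (f x18740) (Nat.add (f x18742) (Nat.add
    (f x18744) (Nat.add (f x18748) (Nat.add (f x18750) (Nat.add (f x18756) (Nat.add (f x18766)
    (Nat.add (f x18768) (Nat.add (f x18774) (Nat.add (f x18794) (Nat.add (f x18796) (Nat.add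
    (f x18798) (Nat.add (f x18802) (Nat.add (f x18804) (Nat.add (f x18810) (Nat.add (f x18820)
    (Nat.add (f x18822) (Nat.add (f x18828) (Nat.add (f x18846) (Nat.add (f x18874) (Nat.add
    (f x18876) (Nat.add (f x18882) (Nat.add (f x18900) (Nat.add (f x18962) (Nat.add (f x18968)
    (Nat.add (f x18970) 0)))))))))))))))))))))))))))))))))))))))))))))))))))))))))))) (Nat.add
    (Nat.add (f x18974) (Nat.add (f x18976) (Nat.add (f x18978) (Nat.add (f x18986) (Nat.add
    (f x18988) (Nat.add (f x18992) (Nat.add (f x18994) (Nat.add (f x18996) (Nat.add (f x19000)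
    (Nat.add (f x19002) (Nat.add (f x19010) (Nat.add (f x19012) (Nat.add (f x19014) (Nat.add
    (f x19018) (Nat.add (f x19020) (Nat.add (f x19026) (Nat.add (f x19040) (Nat.add (f x19042)
    (Nat.add (f x19046) (Nat.add (f x19048) (Nat.add (f x19050) (Nat.add (f x19054) (Nat.add
    (f x19056) (Nat.add (f x19064) (Nat.add (f x19066) (Nat.add (f x19068) (Nat.add (f x19072)
    (Nat.add (f x19074) (Nat.add (f x19080) (Nat.add (f x19090) (Nat.add (f x19092) (Nat.add
    (f x19098) (Nat.add (f x19118) (Nat.add (f x19120) (Nat.add (f x19122) (Nat.add (f x19126)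
    (Nat.add (f x19128) (Nat.add (f x19134) (Nat.add (f x19144) (Nat.add (f x19146) (Nat.add
    (f x19152) (Nat.add (f x19170) (Nat.add (f x19202) (Nat.add (f x19204) (Nat.add (f x19208)
    (Nat.add (f x19210) (Nat.add (f x19212) (Nat.add (f x19216) (Nat.add (f x19218) (Nat.add
    (f x19226) (Nat.add (f x19228) (Nat.add (f x19230) (Nat.add (f x19234) (Nat.add (f x19236)
    (Nat.add (f x19242) (Nat.add (f x19252) (Nat.add (f x19254) (Nat.add (f x19260) (Nat.add
    (f x19280) (Nat.add (f x19282) 0))))))))))))))))))))))))))))))))))))))))))))))))))))))))))))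
    (Nat.add (Nat.add (f x19284) (Nat.add (f x19288) (Nat.add (f x19290) (Nat.add (f x19296)
    (Nat.add (f x19306) (Nat.add (f x19308) (Nat.add (f x19314) (Nat.add (f x19332) (Nat.add
    (f x19360) (Nat.add (f x19362) (Nat.add (f x19368) (Nat.add (f x19386) (Nat.add (f x19442)
    (Nat.add (f x19444) (Nat.add (f x19446) (Nat.add (f x19450) (Nat.add (f x19452) (Nat.add
    (f x19458) (Nat.add (f x19468) (Nat.add (f x19470) (Nat.add (f x19476) (Nat.add (f x19494)
    (Nat.add (f x19522) (Nat.add (f x19524) (Nat.add (f x19530) (Nat.add (f x19548) (Nat.add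
    (f x19602) (Nat.add (f x19844) (Nat.add (f x19898) (Nat.add (f x19916) (Nat.add (f x19922)
    (Nat.add (f x19924) (Nat.add (f x20006) (Nat.add (f x20060) (Nat.add (f x20078) (Nat.add
    (f x20084) (Nat.add (f x20086) (Nat.add (f x20114) (Nat.add (f x20132) (Nat.add (f x20138)
    (Nat.add (f x20140) (Nat.add (f x20150) (Nat.add (f x20156) (Nat.add (f x20158) (Nat.add
    (f x20162) (Nat.add (f x20164) (Nat.add (f x20166) (Nat.add (f x20222) (Nat.add (f x20240)
    (Nat.add (f x20246) (Nat.add (f x20248) (Nat.add (f x20276) (Nat.add (f x20294) (Nat.add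
    (f x20300) (Nat.add (f x20302) (Nat.add (f x20312) (Nat.add (f x20318) (Nat.add (f x20320)
    (Nat.add (f x20324) (Nat.add (f x20326)
    0)))))))))))))))))))))))))))))))))))))))))))))))))))))))))))) (Nat.add (Nat.add (f x20328)
    (Nat.add (f x20348) (Nat.add (f x20354) (Nat.add (f x20356) (Nat.add (f x20366) (Nat.add
    (f x20372) (Nat.add (f x20374) (Nat.add (f x20378) (Nat.add (f x20380) (Nat.add (f x20382)
    (Nat.add (f x20390) (Nat.add (f x20392) (Nat.add (f x20396) (Nat.add (f x20398) (Nat.add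
    (f x20400) (Nat.add (f x20404) (Nat.add (f x20406) (Nat.add (f x20492) (Nat.add (f x20546)
    (Nat.add (f x20564) (Nat.add (f x20570) (Nat.add (f x20572) (Nat.add (f x20600) (Nat.add
    (f x20618) (Nat.add (f x20624) (Nat.add (f x20626) (Nat.add (f x20636) (Nat.add (f x20642)
    (Nat.add (f x20644) (Nat.add (f x20648) (Nat.add (f x20650) (Nat.add (f x20652) (Nat.add
    (f x20708) (Nat.add (f x20726) (Nat.add (f x20732) (Nat.add (f x20734) (Nat.add (f x20762)
    (Nat.add (f x20780) (Nat.add (f x20786) (Nat.add (f x20788) (Nat.add (f x20798) (Nat.add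
    (f x20804) (Nat.add (f x20806) (Nat.add (f x20810) (Nat.add (f x20812) (Nat.add (f x20814)
    (Nat.add (f x20834) (Nat.add (f x20840) (Nat.add (f x20842) (Nat.add (f x20852) (Nat.add
    (f x20858) (Nat.add (f x20860) (Nat.add (f x20864) (Nat.add (f x20866) (Nat.add (f x20868)
    (Nat.add (f x20876) (Nat.add (f x20878) (Nat.add (f x20882) (Nat.add (f x20884) (Nat.add
    (f x20886) 0)))))))))))))))))))))))))))))))))))))))))))))))))))))))))))) (Nat.add (Nat.add
    (f x20890) (Nat.add (f x20892) (Nat.add (f x20924) (Nat.add (f x20942) (Nat.add (f x20948)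
    (Nat.add (f x20950) (Nat.add (f x20960) (Nat.add (f x20966) (Nat.add (f x20968) (Nat.add
    (f x20972) (Nat.add (f x20974) (Nat.add (f x20976) (Nat.add (f x20996) (Nat.add (f x21002)
    (Nat.add (f x21004) (Nat.add (f x21014) (Nat.add (f x21020) (Nat.add (f x21022) (Nat.add
    (f x21026) (Nat.add (f x21028) (Nat.add (f x21030) (Nat.add (f x21038) (Nat.add (f x21040)
    (Nat.add (f x21044) (Nat.add (f x21046) (Nat.add (f x21048) (Nat.add (f x21052) (Nat.add
    (f x21054) (Nat.add (f x21068) (Nat.add (f x21074) (Nat.add (f x21076) (Nat.add (f x21080)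
    (Nat.add (f x21082) (Nat.add (f x21084) (Nat.add (f x21092) (Nat.add (f x21094) (Nat.add
    (f x21098) (Nat.add (f x21100) (Nat.add (f x21102) (Nat.add (f x21106) (Nat.add (f x21108)
    (Nat.add (f x21116) (Nat.add (f x21118) (Nat.add (f x21120) (Nat.add (f x21124) (Nat.add
    (f x21126) (Nat.add (f x21132) (Nat.add (f x21194) (Nat.add (f x21212) (Nat.add (f x21218)
    (Nat.add (f x21220) (Nat.add (f x21248) (Nat.add (f x21266) (Nat.add (f x21272) (Nat.add
    (f x21274) (Nat.add (f x21284) (Nat.add (f x21290) (Nat.add (f x21292) (Nat.add (f x21296)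
    (Nat.add (f x21298) 0)))))))))))))))))))))))))))))))))))))))))))))))))))))))))))) (Nat.add
    (Nat.add (f x21300) (Nat.add (f x21320) (Nat.add (f x21326) (Nat.add (f x21328) (Nat.add
    (f x21338) (Nat.add (f x21344) (Nat.add (f x21346) (Nat.add (f x21350) (Nat.add (f x21352)
    (Nat.add (f x21354) (Nat.add (f x21362) (Nat.add (f x21364) (Nat.add (f x21368) (Nat.add
    (f x21370) (Nat.add (f x21372) (Nat.add (f x21376) (Nat.add (f x21378) (Nat.add (f x21410)
    (Nat.add (f x21428) (Nat.add (f x21434) (Nat.add (f x21436) (Nat.add (f x21446) (Nat.add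
    (f x21452) (Nat.add (f x21454) (Nat.add (f x21458) (Nat.add (f x21460) (Nat.add (f x21462)
    (Nat.add (f x21482) (Nat.add (f x21488) (Nat.add (f x21490) (Nat.add (f x21500) (Nat.add
    (f x21506) (Nat.add (f x21508) (Nat.add (f x21512) (Nat.add (f x21514) (Nat.add (f x21516)
    (Nat.add (f x21524) (Nat.add (f x21526) (Nat.add (f x21530) (Nat.add (f x21532) (Nat.add
    (f x21534) (Nat.add (f x21538) (Nat.add (f x21540) (Nat.add (f x21554) (Nat.add (f x21560)
    (Nat.add (f x21562) (Nat.add (f x21566) (Nat.add (f x21568) (Nat.add (f x21570) (Nat.add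
    (f x21578) (Nat.add (f x21580) (Nat.add (f x21584) (Nat.add (f x21586) (Nat.add (f x21588)
    (Nat.add (f x21592) (Nat.add (f x21594) (Nat.add (f x21602) (Nat.add (f x21604) (Nat.add
    (f x21606) (Nat.add (f x21610) 0))))))))))))))))))))))))))))))))))))))))))))))))))))))))))))
    (Nat.add (Nat.add (f x21612) (Nat.add (f x21618) (Nat.add (f x21644) (Nat.add (f x21650)
    (Nat.add (f x21652) (Nat.add (f x21662) (Nat.add (f x21668) (Nat.add (f x21670) (Nat.add
    (f x21674) (Nat.add (f x21676) (Nat.add (f x21678) (Nat.add (f x21686) (Nat.add (f x21688)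
    (Nat.add (f x21692) (Nat.add (f x21694) (Nat.add (f x21696) (Nat.add (f x21700) (Nat.add
    (f x21702) (Nat.add (f x21716) (Nat.add (f x21722) (Nat.add (f x21724) (Nat.add (f x21728)
    (Nat.add (f x21730) (Nat.add (f x21732) (Nat.add (f x21740) (Nat.add (f x21742) (Nat.add
    (f x21746) (Nat.add (f x21748) (Nat.add (f x21750) (Nat.add (f x21754) (Nat.add (f x21756)
    (Nat.add (f x21764) (Nat.add (f x21766) (Nat.add (f x21768) (Nat.add (f x21772) (Nat.add
    (f x21774) (Nat.add (f x21780) (Nat.add (f x21794) (Nat.add (f x21796) (Nat.add (f x21800)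
    (Nat.add (f x21802) (Nat.add (f x21804) (Nat.add (f x21808) (Nat.add (f x21810) (Nat.add
    (f x21818) (Nat.add (f x21820) (Nat.add (f x21822) (Nat.add (f x21826) (Nat.add (f x21828)
    (Nat.add (f x21834) (Nat.add (f x21844) (Nat.add (f x21846) (Nat.add (f x21852) (Nat.add
    (f x21950) (Nat.add (f x22004) (Nat.add (f x22022) (Nat.add (f x22028) (Nat.add (f x22030)
    (Nat.add (f x22058) (Nat.add (f x22076)
    0)))))))))))))))))))))))))))))))))))))))))))))))))))))))))))) (Nat.add (Nat.add (f x22082)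
    (Nat.add (f x22084) (Nat.add (f x22094) (Nat.add (f x22100) (Nat.add (f x22102) (Nat.add
    (f x22106) (Nat.add (f x22108) (Nat.add (f x22110) (Nat.add (f x22166) (Nat.add (f x22184)
    (Nat.add (f x22190) (Nat.add (f x22192) (Nat.add (f x22220) (Nat.add (f x22238) (Nat.add
    (f x22244) (Nat.add (f x22246) (Nat.add (f x22256) (Nat.add (f x22262) (Nat.add (f x22264)
    (Nat.add (f x22268) (Nat.add (f x22270) (Nat.add (f x22272) (Nat.add (f x22292) (Nat.add
    (f x22298) (Nat.add (f x22300) (Nat.add (f x22310) (Nat.add (f x22316) (Nat.add (f x22318)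
    (Nat.add (f x22322) (Nat.add (f x22324) (Nat.add (f x22326) (Nat.add (f x22334) (Nat.add
    (f x22336) (Nat.add (f x22340) (Nat.add (f x22342) (Nat.add (f x22344) (Nat.add (f x22348)
    (Nat.add (f x22350) (Nat.add (f x22382) (Nat.add (f x22400) (Nat.add (f x22406) (Nat.add
    (f x22408) (Nat.add (f x22418) (Nat.add (f x22424) (Nat.add (f x22426) (Nat.add (f x22430)
    (Nat.add (f x22432) (Nat.add (f x22434) (Nat.add (f x22454) (Nat.add (f x22460) (Nat.add
    (f x22462) (Nat.add (f x22472) (Nat.add (f x22478) (Nat.add (f x22480) (Nat.add (f x22484)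
    (Nat.add (f x22486) (Nat.add (f x22488) (Nat.add (f x22496) (Nat.add (f x22498) (Nat.add
    (f x22502) 0)))))))))))))))))))))))))))))))))))))))))))))))))))))))))))) (Nat.add (Nat.add
    (f x22504) (Nat.add (f x22506) (Nat.add (f x22510) (Nat.add (f x22512) (Nat.add (f x22526)
    (Nat.add (f x22532) (Nat.add (f x22534) (Nat.add (f x22538) (Nat.add (f x22540) (Nat.add
    (f x22542) (Nat.add (f x22550) (Nat.add (f x22552) (Nat.add (f x22556) (Nat.add (f x22558)
    (Nat.add (f x22560) (Nat.add (f x22564) (Nat.add (f x22566) (Nat.add (f x22574) (Nat.add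
    (f x22576) (Nat.add (f x22578) (Nat.add (f x22582) (Nat.add (f x22584) (Nat.add (f x22590)
    (Nat.add (f x22652) (Nat.add (f x22670) (Nat.add (f x22676) (Nat.add (f x22678) (Nat.add
    (f x22706) (Nat.add (f x22724) (Nat.add (f x22730) (Nat.add (f x22732) (Nat.add (f x22742)
    (Nat.add (f x22748) (Nat.add (f x22750) (Nat.add (f x22754) (Nat.add (f x22756) (Nat.add
    (f x22758) (Nat.add (f x22778) (Nat.add (f x22784) (Nat.add (f x22786) (Nat.add (f x22796)
    (Nat.add (f x22802) (Nat.add (f x22804) (Nat.add (f x22808) (Nat.add (f x22810) (Nat.add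
    (f x22812) (Nat.add (f x22820) (Nat.add (f x22822) (Nat.add (f x22826) (Nat.add (f x22828)
    (Nat.add (f x22830) (Nat.add (f x22834) (Nat.add (f x22836) (Nat.add (f x22868) (Nat.add
    (f x22886) (Nat.add (f x22892) (Nat.add (f x22894) (Nat.add (f x22904) (Nat.add (f x22910)
    (Nat.add (f x22912) 0)))))))))))))))))))))))))))))))))))))))))))))))))))))))))))) (Nat.add
    (Nat.add (f x22916) (Nat.add (f x22918) (Nat.add (f x22920) (Nat.add (f x22940) (Nat.add
    (f x22946) (Nat.add (f x22948) (Nat.add (f x22958) (Nat.add (f x22964) (Nat.add (f x22966)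
    (Nat.add (f x22970) (Nat.add (f x22972) (Nat.add (f x22974) (Nat.add (f x22982) (Nat.add
    (f x22984) (Nat.add (f x22988) (Nat.add (f x22990) (Nat.add (f x22992) (Nat.add (f x22996)
    (Nat.add (f x22998) (Nat.add (f x23012) (Nat.add (f x23018) (Nat.add (f x23020) (Nat.add
    (f x23024) (Nat.add (f x23026) (Nat.add (f x23028) (Nat.add (f x23036) (Nat.add (f x23038)
    (Nat.add (f x23042) (Nat.add (f x23044) (Nat.add (f x23046) (Nat.add (f x23050) (Nat.add
    (f x23052) (Nat.add (f x23060) (Nat.add (f x23062) (Nat.add (f x23064) (Nat.add (f x23068)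
    (Nat.add (f x23070) (Nat.add (f x23076) (Nat.add (f x23102) (Nat.add (f x23108) (Nat.add
    (f x23110) (Nat.add (f x23120) (Nat.add (f x23126) (Nat.add (f x23128) (Nat.add (f x23132)
    (Nat.add (f x23134) (Nat.add (f x23136) (Nat.add (f x23144) (Nat.add (f x23146) (Nat.add
    (f x23150) (Nat.add (f x23152) (Nat.add (f x23154) (Nat.add (f x23158) (Nat.add (f x23160)
    (Nat.add (f x23174) (Nat.add (f x23180) (Nat.add (f x23182) (Nat.add (f x23186) (Nat.add
    (f x23188) (Nat.add (f x23190) 0))))))))))))))))))))))))))))))))))))))))))))))))))))))))))))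
    (Nat.add (Nat.add (f x23198) (Nat.add (f x23200) (Nat.add (f x23204) (Nat.add (f x23206)
    (Nat.add (f x23208) (Nat.add (f x23212) (Nat.add (f x23214) (Nat.add (f x23222) (Nat.add
    (f x23224) (Nat.add (f x23226) (Nat.add (f x23230) (Nat.add (f x23232) (Nat.add (f x23238)
    (Nat.add (f x23252) (Nat.add (f x23254) (Nat.add (f x23258) (Nat.add (f x23260) (Nat.add
    (f x23262) (Nat.add (f x23266) (Nat.add (f x23268) (Nat.add (f x23276) (Nat.add (f x23278)
    (Nat.add (f x23280) (Nat.add (f x23284) (Nat.add (f x23286) (Nat.add (f x23292) (Nat.add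
    (f x23302) (Nat.add (f x23304) (Nat.add (f x23310) (Nat.add (f x23354) (Nat.add (f x23372)
    (Nat.add (f x23378) (Nat.add (f x23380) (Nat.add (f x23390) (Nat.add (f x23396) (Nat.add
    (f x23398) (Nat.add (f x23402) (Nat.add (f x23404) (Nat.add (f x23406) (Nat.add (f x23426)
    (Nat.add (f x23432) (Nat.add (f x23434) (Nat.add (f x23444) (Nat.add (f x23450) (Nat.add
    (f x23452) (Nat.add (f x23456) (Nat.add (f x23458) (Nat.add (f x23460) (Nat.add (f x23468)
    (Nat.add (f x23470) (Nat.add (f x23474) (Nat.add (f x23476) (Nat.add (f x23478) (Nat.add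
    (f x23482) (Nat.add (f x23484) (Nat.add (f x23498) (Nat.add (f x23504) (Nat.add (f x23506)
    (Nat.add (f x23510) (Nat.add (f x23512)
    0)))))))))))))))))))))))))))))))))))))))))))))))))))))))))))) (Nat.add (Nat.add (f x23514)
    (Nat.add (f x23522) (Nat.add (f x23524) (Nat.add (f x23528) (Nat.add (f x23530) (Nat.add
    (f x23532) (Nat.add (f x23536) (Nat.add (f x23538) (Nat.add (f x23546) (Nat.add (f x23548)
    (Nat.add (f x23550) (Nat.add (f x23554) (Nat.add (f x23556) (Nat.add (f x23562) (Nat.add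
    (f x23588) (Nat.add (f x23594) (Nat.add (f x23596) (Nat.add (f x23606) (Nat.add (f x23612)
    (Nat.add (f x23614) (Nat.add (f x23618) (Nat.add (f x23620) (Nat.add (f x23622) (Nat.add
    (f x23630) (Nat.add (f x23632) (Nat.add (f x23636) (Nat.add (f x23638) (Nat.add (f x23640)
    (Nat.add (f x23644) (Nat.add (f x23646) (Nat.add (f x23660) (Nat.add (f x23666) (Nat.add
    (f x23668) (Nat.add (f x23672) (Nat.add (f x23674) (Nat.add (f x23676) (Nat.add (f x23684)
    (Nat.add (f x23686) (Nat.add (f x23690) (Nat.add (f x23692) (Nat.add (f x23694) (Nat.add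
    (f x23698) (Nat.add (f x23700) (Nat.add (f x23708) (Nat.add (f x23710) (Nat.add (f x23712)
    (Nat.add (f x23716) (Nat.add (f x23718) (Nat.add (f x23724) (Nat.add (f x23738) (Nat.add
    (f x23740) (Nat.add (f x23744) (Nat.add (f x23746) (Nat.add (f x23748) (Nat.add (f x23752)
    (Nat.add (f x23754) (Nat.add (f x23762) (Nat.add (f x23764) (Nat.add (f x23766) (Nat.add
    (f x23770) 0)))))))))))))))))))))))))))))))))))))))))))))))))))))))))))) (Nat.add (Nat.add
    (f x23772) (Nat.add (f x23778) (Nat.add (f x23788) (Nat.add (f x23790) (Nat.add (f x23796)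
    (Nat.add (f x23822) (Nat.add (f x23828) (Nat.add (f x23830) (Nat.add (f x23834) (Nat.add
    (f x23836) (Nat.add (f x23838) (Nat.add (f x23846) (Nat.add (f x23848) (Nat.add (f x23852)
    (Nat.add (f x23854) (Nat.add (f x23856) (Nat.add (f x23860) (Nat.add (f x23862) (Nat.add
    (f x23870) (Nat.add (f x23872) (Nat.add (f x23874) (Nat.add (f x23878) (Nat.add (f x23880)
    (Nat.add (f x23886) (Nat.add (f x23900) (Nat.add (f x23902) (Nat.add (f x23906) (Nat.add
    (f x23908) (Nat.add (f x23910) (Nat.add (f x23914) (Nat.add (f x23916) (Nat.add (f x23924)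
    (Nat.add (f x23926) (Nat.add (f x23928) (Nat.add (f x23932) (Nat.add (f x23934) (Nat.add
    (f x23940) (Nat.add (f x23950) (Nat.add (f x23952) (Nat.add (f x23958) (Nat.add (f x23978)
    (Nat.add (f x23980) (Nat.add (f x23982) (Nat.add (f x23986) (Nat.add (f x23988) (Nat.add
    (f x23994) (Nat.add (f x24004) (Nat.add (f x24006) (Nat.add (f x24012) (Nat.add (f x24030)
    (Nat.add (f x24110) (Nat.add (f x24128) (Nat.add (f x24134) (Nat.add (f x24136) (Nat.add
    (f x24164) (Nat.add (f x24182) (Nat.add (f x24188) (Nat.add (f x24190) (Nat.add (f x24200)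
    (Nat.add (f x24206) 0)))))))))))))))))))))))))))))))))))))))))))))))))))))))))))) (Nat.add
    (Nat.add (f x24208) (Nat.add (f x24212) (Nat.add (f x24214) (Nat.add (f x24216) (Nat.add
    (f x24236) (Nat.add (f x24242) (Nat.add (f x24244) (Nat.add (f x24254) (Nat.add (f x24260)
    (Nat.add (f x24262) (Nat.add (f x24266) (Nat.add (f x24268) (Nat.add (f x24270) (Nat.add
    (f x24278) (Nat.add (f x24280) (Nat.add (f x24284) (Nat.add (f x24286) (Nat.add (f x24288)
    (Nat.add (f x24292) (Nat.add (f x24294) (Nat.add (f x24326) (Nat.add (f x24344) (Nat.add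
    (f x24350) (Nat.add (f x24352) (Nat.add (f x24362) (Nat.add (f x24368) (Nat.add (f x24370)
    (Nat.add (f x24374) (Nat.add (f x24376) (Nat.add (f x24378) (Nat.add (f x24398) (Nat.add
    (f x24404) (Nat.add (f x24406) (Nat.add (f x24416) (Nat.add (f x24422) (Nat.add (f x24424)
    (Nat.add (f x24428) (Nat.add (f x24430) (Nat.add (f x24432) (Nat.add (f x24440) (Nat.add
    (f x24442) (Nat.add (f x24446) (Nat.add (f x24448) (Nat.add (f x24450) (Nat.add (f x24454)
    (Nat.add (f x24456) (Nat.add (f x24470) (Nat.add (f x24476) (Nat.add (f x24478) (Nat.add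
    (f x24482) (Nat.add (f x24484) (Nat.add (f x24486) (Nat.add (f x24494) (Nat.add (f x24496)
    (Nat.add (f x24500) (Nat.add (f x24502) (Nat.add (f x24504) (Nat.add (f x24508) (Nat.add
    (f x24510) (Nat.add (f x24518) 0))))))))))))))))))))))))))))))))))))))))))))))))))))))))))))
    (Nat.add (Nat.add (f x24520) (Nat.add (f x24522) (Nat.add (f x24526) (Nat.add (f x24528)
    (Nat.add (f x24534) (Nat.add (f x24560) (Nat.add (f x24566) (Nat.add (f x24568) (Nat.add
    (f x24578) (Nat.add (f x24584) (Nat.add (f x24586) (Nat.add (f x24590) (Nat.add (f x24592)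
    (Nat.add (f x24594) (Nat.add (f x24602) (Nat.add (f x24604) (Nat.add (f x24608) (Nat.add
    (f x24610) (Nat.add (f x24612) (Nat.add (f x24616) (Nat.add (f x24618) (Nat.add (f x24632)
    (Nat.add (f x24638) (Nat.add (f x24640) (Nat.add (f x24644) (Nat.add (f x24646) (Nat.add
    (f x24648) (Nat.add (f x24656) (Nat.add (f x24658) (Nat.add (f x24662) (Nat.add (f x24664)
    (Nat.add (f x24666) (Nat.add (f x24670) (Nat.add (f x24672) (Nat.add (f x24680) (Nat.add
    (f x24682) (Nat.add (f x24684) (Nat.add (f x24688) (Nat.add (f x24690) (Nat.add (f x24696)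
    (Nat.add (f x24710) (Nat.add (f x24712) (Nat.add (f x24716) (Nat.add (f x24718) (Nat.add
    (f x24720) (Nat.add (f x24724) (Nat.add (f x24726) (Nat.add (f x24734) (Nat.add (f x24736)
    (Nat.add (f x24738) (Nat.add (f x24742) (Nat.add (f x24744) (Nat.add (f x24750) (Nat.add
    (f x24760) (Nat.add (f x24762) (Nat.add (f x24768) (Nat.add (f x24812) (Nat.add (f x24830)
    (Nat.add (f x24836) (Nat.add (f x24838)
    0)))))))))))))))))))))))))))))))))))))))))))))))))))))))))))) (Nat.add (Nat.add (f x24848)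
    (Nat.add (f x24854) (Nat.add (f x24856) (Nat.add (f x24860) (Nat.add (f x24862) (Nat.add
    (f x24864) (Nat.add (f x24884) (Nat.add (f x24890) (Nat.add (f x24892) (Nat.add (f x24902)
    (Nat.add (f x24908) (Nat.add (f x24910) (Nat.add (f x24914) (Nat.add (f x24916) (Nat.add
    (f x24918) (Nat.add (f x24926) (Nat.add (f x24928) (Nat.add (f x24932) (Nat.add (f x24934)
    (Nat.add (f x24936) (Nat.add (f x24940) (Nat.add (f x24942) (Nat.add (f x24956) (Nat.add
    (f x24962) (Nat.add (f x24964) (Nat.add (f x24968) (Nat.add (f x24970) (Nat.add (f x24972)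
    (Nat.add (f x24980) (Nat.add (f x24982) (Nat.add (f x24986) (Nat.add (f x24988) (Nat.add
    (f x24990) (Nat.add (f x24994) (Nat.add (f x24996) (Nat.add (f x25004) (Nat.add (f x25006)
    (Nat.add (f x25008) (Nat.add (f x25012) (Nat.add (f x25014) (Nat.add (f x25020) (Nat.add
    (f x25046) (Nat.add (f x25052) (Nat.add (f x25054) (Nat.add (f x25064) (Nat.add (f x25070)
    (Nat.add (f x25072) (Nat.add (f x25076) (Nat.add (f x25078) (Nat.add (f x25080) (Nat.add
    (f x25088) (Nat.add (f x25090) (Nat.add (f x25094) (Nat.add (f x25096) (Nat.add (f x25098)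
    (Nat.add (f x25102) (Nat.add (f x25104) (Nat.add (f x25118) (Nat.add (f x25124) (Nat.add
    (f x25126) 0)))))))))))))))))))))))))))))))))))))))))))))))))))))))))))) (Nat.add (Nat.add
    (f x25130) (Nat.add (f x25132) (Nat.add (f x25134) (Nat.add (f x25142) (Nat.add (f x25144)
    (Nat.add (f x25148) (Nat.add (f x25150) (Nat.add (f x25152) (Nat.add (f x25156) (Nat.add
    (f x25158) (Nat.add (f x25166) (Nat.add (f x25168) (Nat.add (f x25170) (Nat.add (f x25174)
    (Nat.add (f x25176) (Nat.add (f x25182) (Nat.add (f x25196) (Nat.add (f x25198) (Nat.add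
    (f x25202) (Nat.add (f x25204) (Nat.add (f x25206) (Nat.add (f x25210) (Nat.add (f x25212)
    (Nat.add (f x25220) (Nat.add (f x25222) (Nat.add (f x25224) (Nat.add (f x25228) (Nat.add
    (f x25230) (Nat.add (f x25236) (Nat.add (f x25246) (Nat.add (f x25248) (Nat.add (f x25254)
    (Nat.add (f x25280) (Nat.add (f x25286) (Nat.add (f x25288) (Nat.add (f x25292) (Nat.add
    (f x25294) (Nat.add (f x25296) (Nat.add (f x25304) (Nat.add (f x25306) (Nat.add (f x25310)
    (Nat.add (f x25312) (Nat.add (f x25314) (Nat.add (f x25318) (Nat.add (f x25320) (Nat.add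
    (f x25328) (Nat.add (f x25330) (Nat.add (f x25332) (Nat.add (f x25336) (Nat.add (f x25338)
    (Nat.add (f x25344) (Nat.add (f x25358) (Nat.add (f x25360) (Nat.add (f x25364) (Nat.add
    (f x25366) (Nat.add (f x25368) (Nat.add (f x25372) (Nat.add (f x25374) (Nat.add (f x25382)
    (Nat.add (f x25384) 0)))))))))))))))))))))))))))))))))))))))))))))))))))))))))))) (Nat.add
    (Nat.add (f x25386) (Nat.add (f x25390) (Nat.add (f x25392) (Nat.add (f x25398) (Nat.add
    (f x25408) (Nat.add (f x25410) (Nat.add (f x25416) (Nat.add (f x25436) (Nat.add (f x25438)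
    (Nat.add (f x25440) (Nat.add (f x25444) (Nat.add (f x25446) (Nat.add (f x25452) (Nat.add
    (f x25462) (Nat.add (f x25464) (Nat.add (f x25470) (Nat.add (f x25488) (Nat.add (f x25532)
    (Nat.add (f x25538) (Nat.add (f x25540) (Nat.add (f x25550) (Nat.add (f x25556) (Nat.add
    (f x25558) (Nat.add (f x25562) (Nat.add (f x25564) (Nat.add (f x25566) (Nat.add (f x25574)
    (Nat.add (f x25576) (Nat.add (f x25580) (Nat.add (f x25582) (Nat.add (f x25584) (Nat.add
    (f x25588) (Nat.add (f x25590) (Nat.add (f x25604) (Nat.add (f x25610) (Nat.add (f x25612)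
    (Nat.add (f x25616) (Nat.add (f x25618) (Nat.add (f x25620) (Nat.add (f x25628) (Nat.add
    (f x25630) (Nat.add (f x25634) (Nat.add (f x25636) (Nat.add (f x25638) (Nat.add (f x25642)
    (Nat.add (f x25644) (Nat.add (f x25652) (Nat.add (f x25654) (Nat.add (f x25656) (Nat.add
    (f x25660) (Nat.add (f x25662) (Nat.add (f x25668) (Nat.add (f x25682) (Nat.add (f x25684)
    (Nat.add (f x25688) (Nat.add (f x25690) (Nat.add (f x25692) (Nat.add (f x25696) (Nat.add
    (f x25698) (Nat.add (f x25706) 0))))))))))))))))))))))))))))))))))))))))))))))))))))))))))))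
    (Nat.add (Nat.add (f x25708) (Nat.add (f x25710) (Nat.add (f x25714) (Nat.add (f x25716)
    (Nat.add (f x25722) (Nat.add (f x25732) (Nat.add (f x25734) (Nat.add (f x25740) (Nat.add
    (f x25766) (Nat.add (f x25772) (Nat.add (f x25774) (Nat.add (f x25778) (Nat.add (f x25780)
    (Nat.add (f x25782) (Nat.add (f x25790) (Nat.add (f x25792) (Nat.add (f x25796) (Nat.add
    (f x25798) (Nat.add (f x25800) (Nat.add (f x25804) (Nat.add (f x25806) (Nat.add (f x25814)
    (Nat.add (f x25816) (Nat.add (f x25818) (Nat.add (f x25822) (Nat.add (f x25824) (Nat.add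
    (f x25830) (Nat.add (f x25844) (Nat.add (f x25846) (Nat.add (f x25850) (Nat.add (f x25852)
    (Nat.add (f x25854) (Nat.add (f x25858) (Nat.add (f x25860) (Nat.add (f x25868) (Nat.add
    (f x25870) (Nat.add (f x25872) (Nat.add (f x25876) (Nat.add (f x25878) (Nat.add (f x25884)
    (Nat.add (f x25894) (Nat.add (f x25896) (Nat.add (f x25902) (Nat.add (f x25922) (Nat.add
    (f x25924) (Nat.add (f x25926) (Nat.add (f x25930) (Nat.add (f x25932) (Nat.add (f x25938)
    (Nat.add (f x25948) (Nat.add (f x25950) (Nat.add (f x25956) (Nat.add (f x25974) (Nat.add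
    (f x26006) (Nat.add (f x26008) (Nat.add (f x26012) (Nat.add (f x26014) (Nat.add (f x26016)
    (Nat.add (f x26020) (Nat.add (f x26022)
    0)))))))))))))))))))))))))))))))))))))))))))))))))))))))))))) (Nat.add (Nat.add (f x26030)
    (Nat.add (f x26032) (Nat.add (f x26034) (Nat.add (f x26038) (Nat.add (f x26040) (Nat.add
    (f x26046) (Nat.add (f x26056) (Nat.add (f x26058) (Nat.add (f x26064) (Nat.add (f x26084)
    (Nat.add (f x26086) (Nat.add (f x26088) (Nat.add (f x26092) (Nat.add (f x26094) (Nat.add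
    (f x26100) (Nat.add (f x26110) (Nat.add (f x26112) (Nat.add (f x26118) (Nat.add (f x26136)
    (Nat.add (f x26164) (Nat.add (f x26166) (Nat.add (f x26172) (Nat.add (f x26190) (Nat.add
    (f x26324) (Nat.add (f x26378) (Nat.add (f x26396) (Nat.add (f x26402) (Nat.add (f x26404)
    (Nat.add (f x26432) (Nat.add (f x26450) (Nat.add (f x26456) (Nat.add (f x26458) (Nat.add
    (f x26468) (Nat.add (f x26474) (Nat.add (f x26476) (Nat.add (f x26480) (Nat.add (f x26482)
    (Nat.add (f x26484) (Nat.add (f x26540) (Nat.add (f x26558) (Nat.add (f x26564) (Nat.add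
    (f x26566) (Nat.add (f x26594) (Nat.add (f x26612) (Nat.add (f x26618) (Nat.add (f x26620)
    (Nat.add (f x26630) (Nat.add (f x26636) (Nat.add (f x26638) (Nat.add (f x26642) (Nat.add
    (f x26644) (Nat.add (f x26646) (Nat.add (f x26666) (Nat.add (f x26672) (Nat.add (f x26674)
    (Nat.add (f x26684) (Nat.add (f x26690) (Nat.add (f x26692) (Nat.add (f x26696) (Nat.add
    (f x26698) 0)))))))))))))))))))))))))))))))))))))))))))))))))))))))))))) (Nat.add (Nat.add
    (f x26700) (Nat.add (f x26708) (Nat.add (f x26710) (Nat.add (f x26714) (Nat.add (f x26716)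
    (Nat.add (f x26718) (Nat.add (f x26722) (Nat.add (f x26724) (Nat.add (f x26756) (Nat.add
    (f x26774) (Nat.add (f x26780) (Nat.add (f x26782) (Nat.add (f x26792) (Nat.add (f x26798)
    (Nat.add (f x26800) (Nat.add (f x26804) (Nat.add (f x26806) (Nat.add (f x26808) (Nat.add
    (f x26828) (Nat.add (f x26834) (Nat.add (f x26836) (Nat.add (f x26846) (Nat.add (f x26852)
    (Nat.add (f x26854) (Nat.add (f x26858) (Nat.add (f x26860) (Nat.add (f x26862) (Nat.add
    (f x26870) (Nat.add (f x26872) (Nat.add (f x26876) (Nat.add (f x26878) (Nat.add (f x26880)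
    (Nat.add (f x26884) (Nat.add (f x26886) (Nat.add (f x26900) (Nat.add (f x26906) (Nat.add
    (f x26908) (Nat.add (f x26912) (Nat.add (f x26914) (Nat.add (f x26916) (Nat.add (f x26924)
    (Nat.add (f x26926) (Nat.add (f x26930) (Nat.add (f x26932) (Nat.add (f x26934) (Nat.add
    (f x26938) (Nat.add (f x26940) (Nat.add (f x26948) (Nat.add (f x26950) (Nat.add (f x26952)
    (Nat.add (f x26956) (Nat.add (f x26958) (Nat.add (f x26964) (Nat.add (f x27026) (Nat.add
    (f x27044) (Nat.add (f x27050) (Nat.add (f x27052) (Nat.add (f x27080) (Nat.add (f x27098)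
    (Nat.add (f x27104) 0)))))))))))))))))))))))))))))))))))))))))))))))))))))))))))) (Nat.add
    (Nat.add (f x27106) (Nat.add (f x27116) (Nat.add (f x27122) (Nat.add (f x27124) (Nat.add
    (f x27128) (Nat.add (f x27130) (Nat.add (f x27132) (Nat.add (f x27152) (Nat.add (f x27158)
    (Nat.add (f x27160) (Nat.add (f x27170) (Nat.add (f x27176) (Nat.add (f x27178) (Nat.add
    (f x27182) (Nat.add (f x27184) (Nat.add (f x27186) (Nat.add (f x27194) (Nat.add (f x27196)
    (Nat.add (f x27200) (Nat.add (f x27202) (Nat.add (f x27204) (Nat.add (f x27208) (Nat.add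
    (f x27210) (Nat.add (f x27242) (Nat.add (f x27260) (Nat.add (f x27266) (Nat.add (f x27268)
    (Nat.add (f x27278) (Nat.add (f x27284) (Nat.add (f x27286) (Nat.add (f x27290) (Nat.add
    (f x27292) (Nat.add (f x27294) (Nat.add (f x27314) (Nat.add (f x27320) (Nat.add (f x27322)
    (Nat.add (f x27332) (Nat.add (f x27338) (Nat.add (f x27340) (Nat.add (f x27344) (Nat.add
    (f x27346) (Nat.add (f x27348) (Nat.add (f x27356) (Nat.add (f x27358) (Nat.add (f x27362)
    (Nat.add (f x27364) (Nat.add (f x27366) (Nat.add (f x27370) (Nat.add (f x27372) (Nat.add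
    (f x27386) (Nat.add (f x27392) (Nat.add (f x27394) (Nat.add (f x27398) (Nat.add (f x27400)
    (Nat.add (f x27402) (Nat.add (f x27410) (Nat.add (f x27412) (Nat.add (f x27416) (Nat.add
    (f x27418) (Nat.add (f x27420) 0))))))))))))))))))))))))))))))))))))))))))))))))))))))))))))
    (Nat.add (Nat.add (f x27424) (Nat.add (f x27426) (Nat.add (f x27434) (Nat.add (f x27436)
    (Nat.add (f x27438) (Nat.add (f x27442) (Nat.add (f x27444) (Nat.add (f x27450) (Nat.add
    (f x27476) (Nat.add (f x27482) (Nat.add (f x27484) (Nat.add (f x27494) (Nat.add (f x27500)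
    (Nat.add (f x27502) (Nat.add (f x27506) (Nat.add (f x27508) (Nat.add (f x27510) (Nat.add
    (f x27518) (Nat.add (f x27520) (Nat.add (f x27524) (Nat.add (f x27526) (Nat.add (f x27528)
    (Nat.add (f x27532) (Nat.add (f x27534) (Nat.add (f x27548) (Nat.add (f x27554) (Nat.add
    (f x27556) (Nat.add (f x27560) (Nat.add (f x27562) (Nat.add (f x27564) (Nat.add (f x27572)
    (Nat.add (f x27574) (Nat.add (f x27578) (Nat.add (f x27580) (Nat.add (f x27582) (Nat.add
    (f x27586) (Nat.add (f x27588) (Nat.add (f x27596) (Nat.add (f x27598) (Nat.add (f x27600)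
    (Nat.add (f x27604) (Nat.add (f x27606) (Nat.add (f x27612) (Nat.add (f x27626) (Nat.add
    (f x27628) (Nat.add (f x27632) (Nat.add (f x27634) (Nat.add (f x27636) (Nat.add (f x27640)
    (Nat.add (f x27642) (Nat.add (f x27650) (Nat.add (f x27652) (Nat.add (f x27654) (Nat.add
    (f x27658) (Nat.add (f x27660) (Nat.add (f x27666) (Nat.add (f x27676) (Nat.add (f x27678)
    (Nat.add (f x27684) (Nat.add (f x27728)
    0)))))))))))))))))))))))))))))))))))))))))))))))))))))))))))) (Nat.add (Nat.add (f x27746)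
    (Nat.add (f x27752) (Nat.add (f x27754) (Nat.add (f x27764) (Nat.add (f x27770) (Nat.add
    (f x27772) (Nat.add (f x27776) (Nat.add (f x27778) (Nat.add (f x27780) (Nat.add (f x27800)
    (Nat.add (f x27806) (Nat.add (f x27808) (Nat.add (f x27818) (Nat.add (f x27824) (Nat.add
    (f x27826) (Nat.add (f x27830) (Nat.add (f x27832) (Nat.add (f x27834) (Nat.add (f x27842)
    (Nat.add (f x27844) (Nat.add (f x27848) (Nat.add (f x27850) (Nat.add (f x27852) (Nat.add
    (f x27856) (Nat.add (f x27858) (Nat.add (f x27872) (Nat.add (f x27878) (Nat.add (f x27880)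
    (Nat.add (f x27884) (Nat.add (f x27886) (Nat.add (f x27888) (Nat.add (f x27896) (Nat.add
    (f x27898) (Nat.add (f x27902) (Nat.add (f x27904) (Nat.add (f x27906) (Nat.add (f x27910)
    (Nat.add (f x27912) (Nat.add (f x27920) (Nat.add (f x27922) (Nat.add (f x27924) (Nat.add
    (f x27928) (Nat.add (f x27930) (Nat.add (f x27936) (Nat.add (f x27962) (Nat.add (f x27968)
    (Nat.add (f x27970) (Nat.add (f x27980) (Nat.add (f x27986) (Nat.add (f x27988) (Nat.add
    (f x27992) (Nat.add (f x27994) (Nat.add (f x27996) (Nat.add (f x28004) (Nat.add (f x28006)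
    (Nat.add (f x28010) (Nat.add (f x28012) (Nat.add (f x28014) (Nat.add (f x28018) (Nat.add
    (f x28020) 0)))))))))))))))))))))))))))))))))))))))))))))))))))))))))))) (Nat.add (Nat.add
    (f x28034) (Nat.add (f x28040) (Nat.add (f x28042) (Nat.add (f x28046) (Nat.add (f x28048)
    (Nat.add (f x28050) (Nat.add (f x28058) (Nat.add (f x28060) (Nat.add (f x28064) (Nat.add
    (f x28066) (Nat.add (f x28068) (Nat.add (f x28072) (Nat.add (f x28074) (Nat.add (f x28082)
    (Nat.add (f x28084) (Nat.add (f x28086) (Nat.add (f x28090) (Nat.add (f x28092) (Nat.add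
    (f x28098) (Nat.add (f x28112) (Nat.add (f x28114) (Nat.add (f x28118) (Nat.add (f x28120)
    (Nat.add (f x28122) (Nat.add (f x28126) (Nat.add (f x28128) (Nat.add (f x28136) (Nat.add
    (f x28138) (Nat.add (f x28140) (Nat.add (f x28144) (Nat.add (f x28146) (Nat.add (f x28152)
    (Nat.add (f x28162) (Nat.add (f x28164) (Nat.add (f x28170) (Nat.add (f x28196) (Nat.add
    (f x28202) (Nat.add (f x28204) (Nat.add (f x28208) (Nat.add (f x28210) (Nat.add (f x28212)
    (Nat.add (f x28220) (Nat.add (f x28222) (Nat.add (f x28226) (Nat.add (f x28228) (Nat.add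
    (f x28230) (Nat.add (f x28234) (Nat.add (f x28236) (Nat.add (f x28244) (Nat.add (f x28246)
    (Nat.add (f x28248) (Nat.add (f x28252) (Nat.add (f x28254) (Nat.add (f x28260) (Nat.add
    (f x28274) (Nat.add (f x28276) (Nat.add (f x28280) (Nat.add (f x28282) (Nat.add (f x28284)
    (Nat.add (f x28288) 0)))))))))))))))))))))))))))))))))))))))))))))))))))))))))))) (Nat.add
    (Nat.add (f x28290) (Nat.add (f x28298) (Nat.add (f x28300) (Nat.add (f x28302) (Nat.add
    (f x28306) (Nat.add (f x28308) (Nat.add (f x28314) (Nat.add (f x28324) (Nat.add (f x28326)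
    (Nat.add (f x28332) (Nat.add (f x28352) (Nat.add (f x28354) (Nat.add (f x28356) (Nat.add
    (f x28360) (Nat.add (f x28362) (Nat.add (f x28368) (Nat.add (f x28378) (Nat.add (f x28380)
    (Nat.add (f x28386) (Nat.add (f x28404) (Nat.add (f x28484) (Nat.add (f x28502) (Nat.add
    (f x28508) (Nat.add (f x28510) (Nat.add (f x28538) (Nat.add (f x28556) (Nat.add (f x28562)
    (Nat.add (f x28564) (Nat.add (f x28574) (Nat.add (f x28580) (Nat.add (f x28582) (Nat.add
    (f x28586) (Nat.add (f x28588) (Nat.add (f x28590) (Nat.add (f x28610) (Nat.add (f x28616)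
    (Nat.add (f x28618) (Nat.add (f x28628) (Nat.add (f x28634) (Nat.add (f x28636) (Nat.add
    (f x28640) (Nat.add (f x28642) (Nat.add (f x28644) (Nat.add (f x28652) (Nat.add (f x28654)
    (Nat.add (f x28658) (Nat.add (f x28660) (Nat.add (f x28662) (Nat.add (f x28666) (Nat.add
    (f x28668) (Nat.add (f x28700) (Nat.add (f x28718) (Nat.add (f x28724) (Nat.add (f x28726)
    (Nat.add (f x28736) (Nat.add (f x28742) (Nat.add (f x28744) (Nat.add (f x28748) (Nat.add
    (f x28750) (Nat.add (f x28752) 0))))))))))))))))))))))))))))))))))))))))))))))))))))))))))))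
    (Nat.add (Nat.add (f x28772) (Nat.add (f x28778) (Nat.add (f x28780) (Nat.add (f x28790)
    (Nat.add (f x28796) (Nat.add (f x28798) (Nat.add (f x28802) (Nat.add (f x28804) (Nat.add
    (f x28806) (Nat.add (f x28814) (Nat.add (f x28816) (Nat.add (f x28820) (Nat.add (f x28822)
    (Nat.add (f x28824) (Nat.add (f x28828) (Nat.add (f x28830) (Nat.add (f x28844) (Nat.add
    (f x28850) (Nat.add (f x28852) (Nat.add (f x28856) (Nat.add (f x28858) (Nat.add (f x28860)
    (Nat.add (f x28868) (Nat.add (f x28870) (Nat.add (f x28874) (Nat.add (f x28876) (Nat.add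
    (f x28878) (Nat.add (f x28882) (Nat.add (f x28884) (Nat.add (f x28892) (Nat.add (f x28894)
    (Nat.add (f x28896) (Nat.add (f x28900) (Nat.add (f x28902) (Nat.add (f x28908) (Nat.add
    (f x28934) (Nat.add (f x28940) (Nat.add (f x28942) (Nat.add (f x28952) (Nat.add (f x28958)
    (Nat.add (f x28960) (Nat.add (f x28964) (Nat.add (f x28966) (Nat.add (f x28968) (Nat.add
    (f x28976) (Nat.add (f x28978) (Nat.add (f x28982) (Nat.add (f x28984) (Nat.add (f x28986)
    (Nat.add (f x28990) (Nat.add (f x28992) (Nat.add (f x29006) (Nat.add (f x29012) (Nat.add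
    (f x29014) (Nat.add (f x29018) (Nat.add (f x29020) (Nat.add (f x29022) (Nat.add (f x29030)
    (Nat.add (f x29032) (Nat.add (f x29036)
    0)))))))))))))))))))))))))))))))))))))))))))))))))))))))))))) (Nat.add (Nat.add (f x29038)
    (Nat.add (f x29040) (Nat.add (f x29044) (Nat.add (f x29046) (Nat.add (f x29054) (Nat.add
    (f x29056) (Nat.add (f x29058) (Nat.add (f x29062) (Nat.add (f x29064) (Nat.add (f x29070)
    (Nat.add (f x29084) (Nat.add (f x29086) (Nat.add (f x29090) (Nat.add (f x29092) (Nat.add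
    (f x29094) (Nat.add (f x29098) (Nat.add (f x29100) (Nat.add (f x29108) (Nat.add (f x29110)
    (Nat.add (f x29112) (Nat.add (f x29116) (Nat.add (f x29118) (Nat.add (f x29124) (Nat.add
    (f x29134) (Nat.add (f x29136) (Nat.add (f x29142) (Nat.add (f x29186) (Nat.add (f x29204)
    (Nat.add (f x29210) (Nat.add (f x29212) (Nat.add (f x29222) (Nat.add (f x29228) (Nat.add
    (f x29230) (Nat.add (f x29234) (Nat.add (f x29236) (Nat.add (f x29238) (Nat.add (f x29258)
    (Nat.add (f x29264) (Nat.add (f x29266) (Nat.add (f x29276) (Nat.add (f x29282) (Nat.add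
    (f x29284) (Nat.add (f x29288) (Nat.add (f x29290) (Nat.add (f x29292) (Nat.add (f x29300)
    (Nat.add (f x29302) (Nat.add (f x29306) (Nat.add (f x29308) (Nat.add (f x29310) (Nat.add
    (f x29314) (Nat.add (f x29316) (Nat.add (f x29330) (Nat.add (f x29336) (Nat.add (f x29338)
    (Nat.add (f x29342) (Nat.add (f x29344) (Nat.add (f x29346) (Nat.add (f x29354) (Nat.add
    (f x29356) 0)))))))))))))))))))))))))))))))))))))))))))))))))))))))))))) (Nat.add (Nat.add
    (f x29360) (Nat.add (f x29362) (Nat.add (f x29364) (Nat.add (f x29368) (Nat.add (f x29370)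
    (Nat.add (f x29378) (Nat.add (f x29380) (Nat.add (f x29382) (Nat.add (f x29386) (Nat.add
    (f x29388) (Nat.add (f x29394) (Nat.add (f x29420) (Nat.add (f x29426) (Nat.add (f x29428)
    (Nat.add (f x29438) (Nat.add (f x29444) (Nat.add (f x29446) (Nat.add (f x29450) (Nat.add
    (f x29452) (Nat.add (f x29454) (Nat.add (f x29462) (Nat.add (f x29464) (Nat.add (f x29468)
    (Nat.add (f x29470) (Nat.add (f x29472) (Nat.add (f x29476) (Nat.add (f x29478) (Nat.add
    (f x29492) (Nat.add (f x29498) (Nat.add (f x29500) (Nat.add (f x29504) (Nat.add (f x29506)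
    (Nat.add (f x29508) (Nat.add (f x29516) (Nat.add (f x29518) (Nat.add (f x29522) (Nat.add
    (f x29524) (Nat.add (f x29526) (Nat.add (f x29530) (Nat.add (f x29532) (Nat.add (f x29540)
    (Nat.add (f x29542) (Nat.add (f x29544) (Nat.add (f x29548) (Nat.add (f x29550) (Nat.add
    (f x29556) (Nat.add (f x29570) (Nat.add (f x29572) (Nat.add (f x29576) (Nat.add (f x29578)
    (Nat.add (f x29580) (Nat.add (f x29584) (Nat.add (f x29586) (Nat.add (f x29594) (Nat.add
    (f x29596) (Nat.add (f x29598) (Nat.add (f x29602) (Nat.add (f x29604) (Nat.add (f x29610)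
    (Nat.add (f x29620) 0)))))))))))))))))))))))))))))))))))))))))))))))))))))))))))) (Nat.add
    (Nat.add (f x29622) (Nat.add (f x29628) (Nat.add (f x29654) (Nat.add (f x29660) (Nat.add
    (f x29662) (Nat.add (f x29666) (Nat.add (f x29668) (Nat.add (f x29670) (Nat.add (f x29678)
    (Nat.add (f x29680) (Nat.add (f x29684) (Nat.add (f x29686) (Nat.add (f x29688) (Nat.add
    (f x29692) (Nat.add (f x29694) (Nat.add (f x29702) (Nat.add (f x29704) (Nat.add (f x29706)
    (Nat.add (f x29710) (Nat.add (f x29712) (Nat.add (f x29718) (Nat.add (f x29732) (Nat.add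
    (f x29734) (Nat.add (f x29738) (Nat.add (f x29740) (Nat.add (f x29742) (Nat.add (f x29746)
    (Nat.add (f x29748) (Nat.add (f x29756) (Nat.add (f x29758) (Nat.add (f x29760) (Nat.add
    (f x29764) (Nat.add (f x29766) (Nat.add (f x29772) (Nat.add (f x29782) (Nat.add (f x29784)
    (Nat.add (f x29790) (Nat.add (f x29810) (Nat.add (f x29812) (Nat.add (f x29814) (Nat.add
    (f x29818) (Nat.add (f x29820) (Nat.add (f x29826) (Nat.add (f x29836) (Nat.add (f x29838)
    (Nat.add (f x29844) (Nat.add (f x29862) (Nat.add (f x29906) (Nat.add (f x29912) (Nat.add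
    (f x29914) (Nat.add (f x29924) (Nat.add (f x29930) (Nat.add (f x29932) (Nat.add (f x29936)
    (Nat.add (f x29938) (Nat.add (f x29940) (Nat.add (f x29948) (Nat.add (f x29950) (Nat.add
    (f x29954) (Nat.add (f x29956) 0))))))))))))))))))))))))))))))))))))))))))))))))))))))))))))
    (Nat.add (Nat.add (f x29958) (Nat.add (f x29962) (Nat.add (f x29964) (Nat.add (f x29978)
    (Nat.add (f x29984) (Nat.add (f x29986) (Nat.add (f x29990) (Nat.add (f x29992) (Nat.add
    (f x29994) (Nat.add (f x30002) (Nat.add (f x30004) (Nat.add (f x30008) (Nat.add (f x30010)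
    (Nat.add (f x30012) (Nat.add (f x30016) (Nat.add (f x30018) (Nat.add (f x30026) (Nat.add
    (f x30028) (Nat.add (f x30030) (Nat.add (f x30034) (Nat.add (f x30036) (Nat.add (f x30042)
    (Nat.add (f x30056) (Nat.add (f x30058) (Nat.add (f x30062) (Nat.add (f x30064) (Nat.add
    (f x30066) (Nat.add (f x30070) (Nat.add (f x30072) (Nat.add (f x30080) (Nat.add (f x30082)
    (Nat.add (f x30084) (Nat.add (f x30088) (Nat.add (f x30090) (Nat.add (f x30096) (Nat.add
    (f x30106) (Nat.add (f x30108) (Nat.add (f x30114) (Nat.add (f x30140) (Nat.add (f x30146)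
    (Nat.add (f x30148) (Nat.add (f x30152) (Nat.add (f x30154) (Nat.add (f x30156) (Nat.add
    (f x30164) (Nat.add (f x30166) (Nat.add (f x30170) (Nat.add (f x30172) (Nat.add (f x30174)
    (Nat.add (f x30178) (Nat.add (f x30180) (Nat.add (f x30188) (Nat.add (f x30190) (Nat.add
    (f x30192) (Nat.add (f x30196) (Nat.add (f x30198) (Nat.add (f x30204) (Nat.add (f x30218)
    (Nat.add (f x30220) (Nat.add (f x30224)
    0)))))))))))))))))))))))))))))))))))))))))))))))))))))))))))) (Nat.add (Nat.add (f x30226)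
    (Nat.add (f x30228) (Nat.add (f x30232) (Nat.add (f x30234) (Nat.add (f x30242) (Nat.add
    (f x30244) (Nat.add (f x30246) (Nat.add (f x30250) (Nat.add (f x30252) (Nat.add (f x30258)
    (Nat.add (f x30268) (Nat.add (f x30270) (Nat.add (f x30276) (Nat.add (f x30296) (Nat.add
    (f x30298) (Nat.add (f x30300) (Nat.add (f x30304) (Nat.add (f x30306) (Nat.add (f x30312)
    (Nat.add (f x30322) (Nat.add (f x30324) (Nat.add (f x30330) (Nat.add (f x30348) (Nat.add
    (f x30380) (Nat.add (f x30382) (Nat.add (f x30386) (Nat.add (f x30388) (Nat.add (f x30390)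
    (Nat.add (f x30394) (Nat.add (f x30396) (Nat.add (f x30404) (Nat.add (f x30406) (Nat.add
    (f x30408) (Nat.add (f x30412) (Nat.add (f x30414) (Nat.add (f x30420) (Nat.add (f x30430)
    (Nat.add (f x30432) (Nat.add (f x30438) (Nat.add (f x30458) (Nat.add (f x30460) (Nat.add
    (f x30462) (Nat.add (f x30466) (Nat.add (f x30468) (Nat.add (f x30474) (Nat.add (f x30484)
    (Nat.add (f x30486) (Nat.add (f x30492) (Nat.add (f x30510) (Nat.add (f x30538) (Nat.add
    (f x30540) (Nat.add (f x30546) (Nat.add (f x30564) (Nat.add (f x30644) (Nat.add (f x30662)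
    (Nat.add (f x30668) (Nat.add (f x30670) (Nat.add (f x30680) (Nat.add (f x30686) (Nat.add
    (f x30688) 0)))))))))))))))))))))))))))))))))))))))))))))))))))))))))))) (Nat.add (Nat.add
    (f x30692) (Nat.add (f x30694) (Nat.add (f x30696) (Nat.add (f x30716) (Nat.add (f x30722)
    (Nat.add (f x30724) (Nat.add (f x30734) (Nat.add (f x30740) (Nat.add (f x30742) (Nat.add
    (f x30746) (Nat.add (f x30748) (Nat.add (f x30750) (Nat.add (f x30758) (Nat.add (f x30760)
    (Nat.add (f x30764) (Nat.add (f x30766) (Nat.add (f x30768) (Nat.add (f x30772) (Nat.add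
    (f x30774) (Nat.add (f x30788) (Nat.add (f x30794) (Nat.add (f x30796) (Nat.add (f x30800)
    (Nat.add (f x30802) (Nat.add (f x30804) (Nat.add (f x30812) (Nat.add (f x30814) (Nat.add
    (f x30818) (Nat.add (f x30820) (Nat.add (f x30822) (Nat.add (f x30826) (Nat.add (f x30828)
    (Nat.add (f x30836) (Nat.add (f x30838) (Nat.add (f x30840) (Nat.add (f x30844) (Nat.add
    (f x30846) (Nat.add (f x30852) (Nat.add (f x30878) (Nat.add (f x30884) (Nat.add (f x30886)
    (Nat.add (f x30896) (Nat.add (f x30902) (Nat.add (f x30904) (Nat.add (f x30908) (Nat.add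
    (f x30910) (Nat.add (f x30912) (Nat.add (f x30920) (Nat.add (f x30922) (Nat.add (f x30926)
    (Nat.add (f x30928) (Nat.add (f x30930) (Nat.add (f x30934) (Nat.add (f x30936) (Nat.add
    (f x30950) (Nat.add (f x30956) (Nat.add (f x30958) (Nat.add (f x30962) (Nat.add (f x30964)
    (Nat.add (f x30966) 0)))))))))))))))))))))))))))))))))))))))))))))))))))))))))))) (Nat.add
    (Nat.add (f x30974) (Nat.add (f x30976) (Nat.add (f x30980) (Nat.add (f x30982) (Nat.add
    (f x30984) (Nat.add (f x30988) (Nat.add (f x30990) (Nat.add (f x30998) (Nat.add (f x31000)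
    (Nat.add (f x31002) (Nat.add (f x31006) (Nat.add (f x31008) (Nat.add (f x31014) (Nat.add
    (f x31028) (Nat.add (f x31030) (Nat.add (f x31034) (Nat.add (f x31036) (Nat.add (f x31038)
    (Nat.add (f x31042) (Nat.add (f x31044) (Nat.add (f x31052) (Nat.add (f x31054) (Nat.add
    (f x31056) (Nat.add (f x31060) (Nat.add (f x31062) (Nat.add (f x31068) (Nat.add (f x31078)
    (Nat.add (f x31080) (Nat.add (f x31086) (Nat.add (f x31112) (Nat.add (f x31118) (Nat.add
    (f x31120) (Nat.add (f x31124) (Nat.add (f x31126) (Nat.add (f x31128) (Nat.add (f x31136)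
    (Nat.add (f x31138) (Nat.add (f x31142) (Nat.add (f x31144) (Nat.add (f x31146) (Nat.add
    (f x31150) (Nat.add (f x31152) (Nat.add (f x31160) (Nat.add (f x31162) (Nat.add (f x31164)
    (Nat.add (f x31168) (Nat.add (f x31170) (Nat.add (f x31176) (Nat.add (f x31190) (Nat.add
    (f x31192) (Nat.add (f x31196) (Nat.add (f x31198) (Nat.add (f x31200) (Nat.add (f x31204)
    (Nat.add (f x31206) (Nat.add (f x31214) (Nat.add (f x31216) (Nat.add (f x31218) (Nat.add
    (f x31222) (Nat.add (f x31224) 0))))))))))))))))))))))))))))))))))))))))))))))))))))))))))))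
    (Nat.add (Nat.add (f x31230) (Nat.add (f x31240) (Nat.add (f x31242) (Nat.add (f x31248)
    (Nat.add (f x31268) (Nat.add (f x31270) (Nat.add (f x31272) (Nat.add (f x31276) (Nat.add
    (f x31278) (Nat.add (f x31284) (Nat.add (f x31294) (Nat.add (f x31296) (Nat.add (f x31302)
    (Nat.add (f x31320) (Nat.add (f x31364) (Nat.add (f x31370) (Nat.add (f x31372) (Nat.add
    (f x31382) (Nat.add (f x31388) (Nat.add (f x31390) (Nat.add (f x31394) (Nat.add (f x31396)
    (Nat.add (f x31398) (Nat.add (f x31406) (Nat.add (f x31408) (Nat.add (f x31412) (Nat.add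
    (f x31414) (Nat.add (f x31416) (Nat.add (f x31420) (Nat.add (f x31422) (Nat.add (f x31436)
    (Nat.add (f x31442) (Nat.add (f x31444) (Nat.add (f x31448) (Nat.add (f x31450) (Nat.add
    (f x31452) (Nat.add (f x31460) (Nat.add (f x31462) (Nat.add (f x31466) (Nat.add (f x31468)
    (Nat.add (f x31470) (Nat.add (f x31474) (Nat.add (f x31476) (Nat.add (f x31484) (Nat.add
    (f x31486) (Nat.add (f x31488) (Nat.add (f x31492) (Nat.add (f x31494) (Nat.add (f x31500)
    (Nat.add (f x31514) (Nat.add (f x31516) (Nat.add (f x31520) (Nat.add (f x31522) (Nat.add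
    (f x31524) (Nat.add (f x31528) (Nat.add (f x31530) (Nat.add (f x31538) (Nat.add (f x31540)
    (Nat.add (f x31542) (Nat.add (f x31546)
    0)))))))))))))))))))))))))))))))))))))))))))))))))))))))))))) (Nat.add (Nat.add (f x31548)
    (Nat.add (f x31554) (Nat.add (f x31564) (Nat.add (f x31566) (Nat.add (f x31572) (Nat.add
    (f x31598) (Nat.add (f x31604) (Nat.add (f x31606) (Nat.add (f x31610) (Nat.add (f x31612)
    (Nat.add (f x31614) (Nat.add (f x31622) (Nat.add (f x31624) (Nat.add (f x31628) (Nat.add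
    (f x31630) (Nat.add (f x31632) (Nat.add (f x31636) (Nat.add (f x31638) (Nat.add (f x31646)
    (Nat.add (f x31648) (Nat.add (f x31650) (Nat.add (f x31654) (Nat.add (f x31656) (Nat.add
    (f x31662) (Nat.add (f x31676) (Nat.add (f x31678) (Nat.add (f x31682) (Nat.add (f x31684)
    (Nat.add (f x31686) (Nat.add (f x31690) (Nat.add (f x31692) (Nat.add (f x31700) (Nat.add
    (f x31702) (Nat.add (f x31704) (Nat.add (f x31708) (Nat.add (f x31710) (Nat.add (f x31716)
    (Nat.add (f x31726) (Nat.add (f x31728) (Nat.add (f x31734) (Nat.add (f x31754) (Nat.add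
    (f x31756) (Nat.add (f x31758) (Nat.add (f x31762) (Nat.add (f x31764) (Nat.add (f x31770)
    (Nat.add (f x31780) (Nat.add (f x31782) (Nat.add (f x31788) (Nat.add (f x31806) (Nat.add
    (f x31838) (Nat.add (f x31840) (Nat.add (f x31844) (Nat.add (f x31846) (Nat.add (f x31848)
    (Nat.add (f x31852) (Nat.add (f x31854) (Nat.add (f x31862) (Nat.add (f x31864) (Nat.add
    (f x31866) 0)))))))))))))))))))))))))))))))))))))))))))))))))))))))))))) (Nat.add (Nat.add
    (f x31870) (Nat.add (f x31872) (Nat.add (f x31878) (Nat.add (f x31888) (Nat.add (f x31890)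
    (Nat.add (f x31896) (Nat.add (f x31916) (Nat.add (f x31918) (Nat.add (f x31920) (Nat.add
    (f x31924) (Nat.add (f x31926) (Nat.add (f x31932) (Nat.add (f x31942) (Nat.add (f x31944)
    (Nat.add (f x31950) (Nat.add (f x31968) (Nat.add (f x31996) (Nat.add (f x31998) (Nat.add
    (f x32004) (Nat.add (f x32022) (Nat.add (f x32084) (Nat.add (f x32090) (Nat.add (f x32092)
    (Nat.add (f x32096) (Nat.add (f x32098) (Nat.add (f x32100) (Nat.add (f x32108) (Nat.add
    (f x32110) (Nat.add (f x32114) (Nat.add (f x32116) (Nat.add (f x32118) (Nat.add (f x32122)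
    (Nat.add (f x32124) (Nat.add (f x32132) (Nat.add (f x32134) (Nat.add (f x32136) (Nat.add
    (f x32140) (Nat.add (f x32142) (Nat.add (f x32148) (Nat.add (f x32162) (Nat.add (f x32164)
    (Nat.add (f x32168) (Nat.add (f x32170) (Nat.add (f x32172) (Nat.add (f x32176) (Nat.add
    (f x32178) (Nat.add (f x32186) (Nat.add (f x32188) (Nat.add (f x32190) (Nat.add (f x32194)
    (Nat.add (f x32196) (Nat.add (f x32202) (Nat.add (f x32212) (Nat.add (f x32214) (Nat.add
    (f x32220) (Nat.add (f x32240) (Nat.add (f x32242) (Nat.add (f x32244) (Nat.add (f x32248)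
    (Nat.add (f x32250) 0)))))))))))))))))))))))))))))))))))))))))))))))))))))))))))) (Nat.add
    (Nat.add (f x32256) (Nat.add (f x32266) (Nat.add (f x32268) (Nat.add (f x32274) (Nat.add
    (f x32292) (Nat.add (f x32324) (Nat.add (f x32326) (Nat.add (f x32330) (Nat.add (f x32332)
    (Nat.add (f x32334) (Nat.add (f x32338) (Nat.add (f x32340) (Nat.add (f x32348) (Nat.add
    (f x32350) (Nat.add (f x32352) (Nat.add (f x32356) (Nat.add (f x32358) (Nat.add (f x32364)
    (Nat.add (f x32374) (Nat.add (f x32376) (Nat.add (f x32382) (Nat.add (f x32402) (Nat.add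
    (f x32404) (Nat.add (f x32406) (Nat.add (f x32410) (Nat.add (f x32412) (Nat.add (f x32418)
    (Nat.add (f x32428) (Nat.add (f x32430) (Nat.add (f x32436) (Nat.add (f x32454) (Nat.add
    (f x32482) (Nat.add (f x32484) (Nat.add (f x32490) (Nat.add (f x32508) (Nat.add (f x32564)
    (Nat.add (f x32566) (Nat.add (f x32568) (Nat.add (f x32572) (Nat.add (f x32574) (Nat.add
    (f x32580) (Nat.add (f x32590) (Nat.add (f x32592) (Nat.add (f x32598) (Nat.add (f x32616)
    (Nat.add (f x32644) (Nat.add (f x32646) (Nat.add (f x32652) (Nat.add (f x32670) (Nat.add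
    (f x32724) (Nat.add (f x32858) (Nat.add (f x32876) (Nat.add (f x32882) (Nat.add (f x32884)
    (Nat.add (f x32912) (Nat.add (f x32930) (Nat.add (f x32936) (Nat.add (f x32938) (Nat.add
    (f x32948) (Nat.add (f x32954) 0))))))))))))))))))))))))))))))))))))))))))))))))))))))))))))
    (Nat.add (Nat.add (f x32956) (Nat.add (f x32960) (Nat.add (f x32962) (Nat.add (f x32964)
    (Nat.add (f x32984) (Nat.add (f x32990) (Nat.add (f x32992) (Nat.add (f x33002) (Nat.add
    (f x33008) (Nat.add (f x33010) (Nat.add (f x33014) (Nat.add (f x33016) (Nat.add (f x33018)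
    (Nat.add (f x33026) (Nat.add (f x33028) (Nat.add (f x33032) (Nat.add (f x33034) (Nat.add
    (f x33036) (Nat.add (f x33040) (Nat.add (f x33042) (Nat.add (f x33074) (Nat.add (f x33092)
    (Nat.add (f x33098) (Nat.add (f x33100) (Nat.add (f x33110) (Nat.add (f x33116) (Nat.add
    (f x33118) (Nat.add (f x33122) (Nat.add (f x33124) (Nat.add (f x33126) (Nat.add (f x33146)
    (Nat.add (f x33152) (Nat.add (f x33154) (Nat.add (f x33164) (Nat.add (f x33170) (Nat.add
    (f x33172) (Nat.add (f x33176) (Nat.add (f x33178) (Nat.add (f x33180) (Nat.add (f x33188)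
    (Nat.add (f x33190) (Nat.add (f x33194) (Nat.add (f x33196) (Nat.add (f x33198) (Nat.add
    (f x33202) (Nat.add (f x33204) (Nat.add (f x33218) (Nat.add (f x33224) (Nat.add (f x33226)
    (Nat.add (f x33230) (Nat.add (f x33232) (Nat.add (f x33234) (Nat.add (f x33242) (Nat.add
    (f x33244) (Nat.add (f x33248) (Nat.add (f x33250) (Nat.add (f x33252) (Nat.add (f x33256)
    (Nat.add (f x33258) (Nat.add (f x33266)
    0)))))))))))))))))))))))))))))))))))))))))))))))))))))))))))) (Nat.add (Nat.add (f x33268)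
    (Nat.add (f x33270) (Nat.add (f x33274) (Nat.add (f x33276) (Nat.add (f x33282) (Nat.add
    (f x33308) (Nat.add (f x33314) (Nat.add (f x33316) (Nat.add (f x33326) (Nat.add (f x33332)
    (Nat.add (f x33334) (Nat.add (f x33338) (Nat.add (f x33340) (Nat.add (f x33342) (Nat.add
    (f x33350) (Nat.add (f x33352) (Nat.add (f x33356) (Nat.add (f x33358) (Nat.add (f x33360)
    (Nat.add (f x33364) (Nat.add (f x33366) (Nat.add (f x33380) (Nat.add (f x33386) (Nat.add
    (f x33388) (Nat.add (f x33392) (Nat.add (f x33394) (Nat.add (f x33396) (Nat.add (f x33404)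
    (Nat.add (f x33406) (Nat.add (f x33410) (Nat.add (f x33412) (Nat.add (f x33414) (Nat.add
    (f x33418) (Nat.add (f x33420) (Nat.add (f x33428) (Nat.add (f x33430) (Nat.add (f x33432)
    (Nat.add (f x33436) (Nat.add (f x33438) (Nat.add (f x33444) (Nat.add (f x33458) (Nat.add
    (f x33460) (Nat.add (f x33464) (Nat.add (f x33466) (Nat.add (f x33468) (Nat.add (f x33472)
    (Nat.add (f x33474) (Nat.add (f x33482) (Nat.add (f x33484) (Nat.add (f x33486) (Nat.add
    (f x33490) (Nat.add (f x33492) (Nat.add (f x33498) (Nat.add (f x33508) (Nat.add (f x33510)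
    (Nat.add (f x33516) (Nat.add (f x33560) (Nat.add (f x33578) (Nat.add (f x33584) (Nat.add
    (f x33586) 0)))))))))))))))))))))))))))))))))))))))))))))))))))))))))))) (Nat.add (Nat.add
    (f x33596) (Nat.add (f x33602) (Nat.add (f x33604) (Nat.add (f x33608) (Nat.add (f x33610)
    (Nat.add (f x33612) (Nat.add (f x33632) (Nat.add (f x33638) (Nat.add (f x33640) (Nat.add
    (f x33650) (Nat.add (f x33656) (Nat.add (f x33658) (Nat.add (f x33662) (Nat.add (f x33664)
    (Nat.add (f x33666) (Nat.add (f x33674) (Nat.add (f x33676) (Nat.add (f x33680) (Nat.add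
    (f x33682) (Nat.add (f x33684) (Nat.add (f x33688) (Nat.add (f x33690) (Nat.add (f x33704)
    (Nat.add (f x33710) (Nat.add (f x33712) (Nat.add (f x33716) (Nat.add (f x33718) (Nat.add
    (f x33720) (Nat.add (f x33728) (Nat.add (f x33730) (Nat.add (f x33734) (Nat.add (f x33736)
    (Nat.add (f x33738) (Nat.add (f x33742) (Nat.add (f x33744) (Nat.add (f x33752) (Nat.add
    (f x33754) (Nat.add (f x33756) (Nat.add (f x33760) (Nat.add (f x33762) (Nat.add (f x33768)
    (Nat.add (f x33794) (Nat.add (f x33800) (Nat.add (f x33802) (Nat.add (f x33812) (Nat.add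
    (f x33818) (Nat.add (f x33820) (Nat.add (f x33824) (Nat.add (f x33826) (Nat.add (f x33828)
    (Nat.add (f x33836) (Nat.add (f x33838) (Nat.add (f x33842) (Nat.add (f x33844) (Nat.add
    (f x33846) (Nat.add (f x33850) (Nat.add (f x33852) (Nat.add (f x33866) (Nat.add (f x33872)
    (Nat.add (f x33874) 0)))))))))))))))))))))))))))))))))))))))))))))))))))))))))))) (Nat.add
    (Nat.add (f x33878) (Nat.add (f x33880) (Nat.add (f x33882) (Nat.add (f x33890) (Nat.add
    (f x33892) (Nat.add (f x33896) (Nat.add (f x33898) (Nat.add (f x33900) (Nat.add (f x33904)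
    (Nat.add (f x33906) (Nat.add (f x33914) (Nat.add (f x33916) (Nat.add (f x33918) (Nat.add
    (f x33922) (Nat.add (f x33924) (Nat.add (f x33930) (Nat.add (f x33944) (Nat.add (f x33946)
    (Nat.add (f x33950) (Nat.add (f x33952) (Nat.add (f x33954) (Nat.add (f x33958) (Nat.add
    (f x33960) (Nat.add (f x33968) (Nat.add (f x33970) (Nat.add (f x33972) (Nat.add (f x33976)
    (Nat.add (f x33978) (Nat.add (f x33984) (Nat.add (f x33994) (Nat.add (f x33996) (Nat.add
    (f x34002) (Nat.add (f x34028) (Nat.add (f x34034) (Nat.add (f x34036) (Nat.add (f x34040)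
    (Nat.add (f x34042) (Nat.add (f x34044) (Nat.add (f x34052) (Nat.add (f x34054) (Nat.add
    (f x34058) (Nat.add (f x34060) (Nat.add (f x34062) (Nat.add (f x34066) (Nat.add (f x34068)
    (Nat.add (f x34076) (Nat.add (f x34078) (Nat.add (f x34080) (Nat.add (f x34084) (Nat.add
    (f x34086) (Nat.add (f x34092) (Nat.add (f x34106) (Nat.add (f x34108) (Nat.add (f x34112)
    (Nat.add (f x34114) (Nat.add (f x34116) (Nat.add (f x34120) (Nat.add (f x34122) (Nat.add
    (f x34130) (Nat.add (f x34132) 0))))))))))))))))))))))))))))))))))))))))))))))))))))))))))))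
    (Nat.add (Nat.add (f x34134) (Nat.add (f x34138) (Nat.add (f x34140) (Nat.add (f x34146)
    (Nat.add (f x34156) (Nat.add (f x34158) (Nat.add (f x34164) (Nat.add (f x34184) (Nat.add
    (f x34186) (Nat.add (f x34188) (Nat.add (f x34192) (Nat.add (f x34194) (Nat.add (f x34200)
    (Nat.add (f x34210) (Nat.add (f x34212) (Nat.add (f x34218) (Nat.add (f x34236) (Nat.add
    (f x34280) (Nat.add (f x34286) (Nat.add (f x34288) (Nat.add (f x34298) (Nat.add (f x34304)
    (Nat.add (f x34306) (Nat.add (f x34310) (Nat.add (f x34312) (Nat.add (f x34314) (Nat.add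
    (f x34322) (Nat.add (f x34324) (Nat.add (f x34328) (Nat.add (f x34330) (Nat.add (f x34332)
    (Nat.add (f x34336) (Nat.add (f x34338) (Nat.add (f x34352) (Nat.add (f x34358) (Nat.add
    (f x34360) (Nat.add (f x34364) (Nat.add (f x34366) (Nat.add (f x34368) (Nat.add (f x34376)
    (Nat.add (f x34378) (Nat.add (f x34382) (Nat.add (f x34384) (Nat.add (f x34386) (Nat.add
    (f x34390) (Nat.add (f x34392) (Nat.add (f x34400) (Nat.add (f x34402) (Nat.add (f x34404)
    (Nat.add (f x34408) (Nat.add (f x34410) (Nat.add (f x34416) (Nat.add (f x34430) (Nat.add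
    (f x34432) (Nat.add (f x34436) (Nat.add (f x34438) (Nat.add (f x34440) (Nat.add (f x34444)
    (Nat.add (f x34446) (Nat.add (f x34454)
    0)))))))))))))))))))))))))))))))))))))))))))))))))))))))))))) (Nat.add (Nat.add (f x34456)
    (Nat.add (f x34458) (Nat.add (f x34462) (Nat.add (f x34464) (Nat.add (f x34470) (Nat.add
    (f x34480) (Nat.add (f x34482) (Nat.add (f x34488) (Nat.add (f x34514) (Nat.add (f x34520)
    (Nat.add (f x34522) (Nat.add (f x34526) (Nat.add (f x34528) (Nat.add (f x34530) (Nat.add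
    (f x34538) (Nat.add (f x34540) (Nat.add (f x34544) (Nat.add (f x34546) (Nat.add (f x34548)
    (Nat.add (f x34552) (Nat.add (f x34554) (Nat.add (f x34562) (Nat.add (f x34564) (Nat.add
    (f x34566) (Nat.add (f x34570) (Nat.add (f x34572) (Nat.add (f x34578) (Nat.add (f x34592)
    (Nat.add (f x34594) (Nat.add (f x34598) (Nat.add (f x34600) (Nat.add (f x34602) (Nat.add
    (f x34606) (Nat.add (f x34608) (Nat.add (f x34616) (Nat.add (f x34618) (Nat.add (f x34620)
    (Nat.add (f x34624) (Nat.add (f x34626) (Nat.add (f x34632) (Nat.add (f x34642) (Nat.add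
    (f x34644) (Nat.add (f x34650) (Nat.add (f x34670) (Nat.add (f x34672) (Nat.add (f x34674)
    (Nat.add (f x34678) (Nat.add (f x34680) (Nat.add (f x34686) (Nat.add (f x34696) (Nat.add
    (f x34698) (Nat.add (f x34704) (Nat.add (f x34722) (Nat.add (f x34754) (Nat.add (f x34756)
    (Nat.add (f x34760) (Nat.add (f x34762) (Nat.add (f x34764) (Nat.add (f x34768) (Nat.add
    (f x34770) 0)))))))))))))))))))))))))))))))))))))))))))))))))))))))))))) (Nat.add (Nat.add
    (f x34778) (Nat.add (f x34780) (Nat.add (f x34782) (Nat.add (f x34786) (Nat.add (f x34788)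
    (Nat.add (f x34794) (Nat.add (f x34804) (Nat.add (f x34806) (Nat.add (f x34812) (Nat.add
    (f x34832) (Nat.add (f x34834) (Nat.add (f x34836) (Nat.add (f x34840) (Nat.add (f x34842)
    (Nat.add (f x34848) (Nat.add (f x34858) (Nat.add (f x34860) (Nat.add (f x34866) (Nat.add
    (f x34884) (Nat.add (f x34912) (Nat.add (f x34914) (Nat.add (f x34920) (Nat.add (f x34938)
    (Nat.add (f x35018) (Nat.add (f x35036) (Nat.add (f x35042) (Nat.add (f x35044) (Nat.add
    (f x35054) (Nat.add (f x35060) (Nat.add (f x35062) (Nat.add (f x35066) (Nat.add (f x35068)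
    (Nat.add (f x35070) (Nat.add (f x35090) (Nat.add (f x35096) (Nat.add (f x35098) (Nat.add
    (f x35108) (Nat.add (f x35114) (Nat.add (f x35116) (Nat.add (f x35120) (Nat.add (f x35122)
    (Nat.add (f x35124) (Nat.add (f x35132) (Nat.add (f x35134) (Nat.add (f x35138) (Nat.add
    (f x35140) (Nat.add (f x35142) (Nat.add (f x35146) (Nat.add (f x35148) (Nat.add (f x35162)
    (Nat.add (f x35168) (Nat.add (f x35170) (Nat.add (f x35174) (Nat.add (f x35176) (Nat.add
    (f x35178) (Nat.add (f x35186) (Nat.add (f x35188) (Nat.add (f x35192) (Nat.add (f x35194)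
    (Nat.add (f x35196) 0)))))))))))))))))))))))))))))))))))))))))))))))))))))))))))) (Nat.add
    (Nat.add (f x35200) (Nat.add (f x35202) (Nat.add (f x35210) (Nat.add (f x35212) (Nat.add
    (f x35214) (Nat.add (f x35218) (Nat.add (f x35220) (Nat.add (f x35226) (Nat.add (f x35252)
    (Nat.add (f x35258) (Nat.add (f x35260) (Nat.add (f x35270) (Nat.add (f x35276) (Nat.add
    (f x35278) (Nat.add (f x35282) (Nat.add (f x35284) (Nat.add (f x35286) (Nat.add (f x35294)
    (Nat.add (f x35296) (Nat.add (f x35300) (Nat.add (f x35302) (Nat.add (f x35304) (Nat.add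
    (f x35308) (Nat.add (f x35310) (Nat.add (f x35324) (Nat.add (f x35330) (Nat.add (f x35332)
    (Nat.add (f x35336) (Nat.add (f x35338) (Nat.add (f x35340) (Nat.add (f x35348) (Nat.add
    (f x35350) (Nat.add (f x35354) (Nat.add (f x35356) (Nat.add (f x35358) (Nat.add (f x35362)
    (Nat.add (f x35364) (Nat.add (f x35372) (Nat.add (f x35374) (Nat.add (f x35376) (Nat.add
    (f x35380) (Nat.add (f x35382) (Nat.add (f x35388) (Nat.add (f x35402) (Nat.add (f x35404)
    (Nat.add (f x35408) (Nat.add (f x35410) (Nat.add (f x35412) (Nat.add (f x35416) (Nat.add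
    (f x35418) (Nat.add (f x35426) (Nat.add (f x35428) (Nat.add (f x35430) (Nat.add (f x35434)
    (Nat.add (f x35436) (Nat.add (f x35442) (Nat.add (f x35452) (Nat.add (f x35454) (Nat.add
    (f x35460) (Nat.add (f x35486) 0))))))))))))))))))))))))))))))))))))))))))))))))))))))))))))
    (Nat.add (Nat.add (f x35492) (Nat.add (f x35494) (Nat.add (f x35498) (Nat.add (f x35500)
    (Nat.add (f x35502) (Nat.add (f x35510) (Nat.add (f x35512) (Nat.add (f x35516) (Nat.add
    (f x35518) (Nat.add (f x35520) (Nat.add (f x35524) (Nat.add (f x35526) (Nat.add (f x35534)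
    (Nat.add (f x35536) (Nat.add (f x35538) (Nat.add (f x35542) (Nat.add (f x35544) (Nat.add
    (f x35550) (Nat.add (f x35564) (Nat.add (f x35566) (Nat.add (f x35570) (Nat.add (f x35572)
    (Nat.add (f x35574) (Nat.add (f x35578) (Nat.add (f x35580) (Nat.add (f x35588) (Nat.add
    (f x35590) (Nat.add (f x35592) (Nat.add (f x35596) (Nat.add (f x35598) (Nat.add (f x35604)
    (Nat.add (f x35614) (Nat.add (f x35616) (Nat.add (f x35622) (Nat.add (f x35642) (Nat.add
    (f x35644) (Nat.add (f x35646) (Nat.add (f x35650) (Nat.add (f x35652) (Nat.add (f x35658)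
    (Nat.add (f x35668) (Nat.add (f x35670) (Nat.add (f x35676) (Nat.add (f x35694) (Nat.add
    (f x35738) (Nat.add (f x35744) (Nat.add (f x35746) (Nat.add (f x35756) (Nat.add (f x35762)
    (Nat.add (f x35764) (Nat.add (f x35768) (Nat.add (f x35770) (Nat.add (f x35772) (Nat.add
    (f x35780) (Nat.add (f x35782) (Nat.add (f x35786) (Nat.add (f x35788) (Nat.add (f x35790)
    (Nat.add (f x35794) (Nat.add (f x35796)
    0)))))))))))))))))))))))))))))))))))))))))))))))))))))))))))) (Nat.add (Nat.add (f x35810)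
    (Nat.add (f x35816) (Nat.add (f x35818) (Nat.add (f x35822) (Nat.add (f x35824) (Nat.add
    (f x35826) (Nat.add (f x35834) (Nat.add (f x35836) (Nat.add (f x35840) (Nat.add (f x35842)
    (Nat.add (f x35844) (Nat.add (f x35848) (Nat.add (f x35850) (Nat.add (f x35858) (Nat.add
    (f x35860) (Nat.add (f x35862) (Nat.add (f x35866) (Nat.add (f x35868) (Nat.add (f x35874)
    (Nat.add (f x35888) (Nat.add (f x35890) (Nat.add (f x35894) (Nat.add (f x35896) (Nat.add
    (f x35898) (Nat.add (f x35902) (Nat.add (f x35904) (Nat.add (f x35912) (Nat.add (f x35914)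
    (Nat.add (f x35916) (Nat.add (f x35920) (Nat.add (f x35922) (Nat.add (f x35928) (Nat.add
    (f x35938) (Nat.add (f x35940) (Nat.add (f x35946) (Nat.add (f x35972) (Nat.add (f x35978)
    (Nat.add (f x35980) (Nat.add (f x35984) (Nat.add (f x35986) (Nat.add (f x35988) (Nat.add
    (f x35996) (Nat.add (f x35998) (Nat.add (f x36002) (Nat.add (f x36004) (Nat.add (f x36006)
    (Nat.add (f x36010) (Nat.add (f x36012) (Nat.add (f x36020) (Nat.add (f x36022) (Nat.add
    (f x36024) (Nat.add (f x36028) (Nat.add (f x36030) (Nat.add (f x36036) (Nat.add (f x36050)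
    (Nat.add (f x36052) (Nat.add (f x36056) (Nat.add (f x36058) (Nat.add (f x36060) (Nat.add
    (f x36064) 0)))))))))))))))))))))))))))))))))))))))))))))))))))))))))))) (Nat.add (Nat.add
    (f x36066) (Nat.add (f x36074) (Nat.add (f x36076) (Nat.add (f x36078) (Nat.add (f x36082)
    (Nat.add (f x36084) (Nat.add (f x36090) (Nat.add (f x36100) (Nat.add (f x36102) (Nat.add
    (f x36108) (Nat.add (f x36128) (Nat.add (f x36130) (Nat.add (f x36132) (Nat.add (f x36136)
    (Nat.add (f x36138) (Nat.add (f x36144) (Nat.add (f x36154) (Nat.add (f x36156) (Nat.add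
    (f x36162) (Nat.add (f x36180) (Nat.add (f x36212) (Nat.add (f x36214) (Nat.add (f x36218)
    (Nat.add (f x36220) (Nat.add (f x36222) (Nat.add (f x36226) (Nat.add (f x36228) (Nat.add
    (f x36236) (Nat.add (f x36238) (Nat.add (f x36240) (Nat.add (f x36244) (Nat.add (f x36246)
    (Nat.add (f x36252) (Nat.add (f x36262) (Nat.add (f x36264) (Nat.add (f x36270) (Nat.add
    (f x36290) (Nat.add (f x36292) (Nat.add (f x36294) (Nat.add (f x36298) (Nat.add (f x36300)
    (Nat.add (f x36306) (Nat.add (f x36316) (Nat.add (f x36318) (Nat.add (f x36324) (Nat.add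
    (f x36342) (Nat.add (f x36370) (Nat.add (f x36372) (Nat.add (f x36378) (Nat.add (f x36396)
    (Nat.add (f x36458) (Nat.add (f x36464) (Nat.add (f x36466) (Nat.add (f x36470) (Nat.add
    (f x36472) (Nat.add (f x36474) (Nat.add (f x36482) (Nat.add (f x36484) (Nat.add (f x36488)
    (Nat.add (f x36490) 0)))))))))))))))))))))))))))))))))))))))))))))))))))))))))))) (Nat.add
    (Nat.add (f x36492) (Nat.add (f x36496) (Nat.add (f x36498) (Nat.add (f x36506) (Nat.add
    (f x36508) (Nat.add (f x36510) (Nat.add (f x36514) (Nat.add (f x36516) (Nat.add (f x36522)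
    (Nat.add (f x36536) (Nat.add (f x36538) (Nat.add (f x36542) (Nat.add (f x36544) (Nat.add
    (f x36546) (Nat.add (f x36550) (Nat.add (f x36552) (Nat.add (f x36560) (Nat.add (f x36562)
    (Nat.add (f x36564) (Nat.add (f x36568) (Nat.add (f x36570) (Nat.add (f x36576) (Nat.add
    (f x36586) (Nat.add (f x36588) (Nat.add (f x36594) (Nat.add (f x36614) (Nat.add (f x36616)
    (Nat.add (f x36618) (Nat.add (f x36622) (Nat.add (f x36624) (Nat.add (f x36630) (Nat.add
    (f x36640) (Nat.add (f x36642) (Nat.add (f x36648) (Nat.add (f x36666) (Nat.add (f x36698)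
    (Nat.add (f x36700) (Nat.add (f x36704) (Nat.add (f x36706) (Nat.add (f x36708) (Nat.add
    (f x36712) (Nat.add (f x36714) (Nat.add (f x36722) (Nat.add (f x36724) (Nat.add (f x36726)
    (Nat.add (f x36730) (Nat.add (f x36732) (Nat.add (f x36738) (Nat.add (f x36748) (Nat.add
    (f x36750) (Nat.add (f x36756) (Nat.add (f x36776) (Nat.add (f x36778) (Nat.add (f x36780)
    (Nat.add (f x36784) (Nat.add (f x36786) (Nat.add (f x36792) (Nat.add (f x36802) (Nat.add
    (f x36804) (Nat.add (f x36810) 0))))))))))))))))))))))))))))))))))))))))))))))))))))))))))))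
    (Nat.add (Nat.add (f x36828) (Nat.add (f x36856) (Nat.add (f x36858) (Nat.add (f x36864)
    (Nat.add (f x36882) (Nat.add (f x36938) (Nat.add (f x36940) (Nat.add (f x36942) (Nat.add
    (f x36946) (Nat.add (f x36948) (Nat.add (f x36954) (Nat.add (f x36964) (Nat.add (f x36966)
    (Nat.add (f x36972) (Nat.add (f x36990) (Nat.add (f x37018) (Nat.add (f x37020) (Nat.add
    (f x37026) (Nat.add (f x37044) (Nat.add (f x37098) (Nat.add (f x37196) (Nat.add (f x37202)
    (Nat.add (f x37204) (Nat.add (f x37214) (Nat.add (f x37220) (Nat.add (f x37222) (Nat.add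
    (f x37226) (Nat.add (f x37228) (Nat.add (f x37230) (Nat.add (f x37238) (Nat.add (f x37240)
    (Nat.add (f x37244) (Nat.add (f x37246) (Nat.add (f x37248) (Nat.add (f x37252) (Nat.add
    (f x37254) (Nat.add (f x37268) (Nat.add (f x37274) (Nat.add (f x37276) (Nat.add (f x37280)
    (Nat.add (f x37282) (Nat.add (f x37284) (Nat.add (f x37292) (Nat.add (f x37294) (Nat.add
    (f x37298) (Nat.add (f x37300) (Nat.add (f x37302) (Nat.add (f x37306) (Nat.add (f x37308)
    (Nat.add (f x37316) (Nat.add (f x37318) (Nat.add (f x37320) (Nat.add (f x37324) (Nat.add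
    (f x37326) (Nat.add (f x37332) (Nat.add (f x37346) (Nat.add (f x37348) (Nat.add (f x37352)
    (Nat.add (f x37354) (Nat.add (f x37356)
    0)))))))))))))))))))))))))))))))))))))))))))))))))))))))))))) (Nat.add (Nat.add (f x37360)
    (Nat.add (f x37362) (Nat.add (f x37370) (Nat.add (f x37372) (Nat.add (f x37374) (Nat.add
    (f x37378) (Nat.add (f x37380) (Nat.add (f x37386) (Nat.add (f x37396) (Nat.add (f x37398)
    (Nat.add (f x37404) (Nat.add (f x37430) (Nat.add (f x37436) (Nat.add (f x37438) (Nat.add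
    (f x37442) (Nat.add (f x37444) (Nat.add (f x37446) (Nat.add (f x37454) (Nat.add (f x37456)
    (Nat.add (f x37460) (Nat.add (f x37462) (Nat.add (f x37464) (Nat.add (f x37468) (Nat.add
    (f x37470) (Nat.add (f x37478) (Nat.add (f x37480) (Nat.add (f x37482) (Nat.add (f x37486)
    (Nat.add (f x37488) (Nat.add (f x37494) (Nat.add (f x37508) (Nat.add (f x37510) (Nat.add
    (f x37514) (Nat.add (f x37516) (Nat.add (f x37518) (Nat.add (f x37522) (Nat.add (f x37524)
    (Nat.add (f x37532) (Nat.add (f x37534) (Nat.add (f x37536) (Nat.add (f x37540) (Nat.add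
    (f x37542) (Nat.add (f x37548) (Nat.add (f x37558) (Nat.add (f x37560) (Nat.add (f x37566)
    (Nat.add (f x37586) (Nat.add (f x37588) (Nat.add (f x37590) (Nat.add (f x37594) (Nat.add
    (f x37596) (Nat.add (f x37602) (Nat.add (f x37612) (Nat.add (f x37614) (Nat.add (f x37620)
    (Nat.add (f x37638) (Nat.add (f x37670) (Nat.add (f x37672) (Nat.add (f x37676) (Nat.add
    (f x37678) 0)))))))))))))))))))))))))))))))))))))))))))))))))))))))))))) (Nat.add (Nat.add
    (f x37680) (Nat.add (f x37684) (Nat.add (f x37686) (Nat.add (f x37694) (Nat.add (f x37696)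
    (Nat.add (f x37698) (Nat.add (f x37702) (Nat.add (f x37704) (Nat.add (f x37710) (Nat.add
    (f x37720) (Nat.add (f x37722) (Nat.add (f x37728) (Nat.add (f x37748) (Nat.add (f x37750)
    (Nat.add (f x37752) (Nat.add (f x37756) (Nat.add (f x37758) (Nat.add (f x37764) (Nat.add
    (f x37774) (Nat.add (f x37776) (Nat.add (f x37782) (Nat.add (f x37800) (Nat.add (f x37828)
    (Nat.add (f x37830) (Nat.add (f x37836) (Nat.add (f x37854) (Nat.add (f x37916) (Nat.add
    (f x37922) (Nat.add (f x37924) (Nat.add (f x37928) (Nat.add (f x37930) (Nat.add (f x37932)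
    (Nat.add (f x37940) (Nat.add (f x37942) (Nat.add (f x37946) (Nat.add (f x37948) (Nat.add
    (f x37950) (Nat.add (f x37954) (Nat.add (f x37956) (Nat.add (f x37964) (Nat.add (f x37966)
    (Nat.add (f x37968) (Nat.add (f x37972) (Nat.add (f x37974) (Nat.add (f x37980) (Nat.add
    (f x37994) (Nat.add (f x37996) (Nat.add (f x38000) (Nat.add (f x38002) (Nat.add (f x38004)
    (Nat.add (f x38008) (Nat.add (f x38010) (Nat.add (f x38018) (Nat.add (f x38020) (Nat.add
    (f x38022) (Nat.add (f x38026) (Nat.add (f x38028) (Nat.add (f x38034) (Nat.add (f x38044)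
    (Nat.add (f x38046) 0)))))))))))))))))))))))))))))))))))))))))))))))))))))))))))) (Nat.add
    (Nat.add (f x38052) (Nat.add (f x38072) (Nat.add (f x38074) (Nat.add (f x38076) (Nat.add
    (f x38080) (Nat.add (f x38082) (Nat.add (f x38088) (Nat.add (f x38098) (Nat.add (f x38100)
    (Nat.add (f x38106) (Nat.add (f x38124) (Nat.add (f x38156) (Nat.add (f x38158) (Nat.add
    (f x38162) (Nat.add (f x38164) (Nat.add (f x38166) (Nat.add (f x38170) (Nat.add (f x38172)
    (Nat.add (f x38180) (Nat.add (f x38182) (Nat.add (f x38184) (Nat.add (f x38188) (Nat.add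
    (f x38190) (Nat.add (f x38196) (Nat.add (f x38206) (Nat.add (f x38208) (Nat.add (f x38214)
    (Nat.add (f x38234) (Nat.add (f x38236) (Nat.add (f x38238) (Nat.add (f x38242) (Nat.add
    (f x38244) (Nat.add (f x38250) (Nat.add (f x38260) (Nat.add (f x38262) (Nat.add (f x38268)
    (Nat.add (f x38286) (Nat.add (f x38314) (Nat.add (f x38316) (Nat.add (f x38322) (Nat.add
    (f x38340) (Nat.add (f x38396) (Nat.add (f x38398) (Nat.add (f x38400) (Nat.add (f x38404)
    (Nat.add (f x38406) (Nat.add (f x38412) (Nat.add (f x38422) (Nat.add (f x38424) (Nat.add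
    (f x38430) (Nat.add (f x38448) (Nat.add (f x38476) (Nat.add (f x38478) (Nat.add (f x38484)
    (Nat.add (f x38502) (Nat.add (f x38556) (Nat.add (f x38642) (Nat.add (f x38644) (Nat.add
    (f x38648) (Nat.add (f x38650) 0))))))))))))))))))))))))))))))))))))))))))))))))))))))))))))
    (Nat.add (Nat.add (f x38652) (Nat.add (f x38656) (Nat.add (f x38658) (Nat.add (f x38666)
    (Nat.add (f x38668) (Nat.add (f x38670) (Nat.add (f x38674) (Nat.add (f x38676) (Nat.add
    (f x38682) (Nat.add (f x38692) (Nat.add (f x38694) (Nat.add (f x38700) (Nat.add (f x38720)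
    (Nat.add (f x38722) (Nat.add (f x38724) (Nat.add (f x38728) (Nat.add (f x38730) (Nat.add
    (f x38736) (Nat.add (f x38746) (Nat.add (f x38748) (Nat.add (f x38754) (Nat.add (f x38772)
    (Nat.add (f x38800) (Nat.add (f x38802) (Nat.add (f x38808) (Nat.add (f x38826) (Nat.add
    (f x38882) (Nat.add (f x38884) (Nat.add (f x38886) (Nat.add (f x38890) (Nat.add (f x38892)
    (Nat.add (f x38898) (Nat.add (f x38908) (Nat.add (f x38910) (Nat.add (f x38916) (Nat.add
    (f x38934) (Nat.add (f x38962) (Nat.add (f x38964) (Nat.add (f x38970) (Nat.add (f x38988)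
    (Nat.add (f x39042) (Nat.add (f x39124) (Nat.add (f x39126) (Nat.add (f x39132) (Nat.add
    (f x39150) (Nat.add (f x39204) (Nat.add (f x39446) (Nat.add (f x39500) (Nat.add (f x39518)
    (Nat.add (f x39524) (Nat.add (f x39526) (Nat.add (f x39554) (Nat.add (f x39572) (Nat.add
    (f x39578) (Nat.add (f x39580) (Nat.add (f x39590) (Nat.add (f x39596) (Nat.add (f x39598)
    (Nat.add (f x39602) (Nat.add (f x39604)
    0)))))))))))))))))))))))))))))))))))))))))))))))))))))))))))) (Nat.add (Nat.add (f x39606)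
    (Nat.add (f x39662) (Nat.add (f x39680) (Nat.add (f x39686) (Nat.add (f x39688) (Nat.add
    (f x39716) (Nat.add (f x39734) (Nat.add (f x39740) (Nat.add (f x39742) (Nat.add (f x39752)
    (Nat.add (f x39758) (Nat.add (f x39760) (Nat.add (f x39764) (Nat.add (f x39766) (Nat.add
    (f x39768) (Nat.add (f x39788) (Nat.add (f x39794) (Nat.add (f x39796) (Nat.add (f x39806)
    (Nat.add (f x39812) (Nat.add (f x39814) (Nat.add (f x39818) (Nat.add (f x39820) (Nat.add
    (f x39822) (Nat.add (f x39830) (Nat.add (f x39832) (Nat.add (f x39836) (Nat.add (f x39838)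
    (Nat.add (f x39840) (Nat.add (f x39844) (Nat.add (f x39846) (Nat.add (f x39878) (Nat.add
    (f x39896) (Nat.add (f x39902) (Nat.add (f x39904) (Nat.add (f x39914) (Nat.add (f x39920)
    (Nat.add (f x39922) (Nat.add (f x39926) (Nat.add (f x39928) (Nat.add (f x39930) (Nat.add
    (f x39950) (Nat.add (f x39956) (Nat.add (f x39958) (Nat.add (f x39968) (Nat.add (f x39974)
    (Nat.add (f x39976) (Nat.add (f x39980) (Nat.add (f x39982) (Nat.add (f x39984) (Nat.add
    (f x39992) (Nat.add (f x39994) (Nat.add (f x39998) (Nat.add (f x40000) (Nat.add (f x40002)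
    (Nat.add (f x40006) (Nat.add (f x40008) (Nat.add (f x40022) (Nat.add (f x40028) (Nat.add
    (f x40030) 0)))))))))))))))))))))))))))))))))))))))))))))))))))))))))))) (Nat.add (Nat.add
    (f x40034) (Nat.add (f x40036) (Nat.add (f x40038) (Nat.add (f x40046) (Nat.add (f x40048)
    (Nat.add (f x40052) (Nat.add (f x40054) (Nat.add (f x40056) (Nat.add (f x40060) (Nat.add
    (f x40062) (Nat.add (f x40070) (Nat.add (f x40072) (Nat.add (f x40074) (Nat.add (f x40078)
    (Nat.add (f x40080) (Nat.add (f x40086) (Nat.add (f x40148) (Nat.add (f x40166) (Nat.add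
    (f x40172) (Nat.add (f x40174) (Nat.add (f x40202) (Nat.add (f x40220) (Nat.add (f x40226)
    (Nat.add (f x40228) (Nat.add (f x40238) (Nat.add (f x40244) (Nat.add (f x40246) (Nat.add
    (f x40250) (Nat.add (f x40252) (Nat.add (f x40254) (Nat.add (f x40274) (Nat.add (f x40280)
    (Nat.add (f x40282) (Nat.add (f x40292) (Nat.add (f x40298) (Nat.add (f x40300) (Nat.add
    (f x40304) (Nat.add (f x40306) (Nat.add (f x40308) (Nat.add (f x40316) (Nat.add (f x40318)
    (Nat.add (f x40322) (Nat.add (f x40324) (Nat.add (f x40326) (Nat.add (f x40330) (Nat.add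
    (f x40332) (Nat.add (f x40364) (Nat.add (f x40382) (Nat.add (f x40388) (Nat.add (f x40390)
    (Nat.add (f x40400) (Nat.add (f x40406) (Nat.add (f x40408) (Nat.add (f x40412) (Nat.add
    (f x40414) (Nat.add (f x40416) (Nat.add (f x40436) (Nat.add (f x40442) (Nat.add (f x40444)
    (Nat.add (f x40454) 0)))))))))))))))))))))))))))))))))))))))))))))))))))))))))))) (Nat.add
    (Nat.add (f x40460) (Nat.add (f x40462) (Nat.add (f x40466) (Nat.add (f x40468) (Nat.add
    (f x40470) (Nat.add (f x40478) (Nat.add (f x40480) (Nat.add (f x40484) (Nat.add (f x40486)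
    (Nat.add (f x40488) (Nat.add (f x40492) (Nat.add (f x40494) (Nat.add (f x40508) (Nat.add
    (f x40514) (Nat.add (f x40516) (Nat.add (f x40520) (Nat.add (f x40522) (Nat.add (f x40524)
    (Nat.add (f x40532) (Nat.add (f x40534) (Nat.add (f x40538) (Nat.add (f x40540) (Nat.add
    (f x40542) (Nat.add (f x40546) (Nat.add (f x40548) (Nat.add (f x40556) (Nat.add (f x40558)
    (Nat.add (f x40560) (Nat.add (f x40564) (Nat.add (f x40566) (Nat.add (f x40572) (Nat.add
    (f x40598) (Nat.add (f x40604) (Nat.add (f x40606) (Nat.add (f x40616) (Nat.add (f x40622)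
    (Nat.add (f x40624) (Nat.add (f x40628) (Nat.add (f x40630) (Nat.add (f x40632) (Nat.add
    (f x40640) (Nat.add (f x40642) (Nat.add (f x40646) (Nat.add (f x40648) (Nat.add (f x40650)
    (Nat.add (f x40654) (Nat.add (f x40656) (Nat.add (f x40670) (Nat.add (f x40676) (Nat.add
    (f x40678) (Nat.add (f x40682) (Nat.add (f x40684) (Nat.add (f x40686) (Nat.add (f x40694)
    (Nat.add (f x40696) (Nat.add (f x40700) (Nat.add (f x40702) (Nat.add (f x40704) (Nat.add
    (f x40708) (Nat.add (f x40710) 0))))))))))))))))))))))))))))))))))))))))))))))))))))))))))))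
    (Nat.add (Nat.add (f x40718) (Nat.add (f x40720) (Nat.add (f x40722) (Nat.add (f x40726)
    (Nat.add (f x40728) (Nat.add (f x40734) (Nat.add (f x40748) (Nat.add (f x40750) (Nat.add
    (f x40754) (Nat.add (f x40756) (Nat.add (f x40758) (Nat.add (f x40762) (Nat.add (f x40764)
    (Nat.add (f x40772) (Nat.add (f x40774) (Nat.add (f x40776) (Nat.add (f x40780) (Nat.add
    (f x40782) (Nat.add (f x40788) (Nat.add (f x40798) (Nat.add (f x40800) (Nat.add (f x40806)
    (Nat.add (f x40850) (Nat.add (f x40868) (Nat.add (f x40874) (Nat.add (f x40876) (Nat.add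
    (f x40886) (Nat.add (f x40892) (Nat.add (f x40894) (Nat.add (f x40898) (Nat.add (f x40900)
    (Nat.add (f x40902) (Nat.add (f x40922) (Nat.add (f x40928) (Nat.add (f x40930) (Nat.add
    (f x40940) (Nat.add (f x40946) (Nat.add (f x40948) (Nat.add (f x40952) (Nat.add (f x40954)
    (Nat.add (f x40956) (Nat.add (f x40964) (Nat.add (f x40966) (Nat.add (f x40970) (Nat.add
    (f x40972) (Nat.add (f x40974) (Nat.add (f x40978) (Nat.add (f x40980) (Nat.add (f x40994)
    (Nat.add (f x41000) (Nat.add (f x41002) (Nat.add (f x41006) (Nat.add (f x41008) (Nat.add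
    (f x41010) (Nat.add (f x41018) (Nat.add (f x41020) (Nat.add (f x41024) (Nat.add (f x41026)
    (Nat.add (f x41028) (Nat.add (f x41032)
    0)))))))))))))))))))))))))))))))))))))))))))))))))))))))))))) (Nat.add (Nat.add (f x41034)
    (Nat.add (f x41042) (Nat.add (f x41044) (Nat.add (f x41046) (Nat.add (f x41050) (Nat.add
    (f x41052) (Nat.add (f x41058) (Nat.add (f x41084) (Nat.add (f x41090) (Nat.add (f x41092)
    (Nat.add (f x41102) (Nat.add (f x41108) (Nat.add (f x41110) (Nat.add (f x41114) (Nat.add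
    (f x41116) (Nat.add (f x41118) (Nat.add (f x41126) (Nat.add (f x41128) (Nat.add (f x41132)
    (Nat.add (f x41134) (Nat.add (f x41136) (Nat.add (f x41140) (Nat.add (f x41142) (Nat.add
    (f x41156) (Nat.add (f x41162) (Nat.add (f x41164) (Nat.add (f x41168) (Nat.add (f x41170)
    (Nat.add (f x41172) (Nat.add (f x41180) (Nat.add (f x41182) (Nat.add (f x41186) (Nat.add
    (f x41188) (Nat.add (f x41190) (Nat.add (f x41194) (Nat.add (f x41196) (Nat.add (f x41204)
    (Nat.add (f x41206) (Nat.add (f x41208) (Nat.add (f x41212) (Nat.add (f x41214) (Nat.add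
    (f x41220) (Nat.add (f x41234) (Nat.add (f x41236) (Nat.add (f x41240) (Nat.add (f x41242)
    (Nat.add (f x41244) (Nat.add (f x41248) (Nat.add (f x41250) (Nat.add (f x41258) (Nat.add
    (f x41260) (Nat.add (f x41262) (Nat.add (f x41266) (Nat.add (f x41268) (Nat.add (f x41274)
    (Nat.add (f x41284) (Nat.add (f x41286) (Nat.add (f x41292) (Nat.add (f x41318) (Nat.add
    (f x41324) 0)))))))))))))))))))))))))))))))))))))))))))))))))))))))))))) (Nat.add (Nat.add
    (f x41326) (Nat.add (f x41330) (Nat.add (f x41332) (Nat.add (f x41334) (Nat.add (f x41342)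
    (Nat.add (f x41344) (Nat.add (f x41348) (Nat.add (f x41350) (Nat.add (f x41352) (Nat.add
    (f x41356) (Nat.add (f x41358) (Nat.add (f x41366) (Nat.add (f x41368) (Nat.add (f x41370)
    (Nat.add (f x41374) (Nat.add (f x41376) (Nat.add (f x41382) (Nat.add (f x41396) (Nat.add
    (f x41398) (Nat.add (f x41402) (Nat.add (f x41404) (Nat.add (f x41406) (Nat.add (f x41410)
    (Nat.add (f x41412) (Nat.add (f x41420) (Nat.add (f x41422) (Nat.add (f x41424) (Nat.add
    (f x41428) (Nat.add (f x41430) (Nat.add (f x41436) (Nat.add (f x41446) (Nat.add (f x41448)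
    (Nat.add (f x41454) (Nat.add (f x41474) (Nat.add (f x41476) (Nat.add (f x41478) (Nat.add
    (f x41482) (Nat.add (f x41484) (Nat.add (f x41490) (Nat.add (f x41500) (Nat.add (f x41502)
    (Nat.add (f x41508) (Nat.add (f x41526) (Nat.add (f x41606) (Nat.add (f x41624) (Nat.add
    (f x41630) (Nat.add (f x41632) (Nat.add (f x41660) (Nat.add (f x41678) (Nat.add (f x41684)
    (Nat.add (f x41686) (Nat.add (f x41696) (Nat.add (f x41702) (Nat.add (f x41704) (Nat.add
    (f x41708) (Nat.add (f x41710) (Nat.add (f x41712) (Nat.add (f x41732) (Nat.add (f x41738)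
    (Nat.add (f x41740) 0)))))))))))))))))))))))))))))))))))))))))))))))))))))))))))) (Nat.add
    (Nat.add (f x41750) (Nat.add (f x41756) (Nat.add (f x41758) (Nat.add (f x41762) (Nat.add
    (f x41764) (Nat.add (f x41766) (Nat.add (f x41774) (Nat.add (f x41776) (Nat.add (f x41780)
    (Nat.add (f x41782) (Nat.add (f x41784) (Nat.add (f x41788) (Nat.add (f x41790) (Nat.add
    (f x41822) (Nat.add (f x41840) (Nat.add (f x41846) (Nat.add (f x41848) (Nat.add (f x41858)
    (Nat.add (f x41864) (Nat.add (f x41866) (Nat.add (f x41870) (Nat.add (f x41872) (Nat.add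
    (f x41874) (Nat.add (f x41894) (Nat.add (f x41900) (Nat.add (f x41902) (Nat.add (f x41912)
    (Nat.add (f x41918) (Nat.add (f x41920) (Nat.add (f x41924) (Nat.add (f x41926) (Nat.add
    (f x41928) (Nat.add (f x41936) (Nat.add (f x41938) (Nat.add (f x41942) (Nat.add (f x41944)
    (Nat.add (f x41946) (Nat.add (f x41950) (Nat.add (f x41952) (Nat.add (f x41966) (Nat.add
    (f x41972) (Nat.add (f x41974) (Nat.add (f x41978) (Nat.add (f x41980) (Nat.add (f x41982)
    (Nat.add (f x41990) (Nat.add (f x41992) (Nat.add (f x41996) (Nat.add (f x41998) (Nat.add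
    (f x42000) (Nat.add (f x42004) (Nat.add (f x42006) (Nat.add (f x42014) (Nat.add (f x42016)
    (Nat.add (f x42018) (Nat.add (f x42022) (Nat.add (f x42024) (Nat.add (f x42030) (Nat.add
    (f x42056) (Nat.add (f x42062) 0))))))))))))))))))))))))))))))))))))))))))))))))))))))))))))
    (Nat.add (Nat.add (f x42064) (Nat.add (f x42074) (Nat.add (f x42080) (Nat.add (f x42082)
    (Nat.add (f x42086) (Nat.add (f x42088) (Nat.add (f x42090) (Nat.add (f x42098) (Nat.add
    (f x42100) (Nat.add (f x42104) (Nat.add (f x42106) (Nat.add (f x42108) (Nat.add (f x42112)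
    (Nat.add (f x42114) (Nat.add (f x42128) (Nat.add (f x42134) (Nat.add (f x42136) (Nat.add
    (f x42140) (Nat.add (f x42142) (Nat.add (f x42144) (Nat.add (f x42152) (Nat.add (f x42154)
    (Nat.add (f x42158) (Nat.add (f x42160) (Nat.add (f x42162) (Nat.add (f x42166) (Nat.add
    (f x42168) (Nat.add (f x42176) (Nat.add (f x42178) (Nat.add (f x42180) (Nat.add (f x42184)
    (Nat.add (f x42186) (Nat.add (f x42192) (Nat.add (f x42206) (Nat.add (f x42208) (Nat.add
    (f x42212) (Nat.add (f x42214) (Nat.add (f x42216) (Nat.add (f x42220) (Nat.add (f x42222)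
    (Nat.add (f x42230) (Nat.add (f x42232) (Nat.add (f x42234) (Nat.add (f x42238) (Nat.add
    (f x42240) (Nat.add (f x42246) (Nat.add (f x42256) (Nat.add (f x42258) (Nat.add (f x42264)
    (Nat.add (f x42308) (Nat.add (f x42326) (Nat.add (f x42332) (Nat.add (f x42334) (Nat.add
    (f x42344) (Nat.add (f x42350) (Nat.add (f x42352) (Nat.add (f x42356) (Nat.add (f x42358)
    (Nat.add (f x42360) (Nat.add (f x42380)
    0)))))))))))))))))))))))))))))))))))))))))))))))))))))))))))) (Nat.add (Nat.add (f x42386)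
    (Nat.add (f x42388) (Nat.add (f x42398) (Nat.add (f x42404) (Nat.add (f x42406) (Nat.add
    (f x42410) (Nat.add (f x42412) (Nat.add (f x42414) (Nat.add (f x42422) (Nat.add (f x42424)
    (Nat.add (f x42428) (Nat.add (f x42430) (Nat.add (f x42432) (Nat.add (f x42436) (Nat.add
    (f x42438) (Nat.add (f x42452) (Nat.add (f x42458) (Nat.add (f x42460) (Nat.add (f x42464)
    (Nat.add (f x42466) (Nat.add (f x42468) (Nat.add (f x42476) (Nat.add (f x42478) (Nat.add
    (f x42482) (Nat.add (f x42484) (Nat.add (f x42486) (Nat.add (f x42490) (Nat.add (f x42492)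
    (Nat.add (f x42500) (Nat.add (f x42502) (Nat.add (f x42504) (Nat.add (f x42508) (Nat.add
    (f x42510) (Nat.add (f x42516) (Nat.add (f x42542) (Nat.add (f x42548) (Nat.add (f x42550)
    (Nat.add (f x42560) (Nat.add (f x42566) (Nat.add (f x42568) (Nat.add (f x42572) (Nat.add
    (f x42574) (Nat.add (f x42576) (Nat.add (f x42584) (Nat.add (f x42586) (Nat.add (f x42590)
    (Nat.add (f x42592) (Nat.add (f x42594) (Nat.add (f x42598) (Nat.add (f x42600) (Nat.add
    (f x42614) (Nat.add (f x42620) (Nat.add (f x42622) (Nat.add (f x42626) (Nat.add (f x42628)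
    (Nat.add (f x42630) (Nat.add (f x42638) (Nat.add (f x42640) (Nat.add (f x42644) (Nat.add
    (f x42646) 0)))))))))))))))))))))))))))))))))))))))))))))))))))))))))))) (Nat.add (Nat.add
    (f x42648) (Nat.add (f x42652) (Nat.add (f x42654) (Nat.add (f x42662) (Nat.add (f x42664)
    (Nat.add (f x42666) (Nat.add (f x42670) (Nat.add (f x42672) (Nat.add (f x42678) (Nat.add
    (f x42692) (Nat.add (f x42694) (Nat.add (f x42698) (Nat.add (f x42700) (Nat.add (f x42702)
    (Nat.add (f x42706) (Nat.add (f x42708) (Nat.add (f x42716) (Nat.add (f x42718) (Nat.add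
    (f x42720) (Nat.add (f x42724) (Nat.add (f x42726) (Nat.add (f x42732) (Nat.add (f x42742)
    (Nat.add (f x42744) (Nat.add (f x42750) (Nat.add (f x42776) (Nat.add (f x42782) (Nat.add
    (f x42784) (Nat.add (f x42788) (Nat.add (f x42790) (Nat.add (f x42792) (Nat.add (f x42800)
    (Nat.add (f x42802) (Nat.add (f x42806) (Nat.add (f x42808) (Nat.add (f x42810) (Nat.add
    (f x42814) (Nat.add (f x42816) (Nat.add (f x42824) (Nat.add (f x42826) (Nat.add (f x42828)
    (Nat.add (f x42832) (Nat.add (f x42834) (Nat.add (f x42840) (Nat.add (f x42854) (Nat.add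
    (f x42856) (Nat.add (f x42860) (Nat.add (f x42862) (Nat.add (f x42864) (Nat.add (f x42868)
    (Nat.add (f x42870) (Nat.add (f x42878) (Nat.add (f x42880) (Nat.add (f x42882) (Nat.add
    (f x42886) (Nat.add (f x42888) (Nat.add (f x42894) (Nat.add (f x42904) (Nat.add (f x42906)
    (Nat.add (f x42912) 0)))))))))))))))))))))))))))))))))))))))))))))))))))))))))))) (Nat.add
    (Nat.add (f x42932) (Nat.add (f x42934) (Nat.add (f x42936) (Nat.add (f x42940) (Nat.add
    (f x42942) (Nat.add (f x42948) (Nat.add (f x42958) (Nat.add (f x42960) (Nat.add (f x42966)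
    (Nat.add (f x42984) (Nat.add (f x43028) (Nat.add (f x43034) (Nat.add (f x43036) (Nat.add
    (f x43046) (Nat.add (f x43052) (Nat.add (f x43054) (Nat.add (f x43058) (Nat.add (f x43060)
    (Nat.add (f x43062) (Nat.add (f x43070) (Nat.add (f x43072) (Nat.add (f x43076) (Nat.add
    (f x43078) (Nat.add (f x43080) (Nat.add (f x43084) (Nat.add (f x43086) (Nat.add (f x43100)
    (Nat.add (f x43106) (Nat.add (f x43108) (Nat.add (f x43112) (Nat.add (f x43114) (Nat.add
    (f x43116) (Nat.add (f x43124) (Nat.add (f x43126) (Nat.add (f x43130) (Nat.add (f x43132)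
    (Nat.add (f x43134) (Nat.add (f x43138) (Nat.add (f x43140) (Nat.add (f x43148) (Nat.add
    (f x43150) (Nat.add (f x43152) (Nat.add (f x43156) (Nat.add (f x43158) (Nat.add (f x43164)
    (Nat.add (f x43178) (Nat.add (f x43180) (Nat.add (f x43184) (Nat.add (f x43186) (Nat.add
    (f x43188) (Nat.add (f x43192) (Nat.add (f x43194) (Nat.add (f x43202) (Nat.add (f x43204)
    (Nat.add (f x43206) (Nat.add (f x43210) (Nat.add (f x43212) (Nat.add (f x43218) (Nat.add
    (f x43228) (Nat.add (f x43230) 0))))))))))))))))))))))))))))))))))))))))))))))))))))))))))))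
    (Nat.add (Nat.add (f x43236) (Nat.add (f x43262) (Nat.add (f x43268) (Nat.add (f x43270)
    (Nat.add (f x43274) (Nat.add (f x43276) (Nat.add (f x43278) (Nat.add (f x43286) (Nat.add
    (f x43288) (Nat.add (f x43292) (Nat.add (f x43294) (Nat.add (f x43296) (Nat.add (f x43300)
    (Nat.add (f x43302) (Nat.add (f x43310) (Nat.add (f x43312) (Nat.add (f x43314) (Nat.add
    (f x43318) (Nat.add (f x43320) (Nat.add (f x43326) (Nat.add (f x43340) (Nat.add (f x43342)
    (Nat.add (f x43346) (Nat.add (f x43348) (Nat.add (f x43350) (Nat.add (f x43354) (Nat.add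
    (f x43356) (Nat.add (f x43364) (Nat.add (f x43366) (Nat.add (f x43368) (Nat.add (f x43372)
    (Nat.add (f x43374) (Nat.add (f x43380) (Nat.add (f x43390) (Nat.add (f x43392) (Nat.add
    (f x43398) (Nat.add (f x43418) (Nat.add (f x43420) (Nat.add (f x43422) (Nat.add (f x43426)
    (Nat.add (f x43428) (Nat.add (f x43434) (Nat.add (f x43444) (Nat.add (f x43446) (Nat.add
    (f x43452) (Nat.add (f x43470) (Nat.add (f x43502) (Nat.add (f x43504) (Nat.add (f x43508)
    (Nat.add (f x43510) (Nat.add (f x43512) (Nat.add (f x43516) (Nat.add (f x43518) (Nat.add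
    (f x43526) (Nat.add (f x43528) (Nat.add (f x43530) (Nat.add (f x43534) (Nat.add (f x43536)
    (Nat.add (f x43542) (Nat.add (f x43552)
    0)))))))))))))))))))))))))))))))))))))))))))))))))))))))))))) (Nat.add (Nat.add (f x43554)
    (Nat.add (f x43560) (Nat.add (f x43580) (Nat.add (f x43582) (Nat.add (f x43584) (Nat.add
    (f x43588) (Nat.add (f x43590) (Nat.add (f x43596) (Nat.add (f x43606) (Nat.add (f x43608)
    (Nat.add (f x43614) (Nat.add (f x43632) (Nat.add (f x43660) (Nat.add (f x43662) (Nat.add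
    (f x43668) (Nat.add (f x43686) (Nat.add (f x43766) (Nat.add (f x43784) (Nat.add (f x43790)
    (Nat.add (f x43792) (Nat.add (f x43802) (Nat.add (f x43808) (Nat.add (f x43810) (Nat.add
    (f x43814) (Nat.add (f x43816) (Nat.add (f x43818) (Nat.add (f x43838) (Nat.add (f x43844)
    (Nat.add (f x43846) (Nat.add (f x43856) (Nat.add (f x43862) (Nat.add (f x43864) (Nat.add
    (f x43868) (Nat.add (f x43870) (Nat.add (f x43872) (Nat.add (f x43880) (Nat.add (f x43882)
    (Nat.add (f x43886) (Nat.add (f x43888) (Nat.add (f x43890) (Nat.add (f x43894) (Nat.add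
    (f x43896) (Nat.add (f x43910) (Nat.add (f x43916) (Nat.add (f x43918) (Nat.add (f x43922)
    (Nat.add (f x43924) (Nat.add (f x43926) (Nat.add (f x43934) (Nat.add (f x43936) (Nat.add
    (f x43940) (Nat.add (f x43942) (Nat.add (f x43944) (Nat.add (f x43948) (Nat.add (f x43950)
    (Nat.add (f x43958) (Nat.add (f x43960) (Nat.add (f x43962) (Nat.add (f x43966) (Nat.add
    (f x43968) 0)))))))))))))))))))))))))))))))))))))))))))))))))))))))))))) (Nat.add (Nat.add
    (f x43974) (Nat.add (f x44000) (Nat.add (f x44006) (Nat.add (f x44008) (Nat.add (f x44018)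
    (Nat.add (f x44024) (Nat.add (f x44026) (Nat.add (f x44030) (Nat.add (f x44032) (Nat.add
    (f x44034) (Nat.add (f x44042) (Nat.add (f x44044) (Nat.add (f x44048) (Nat.add (f x44050)
    (Nat.add (f x44052) (Nat.add (f x44056) (Nat.add (f x44058) (Nat.add (f x44072) (Nat.add
    (f x44078) (Nat.add (f x44080) (Nat.add (f x44084) (Nat.add (f x44086) (Nat.add (f x44088)
    (Nat.add (f x44096) (Nat.add (f x44098) (Nat.add (f x44102) (Nat.add (f x44104) (Nat.add
    (f x44106) (Nat.add (f x44110) (Nat.add (f x44112) (Nat.add (f x44120) (Nat.add (f x44122)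
    (Nat.add (f x44124) (Nat.add (f x44128) (Nat.add (f x44130) (Nat.add (f x44136) (Nat.add
    (f x44150) (Nat.add (f x44152) (Nat.add (f x44156) (Nat.add (f x44158) (Nat.add (f x44160)
    (Nat.add (f x44164) (Nat.add (f x44166) (Nat.add (f x44174) (Nat.add (f x44176) (Nat.add
    (f x44178) (Nat.add (f x44182) (Nat.add (f x44184) (Nat.add (f x44190) (Nat.add (f x44200)
    (Nat.add (f x44202) (Nat.add (f x44208) (Nat.add (f x44234) (Nat.add (f x44240) (Nat.add
    (f x44242) (Nat.add (f x44246) (Nat.add (f x44248) (Nat.add (f x44250) (Nat.add (f x44258)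
    (Nat.add (f x44260) 0)))))))))))))))))))))))))))))))))))))))))))))))))))))))))))) (Nat.add
    (Nat.add (f x44264) (Nat.add (f x44266) (Nat.add (f x44268) (Nat.add (f x44272) (Nat.add
    (f x44274) (Nat.add (f x44282) (Nat.add (f x44284) (Nat.add (f x44286) (Nat.add (f x44290)
    (Nat.add (f x44292) (Nat.add (f x44298) (Nat.add (f x44312) (Nat.add (f x44314) (Nat.add
    (f x44318) (Nat.add (f x44320) (Nat.add (f x44322) (Nat.add (f x44326) (Nat.add (f x44328)
    (Nat.add (f x44336) (Nat.add (f x44338) (Nat.add (f x44340) (Nat.add (f x44344) (Nat.add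
    (f x44346) (Nat.add (f x44352) (Nat.add (f x44362) (Nat.add (f x44364) (Nat.add (f x44370)
    (Nat.add (f x44390) (Nat.add (f x44392) (Nat.add (f x44394) (Nat.add (f x44398) (Nat.add
    (f x44400) (Nat.add (f x44406) (Nat.add (f x44416) (Nat.add (f x44418) (Nat.add (f x44424)
    (Nat.add (f x44442) (Nat.add (f x44486) (Nat.add (f x44492) (Nat.add (f x44494) (Nat.add
    (f x44504) (Nat.add (f x44510) (Nat.add (f x44512) (Nat.add (f x44516) (Nat.add (f x44518)
    (Nat.add (f x44520) (Nat.add (f x44528) (Nat.add (f x44530) (Nat.add (f x44534) (Nat.add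
    (f x44536) (Nat.add (f x44538) (Nat.add (f x44542) (Nat.add (f x44544) (Nat.add (f x44558)
    (Nat.add (f x44564) (Nat.add (f x44566) (Nat.add (f x44570) (Nat.add (f x44572) (Nat.add
    (f x44574) (Nat.add (f x44582) 0))))))))))))))))))))))))))))))))))))))))))))))))))))))))))))
    (Nat.add (Nat.add (f x44584) (Nat.add (f x44588) (Nat.add (f x44590) (Nat.add (f x44592)
    (Nat.add (f x44596) (Nat.add (f x44598) (Nat.add (f x44606) (Nat.add (f x44608) (Nat.add
    (f x44610) (Nat.add (f x44614) (Nat.add (f x44616) (Nat.add (f x44622) (Nat.add (f x44636)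
    (Nat.add (f x44638) (Nat.add (f x44642) (Nat.add (f x44644) (Nat.add (f x44646) (Nat.add
    (f x44650) (Nat.add (f x44652) (Nat.add (f x44660) (Nat.add (f x44662) (Nat.add (f x44664)
    (Nat.add (f x44668) (Nat.add (f x44670) (Nat.add (f x44676) (Nat.add (f x44686) (Nat.add
    (f x44688) (Nat.add (f x44694) (Nat.add (f x44720) (Nat.add (f x44726) (Nat.add (f x44728)
    (Nat.add (f x44732) (Nat.add (f x44734) (Nat.add (f x44736) (Nat.add (f x44744) (Nat.add
    (f x44746) (Nat.add (f x44750) (Nat.add (f x44752) (Nat.add (f x44754) (Nat.add (f x44758)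
    (Nat.add (f x44760) (Nat.add (f x44768) (Nat.add (f x44770) (Nat.add (f x44772) (Nat.add
    (f x44776) (Nat.add (f x44778) (Nat.add (f x44784) (Nat.add (f x44798) (Nat.add (f x44800)
    (Nat.add (f x44804) (Nat.add (f x44806) (Nat.add (f x44808) (Nat.add (f x44812) (Nat.add
    (f x44814) (Nat.add (f x44822) (Nat.add (f x44824) (Nat.add (f x44826) (Nat.add (f x44830)
    (Nat.add (f x44832) (Nat.add (f x44838)
    0)))))))))))))))))))))))))))))))))))))))))))))))))))))))))))) (Nat.add (Nat.add (f x44848)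
    (Nat.add (f x44850) (Nat.add (f x44856) (Nat.add (f x44876) (Nat.add (f x44878) (Nat.add
    (f x44880) (Nat.add (f x44884) (Nat.add (f x44886) (Nat.add (f x44892) (Nat.add (f x44902)
    (Nat.add (f x44904) (Nat.add (f x44910) (Nat.add (f x44928) (Nat.add (f x44960) (Nat.add
    (f x44962) (Nat.add (f x44966) (Nat.add (f x44968) (Nat.add (f x44970) (Nat.add (f x44974)
    (Nat.add (f x44976) (Nat.add (f x44984) (Nat.add (f x44986) (Nat.add (f x44988) (Nat.add
    (f x44992) (Nat.add (f x44994) (Nat.add (f x45000) (Nat.add (f x45010) (Nat.add (f x45012)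
    (Nat.add (f x45018) (Nat.add (f x45038) (Nat.add (f x45040) (Nat.add (f x45042) (Nat.add
    (f x45046) (Nat.add (f x45048) (Nat.add (f x45054) (Nat.add (f x45064) (Nat.add (f x45066)
    (Nat.add (f x45072) (Nat.add (f x45090) (Nat.add (f x45118) (Nat.add (f x45120) (Nat.add
    (f x45126) (Nat.add (f x45144) (Nat.add (f x45206) (Nat.add (f x45212) (Nat.add (f x45214)
    (Nat.add (f x45218) (Nat.add (f x45220) (Nat.add (f x45222) (Nat.add (f x45230) (Nat.add
    (f x45232) (Nat.add (f x45236) (Nat.add (f x45238) (Nat.add (f x45240) (Nat.add (f x45244)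
    (Nat.add (f x45246) (Nat.add (f x45254) (Nat.add (f x45256) (Nat.add (f x45258) (Nat.add
    (f x45262) 0)))))))))))))))))))))))))))))))))))))))))))))))))))))))))))) (Nat.add (Nat.add
    (f x45264) (Nat.add (f x45270) (Nat.add (f x45284) (Nat.add (f x45286) (Nat.add (f x45290)
    (Nat.add (f x45292) (Nat.add (f x45294) (Nat.add (f x45298) (Nat.add (f x45300) (Nat.add
    (f x45308) (Nat.add (f x45310) (Nat.add (f x45312) (Nat.add (f x45316) (Nat.add (f x45318)
    (Nat.add (f x45324) (Nat.add (f x45334) (Nat.add (f x45336) (Nat.add (f x45342) (Nat.add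
    (f x45362) (Nat.add (f x45364) (Nat.add (f x45366) (Nat.add (f x45370) (Nat.add (f x45372)
    (Nat.add (f x45378) (Nat.add (f x45388) (Nat.add (f x45390) (Nat.add (f x45396) (Nat.add
    (f x45414) (Nat.add (f x45446) (Nat.add (f x45448) (Nat.add (f x45452) (Nat.add (f x45454)
    (Nat.add (f x45456) (Nat.add (f x45460) (Nat.add (f x45462) (Nat.add (f x45470) (Nat.add
    (f x45472) (Nat.add (f x45474) (Nat.add (f x45478) (Nat.add (f x45480) (Nat.add (f x45486)
    (Nat.add (f x45496) (Nat.add (f x45498) (Nat.add (f x45504) (Nat.add (f x45524) (Nat.add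
    (f x45526) (Nat.add (f x45528) (Nat.add (f x45532) (Nat.add (f x45534) (Nat.add (f x45540)
    (Nat.add (f x45550) (Nat.add (f x45552) (Nat.add (f x45558) (Nat.add (f x45576) (Nat.add
    (f x45604) (Nat.add (f x45606) (Nat.add (f x45612) (Nat.add (f x45630) (Nat.add (f x45686)
    (Nat.add (f x45688) 0)))))))))))))))))))))))))))))))))))))))))))))))))))))))))))) (Nat.add
    (Nat.add (f x45690) (Nat.add (f x45694) (Nat.add (f x45696) (Nat.add (f x45702) (Nat.add
    (f x45712) (Nat.add (f x45714) (Nat.add (f x45720) (Nat.add (f x45738) (Nat.add (f x45766)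
    (Nat.add (f x45768) (Nat.add (f x45774) (Nat.add (f x45792) (Nat.add (f x45846) (Nat.add
    (f x45980) (Nat.add (f x45998) (Nat.add (f x46004) (Nat.add (f x46006) (Nat.add (f x46034)
    (Nat.add (f x46052) (Nat.add (f x46058) (Nat.add (f x46060) (Nat.add (f x46070) (Nat.add
    (f x46076) (Nat.add (f x46078) (Nat.add (f x46082) (Nat.add (f x46084) (Nat.add (f x46086)
    (Nat.add (f x46106) (Nat.add (f x46112) (Nat.add (f x46114) (Nat.add (f x46124) (Nat.add
    (f x46130) (Nat.add (f x46132) (Nat.add (f x46136) (Nat.add (f x46138) (Nat.add (f x46140)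
    (Nat.add (f x46148) (Nat.add (f x46150) (Nat.add (f x46154) (Nat.add (f x46156) (Nat.add
    (f x46158) (Nat.add (f x46162) (Nat.add (f x46164) (Nat.add (f x46196) (Nat.add (f x46214)
    (Nat.add (f x46220) (Nat.add (f x46222) (Nat.add (f x46232) (Nat.add (f x46238) (Nat.add
    (f x46240) (Nat.add (f x46244) (Nat.add (f x46246) (Nat.add (f x46248) (Nat.add (f x46268)
    (Nat.add (f x46274) (Nat.add (f x46276) (Nat.add (f x46286) (Nat.add (f x46292) (Nat.add
    (f x46294) (Nat.add (f x46298) 0))))))))))))))))))))))))))))))))))))))))))))))))))))))))))))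
    (Nat.add (Nat.add (f x46300) (Nat.add (f x46302) (Nat.add (f x46310) (Nat.add (f x46312)
    (Nat.add (f x46316) (Nat.add (f x46318) (Nat.add (f x46320) (Nat.add (f x46324) (Nat.add
    (f x46326) (Nat.add (f x46340) (Nat.add (f x46346) (Nat.add (f x46348) (Nat.add (f x46352)
    (Nat.add (f x46354) (Nat.add (f x46356) (Nat.add (f x46364) (Nat.add (f x46366) (Nat.add
    (f x46370) (Nat.add (f x46372) (Nat.add (f x46374) (Nat.add (f x46378) (Nat.add (f x46380)
    (Nat.add (f x46388) (Nat.add (f x46390) (Nat.add (f x46392) (Nat.add (f x46396) (Nat.add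
    (f x46398) (Nat.add (f x46404) (Nat.add (f x46430) (Nat.add (f x46436) (Nat.add (f x46438)
    (Nat.add (f x46448) (Nat.add (f x46454) (Nat.add (f x46456) (Nat.add (f x46460) (Nat.add
    (f x46462) (Nat.add (f x46464) (Nat.add (f x46472) (Nat.add (f x46474) (Nat.add (f x46478)
    (Nat.add (f x46480) (Nat.add (f x46482) (Nat.add (f x46486) (Nat.add (f x46488) (Nat.add
    (f x46502) (Nat.add (f x46508) (Nat.add (f x46510) (Nat.add (f x46514) (Nat.add (f x46516)
    (Nat.add (f x46518) (Nat.add (f x46526) (Nat.add (f x46528) (Nat.add (f x46532) (Nat.add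
    (f x46534) (Nat.add (f x46536) (Nat.add (f x46540) (Nat.add (f x46542) (Nat.add (f x46550)
    (Nat.add (f x46552) (Nat.add (f x46554)
    0)))))))))))))))))))))))))))))))))))))))))))))))))))))))))))) (Nat.add (Nat.add (f x46558)
    (Nat.add (f x46560) (Nat.add (f x46566) (Nat.add (f x46580) (Nat.add (f x46582) (Nat.add
    (f x46586) (Nat.add (f x46588) (Nat.add (f x46590) (Nat.add (f x46594) (Nat.add (f x46596)
    (Nat.add (f x46604) (Nat.add (f x46606) (Nat.add (f x46608) (Nat.add (f x46612) (Nat.add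
    (f x46614) (Nat.add (f x46620) (Nat.add (f x46630) (Nat.add (f x46632) (Nat.add (f x46638)
    (Nat.add (f x46682) (Nat.add (f x46700) (Nat.add (f x46706) (Nat.add (f x46708) (Nat.add
    (f x46718) (Nat.add (f x46724) (Nat.add (f x46726) (Nat.add (f x46730) (Nat.add (f x46732)
    (Nat.add (f x46734) (Nat.add (f x46754) (Nat.add (f x46760) (Nat.add (f x46762) (Nat.add
    (f x46772) (Nat.add (f x46778) (Nat.add (f x46780) (Nat.add (f x46784) (Nat.add (f x46786)
    (Nat.add (f x46788) (Nat.add (f x46796) (Nat.add (f x46798) (Nat.add (f x46802) (Nat.add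
    (f x46804) (Nat.add (f x46806) (Nat.add (f x46810) (Nat.add (f x46812) (Nat.add (f x46826)
    (Nat.add (f x46832) (Nat.add (f x46834) (Nat.add (f x46838) (Nat.add (f x46840) (Nat.add
    (f x46842) (Nat.add (f x46850) (Nat.add (f x46852) (Nat.add (f x46856) (Nat.add (f x46858)
    (Nat.add (f x46860) (Nat.add (f x46864) (Nat.add (f x46866) (Nat.add (f x46874) (Nat.add
    (f x46876) 0)))))))))))))))))))))))))))))))))))))))))))))))))))))))))))) (Nat.add (Nat.add
    (f x46878) (Nat.add (f x46882) (Nat.add (f x46884) (Nat.add (f x46890) (Nat.add (f x46916)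
    (Nat.add (f x46922) (Nat.add (f x46924) (Nat.add (f x46934) (Nat.add (f x46940) (Nat.add
    (f x46942) (Nat.add (f x46946) (Nat.add (f x46948) (Nat.add (f x46950) (Nat.add (f x46958)
    (Nat.add (f x46960) (Nat.add (f x46964) (Nat.add (f x46966) (Nat.add (f x46968) (Nat.add
    (f x46972) (Nat.add (f x46974) (Nat.add (f x46988) (Nat.add (f x46994) (Nat.add (f x46996)
    (Nat.add (f x47000) (Nat.add (f x47002) (Nat.add (f x47004) (Nat.add (f x47012) (Nat.add
    (f x47014) (Nat.add (f x47018) (Nat.add (f x47020) (Nat.add (f x47022) (Nat.add (f x47026)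
    (Nat.add (f x47028) (Nat.add (f x47036) (Nat.add (f x47038) (Nat.add (f x47040) (Nat.add
    (f x47044) (Nat.add (f x47046) (Nat.add (f x47052) (Nat.add (f x47066) (Nat.add (f x47068)
    (Nat.add (f x47072) (Nat.add (f x47074) (Nat.add (f x47076) (Nat.add (f x47080) (Nat.add
    (f x47082) (Nat.add (f x47090) (Nat.add (f x47092) (Nat.add (f x47094) (Nat.add (f x47098)
    (Nat.add (f x47100) (Nat.add (f x47106) (Nat.add (f x47116) (Nat.add (f x47118) (Nat.add
    (f x47124) (Nat.add (f x47150) (Nat.add (f x47156) (Nat.add (f x47158) (Nat.add (f x47162)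
    (Nat.add (f x47164) 0)))))))))))))))))))))))))))))))))))))))))))))))))))))))))))) (Nat.add
    (Nat.add (f x47166) (Nat.add (f x47174) (Nat.add (f x47176) (Nat.add (f x47180) (Nat.add
    (f x47182) (Nat.add (f x47184) (Nat.add (f x47188) (Nat.add (f x47190) (Nat.add (f x47198)
    (Nat.add (f x47200) (Nat.add (f x47202) (Nat.add (f x47206) (Nat.add (f x47208) (Nat.add
    (f x47214) (Nat.add (f x47228) (Nat.add (f x47230) (Nat.add (f x47234) (Nat.add (f x47236)
    (Nat.add (f x47238) (Nat.add (f x47242) (Nat.add (f x47244) (Nat.add (f x47252) (Nat.add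
    (f x47254) (Nat.add (f x47256) (Nat.add (f x47260) (Nat.add (f x47262) (Nat.add (f x47268)
    (Nat.add (f x47278) (Nat.add (f x47280) (Nat.add (f x47286) (Nat.add (f x47306) (Nat.add
    (f x47308) (Nat.add (f x47310) (Nat.add (f x47314) (Nat.add (f x47316) (Nat.add (f x47322)
    (Nat.add (f x47332) (Nat.add (f x47334) (Nat.add (f x47340) (Nat.add (f x47358) (Nat.add
    (f x47402) (Nat.add (f x47408) (Nat.add (f x47410) (Nat.add (f x47420) (Nat.add (f x47426)
    (Nat.add (f x47428) (Nat.add (f x47432) (Nat.add (f x47434) (Nat.add (f x47436) (Nat.add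
    (f x47444) (Nat.add (f x47446) (Nat.add (f x47450) (Nat.add (f x47452) (Nat.add (f x47454)
    (Nat.add (f x47458) (Nat.add (f x47460) (Nat.add (f x47474) (Nat.add (f x47480) (Nat.add
    (f x47482) (Nat.add (f x47486) 0))))))))))))))))))))))))))))))))))))))))))))))))))))))))))))
    (Nat.add (Nat.add (f x47488) (Nat.add (f x47490) (Nat.add (f x47498) (Nat.add (f x47500)
    (Nat.add (f x47504) (Nat.add (f x47506) (Nat.add (f x47508) (Nat.add (f x47512) (Nat.add
    (f x47514) (Nat.add (f x47522) (Nat.add (f x47524) (Nat.add (f x47526) (Nat.add (f x47530)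
    (Nat.add (f x47532) (Nat.add (f x47538) (Nat.add (f x47552) (Nat.add (f x47554) (Nat.add
    (f x47558) (Nat.add (f x47560) (Nat.add (f x47562) (Nat.add (f x47566) (Nat.add (f x47568)
    (Nat.add (f x47576) (Nat.add (f x47578) (Nat.add (f x47580) (Nat.add (f x47584) (Nat.add
    (f x47586) (Nat.add (f x47592) (Nat.add (f x47602) (Nat.add (f x47604) (Nat.add (f x47610)
    (Nat.add (f x47636) (Nat.add (f x47642) (Nat.add (f x47644) (Nat.add (f x47648) (Nat.add
    (f x47650) (Nat.add (f x47652) (Nat.add (f x47660) (Nat.add (f x47662) (Nat.add (f x47666)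
    (Nat.add (f x47668) (Nat.add (f x47670) (Nat.add (f x47674) (Nat.add (f x47676) (Nat.add
    (f x47684) (Nat.add (f x47686) (Nat.add (f x47688) (Nat.add (f x47692) (Nat.add (f x47694)
    (Nat.add (f x47700) (Nat.add (f x47714) (Nat.add (f x47716) (Nat.add (f x47720) (Nat.add
    (f x47722) (Nat.add (f x47724) (Nat.add (f x47728) (Nat.add (f x47730) (Nat.add (f x47738)
    (Nat.add (f x47740) (Nat.add (f x47742)
    0)))))))))))))))))))))))))))))))))))))))))))))))))))))))))))) (Nat.add (Nat.add (f x47746)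
    (Nat.add (f x47748) (Nat.add (f x47754) (Nat.add (f x47764) (Nat.add (f x47766) (Nat.add
    (f x47772) (Nat.add (f x47792) (Nat.add (f x47794) (Nat.add (f x47796) (Nat.add (f x47800)
    (Nat.add (f x47802) (Nat.add (f x47808) (Nat.add (f x47818) (Nat.add (f x47820) (Nat.add
    (f x47826) (Nat.add (f x47844) (Nat.add (f x47876) (Nat.add (f x47878) (Nat.add (f x47882)
    (Nat.add (f x47884) (Nat.add (f x47886) (Nat.add (f x47890) (Nat.add (f x47892) (Nat.add
    (f x47900) (Nat.add (f x47902) (Nat.add (f x47904) (Nat.add (f x47908) (Nat.add (f x47910)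
    (Nat.add (f x47916) (Nat.add (f x47926) (Nat.add (f x47928) (Nat.add (f x47934) (Nat.add
    (f x47954) (Nat.add (f x47956) (Nat.add (f x47958) (Nat.add (f x47962) (Nat.add (f x47964)
    (Nat.add (f x47970) (Nat.add (f x47980) (Nat.add (f x47982) (Nat.add (f x47988) (Nat.add
    (f x48006) (Nat.add (f x48034) (Nat.add (f x48036) (Nat.add (f x48042) (Nat.add (f x48060)
    (Nat.add (f x48140) (Nat.add (f x48158) (Nat.add (f x48164) (Nat.add (f x48166) (Nat.add
    (f x48176) (Nat.add (f x48182) (Nat.add (f x48184) (Nat.add (f x48188) (Nat.add (f x48190)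
    (Nat.add (f x48192) (Nat.add (f x48212) (Nat.add (f x48218) (Nat.add (f x48220) (Nat.add
    (f x48230) 0)))))))))))))))))))))))))))))))))))))))))))))))))))))))))))) (Nat.add (Nat.add
    (f x48236) (Nat.add (f x48238) (Nat.add (f x48242) (Nat.add (f x48244) (Nat.add (f x48246)
    (Nat.add (f x48254) (Nat.add (f x48256) (Nat.add (f x48260) (Nat.add (f x48262) (Nat.add
    (f x48264) (Nat.add (f x48268) (Nat.add (f x48270) (Nat.add (f x48284) (Nat.add (f x48290)
    (Nat.add (f x48292) (Nat.add (f x48296) (Nat.add (f x48298) (Nat.add (f x48300) (Nat.add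
    (f x48308) (Nat.add (f x48310) (Nat.add (f x48314) (Nat.add (f x48316) (Nat.add (f x48318)
    (Nat.add (f x48322) (Nat.add (f x48324) (Nat.add (f x48332) (Nat.add (f x48334) (Nat.add
    (f x48336) (Nat.add (f x48340) (Nat.add (f x48342) (Nat.add (f x48348) (Nat.add (f x48374)
    (Nat.add (f x48380) (Nat.add (f x48382) (Nat.add (f x48392) (Nat.add (f x48398) (Nat.add
    (f x48400) (Nat.add (f x48404) (Nat.add (f x48406) (Nat.add (f x48408) (Nat.add (f x48416)
    (Nat.add (f x48418) (Nat.add (f x48422) (Nat.add (f x48424) (Nat.add (f x48426) (Nat.add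
    (f x48430) (Nat.add (f x48432) (Nat.add (f x48446) (Nat.add (f x48452) (Nat.add (f x48454)
    (Nat.add (f x48458) (Nat.add (f x48460) (Nat.add (f x48462) (Nat.add (f x48470) (Nat.add
    (f x48472) (Nat.add (f x48476) (Nat.add (f x48478) (Nat.add (f x48480) (Nat.add (f x48484)
    (Nat.add (f x48486) 0)))))))))))))))))))))))))))))))))))))))))))))))))))))))))))) (Nat.add
    (Nat.add (f x48494) (Nat.add (f x48496) (Nat.add (f x48498) (Nat.add (f x48502) (Nat.add
    (f x48504) (Nat.add (f x48510) (Nat.add (f x48524) (Nat.add (f x48526) (Nat.add (f x48530)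
    (Nat.add (f x48532) (Nat.add (f x48534) (Nat.add (f x48538) (Nat.add (f x48540) (Nat.add
    (f x48548) (Nat.add (f x48550) (Nat.add (f x48552) (Nat.add (f x48556) (Nat.add (f x48558)
    (Nat.add (f x48564) (Nat.add (f x48574) (Nat.add (f x48576) (Nat.add (f x48582) (Nat.add
    (f x48608) (Nat.add (f x48614) (Nat.add (f x48616) (Nat.add (f x48620) (Nat.add (f x48622)
    (Nat.add (f x48624) (Nat.add (f x48632) (Nat.add (f x48634) (Nat.add (f x48638) (Nat.add
    (f x48640) (Nat.add (f x48642) (Nat.add (f x48646) (Nat.add (f x48648) (Nat.add (f x48656)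
    (Nat.add (f x48658) (Nat.add (f x48660) (Nat.add (f x48664) (Nat.add (f x48666) (Nat.add
    (f x48672) (Nat.add (f x48686) (Nat.add (f x48688) (Nat.add (f x48692) (Nat.add (f x48694)
    (Nat.add (f x48696) (Nat.add (f x48700) (Nat.add (f x48702) (Nat.add (f x48710) (Nat.add
    (f x48712) (Nat.add (f x48714) (Nat.add (f x48718) (Nat.add (f x48720) (Nat.add (f x48726)
    (Nat.add (f x48736) (Nat.add (f x48738) (Nat.add (f x48744) (Nat.add (f x48764) (Nat.add
    (f x48766) (Nat.add (f x48768) 0))))))))))))))))))))))))))))))))))))))))))))))))))))))))))))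
    (Nat.add (Nat.add (f x48772) (Nat.add (f x48774) (Nat.add (f x48780) (Nat.add (f x48790)
    (Nat.add (f x48792) (Nat.add (f x48798) (Nat.add (f x48816) (Nat.add (f x48860) (Nat.add
    (f x48866) (Nat.add (f x48868) (Nat.add (f x48878) (Nat.add (f x48884) (Nat.add (f x48886)
    (Nat.add (f x48890) (Nat.add (f x48892) (Nat.add (f x48894) (Nat.add (f x48902) (Nat.add
    (f x48904) (Nat.add (f x48908) (Nat.add (f x48910) (Nat.add (f x48912) (Nat.add (f x48916)
    (Nat.add (f x48918) (Nat.add (f x48932) (Nat.add (f x48938) (Nat.add (f x48940) (Nat.add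
    (f x48944) (Nat.add (f x48946) (Nat.add (f x48948) (Nat.add (f x48956) (Nat.add (f x48958)
    (Nat.add (f x48962) (Nat.add (f x48964) (Nat.add (f x48966) (Nat.add (f x48970) (Nat.add
    (f x48972) (Nat.add (f x48980) (Nat.add (f x48982) (Nat.add (f x48984) (Nat.add (f x48988)
    (Nat.add (f x48990) (Nat.add (f x48996) (Nat.add (f x49010) (Nat.add (f x49012) (Nat.add
    (f x49016) (Nat.add (f x49018) (Nat.add (f x49020) (Nat.add (f x49024) (Nat.add (f x49026)
    (Nat.add (f x49034) (Nat.add (f x49036) (Nat.add (f x49038) (Nat.add (f x49042) (Nat.add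
    (f x49044) (Nat.add (f x49050) (Nat.add (f x49060) (Nat.add (f x49062) (Nat.add (f x49068)
    (Nat.add (f x49094) (Nat.add (f x49100)
    0)))))))))))))))))))))))))))))))))))))))))))))))))))))))))))) (Nat.add (Nat.add (f x49102)
    (Nat.add (f x49106) (Nat.add (f x49108) (Nat.add (f x49110) (Nat.add (f x49118) (Nat.add
    (f x49120) (Nat.add (f x49124) (Nat.add (f x49126) (Nat.add (f x49128) (Nat.add (f x49132)
    (Nat.add (f x49134) (Nat.add (f x49142) (Nat.add (f x49144) (Nat.add (f x49146) (Nat.add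
    (f x49150) (Nat.add (f x49152) (Nat.add (f x49158) (Nat.add (f x49172) (Nat.add (f x49174)
    (Nat.add (f x49178) (Nat.add (f x49180) (Nat.add (f x49182) (Nat.add (f x49186) (Nat.add
    (f x49188) (Nat.add (f x49196) (Nat.add (f x49198) (Nat.add (f x49200) (Nat.add (f x49204)
    (Nat.add (f x49206) (Nat.add (f x49212) (Nat.add (f x49222) (Nat.add (f x49224) (Nat.add
    (f x49230) (Nat.add (f x49250) (Nat.add (f x49252) (Nat.add (f x49254) (Nat.add (f x49258)
    (Nat.add (f x49260) (Nat.add (f x49266) (Nat.add (f x49276) (Nat.add (f x49278) (Nat.add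
    (f x49284) (Nat.add (f x49302) (Nat.add (f x49334) (Nat.add (f x49336) (Nat.add (f x49340)
    (Nat.add (f x49342) (Nat.add (f x49344) (Nat.add (f x49348) (Nat.add (f x49350) (Nat.add
    (f x49358) (Nat.add (f x49360) (Nat.add (f x49362) (Nat.add (f x49366) (Nat.add (f x49368)
    (Nat.add (f x49374) (Nat.add (f x49384) (Nat.add (f x49386) (Nat.add (f x49392) (Nat.add
    (f x49412) 0)))))))))))))))))))))))))))))))))))))))))))))))))))))))))))) (Nat.add (Nat.add
    (f x49414) (Nat.add (f x49416) (Nat.add (f x49420) (Nat.add (f x49422) (Nat.add (f x49428)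
    (Nat.add (f x49438) (Nat.add (f x49440) (Nat.add (f x49446) (Nat.add (f x49464) (Nat.add
    (f x49492) (Nat.add (f x49494) (Nat.add (f x49500) (Nat.add (f x49518) (Nat.add (f x49580)
    (Nat.add (f x49586) (Nat.add (f x49588) (Nat.add (f x49592) (Nat.add (f x49594) (Nat.add
    (f x49596) (Nat.add (f x49604) (Nat.add (f x49606) (Nat.add (f x49610) (Nat.add (f x49612)
    (Nat.add (f x49614) (Nat.add (f x49618) (Nat.add (f x49620) (Nat.add (f x49628) (Nat.add
    (f x49630) (Nat.add (f x49632) (Nat.add (f x49636) (Nat.add (f x49638) (Nat.add (f x49644)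
    (Nat.add (f x49658) (Nat.add (f x49660) (Nat.add (f x49664) (Nat.add (f x49666) (Nat.add
    (f x49668) (Nat.add (f x49672) (Nat.add (f x49674) (Nat.add (f x49682) (Nat.add (f x49684)
    (Nat.add (f x49686) (Nat.add (f x49690) (Nat.add (f x49692) (Nat.add (f x49698) (Nat.add
    (f x49708) (Nat.add (f x49710) (Nat.add (f x49716) (Nat.add (f x49736) (Nat.add (f x49738)
    (Nat.add (f x49740) (Nat.add (f x49744) (Nat.add (f x49746) (Nat.add (f x49752) (Nat.add
    (f x49762) (Nat.add (f x49764) (Nat.add (f x49770) (Nat.add (f x49788) (Nat.add (f x49820)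
    (Nat.add (f x49822) 0)))))))))))))))))))))))))))))))))))))))))))))))))))))))))))) (Nat.add
    (Nat.add (f x49826) (Nat.add (f x49828) (Nat.add (f x49830) (Nat.add (f x49834) (Nat.add
    (f x49836) (Nat.add (f x49844) (Nat.add (f x49846) (Nat.add (f x49848) (Nat.add (f x49852)
    (Nat.add (f x49854) (Nat.add (f x49860) (Nat.add (f x49870) (Nat.add (f x49872) (Nat.add
    (f x49878) (Nat.add (f x49898) (Nat.add (f x49900) (Nat.add (f x49902) (Nat.add (f x49906)
    (Nat.add (f x49908) (Nat.add (f x49914) (Nat.add (f x49924) (Nat.add (f x49926) (Nat.add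
    (f x49932) (Nat.add (f x49950) (Nat.add (f x49978) (Nat.add (f x49980) (Nat.add (f x49986)
    (Nat.add (f x50004) (Nat.add (f x50060) (Nat.add (f x50062) (Nat.add (f x50064) (Nat.add
    (f x50068) (Nat.add (f x50070) (Nat.add (f x50076) (Nat.add (f x50086) (Nat.add (f x50088)
    (Nat.add (f x50094) (Nat.add (f x50112) (Nat.add (f x50140) (Nat.add (f x50142) (Nat.add
    (f x50148) (Nat.add (f x50166) (Nat.add (f x50220) (Nat.add (f x50318) (Nat.add (f x50324)
    (Nat.add (f x50326) (Nat.add (f x50336) (Nat.add (f x50342) (Nat.add (f x50344) (Nat.add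
    (f x50348) (Nat.add (f x50350) (Nat.add (f x50352) (Nat.add (f x50360) (Nat.add (f x50362)
    (Nat.add (f x50366) (Nat.add (f x50368) (Nat.add (f x50370) (Nat.add (f x50374) (Nat.add
    (f x50376) (Nat.add (f x50390) 0))))))))))))))))))))))))))))))))))))))))))))))))))))))))))))
    (Nat.add (Nat.add (f x50396) (Nat.add (f x50398) (Nat.add (f x50402) (Nat.add (f x50404)
    (Nat.add (f x50406) (Nat.add (f x50414) (Nat.add (f x50416) (Nat.add (f x50420) (Nat.add
    (f x50422) (Nat.add (f x50424) (Nat.add (f x50428) (Nat.add (f x50430) (Nat.add (f x50438)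
    (Nat.add (f x50440) (Nat.add (f x50442) (Nat.add (f x50446) (Nat.add (f x50448) (Nat.add
    (f x50454) (Nat.add (f x50468) (Nat.add (f x50470) (Nat.add (f x50474) (Nat.add (f x50476)
    (Nat.add (f x50478) (Nat.add (f x50482) (Nat.add (f x50484) (Nat.add (f x50492) (Nat.add
    (f x50494) (Nat.add (f x50496) (Nat.add (f x50500) (Nat.add (f x50502) (Nat.add (f x50508)
    (Nat.add (f x50518) (Nat.add (f x50520) (Nat.add (f x50526) (Nat.add (f x50552) (Nat.add
    (f x50558) (Nat.add (f x50560) (Nat.add (f x50564) (Nat.add (f x50566) (Nat.add (f x50568)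
    (Nat.add (f x50576) (Nat.add (f x50578) (Nat.add (f x50582) (Nat.add (f x50584) (Nat.add
    (f x50586) (Nat.add (f x50590) (Nat.add (f x50592) (Nat.add (f x50600) (Nat.add (f x50602)
    (Nat.add (f x50604) (Nat.add (f x50608) (Nat.add (f x50610) (Nat.add (f x50616) (Nat.add
    (f x50630) (Nat.add (f x50632) (Nat.add (f x50636) (Nat.add (f x50638) (Nat.add (f x50640)
    (Nat.add (f x50644) (Nat.add (f x50646)
    0)))))))))))))))))))))))))))))))))))))))))))))))))))))))))))) (Nat.add (Nat.add (f x50654)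
    (Nat.add (f x50656) (Nat.add (f x50658) (Nat.add (f x50662) (Nat.add (f x50664) (Nat.add
    (f x50670) (Nat.add (f x50680) (Nat.add (f x50682) (Nat.add (f x50688) (Nat.add (f x50708)
    (Nat.add (f x50710) (Nat.add (f x50712) (Nat.add (f x50716) (Nat.add (f x50718) (Nat.add
    (f x50724) (Nat.add (f x50734) (Nat.add (f x50736) (Nat.add (f x50742) (Nat.add (f x50760)
    (Nat.add (f x50792) (Nat.add (f x50794) (Nat.add (f x50798) (Nat.add (f x50800) (Nat.add
    (f x50802) (Nat.add (f x50806) (Nat.add (f x50808) (Nat.add (f x50816) (Nat.add (f x50818)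
    (Nat.add (f x50820) (Nat.add (f x50824) (Nat.add (f x50826) (Nat.add (f x50832) (Nat.add
    (f x50842) (Nat.add (f x50844) (Nat.add (f x50850) (Nat.add (f x50870) (Nat.add (f x50872)
    (Nat.add (f x50874) (Nat.add (f x50878) (Nat.add (f x50880) (Nat.add (f x50886) (Nat.add
    (f x50896) (Nat.add (f x50898) (Nat.add (f x50904) (Nat.add (f x50922) (Nat.add (f x50950)
    (Nat.add (f x50952) (Nat.add (f x50958) (Nat.add (f x50976) (Nat.add (f x51038) (Nat.add
    (f x51044) (Nat.add (f x51046) (Nat.add (f x51050) (Nat.add (f x51052) (Nat.add (f x51054)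
    (Nat.add (f x51062) (Nat.add (f x51064) (Nat.add (f x51068) (Nat.add (f x51070) (Nat.add
    (f x51072) 0)))))))))))))))))))))))))))))))))))))))))))))))))))))))))))) (Nat.add (Nat.add
    (f x51076) (Nat.add (f x51078) (Nat.add (f x51086) (Nat.add (f x51088) (Nat.add (f x51090)
    (Nat.add (f x51094) (Nat.add (f x51096) (Nat.add (f x51102) (Nat.add (f x51116) (Nat.add
    (f x51118) (Nat.add (f x51122) (Nat.add (f x51124) (Nat.add (f x51126) (Nat.add (f x51130)
    (Nat.add (f x51132) (Nat.add (f x51140) (Nat.add (f x51142) (Nat.add (f x51144) (Nat.add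
    (f x51148) (Nat.add (f x51150) (Nat.add (f x51156) (Nat.add (f x51166) (Nat.add (f x51168)
    (Nat.add (f x51174) (Nat.add (f x51194) (Nat.add (f x51196) (Nat.add (f x51198) (Nat.add
    (f x51202) (Nat.add (f x51204) (Nat.add (f x51210) (Nat.add (f x51220) (Nat.add (f x51222)
    (Nat.add (f x51228) (Nat.add (f x51246) (Nat.add (f x51278) (Nat.add (f x51280) (Nat.add
    (f x51284) (Nat.add (f x51286) (Nat.add (f x51288) (Nat.add (f x51292) (Nat.add (f x51294)
    (Nat.add (f x51302) (Nat.add (f x51304) (Nat.add (f x51306) (Nat.add (f x51310) (Nat.add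
    (f x51312) (Nat.add (f x51318) (Nat.add (f x51328) (Nat.add (f x51330) (Nat.add (f x51336)
    (Nat.add (f x51356) (Nat.add (f x51358) (Nat.add (f x51360) (Nat.add (f x51364) (Nat.add
    (f x51366) (Nat.add (f x51372) (Nat.add (f x51382) (Nat.add (f x51384) (Nat.add (f x51390)
    (Nat.add (f x51408) 0)))))))))))))))))))))))))))))))))))))))))))))))))))))))))))) (Nat.add
    (Nat.add (f x51436) (Nat.add (f x51438) (Nat.add (f x51444) (Nat.add (f x51462) (Nat.add
    (f x51518) (Nat.add (f x51520) (Nat.add (f x51522) (Nat.add (f x51526) (Nat.add (f x51528)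
    (Nat.add (f x51534) (Nat.add (f x51544) (Nat.add (f x51546) (Nat.add (f x51552) (Nat.add
    (f x51570) (Nat.add (f x51598) (Nat.add (f x51600) (Nat.add (f x51606) (Nat.add (f x51624)
    (Nat.add (f x51678) (Nat.add (f x51764) (Nat.add (f x51766) (Nat.add (f x51770) (Nat.add
    (f x51772) (Nat.add (f x51774) (Nat.add (f x51778) (Nat.add (f x51780) (Nat.add (f x51788)
    (Nat.add (f x51790) (Nat.add (f x51792) (Nat.add (f x51796) (Nat.add (f x51798) (Nat.add
    (f x51804) (Nat.add (f x51814) (Nat.add (f x51816) (Nat.add (f x51822) (Nat.add (f x51842)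
    (Nat.add (f x51844) (Nat.add (f x51846) (Nat.add (f x51850) (Nat.add (f x51852) (Nat.add
    (f x51858) (Nat.add (f x51868) (Nat.add (f x51870) (Nat.add (f x51876) (Nat.add (f x51894)
    (Nat.add (f x51922) (Nat.add (f x51924) (Nat.add (f x51930) (Nat.add (f x51948) (Nat.add
    (f x52004) (Nat.add (f x52006) (Nat.add (f x52008) (Nat.add (f x52012) (Nat.add (f x52014)
    (Nat.add (f x52020) (Nat.add (f x52030) (Nat.add (f x52032) (Nat.add (f x52038) (Nat.add
    (f x52056) (Nat.add (f x52084) 0))))))))))))))))))))))))))))))))))))))))))))))))))))))))))))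
    (Nat.add (Nat.add (f x52086) (Nat.add (f x52092) (Nat.add (f x52110) (Nat.add (f x52164)
    (Nat.add (f x52246) (Nat.add (f x52248) (Nat.add (f x52254) (Nat.add (f x52272) (Nat.add
    (f x52326) (Nat.add (f x52514) (Nat.add (f x52532) (Nat.add (f x52538) (Nat.add (f x52540)
    (Nat.add (f x52550) (Nat.add (f x52556) (Nat.add (f x52558) (Nat.add (f x52562) (Nat.add
    (f x52564) (Nat.add (f x52566) (Nat.add (f x52586) (Nat.add (f x52592) (Nat.add (f x52594)
    (Nat.add (f x52604) (Nat.add (f x52610) (Nat.add (f x52612) (Nat.add (f x52616) (Nat.add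
    (f x52618) (Nat.add (f x52620) (Nat.add (f x52628) (Nat.add (f x52630) (Nat.add (f x52634)
    (Nat.add (f x52636) (Nat.add (f x52638) (Nat.add (f x52642) (Nat.add (f x52644) (Nat.add
    (f x52658) (Nat.add (f x52664) (Nat.add (f x52666) (Nat.add (f x52670) (Nat.add (f x52672)
    (Nat.add (f x52674) (Nat.add (f x52682) (Nat.add (f x52684) (Nat.add (f x52688) (Nat.add
    (f x52690) (Nat.add (f x52692) (Nat.add (f x52696) (Nat.add (f x52698) (Nat.add (f x52706)
    (Nat.add (f x52708) (Nat.add (f x52710) (Nat.add (f x52714) (Nat.add (f x52716) (Nat.add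
    (f x52722) (Nat.add (f x52748) (Nat.add (f x52754) (Nat.add (f x52756) (Nat.add (f x52766)
    (Nat.add (f x52772) (Nat.add (f x52774)
    0)))))))))))))))))))))))))))))))))))))))))))))))))))))))))))) (Nat.add (Nat.add (f x52778)
    (Nat.add (f x52780) (Nat.add (f x52782) (Nat.add (f x52790) (Nat.add (f x52792) (Nat.add
    (f x52796) (Nat.add (f x52798) (Nat.add (f x52800) (Nat.add (f x52804) (Nat.add (f x52806)
    (Nat.add (f x52820) (Nat.add (f x52826) (Nat.add (f x52828) (Nat.add (f x52832) (Nat.add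
    (f x52834) (Nat.add (f x52836) (Nat.add (f x52844) (Nat.add (f x52846) (Nat.add (f x52850)
    (Nat.add (f x52852) (Nat.add (f x52854) (Nat.add (f x52858) (Nat.add (f x52860) (Nat.add
    (f x52868) (Nat.add (f x52870) (Nat.add (f x52872) (Nat.add (f x52876) (Nat.add (f x52878)
    (Nat.add (f x52884) (Nat.add (f x52898) (Nat.add (f x52900) (Nat.add (f x52904) (Nat.add
    (f x52906) (Nat.add (f x52908) (Nat.add (f x52912) (Nat.add (f x52914) (Nat.add (f x52922)
    (Nat.add (f x52924) (Nat.add (f x52926) (Nat.add (f x52930) (Nat.add (f x52932) (Nat.add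
    (f x52938) (Nat.add (f x52948) (Nat.add (f x52950) (Nat.add (f x52956) (Nat.add (f x52982)
    (Nat.add (f x52988) (Nat.add (f x52990) (Nat.add (f x52994) (Nat.add (f x52996) (Nat.add
    (f x52998) (Nat.add (f x53006) (Nat.add (f x53008) (Nat.add (f x53012) (Nat.add (f x53014)
    (Nat.add (f x53016) (Nat.add (f x53020) (Nat.add (f x53022) (Nat.add (f x53030) (Nat.add
    (f x53032) 0)))))))))))))))))))))))))))))))))))))))))))))))))))))))))))) (Nat.add (Nat.add
    (f x53034) (Nat.add (f x53038) (Nat.add (f x53040) (Nat.add (f x53046) (Nat.add (f x53060)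
    (Nat.add (f x53062) (Nat.add (f x53066) (Nat.add (f x53068) (Nat.add (f x53070) (Nat.add
    (f x53074) (Nat.add (f x53076) (Nat.add (f x53084) (Nat.add (f x53086) (Nat.add (f x53088)
    (Nat.add (f x53092) (Nat.add (f x53094) (Nat.add (f x53100) (Nat.add (f x53110) (Nat.add
    (f x53112) (Nat.add (f x53118) (Nat.add (f x53138) (Nat.add (f x53140) (Nat.add (f x53142)
    (Nat.add (f x53146) (Nat.add (f x53148) (Nat.add (f x53154) (Nat.add (f x53164) (Nat.add
    (f x53166) (Nat.add (f x53172) (Nat.add (f x53190) (Nat.add (f x53234) (Nat.add (f x53240)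
    (Nat.add (f x53242) (Nat.add (f x53252) (Nat.add (f x53258) (Nat.add (f x53260) (Nat.add
    (f x53264) (Nat.add (f x53266) (Nat.add (f x53268) (Nat.add (f x53276) (Nat.add (f x53278)
    (Nat.add (f x53282) (Nat.add (f x53284) (Nat.add (f x53286) (Nat.add (f x53290) (Nat.add
    (f x53292) (Nat.add (f x53306) (Nat.add (f x53312) (Nat.add (f x53314) (Nat.add (f x53318)
    (Nat.add (f x53320) (Nat.add (f x53322) (Nat.add (f x53330) (Nat.add (f x53332) (Nat.add
    (f x53336) (Nat.add (f x53338) (Nat.add (f x53340) (Nat.add (f x53344) (Nat.add (f x53346)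
    (Nat.add (f x53354) 0)))))))))))))))))))))))))))))))))))))))))))))))))))))))))))) (Nat.add
    (Nat.add (f x53356) (Nat.add (f x53358) (Nat.add (f x53362) (Nat.add (f x53364) (Nat.add
    (f x53370) (Nat.add (f x53384) (Nat.add (f x53386) (Nat.add (f x53390) (Nat.add (f x53392)
    (Nat.add (f x53394) (Nat.add (f x53398) (Nat.add (f x53400) (Nat.add (f x53408) (Nat.add
    (f x53410) (Nat.add (f x53412) (Nat.add (f x53416) (Nat.add (f x53418) (Nat.add (f x53424)
    (Nat.add (f x53434) (Nat.add (f x53436) (Nat.add (f x53442) (Nat.add (f x53468) (Nat.add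
    (f x53474) (Nat.add (f x53476) (Nat.add (f x53480) (Nat.add (f x53482) (Nat.add (f x53484)
    (Nat.add (f x53492) (Nat.add (f x53494) (Nat.add (f x53498) (Nat.add (f x53500) (Nat.add
    (f x53502) (Nat.add (f x53506) (Nat.add (f x53508) (Nat.add (f x53516) (Nat.add (f x53518)
    (Nat.add (f x53520) (Nat.add (f x53524) (Nat.add (f x53526) (Nat.add (f x53532) (Nat.add
    (f x53546) (Nat.add (f x53548) (Nat.add (f x53552) (Nat.add (f x53554) (Nat.add (f x53556)
    (Nat.add (f x53560) (Nat.add (f x53562) (Nat.add (f x53570) (Nat.add (f x53572) (Nat.add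
    (f x53574) (Nat.add (f x53578) (Nat.add (f x53580) (Nat.add (f x53586) (Nat.add (f x53596)
    (Nat.add (f x53598) (Nat.add (f x53604) (Nat.add (f x53624) (Nat.add (f x53626) (Nat.add
    (f x53628) (Nat.add (f x53632) 0))))))))))))))))))))))))))))))))))))))))))))))))))))))))))))
    (Nat.add (Nat.add (f x53634) (Nat.add (f x53640) (Nat.add (f x53650) (Nat.add (f x53652)
    (Nat.add (f x53658) (Nat.add (f x53676) (Nat.add (f x53708) (Nat.add (f x53710) (Nat.add
    (f x53714) (Nat.add (f x53716) (Nat.add (f x53718) (Nat.add (f x53722) (Nat.add (f x53724)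
    (Nat.add (f x53732) (Nat.add (f x53734) (Nat.add (f x53736) (Nat.add (f x53740) (Nat.add
    (f x53742) (Nat.add (f x53748) (Nat.add (f x53758) (Nat.add (f x53760) (Nat.add (f x53766)
    (Nat.add (f x53786) (Nat.add (f x53788) (Nat.add (f x53790) (Nat.add (f x53794) (Nat.add
    (f x53796) (Nat.add (f x53802) (Nat.add (f x53812) (Nat.add (f x53814) (Nat.add (f x53820)
    (Nat.add (f x53838) (Nat.add (f x53866) (Nat.add (f x53868) (Nat.add (f x53874) (Nat.add
    (f x53892) (Nat.add (f x53954) (Nat.add (f x53960) (Nat.add (f x53962) (Nat.add (f x53966)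
    (Nat.add (f x53968) (Nat.add (f x53970) (Nat.add (f x53978) (Nat.add (f x53980) (Nat.add
    (f x53984) (Nat.add (f x53986) (Nat.add (f x53988) (Nat.add (f x53992) (Nat.add (f x53994)
    (Nat.add (f x54002) (Nat.add (f x54004) (Nat.add (f x54006) (Nat.add (f x54010) (Nat.add
    (f x54012) (Nat.add (f x54018) (Nat.add (f x54032) (Nat.add (f x54034) (Nat.add (f x54038)
    (Nat.add (f x54040) (Nat.add (f x54042)
    0)))))))))))))))))))))))))))))))))))))))))))))))))))))))))))) (Nat.add (Nat.add (f x54046)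
    (Nat.add (f x54048) (Nat.add (f x54056) (Nat.add (f x54058) (Nat.add (f x54060) (Nat.add
    (f x54064) (Nat.add (f x54066) (Nat.add (f x54072) (Nat.add (f x54082) (Nat.add (f x54084)
    (Nat.add (f x54090) (Nat.add (f x54110) (Nat.add (f x54112) (Nat.add (f x54114) (Nat.add
    (f x54118) (Nat.add (f x54120) (Nat.add (f x54126) (Nat.add (f x54136) (Nat.add (f x54138)
    (Nat.add (f x54144) (Nat.add (f x54162) (Nat.add (f x54194) (Nat.add (f x54196) (Nat.add
    (f x54200) (Nat.add (f x54202) (Nat.add (f x54204) (Nat.add (f x54208) (Nat.add (f x54210)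
    (Nat.add (f x54218) (Nat.add (f x54220) (Nat.add (f x54222) (Nat.add (f x54226) (Nat.add
    (f x54228) (Nat.add (f x54234) (Nat.add (f x54244) (Nat.add (f x54246) (Nat.add (f x54252)
    (Nat.add (f x54272) (Nat.add (f x54274) (Nat.add (f x54276) (Nat.add (f x54280) (Nat.add
    (f x54282) (Nat.add (f x54288) (Nat.add (f x54298) (Nat.add (f x54300) (Nat.add (f x54306)
    (Nat.add (f x54324) (Nat.add (f x54352) (Nat.add (f x54354) (Nat.add (f x54360) (Nat.add
    (f x54378) (Nat.add (f x54434) (Nat.add (f x54436) (Nat.add (f x54438) (Nat.add (f x54442)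
    (Nat.add (f x54444) (Nat.add (f x54450) (Nat.add (f x54460) (Nat.add (f x54462) (Nat.add
    (f x54468) 0)))))))))))))))))))))))))))))))))))))))))))))))))))))))))))) (Nat.add (Nat.add
    (f x54486) (Nat.add (f x54514) (Nat.add (f x54516) (Nat.add (f x54522) (Nat.add (f x54540)
    (Nat.add (f x54594) (Nat.add (f x54692) (Nat.add (f x54698) (Nat.add (f x54700) (Nat.add
    (f x54710) (Nat.add (f x54716) (Nat.add (f x54718) (Nat.add (f x54722) (Nat.add (f x54724)
    (Nat.add (f x54726) (Nat.add (f x54734) (Nat.add (f x54736) (Nat.add (f x54740) (Nat.add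
    (f x54742) (Nat.add (f x54744) (Nat.add (f x54748) (Nat.add (f x54750) (Nat.add (f x54764)
    (Nat.add (f x54770) (Nat.add (f x54772) (Nat.add (f x54776) (Nat.add (f x54778) (Nat.add
    (f x54780) (Nat.add (f x54788) (Nat.add (f x54790) (Nat.add (f x54794) (Nat.add (f x54796)
    (Nat.add (f x54798) (Nat.add (f x54802) (Nat.add (f x54804) (Nat.add (f x54812) (Nat.add
    (f x54814) (Nat.add (f x54816) (Nat.add (f x54820) (Nat.add (f x54822) (Nat.add (f x54828)
    (Nat.add (f x54842) (Nat.add (f x54844) (Nat.add (f x54848) (Nat.add (f x54850) (Nat.add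
    (f x54852) (Nat.add (f x54856) (Nat.add (f x54858) (Nat.add (f x54866) (Nat.add (f x54868)
    (Nat.add (f x54870) (Nat.add (f x54874) (Nat.add (f x54876) (Nat.add (f x54882) (Nat.add
    (f x54892) (Nat.add (f x54894) (Nat.add (f x54900) (Nat.add (f x54926) (Nat.add (f x54932)
    (Nat.add (f x54934) 0)))))))))))))))))))))))))))))))))))))))))))))))))))))))))))) (Nat.add
    (Nat.add (f x54938) (Nat.add (f x54940) (Nat.add (f x54942) (Nat.add (f x54950) (Nat.add
    (f x54952) (Nat.add (f x54956) (Nat.add (f x54958) (Nat.add (f x54960) (Nat.add (f x54964)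
    (Nat.add (f x54966) (Nat.add (f x54974) (Nat.add (f x54976) (Nat.add (f x54978) (Nat.add
    (f x54982) (Nat.add (f x54984) (Nat.add (f x54990) (Nat.add (f x55004) (Nat.add (f x55006)
    (Nat.add (f x55010) (Nat.add (f x55012) (Nat.add (f x55014) (Nat.add (f x55018) (Nat.add
    (f x55020) (Nat.add (f x55028) (Nat.add (f x55030) (Nat.add (f x55032) (Nat.add (f x55036)
    (Nat.add (f x55038) (Nat.add (f x55044) (Nat.add (f x55054) (Nat.add (f x55056) (Nat.add
    (f x55062) (Nat.add (f x55082) (Nat.add (f x55084) (Nat.add (f x55086) (Nat.add (f x55090)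
    (Nat.add (f x55092) (Nat.add (f x55098) (Nat.add (f x55108) (Nat.add (f x55110) (Nat.add
    (f x55116) (Nat.add (f x55134) (Nat.add (f x55166) (Nat.add (f x55168) (Nat.add (f x55172)
    (Nat.add (f x55174) (Nat.add (f x55176) (Nat.add (f x55180) (Nat.add (f x55182) (Nat.add
    (f x55190) (Nat.add (f x55192) (Nat.add (f x55194) (Nat.add (f x55198) (Nat.add (f x55200)
    (Nat.add (f x55206) (Nat.add (f x55216) (Nat.add (f x55218) (Nat.add (f x55224) (Nat.add
    (f x55244) (Nat.add (f x55246) 0))))))))))))))))))))))))))))))))))))))))))))))))))))))))))))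
    (Nat.add (Nat.add (f x55248) (Nat.add (f x55252) (Nat.add (f x55254) (Nat.add (f x55260)
    (Nat.add (f x55270) (Nat.add (f x55272) (Nat.add (f x55278) (Nat.add (f x55296) (Nat.add
    (f x55324) (Nat.add (f x55326) (Nat.add (f x55332) (Nat.add (f x55350) (Nat.add (f x55412)
    (Nat.add (f x55418) (Nat.add (f x55420) (Nat.add (f x55424) (Nat.add (f x55426) (Nat.add
    (f x55428) (Nat.add (f x55436) (Nat.add (f x55438) (Nat.add (f x55442) (Nat.add (f x55444)
    (Nat.add (f x55446) (Nat.add (f x55450) (Nat.add (f x55452) (Nat.add (f x55460) (Nat.add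
    (f x55462) (Nat.add (f x55464) (Nat.add (f x55468) (Nat.add (f x55470) (Nat.add (f x55476)
    (Nat.add (f x55490) (Nat.add (f x55492) (Nat.add (f x55496) (Nat.add (f x55498) (Nat.add
    (f x55500) (Nat.add (f x55504) (Nat.add (f x55506) (Nat.add (f x55514) (Nat.add (f x55516)
    (Nat.add (f x55518) (Nat.add (f x55522) (Nat.add (f x55524) (Nat.add (f x55530) (Nat.add
    (f x55540) (Nat.add (f x55542) (Nat.add (f x55548) (Nat.add (f x55568) (Nat.add (f x55570)
    (Nat.add (f x55572) (Nat.add (f x55576) (Nat.add (f x55578) (Nat.add (f x55584) (Nat.add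
    (f x55594) (Nat.add (f x55596) (Nat.add (f x55602) (Nat.add (f x55620) (Nat.add (f x55652)
    (Nat.add (f x55654) (Nat.add (f x55658)
    0)))))))))))))))))))))))))))))))))))))))))))))))))))))))))))) (Nat.add (Nat.add (f x55660)
    (Nat.add (f x55662) (Nat.add (f x55666) (Nat.add (f x55668) (Nat.add (f x55676) (Nat.add
    (f x55678) (Nat.add (f x55680) (Nat.add (f x55684) (Nat.add (f x55686) (Nat.add (f x55692)
    (Nat.add (f x55702) (Nat.add (f x55704) (Nat.add (f x55710) (Nat.add (f x55730) (Nat.add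
    (f x55732) (Nat.add (f x55734) (Nat.add (f x55738) (Nat.add (f x55740) (Nat.add (f x55746)
    (Nat.add (f x55756) (Nat.add (f x55758) (Nat.add (f x55764) (Nat.add (f x55782) (Nat.add
    (f x55810) (Nat.add (f x55812) (Nat.add (f x55818) (Nat.add (f x55836) (Nat.add (f x55892)
    (Nat.add (f x55894) (Nat.add (f x55896) (Nat.add (f x55900) (Nat.add (f x55902) (Nat.add
    (f x55908) (Nat.add (f x55918) (Nat.add (f x55920) (Nat.add (f x55926) (Nat.add (f x55944)
    (Nat.add (f x55972) (Nat.add (f x55974) (Nat.add (f x55980) (Nat.add (f x55998) (Nat.add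
    (f x56052) (Nat.add (f x56138) (Nat.add (f x56140) (Nat.add (f x56144) (Nat.add (f x56146)
    (Nat.add (f x56148) (Nat.add (f x56152) (Nat.add (f x56154) (Nat.add (f x56162) (Nat.add
    (f x56164) (Nat.add (f x56166) (Nat.add (f x56170) (Nat.add (f x56172) (Nat.add (f x56178)
    (Nat.add (f x56188) (Nat.add (f x56190) (Nat.add (f x56196) (Nat.add (f x56216) (Nat.add
    (f x56218) 0)))))))))))))))))))))))))))))))))))))))))))))))))))))))))))) (Nat.add (Nat.add
    (f x56220) (Nat.add (f x56224) (Nat.add (f x56226) (Nat.add (f x56232) (Nat.add (f x56242)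
    (Nat.add (f x56244) (Nat.add (f x56250) (Nat.add (f x56268) (Nat.add (f x56296) (Nat.add
    (f x56298) (Nat.add (f x56304) (Nat.add (f x56322) (Nat.add (f x56378) (Nat.add (f x56380)
    (Nat.add (f x56382) (Nat.add (f x56386) (Nat.add (f x56388) (Nat.add (f x56394) (Nat.add
    (f x56404) (Nat.add (f x56406) (Nat.add (f x56412) (Nat.add (f x56430) (Nat.add (f x56458)
    (Nat.add (f x56460) (Nat.add (f x56466) (Nat.add (f x56484) (Nat.add (f x56538) (Nat.add
    (f x56620) (Nat.add (f x56622) (Nat.add (f x56628) (Nat.add (f x56646) (Nat.add (f x56700)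
    (Nat.add (f x56870) (Nat.add (f x56876) (Nat.add (f x56878) (Nat.add (f x56882) (Nat.add
    (f x56884) (Nat.add (f x56886) (Nat.add (f x56894) (Nat.add (f x56896) (Nat.add (f x56900)
    (Nat.add (f x56902) (Nat.add (f x56904) (Nat.add (f x56908) (Nat.add (f x56910) (Nat.add
    (f x56918) (Nat.add (f x56920) (Nat.add (f x56922) (Nat.add (f x56926) (Nat.add (f x56928)
    (Nat.add (f x56934) (Nat.add (f x56948) (Nat.add (f x56950) (Nat.add (f x56954) (Nat.add
    (f x56956) (Nat.add (f x56958) (Nat.add (f x56962) (Nat.add (f x56964) (Nat.add (f x56972)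
    (Nat.add (f x56974) 0)))))))))))))))))))))))))))))))))))))))))))))))))))))))))))) (Nat.add
    (Nat.add (f x56976) (Nat.add (f x56980) (Nat.add (f x56982) (Nat.add (f x56988) (Nat.add
    (f x56998) (Nat.add (f x57000) (Nat.add (f x57006) (Nat.add (f x57026) (Nat.add (f x57028)
    (Nat.add (f x57030) (Nat.add (f x57034) (Nat.add (f x57036) (Nat.add (f x57042) (Nat.add
    (f x57052) (Nat.add (f x57054) (Nat.add (f x57060) (Nat.add (f x57078) (Nat.add (f x57110)
    (Nat.add (f x57112) (Nat.add (f x57116) (Nat.add (f x57118) (Nat.add (f x57120) (Nat.add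
    (f x57124) (Nat.add (f x57126) (Nat.add (f x57134) (Nat.add (f x57136) (Nat.add (f x57138)
    (Nat.add (f x57142) (Nat.add (f x57144) (Nat.add (f x57150) (Nat.add (f x57160) (Nat.add
    (f x57162) (Nat.add (f x57168) (Nat.add (f x57188) (Nat.add (f x57190) (Nat.add (f x57192)
    (Nat.add (f x57196) (Nat.add (f x57198) (Nat.add (f x57204) (Nat.add (f x57214) (Nat.add
    (f x57216) (Nat.add (f x57222) (Nat.add (f x57240) (Nat.add (f x57268) (Nat.add (f x57270)
    (Nat.add (f x57276) (Nat.add (f x57294) (Nat.add (f x57350) (Nat.add (f x57352) (Nat.add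
    (f x57354) (Nat.add (f x57358) (Nat.add (f x57360) (Nat.add (f x57366) (Nat.add (f x57376)
    (Nat.add (f x57378) (Nat.add (f x57384) (Nat.add (f x57402) (Nat.add (f x57430) (Nat.add
    (f x57432) (Nat.add (f x57438) 0))))))))))))))))))))))))))))))))))))))))))))))))))))))))))))
    (Nat.add (Nat.add (f x57456) (Nat.add (f x57510) (Nat.add (f x57596) (Nat.add (f x57598)
    (Nat.add (f x57602) (Nat.add (f x57604) (Nat.add (f x57606) (Nat.add (f x57610) (Nat.add
    (f x57612) (Nat.add (f x57620) (Nat.add (f x57622) (Nat.add (f x57624) (Nat.add (f x57628)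
    (Nat.add (f x57630) (Nat.add (f x57636) (Nat.add (f x57646) (Nat.add (f x57648) (Nat.add
    (f x57654) (Nat.add (f x57674) (Nat.add (f x57676) (Nat.add (f x57678) (Nat.add (f x57682)
    (Nat.add (f x57684) (Nat.add (f x57690) (Nat.add (f x57700) (Nat.add (f x57702) (Nat.add
    (f x57708) (Nat.add (f x57726) (Nat.add (f x57754) (Nat.add (f x57756) (Nat.add (f x57762)
    (Nat.add (f x57780) (Nat.add (f x57836) (Nat.add (f x57838) (Nat.add (f x57840) (Nat.add
    (f x57844) (Nat.add (f x57846) (Nat.add (f x57852) (Nat.add (f x57862) (Nat.add (f x57864)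
    (Nat.add (f x57870) (Nat.add (f x57888) (Nat.add (f x57916) (Nat.add (f x57918) (Nat.add
    (f x57924) (Nat.add (f x57942) (Nat.add (f x57996) (Nat.add (f x58078) (Nat.add (f x58080)
    (Nat.add (f x58086) (Nat.add (f x58104) (Nat.add (f x58158) (Nat.add (f x58322) (Nat.add
    (f x58324) (Nat.add (f x58326) (Nat.add (f x58330) (Nat.add (f x58332) (Nat.add (f x58338)
    (Nat.add (f x58348) (Nat.add (f x58350)
    0)))))))))))))))))))))))))))))))))))))))))))))))))))))))))))) (Nat.add (Nat.add (f x58356)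
    (Nat.add (f x58374) (Nat.add (f x58402) (Nat.add (f x58404) (Nat.add (f x58410) (Nat.add
    (f x58428) (Nat.add (f x58482) (Nat.add (f x58564) (Nat.add (f x58566) (Nat.add (f x58572)
    (Nat.add (f x58590) (Nat.add (f x58644) (Nat.add (f x58806) 0)))))))))))))
    0)))))))))))))))))))))))))))))))))))))))))))))))))))))))))))))))))))))))))))))))))))))))))))))))))))))))))))))))))))))))))))))))))))))))))))))))))))))) v1) (Nat.beq
    (Nat.add (Nat.add (f (Nat.add x242 x58806)) (Nat.add (f (Nat.add x404 x58644)) (Nat.add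
    (f (Nat.add x458 x58590)) (Nat.add (f (Nat.add x476 x58572)) (Nat.add (f (Nat.add x482 x58566))
    (Nat.add (f (Nat.add x484 x58564)) (Nat.add (f (Nat.add x566 x58482)) (Nat.add
    (f (Nat.add x620 x58428)) (Nat.add (f (Nat.add x638 x58410)) (Nat.add (f (Nat.add x644 x58404))
    (Nat.add (f (Nat.add x646 x58402)) (Nat.add (f (Nat.add x674 x58374)) (Nat.add
    (f (Nat.add x692 x58356)) (Nat.add (f (Nat.add x698 x58350)) (Nat.add (f (Nat.add x700 x58348))
    (Nat.add (f (Nat.add x710 x58338)) (Nat.add (f (Nat.add x716 x58332)) (Nat.add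
    (f (Nat.add x718 x58330)) (Nat.add (f (Nat.add x722 x58326)) (Nat.add (f (Nat.add x724 x58324))
    (Nat.add (f (Nat.add x726 x58322)) (Nat.add (f (Nat.add x890 x58158)) (Nat.add
    (f (Nat.add x944 x58104)) (Nat.add (f (Nat.add x962 x58086)) (Nat.add (f (Nat.add x968 x58080))
    (Nat.add (f (Nat.add x970 x58078)) (Nat.add (f (Nat.add x1052 x57996)) (Nat.add
    (f (Nat.add x1106 x57942)) (Nat.add (f (Nat.add x1124 x57924)) (Nat.add
    (f (Nat.add x1130 x57918)) (Nat.add (f (Nat.add x1132 x57916)) (Nat.add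
    (f (Nat.add x1160 x57888)) (Nat.add (f (Nat.add x1178 x57870)) (Nat.add
    (f (Nat.add x1184 x57864)) (Nat.add (f (Nat.add x1186 x57862)) (Nat.add
    (f (Nat.add x1196 x57852)) (Nat.add (f (Nat.add x1202 x57846)) (Nat.add
    (f (Nat.add x1204 x57844)) (Nat.add (f (Nat.add x1208 x57840)) (Nat.add
    (f (Nat.add x1210 x57838)) (Nat.add (f (Nat.add x1212 x57836)) (Nat.add
    (f (Nat.add x1268 x57780)) (Nat.add (f (Nat.add x1286 x57762)) (Nat.add
    (f (Nat.add x1292 x57756)) (Nat.add (f (Nat.add x1294 x57754)) (Nat.add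
    (f (Nat.add x1322 x57726)) (Nat.add (f (Nat.add x1340 x57708)) (Nat.add
    (f (Nat.add x1346 x57702)) (Nat.add (f (Nat.add x1348 x57700)) (Nat.add
    (f (Nat.add x1358 x57690)) (Nat.add (f (Nat.add x1364 x57684)) (Nat.add
    (f (Nat.add x1366 x57682)) (Nat.add (f (Nat.add x1370 x57678)) (Nat.add
    (f (Nat.add x1372 x57676)) (Nat.add (f (Nat.add x1374 x57674)) (Nat.add
    (f (Nat.add x1394 x57654)) (Nat.add (f (Nat.add x1400 x57648)) (Nat.add
    (f (Nat.add x1402 x57646)) (Nat.add (f (Nat.add x1412 x57636)) (Nat.add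
    (f (Nat.add x1418 x57630)) 0))))))))))))))))))))))))))))))))))))))))))))))))))))))))))))
    (Nat.add (Nat.add (f (Nat.add x1420 x57628)) (Nat.add (f (Nat.add x1424 x57624)) (Nat.add
    (f (Nat.add x1426 x57622)) (Nat.add (f (Nat.add x1428 x57620)) (Nat.add
    (f (Nat.add x1436 x57612)) (Nat.add (f (Nat.add x1438 x57610)) (Nat.add
    (f (Nat.add x1442 x57606)) (Nat.add (f (Nat.add x1444 x57604)) (Nat.add
    (f (Nat.add x1446 x57602)) (Nat.add (f (Nat.add x1450 x57598)) (Nat.add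
    (f (Nat.add x1452 x57596)) (Nat.add (f (Nat.add x1538 x57510)) (Nat.add
    (f (Nat.add x1592 x57456)) (Nat.add (f (Nat.add x1610 x57438)) (Nat.add
    (f (Nat.add x1616 x57432)) (Nat.add (f (Nat.add x1618 x57430)) (Nat.add
    (f (Nat.add x1646 x57402)) (Nat.add (f (Nat.add x1664 x57384)) (Nat.add
    (f (Nat.add x1670 x57378)) (Nat.add (f (Nat.add x1672 x57376)) (Nat.add
    (f (Nat.add x1682 x57366)) (Nat.add (f (Nat.add x1688 x57360)) (Nat.add
    (f (Nat.add x1690 x57358)) (Nat.add (f (Nat.add x1694 x57354)) (Nat.add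
    (f (Nat.add x1696 x57352)) (Nat.add (f (Nat.add x1698 x57350)) (Nat.add
    (f (Nat.add x1754 x57294)) (Nat.add (f (Nat.add x1772 x57276)) (Nat.add
    (f (Nat.add x1778 x57270)) (Nat.add (f (Nat.add x1780 x57268)) (Nat.add
    (f (Nat.add x1808 x57240)) (Nat.add (f (Nat.add x1826 x57222)) (Nat.add
    (f (Nat.add x1832 x57216)) (Nat.add (f (Nat.add x1834 x57214)) (Nat.add
    (f (Nat.add x1844 x57204)) (Nat.add (f (Nat.add x1850 x57198)) (Nat.add
    (f (Nat.add x1852 x57196)) (Nat.add (f (Nat.add x1856 x57192)) (Nat.add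
    (f (Nat.add x1858 x57190)) (Nat.add (f (Nat.add x1860 x57188)) (Nat.add
    (f (Nat.add x1880 x57168)) (Nat.add (f (Nat.add x1886 x57162)) (Nat.add
    (f (Nat.add x1888 x57160)) (Nat.add (f (Nat.add x1898 x57150)) (Nat.add
    (f (Nat.add x1904 x57144)) (Nat.add (f (Nat.add x1906 x57142)) (Nat.add
    (f (Nat.add x1910 x57138)) (Nat.add (f (Nat.add x1912 x57136)) (Nat.add
    (f (Nat.add x1914 x57134)) (Nat.add (f (Nat.add x1922 x57126)) (Nat.add
    (f (Nat.add x1924 x57124)) (Nat.add (f (Nat.add x1928 x57120)) (Nat.add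
    (f (Nat.add x1930 x57118)) (Nat.add (f (Nat.add x1932 x57116)) (Nat.add
    (f (Nat.add x1936 x57112)) (Nat.add (f (Nat.add x1938 x57110)) (Nat.add
    (f (Nat.add x1970 x57078)) (Nat.add (f (Nat.add x1988 x57060)) (Nat.add
    (f (Nat.add x1994 x57054)) (Nat.add (f (Nat.add x1996 x57052))
    0)))))))))))))))))))))))))))))))))))))))))))))))))))))))))))) (Nat.add (Nat.add
    (f (Nat.add x2006 x57042)) (Nat.add (f (Nat.add x2012 x57036)) (Nat.add
    (f (Nat.add x2014 x57034)) (Nat.add (f (Nat.add x2018 x57030)) (Nat.add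
    (f (Nat.add x2020 x57028)) (Nat.add (f (Nat.add x2022 x57026)) (Nat.add
    (f (Nat.add x2042 x57006)) (Nat.add (f (Nat.add x2048 x57000)) (Nat.add
    (f (Nat.add x2050 x56998)) (Nat.add (f (Nat.add x2060 x56988)) (Nat.add
    (f (Nat.add x2066 x56982)) (Nat.add (f (Nat.add x2068 x56980)) (Nat.add
    (f (Nat.add x2072 x56976)) (Nat.add (f (Nat.add x2074 x56974)) (Nat.add
    (f (Nat.add x2076 x56972)) (Nat.add (f (Nat.add x2084 x56964)) (Nat.add
    (f (Nat.add x2086 x56962)) (Nat.add (f (Nat.add x2090 x56958)) (Nat.add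
    (f (Nat.add x2092 x56956)) (Nat.add (f (Nat.add x2094 x56954)) (Nat.add
    (f (Nat.add x2098 x56950)) (Nat.add (f (Nat.add x2100 x56948)) (Nat.add
    (f (Nat.add x2114 x56934)) (Nat.add (f (Nat.add x2120 x56928)) (Nat.add
    (f (Nat.add x2122 x56926)) (Nat.add (f (Nat.add x2126 x56922)) (Nat.add
    (f (Nat.add x2128 x56920)) (Nat.add (f (Nat.add x2130 x56918)) (Nat.add
    (f (Nat.add x2138 x56910)) (Nat.add (f (Nat.add x2140 x56908)) (Nat.add
    (f (Nat.add x2144 x56904)) (Nat.add (f (Nat.add x2146 x56902)) (Nat.add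
    (f (Nat.add x2148 x56900)) (Nat.add (f (Nat.add x2152 x56896)) (Nat.add
    (f (Nat.add x2154 x56894)) (Nat.add (f (Nat.add x2162 x56886)) (Nat.add
    (f (Nat.add x2164 x56884)) (Nat.add (f (Nat.add x2166 x56882)) (Nat.add
    (f (Nat.add x2170 x56878)) (Nat.add (f (Nat.add x2172 x56876)) (Nat.add
    (f (Nat.add x2178 x56870)) (Nat.add (f (Nat.add x2348 x56700)) (Nat.add
    (f (Nat.add x2402 x56646)) (Nat.add (f (Nat.add x2420 x56628)) (Nat.add
    (f (Nat.add x2426 x56622)) (Nat.add (f (Nat.add x2428 x56620)) (Nat.add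
    (f (Nat.add x2510 x56538)) (Nat.add (f (Nat.add x2564 x56484)) (Nat.add
    (f (Nat.add x2582 x56466)) (Nat.add (f (Nat.add x2588 x56460)) (Nat.add
    (f (Nat.add x2590 x56458)) (Nat.add (f (Nat.add x2618 x56430)) (Nat.add
    (f (Nat.add x2636 x56412)) (Nat.add (f (Nat.add x2642 x56406)) (Nat.add
    (f (Nat.add x2644 x56404)) (Nat.add (f (Nat.add x2654 x56394)) (Nat.add
    (f (Nat.add x2660 x56388)) (Nat.add (f (Nat.add x2662 x56386)) (Nat.add
    (f (Nat.add x2666 x56382)) (Nat.add (f (Nat.add x2668 x56380))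
    0)))))))))))))))))))))))))))))))))))))))))))))))))))))))))))) (Nat.add (Nat.add
    (f (Nat.add x2670 x56378)) (Nat.add (f (Nat.add x2726 x56322)) (Nat.add
    (f (Nat.add x2744 x56304)) (Nat.add (f (Nat.add x2750 x56298)) (Nat.add
    (f (Nat.add x2752 x56296)) (Nat.add (f (Nat.add x2780 x56268)) (Nat.add
    (f (Nat.add x2798 x56250)) (Nat.add (f (Nat.add x2804 x56244)) (Nat.add
    (f (Nat.add x2806 x56242)) (Nat.add (f (Nat.add x2816 x56232)) (Nat.add
    (f (Nat.add x2822 x56226)) (Nat.add (f (Nat.add x2824 x56224)) (Nat.add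
    (f (Nat.add x2828 x56220)) (Nat.add (f (Nat.add x2830 x56218)) (Nat.add
    (f (Nat.add x2832 x56216)) (Nat.add (f (Nat.add x2852 x56196)) (Nat.add
    (f (Nat.add x2858 x56190)) (Nat.add (f (Nat.add x2860 x56188)) (Nat.add
    (f (Nat.add x2870 x56178)) (Nat.add (f (Nat.add x2876 x56172)) (Nat.add
    (f (Nat.add x2878 x56170)) (Nat.add (f (Nat.add x2882 x56166)) (Nat.add
    (f (Nat.add x2884 x56164)) (Nat.add (f (Nat.add x2886 x56162)) (Nat.add
    (f (Nat.add x2894 x56154)) (Nat.add (f (Nat.add x2896 x56152)) (Nat.add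
    (f (Nat.add x2900 x56148)) (Nat.add (f (Nat.add x2902 x56146)) (Nat.add
    (f (Nat.add x2904 x56144)) (Nat.add (f (Nat.add x2908 x56140)) (Nat.add
    (f (Nat.add x2910 x56138)) (Nat.add (f (Nat.add x2996 x56052)) (Nat.add
    (f (Nat.add x3050 x55998)) (Nat.add (f (Nat.add x3068 x55980)) (Nat.add
    (f (Nat.add x3074 x55974)) (Nat.add (f (Nat.add x3076 x55972)) (Nat.add
    (f (Nat.add x3104 x55944)) (Nat.add (f (Nat.add x3122 x55926)) (Nat.add
    (f (Nat.add x3128 x55920)) (Nat.add (f (Nat.add x3130 x55918)) (Nat.add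
    (f (Nat.add x3140 x55908)) (Nat.add (f (Nat.add x3146 x55902)) (Nat.add
    (f (Nat.add x3148 x55900)) (Nat.add (f (Nat.add x3152 x55896)) (Nat.add
    (f (Nat.add x3154 x55894)) (Nat.add (f (Nat.add x3156 x55892)) (Nat.add
    (f (Nat.add x3212 x55836)) (Nat.add (f (Nat.add x3230 x55818)) (Nat.add
    (f (Nat.add x3236 x55812)) (Nat.add (f (Nat.add x3238 x55810)) (Nat.add
    (f (Nat.add x3266 x55782)) (Nat.add (f (Nat.add x3284 x55764)) (Nat.add
    (f (Nat.add x3290 x55758)) (Nat.add (f (Nat.add x3292 x55756)) (Nat.add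
    (f (Nat.add x3302 x55746)) (Nat.add (f (Nat.add x3308 x55740)) (Nat.add
    (f (Nat.add x3310 x55738)) (Nat.add (f (Nat.add x3314 x55734)) (Nat.add
    (f (Nat.add x3316 x55732)) (Nat.add (f (Nat.add x3318 x55730))
    0)))))))))))))))))))))))))))))))))))))))))))))))))))))))))))) (Nat.add (Nat.add
    (f (Nat.add x3338 x55710)) (Nat.add (f (Nat.add x3344 x55704)) (Nat.add
    (f (Nat.add x3346 x55702)) (Nat.add (f (Nat.add x3356 x55692)) (Nat.add
    (f (Nat.add x3362 x55686)) (Nat.add (f (Nat.add x3364 x55684)) (Nat.add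
    (f (Nat.add x3368 x55680)) (Nat.add (f (Nat.add x3370 x55678)) (Nat.add
    (f (Nat.add x3372 x55676)) (Nat.add (f (Nat.add x3380 x55668)) (Nat.add
    (f (Nat.add x3382 x55666)) (Nat.add (f (Nat.add x3386 x55662)) (Nat.add
    (f (Nat.add x3388 x55660)) (Nat.add (f (Nat.add x3390 x55658)) (Nat.add
    (f (Nat.add x3394 x55654)) (Nat.add (f (Nat.add x3396 x55652)) (Nat.add
    (f (Nat.add x3428 x55620)) (Nat.add (f (Nat.add x3446 x55602)) (Nat.add
    (f (Nat.add x3452 x55596)) (Nat.add (f (Nat.add x3454 x55594)) (Nat.add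
    (f (Nat.add x3464 x55584)) (Nat.add (f (Nat.add x3470 x55578)) (Nat.add
    (f (Nat.add x3472 x55576)) (Nat.add (f (Nat.add x3476 x55572)) (Nat.add
    (f (Nat.add x3478 x55570)) (Nat.add (f (Nat.add x3480 x55568)) (Nat.add
    (f (Nat.add x3500 x55548)) (Nat.add (f (Nat.add x3506 x55542)) (Nat.add
    (f (Nat.add x3508 x55540)) (Nat.add (f (Nat.add x3518 x55530)) (Nat.add
    (f (Nat.add x3524 x55524)) (Nat.add (f (Nat.add x3526 x55522)) (Nat.add
    (f (Nat.add x3530 x55518)) (Nat.add (f (Nat.add x3532 x55516)) (Nat.add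
    (f (Nat.add x3534 x55514)) (Nat.add (f (Nat.add x3542 x55506)) (Nat.add
    (f (Nat.add x3544 x55504)) (Nat.add (f (Nat.add x3548 x55500)) (Nat.add
    (f (Nat.add x3550 x55498)) (Nat.add (f (Nat.add x3552 x55496)) (Nat.add
    (f (Nat.add x3556 x55492)) (Nat.add (f (Nat.add x3558 x55490)) (Nat.add
    (f (Nat.add x3572 x55476)) (Nat.add (f (Nat.add x3578 x55470)) (Nat.add
    (f (Nat.add x3580 x55468)) (Nat.add (f (Nat.add x3584 x55464)) (Nat.add
    (f (Nat.add x3586 x55462)) (Nat.add (f (Nat.add x3588 x55460)) (Nat.add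
    (f (Nat.add x3596 x55452)) (Nat.add (f (Nat.add x3598 x55450)) (Nat.add
    (f (Nat.add x3602 x55446)) (Nat.add (f (Nat.add x3604 x55444)) (Nat.add
    (f (Nat.add x3606 x55442)) (Nat.add (f (Nat.add x3610 x55438)) (Nat.add
    (f (Nat.add x3612 x55436)) (Nat.add (f (Nat.add x3620 x55428)) (Nat.add
    (f (Nat.add x3622 x55426)) (Nat.add (f (Nat.add x3624 x55424)) (Nat.add
    (f (Nat.add x3628 x55420)) (Nat.add (f (Nat.add x3630 x55418))
    0)))))))))))))))))))))))))))))))))))))))))))))))))))))))))))) (Nat.add (Nat.add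
    (f (Nat.add x3636 x55412)) (Nat.add (f (Nat.add x3698 x55350)) (Nat.add
    (f (Nat.add x3716 x55332)) (Nat.add (f (Nat.add x3722 x55326)) (Nat.add
    (f (Nat.add x3724 x55324)) (Nat.add (f (Nat.add x3752 x55296)) (Nat.add
    (f (Nat.add x3770 x55278)) (Nat.add (f (Nat.add x3776 x55272)) (Nat.add
    (f (Nat.add x3778 x55270)) (Nat.add (f (Nat.add x3788 x55260)) (Nat.add
    (f (Nat.add x3794 x55254)) (Nat.add (f (Nat.add x3796 x55252)) (Nat.add
    (f (Nat.add x3800 x55248)) (Nat.add (f (Nat.add x3802 x55246)) (Nat.add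
    (f (Nat.add x3804 x55244)) (Nat.add (f (Nat.add x3824 x55224)) (Nat.add
    (f (Nat.add x3830 x55218)) (Nat.add (f (Nat.add x3832 x55216)) (Nat.add
    (f (Nat.add x3842 x55206)) (Nat.add (f (Nat.add x3848 x55200)) (Nat.add
    (f (Nat.add x3850 x55198)) (Nat.add (f (Nat.add x3854 x55194)) (Nat.add
    (f (Nat.add x3856 x55192)) (Nat.add (f (Nat.add x3858 x55190)) (Nat.add
    (f (Nat.add x3866 x55182)) (Nat.add (f (Nat.add x3868 x55180)) (Nat.add
    (f (Nat.add x3872 x55176)) (Nat.add (f (Nat.add x3874 x55174)) (Nat.add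
    (f (Nat.add x3876 x55172)) (Nat.add (f (Nat.add x3880 x55168)) (Nat.add
    (f (Nat.add x3882 x55166)) (Nat.add (f (Nat.add x3914 x55134)) (Nat.add
    (f (Nat.add x3932 x55116)) (Nat.add (f (Nat.add x3938 x55110)) (Nat.add
    (f (Nat.add x3940 x55108)) (Nat.add (f (Nat.add x3950 x55098)) (Nat.add
    (f (Nat.add x3956 x55092)) (Nat.add (f (Nat.add x3958 x55090)) (Nat.add
    (f (Nat.add x3962 x55086)) (Nat.add (f (Nat.add x3964 x55084)) (Nat.add
    (f (Nat.add x3966 x55082)) (Nat.add (f (Nat.add x3986 x55062)) (Nat.add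
    (f (Nat.add x3992 x55056)) (Nat.add (f (Nat.add x3994 x55054)) (Nat.add
    (f (Nat.add x4004 x55044)) (Nat.add (f (Nat.add x4010 x55038)) (Nat.add
    (f (Nat.add x4012 x55036)) (Nat.add (f (Nat.add x4016 x55032)) (Nat.add
    (f (Nat.add x4018 x55030)) (Nat.add (f (Nat.add x4020 x55028)) (Nat.add
    (f (Nat.add x4028 x55020)) (Nat.add (f (Nat.add x4030 x55018)) (Nat.add
    (f (Nat.add x4034 x55014)) (Nat.add (f (Nat.add x4036 x55012)) (Nat.add
    (f (Nat.add x4038 x55010)) (Nat.add (f (Nat.add x4042 x55006)) (Nat.add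
    (f (Nat.add x4044 x55004)) (Nat.add (f (Nat.add x4058 x54990)) (Nat.add
    (f (Nat.add x4064 x54984)) (Nat.add (f (Nat.add x4066 x54982))
    0)))))))))))))))))))))))))))))))))))))))))))))))))))))))))))) (Nat.add (Nat.add
    (f (Nat.add x4070 x54978)) (Nat.add (f (Nat.add x4072 x54976)) (Nat.add
    (f (Nat.add x4074 x54974)) (Nat.add (f (Nat.add x4082 x54966)) (Nat.add
    (f (Nat.add x4084 x54964)) (Nat.add (f (Nat.add x4088 x54960)) (Nat.add
    (f (Nat.add x4090 x54958)) (Nat.add (f (Nat.add x4092 x54956)) (Nat.add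
    (f (Nat.add x4096 x54952)) (Nat.add (f (Nat.add x4098 x54950)) (Nat.add
    (f (Nat.add x4106 x54942)) (Nat.add (f (Nat.add x4108 x54940)) (Nat.add
    (f (Nat.add x4110 x54938)) (Nat.add (f (Nat.add x4114 x54934)) (Nat.add
    (f (Nat.add x4116 x54932)) (Nat.add (f (Nat.add x4122 x54926)) (Nat.add
    (f (Nat.add x4148 x54900)) (Nat.add (f (Nat.add x4154 x54894)) (Nat.add
    (f (Nat.add x4156 x54892)) (Nat.add (f (Nat.add x4166 x54882)) (Nat.add
    (f (Nat.add x4172 x54876)) (Nat.add (f (Nat.add x4174 x54874)) (Nat.add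
    (f (Nat.add x4178 x54870)) (Nat.add (f (Nat.add x4180 x54868)) (Nat.add
    (f (Nat.add x4182 x54866)) (Nat.add (f (Nat.add x4190 x54858)) (Nat.add
    (f (Nat.add x4192 x54856)) (Nat.add (f (Nat.add x4196 x54852)) (Nat.add
    (f (Nat.add x4198 x54850)) (Nat.add (f (Nat.add x4200 x54848)) (Nat.add
    (f (Nat.add x4204 x54844)) (Nat.add (f (Nat.add x4206 x54842)) (Nat.add
    (f (Nat.add x4220 x54828)) (Nat.add (f (Nat.add x4226 x54822)) (Nat.add
    (f (Nat.add x4228 x54820)) (Nat.add (f (Nat.add x4232 x54816)) (Nat.add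
    (f (Nat.add x4234 x54814)) (Nat.add (f (Nat.add x4236 x54812)) (Nat.add
    (f (Nat.add x4244 x54804)) (Nat.add (f (Nat.add x4246 x54802)) (Nat.add
    (f (Nat.add x4250 x54798)) (Nat.add (f (Nat.add x4252 x54796)) (Nat.add
    (f (Nat.add x4254 x54794)) (Nat.add (f (Nat.add x4258 x54790)) (Nat.add
    (f (Nat.add x4260 x54788)) (Nat.add (f (Nat.add x4268 x54780)) (Nat.add
    (f (Nat.add x4270 x54778)) (Nat.add (f (Nat.add x4272 x54776)) (Nat.add
    (f (Nat.add x4276 x54772)) (Nat.add (f (Nat.add x4278 x54770)) (Nat.add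
    (f (Nat.add x4284 x54764)) (Nat.add (f (Nat.add x4298 x54750)) (Nat.add
    (f (Nat.add x4300 x54748)) (Nat.add (f (Nat.add x4304 x54744)) (Nat.add
    (f (Nat.add x4306 x54742)) (Nat.add (f (Nat.add x4308 x54740)) (Nat.add
    (f (Nat.add x4312 x54736)) (Nat.add (f (Nat.add x4314 x54734)) (Nat.add
    (f (Nat.add x4322 x54726)) (Nat.add (f (Nat.add x4324 x54724))
    0)))))))))))))))))))))))))))))))))))))))))))))))))))))))))))) (Nat.add (Nat.add
    (f (Nat.add x4326 x54722)) (Nat.add (f (Nat.add x4330 x54718)) (Nat.add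
    (f (Nat.add x4332 x54716)) (Nat.add (f (Nat.add x4338 x54710)) (Nat.add
    (f (Nat.add x4348 x54700)) (Nat.add (f (Nat.add x4350 x54698)) (Nat.add
    (f (Nat.add x4356 x54692)) (Nat.add (f (Nat.add x4454 x54594)) (Nat.add
    (f (Nat.add x4508 x54540)) (Nat.add (f (Nat.add x4526 x54522)) (Nat.add
    (f (Nat.add x4532 x54516)) (Nat.add (f (Nat.add x4534 x54514)) (Nat.add
    (f (Nat.add x4562 x54486)) (Nat.add (f (Nat.add x4580 x54468)) (Nat.add
    (f (Nat.add x4586 x54462)) (Nat.add (f (Nat.add x4588 x54460)) (Nat.add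
    (f (Nat.add x4598 x54450)) (Nat.add (f (Nat.add x4604 x54444)) (Nat.add
    (f (Nat.add x4606 x54442)) (Nat.add (f (Nat.add x4610 x54438)) (Nat.add
    (f (Nat.add x4612 x54436)) (Nat.add (f (Nat.add x4614 x54434)) (Nat.add
    (f (Nat.add x4670 x54378)) (Nat.add (f (Nat.add x4688 x54360)) (Nat.add
    (f (Nat.add x4694 x54354)) (Nat.add (f (Nat.add x4696 x54352)) (Nat.add
    (f (Nat.add x4724 x54324)) (Nat.add (f (Nat.add x4742 x54306)) (Nat.add
    (f (Nat.add x4748 x54300)) (Nat.add (f (Nat.add x4750 x54298)) (Nat.add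
    (f (Nat.add x4760 x54288)) (Nat.add (f (Nat.add x4766 x54282)) (Nat.add
    (f (Nat.add x4768 x54280)) (Nat.add (f (Nat.add x4772 x54276)) (Nat.add
    (f (Nat.add x4774 x54274)) (Nat.add (f (Nat.add x4776 x54272)) (Nat.add
    (f (Nat.add x4796 x54252)) (Nat.add (f (Nat.add x4802 x54246)) (Nat.add
    (f (Nat.add x4804 x54244)) (Nat.add (f (Nat.add x4814 x54234)) (Nat.add
    (f (Nat.add x4820 x54228)) (Nat.add (f (Nat.add x4822 x54226)) (Nat.add
    (f (Nat.add x4826 x54222)) (Nat.add (f (Nat.add x4828 x54220)) (Nat.add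
    (f (Nat.add x4830 x54218)) (Nat.add (f (Nat.add x4838 x54210)) (Nat.add
    (f (Nat.add x4840 x54208)) (Nat.add (f (Nat.add x4844 x54204)) (Nat.add
    (f (Nat.add x4846 x54202)) (Nat.add (f (Nat.add x4848 x54200)) (Nat.add
    (f (Nat.add x4852 x54196)) (Nat.add (f (Nat.add x4854 x54194)) (Nat.add
    (f (Nat.add x4886 x54162)) (Nat.add (f (Nat.add x4904 x54144)) (Nat.add
    (f (Nat.add x4910 x54138)) (Nat.add (f (Nat.add x4912 x54136)) (Nat.add
    (f (Nat.add x4922 x54126)) (Nat.add (f (Nat.add x4928 x54120)) (Nat.add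
    (f (Nat.add x4930 x54118)) (Nat.add (f (Nat.add x4934 x54114))
    0)))))))))))))))))))))))))))))))))))))))))))))))))))))))))))) (Nat.add (Nat.add
    (f (Nat.add x4936 x54112)) (Nat.add (f (Nat.add x4938 x54110)) (Nat.add
    (f (Nat.add x4958 x54090)) (Nat.add (f (Nat.add x4964 x54084)) (Nat.add
    (f (Nat.add x4966 x54082)) (Nat.add (f (Nat.add x4976 x54072)) (Nat.add
    (f (Nat.add x4982 x54066)) (Nat.add (f (Nat.add x4984 x54064)) (Nat.add
    (f (Nat.add x4988 x54060)) (Nat.add (f (Nat.add x4990 x54058)) (Nat.add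
    (f (Nat.add x4992 x54056)) (Nat.add (f (Nat.add x5000 x54048)) (Nat.add
    (f (Nat.add x5002 x54046)) (Nat.add (f (Nat.add x5006 x54042)) (Nat.add
    (f (Nat.add x5008 x54040)) (Nat.add (f (Nat.add x5010 x54038)) (Nat.add
    (f (Nat.add x5014 x54034)) (Nat.add (f (Nat.add x5016 x54032)) (Nat.add
    (f (Nat.add x5030 x54018)) (Nat.add (f (Nat.add x5036 x54012)) (Nat.add
    (f (Nat.add x5038 x54010)) (Nat.add (f (Nat.add x5042 x54006)) (Nat.add
    (f (Nat.add x5044 x54004)) (Nat.add (f (Nat.add x5046 x54002)) (Nat.add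
    (f (Nat.add x5054 x53994)) (Nat.add (f (Nat.add x5056 x53992)) (Nat.add
    (f (Nat.add x5060 x53988)) (Nat.add (f (Nat.add x5062 x53986)) (Nat.add
    (f (Nat.add x5064 x53984)) (Nat.add (f (Nat.add x5068 x53980)) (Nat.add
    (f (Nat.add x5070 x53978)) (Nat.add (f (Nat.add x5078 x53970)) (Nat.add
    (f (Nat.add x5080 x53968)) (Nat.add (f (Nat.add x5082 x53966)) (Nat.add
    (f (Nat.add x5086 x53962)) (Nat.add (f (Nat.add x5088 x53960)) (Nat.add
    (f (Nat.add x5094 x53954)) (Nat.add (f (Nat.add x5156 x53892)) (Nat.add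
    (f (Nat.add x5174 x53874)) (Nat.add (f (Nat.add x5180 x53868)) (Nat.add
    (f (Nat.add x5182 x53866)) (Nat.add (f (Nat.add x5210 x53838)) (Nat.add
    (f (Nat.add x5228 x53820)) (Nat.add (f (Nat.add x5234 x53814)) (Nat.add
    (f (Nat.add x5236 x53812)) (Nat.add (f (Nat.add x5246 x53802)) (Nat.add
    (f (Nat.add x5252 x53796)) (Nat.add (f (Nat.add x5254 x53794)) (Nat.add
    (f (Nat.add x5258 x53790)) (Nat.add (f (Nat.add x5260 x53788)) (Nat.add
    (f (Nat.add x5262 x53786)) (Nat.add (f (Nat.add x5282 x53766)) (Nat.add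
    (f (Nat.add x5288 x53760)) (Nat.add (f (Nat.add x5290 x53758)) (Nat.add
    (f (Nat.add x5300 x53748)) (Nat.add (f (Nat.add x5306 x53742)) (Nat.add
    (f (Nat.add x5308 x53740)) (Nat.add (f (Nat.add x5312 x53736)) (Nat.add
    (f (Nat.add x5314 x53734)) (Nat.add (f (Nat.add x5316 x53732))
    0)))))))))))))))))))))))))))))))))))))))))))))))))))))))))))) (Nat.add (Nat.add
    (f (Nat.add x5324 x53724)) (Nat.add (f (Nat.add x5326 x53722)) (Nat.add
    (f (Nat.add x5330 x53718)) (Nat.add (f (Nat.add x5332 x53716)) (Nat.add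
    (f (Nat.add x5334 x53714)) (Nat.add (f (Nat.add x5338 x53710)) (Nat.add
    (f (Nat.add x5340 x53708)) (Nat.add (f (Nat.add x5372 x53676)) (Nat.add
    (f (Nat.add x5390 x53658)) (Nat.add (f (Nat.add x5396 x53652)) (Nat.add
    (f (Nat.add x5398 x53650)) (Nat.add (f (Nat.add x5408 x53640)) (Nat.add
    (f (Nat.add x5414 x53634)) (Nat.add (f (Nat.add x5416 x53632)) (Nat.add
    (f (Nat.add x5420 x53628)) (Nat.add (f (Nat.add x5422 x53626)) (Nat.add
    (f (Nat.add x5424 x53624)) (Nat.add (f (Nat.add x5444 x53604)) (Nat.add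
    (f (Nat.add x5450 x53598)) (Nat.add (f (Nat.add x5452 x53596)) (Nat.add
    (f (Nat.add x5462 x53586)) (Nat.add (f (Nat.add x5468 x53580)) (Nat.add
    (f (Nat.add x5470 x53578)) (Nat.add (f (Nat.add x5474 x53574)) (Nat.add
    (f (Nat.add x5476 x53572)) (Nat.add (f (Nat.add x5478 x53570)) (Nat.add
    (f (Nat.add x5486 x53562)) (Nat.add (f (Nat.add x5488 x53560)) (Nat.add
    (f (Nat.add x5492 x53556)) (Nat.add (f (Nat.add x5494 x53554)) (Nat.add
    (f (Nat.add x5496 x53552)) (Nat.add (f (Nat.add x5500 x53548)) (Nat.add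
    (f (Nat.add x5502 x53546)) (Nat.add (f (Nat.add x5516 x53532)) (Nat.add
    (f (Nat.add x5522 x53526)) (Nat.add (f (Nat.add x5524 x53524)) (Nat.add
    (f (Nat.add x5528 x53520)) (Nat.add (f (Nat.add x5530 x53518)) (Nat.add
    (f (Nat.add x5532 x53516)) (Nat.add (f (Nat.add x5540 x53508)) (Nat.add
    (f (Nat.add x5542 x53506)) (Nat.add (f (Nat.add x5546 x53502)) (Nat.add
    (f (Nat.add x5548 x53500)) (Nat.add (f (Nat.add x5550 x53498)) (Nat.add
    (f (Nat.add x5554 x53494)) (Nat.add (f (Nat.add x5556 x53492)) (Nat.add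
    (f (Nat.add x5564 x53484)) (Nat.add (f (Nat.add x5566 x53482)) (Nat.add
    (f (Nat.add x5568 x53480)) (Nat.add (f (Nat.add x5572 x53476)) (Nat.add
    (f (Nat.add x5574 x53474)) (Nat.add (f (Nat.add x5580 x53468)) (Nat.add
    (f (Nat.add x5606 x53442)) (Nat.add (f (Nat.add x5612 x53436)) (Nat.add
    (f (Nat.add x5614 x53434)) (Nat.add (f (Nat.add x5624 x53424)) (Nat.add
    (f (Nat.add x5630 x53418)) (Nat.add (f (Nat.add x5632 x53416)) (Nat.add
    (f (Nat.add x5636 x53412)) (Nat.add (f (Nat.add x5638 x53410))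
    0)))))))))))))))))))))))))))))))))))))))))))))))))))))))))))) (Nat.add (Nat.add
    (f (Nat.add x5640 x53408)) (Nat.add (f (Nat.add x5648 x53400)) (Nat.add
    (f (Nat.add x5650 x53398)) (Nat.add (f (Nat.add x5654 x53394)) (Nat.add
    (f (Nat.add x5656 x53392)) (Nat.add (f (Nat.add x5658 x53390)) (Nat.add
    (f (Nat.add x5662 x53386)) (Nat.add (f (Nat.add x5664 x53384)) (Nat.add
    (f (Nat.add x5678 x53370)) (Nat.add (f (Nat.add x5684 x53364)) (Nat.add
    (f (Nat.add x5686 x53362)) (Nat.add (f (Nat.add x5690 x53358)) (Nat.add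
    (f (Nat.add x5692 x53356)) (Nat.add (f (Nat.add x5694 x53354)) (Nat.add
    (f (Nat.add x5702 x53346)) (Nat.add (f (Nat.add x5704 x53344)) (Nat.add
    (f (Nat.add x5708 x53340)) (Nat.add (f (Nat.add x5710 x53338)) (Nat.add
    (f (Nat.add x5712 x53336)) (Nat.add (f (Nat.add x5716 x53332)) (Nat.add
    (f (Nat.add x5718 x53330)) (Nat.add (f (Nat.add x5726 x53322)) (Nat.add
    (f (Nat.add x5728 x53320)) (Nat.add (f (Nat.add x5730 x53318)) (Nat.add
    (f (Nat.add x5734 x53314)) (Nat.add (f (Nat.add x5736 x53312)) (Nat.add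
    (f (Nat.add x5742 x53306)) (Nat.add (f (Nat.add x5756 x53292)) (Nat.add
    (f (Nat.add x5758 x53290)) (Nat.add (f (Nat.add x5762 x53286)) (Nat.add
    (f (Nat.add x5764 x53284)) (Nat.add (f (Nat.add x5766 x53282)) (Nat.add
    (f (Nat.add x5770 x53278)) (Nat.add (f (Nat.add x5772 x53276)) (Nat.add
    (f (Nat.add x5780 x53268)) (Nat.add (f (Nat.add x5782 x53266)) (Nat.add
    (f (Nat.add x5784 x53264)) (Nat.add (f (Nat.add x5788 x53260)) (Nat.add
    (f (Nat.add x5790 x53258)) (Nat.add (f (Nat.add x5796 x53252)) (Nat.add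
    (f (Nat.add x5806 x53242)) (Nat.add (f (Nat.add x5808 x53240)) (Nat.add
    (f (Nat.add x5814 x53234)) (Nat.add (f (Nat.add x5858 x53190)) (Nat.add
    (f (Nat.add x5876 x53172)) (Nat.add (f (Nat.add x5882 x53166)) (Nat.add
    (f (Nat.add x5884 x53164)) (Nat.add (f (Nat.add x5894 x53154)) (Nat.add
    (f (Nat.add x5900 x53148)) (Nat.add (f (Nat.add x5902 x53146)) (Nat.add
    (f (Nat.add x5906 x53142)) (Nat.add (f (Nat.add x5908 x53140)) (Nat.add
    (f (Nat.add x5910 x53138)) (Nat.add (f (Nat.add x5930 x53118)) (Nat.add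
    (f (Nat.add x5936 x53112)) (Nat.add (f (Nat.add x5938 x53110)) (Nat.add
    (f (Nat.add x5948 x53100)) (Nat.add (f (Nat.add x5954 x53094)) (Nat.add
    (f (Nat.add x5956 x53092)) (Nat.add (f (Nat.add x5960 x53088))
    0)))))))))))))))))))))))))))))))))))))))))))))))))))))))))))) (Nat.add (Nat.add
    (f (Nat.add x5962 x53086)) (Nat.add (f (Nat.add x5964 x53084)) (Nat.add
    (f (Nat.add x5972 x53076)) (Nat.add (f (Nat.add x5974 x53074)) (Nat.add
    (f (Nat.add x5978 x53070)) (Nat.add (f (Nat.add x5980 x53068)) (Nat.add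
    (f (Nat.add x5982 x53066)) (Nat.add (f (Nat.add x5986 x53062)) (Nat.add
    (f (Nat.add x5988 x53060)) (Nat.add (f (Nat.add x6002 x53046)) (Nat.add
    (f (Nat.add x6008 x53040)) (Nat.add (f (Nat.add x6010 x53038)) (Nat.add
    (f (Nat.add x6014 x53034)) (Nat.add (f (Nat.add x6016 x53032)) (Nat.add
    (f (Nat.add x6018 x53030)) (Nat.add (f (Nat.add x6026 x53022)) (Nat.add
    (f (Nat.add x6028 x53020)) (Nat.add (f (Nat.add x6032 x53016)) (Nat.add
    (f (Nat.add x6034 x53014)) (Nat.add (f (Nat.add x6036 x53012)) (Nat.add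
    (f (Nat.add x6040 x53008)) (Nat.add (f (Nat.add x6042 x53006)) (Nat.add
    (f (Nat.add x6050 x52998)) (Nat.add (f (Nat.add x6052 x52996)) (Nat.add
    (f (Nat.add x6054 x52994)) (Nat.add (f (Nat.add x6058 x52990)) (Nat.add
    (f (Nat.add x6060 x52988)) (Nat.add (f (Nat.add x6066 x52982)) (Nat.add
    (f (Nat.add x6092 x52956)) (Nat.add (f (Nat.add x6098 x52950)) (Nat.add
    (f (Nat.add x6100 x52948)) (Nat.add (f (Nat.add x6110 x52938)) (Nat.add
    (f (Nat.add x6116 x52932)) (Nat.add (f (Nat.add x6118 x52930)) (Nat.add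
    (f (Nat.add x6122 x52926)) (Nat.add (f (Nat.add x6124 x52924)) (Nat.add
    (f (Nat.add x6126 x52922)) (Nat.add (f (Nat.add x6134 x52914)) (Nat.add
    (f (Nat.add x6136 x52912)) (Nat.add (f (Nat.add x6140 x52908)) (Nat.add
    (f (Nat.add x6142 x52906)) (Nat.add (f (Nat.add x6144 x52904)) (Nat.add
    (f (Nat.add x6148 x52900)) (Nat.add (f (Nat.add x6150 x52898)) (Nat.add
    (f (Nat.add x6164 x52884)) (Nat.add (f (Nat.add x6170 x52878)) (Nat.add
    (f (Nat.add x6172 x52876)) (Nat.add (f (Nat.add x6176 x52872)) (Nat.add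
    (f (Nat.add x6178 x52870)) (Nat.add (f (Nat.add x6180 x52868)) (Nat.add
    (f (Nat.add x6188 x52860)) (Nat.add (f (Nat.add x6190 x52858)) (Nat.add
    (f (Nat.add x6194 x52854)) (Nat.add (f (Nat.add x6196 x52852)) (Nat.add
    (f (Nat.add x6198 x52850)) (Nat.add (f (Nat.add x6202 x52846)) (Nat.add
    (f (Nat.add x6204 x52844)) (Nat.add (f (Nat.add x6212 x52836)) (Nat.add
    (f (Nat.add x6214 x52834)) (Nat.add (f (Nat.add x6216 x52832))
    0)))))))))))))))))))))))))))))))))))))))))))))))))))))))))))) (Nat.add (Nat.add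
    (f (Nat.add x6220 x52828)) (Nat.add (f (Nat.add x6222 x52826)) (Nat.add
    (f (Nat.add x6228 x52820)) (Nat.add (f (Nat.add x6242 x52806)) (Nat.add
    (f (Nat.add x6244 x52804)) (Nat.add (f (Nat.add x6248 x52800)) (Nat.add
    (f (Nat.add x6250 x52798)) (Nat.add (f (Nat.add x6252 x52796)) (Nat.add
    (f (Nat.add x6256 x52792)) (Nat.add (f (Nat.add x6258 x52790)) (Nat.add
    (f (Nat.add x6266 x52782)) (Nat.add (f (Nat.add x6268 x52780)) (Nat.add
    (f (Nat.add x6270 x52778)) (Nat.add (f (Nat.add x6274 x52774)) (Nat.add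
    (f (Nat.add x6276 x52772)) (Nat.add (f (Nat.add x6282 x52766)) (Nat.add
    (f (Nat.add x6292 x52756)) (Nat.add (f (Nat.add x6294 x52754)) (Nat.add
    (f (Nat.add x6300 x52748)) (Nat.add (f (Nat.add x6326 x52722)) (Nat.add
    (f (Nat.add x6332 x52716)) (Nat.add (f (Nat.add x6334 x52714)) (Nat.add
    (f (Nat.add x6338 x52710)) (Nat.add (f (Nat.add x6340 x52708)) (Nat.add
    (f (Nat.add x6342 x52706)) (Nat.add (f (Nat.add x6350 x52698)) (Nat.add
    (f (Nat.add x6352 x52696)) (Nat.add (f (Nat.add x6356 x52692)) (Nat.add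
    (f (Nat.add x6358 x52690)) (Nat.add (f (Nat.add x6360 x52688)) (Nat.add
    (f (Nat.add x6364 x52684)) (Nat.add (f (Nat.add x6366 x52682)) (Nat.add
    (f (Nat.add x6374 x52674)) (Nat.add (f (Nat.add x6376 x52672)) (Nat.add
    (f (Nat.add x6378 x52670)) (Nat.add (f (Nat.add x6382 x52666)) (Nat.add
    (f (Nat.add x6384 x52664)) (Nat.add (f (Nat.add x6390 x52658)) (Nat.add
    (f (Nat.add x6404 x52644)) (Nat.add (f (Nat.add x6406 x52642)) (Nat.add
    (f (Nat.add x6410 x52638)) (Nat.add (f (Nat.add x6412 x52636)) (Nat.add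
    (f (Nat.add x6414 x52634)) (Nat.add (f (Nat.add x6418 x52630)) (Nat.add
    (f (Nat.add x6420 x52628)) (Nat.add (f (Nat.add x6428 x52620)) (Nat.add
    (f (Nat.add x6430 x52618)) (Nat.add (f (Nat.add x6432 x52616)) (Nat.add
    (f (Nat.add x6436 x52612)) (Nat.add (f (Nat.add x6438 x52610)) (Nat.add
    (f (Nat.add x6444 x52604)) (Nat.add (f (Nat.add x6454 x52594)) (Nat.add
    (f (Nat.add x6456 x52592)) (Nat.add (f (Nat.add x6462 x52586)) (Nat.add
    (f (Nat.add x6482 x52566)) (Nat.add (f (Nat.add x6484 x52564)) (Nat.add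
    (f (Nat.add x6486 x52562)) (Nat.add (f (Nat.add x6490 x52558)) (Nat.add
    (f (Nat.add x6492 x52556)) (Nat.add (f (Nat.add x6498 x52550))
    0)))))))))))))))))))))))))))))))))))))))))))))))))))))))))))) (Nat.add (Nat.add
    (f (Nat.add x6508 x52540)) (Nat.add (f (Nat.add x6510 x52538)) (Nat.add
    (f (Nat.add x6516 x52532)) (Nat.add (f (Nat.add x6534 x52514)) (Nat.add
    (f (Nat.add x6722 x52326)) (Nat.add (f (Nat.add x6776 x52272)) (Nat.add
    (f (Nat.add x6794 x52254)) (Nat.add (f (Nat.add x6800 x52248)) (Nat.add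
    (f (Nat.add x6802 x52246)) (Nat.add (f (Nat.add x6884 x52164)) (Nat.add
    (f (Nat.add x6938 x52110)) (Nat.add (f (Nat.add x6956 x52092)) (Nat.add
    (f (Nat.add x6962 x52086)) (Nat.add (f (Nat.add x6964 x52084)) (Nat.add
    (f (Nat.add x6992 x52056)) (Nat.add (f (Nat.add x7010 x52038)) (Nat.add
    (f (Nat.add x7016 x52032)) (Nat.add (f (Nat.add x7018 x52030)) (Nat.add
    (f (Nat.add x7028 x52020)) (Nat.add (f (Nat.add x7034 x52014)) (Nat.add
    (f (Nat.add x7036 x52012)) (Nat.add (f (Nat.add x7040 x52008)) (Nat.add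
    (f (Nat.add x7042 x52006)) (Nat.add (f (Nat.add x7044 x52004)) (Nat.add
    (f (Nat.add x7100 x51948)) (Nat.add (f (Nat.add x7118 x51930)) (Nat.add
    (f (Nat.add x7124 x51924)) (Nat.add (f (Nat.add x7126 x51922)) (Nat.add
    (f (Nat.add x7154 x51894)) (Nat.add (f (Nat.add x7172 x51876)) (Nat.add
    (f (Nat.add x7178 x51870)) (Nat.add (f (Nat.add x7180 x51868)) (Nat.add
    (f (Nat.add x7190 x51858)) (Nat.add (f (Nat.add x7196 x51852)) (Nat.add
    (f (Nat.add x7198 x51850)) (Nat.add (f (Nat.add x7202 x51846)) (Nat.add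
    (f (Nat.add x7204 x51844)) (Nat.add (f (Nat.add x7206 x51842)) (Nat.add
    (f (Nat.add x7226 x51822)) (Nat.add (f (Nat.add x7232 x51816)) (Nat.add
    (f (Nat.add x7234 x51814)) (Nat.add (f (Nat.add x7244 x51804)) (Nat.add
    (f (Nat.add x7250 x51798)) (Nat.add (f (Nat.add x7252 x51796)) (Nat.add
    (f (Nat.add x7256 x51792)) (Nat.add (f (Nat.add x7258 x51790)) (Nat.add
    (f (Nat.add x7260 x51788)) (Nat.add (f (Nat.add x7268 x51780)) (Nat.add
    (f (Nat.add x7270 x51778)) (Nat.add (f (Nat.add x7274 x51774)) (Nat.add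
    (f (Nat.add x7276 x51772)) (Nat.add (f (Nat.add x7278 x51770)) (Nat.add
    (f (Nat.add x7282 x51766)) (Nat.add (f (Nat.add x7284 x51764)) (Nat.add
    (f (Nat.add x7370 x51678)) (Nat.add (f (Nat.add x7424 x51624)) (Nat.add
    (f (Nat.add x7442 x51606)) (Nat.add (f (Nat.add x7448 x51600)) (Nat.add
    (f (Nat.add x7450 x51598)) (Nat.add (f (Nat.add x7478 x51570))
    0)))))))))))))))))))))))))))))))))))))))))))))))))))))))))))) (Nat.add (Nat.add
    (f (Nat.add x7496 x51552)) (Nat.add (f (Nat.add x7502 x51546)) (Nat.add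
    (f (Nat.add x7504 x51544)) (Nat.add (f (Nat.add x7514 x51534)) (Nat.add
    (f (Nat.add x7520 x51528)) (Nat.add (f (Nat.add x7522 x51526)) (Nat.add
    (f (Nat.add x7526 x51522)) (Nat.add (f (Nat.add x7528 x51520)) (Nat.add
    (f (Nat.add x7530 x51518)) (Nat.add (f (Nat.add x7586 x51462)) (Nat.add
    (f (Nat.add x7604 x51444)) (Nat.add (f (Nat.add x7610 x51438)) (Nat.add
    (f (Nat.add x7612 x51436)) (Nat.add (f (Nat.add x7640 x51408)) (Nat.add
    (f (Nat.add x7658 x51390)) (Nat.add (f (Nat.add x7664 x51384)) (Nat.add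
    (f (Nat.add x7666 x51382)) (Nat.add (f (Nat.add x7676 x51372)) (Nat.add
    (f (Nat.add x7682 x51366)) (Nat.add (f (Nat.add x7684 x51364)) (Nat.add
    (f (Nat.add x7688 x51360)) (Nat.add (f (Nat.add x7690 x51358)) (Nat.add
    (f (Nat.add x7692 x51356)) (Nat.add (f (Nat.add x7712 x51336)) (Nat.add
    (f (Nat.add x7718 x51330)) (Nat.add (f (Nat.add x7720 x51328)) (Nat.add
    (f (Nat.add x7730 x51318)) (Nat.add (f (Nat.add x7736 x51312)) (Nat.add
    (f (Nat.add x7738 x51310)) (Nat.add (f (Nat.add x7742 x51306)) (Nat.add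
    (f (Nat.add x7744 x51304)) (Nat.add (f (Nat.add x7746 x51302)) (Nat.add
    (f (Nat.add x7754 x51294)) (Nat.add (f (Nat.add x7756 x51292)) (Nat.add
    (f (Nat.add x7760 x51288)) (Nat.add (f (Nat.add x7762 x51286)) (Nat.add
    (f (Nat.add x7764 x51284)) (Nat.add (f (Nat.add x7768 x51280)) (Nat.add
    (f (Nat.add x7770 x51278)) (Nat.add (f (Nat.add x7802 x51246)) (Nat.add
    (f (Nat.add x7820 x51228)) (Nat.add (f (Nat.add x7826 x51222)) (Nat.add
    (f (Nat.add x7828 x51220)) (Nat.add (f (Nat.add x7838 x51210)) (Nat.add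
    (f (Nat.add x7844 x51204)) (Nat.add (f (Nat.add x7846 x51202)) (Nat.add
    (f (Nat.add x7850 x51198)) (Nat.add (f (Nat.add x7852 x51196)) (Nat.add
    (f (Nat.add x7854 x51194)) (Nat.add (f (Nat.add x7874 x51174)) (Nat.add
    (f (Nat.add x7880 x51168)) (Nat.add (f (Nat.add x7882 x51166)) (Nat.add
    (f (Nat.add x7892 x51156)) (Nat.add (f (Nat.add x7898 x51150)) (Nat.add
    (f (Nat.add x7900 x51148)) (Nat.add (f (Nat.add x7904 x51144)) (Nat.add
    (f (Nat.add x7906 x51142)) (Nat.add (f (Nat.add x7908 x51140)) (Nat.add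
    (f (Nat.add x7916 x51132)) (Nat.add (f (Nat.add x7918 x51130))
    0)))))))))))))))))))))))))))))))))))))))))))))))))))))))))))) (Nat.add (Nat.add
    (f (Nat.add x7922 x51126)) (Nat.add (f (Nat.add x7924 x51124)) (Nat.add
    (f (Nat.add x7926 x51122)) (Nat.add (f (Nat.add x7930 x51118)) (Nat.add
    (f (Nat.add x7932 x51116)) (Nat.add (f (Nat.add x7946 x51102)) (Nat.add
    (f (Nat.add x7952 x51096)) (Nat.add (f (Nat.add x7954 x51094)) (Nat.add
    (f (Nat.add x7958 x51090)) (Nat.add (f (Nat.add x7960 x51088)) (Nat.add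
    (f (Nat.add x7962 x51086)) (Nat.add (f (Nat.add x7970 x51078)) (Nat.add
    (f (Nat.add x7972 x51076)) (Nat.add (f (Nat.add x7976 x51072)) (Nat.add
    (f (Nat.add x7978 x51070)) (Nat.add (f (Nat.add x7980 x51068)) (Nat.add
    (f (Nat.add x7984 x51064)) (Nat.add (f (Nat.add x7986 x51062)) (Nat.add
    (f (Nat.add x7994 x51054)) (Nat.add (f (Nat.add x7996 x51052)) (Nat.add
    (f (Nat.add x7998 x51050)) (Nat.add (f (Nat.add x8002 x51046)) (Nat.add
    (f (Nat.add x8004 x51044)) (Nat.add (f (Nat.add x8010 x51038)) (Nat.add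
    (f (Nat.add x8072 x50976)) (Nat.add (f (Nat.add x8090 x50958)) (Nat.add
    (f (Nat.add x8096 x50952)) (Nat.add (f (Nat.add x8098 x50950)) (Nat.add
    (f (Nat.add x8126 x50922)) (Nat.add (f (Nat.add x8144 x50904)) (Nat.add
    (f (Nat.add x8150 x50898)) (Nat.add (f (Nat.add x8152 x50896)) (Nat.add
    (f (Nat.add x8162 x50886)) (Nat.add (f (Nat.add x8168 x50880)) (Nat.add
    (f (Nat.add x8170 x50878)) (Nat.add (f (Nat.add x8174 x50874)) (Nat.add
    (f (Nat.add x8176 x50872)) (Nat.add (f (Nat.add x8178 x50870)) (Nat.add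
    (f (Nat.add x8198 x50850)) (Nat.add (f (Nat.add x8204 x50844)) (Nat.add
    (f (Nat.add x8206 x50842)) (Nat.add (f (Nat.add x8216 x50832)) (Nat.add
    (f (Nat.add x8222 x50826)) (Nat.add (f (Nat.add x8224 x50824)) (Nat.add
    (f (Nat.add x8228 x50820)) (Nat.add (f (Nat.add x8230 x50818)) (Nat.add
    (f (Nat.add x8232 x50816)) (Nat.add (f (Nat.add x8240 x50808)) (Nat.add
    (f (Nat.add x8242 x50806)) (Nat.add (f (Nat.add x8246 x50802)) (Nat.add
    (f (Nat.add x8248 x50800)) (Nat.add (f (Nat.add x8250 x50798)) (Nat.add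
    (f (Nat.add x8254 x50794)) (Nat.add (f (Nat.add x8256 x50792)) (Nat.add
    (f (Nat.add x8288 x50760)) (Nat.add (f (Nat.add x8306 x50742)) (Nat.add
    (f (Nat.add x8312 x50736)) (Nat.add (f (Nat.add x8314 x50734)) (Nat.add
    (f (Nat.add x8324 x50724)) (Nat.add (f (Nat.add x8330 x50718))
    0)))))))))))))))))))))))))))))))))))))))))))))))))))))))))))) (Nat.add (Nat.add
    (f (Nat.add x8332 x50716)) (Nat.add (f (Nat.add x8336 x50712)) (Nat.add
    (f (Nat.add x8338 x50710)) (Nat.add (f (Nat.add x8340 x50708)) (Nat.add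
    (f (Nat.add x8360 x50688)) (Nat.add (f (Nat.add x8366 x50682)) (Nat.add
    (f (Nat.add x8368 x50680)) (Nat.add (f (Nat.add x8378 x50670)) (Nat.add
    (f (Nat.add x8384 x50664)) (Nat.add (f (Nat.add x8386 x50662)) (Nat.add
    (f (Nat.add x8390 x50658)) (Nat.add (f (Nat.add x8392 x50656)) (Nat.add
    (f (Nat.add x8394 x50654)) (Nat.add (f (Nat.add x8402 x50646)) (Nat.add
    (f (Nat.add x8404 x50644)) (Nat.add (f (Nat.add x8408 x50640)) (Nat.add
    (f (Nat.add x8410 x50638)) (Nat.add (f (Nat.add x8412 x50636)) (Nat.add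
    (f (Nat.add x8416 x50632)) (Nat.add (f (Nat.add x8418 x50630)) (Nat.add
    (f (Nat.add x8432 x50616)) (Nat.add (f (Nat.add x8438 x50610)) (Nat.add
    (f (Nat.add x8440 x50608)) (Nat.add (f (Nat.add x8444 x50604)) (Nat.add
    (f (Nat.add x8446 x50602)) (Nat.add (f (Nat.add x8448 x50600)) (Nat.add
    (f (Nat.add x8456 x50592)) (Nat.add (f (Nat.add x8458 x50590)) (Nat.add
    (f (Nat.add x8462 x50586)) (Nat.add (f (Nat.add x8464 x50584)) (Nat.add
    (f (Nat.add x8466 x50582)) (Nat.add (f (Nat.add x8470 x50578)) (Nat.add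
    (f (Nat.add x8472 x50576)) (Nat.add (f (Nat.add x8480 x50568)) (Nat.add
    (f (Nat.add x8482 x50566)) (Nat.add (f (Nat.add x8484 x50564)) (Nat.add
    (f (Nat.add x8488 x50560)) (Nat.add (f (Nat.add x8490 x50558)) (Nat.add
    (f (Nat.add x8496 x50552)) (Nat.add (f (Nat.add x8522 x50526)) (Nat.add
    (f (Nat.add x8528 x50520)) (Nat.add (f (Nat.add x8530 x50518)) (Nat.add
    (f (Nat.add x8540 x50508)) (Nat.add (f (Nat.add x8546 x50502)) (Nat.add
    (f (Nat.add x8548 x50500)) (Nat.add (f (Nat.add x8552 x50496)) (Nat.add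
    (f (Nat.add x8554 x50494)) (Nat.add (f (Nat.add x8556 x50492)) (Nat.add
    (f (Nat.add x8564 x50484)) (Nat.add (f (Nat.add x8566 x50482)) (Nat.add
    (f (Nat.add x8570 x50478)) (Nat.add (f (Nat.add x8572 x50476)) (Nat.add
    (f (Nat.add x8574 x50474)) (Nat.add (f (Nat.add x8578 x50470)) (Nat.add
    (f (Nat.add x8580 x50468)) (Nat.add (f (Nat.add x8594 x50454)) (Nat.add
    (f (Nat.add x8600 x50448)) (Nat.add (f (Nat.add x8602 x50446)) (Nat.add
    (f (Nat.add x8606 x50442)) (Nat.add (f (Nat.add x8608 x50440))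
    0)))))))))))))))))))))))))))))))))))))))))))))))))))))))))))) (Nat.add (Nat.add
    (f (Nat.add x8610 x50438)) (Nat.add (f (Nat.add x8618 x50430)) (Nat.add
    (f (Nat.add x8620 x50428)) (Nat.add (f (Nat.add x8624 x50424)) (Nat.add
    (f (Nat.add x8626 x50422)) (Nat.add (f (Nat.add x8628 x50420)) (Nat.add
    (f (Nat.add x8632 x50416)) (Nat.add (f (Nat.add x8634 x50414)) (Nat.add
    (f (Nat.add x8642 x50406)) (Nat.add (f (Nat.add x8644 x50404)) (Nat.add
    (f (Nat.add x8646 x50402)) (Nat.add (f (Nat.add x8650 x50398)) (Nat.add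
    (f (Nat.add x8652 x50396)) (Nat.add (f (Nat.add x8658 x50390)) (Nat.add
    (f (Nat.add x8672 x50376)) (Nat.add (f (Nat.add x8674 x50374)) (Nat.add
    (f (Nat.add x8678 x50370)) (Nat.add (f (Nat.add x8680 x50368)) (Nat.add
    (f (Nat.add x8682 x50366)) (Nat.add (f (Nat.add x8686 x50362)) (Nat.add
    (f (Nat.add x8688 x50360)) (Nat.add (f (Nat.add x8696 x50352)) (Nat.add
    (f (Nat.add x8698 x50350)) (Nat.add (f (Nat.add x8700 x50348)) (Nat.add
    (f (Nat.add x8704 x50344)) (Nat.add (f (Nat.add x8706 x50342)) (Nat.add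
    (f (Nat.add x8712 x50336)) (Nat.add (f (Nat.add x8722 x50326)) (Nat.add
    (f (Nat.add x8724 x50324)) (Nat.add (f (Nat.add x8730 x50318)) (Nat.add
    (f (Nat.add x8828 x50220)) (Nat.add (f (Nat.add x8882 x50166)) (Nat.add
    (f (Nat.add x8900 x50148)) (Nat.add (f (Nat.add x8906 x50142)) (Nat.add
    (f (Nat.add x8908 x50140)) (Nat.add (f (Nat.add x8936 x50112)) (Nat.add
    (f (Nat.add x8954 x50094)) (Nat.add (f (Nat.add x8960 x50088)) (Nat.add
    (f (Nat.add x8962 x50086)) (Nat.add (f (Nat.add x8972 x50076)) (Nat.add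
    (f (Nat.add x8978 x50070)) (Nat.add (f (Nat.add x8980 x50068)) (Nat.add
    (f (Nat.add x8984 x50064)) (Nat.add (f (Nat.add x8986 x50062)) (Nat.add
    (f (Nat.add x8988 x50060)) (Nat.add (f (Nat.add x9044 x50004)) (Nat.add
    (f (Nat.add x9062 x49986)) (Nat.add (f (Nat.add x9068 x49980)) (Nat.add
    (f (Nat.add x9070 x49978)) (Nat.add (f (Nat.add x9098 x49950)) (Nat.add
    (f (Nat.add x9116 x49932)) (Nat.add (f (Nat.add x9122 x49926)) (Nat.add
    (f (Nat.add x9124 x49924)) (Nat.add (f (Nat.add x9134 x49914)) (Nat.add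
    (f (Nat.add x9140 x49908)) (Nat.add (f (Nat.add x9142 x49906)) (Nat.add
    (f (Nat.add x9146 x49902)) (Nat.add (f (Nat.add x9148 x49900)) (Nat.add
    (f (Nat.add x9150 x49898)) (Nat.add (f (Nat.add x9170 x49878))
    0)))))))))))))))))))))))))))))))))))))))))))))))))))))))))))) (Nat.add (Nat.add
    (f (Nat.add x9176 x49872)) (Nat.add (f (Nat.add x9178 x49870)) (Nat.add
    (f (Nat.add x9188 x49860)) (Nat.add (f (Nat.add x9194 x49854)) (Nat.add
    (f (Nat.add x9196 x49852)) (Nat.add (f (Nat.add x9200 x49848)) (Nat.add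
    (f (Nat.add x9202 x49846)) (Nat.add (f (Nat.add x9204 x49844)) (Nat.add
    (f (Nat.add x9212 x49836)) (Nat.add (f (Nat.add x9214 x49834)) (Nat.add
    (f (Nat.add x9218 x49830)) (Nat.add (f (Nat.add x9220 x49828)) (Nat.add
    (f (Nat.add x9222 x49826)) (Nat.add (f (Nat.add x9226 x49822)) (Nat.add
    (f (Nat.add x9228 x49820)) (Nat.add (f (Nat.add x9260 x49788)) (Nat.add
    (f (Nat.add x9278 x49770)) (Nat.add (f (Nat.add x9284 x49764)) (Nat.add
    (f (Nat.add x9286 x49762)) (Nat.add (f (Nat.add x9296 x49752)) (Nat.add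
    (f (Nat.add x9302 x49746)) (Nat.add (f (Nat.add x9304 x49744)) (Nat.add
    (f (Nat.add x9308 x49740)) (Nat.add (f (Nat.add x9310 x49738)) (Nat.add
    (f (Nat.add x9312 x49736)) (Nat.add (f (Nat.add x9332 x49716)) (Nat.add
    (f (Nat.add x9338 x49710)) (Nat.add (f (Nat.add x9340 x49708)) (Nat.add
    (f (Nat.add x9350 x49698)) (Nat.add (f (Nat.add x9356 x49692)) (Nat.add
    (f (Nat.add x9358 x49690)) (Nat.add (f (Nat.add x9362 x49686)) (Nat.add
    (f (Nat.add x9364 x49684)) (Nat.add (f (Nat.add x9366 x49682)) (Nat.add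
    (f (Nat.add x9374 x49674)) (Nat.add (f (Nat.add x9376 x49672)) (Nat.add
    (f (Nat.add x9380 x49668)) (Nat.add (f (Nat.add x9382 x49666)) (Nat.add
    (f (Nat.add x9384 x49664)) (Nat.add (f (Nat.add x9388 x49660)) (Nat.add
    (f (Nat.add x9390 x49658)) (Nat.add (f (Nat.add x9404 x49644)) (Nat.add
    (f (Nat.add x9410 x49638)) (Nat.add (f (Nat.add x9412 x49636)) (Nat.add
    (f (Nat.add x9416 x49632)) (Nat.add (f (Nat.add x9418 x49630)) (Nat.add
    (f (Nat.add x9420 x49628)) (Nat.add (f (Nat.add x9428 x49620)) (Nat.add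
    (f (Nat.add x9430 x49618)) (Nat.add (f (Nat.add x9434 x49614)) (Nat.add
    (f (Nat.add x9436 x49612)) (Nat.add (f (Nat.add x9438 x49610)) (Nat.add
    (f (Nat.add x9442 x49606)) (Nat.add (f (Nat.add x9444 x49604)) (Nat.add
    (f (Nat.add x9452 x49596)) (Nat.add (f (Nat.add x9454 x49594)) (Nat.add
    (f (Nat.add x9456 x49592)) (Nat.add (f (Nat.add x9460 x49588)) (Nat.add
    (f (Nat.add x9462 x49586)) (Nat.add (f (Nat.add x9468 x49580))
    0)))))))))))))))))))))))))))))))))))))))))))))))))))))))))))) (Nat.add (Nat.add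
    (f (Nat.add x9530 x49518)) (Nat.add (f (Nat.add x9548 x49500)) (Nat.add
    (f (Nat.add x9554 x49494)) (Nat.add (f (Nat.add x9556 x49492)) (Nat.add
    (f (Nat.add x9584 x49464)) (Nat.add (f (Nat.add x9602 x49446)) (Nat.add
    (f (Nat.add x9608 x49440)) (Nat.add (f (Nat.add x9610 x49438)) (Nat.add
    (f (Nat.add x9620 x49428)) (Nat.add (f (Nat.add x9626 x49422)) (Nat.add
    (f (Nat.add x9628 x49420)) (Nat.add (f (Nat.add x9632 x49416)) (Nat.add
    (f (Nat.add x9634 x49414)) (Nat.add (f (Nat.add x9636 x49412)) (Nat.add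
    (f (Nat.add x9656 x49392)) (Nat.add (f (Nat.add x9662 x49386)) (Nat.add
    (f (Nat.add x9664 x49384)) (Nat.add (f (Nat.add x9674 x49374)) (Nat.add
    (f (Nat.add x9680 x49368)) (Nat.add (f (Nat.add x9682 x49366)) (Nat.add
    (f (Nat.add x9686 x49362)) (Nat.add (f (Nat.add x9688 x49360)) (Nat.add
    (f (Nat.add x9690 x49358)) (Nat.add (f (Nat.add x9698 x49350)) (Nat.add
    (f (Nat.add x9700 x49348)) (Nat.add (f (Nat.add x9704 x49344)) (Nat.add
    (f (Nat.add x9706 x49342)) (Nat.add (f (Nat.add x9708 x49340)) (Nat.add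
    (f (Nat.add x9712 x49336)) (Nat.add (f (Nat.add x9714 x49334)) (Nat.add
    (f (Nat.add x9746 x49302)) (Nat.add (f (Nat.add x9764 x49284)) (Nat.add
    (f (Nat.add x9770 x49278)) (Nat.add (f (Nat.add x9772 x49276)) (Nat.add
    (f (Nat.add x9782 x49266)) (Nat.add (f (Nat.add x9788 x49260)) (Nat.add
    (f (Nat.add x9790 x49258)) (Nat.add (f (Nat.add x9794 x49254)) (Nat.add
    (f (Nat.add x9796 x49252)) (Nat.add (f (Nat.add x9798 x49250)) (Nat.add
    (f (Nat.add x9818 x49230)) (Nat.add (f (Nat.add x9824 x49224)) (Nat.add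
    (f (Nat.add x9826 x49222)) (Nat.add (f (Nat.add x9836 x49212)) (Nat.add
    (f (Nat.add x9842 x49206)) (Nat.add (f (Nat.add x9844 x49204)) (Nat.add
    (f (Nat.add x9848 x49200)) (Nat.add (f (Nat.add x9850 x49198)) (Nat.add
    (f (Nat.add x9852 x49196)) (Nat.add (f (Nat.add x9860 x49188)) (Nat.add
    (f (Nat.add x9862 x49186)) (Nat.add (f (Nat.add x9866 x49182)) (Nat.add
    (f (Nat.add x9868 x49180)) (Nat.add (f (Nat.add x9870 x49178)) (Nat.add
    (f (Nat.add x9874 x49174)) (Nat.add (f (Nat.add x9876 x49172)) (Nat.add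
    (f (Nat.add x9890 x49158)) (Nat.add (f (Nat.add x9896 x49152)) (Nat.add
    (f (Nat.add x9898 x49150)) (Nat.add (f (Nat.add x9902 x49146))
    0)))))))))))))))))))))))))))))))))))))))))))))))))))))))))))) (Nat.add (Nat.add
    (f (Nat.add x9904 x49144)) (Nat.add (f (Nat.add x9906 x49142)) (Nat.add
    (f (Nat.add x9914 x49134)) (Nat.add (f (Nat.add x9916 x49132)) (Nat.add
    (f (Nat.add x9920 x49128)) (Nat.add (f (Nat.add x9922 x49126)) (Nat.add
    (f (Nat.add x9924 x49124)) (Nat.add (f (Nat.add x9928 x49120)) (Nat.add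
    (f (Nat.add x9930 x49118)) (Nat.add (f (Nat.add x9938 x49110)) (Nat.add
    (f (Nat.add x9940 x49108)) (Nat.add (f (Nat.add x9942 x49106)) (Nat.add
    (f (Nat.add x9946 x49102)) (Nat.add (f (Nat.add x9948 x49100)) (Nat.add
    (f (Nat.add x9954 x49094)) (Nat.add (f (Nat.add x9980 x49068)) (Nat.add
    (f (Nat.add x9986 x49062)) (Nat.add (f (Nat.add x9988 x49060)) (Nat.add
    (f (Nat.add x9998 x49050)) (Nat.add (f (Nat.add x10004 x49044)) (Nat.add
    (f (Nat.add x10006 x49042)) (Nat.add (f (Nat.add x10010 x49038)) (Nat.add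
    (f (Nat.add x10012 x49036)) (Nat.add (f (Nat.add x10014 x49034)) (Nat.add
    (f (Nat.add x10022 x49026)) (Nat.add (f (Nat.add x10024 x49024)) (Nat.add
    (f (Nat.add x10028 x49020)) (Nat.add (f (Nat.add x10030 x49018)) (Nat.add
    (f (Nat.add x10032 x49016)) (Nat.add (f (Nat.add x10036 x49012)) (Nat.add
    (f (Nat.add x10038 x49010)) (Nat.add (f (Nat.add x10052 x48996)) (Nat.add
    (f (Nat.add x10058 x48990)) (Nat.add (f (Nat.add x10060 x48988)) (Nat.add
    (f (Nat.add x10064 x48984)) (Nat.add (f (Nat.add x10066 x48982)) (Nat.add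
    (f (Nat.add x10068 x48980)) (Nat.add (f (Nat.add x10076 x48972)) (Nat.add
    (f (Nat.add x10078 x48970)) (Nat.add (f (Nat.add x10082 x48966)) (Nat.add
    (f (Nat.add x10084 x48964)) (Nat.add (f (Nat.add x10086 x48962)) (Nat.add
    (f (Nat.add x10090 x48958)) (Nat.add (f (Nat.add x10092 x48956)) (Nat.add
    (f (Nat.add x10100 x48948)) (Nat.add (f (Nat.add x10102 x48946)) (Nat.add
    (f (Nat.add x10104 x48944)) (Nat.add (f (Nat.add x10108 x48940)) (Nat.add
    (f (Nat.add x10110 x48938)) (Nat.add (f (Nat.add x10116 x48932)) (Nat.add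
    (f (Nat.add x10130 x48918)) (Nat.add (f (Nat.add x10132 x48916)) (Nat.add
    (f (Nat.add x10136 x48912)) (Nat.add (f (Nat.add x10138 x48910)) (Nat.add
    (f (Nat.add x10140 x48908)) (Nat.add (f (Nat.add x10144 x48904)) (Nat.add
    (f (Nat.add x10146 x48902)) (Nat.add (f (Nat.add x10154 x48894)) (Nat.add
    (f (Nat.add x10156 x48892)) (Nat.add (f (Nat.add x10158 x48890))
    0)))))))))))))))))))))))))))))))))))))))))))))))))))))))))))) (Nat.add (Nat.add
    (f (Nat.add x10162 x48886)) (Nat.add (f (Nat.add x10164 x48884)) (Nat.add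
    (f (Nat.add x10170 x48878)) (Nat.add (f (Nat.add x10180 x48868)) (Nat.add
    (f (Nat.add x10182 x48866)) (Nat.add (f (Nat.add x10188 x48860)) (Nat.add
    (f (Nat.add x10232 x48816)) (Nat.add (f (Nat.add x10250 x48798)) (Nat.add
    (f (Nat.add x10256 x48792)) (Nat.add (f (Nat.add x10258 x48790)) (Nat.add
    (f (Nat.add x10268 x48780)) (Nat.add (f (Nat.add x10274 x48774)) (Nat.add
    (f (Nat.add x10276 x48772)) (Nat.add (f (Nat.add x10280 x48768)) (Nat.add
    (f (Nat.add x10282 x48766)) (Nat.add (f (Nat.add x10284 x48764)) (Nat.add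
    (f (Nat.add x10304 x48744)) (Nat.add (f (Nat.add x10310 x48738)) (Nat.add
    (f (Nat.add x10312 x48736)) (Nat.add (f (Nat.add x10322 x48726)) (Nat.add
    (f (Nat.add x10328 x48720)) (Nat.add (f (Nat.add x10330 x48718)) (Nat.add
    (f (Nat.add x10334 x48714)) (Nat.add (f (Nat.add x10336 x48712)) (Nat.add
    (f (Nat.add x10338 x48710)) (Nat.add (f (Nat.add x10346 x48702)) (Nat.add
    (f (Nat.add x10348 x48700)) (Nat.add (f (Nat.add x10352 x48696)) (Nat.add
    (f (Nat.add x10354 x48694)) (Nat.add (f (Nat.add x10356 x48692)) (Nat.add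
    (f (Nat.add x10360 x48688)) (Nat.add (f (Nat.add x10362 x48686)) (Nat.add
    (f (Nat.add x10376 x48672)) (Nat.add (f (Nat.add x10382 x48666)) (Nat.add
    (f (Nat.add x10384 x48664)) (Nat.add (f (Nat.add x10388 x48660)) (Nat.add
    (f (Nat.add x10390 x48658)) (Nat.add (f (Nat.add x10392 x48656)) (Nat.add
    (f (Nat.add x10400 x48648)) (Nat.add (f (Nat.add x10402 x48646)) (Nat.add
    (f (Nat.add x10406 x48642)) (Nat.add (f (Nat.add x10408 x48640)) (Nat.add
    (f (Nat.add x10410 x48638)) (Nat.add (f (Nat.add x10414 x48634)) (Nat.add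
    (f (Nat.add x10416 x48632)) (Nat.add (f (Nat.add x10424 x48624)) (Nat.add
    (f (Nat.add x10426 x48622)) (Nat.add (f (Nat.add x10428 x48620)) (Nat.add
    (f (Nat.add x10432 x48616)) (Nat.add (f (Nat.add x10434 x48614)) (Nat.add
    (f (Nat.add x10440 x48608)) (Nat.add (f (Nat.add x10466 x48582)) (Nat.add
    (f (Nat.add x10472 x48576)) (Nat.add (f (Nat.add x10474 x48574)) (Nat.add
    (f (Nat.add x10484 x48564)) (Nat.add (f (Nat.add x10490 x48558)) (Nat.add
    (f (Nat.add x10492 x48556)) (Nat.add (f (Nat.add x10496 x48552)) (Nat.add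
    (f (Nat.add x10498 x48550)) (Nat.add (f (Nat.add x10500 x48548))
    0)))))))))))))))))))))))))))))))))))))))))))))))))))))))))))) (Nat.add (Nat.add
    (f (Nat.add x10508 x48540)) (Nat.add (f (Nat.add x10510 x48538)) (Nat.add
    (f (Nat.add x10514 x48534)) (Nat.add (f (Nat.add x10516 x48532)) (Nat.add
    (f (Nat.add x10518 x48530)) (Nat.add (f (Nat.add x10522 x48526)) (Nat.add
    (f (Nat.add x10524 x48524)) (Nat.add (f (Nat.add x10538 x48510)) (Nat.add
    (f (Nat.add x10544 x48504)) (Nat.add (f (Nat.add x10546 x48502)) (Nat.add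
    (f (Nat.add x10550 x48498)) (Nat.add (f (Nat.add x10552 x48496)) (Nat.add
    (f (Nat.add x10554 x48494)) (Nat.add (f (Nat.add x10562 x48486)) (Nat.add
    (f (Nat.add x10564 x48484)) (Nat.add (f (Nat.add x10568 x48480)) (Nat.add
    (f (Nat.add x10570 x48478)) (Nat.add (f (Nat.add x10572 x48476)) (Nat.add
    (f (Nat.add x10576 x48472)) (Nat.add (f (Nat.add x10578 x48470)) (Nat.add
    (f (Nat.add x10586 x48462)) (Nat.add (f (Nat.add x10588 x48460)) (Nat.add
    (f (Nat.add x10590 x48458)) (Nat.add (f (Nat.add x10594 x48454)) (Nat.add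
    (f (Nat.add x10596 x48452)) (Nat.add (f (Nat.add x10602 x48446)) (Nat.add
    (f (Nat.add x10616 x48432)) (Nat.add (f (Nat.add x10618 x48430)) (Nat.add
    (f (Nat.add x10622 x48426)) (Nat.add (f (Nat.add x10624 x48424)) (Nat.add
    (f (Nat.add x10626 x48422)) (Nat.add (f (Nat.add x10630 x48418)) (Nat.add
    (f (Nat.add x10632 x48416)) (Nat.add (f (Nat.add x10640 x48408)) (Nat.add
    (f (Nat.add x10642 x48406)) (Nat.add (f (Nat.add x10644 x48404)) (Nat.add
    (f (Nat.add x10648 x48400)) (Nat.add (f (Nat.add x10650 x48398)) (Nat.add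
    (f (Nat.add x10656 x48392)) (Nat.add (f (Nat.add x10666 x48382)) (Nat.add
    (f (Nat.add x10668 x48380)) (Nat.add (f (Nat.add x10674 x48374)) (Nat.add
    (f (Nat.add x10700 x48348)) (Nat.add (f (Nat.add x10706 x48342)) (Nat.add
    (f (Nat.add x10708 x48340)) (Nat.add (f (Nat.add x10712 x48336)) (Nat.add
    (f (Nat.add x10714 x48334)) (Nat.add (f (Nat.add x10716 x48332)) (Nat.add
    (f (Nat.add x10724 x48324)) (Nat.add (f (Nat.add x10726 x48322)) (Nat.add
    (f (Nat.add x10730 x48318)) (Nat.add (f (Nat.add x10732 x48316)) (Nat.add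
    (f (Nat.add x10734 x48314)) (Nat.add (f (Nat.add x10738 x48310)) (Nat.add
    (f (Nat.add x10740 x48308)) (Nat.add (f (Nat.add x10748 x48300)) (Nat.add
    (f (Nat.add x10750 x48298)) (Nat.add (f (Nat.add x10752 x48296)) (Nat.add
    (f (Nat.add x10756 x48292)) (Nat.add (f (Nat.add x10758 x48290))
    0)))))))))))))))))))))))))))))))))))))))))))))))))))))))))))) (Nat.add (Nat.add
    (f (Nat.add x10764 x48284)) (Nat.add (f (Nat.add x10778 x48270)) (Nat.add
    (f (Nat.add x10780 x48268)) (Nat.add (f (Nat.add x10784 x48264)) (Nat.add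
    (f (Nat.add x10786 x48262)) (Nat.add (f (Nat.add x10788 x48260)) (Nat.add
    (f (Nat.add x10792 x48256)) (Nat.add (f (Nat.add x10794 x48254)) (Nat.add
    (f (Nat.add x10802 x48246)) (Nat.add (f (Nat.add x10804 x48244)) (Nat.add
    (f (Nat.add x10806 x48242)) (Nat.add (f (Nat.add x10810 x48238)) (Nat.add
    (f (Nat.add x10812 x48236)) (Nat.add (f (Nat.add x10818 x48230)) (Nat.add
    (f (Nat.add x10828 x48220)) (Nat.add (f (Nat.add x10830 x48218)) (Nat.add
    (f (Nat.add x10836 x48212)) (Nat.add (f (Nat.add x10856 x48192)) (Nat.add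
    (f (Nat.add x10858 x48190)) (Nat.add (f (Nat.add x10860 x48188)) (Nat.add
    (f (Nat.add x10864 x48184)) (Nat.add (f (Nat.add x10866 x48182)) (Nat.add
    (f (Nat.add x10872 x48176)) (Nat.add (f (Nat.add x10882 x48166)) (Nat.add
    (f (Nat.add x10884 x48164)) (Nat.add (f (Nat.add x10890 x48158)) (Nat.add
    (f (Nat.add x10908 x48140)) (Nat.add (f (Nat.add x10988 x48060)) (Nat.add
    (f (Nat.add x11006 x48042)) (Nat.add (f (Nat.add x11012 x48036)) (Nat.add
    (f (Nat.add x11014 x48034)) (Nat.add (f (Nat.add x11042 x48006)) (Nat.add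
    (f (Nat.add x11060 x47988)) (Nat.add (f (Nat.add x11066 x47982)) (Nat.add
    (f (Nat.add x11068 x47980)) (Nat.add (f (Nat.add x11078 x47970)) (Nat.add
    (f (Nat.add x11084 x47964)) (Nat.add (f (Nat.add x11086 x47962)) (Nat.add
    (f (Nat.add x11090 x47958)) (Nat.add (f (Nat.add x11092 x47956)) (Nat.add
    (f (Nat.add x11094 x47954)) (Nat.add (f (Nat.add x11114 x47934)) (Nat.add
    (f (Nat.add x11120 x47928)) (Nat.add (f (Nat.add x11122 x47926)) (Nat.add
    (f (Nat.add x11132 x47916)) (Nat.add (f (Nat.add x11138 x47910)) (Nat.add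
    (f (Nat.add x11140 x47908)) (Nat.add (f (Nat.add x11144 x47904)) (Nat.add
    (f (Nat.add x11146 x47902)) (Nat.add (f (Nat.add x11148 x47900)) (Nat.add
    (f (Nat.add x11156 x47892)) (Nat.add (f (Nat.add x11158 x47890)) (Nat.add
    (f (Nat.add x11162 x47886)) (Nat.add (f (Nat.add x11164 x47884)) (Nat.add
    (f (Nat.add x11166 x47882)) (Nat.add (f (Nat.add x11170 x47878)) (Nat.add
    (f (Nat.add x11172 x47876)) (Nat.add (f (Nat.add x11204 x47844)) (Nat.add
    (f (Nat.add x11222 x47826)) (Nat.add (f (Nat.add x11228 x47820))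
    0)))))))))))))))))))))))))))))))))))))))))))))))))))))))))))) (Nat.add (Nat.add
    (f (Nat.add x11230 x47818)) (Nat.add (f (Nat.add x11240 x47808)) (Nat.add
    (f (Nat.add x11246 x47802)) (Nat.add (f (Nat.add x11248 x47800)) (Nat.add
    (f (Nat.add x11252 x47796)) (Nat.add (f (Nat.add x11254 x47794)) (Nat.add
    (f (Nat.add x11256 x47792)) (Nat.add (f (Nat.add x11276 x47772)) (Nat.add
    (f (Nat.add x11282 x47766)) (Nat.add (f (Nat.add x11284 x47764)) (Nat.add
    (f (Nat.add x11294 x47754)) (Nat.add (f (Nat.add x11300 x47748)) (Nat.add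
    (f (Nat.add x11302 x47746)) (Nat.add (f (Nat.add x11306 x47742)) (Nat.add
    (f (Nat.add x11308 x47740)) (Nat.add (f (Nat.add x11310 x47738)) (Nat.add
    (f (Nat.add x11318 x47730)) (Nat.add (f (Nat.add x11320 x47728)) (Nat.add
    (f (Nat.add x11324 x47724)) (Nat.add (f (Nat.add x11326 x47722)) (Nat.add
    (f (Nat.add x11328 x47720)) (Nat.add (f (Nat.add x11332 x47716)) (Nat.add
    (f (Nat.add x11334 x47714)) (Nat.add (f (Nat.add x11348 x47700)) (Nat.add
    (f (Nat.add x11354 x47694)) (Nat.add (f (Nat.add x11356 x47692)) (Nat.add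
    (f (Nat.add x11360 x47688)) (Nat.add (f (Nat.add x11362 x47686)) (Nat.add
    (f (Nat.add x11364 x47684)) (Nat.add (f (Nat.add x11372 x47676)) (Nat.add
    (f (Nat.add x11374 x47674)) (Nat.add (f (Nat.add x11378 x47670)) (Nat.add
    (f (Nat.add x11380 x47668)) (Nat.add (f (Nat.add x11382 x47666)) (Nat.add
    (f (Nat.add x11386 x47662)) (Nat.add (f (Nat.add x11388 x47660)) (Nat.add
    (f (Nat.add x11396 x47652)) (Nat.add (f (Nat.add x11398 x47650)) (Nat.add
    (f (Nat.add x11400 x47648)) (Nat.add (f (Nat.add x11404 x47644)) (Nat.add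
    (f (Nat.add x11406 x47642)) (Nat.add (f (Nat.add x11412 x47636)) (Nat.add
    (f (Nat.add x11438 x47610)) (Nat.add (f (Nat.add x11444 x47604)) (Nat.add
    (f (Nat.add x11446 x47602)) (Nat.add (f (Nat.add x11456 x47592)) (Nat.add
    (f (Nat.add x11462 x47586)) (Nat.add (f (Nat.add x11464 x47584)) (Nat.add
    (f (Nat.add x11468 x47580)) (Nat.add (f (Nat.add x11470 x47578)) (Nat.add
    (f (Nat.add x11472 x47576)) (Nat.add (f (Nat.add x11480 x47568)) (Nat.add
    (f (Nat.add x11482 x47566)) (Nat.add (f (Nat.add x11486 x47562)) (Nat.add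
    (f (Nat.add x11488 x47560)) (Nat.add (f (Nat.add x11490 x47558)) (Nat.add
    (f (Nat.add x11494 x47554)) (Nat.add (f (Nat.add x11496 x47552)) (Nat.add
    (f (Nat.add x11510 x47538)) (Nat.add (f (Nat.add x11516 x47532))
    0)))))))))))))))))))))))))))))))))))))))))))))))))))))))))))) (Nat.add (Nat.add
    (f (Nat.add x11518 x47530)) (Nat.add (f (Nat.add x11522 x47526)) (Nat.add
    (f (Nat.add x11524 x47524)) (Nat.add (f (Nat.add x11526 x47522)) (Nat.add
    (f (Nat.add x11534 x47514)) (Nat.add (f (Nat.add x11536 x47512)) (Nat.add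
    (f (Nat.add x11540 x47508)) (Nat.add (f (Nat.add x11542 x47506)) (Nat.add
    (f (Nat.add x11544 x47504)) (Nat.add (f (Nat.add x11548 x47500)) (Nat.add
    (f (Nat.add x11550 x47498)) (Nat.add (f (Nat.add x11558 x47490)) (Nat.add
    (f (Nat.add x11560 x47488)) (Nat.add (f (Nat.add x11562 x47486)) (Nat.add
    (f (Nat.add x11566 x47482)) (Nat.add (f (Nat.add x11568 x47480)) (Nat.add
    (f (Nat.add x11574 x47474)) (Nat.add (f (Nat.add x11588 x47460)) (Nat.add
    (f (Nat.add x11590 x47458)) (Nat.add (f (Nat.add x11594 x47454)) (Nat.add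
    (f (Nat.add x11596 x47452)) (Nat.add (f (Nat.add x11598 x47450)) (Nat.add
    (f (Nat.add x11602 x47446)) (Nat.add (f (Nat.add x11604 x47444)) (Nat.add
    (f (Nat.add x11612 x47436)) (Nat.add (f (Nat.add x11614 x47434)) (Nat.add
    (f (Nat.add x11616 x47432)) (Nat.add (f (Nat.add x11620 x47428)) (Nat.add
    (f (Nat.add x11622 x47426)) (Nat.add (f (Nat.add x11628 x47420)) (Nat.add
    (f (Nat.add x11638 x47410)) (Nat.add (f (Nat.add x11640 x47408)) (Nat.add
    (f (Nat.add x11646 x47402)) (Nat.add (f (Nat.add x11690 x47358)) (Nat.add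
    (f (Nat.add x11708 x47340)) (Nat.add (f (Nat.add x11714 x47334)) (Nat.add
    (f (Nat.add x11716 x47332)) (Nat.add (f (Nat.add x11726 x47322)) (Nat.add
    (f (Nat.add x11732 x47316)) (Nat.add (f (Nat.add x11734 x47314)) (Nat.add
    (f (Nat.add x11738 x47310)) (Nat.add (f (Nat.add x11740 x47308)) (Nat.add
    (f (Nat.add x11742 x47306)) (Nat.add (f (Nat.add x11762 x47286)) (Nat.add
    (f (Nat.add x11768 x47280)) (Nat.add (f (Nat.add x11770 x47278)) (Nat.add
    (f (Nat.add x11780 x47268)) (Nat.add (f (Nat.add x11786 x47262)) (Nat.add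
    (f (Nat.add x11788 x47260)) (Nat.add (f (Nat.add x11792 x47256)) (Nat.add
    (f (Nat.add x11794 x47254)) (Nat.add (f (Nat.add x11796 x47252)) (Nat.add
    (f (Nat.add x11804 x47244)) (Nat.add (f (Nat.add x11806 x47242)) (Nat.add
    (f (Nat.add x11810 x47238)) (Nat.add (f (Nat.add x11812 x47236)) (Nat.add
    (f (Nat.add x11814 x47234)) (Nat.add (f (Nat.add x11818 x47230)) (Nat.add
    (f (Nat.add x11820 x47228)) (Nat.add (f (Nat.add x11834 x47214))
    0)))))))))))))))))))))))))))))))))))))))))))))))))))))))))))) (Nat.add (Nat.add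
    (f (Nat.add x11840 x47208)) (Nat.add (f (Nat.add x11842 x47206)) (Nat.add
    (f (Nat.add x11846 x47202)) (Nat.add (f (Nat.add x11848 x47200)) (Nat.add
    (f (Nat.add x11850 x47198)) (Nat.add (f (Nat.add x11858 x47190)) (Nat.add
    (f (Nat.add x11860 x47188)) (Nat.add (f (Nat.add x11864 x47184)) (Nat.add
    (f (Nat.add x11866 x47182)) (Nat.add (f (Nat.add x11868 x47180)) (Nat.add
    (f (Nat.add x11872 x47176)) (Nat.add (f (Nat.add x11874 x47174)) (Nat.add
    (f (Nat.add x11882 x47166)) (Nat.add (f (Nat.add x11884 x47164)) (Nat.add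
    (f (Nat.add x11886 x47162)) (Nat.add (f (Nat.add x11890 x47158)) (Nat.add
    (f (Nat.add x11892 x47156)) (Nat.add (f (Nat.add x11898 x47150)) (Nat.add
    (f (Nat.add x11924 x47124)) (Nat.add (f (Nat.add x11930 x47118)) (Nat.add
    (f (Nat.add x11932 x47116)) (Nat.add (f (Nat.add x11942 x47106)) (Nat.add
    (f (Nat.add x11948 x47100)) (Nat.add (f (Nat.add x11950 x47098)) (Nat.add
    (f (Nat.add x11954 x47094)) (Nat.add (f (Nat.add x11956 x47092)) (Nat.add
    (f (Nat.add x11958 x47090)) (Nat.add (f (Nat.add x11966 x47082)) (Nat.add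
    (f (Nat.add x11968 x47080)) (Nat.add (f (Nat.add x11972 x47076)) (Nat.add
    (f (Nat.add x11974 x47074)) (Nat.add (f (Nat.add x11976 x47072)) (Nat.add
    (f (Nat.add x11980 x47068)) (Nat.add (f (Nat.add x11982 x47066)) (Nat.add
    (f (Nat.add x11996 x47052)) (Nat.add (f (Nat.add x12002 x47046)) (Nat.add
    (f (Nat.add x12004 x47044)) (Nat.add (f (Nat.add x12008 x47040)) (Nat.add
    (f (Nat.add x12010 x47038)) (Nat.add (f (Nat.add x12012 x47036)) (Nat.add
    (f (Nat.add x12020 x47028)) (Nat.add (f (Nat.add x12022 x47026)) (Nat.add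
    (f (Nat.add x12026 x47022)) (Nat.add (f (Nat.add x12028 x47020)) (Nat.add
    (f (Nat.add x12030 x47018)) (Nat.add (f (Nat.add x12034 x47014)) (Nat.add
    (f (Nat.add x12036 x47012)) (Nat.add (f (Nat.add x12044 x47004)) (Nat.add
    (f (Nat.add x12046 x47002)) (Nat.add (f (Nat.add x12048 x47000)) (Nat.add
    (f (Nat.add x12052 x46996)) (Nat.add (f (Nat.add x12054 x46994)) (Nat.add
    (f (Nat.add x12060 x46988)) (Nat.add (f (Nat.add x12074 x46974)) (Nat.add
    (f (Nat.add x12076 x46972)) (Nat.add (f (Nat.add x12080 x46968)) (Nat.add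
    (f (Nat.add x12082 x46966)) (Nat.add (f (Nat.add x12084 x46964)) (Nat.add
    (f (Nat.add x12088 x46960)) (Nat.add (f (Nat.add x12090 x46958))
    0)))))))))))))))))))))))))))))))))))))))))))))))))))))))))))) (Nat.add (Nat.add
    (f (Nat.add x12098 x46950)) (Nat.add (f (Nat.add x12100 x46948)) (Nat.add
    (f (Nat.add x12102 x46946)) (Nat.add (f (Nat.add x12106 x46942)) (Nat.add
    (f (Nat.add x12108 x46940)) (Nat.add (f (Nat.add x12114 x46934)) (Nat.add
    (f (Nat.add x12124 x46924)) (Nat.add (f (Nat.add x12126 x46922)) (Nat.add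
    (f (Nat.add x12132 x46916)) (Nat.add (f (Nat.add x12158 x46890)) (Nat.add
    (f (Nat.add x12164 x46884)) (Nat.add (f (Nat.add x12166 x46882)) (Nat.add
    (f (Nat.add x12170 x46878)) (Nat.add (f (Nat.add x12172 x46876)) (Nat.add
    (f (Nat.add x12174 x46874)) (Nat.add (f (Nat.add x12182 x46866)) (Nat.add
    (f (Nat.add x12184 x46864)) (Nat.add (f (Nat.add x12188 x46860)) (Nat.add
    (f (Nat.add x12190 x46858)) (Nat.add (f (Nat.add x12192 x46856)) (Nat.add
    (f (Nat.add x12196 x46852)) (Nat.add (f (Nat.add x12198 x46850)) (Nat.add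
    (f (Nat.add x12206 x46842)) (Nat.add (f (Nat.add x12208 x46840)) (Nat.add
    (f (Nat.add x12210 x46838)) (Nat.add (f (Nat.add x12214 x46834)) (Nat.add
    (f (Nat.add x12216 x46832)) (Nat.add (f (Nat.add x12222 x46826)) (Nat.add
    (f (Nat.add x12236 x46812)) (Nat.add (f (Nat.add x12238 x46810)) (Nat.add
    (f (Nat.add x12242 x46806)) (Nat.add (f (Nat.add x12244 x46804)) (Nat.add
    (f (Nat.add x12246 x46802)) (Nat.add (f (Nat.add x12250 x46798)) (Nat.add
    (f (Nat.add x12252 x46796)) (Nat.add (f (Nat.add x12260 x46788)) (Nat.add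
    (f (Nat.add x12262 x46786)) (Nat.add (f (Nat.add x12264 x46784)) (Nat.add
    (f (Nat.add x12268 x46780)) (Nat.add (f (Nat.add x12270 x46778)) (Nat.add
    (f (Nat.add x12276 x46772)) (Nat.add (f (Nat.add x12286 x46762)) (Nat.add
    (f (Nat.add x12288 x46760)) (Nat.add (f (Nat.add x12294 x46754)) (Nat.add
    (f (Nat.add x12314 x46734)) (Nat.add (f (Nat.add x12316 x46732)) (Nat.add
    (f (Nat.add x12318 x46730)) (Nat.add (f (Nat.add x12322 x46726)) (Nat.add
    (f (Nat.add x12324 x46724)) (Nat.add (f (Nat.add x12330 x46718)) (Nat.add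
    (f (Nat.add x12340 x46708)) (Nat.add (f (Nat.add x12342 x46706)) (Nat.add
    (f (Nat.add x12348 x46700)) (Nat.add (f (Nat.add x12366 x46682)) (Nat.add
    (f (Nat.add x12410 x46638)) (Nat.add (f (Nat.add x12416 x46632)) (Nat.add
    (f (Nat.add x12418 x46630)) (Nat.add (f (Nat.add x12428 x46620)) (Nat.add
    (f (Nat.add x12434 x46614)) (Nat.add (f (Nat.add x12436 x46612))
    0)))))))))))))))))))))))))))))))))))))))))))))))))))))))))))) (Nat.add (Nat.add
    (f (Nat.add x12440 x46608)) (Nat.add (f (Nat.add x12442 x46606)) (Nat.add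
    (f (Nat.add x12444 x46604)) (Nat.add (f (Nat.add x12452 x46596)) (Nat.add
    (f (Nat.add x12454 x46594)) (Nat.add (f (Nat.add x12458 x46590)) (Nat.add
    (f (Nat.add x12460 x46588)) (Nat.add (f (Nat.add x12462 x46586)) (Nat.add
    (f (Nat.add x12466 x46582)) (Nat.add (f (Nat.add x12468 x46580)) (Nat.add
    (f (Nat.add x12482 x46566)) (Nat.add (f (Nat.add x12488 x46560)) (Nat.add
    (f (Nat.add x12490 x46558)) (Nat.add (f (Nat.add x12494 x46554)) (Nat.add
    (f (Nat.add x12496 x46552)) (Nat.add (f (Nat.add x12498 x46550)) (Nat.add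
    (f (Nat.add x12506 x46542)) (Nat.add (f (Nat.add x12508 x46540)) (Nat.add
    (f (Nat.add x12512 x46536)) (Nat.add (f (Nat.add x12514 x46534)) (Nat.add
    (f (Nat.add x12516 x46532)) (Nat.add (f (Nat.add x12520 x46528)) (Nat.add
    (f (Nat.add x12522 x46526)) (Nat.add (f (Nat.add x12530 x46518)) (Nat.add
    (f (Nat.add x12532 x46516)) (Nat.add (f (Nat.add x12534 x46514)) (Nat.add
    (f (Nat.add x12538 x46510)) (Nat.add (f (Nat.add x12540 x46508)) (Nat.add
    (f (Nat.add x12546 x46502)) (Nat.add (f (Nat.add x12560 x46488)) (Nat.add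
    (f (Nat.add x12562 x46486)) (Nat.add (f (Nat.add x12566 x46482)) (Nat.add
    (f (Nat.add x12568 x46480)) (Nat.add (f (Nat.add x12570 x46478)) (Nat.add
    (f (Nat.add x12574 x46474)) (Nat.add (f (Nat.add x12576 x46472)) (Nat.add
    (f (Nat.add x12584 x46464)) (Nat.add (f (Nat.add x12586 x46462)) (Nat.add
    (f (Nat.add x12588 x46460)) (Nat.add (f (Nat.add x12592 x46456)) (Nat.add
    (f (Nat.add x12594 x46454)) (Nat.add (f (Nat.add x12600 x46448)) (Nat.add
    (f (Nat.add x12610 x46438)) (Nat.add (f (Nat.add x12612 x46436)) (Nat.add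
    (f (Nat.add x12618 x46430)) (Nat.add (f (Nat.add x12644 x46404)) (Nat.add
    (f (Nat.add x12650 x46398)) (Nat.add (f (Nat.add x12652 x46396)) (Nat.add
    (f (Nat.add x12656 x46392)) (Nat.add (f (Nat.add x12658 x46390)) (Nat.add
    (f (Nat.add x12660 x46388)) (Nat.add (f (Nat.add x12668 x46380)) (Nat.add
    (f (Nat.add x12670 x46378)) (Nat.add (f (Nat.add x12674 x46374)) (Nat.add
    (f (Nat.add x12676 x46372)) (Nat.add (f (Nat.add x12678 x46370)) (Nat.add
    (f (Nat.add x12682 x46366)) (Nat.add (f (Nat.add x12684 x46364)) (Nat.add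
    (f (Nat.add x12692 x46356)) (Nat.add (f (Nat.add x12694 x46354))
    0)))))))))))))))))))))))))))))))))))))))))))))))))))))))))))) (Nat.add (Nat.add
    (f (Nat.add x12696 x46352)) (Nat.add (f (Nat.add x12700 x46348)) (Nat.add
    (f (Nat.add x12702 x46346)) (Nat.add (f (Nat.add x12708 x46340)) (Nat.add
    (f (Nat.add x12722 x46326)) (Nat.add (f (Nat.add x12724 x46324)) (Nat.add
    (f (Nat.add x12728 x46320)) (Nat.add (f (Nat.add x12730 x46318)) (Nat.add
    (f (Nat.add x12732 x46316)) (Nat.add (f (Nat.add x12736 x46312)) (Nat.add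
    (f (Nat.add x12738 x46310)) (Nat.add (f (Nat.add x12746 x46302)) (Nat.add
    (f (Nat.add x12748 x46300)) (Nat.add (f (Nat.add x12750 x46298)) (Nat.add
    (f (Nat.add x12754 x46294)) (Nat.add (f (Nat.add x12756 x46292)) (Nat.add
    (f (Nat.add x12762 x46286)) (Nat.add (f (Nat.add x12772 x46276)) (Nat.add
    (f (Nat.add x12774 x46274)) (Nat.add (f (Nat.add x12780 x46268)) (Nat.add
    (f (Nat.add x12800 x46248)) (Nat.add (f (Nat.add x12802 x46246)) (Nat.add
    (f (Nat.add x12804 x46244)) (Nat.add (f (Nat.add x12808 x46240)) (Nat.add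
    (f (Nat.add x12810 x46238)) (Nat.add (f (Nat.add x12816 x46232)) (Nat.add
    (f (Nat.add x12826 x46222)) (Nat.add (f (Nat.add x12828 x46220)) (Nat.add
    (f (Nat.add x12834 x46214)) (Nat.add (f (Nat.add x12852 x46196)) (Nat.add
    (f (Nat.add x12884 x46164)) (Nat.add (f (Nat.add x12886 x46162)) (Nat.add
    (f (Nat.add x12890 x46158)) (Nat.add (f (Nat.add x12892 x46156)) (Nat.add
    (f (Nat.add x12894 x46154)) (Nat.add (f (Nat.add x12898 x46150)) (Nat.add
    (f (Nat.add x12900 x46148)) (Nat.add (f (Nat.add x12908 x46140)) (Nat.add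
    (f (Nat.add x12910 x46138)) (Nat.add (f (Nat.add x12912 x46136)) (Nat.add
    (f (Nat.add x12916 x46132)) (Nat.add (f (Nat.add x12918 x46130)) (Nat.add
    (f (Nat.add x12924 x46124)) (Nat.add (f (Nat.add x12934 x46114)) (Nat.add
    (f (Nat.add x12936 x46112)) (Nat.add (f (Nat.add x12942 x46106)) (Nat.add
    (f (Nat.add x12962 x46086)) (Nat.add (f (Nat.add x12964 x46084)) (Nat.add
    (f (Nat.add x12966 x46082)) (Nat.add (f (Nat.add x12970 x46078)) (Nat.add
    (f (Nat.add x12972 x46076)) (Nat.add (f (Nat.add x12978 x46070)) (Nat.add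
    (f (Nat.add x12988 x46060)) (Nat.add (f (Nat.add x12990 x46058)) (Nat.add
    (f (Nat.add x12996 x46052)) (Nat.add (f (Nat.add x13014 x46034)) (Nat.add
    (f (Nat.add x13042 x46006)) (Nat.add (f (Nat.add x13044 x46004)) (Nat.add
    (f (Nat.add x13050 x45998)) (Nat.add (f (Nat.add x13068 x45980))
    0)))))))))))))))))))))))))))))))))))))))))))))))))))))))))))) (Nat.add (Nat.add
    (f (Nat.add x13202 x45846)) (Nat.add (f (Nat.add x13256 x45792)) (Nat.add
    (f (Nat.add x13274 x45774)) (Nat.add (f (Nat.add x13280 x45768)) (Nat.add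
    (f (Nat.add x13282 x45766)) (Nat.add (f (Nat.add x13310 x45738)) (Nat.add
    (f (Nat.add x13328 x45720)) (Nat.add (f (Nat.add x13334 x45714)) (Nat.add
    (f (Nat.add x13336 x45712)) (Nat.add (f (Nat.add x13346 x45702)) (Nat.add
    (f (Nat.add x13352 x45696)) (Nat.add (f (Nat.add x13354 x45694)) (Nat.add
    (f (Nat.add x13358 x45690)) (Nat.add (f (Nat.add x13360 x45688)) (Nat.add
    (f (Nat.add x13362 x45686)) (Nat.add (f (Nat.add x13418 x45630)) (Nat.add
    (f (Nat.add x13436 x45612)) (Nat.add (f (Nat.add x13442 x45606)) (Nat.add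
    (f (Nat.add x13444 x45604)) (Nat.add (f (Nat.add x13472 x45576)) (Nat.add
    (f (Nat.add x13490 x45558)) (Nat.add (f (Nat.add x13496 x45552)) (Nat.add
    (f (Nat.add x13498 x45550)) (Nat.add (f (Nat.add x13508 x45540)) (Nat.add
    (f (Nat.add x13514 x45534)) (Nat.add (f (Nat.add x13516 x45532)) (Nat.add
    (f (Nat.add x13520 x45528)) (Nat.add (f (Nat.add x13522 x45526)) (Nat.add
    (f (Nat.add x13524 x45524)) (Nat.add (f (Nat.add x13544 x45504)) (Nat.add
    (f (Nat.add x13550 x45498)) (Nat.add (f (Nat.add x13552 x45496)) (Nat.add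
    (f (Nat.add x13562 x45486)) (Nat.add (f (Nat.add x13568 x45480)) (Nat.add
    (f (Nat.add x13570 x45478)) (Nat.add (f (Nat.add x13574 x45474)) (Nat.add
    (f (Nat.add x13576 x45472)) (Nat.add (f (Nat.add x13578 x45470)) (Nat.add
    (f (Nat.add x13586 x45462)) (Nat.add (f (Nat.add x13588 x45460)) (Nat.add
    (f (Nat.add x13592 x45456)) (Nat.add (f (Nat.add x13594 x45454)) (Nat.add
    (f (Nat.add x13596 x45452)) (Nat.add (f (Nat.add x13600 x45448)) (Nat.add
    (f (Nat.add x13602 x45446)) (Nat.add (f (Nat.add x13634 x45414)) (Nat.add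
    (f (Nat.add x13652 x45396)) (Nat.add (f (Nat.add x13658 x45390)) (Nat.add
    (f (Nat.add x13660 x45388)) (Nat.add (f (Nat.add x13670 x45378)) (Nat.add
    (f (Nat.add x13676 x45372)) (Nat.add (f (Nat.add x13678 x45370)) (Nat.add
    (f (Nat.add x13682 x45366)) (Nat.add (f (Nat.add x13684 x45364)) (Nat.add
    (f (Nat.add x13686 x45362)) (Nat.add (f (Nat.add x13706 x45342)) (Nat.add
    (f (Nat.add x13712 x45336)) (Nat.add (f (Nat.add x13714 x45334)) (Nat.add
    (f (Nat.add x13724 x45324)) (Nat.add (f (Nat.add x13730 x45318))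
    0)))))))))))))))))))))))))))))))))))))))))))))))))))))))))))) (Nat.add (Nat.add
    (f (Nat.add x13732 x45316)) (Nat.add (f (Nat.add x13736 x45312)) (Nat.add
    (f (Nat.add x13738 x45310)) (Nat.add (f (Nat.add x13740 x45308)) (Nat.add
    (f (Nat.add x13748 x45300)) (Nat.add (f (Nat.add x13750 x45298)) (Nat.add
    (f (Nat.add x13754 x45294)) (Nat.add (f (Nat.add x13756 x45292)) (Nat.add
    (f (Nat.add x13758 x45290)) (Nat.add (f (Nat.add x13762 x45286)) (Nat.add
    (f (Nat.add x13764 x45284)) (Nat.add (f (Nat.add x13778 x45270)) (Nat.add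
    (f (Nat.add x13784 x45264)) (Nat.add (f (Nat.add x13786 x45262)) (Nat.add
    (f (Nat.add x13790 x45258)) (Nat.add (f (Nat.add x13792 x45256)) (Nat.add
    (f (Nat.add x13794 x45254)) (Nat.add (f (Nat.add x13802 x45246)) (Nat.add
    (f (Nat.add x13804 x45244)) (Nat.add (f (Nat.add x13808 x45240)) (Nat.add
    (f (Nat.add x13810 x45238)) (Nat.add (f (Nat.add x13812 x45236)) (Nat.add
    (f (Nat.add x13816 x45232)) (Nat.add (f (Nat.add x13818 x45230)) (Nat.add
    (f (Nat.add x13826 x45222)) (Nat.add (f (Nat.add x13828 x45220)) (Nat.add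
    (f (Nat.add x13830 x45218)) (Nat.add (f (Nat.add x13834 x45214)) (Nat.add
    (f (Nat.add x13836 x45212)) (Nat.add (f (Nat.add x13842 x45206)) (Nat.add
    (f (Nat.add x13904 x45144)) (Nat.add (f (Nat.add x13922 x45126)) (Nat.add
    (f (Nat.add x13928 x45120)) (Nat.add (f (Nat.add x13930 x45118)) (Nat.add
    (f (Nat.add x13958 x45090)) (Nat.add (f (Nat.add x13976 x45072)) (Nat.add
    (f (Nat.add x13982 x45066)) (Nat.add (f (Nat.add x13984 x45064)) (Nat.add
    (f (Nat.add x13994 x45054)) (Nat.add (f (Nat.add x14000 x45048)) (Nat.add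
    (f (Nat.add x14002 x45046)) (Nat.add (f (Nat.add x14006 x45042)) (Nat.add
    (f (Nat.add x14008 x45040)) (Nat.add (f (Nat.add x14010 x45038)) (Nat.add
    (f (Nat.add x14030 x45018)) (Nat.add (f (Nat.add x14036 x45012)) (Nat.add
    (f (Nat.add x14038 x45010)) (Nat.add (f (Nat.add x14048 x45000)) (Nat.add
    (f (Nat.add x14054 x44994)) (Nat.add (f (Nat.add x14056 x44992)) (Nat.add
    (f (Nat.add x14060 x44988)) (Nat.add (f (Nat.add x14062 x44986)) (Nat.add
    (f (Nat.add x14064 x44984)) (Nat.add (f (Nat.add x14072 x44976)) (Nat.add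
    (f (Nat.add x14074 x44974)) (Nat.add (f (Nat.add x14078 x44970)) (Nat.add
    (f (Nat.add x14080 x44968)) (Nat.add (f (Nat.add x14082 x44966)) (Nat.add
    (f (Nat.add x14086 x44962)) (Nat.add (f (Nat.add x14088 x44960))
    0)))))))))))))))))))))))))))))))))))))))))))))))))))))))))))) (Nat.add (Nat.add
    (f (Nat.add x14120 x44928)) (Nat.add (f (Nat.add x14138 x44910)) (Nat.add
    (f (Nat.add x14144 x44904)) (Nat.add (f (Nat.add x14146 x44902)) (Nat.add
    (f (Nat.add x14156 x44892)) (Nat.add (f (Nat.add x14162 x44886)) (Nat.add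
    (f (Nat.add x14164 x44884)) (Nat.add (f (Nat.add x14168 x44880)) (Nat.add
    (f (Nat.add x14170 x44878)) (Nat.add (f (Nat.add x14172 x44876)) (Nat.add
    (f (Nat.add x14192 x44856)) (Nat.add (f (Nat.add x14198 x44850)) (Nat.add
    (f (Nat.add x14200 x44848)) (Nat.add (f (Nat.add x14210 x44838)) (Nat.add
    (f (Nat.add x14216 x44832)) (Nat.add (f (Nat.add x14218 x44830)) (Nat.add
    (f (Nat.add x14222 x44826)) (Nat.add (f (Nat.add x14224 x44824)) (Nat.add
    (f (Nat.add x14226 x44822)) (Nat.add (f (Nat.add x14234 x44814)) (Nat.add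
    (f (Nat.add x14236 x44812)) (Nat.add (f (Nat.add x14240 x44808)) (Nat.add
    (f (Nat.add x14242 x44806)) (Nat.add (f (Nat.add x14244 x44804)) (Nat.add
    (f (Nat.add x14248 x44800)) (Nat.add (f (Nat.add x14250 x44798)) (Nat.add
    (f (Nat.add x14264 x44784)) (Nat.add (f (Nat.add x14270 x44778)) (Nat.add
    (f (Nat.add x14272 x44776)) (Nat.add (f (Nat.add x14276 x44772)) (Nat.add
    (f (Nat.add x14278 x44770)) (Nat.add (f (Nat.add x14280 x44768)) (Nat.add
    (f (Nat.add x14288 x44760)) (Nat.add (f (Nat.add x14290 x44758)) (Nat.add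
    (f (Nat.add x14294 x44754)) (Nat.add (f (Nat.add x14296 x44752)) (Nat.add
    (f (Nat.add x14298 x44750)) (Nat.add (f (Nat.add x14302 x44746)) (Nat.add
    (f (Nat.add x14304 x44744)) (Nat.add (f (Nat.add x14312 x44736)) (Nat.add
    (f (Nat.add x14314 x44734)) (Nat.add (f (Nat.add x14316 x44732)) (Nat.add
    (f (Nat.add x14320 x44728)) (Nat.add (f (Nat.add x14322 x44726)) (Nat.add
    (f (Nat.add x14328 x44720)) (Nat.add (f (Nat.add x14354 x44694)) (Nat.add
    (f (Nat.add x14360 x44688)) (Nat.add (f (Nat.add x14362 x44686)) (Nat.add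
    (f (Nat.add x14372 x44676)) (Nat.add (f (Nat.add x14378 x44670)) (Nat.add
    (f (Nat.add x14380 x44668)) (Nat.add (f (Nat.add x14384 x44664)) (Nat.add
    (f (Nat.add x14386 x44662)) (Nat.add (f (Nat.add x14388 x44660)) (Nat.add
    (f (Nat.add x14396 x44652)) (Nat.add (f (Nat.add x14398 x44650)) (Nat.add
    (f (Nat.add x14402 x44646)) (Nat.add (f (Nat.add x14404 x44644)) (Nat.add
    (f (Nat.add x14406 x44642)) (Nat.add (f (Nat.add x14410 x44638))
    0)))))))))))))))))))))))))))))))))))))))))))))))))))))))))))) (Nat.add (Nat.add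
    (f (Nat.add x14412 x44636)) (Nat.add (f (Nat.add x14426 x44622)) (Nat.add
    (f (Nat.add x14432 x44616)) (Nat.add (f (Nat.add x14434 x44614)) (Nat.add
    (f (Nat.add x14438 x44610)) (Nat.add (f (Nat.add x14440 x44608)) (Nat.add
    (f (Nat.add x14442 x44606)) (Nat.add (f (Nat.add x14450 x44598)) (Nat.add
    (f (Nat.add x14452 x44596)) (Nat.add (f (Nat.add x14456 x44592)) (Nat.add
    (f (Nat.add x14458 x44590)) (Nat.add (f (Nat.add x14460 x44588)) (Nat.add
    (f (Nat.add x14464 x44584)) (Nat.add (f (Nat.add x14466 x44582)) (Nat.add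
    (f (Nat.add x14474 x44574)) (Nat.add (f (Nat.add x14476 x44572)) (Nat.add
    (f (Nat.add x14478 x44570)) (Nat.add (f (Nat.add x14482 x44566)) (Nat.add
    (f (Nat.add x14484 x44564)) (Nat.add (f (Nat.add x14490 x44558)) (Nat.add
    (f (Nat.add x14504 x44544)) (Nat.add (f (Nat.add x14506 x44542)) (Nat.add
    (f (Nat.add x14510 x44538)) (Nat.add (f (Nat.add x14512 x44536)) (Nat.add
    (f (Nat.add x14514 x44534)) (Nat.add (f (Nat.add x14518 x44530)) (Nat.add
    (f (Nat.add x14520 x44528)) (Nat.add (f (Nat.add x14528 x44520)) (Nat.add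
    (f (Nat.add x14530 x44518)) (Nat.add (f (Nat.add x14532 x44516)) (Nat.add
    (f (Nat.add x14536 x44512)) (Nat.add (f (Nat.add x14538 x44510)) (Nat.add
    (f (Nat.add x14544 x44504)) (Nat.add (f (Nat.add x14554 x44494)) (Nat.add
    (f (Nat.add x14556 x44492)) (Nat.add (f (Nat.add x14562 x44486)) (Nat.add
    (f (Nat.add x14606 x44442)) (Nat.add (f (Nat.add x14624 x44424)) (Nat.add
    (f (Nat.add x14630 x44418)) (Nat.add (f (Nat.add x14632 x44416)) (Nat.add
    (f (Nat.add x14642 x44406)) (Nat.add (f (Nat.add x14648 x44400)) (Nat.add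
    (f (Nat.add x14650 x44398)) (Nat.add (f (Nat.add x14654 x44394)) (Nat.add
    (f (Nat.add x14656 x44392)) (Nat.add (f (Nat.add x14658 x44390)) (Nat.add
    (f (Nat.add x14678 x44370)) (Nat.add (f (Nat.add x14684 x44364)) (Nat.add
    (f (Nat.add x14686 x44362)) (Nat.add (f (Nat.add x14696 x44352)) (Nat.add
    (f (Nat.add x14702 x44346)) (Nat.add (f (Nat.add x14704 x44344)) (Nat.add
    (f (Nat.add x14708 x44340)) (Nat.add (f (Nat.add x14710 x44338)) (Nat.add
    (f (Nat.add x14712 x44336)) (Nat.add (f (Nat.add x14720 x44328)) (Nat.add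
    (f (Nat.add x14722 x44326)) (Nat.add (f (Nat.add x14726 x44322)) (Nat.add
    (f (Nat.add x14728 x44320)) (Nat.add (f (Nat.add x14730 x44318))
    0)))))))))))))))))))))))))))))))))))))))))))))))))))))))))))) (Nat.add (Nat.add
    (f (Nat.add x14734 x44314)) (Nat.add (f (Nat.add x14736 x44312)) (Nat.add
    (f (Nat.add x14750 x44298)) (Nat.add (f (Nat.add x14756 x44292)) (Nat.add
    (f (Nat.add x14758 x44290)) (Nat.add (f (Nat.add x14762 x44286)) (Nat.add
    (f (Nat.add x14764 x44284)) (Nat.add (f (Nat.add x14766 x44282)) (Nat.add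
    (f (Nat.add x14774 x44274)) (Nat.add (f (Nat.add x14776 x44272)) (Nat.add
    (f (Nat.add x14780 x44268)) (Nat.add (f (Nat.add x14782 x44266)) (Nat.add
    (f (Nat.add x14784 x44264)) (Nat.add (f (Nat.add x14788 x44260)) (Nat.add
    (f (Nat.add x14790 x44258)) (Nat.add (f (Nat.add x14798 x44250)) (Nat.add
    (f (Nat.add x14800 x44248)) (Nat.add (f (Nat.add x14802 x44246)) (Nat.add
    (f (Nat.add x14806 x44242)) (Nat.add (f (Nat.add x14808 x44240)) (Nat.add
    (f (Nat.add x14814 x44234)) (Nat.add (f (Nat.add x14840 x44208)) (Nat.add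
    (f (Nat.add x14846 x44202)) (Nat.add (f (Nat.add x14848 x44200)) (Nat.add
    (f (Nat.add x14858 x44190)) (Nat.add (f (Nat.add x14864 x44184)) (Nat.add
    (f (Nat.add x14866 x44182)) (Nat.add (f (Nat.add x14870 x44178)) (Nat.add
    (f (Nat.add x14872 x44176)) (Nat.add (f (Nat.add x14874 x44174)) (Nat.add
    (f (Nat.add x14882 x44166)) (Nat.add (f (Nat.add x14884 x44164)) (Nat.add
    (f (Nat.add x14888 x44160)) (Nat.add (f (Nat.add x14890 x44158)) (Nat.add
    (f (Nat.add x14892 x44156)) (Nat.add (f (Nat.add x14896 x44152)) (Nat.add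
    (f (Nat.add x14898 x44150)) (Nat.add (f (Nat.add x14912 x44136)) (Nat.add
    (f (Nat.add x14918 x44130)) (Nat.add (f (Nat.add x14920 x44128)) (Nat.add
    (f (Nat.add x14924 x44124)) (Nat.add (f (Nat.add x14926 x44122)) (Nat.add
    (f (Nat.add x14928 x44120)) (Nat.add (f (Nat.add x14936 x44112)) (Nat.add
    (f (Nat.add x14938 x44110)) (Nat.add (f (Nat.add x14942 x44106)) (Nat.add
    (f (Nat.add x14944 x44104)) (Nat.add (f (Nat.add x14946 x44102)) (Nat.add
    (f (Nat.add x14950 x44098)) (Nat.add (f (Nat.add x14952 x44096)) (Nat.add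
    (f (Nat.add x14960 x44088)) (Nat.add (f (Nat.add x14962 x44086)) (Nat.add
    (f (Nat.add x14964 x44084)) (Nat.add (f (Nat.add x14968 x44080)) (Nat.add
    (f (Nat.add x14970 x44078)) (Nat.add (f (Nat.add x14976 x44072)) (Nat.add
    (f (Nat.add x14990 x44058)) (Nat.add (f (Nat.add x14992 x44056)) (Nat.add
    (f (Nat.add x14996 x44052)) (Nat.add (f (Nat.add x14998 x44050))
    0)))))))))))))))))))))))))))))))))))))))))))))))))))))))))))) (Nat.add (Nat.add
    (f (Nat.add x15000 x44048)) (Nat.add (f (Nat.add x15004 x44044)) (Nat.add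
    (f (Nat.add x15006 x44042)) (Nat.add (f (Nat.add x15014 x44034)) (Nat.add
    (f (Nat.add x15016 x44032)) (Nat.add (f (Nat.add x15018 x44030)) (Nat.add
    (f (Nat.add x15022 x44026)) (Nat.add (f (Nat.add x15024 x44024)) (Nat.add
    (f (Nat.add x15030 x44018)) (Nat.add (f (Nat.add x15040 x44008)) (Nat.add
    (f (Nat.add x15042 x44006)) (Nat.add (f (Nat.add x15048 x44000)) (Nat.add
    (f (Nat.add x15074 x43974)) (Nat.add (f (Nat.add x15080 x43968)) (Nat.add
    (f (Nat.add x15082 x43966)) (Nat.add (f (Nat.add x15086 x43962)) (Nat.add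
    (f (Nat.add x15088 x43960)) (Nat.add (f (Nat.add x15090 x43958)) (Nat.add
    (f (Nat.add x15098 x43950)) (Nat.add (f (Nat.add x15100 x43948)) (Nat.add
    (f (Nat.add x15104 x43944)) (Nat.add (f (Nat.add x15106 x43942)) (Nat.add
    (f (Nat.add x15108 x43940)) (Nat.add (f (Nat.add x15112 x43936)) (Nat.add
    (f (Nat.add x15114 x43934)) (Nat.add (f (Nat.add x15122 x43926)) (Nat.add
    (f (Nat.add x15124 x43924)) (Nat.add (f (Nat.add x15126 x43922)) (Nat.add
    (f (Nat.add x15130 x43918)) (Nat.add (f (Nat.add x15132 x43916)) (Nat.add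
    (f (Nat.add x15138 x43910)) (Nat.add (f (Nat.add x15152 x43896)) (Nat.add
    (f (Nat.add x15154 x43894)) (Nat.add (f (Nat.add x15158 x43890)) (Nat.add
    (f (Nat.add x15160 x43888)) (Nat.add (f (Nat.add x15162 x43886)) (Nat.add
    (f (Nat.add x15166 x43882)) (Nat.add (f (Nat.add x15168 x43880)) (Nat.add
    (f (Nat.add x15176 x43872)) (Nat.add (f (Nat.add x15178 x43870)) (Nat.add
    (f (Nat.add x15180 x43868)) (Nat.add (f (Nat.add x15184 x43864)) (Nat.add
    (f (Nat.add x15186 x43862)) (Nat.add (f (Nat.add x15192 x43856)) (Nat.add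
    (f (Nat.add x15202 x43846)) (Nat.add (f (Nat.add x15204 x43844)) (Nat.add
    (f (Nat.add x15210 x43838)) (Nat.add (f (Nat.add x15230 x43818)) (Nat.add
    (f (Nat.add x15232 x43816)) (Nat.add (f (Nat.add x15234 x43814)) (Nat.add
    (f (Nat.add x15238 x43810)) (Nat.add (f (Nat.add x15240 x43808)) (Nat.add
    (f (Nat.add x15246 x43802)) (Nat.add (f (Nat.add x15256 x43792)) (Nat.add
    (f (Nat.add x15258 x43790)) (Nat.add (f (Nat.add x15264 x43784)) (Nat.add
    (f (Nat.add x15282 x43766)) (Nat.add (f (Nat.add x15362 x43686)) (Nat.add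
    (f (Nat.add x15380 x43668)) (Nat.add (f (Nat.add x15386 x43662))
    0)))))))))))))))))))))))))))))))))))))))))))))))))))))))))))) (Nat.add (Nat.add
    (f (Nat.add x15388 x43660)) (Nat.add (f (Nat.add x15416 x43632)) (Nat.add
    (f (Nat.add x15434 x43614)) (Nat.add (f (Nat.add x15440 x43608)) (Nat.add
    (f (Nat.add x15442 x43606)) (Nat.add (f (Nat.add x15452 x43596)) (Nat.add
    (f (Nat.add x15458 x43590)) (Nat.add (f (Nat.add x15460 x43588)) (Nat.add
    (f (Nat.add x15464 x43584)) (Nat.add (f (Nat.add x15466 x43582)) (Nat.add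
    (f (Nat.add x15468 x43580)) (Nat.add (f (Nat.add x15488 x43560)) (Nat.add
    (f (Nat.add x15494 x43554)) (Nat.add (f (Nat.add x15496 x43552)) (Nat.add
    (f (Nat.add x15506 x43542)) (Nat.add (f (Nat.add x15512 x43536)) (Nat.add
    (f (Nat.add x15514 x43534)) (Nat.add (f (Nat.add x15518 x43530)) (Nat.add
    (f (Nat.add x15520 x43528)) (Nat.add (f (Nat.add x15522 x43526)) (Nat.add
    (f (Nat.add x15530 x43518)) (Nat.add (f (Nat.add x15532 x43516)) (Nat.add
    (f (Nat.add x15536 x43512)) (Nat.add (f (Nat.add x15538 x43510)) (Nat.add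
    (f (Nat.add x15540 x43508)) (Nat.add (f (Nat.add x15544 x43504)) (Nat.add
    (f (Nat.add x15546 x43502)) (Nat.add (f (Nat.add x15578 x43470)) (Nat.add
    (f (Nat.add x15596 x43452)) (Nat.add (f (Nat.add x15602 x43446)) (Nat.add
    (f (Nat.add x15604 x43444)) (Nat.add (f (Nat.add x15614 x43434)) (Nat.add
    (f (Nat.add x15620 x43428)) (Nat.add (f (Nat.add x15622 x43426)) (Nat.add
    (f (Nat.add x15626 x43422)) (Nat.add (f (Nat.add x15628 x43420)) (Nat.add
    (f (Nat.add x15630 x43418)) (Nat.add (f (Nat.add x15650 x43398)) (Nat.add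
    (f (Nat.add x15656 x43392)) (Nat.add (f (Nat.add x15658 x43390)) (Nat.add
    (f (Nat.add x15668 x43380)) (Nat.add (f (Nat.add x15674 x43374)) (Nat.add
    (f (Nat.add x15676 x43372)) (Nat.add (f (Nat.add x15680 x43368)) (Nat.add
    (f (Nat.add x15682 x43366)) (Nat.add (f (Nat.add x15684 x43364)) (Nat.add
    (f (Nat.add x15692 x43356)) (Nat.add (f (Nat.add x15694 x43354)) (Nat.add
    (f (Nat.add x15698 x43350)) (Nat.add (f (Nat.add x15700 x43348)) (Nat.add
    (f (Nat.add x15702 x43346)) (Nat.add (f (Nat.add x15706 x43342)) (Nat.add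
    (f (Nat.add x15708 x43340)) (Nat.add (f (Nat.add x15722 x43326)) (Nat.add
    (f (Nat.add x15728 x43320)) (Nat.add (f (Nat.add x15730 x43318)) (Nat.add
    (f (Nat.add x15734 x43314)) (Nat.add (f (Nat.add x15736 x43312)) (Nat.add
    (f (Nat.add x15738 x43310)) (Nat.add (f (Nat.add x15746 x43302))
    0)))))))))))))))))))))))))))))))))))))))))))))))))))))))))))) (Nat.add (Nat.add
    (f (Nat.add x15748 x43300)) (Nat.add (f (Nat.add x15752 x43296)) (Nat.add
    (f (Nat.add x15754 x43294)) (Nat.add (f (Nat.add x15756 x43292)) (Nat.add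
    (f (Nat.add x15760 x43288)) (Nat.add (f (Nat.add x15762 x43286)) (Nat.add
    (f (Nat.add x15770 x43278)) (Nat.add (f (Nat.add x15772 x43276)) (Nat.add
    (f (Nat.add x15774 x43274)) (Nat.add (f (Nat.add x15778 x43270)) (Nat.add
    (f (Nat.add x15780 x43268)) (Nat.add (f (Nat.add x15786 x43262)) (Nat.add
    (f (Nat.add x15812 x43236)) (Nat.add (f (Nat.add x15818 x43230)) (Nat.add
    (f (Nat.add x15820 x43228)) (Nat.add (f (Nat.add x15830 x43218)) (Nat.add
    (f (Nat.add x15836 x43212)) (Nat.add (f (Nat.add x15838 x43210)) (Nat.add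
    (f (Nat.add x15842 x43206)) (Nat.add (f (Nat.add x15844 x43204)) (Nat.add
    (f (Nat.add x15846 x43202)) (Nat.add (f (Nat.add x15854 x43194)) (Nat.add
    (f (Nat.add x15856 x43192)) (Nat.add (f (Nat.add x15860 x43188)) (Nat.add
    (f (Nat.add x15862 x43186)) (Nat.add (f (Nat.add x15864 x43184)) (Nat.add
    (f (Nat.add x15868 x43180)) (Nat.add (f (Nat.add x15870 x43178)) (Nat.add
    (f (Nat.add x15884 x43164)) (Nat.add (f (Nat.add x15890 x43158)) (Nat.add
    (f (Nat.add x15892 x43156)) (Nat.add (f (Nat.add x15896 x43152)) (Nat.add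
    (f (Nat.add x15898 x43150)) (Nat.add (f (Nat.add x15900 x43148)) (Nat.add
    (f (Nat.add x15908 x43140)) (Nat.add (f (Nat.add x15910 x43138)) (Nat.add
    (f (Nat.add x15914 x43134)) (Nat.add (f (Nat.add x15916 x43132)) (Nat.add
    (f (Nat.add x15918 x43130)) (Nat.add (f (Nat.add x15922 x43126)) (Nat.add
    (f (Nat.add x15924 x43124)) (Nat.add (f (Nat.add x15932 x43116)) (Nat.add
    (f (Nat.add x15934 x43114)) (Nat.add (f (Nat.add x15936 x43112)) (Nat.add
    (f (Nat.add x15940 x43108)) (Nat.add (f (Nat.add x15942 x43106)) (Nat.add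
    (f (Nat.add x15948 x43100)) (Nat.add (f (Nat.add x15962 x43086)) (Nat.add
    (f (Nat.add x15964 x43084)) (Nat.add (f (Nat.add x15968 x43080)) (Nat.add
    (f (Nat.add x15970 x43078)) (Nat.add (f (Nat.add x15972 x43076)) (Nat.add
    (f (Nat.add x15976 x43072)) (Nat.add (f (Nat.add x15978 x43070)) (Nat.add
    (f (Nat.add x15986 x43062)) (Nat.add (f (Nat.add x15988 x43060)) (Nat.add
    (f (Nat.add x15990 x43058)) (Nat.add (f (Nat.add x15994 x43054)) (Nat.add
    (f (Nat.add x15996 x43052)) (Nat.add (f (Nat.add x16002 x43046))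
    0)))))))))))))))))))))))))))))))))))))))))))))))))))))))))))) (Nat.add (Nat.add
    (f (Nat.add x16012 x43036)) (Nat.add (f (Nat.add x16014 x43034)) (Nat.add
    (f (Nat.add x16020 x43028)) (Nat.add (f (Nat.add x16064 x42984)) (Nat.add
    (f (Nat.add x16082 x42966)) (Nat.add (f (Nat.add x16088 x42960)) (Nat.add
    (f (Nat.add x16090 x42958)) (Nat.add (f (Nat.add x16100 x42948)) (Nat.add
    (f (Nat.add x16106 x42942)) (Nat.add (f (Nat.add x16108 x42940)) (Nat.add
    (f (Nat.add x16112 x42936)) (Nat.add (f (Nat.add x16114 x42934)) (Nat.add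
    (f (Nat.add x16116 x42932)) (Nat.add (f (Nat.add x16136 x42912)) (Nat.add
    (f (Nat.add x16142 x42906)) (Nat.add (f (Nat.add x16144 x42904)) (Nat.add
    (f (Nat.add x16154 x42894)) (Nat.add (f (Nat.add x16160 x42888)) (Nat.add
    (f (Nat.add x16162 x42886)) (Nat.add (f (Nat.add x16166 x42882)) (Nat.add
    (f (Nat.add x16168 x42880)) (Nat.add (f (Nat.add x16170 x42878)) (Nat.add
    (f (Nat.add x16178 x42870)) (Nat.add (f (Nat.add x16180 x42868)) (Nat.add
    (f (Nat.add x16184 x42864)) (Nat.add (f (Nat.add x16186 x42862)) (Nat.add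
    (f (Nat.add x16188 x42860)) (Nat.add (f (Nat.add x16192 x42856)) (Nat.add
    (f (Nat.add x16194 x42854)) (Nat.add (f (Nat.add x16208 x42840)) (Nat.add
    (f (Nat.add x16214 x42834)) (Nat.add (f (Nat.add x16216 x42832)) (Nat.add
    (f (Nat.add x16220 x42828)) (Nat.add (f (Nat.add x16222 x42826)) (Nat.add
    (f (Nat.add x16224 x42824)) (Nat.add (f (Nat.add x16232 x42816)) (Nat.add
    (f (Nat.add x16234 x42814)) (Nat.add (f (Nat.add x16238 x42810)) (Nat.add
    (f (Nat.add x16240 x42808)) (Nat.add (f (Nat.add x16242 x42806)) (Nat.add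
    (f (Nat.add x16246 x42802)) (Nat.add (f (Nat.add x16248 x42800)) (Nat.add
    (f (Nat.add x16256 x42792)) (Nat.add (f (Nat.add x16258 x42790)) (Nat.add
    (f (Nat.add x16260 x42788)) (Nat.add (f (Nat.add x16264 x42784)) (Nat.add
    (f (Nat.add x16266 x42782)) (Nat.add (f (Nat.add x16272 x42776)) (Nat.add
    (f (Nat.add x16298 x42750)) (Nat.add (f (Nat.add x16304 x42744)) (Nat.add
    (f (Nat.add x16306 x42742)) (Nat.add (f (Nat.add x16316 x42732)) (Nat.add
    (f (Nat.add x16322 x42726)) (Nat.add (f (Nat.add x16324 x42724)) (Nat.add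
    (f (Nat.add x16328 x42720)) (Nat.add (f (Nat.add x16330 x42718)) (Nat.add
    (f (Nat.add x16332 x42716)) (Nat.add (f (Nat.add x16340 x42708)) (Nat.add
    (f (Nat.add x16342 x42706)) (Nat.add (f (Nat.add x16346 x42702))
    0)))))))))))))))))))))))))))))))))))))))))))))))))))))))))))) (Nat.add (Nat.add
    (f (Nat.add x16348 x42700)) (Nat.add (f (Nat.add x16350 x42698)) (Nat.add
    (f (Nat.add x16354 x42694)) (Nat.add (f (Nat.add x16356 x42692)) (Nat.add
    (f (Nat.add x16370 x42678)) (Nat.add (f (Nat.add x16376 x42672)) (Nat.add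
    (f (Nat.add x16378 x42670)) (Nat.add (f (Nat.add x16382 x42666)) (Nat.add
    (f (Nat.add x16384 x42664)) (Nat.add (f (Nat.add x16386 x42662)) (Nat.add
    (f (Nat.add x16394 x42654)) (Nat.add (f (Nat.add x16396 x42652)) (Nat.add
    (f (Nat.add x16400 x42648)) (Nat.add (f (Nat.add x16402 x42646)) (Nat.add
    (f (Nat.add x16404 x42644)) (Nat.add (f (Nat.add x16408 x42640)) (Nat.add
    (f (Nat.add x16410 x42638)) (Nat.add (f (Nat.add x16418 x42630)) (Nat.add
    (f (Nat.add x16420 x42628)) (Nat.add (f (Nat.add x16422 x42626)) (Nat.add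
    (f (Nat.add x16426 x42622)) (Nat.add (f (Nat.add x16428 x42620)) (Nat.add
    (f (Nat.add x16434 x42614)) (Nat.add (f (Nat.add x16448 x42600)) (Nat.add
    (f (Nat.add x16450 x42598)) (Nat.add (f (Nat.add x16454 x42594)) (Nat.add
    (f (Nat.add x16456 x42592)) (Nat.add (f (Nat.add x16458 x42590)) (Nat.add
    (f (Nat.add x16462 x42586)) (Nat.add (f (Nat.add x16464 x42584)) (Nat.add
    (f (Nat.add x16472 x42576)) (Nat.add (f (Nat.add x16474 x42574)) (Nat.add
    (f (Nat.add x16476 x42572)) (Nat.add (f (Nat.add x16480 x42568)) (Nat.add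
    (f (Nat.add x16482 x42566)) (Nat.add (f (Nat.add x16488 x42560)) (Nat.add
    (f (Nat.add x16498 x42550)) (Nat.add (f (Nat.add x16500 x42548)) (Nat.add
    (f (Nat.add x16506 x42542)) (Nat.add (f (Nat.add x16532 x42516)) (Nat.add
    (f (Nat.add x16538 x42510)) (Nat.add (f (Nat.add x16540 x42508)) (Nat.add
    (f (Nat.add x16544 x42504)) (Nat.add (f (Nat.add x16546 x42502)) (Nat.add
    (f (Nat.add x16548 x42500)) (Nat.add (f (Nat.add x16556 x42492)) (Nat.add
    (f (Nat.add x16558 x42490)) (Nat.add (f (Nat.add x16562 x42486)) (Nat.add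
    (f (Nat.add x16564 x42484)) (Nat.add (f (Nat.add x16566 x42482)) (Nat.add
    (f (Nat.add x16570 x42478)) (Nat.add (f (Nat.add x16572 x42476)) (Nat.add
    (f (Nat.add x16580 x42468)) (Nat.add (f (Nat.add x16582 x42466)) (Nat.add
    (f (Nat.add x16584 x42464)) (Nat.add (f (Nat.add x16588 x42460)) (Nat.add
    (f (Nat.add x16590 x42458)) (Nat.add (f (Nat.add x16596 x42452)) (Nat.add
    (f (Nat.add x16610 x42438)) (Nat.add (f (Nat.add x16612 x42436))
    0)))))))))))))))))))))))))))))))))))))))))))))))))))))))))))) (Nat.add (Nat.add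
    (f (Nat.add x16616 x42432)) (Nat.add (f (Nat.add x16618 x42430)) (Nat.add
    (f (Nat.add x16620 x42428)) (Nat.add (f (Nat.add x16624 x42424)) (Nat.add
    (f (Nat.add x16626 x42422)) (Nat.add (f (Nat.add x16634 x42414)) (Nat.add
    (f (Nat.add x16636 x42412)) (Nat.add (f (Nat.add x16638 x42410)) (Nat.add
    (f (Nat.add x16642 x42406)) (Nat.add (f (Nat.add x16644 x42404)) (Nat.add
    (f (Nat.add x16650 x42398)) (Nat.add (f (Nat.add x16660 x42388)) (Nat.add
    (f (Nat.add x16662 x42386)) (Nat.add (f (Nat.add x16668 x42380)) (Nat.add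
    (f (Nat.add x16688 x42360)) (Nat.add (f (Nat.add x16690 x42358)) (Nat.add
    (f (Nat.add x16692 x42356)) (Nat.add (f (Nat.add x16696 x42352)) (Nat.add
    (f (Nat.add x16698 x42350)) (Nat.add (f (Nat.add x16704 x42344)) (Nat.add
    (f (Nat.add x16714 x42334)) (Nat.add (f (Nat.add x16716 x42332)) (Nat.add
    (f (Nat.add x16722 x42326)) (Nat.add (f (Nat.add x16740 x42308)) (Nat.add
    (f (Nat.add x16784 x42264)) (Nat.add (f (Nat.add x16790 x42258)) (Nat.add
    (f (Nat.add x16792 x42256)) (Nat.add (f (Nat.add x16802 x42246)) (Nat.add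
    (f (Nat.add x16808 x42240)) (Nat.add (f (Nat.add x16810 x42238)) (Nat.add
    (f (Nat.add x16814 x42234)) (Nat.add (f (Nat.add x16816 x42232)) (Nat.add
    (f (Nat.add x16818 x42230)) (Nat.add (f (Nat.add x16826 x42222)) (Nat.add
    (f (Nat.add x16828 x42220)) (Nat.add (f (Nat.add x16832 x42216)) (Nat.add
    (f (Nat.add x16834 x42214)) (Nat.add (f (Nat.add x16836 x42212)) (Nat.add
    (f (Nat.add x16840 x42208)) (Nat.add (f (Nat.add x16842 x42206)) (Nat.add
    (f (Nat.add x16856 x42192)) (Nat.add (f (Nat.add x16862 x42186)) (Nat.add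
    (f (Nat.add x16864 x42184)) (Nat.add (f (Nat.add x16868 x42180)) (Nat.add
    (f (Nat.add x16870 x42178)) (Nat.add (f (Nat.add x16872 x42176)) (Nat.add
    (f (Nat.add x16880 x42168)) (Nat.add (f (Nat.add x16882 x42166)) (Nat.add
    (f (Nat.add x16886 x42162)) (Nat.add (f (Nat.add x16888 x42160)) (Nat.add
    (f (Nat.add x16890 x42158)) (Nat.add (f (Nat.add x16894 x42154)) (Nat.add
    (f (Nat.add x16896 x42152)) (Nat.add (f (Nat.add x16904 x42144)) (Nat.add
    (f (Nat.add x16906 x42142)) (Nat.add (f (Nat.add x16908 x42140)) (Nat.add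
    (f (Nat.add x16912 x42136)) (Nat.add (f (Nat.add x16914 x42134)) (Nat.add
    (f (Nat.add x16920 x42128)) (Nat.add (f (Nat.add x16934 x42114))
    0)))))))))))))))))))))))))))))))))))))))))))))))))))))))))))) (Nat.add (Nat.add
    (f (Nat.add x16936 x42112)) (Nat.add (f (Nat.add x16940 x42108)) (Nat.add
    (f (Nat.add x16942 x42106)) (Nat.add (f (Nat.add x16944 x42104)) (Nat.add
    (f (Nat.add x16948 x42100)) (Nat.add (f (Nat.add x16950 x42098)) (Nat.add
    (f (Nat.add x16958 x42090)) (Nat.add (f (Nat.add x16960 x42088)) (Nat.add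
    (f (Nat.add x16962 x42086)) (Nat.add (f (Nat.add x16966 x42082)) (Nat.add
    (f (Nat.add x16968 x42080)) (Nat.add (f (Nat.add x16974 x42074)) (Nat.add
    (f (Nat.add x16984 x42064)) (Nat.add (f (Nat.add x16986 x42062)) (Nat.add
    (f (Nat.add x16992 x42056)) (Nat.add (f (Nat.add x17018 x42030)) (Nat.add
    (f (Nat.add x17024 x42024)) (Nat.add (f (Nat.add x17026 x42022)) (Nat.add
    (f (Nat.add x17030 x42018)) (Nat.add (f (Nat.add x17032 x42016)) (Nat.add
    (f (Nat.add x17034 x42014)) (Nat.add (f (Nat.add x17042 x42006)) (Nat.add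
    (f (Nat.add x17044 x42004)) (Nat.add (f (Nat.add x17048 x42000)) (Nat.add
    (f (Nat.add x17050 x41998)) (Nat.add (f (Nat.add x17052 x41996)) (Nat.add
    (f (Nat.add x17056 x41992)) (Nat.add (f (Nat.add x17058 x41990)) (Nat.add
    (f (Nat.add x17066 x41982)) (Nat.add (f (Nat.add x17068 x41980)) (Nat.add
    (f (Nat.add x17070 x41978)) (Nat.add (f (Nat.add x17074 x41974)) (Nat.add
    (f (Nat.add x17076 x41972)) (Nat.add (f (Nat.add x17082 x41966)) (Nat.add
    (f (Nat.add x17096 x41952)) (Nat.add (f (Nat.add x17098 x41950)) (Nat.add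
    (f (Nat.add x17102 x41946)) (Nat.add (f (Nat.add x17104 x41944)) (Nat.add
    (f (Nat.add x17106 x41942)) (Nat.add (f (Nat.add x17110 x41938)) (Nat.add
    (f (Nat.add x17112 x41936)) (Nat.add (f (Nat.add x17120 x41928)) (Nat.add
    (f (Nat.add x17122 x41926)) (Nat.add (f (Nat.add x17124 x41924)) (Nat.add
    (f (Nat.add x17128 x41920)) (Nat.add (f (Nat.add x17130 x41918)) (Nat.add
    (f (Nat.add x17136 x41912)) (Nat.add (f (Nat.add x17146 x41902)) (Nat.add
    (f (Nat.add x17148 x41900)) (Nat.add (f (Nat.add x17154 x41894)) (Nat.add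
    (f (Nat.add x17174 x41874)) (Nat.add (f (Nat.add x17176 x41872)) (Nat.add
    (f (Nat.add x17178 x41870)) (Nat.add (f (Nat.add x17182 x41866)) (Nat.add
    (f (Nat.add x17184 x41864)) (Nat.add (f (Nat.add x17190 x41858)) (Nat.add
    (f (Nat.add x17200 x41848)) (Nat.add (f (Nat.add x17202 x41846)) (Nat.add
    (f (Nat.add x17208 x41840)) (Nat.add (f (Nat.add x17226 x41822))
    0)))))))))))))))))))))))))))))))))))))))))))))))))))))))))))) (Nat.add (Nat.add
    (f (Nat.add x17258 x41790)) (Nat.add (f (Nat.add x17260 x41788)) (Nat.add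
    (f (Nat.add x17264 x41784)) (Nat.add (f (Nat.add x17266 x41782)) (Nat.add
    (f (Nat.add x17268 x41780)) (Nat.add (f (Nat.add x17272 x41776)) (Nat.add
    (f (Nat.add x17274 x41774)) (Nat.add (f (Nat.add x17282 x41766)) (Nat.add
    (f (Nat.add x17284 x41764)) (Nat.add (f (Nat.add x17286 x41762)) (Nat.add
    (f (Nat.add x17290 x41758)) (Nat.add (f (Nat.add x17292 x41756)) (Nat.add
    (f (Nat.add x17298 x41750)) (Nat.add (f (Nat.add x17308 x41740)) (Nat.add
    (f (Nat.add x17310 x41738)) (Nat.add (f (Nat.add x17316 x41732)) (Nat.add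
    (f (Nat.add x17336 x41712)) (Nat.add (f (Nat.add x17338 x41710)) (Nat.add
    (f (Nat.add x17340 x41708)) (Nat.add (f (Nat.add x17344 x41704)) (Nat.add
    (f (Nat.add x17346 x41702)) (Nat.add (f (Nat.add x17352 x41696)) (Nat.add
    (f (Nat.add x17362 x41686)) (Nat.add (f (Nat.add x17364 x41684)) (Nat.add
    (f (Nat.add x17370 x41678)) (Nat.add (f (Nat.add x17388 x41660)) (Nat.add
    (f (Nat.add x17416 x41632)) (Nat.add (f (Nat.add x17418 x41630)) (Nat.add
    (f (Nat.add x17424 x41624)) (Nat.add (f (Nat.add x17442 x41606)) (Nat.add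
    (f (Nat.add x17522 x41526)) (Nat.add (f (Nat.add x17540 x41508)) (Nat.add
    (f (Nat.add x17546 x41502)) (Nat.add (f (Nat.add x17548 x41500)) (Nat.add
    (f (Nat.add x17558 x41490)) (Nat.add (f (Nat.add x17564 x41484)) (Nat.add
    (f (Nat.add x17566 x41482)) (Nat.add (f (Nat.add x17570 x41478)) (Nat.add
    (f (Nat.add x17572 x41476)) (Nat.add (f (Nat.add x17574 x41474)) (Nat.add
    (f (Nat.add x17594 x41454)) (Nat.add (f (Nat.add x17600 x41448)) (Nat.add
    (f (Nat.add x17602 x41446)) (Nat.add (f (Nat.add x17612 x41436)) (Nat.add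
    (f (Nat.add x17618 x41430)) (Nat.add (f (Nat.add x17620 x41428)) (Nat.add
    (f (Nat.add x17624 x41424)) (Nat.add (f (Nat.add x17626 x41422)) (Nat.add
    (f (Nat.add x17628 x41420)) (Nat.add (f (Nat.add x17636 x41412)) (Nat.add
    (f (Nat.add x17638 x41410)) (Nat.add (f (Nat.add x17642 x41406)) (Nat.add
    (f (Nat.add x17644 x41404)) (Nat.add (f (Nat.add x17646 x41402)) (Nat.add
    (f (Nat.add x17650 x41398)) (Nat.add (f (Nat.add x17652 x41396)) (Nat.add
    (f (Nat.add x17666 x41382)) (Nat.add (f (Nat.add x17672 x41376)) (Nat.add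
    (f (Nat.add x17674 x41374)) (Nat.add (f (Nat.add x17678 x41370))
    0)))))))))))))))))))))))))))))))))))))))))))))))))))))))))))) (Nat.add (Nat.add
    (f (Nat.add x17680 x41368)) (Nat.add (f (Nat.add x17682 x41366)) (Nat.add
    (f (Nat.add x17690 x41358)) (Nat.add (f (Nat.add x17692 x41356)) (Nat.add
    (f (Nat.add x17696 x41352)) (Nat.add (f (Nat.add x17698 x41350)) (Nat.add
    (f (Nat.add x17700 x41348)) (Nat.add (f (Nat.add x17704 x41344)) (Nat.add
    (f (Nat.add x17706 x41342)) (Nat.add (f (Nat.add x17714 x41334)) (Nat.add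
    (f (Nat.add x17716 x41332)) (Nat.add (f (Nat.add x17718 x41330)) (Nat.add
    (f (Nat.add x17722 x41326)) (Nat.add (f (Nat.add x17724 x41324)) (Nat.add
    (f (Nat.add x17730 x41318)) (Nat.add (f (Nat.add x17756 x41292)) (Nat.add
    (f (Nat.add x17762 x41286)) (Nat.add (f (Nat.add x17764 x41284)) (Nat.add
    (f (Nat.add x17774 x41274)) (Nat.add (f (Nat.add x17780 x41268)) (Nat.add
    (f (Nat.add x17782 x41266)) (Nat.add (f (Nat.add x17786 x41262)) (Nat.add
    (f (Nat.add x17788 x41260)) (Nat.add (f (Nat.add x17790 x41258)) (Nat.add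
    (f (Nat.add x17798 x41250)) (Nat.add (f (Nat.add x17800 x41248)) (Nat.add
    (f (Nat.add x17804 x41244)) (Nat.add (f (Nat.add x17806 x41242)) (Nat.add
    (f (Nat.add x17808 x41240)) (Nat.add (f (Nat.add x17812 x41236)) (Nat.add
    (f (Nat.add x17814 x41234)) (Nat.add (f (Nat.add x17828 x41220)) (Nat.add
    (f (Nat.add x17834 x41214)) (Nat.add (f (Nat.add x17836 x41212)) (Nat.add
    (f (Nat.add x17840 x41208)) (Nat.add (f (Nat.add x17842 x41206)) (Nat.add
    (f (Nat.add x17844 x41204)) (Nat.add (f (Nat.add x17852 x41196)) (Nat.add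
    (f (Nat.add x17854 x41194)) (Nat.add (f (Nat.add x17858 x41190)) (Nat.add
    (f (Nat.add x17860 x41188)) (Nat.add (f (Nat.add x17862 x41186)) (Nat.add
    (f (Nat.add x17866 x41182)) (Nat.add (f (Nat.add x17868 x41180)) (Nat.add
    (f (Nat.add x17876 x41172)) (Nat.add (f (Nat.add x17878 x41170)) (Nat.add
    (f (Nat.add x17880 x41168)) (Nat.add (f (Nat.add x17884 x41164)) (Nat.add
    (f (Nat.add x17886 x41162)) (Nat.add (f (Nat.add x17892 x41156)) (Nat.add
    (f (Nat.add x17906 x41142)) (Nat.add (f (Nat.add x17908 x41140)) (Nat.add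
    (f (Nat.add x17912 x41136)) (Nat.add (f (Nat.add x17914 x41134)) (Nat.add
    (f (Nat.add x17916 x41132)) (Nat.add (f (Nat.add x17920 x41128)) (Nat.add
    (f (Nat.add x17922 x41126)) (Nat.add (f (Nat.add x17930 x41118)) (Nat.add
    (f (Nat.add x17932 x41116)) (Nat.add (f (Nat.add x17934 x41114))
    0)))))))))))))))))))))))))))))))))))))))))))))))))))))))))))) (Nat.add (Nat.add
    (f (Nat.add x17938 x41110)) (Nat.add (f (Nat.add x17940 x41108)) (Nat.add
    (f (Nat.add x17946 x41102)) (Nat.add (f (Nat.add x17956 x41092)) (Nat.add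
    (f (Nat.add x17958 x41090)) (Nat.add (f (Nat.add x17964 x41084)) (Nat.add
    (f (Nat.add x17990 x41058)) (Nat.add (f (Nat.add x17996 x41052)) (Nat.add
    (f (Nat.add x17998 x41050)) (Nat.add (f (Nat.add x18002 x41046)) (Nat.add
    (f (Nat.add x18004 x41044)) (Nat.add (f (Nat.add x18006 x41042)) (Nat.add
    (f (Nat.add x18014 x41034)) (Nat.add (f (Nat.add x18016 x41032)) (Nat.add
    (f (Nat.add x18020 x41028)) (Nat.add (f (Nat.add x18022 x41026)) (Nat.add
    (f (Nat.add x18024 x41024)) (Nat.add (f (Nat.add x18028 x41020)) (Nat.add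
    (f (Nat.add x18030 x41018)) (Nat.add (f (Nat.add x18038 x41010)) (Nat.add
    (f (Nat.add x18040 x41008)) (Nat.add (f (Nat.add x18042 x41006)) (Nat.add
    (f (Nat.add x18046 x41002)) (Nat.add (f (Nat.add x18048 x41000)) (Nat.add
    (f (Nat.add x18054 x40994)) (Nat.add (f (Nat.add x18068 x40980)) (Nat.add
    (f (Nat.add x18070 x40978)) (Nat.add (f (Nat.add x18074 x40974)) (Nat.add
    (f (Nat.add x18076 x40972)) (Nat.add (f (Nat.add x18078 x40970)) (Nat.add
    (f (Nat.add x18082 x40966)) (Nat.add (f (Nat.add x18084 x40964)) (Nat.add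
    (f (Nat.add x18092 x40956)) (Nat.add (f (Nat.add x18094 x40954)) (Nat.add
    (f (Nat.add x18096 x40952)) (Nat.add (f (Nat.add x18100 x40948)) (Nat.add
    (f (Nat.add x18102 x40946)) (Nat.add (f (Nat.add x18108 x40940)) (Nat.add
    (f (Nat.add x18118 x40930)) (Nat.add (f (Nat.add x18120 x40928)) (Nat.add
    (f (Nat.add x18126 x40922)) (Nat.add (f (Nat.add x18146 x40902)) (Nat.add
    (f (Nat.add x18148 x40900)) (Nat.add (f (Nat.add x18150 x40898)) (Nat.add
    (f (Nat.add x18154 x40894)) (Nat.add (f (Nat.add x18156 x40892)) (Nat.add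
    (f (Nat.add x18162 x40886)) (Nat.add (f (Nat.add x18172 x40876)) (Nat.add
    (f (Nat.add x18174 x40874)) (Nat.add (f (Nat.add x18180 x40868)) (Nat.add
    (f (Nat.add x18198 x40850)) (Nat.add (f (Nat.add x18242 x40806)) (Nat.add
    (f (Nat.add x18248 x40800)) (Nat.add (f (Nat.add x18250 x40798)) (Nat.add
    (f (Nat.add x18260 x40788)) (Nat.add (f (Nat.add x18266 x40782)) (Nat.add
    (f (Nat.add x18268 x40780)) (Nat.add (f (Nat.add x18272 x40776)) (Nat.add
    (f (Nat.add x18274 x40774)) (Nat.add (f (Nat.add x18276 x40772))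
    0)))))))))))))))))))))))))))))))))))))))))))))))))))))))))))) (Nat.add (Nat.add
    (f (Nat.add x18284 x40764)) (Nat.add (f (Nat.add x18286 x40762)) (Nat.add
    (f (Nat.add x18290 x40758)) (Nat.add (f (Nat.add x18292 x40756)) (Nat.add
    (f (Nat.add x18294 x40754)) (Nat.add (f (Nat.add x18298 x40750)) (Nat.add
    (f (Nat.add x18300 x40748)) (Nat.add (f (Nat.add x18314 x40734)) (Nat.add
    (f (Nat.add x18320 x40728)) (Nat.add (f (Nat.add x18322 x40726)) (Nat.add
    (f (Nat.add x18326 x40722)) (Nat.add (f (Nat.add x18328 x40720)) (Nat.add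
    (f (Nat.add x18330 x40718)) (Nat.add (f (Nat.add x18338 x40710)) (Nat.add
    (f (Nat.add x18340 x40708)) (Nat.add (f (Nat.add x18344 x40704)) (Nat.add
    (f (Nat.add x18346 x40702)) (Nat.add (f (Nat.add x18348 x40700)) (Nat.add
    (f (Nat.add x18352 x40696)) (Nat.add (f (Nat.add x18354 x40694)) (Nat.add
    (f (Nat.add x18362 x40686)) (Nat.add (f (Nat.add x18364 x40684)) (Nat.add
    (f (Nat.add x18366 x40682)) (Nat.add (f (Nat.add x18370 x40678)) (Nat.add
    (f (Nat.add x18372 x40676)) (Nat.add (f (Nat.add x18378 x40670)) (Nat.add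
    (f (Nat.add x18392 x40656)) (Nat.add (f (Nat.add x18394 x40654)) (Nat.add
    (f (Nat.add x18398 x40650)) (Nat.add (f (Nat.add x18400 x40648)) (Nat.add
    (f (Nat.add x18402 x40646)) (Nat.add (f (Nat.add x18406 x40642)) (Nat.add
    (f (Nat.add x18408 x40640)) (Nat.add (f (Nat.add x18416 x40632)) (Nat.add
    (f (Nat.add x18418 x40630)) (Nat.add (f (Nat.add x18420 x40628)) (Nat.add
    (f (Nat.add x18424 x40624)) (Nat.add (f (Nat.add x18426 x40622)) (Nat.add
    (f (Nat.add x18432 x40616)) (Nat.add (f (Nat.add x18442 x40606)) (Nat.add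
    (f (Nat.add x18444 x40604)) (Nat.add (f (Nat.add x18450 x40598)) (Nat.add
    (f (Nat.add x18476 x40572)) (Nat.add (f (Nat.add x18482 x40566)) (Nat.add
    (f (Nat.add x18484 x40564)) (Nat.add (f (Nat.add x18488 x40560)) (Nat.add
    (f (Nat.add x18490 x40558)) (Nat.add (f (Nat.add x18492 x40556)) (Nat.add
    (f (Nat.add x18500 x40548)) (Nat.add (f (Nat.add x18502 x40546)) (Nat.add
    (f (Nat.add x18506 x40542)) (Nat.add (f (Nat.add x18508 x40540)) (Nat.add
    (f (Nat.add x18510 x40538)) (Nat.add (f (Nat.add x18514 x40534)) (Nat.add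
    (f (Nat.add x18516 x40532)) (Nat.add (f (Nat.add x18524 x40524)) (Nat.add
    (f (Nat.add x18526 x40522)) (Nat.add (f (Nat.add x18528 x40520)) (Nat.add
    (f (Nat.add x18532 x40516)) (Nat.add (f (Nat.add x18534 x40514))
    0)))))))))))))))))))))))))))))))))))))))))))))))))))))))))))) (Nat.add (Nat.add
    (f (Nat.add x18540 x40508)) (Nat.add (f (Nat.add x18554 x40494)) (Nat.add
    (f (Nat.add x18556 x40492)) (Nat.add (f (Nat.add x18560 x40488)) (Nat.add
    (f (Nat.add x18562 x40486)) (Nat.add (f (Nat.add x18564 x40484)) (Nat.add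
    (f (Nat.add x18568 x40480)) (Nat.add (f (Nat.add x18570 x40478)) (Nat.add
    (f (Nat.add x18578 x40470)) (Nat.add (f (Nat.add x18580 x40468)) (Nat.add
    (f (Nat.add x18582 x40466)) (Nat.add (f (Nat.add x18586 x40462)) (Nat.add
    (f (Nat.add x18588 x40460)) (Nat.add (f (Nat.add x18594 x40454)) (Nat.add
    (f (Nat.add x18604 x40444)) (Nat.add (f (Nat.add x18606 x40442)) (Nat.add
    (f (Nat.add x18612 x40436)) (Nat.add (f (Nat.add x18632 x40416)) (Nat.add
    (f (Nat.add x18634 x40414)) (Nat.add (f (Nat.add x18636 x40412)) (Nat.add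
    (f (Nat.add x18640 x40408)) (Nat.add (f (Nat.add x18642 x40406)) (Nat.add
    (f (Nat.add x18648 x40400)) (Nat.add (f (Nat.add x18658 x40390)) (Nat.add
    (f (Nat.add x18660 x40388)) (Nat.add (f (Nat.add x18666 x40382)) (Nat.add
    (f (Nat.add x18684 x40364)) (Nat.add (f (Nat.add x18716 x40332)) (Nat.add
    (f (Nat.add x18718 x40330)) (Nat.add (f (Nat.add x18722 x40326)) (Nat.add
    (f (Nat.add x18724 x40324)) (Nat.add (f (Nat.add x18726 x40322)) (Nat.add
    (f (Nat.add x18730 x40318)) (Nat.add (f (Nat.add x18732 x40316)) (Nat.add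
    (f (Nat.add x18740 x40308)) (Nat.add (f (Nat.add x18742 x40306)) (Nat.add
    (f (Nat.add x18744 x40304)) (Nat.add (f (Nat.add x18748 x40300)) (Nat.add
    (f (Nat.add x18750 x40298)) (Nat.add (f (Nat.add x18756 x40292)) (Nat.add
    (f (Nat.add x18766 x40282)) (Nat.add (f (Nat.add x18768 x40280)) (Nat.add
    (f (Nat.add x18774 x40274)) (Nat.add (f (Nat.add x18794 x40254)) (Nat.add
    (f (Nat.add x18796 x40252)) (Nat.add (f (Nat.add x18798 x40250)) (Nat.add
    (f (Nat.add x18802 x40246)) (Nat.add (f (Nat.add x18804 x40244)) (Nat.add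
    (f (Nat.add x18810 x40238)) (Nat.add (f (Nat.add x18820 x40228)) (Nat.add
    (f (Nat.add x18822 x40226)) (Nat.add (f (Nat.add x18828 x40220)) (Nat.add
    (f (Nat.add x18846 x40202)) (Nat.add (f (Nat.add x18874 x40174)) (Nat.add
    (f (Nat.add x18876 x40172)) (Nat.add (f (Nat.add x18882 x40166)) (Nat.add
    (f (Nat.add x18900 x40148)) (Nat.add (f (Nat.add x18962 x40086)) (Nat.add
    (f (Nat.add x18968 x40080)) (Nat.add (f (Nat.add x18970 x40078))
    0)))))))))))))))))))))))))))))))))))))))))))))))))))))))))))) (Nat.add (Nat.add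
    (f (Nat.add x18974 x40074)) (Nat.add (f (Nat.add x18976 x40072)) (Nat.add
    (f (Nat.add x18978 x40070)) (Nat.add (f (Nat.add x18986 x40062)) (Nat.add
    (f (Nat.add x18988 x40060)) (Nat.add (f (Nat.add x18992 x40056)) (Nat.add
    (f (Nat.add x18994 x40054)) (Nat.add (f (Nat.add x18996 x40052)) (Nat.add
    (f (Nat.add x19000 x40048)) (Nat.add (f (Nat.add x19002 x40046)) (Nat.add
    (f (Nat.add x19010 x40038)) (Nat.add (f (Nat.add x19012 x40036)) (Nat.add
    (f (Nat.add x19014 x40034)) (Nat.add (f (Nat.add x19018 x40030)) (Nat.add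
    (f (Nat.add x19020 x40028)) (Nat.add (f (Nat.add x19026 x40022)) (Nat.add
    (f (Nat.add x19040 x40008)) (Nat.add (f (Nat.add x19042 x40006)) (Nat.add
    (f (Nat.add x19046 x40002)) (Nat.add (f (Nat.add x19048 x40000)) (Nat.add
    (f (Nat.add x19050 x39998)) (Nat.add (f (Nat.add x19054 x39994)) (Nat.add
    (f (Nat.add x19056 x39992)) (Nat.add (f (Nat.add x19064 x39984)) (Nat.add
    (f (Nat.add x19066 x39982)) (Nat.add (f (Nat.add x19068 x39980)) (Nat.add
    (f (Nat.add x19072 x39976)) (Nat.add (f (Nat.add x19074 x39974)) (Nat.add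
    (f (Nat.add x19080 x39968)) (Nat.add (f (Nat.add x19090 x39958)) (Nat.add
    (f (Nat.add x19092 x39956)) (Nat.add (f (Nat.add x19098 x39950)) (Nat.add
    (f (Nat.add x19118 x39930)) (Nat.add (f (Nat.add x19120 x39928)) (Nat.add
    (f (Nat.add x19122 x39926)) (Nat.add (f (Nat.add x19126 x39922)) (Nat.add
    (f (Nat.add x19128 x39920)) (Nat.add (f (Nat.add x19134 x39914)) (Nat.add
    (f (Nat.add x19144 x39904)) (Nat.add (f (Nat.add x19146 x39902)) (Nat.add
    (f (Nat.add x19152 x39896)) (Nat.add (f (Nat.add x19170 x39878)) (Nat.add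
    (f (Nat.add x19202 x39846)) (Nat.add (f (Nat.add x19204 x39844)) (Nat.add
    (f (Nat.add x19208 x39840)) (Nat.add (f (Nat.add x19210 x39838)) (Nat.add
    (f (Nat.add x19212 x39836)) (Nat.add (f (Nat.add x19216 x39832)) (Nat.add
    (f (Nat.add x19218 x39830)) (Nat.add (f (Nat.add x19226 x39822)) (Nat.add
    (f (Nat.add x19228 x39820)) (Nat.add (f (Nat.add x19230 x39818)) (Nat.add
    (f (Nat.add x19234 x39814)) (Nat.add (f (Nat.add x19236 x39812)) (Nat.add
    (f (Nat.add x19242 x39806)) (Nat.add (f (Nat.add x19252 x39796)) (Nat.add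
    (f (Nat.add x19254 x39794)) (Nat.add (f (Nat.add x19260 x39788)) (Nat.add
    (f (Nat.add x19280 x39768)) (Nat.add (f (Nat.add x19282 x39766))
    0)))))))))))))))))))))))))))))))))))))))))))))))))))))))))))) (Nat.add (Nat.add
    (f (Nat.add x19284 x39764)) (Nat.add (f (Nat.add x19288 x39760)) (Nat.add
    (f (Nat.add x19290 x39758)) (Nat.add (f (Nat.add x19296 x39752)) (Nat.add
    (f (Nat.add x19306 x39742)) (Nat.add (f (Nat.add x19308 x39740)) (Nat.add
    (f (Nat.add x19314 x39734)) (Nat.add (f (Nat.add x19332 x39716)) (Nat.add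
    (f (Nat.add x19360 x39688)) (Nat.add (f (Nat.add x19362 x39686)) (Nat.add
    (f (Nat.add x19368 x39680)) (Nat.add (f (Nat.add x19386 x39662)) (Nat.add
    (f (Nat.add x19442 x39606)) (Nat.add (f (Nat.add x19444 x39604)) (Nat.add
    (f (Nat.add x19446 x39602)) (Nat.add (f (Nat.add x19450 x39598)) (Nat.add
    (f (Nat.add x19452 x39596)) (Nat.add (f (Nat.add x19458 x39590)) (Nat.add
    (f (Nat.add x19468 x39580)) (Nat.add (f (Nat.add x19470 x39578)) (Nat.add
    (f (Nat.add x19476 x39572)) (Nat.add (f (Nat.add x19494 x39554)) (Nat.add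
    (f (Nat.add x19522 x39526)) (Nat.add (f (Nat.add x19524 x39524)) (Nat.add
    (f (Nat.add x19530 x39518)) (Nat.add (f (Nat.add x19548 x39500)) (Nat.add
    (f (Nat.add x19602 x39446)) (Nat.add (f (Nat.add x19844 x39204)) (Nat.add
    (f (Nat.add x19898 x39150)) (Nat.add (f (Nat.add x19916 x39132)) (Nat.add
    (f (Nat.add x19922 x39126)) (Nat.add (f (Nat.add x19924 x39124)) (Nat.add
    (f (Nat.add x20006 x39042)) (Nat.add (f (Nat.add x20060 x38988)) (Nat.add
    (f (Nat.add x20078 x38970)) (Nat.add (f (Nat.add x20084 x38964)) (Nat.add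
    (f (Nat.add x20086 x38962)) (Nat.add (f (Nat.add x20114 x38934)) (Nat.add
    (f (Nat.add x20132 x38916)) (Nat.add (f (Nat.add x20138 x38910)) (Nat.add
    (f (Nat.add x20140 x38908)) (Nat.add (f (Nat.add x20150 x38898)) (Nat.add
    (f (Nat.add x20156 x38892)) (Nat.add (f (Nat.add x20158 x38890)) (Nat.add
    (f (Nat.add x20162 x38886)) (Nat.add (f (Nat.add x20164 x38884)) (Nat.add
    (f (Nat.add x20166 x38882)) (Nat.add (f (Nat.add x20222 x38826)) (Nat.add
    (f (Nat.add x20240 x38808)) (Nat.add (f (Nat.add x20246 x38802)) (Nat.add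
    (f (Nat.add x20248 x38800)) (Nat.add (f (Nat.add x20276 x38772)) (Nat.add
    (f (Nat.add x20294 x38754)) (Nat.add (f (Nat.add x20300 x38748)) (Nat.add
    (f (Nat.add x20302 x38746)) (Nat.add (f (Nat.add x20312 x38736)) (Nat.add
    (f (Nat.add x20318 x38730)) (Nat.add (f (Nat.add x20320 x38728)) (Nat.add
    (f (Nat.add x20324 x38724)) (Nat.add (f (Nat.add x20326 x38722))
    0)))))))))))))))))))))))))))))))))))))))))))))))))))))))))))) (Nat.add (Nat.add
    (f (Nat.add x20328 x38720)) (Nat.add (f (Nat.add x20348 x38700)) (Nat.add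
    (f (Nat.add x20354 x38694)) (Nat.add (f (Nat.add x20356 x38692)) (Nat.add
    (f (Nat.add x20366 x38682)) (Nat.add (f (Nat.add x20372 x38676)) (Nat.add
    (f (Nat.add x20374 x38674)) (Nat.add (f (Nat.add x20378 x38670)) (Nat.add
    (f (Nat.add x20380 x38668)) (Nat.add (f (Nat.add x20382 x38666)) (Nat.add
    (f (Nat.add x20390 x38658)) (Nat.add (f (Nat.add x20392 x38656)) (Nat.add
    (f (Nat.add x20396 x38652)) (Nat.add (f (Nat.add x20398 x38650)) (Nat.add
    (f (Nat.add x20400 x38648)) (Nat.add (f (Nat.add x20404 x38644)) (Nat.add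
    (f (Nat.add x20406 x38642)) (Nat.add (f (Nat.add x20492 x38556)) (Nat.add
    (f (Nat.add x20546 x38502)) (Nat.add (f (Nat.add x20564 x38484)) (Nat.add
    (f (Nat.add x20570 x38478)) (Nat.add (f (Nat.add x20572 x38476)) (Nat.add
    (f (Nat.add x20600 x38448)) (Nat.add (f (Nat.add x20618 x38430)) (Nat.add
    (f (Nat.add x20624 x38424)) (Nat.add (f (Nat.add x20626 x38422)) (Nat.add
    (f (Nat.add x20636 x38412)) (Nat.add (f (Nat.add x20642 x38406)) (Nat.add
    (f (Nat.add x20644 x38404)) (Nat.add (f (Nat.add x20648 x38400)) (Nat.add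
    (f (Nat.add x20650 x38398)) (Nat.add (f (Nat.add x20652 x38396)) (Nat.add
    (f (Nat.add x20708 x38340)) (Nat.add (f (Nat.add x20726 x38322)) (Nat.add
    (f (Nat.add x20732 x38316)) (Nat.add (f (Nat.add x20734 x38314)) (Nat.add
    (f (Nat.add x20762 x38286)) (Nat.add (f (Nat.add x20780 x38268)) (Nat.add
    (f (Nat.add x20786 x38262)) (Nat.add (f (Nat.add x20788 x38260)) (Nat.add
    (f (Nat.add x20798 x38250)) (Nat.add (f (Nat.add x20804 x38244)) (Nat.add
    (f (Nat.add x20806 x38242)) (Nat.add (f (Nat.add x20810 x38238)) (Nat.add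
    (f (Nat.add x20812 x38236)) (Nat.add (f (Nat.add x20814 x38234)) (Nat.add
    (f (Nat.add x20834 x38214)) (Nat.add (f (Nat.add x20840 x38208)) (Nat.add
    (f (Nat.add x20842 x38206)) (Nat.add (f (Nat.add x20852 x38196)) (Nat.add
    (f (Nat.add x20858 x38190)) (Nat.add (f (Nat.add x20860 x38188)) (Nat.add
    (f (Nat.add x20864 x38184)) (Nat.add (f (Nat.add x20866 x38182)) (Nat.add
    (f (Nat.add x20868 x38180)) (Nat.add (f (Nat.add x20876 x38172)) (Nat.add
    (f (Nat.add x20878 x38170)) (Nat.add (f (Nat.add x20882 x38166)) (Nat.add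
    (f (Nat.add x20884 x38164)) (Nat.add (f (Nat.add x20886 x38162))
    0)))))))))))))))))))))))))))))))))))))))))))))))))))))))))))) (Nat.add (Nat.add
    (f (Nat.add x20890 x38158)) (Nat.add (f (Nat.add x20892 x38156)) (Nat.add
    (f (Nat.add x20924 x38124)) (Nat.add (f (Nat.add x20942 x38106)) (Nat.add
    (f (Nat.add x20948 x38100)) (Nat.add (f (Nat.add x20950 x38098)) (Nat.add
    (f (Nat.add x20960 x38088)) (Nat.add (f (Nat.add x20966 x38082)) (Nat.add
    (f (Nat.add x20968 x38080)) (Nat.add (f (Nat.add x20972 x38076)) (Nat.add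
    (f (Nat.add x20974 x38074)) (Nat.add (f (Nat.add x20976 x38072)) (Nat.add
    (f (Nat.add x20996 x38052)) (Nat.add (f (Nat.add x21002 x38046)) (Nat.add
    (f (Nat.add x21004 x38044)) (Nat.add (f (Nat.add x21014 x38034)) (Nat.add
    (f (Nat.add x21020 x38028)) (Nat.add (f (Nat.add x21022 x38026)) (Nat.add
    (f (Nat.add x21026 x38022)) (Nat.add (f (Nat.add x21028 x38020)) (Nat.add
    (f (Nat.add x21030 x38018)) (Nat.add (f (Nat.add x21038 x38010)) (Nat.add
    (f (Nat.add x21040 x38008)) (Nat.add (f (Nat.add x21044 x38004)) (Nat.add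
    (f (Nat.add x21046 x38002)) (Nat.add (f (Nat.add x21048 x38000)) (Nat.add
    (f (Nat.add x21052 x37996)) (Nat.add (f (Nat.add x21054 x37994)) (Nat.add
    (f (Nat.add x21068 x37980)) (Nat.add (f (Nat.add x21074 x37974)) (Nat.add
    (f (Nat.add x21076 x37972)) (Nat.add (f (Nat.add x21080 x37968)) (Nat.add
    (f (Nat.add x21082 x37966)) (Nat.add (f (Nat.add x21084 x37964)) (Nat.add
    (f (Nat.add x21092 x37956)) (Nat.add (f (Nat.add x21094 x37954)) (Nat.add
    (f (Nat.add x21098 x37950)) (Nat.add (f (Nat.add x21100 x37948)) (Nat.add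
    (f (Nat.add x21102 x37946)) (Nat.add (f (Nat.add x21106 x37942)) (Nat.add
    (f (Nat.add x21108 x37940)) (Nat.add (f (Nat.add x21116 x37932)) (Nat.add
    (f (Nat.add x21118 x37930)) (Nat.add (f (Nat.add x21120 x37928)) (Nat.add
    (f (Nat.add x21124 x37924)) (Nat.add (f (Nat.add x21126 x37922)) (Nat.add
    (f (Nat.add x21132 x37916)) (Nat.add (f (Nat.add x21194 x37854)) (Nat.add
    (f (Nat.add x21212 x37836)) (Nat.add (f (Nat.add x21218 x37830)) (Nat.add
    (f (Nat.add x21220 x37828)) (Nat.add (f (Nat.add x21248 x37800)) (Nat.add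
    (f (Nat.add x21266 x37782)) (Nat.add (f (Nat.add x21272 x37776)) (Nat.add
    (f (Nat.add x21274 x37774)) (Nat.add (f (Nat.add x21284 x37764)) (Nat.add
    (f (Nat.add x21290 x37758)) (Nat.add (f (Nat.add x21292 x37756)) (Nat.add
    (f (Nat.add x21296 x37752)) (Nat.add (f (Nat.add x21298 x37750))
    0)))))))))))))))))))))))))))))))))))))))))))))))))))))))))))) (Nat.add (Nat.add
    (f (Nat.add x21300 x37748)) (Nat.add (f (Nat.add x21320 x37728)) (Nat.add
    (f (Nat.add x21326 x37722)) (Nat.add (f (Nat.add x21328 x37720)) (Nat.add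
    (f (Nat.add x21338 x37710)) (Nat.add (f (Nat.add x21344 x37704)) (Nat.add
    (f (Nat.add x21346 x37702)) (Nat.add (f (Nat.add x21350 x37698)) (Nat.add
    (f (Nat.add x21352 x37696)) (Nat.add (f (Nat.add x21354 x37694)) (Nat.add
    (f (Nat.add x21362 x37686)) (Nat.add (f (Nat.add x21364 x37684)) (Nat.add
    (f (Nat.add x21368 x37680)) (Nat.add (f (Nat.add x21370 x37678)) (Nat.add
    (f (Nat.add x21372 x37676)) (Nat.add (f (Nat.add x21376 x37672)) (Nat.add
    (f (Nat.add x21378 x37670)) (Nat.add (f (Nat.add x21410 x37638)) (Nat.add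
    (f (Nat.add x21428 x37620)) (Nat.add (f (Nat.add x21434 x37614)) (Nat.add
    (f (Nat.add x21436 x37612)) (Nat.add (f (Nat.add x21446 x37602)) (Nat.add
    (f (Nat.add x21452 x37596)) (Nat.add (f (Nat.add x21454 x37594)) (Nat.add
    (f (Nat.add x21458 x37590)) (Nat.add (f (Nat.add x21460 x37588)) (Nat.add
    (f (Nat.add x21462 x37586)) (Nat.add (f (Nat.add x21482 x37566)) (Nat.add
    (f (Nat.add x21488 x37560)) (Nat.add (f (Nat.add x21490 x37558)) (Nat.add
    (f (Nat.add x21500 x37548)) (Nat.add (f (Nat.add x21506 x37542)) (Nat.add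
    (f (Nat.add x21508 x37540)) (Nat.add (f (Nat.add x21512 x37536)) (Nat.add
    (f (Nat.add x21514 x37534)) (Nat.add (f (Nat.add x21516 x37532)) (Nat.add
    (f (Nat.add x21524 x37524)) (Nat.add (f (Nat.add x21526 x37522)) (Nat.add
    (f (Nat.add x21530 x37518)) (Nat.add (f (Nat.add x21532 x37516)) (Nat.add
    (f (Nat.add x21534 x37514)) (Nat.add (f (Nat.add x21538 x37510)) (Nat.add
    (f (Nat.add x21540 x37508)) (Nat.add (f (Nat.add x21554 x37494)) (Nat.add
    (f (Nat.add x21560 x37488)) (Nat.add (f (Nat.add x21562 x37486)) (Nat.add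
    (f (Nat.add x21566 x37482)) (Nat.add (f (Nat.add x21568 x37480)) (Nat.add
    (f (Nat.add x21570 x37478)) (Nat.add (f (Nat.add x21578 x37470)) (Nat.add
    (f (Nat.add x21580 x37468)) (Nat.add (f (Nat.add x21584 x37464)) (Nat.add
    (f (Nat.add x21586 x37462)) (Nat.add (f (Nat.add x21588 x37460)) (Nat.add
    (f (Nat.add x21592 x37456)) (Nat.add (f (Nat.add x21594 x37454)) (Nat.add
    (f (Nat.add x21602 x37446)) (Nat.add (f (Nat.add x21604 x37444)) (Nat.add
    (f (Nat.add x21606 x37442)) (Nat.add (f (Nat.add x21610 x37438))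
    0)))))))))))))))))))))))))))))))))))))))))))))))))))))))))))) (Nat.add (Nat.add
    (f (Nat.add x21612 x37436)) (Nat.add (f (Nat.add x21618 x37430)) (Nat.add
    (f (Nat.add x21644 x37404)) (Nat.add (f (Nat.add x21650 x37398)) (Nat.add
    (f (Nat.add x21652 x37396)) (Nat.add (f (Nat.add x21662 x37386)) (Nat.add
    (f (Nat.add x21668 x37380)) (Nat.add (f (Nat.add x21670 x37378)) (Nat.add
    (f (Nat.add x21674 x37374)) (Nat.add (f (Nat.add x21676 x37372)) (Nat.add
    (f (Nat.add x21678 x37370)) (Nat.add (f (Nat.add x21686 x37362)) (Nat.add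
    (f (Nat.add x21688 x37360)) (Nat.add (f (Nat.add x21692 x37356)) (Nat.add
    (f (Nat.add x21694 x37354)) (Nat.add (f (Nat.add x21696 x37352)) (Nat.add
    (f (Nat.add x21700 x37348)) (Nat.add (f (Nat.add x21702 x37346)) (Nat.add
    (f (Nat.add x21716 x37332)) (Nat.add (f (Nat.add x21722 x37326)) (Nat.add
    (f (Nat.add x21724 x37324)) (Nat.add (f (Nat.add x21728 x37320)) (Nat.add
    (f (Nat.add x21730 x37318)) (Nat.add (f (Nat.add x21732 x37316)) (Nat.add
    (f (Nat.add x21740 x37308)) (Nat.add (f (Nat.add x21742 x37306)) (Nat.add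
    (f (Nat.add x21746 x37302)) (Nat.add (f (Nat.add x21748 x37300)) (Nat.add
    (f (Nat.add x21750 x37298)) (Nat.add (f (Nat.add x21754 x37294)) (Nat.add
    (f (Nat.add x21756 x37292)) (Nat.add (f (Nat.add x21764 x37284)) (Nat.add
    (f (Nat.add x21766 x37282)) (Nat.add (f (Nat.add x21768 x37280)) (Nat.add
    (f (Nat.add x21772 x37276)) (Nat.add (f (Nat.add x21774 x37274)) (Nat.add
    (f (Nat.add x21780 x37268)) (Nat.add (f (Nat.add x21794 x37254)) (Nat.add
    (f (Nat.add x21796 x37252)) (Nat.add (f (Nat.add x21800 x37248)) (Nat.add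
    (f (Nat.add x21802 x37246)) (Nat.add (f (Nat.add x21804 x37244)) (Nat.add
    (f (Nat.add x21808 x37240)) (Nat.add (f (Nat.add x21810 x37238)) (Nat.add
    (f (Nat.add x21818 x37230)) (Nat.add (f (Nat.add x21820 x37228)) (Nat.add
    (f (Nat.add x21822 x37226)) (Nat.add (f (Nat.add x21826 x37222)) (Nat.add
    (f (Nat.add x21828 x37220)) (Nat.add (f (Nat.add x21834 x37214)) (Nat.add
    (f (Nat.add x21844 x37204)) (Nat.add (f (Nat.add x21846 x37202)) (Nat.add
    (f (Nat.add x21852 x37196)) (Nat.add (f (Nat.add x21950 x37098)) (Nat.add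
    (f (Nat.add x22004 x37044)) (Nat.add (f (Nat.add x22022 x37026)) (Nat.add
    (f (Nat.add x22028 x37020)) (Nat.add (f (Nat.add x22030 x37018)) (Nat.add
    (f (Nat.add x22058 x36990)) (Nat.add (f (Nat.add x22076 x36972))
    0)))))))))))))))))))))))))))))))))))))))))))))))))))))))))))) (Nat.add (Nat.add
    (f (Nat.add x22082 x36966)) (Nat.add (f (Nat.add x22084 x36964)) (Nat.add
    (f (Nat.add x22094 x36954)) (Nat.add (f (Nat.add x22100 x36948)) (Nat.add
    (f (Nat.add x22102 x36946)) (Nat.add (f (Nat.add x22106 x36942)) (Nat.add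
    (f (Nat.add x22108 x36940)) (Nat.add (f (Nat.add x22110 x36938)) (Nat.add
    (f (Nat.add x22166 x36882)) (Nat.add (f (Nat.add x22184 x36864)) (Nat.add
    (f (Nat.add x22190 x36858)) (Nat.add (f (Nat.add x22192 x36856)) (Nat.add
    (f (Nat.add x22220 x36828)) (Nat.add (f (Nat.add x22238 x36810)) (Nat.add
    (f (Nat.add x22244 x36804)) (Nat.add (f (Nat.add x22246 x36802)) (Nat.add
    (f (Nat.add x22256 x36792)) (Nat.add (f (Nat.add x22262 x36786)) (Nat.add
    (f (Nat.add x22264 x36784)) (Nat.add (f (Nat.add x22268 x36780)) (Nat.add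
    (f (Nat.add x22270 x36778)) (Nat.add (f (Nat.add x22272 x36776)) (Nat.add
    (f (Nat.add x22292 x36756)) (Nat.add (f (Nat.add x22298 x36750)) (Nat.add
    (f (Nat.add x22300 x36748)) (Nat.add (f (Nat.add x22310 x36738)) (Nat.add
    (f (Nat.add x22316 x36732)) (Nat.add (f (Nat.add x22318 x36730)) (Nat.add
    (f (Nat.add x22322 x36726)) (Nat.add (f (Nat.add x22324 x36724)) (Nat.add
    (f (Nat.add x22326 x36722)) (Nat.add (f (Nat.add x22334 x36714)) (Nat.add
    (f (Nat.add x22336 x36712)) (Nat.add (f (Nat.add x22340 x36708)) (Nat.add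
    (f (Nat.add x22342 x36706)) (Nat.add (f (Nat.add x22344 x36704)) (Nat.add
    (f (Nat.add x22348 x36700)) (Nat.add (f (Nat.add x22350 x36698)) (Nat.add
    (f (Nat.add x22382 x36666)) (Nat.add (f (Nat.add x22400 x36648)) (Nat.add
    (f (Nat.add x22406 x36642)) (Nat.add (f (Nat.add x22408 x36640)) (Nat.add
    (f (Nat.add x22418 x36630)) (Nat.add (f (Nat.add x22424 x36624)) (Nat.add
    (f (Nat.add x22426 x36622)) (Nat.add (f (Nat.add x22430 x36618)) (Nat.add
    (f (Nat.add x22432 x36616)) (Nat.add (f (Nat.add x22434 x36614)) (Nat.add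
    (f (Nat.add x22454 x36594)) (Nat.add (f (Nat.add x22460 x36588)) (Nat.add
    (f (Nat.add x22462 x36586)) (Nat.add (f (Nat.add x22472 x36576)) (Nat.add
    (f (Nat.add x22478 x36570)) (Nat.add (f (Nat.add x22480 x36568)) (Nat.add
    (f (Nat.add x22484 x36564)) (Nat.add (f (Nat.add x22486 x36562)) (Nat.add
    (f (Nat.add x22488 x36560)) (Nat.add (f (Nat.add x22496 x36552)) (Nat.add
    (f (Nat.add x22498 x36550)) (Nat.add (f (Nat.add x22502 x36546))
    0)))))))))))))))))))))))))))))))))))))))))))))))))))))))))))) (Nat.add (Nat.add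
    (f (Nat.add x22504 x36544)) (Nat.add (f (Nat.add x22506 x36542)) (Nat.add
    (f (Nat.add x22510 x36538)) (Nat.add (f (Nat.add x22512 x36536)) (Nat.add
    (f (Nat.add x22526 x36522)) (Nat.add (f (Nat.add x22532 x36516)) (Nat.add
    (f (Nat.add x22534 x36514)) (Nat.add (f (Nat.add x22538 x36510)) (Nat.add
    (f (Nat.add x22540 x36508)) (Nat.add (f (Nat.add x22542 x36506)) (Nat.add
    (f (Nat.add x22550 x36498)) (Nat.add (f (Nat.add x22552 x36496)) (Nat.add
    (f (Nat.add x22556 x36492)) (Nat.add (f (Nat.add x22558 x36490)) (Nat.add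
    (f (Nat.add x22560 x36488)) (Nat.add (f (Nat.add x22564 x36484)) (Nat.add
    (f (Nat.add x22566 x36482)) (Nat.add (f (Nat.add x22574 x36474)) (Nat.add
    (f (Nat.add x22576 x36472)) (Nat.add (f (Nat.add x22578 x36470)) (Nat.add
    (f (Nat.add x22582 x36466)) (Nat.add (f (Nat.add x22584 x36464)) (Nat.add
    (f (Nat.add x22590 x36458)) (Nat.add (f (Nat.add x22652 x36396)) (Nat.add
    (f (Nat.add x22670 x36378)) (Nat.add (f (Nat.add x22676 x36372)) (Nat.add
    (f (Nat.add x22678 x36370)) (Nat.add (f (Nat.add x22706 x36342)) (Nat.add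
    (f (Nat.add x22724 x36324)) (Nat.add (f (Nat.add x22730 x36318)) (Nat.add
    (f (Nat.add x22732 x36316)) (Nat.add (f (Nat.add x22742 x36306)) (Nat.add
    (f (Nat.add x22748 x36300)) (Nat.add (f (Nat.add x22750 x36298)) (Nat.add
    (f (Nat.add x22754 x36294)) (Nat.add (f (Nat.add x22756 x36292)) (Nat.add
    (f (Nat.add x22758 x36290)) (Nat.add (f (Nat.add x22778 x36270)) (Nat.add
    (f (Nat.add x22784 x36264)) (Nat.add (f (Nat.add x22786 x36262)) (Nat.add
    (f (Nat.add x22796 x36252)) (Nat.add (f (Nat.add x22802 x36246)) (Nat.add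
    (f (Nat.add x22804 x36244)) (Nat.add (f (Nat.add x22808 x36240)) (Nat.add
    (f (Nat.add x22810 x36238)) (Nat.add (f (Nat.add x22812 x36236)) (Nat.add
    (f (Nat.add x22820 x36228)) (Nat.add (f (Nat.add x22822 x36226)) (Nat.add
    (f (Nat.add x22826 x36222)) (Nat.add (f (Nat.add x22828 x36220)) (Nat.add
    (f (Nat.add x22830 x36218)) (Nat.add (f (Nat.add x22834 x36214)) (Nat.add
    (f (Nat.add x22836 x36212)) (Nat.add (f (Nat.add x22868 x36180)) (Nat.add
    (f (Nat.add x22886 x36162)) (Nat.add (f (Nat.add x22892 x36156)) (Nat.add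
    (f (Nat.add x22894 x36154)) (Nat.add (f (Nat.add x22904 x36144)) (Nat.add
    (f (Nat.add x22910 x36138)) (Nat.add (f (Nat.add x22912 x36136))
    0)))))))))))))))))))))))))))))))))))))))))))))))))))))))))))) (Nat.add (Nat.add
    (f (Nat.add x22916 x36132)) (Nat.add (f (Nat.add x22918 x36130)) (Nat.add
    (f (Nat.add x22920 x36128)) (Nat.add (f (Nat.add x22940 x36108)) (Nat.add
    (f (Nat.add x22946 x36102)) (Nat.add (f (Nat.add x22948 x36100)) (Nat.add
    (f (Nat.add x22958 x36090)) (Nat.add (f (Nat.add x22964 x36084)) (Nat.add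
    (f (Nat.add x22966 x36082)) (Nat.add (f (Nat.add x22970 x36078)) (Nat.add
    (f (Nat.add x22972 x36076)) (Nat.add (f (Nat.add x22974 x36074)) (Nat.add
    (f (Nat.add x22982 x36066)) (Nat.add (f (Nat.add x22984 x36064)) (Nat.add
    (f (Nat.add x22988 x36060)) (Nat.add (f (Nat.add x22990 x36058)) (Nat.add
    (f (Nat.add x22992 x36056)) (Nat.add (f (Nat.add x22996 x36052)) (Nat.add
    (f (Nat.add x22998 x36050)) (Nat.add (f (Nat.add x23012 x36036)) (Nat.add
    (f (Nat.add x23018 x36030)) (Nat.add (f (Nat.add x23020 x36028)) (Nat.add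
    (f (Nat.add x23024 x36024)) (Nat.add (f (Nat.add x23026 x36022)) (Nat.add
    (f (Nat.add x23028 x36020)) (Nat.add (f (Nat.add x23036 x36012)) (Nat.add
    (f (Nat.add x23038 x36010)) (Nat.add (f (Nat.add x23042 x36006)) (Nat.add
    (f (Nat.add x23044 x36004)) (Nat.add (f (Nat.add x23046 x36002)) (Nat.add
    (f (Nat.add x23050 x35998)) (Nat.add (f (Nat.add x23052 x35996)) (Nat.add
    (f (Nat.add x23060 x35988)) (Nat.add (f (Nat.add x23062 x35986)) (Nat.add
    (f (Nat.add x23064 x35984)) (Nat.add (f (Nat.add x23068 x35980)) (Nat.add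
    (f (Nat.add x23070 x35978)) (Nat.add (f (Nat.add x23076 x35972)) (Nat.add
    (f (Nat.add x23102 x35946)) (Nat.add (f (Nat.add x23108 x35940)) (Nat.add
    (f (Nat.add x23110 x35938)) (Nat.add (f (Nat.add x23120 x35928)) (Nat.add
    (f (Nat.add x23126 x35922)) (Nat.add (f (Nat.add x23128 x35920)) (Nat.add
    (f (Nat.add x23132 x35916)) (Nat.add (f (Nat.add x23134 x35914)) (Nat.add
    (f (Nat.add x23136 x35912)) (Nat.add (f (Nat.add x23144 x35904)) (Nat.add
    (f (Nat.add x23146 x35902)) (Nat.add (f (Nat.add x23150 x35898)) (Nat.add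
    (f (Nat.add x23152 x35896)) (Nat.add (f (Nat.add x23154 x35894)) (Nat.add
    (f (Nat.add x23158 x35890)) (Nat.add (f (Nat.add x23160 x35888)) (Nat.add
    (f (Nat.add x23174 x35874)) (Nat.add (f (Nat.add x23180 x35868)) (Nat.add
    (f (Nat.add x23182 x35866)) (Nat.add (f (Nat.add x23186 x35862)) (Nat.add
    (f (Nat.add x23188 x35860)) (Nat.add (f (Nat.add x23190 x35858))
    0)))))))))))))))))))))))))))))))))))))))))))))))))))))))))))) (Nat.add (Nat.add
    (f (Nat.add x23198 x35850)) (Nat.add (f (Nat.add x23200 x35848)) (Nat.add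
    (f (Nat.add x23204 x35844)) (Nat.add (f (Nat.add x23206 x35842)) (Nat.add
    (f (Nat.add x23208 x35840)) (Nat.add (f (Nat.add x23212 x35836)) (Nat.add
    (f (Nat.add x23214 x35834)) (Nat.add (f (Nat.add x23222 x35826)) (Nat.add
    (f (Nat.add x23224 x35824)) (Nat.add (f (Nat.add x23226 x35822)) (Nat.add
    (f (Nat.add x23230 x35818)) (Nat.add (f (Nat.add x23232 x35816)) (Nat.add
    (f (Nat.add x23238 x35810)) (Nat.add (f (Nat.add x23252 x35796)) (Nat.add
    (f (Nat.add x23254 x35794)) (Nat.add (f (Nat.add x23258 x35790)) (Nat.add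
    (f (Nat.add x23260 x35788)) (Nat.add (f (Nat.add x23262 x35786)) (Nat.add
    (f (Nat.add x23266 x35782)) (Nat.add (f (Nat.add x23268 x35780)) (Nat.add
    (f (Nat.add x23276 x35772)) (Nat.add (f (Nat.add x23278 x35770)) (Nat.add
    (f (Nat.add x23280 x35768)) (Nat.add (f (Nat.add x23284 x35764)) (Nat.add
    (f (Nat.add x23286 x35762)) (Nat.add (f (Nat.add x23292 x35756)) (Nat.add
    (f (Nat.add x23302 x35746)) (Nat.add (f (Nat.add x23304 x35744)) (Nat.add
    (f (Nat.add x23310 x35738)) (Nat.add (f (Nat.add x23354 x35694)) (Nat.add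
    (f (Nat.add x23372 x35676)) (Nat.add (f (Nat.add x23378 x35670)) (Nat.add
    (f (Nat.add x23380 x35668)) (Nat.add (f (Nat.add x23390 x35658)) (Nat.add
    (f (Nat.add x23396 x35652)) (Nat.add (f (Nat.add x23398 x35650)) (Nat.add
    (f (Nat.add x23402 x35646)) (Nat.add (f (Nat.add x23404 x35644)) (Nat.add
    (f (Nat.add x23406 x35642)) (Nat.add (f (Nat.add x23426 x35622)) (Nat.add
    (f (Nat.add x23432 x35616)) (Nat.add (f (Nat.add x23434 x35614)) (Nat.add
    (f (Nat.add x23444 x35604)) (Nat.add (f (Nat.add x23450 x35598)) (Nat.add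
    (f (Nat.add x23452 x35596)) (Nat.add (f (Nat.add x23456 x35592)) (Nat.add
    (f (Nat.add x23458 x35590)) (Nat.add (f (Nat.add x23460 x35588)) (Nat.add
    (f (Nat.add x23468 x35580)) (Nat.add (f (Nat.add x23470 x35578)) (Nat.add
    (f (Nat.add x23474 x35574)) (Nat.add (f (Nat.add x23476 x35572)) (Nat.add
    (f (Nat.add x23478 x35570)) (Nat.add (f (Nat.add x23482 x35566)) (Nat.add
    (f (Nat.add x23484 x35564)) (Nat.add (f (Nat.add x23498 x35550)) (Nat.add
    (f (Nat.add x23504 x35544)) (Nat.add (f (Nat.add x23506 x35542)) (Nat.add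
    (f (Nat.add x23510 x35538)) (Nat.add (f (Nat.add x23512 x35536))
    0)))))))))))))))))))))))))))))))))))))))))))))))))))))))))))) (Nat.add (Nat.add
    (f (Nat.add x23514 x35534)) (Nat.add (f (Nat.add x23522 x35526)) (Nat.add
    (f (Nat.add x23524 x35524)) (Nat.add (f (Nat.add x23528 x35520)) (Nat.add
    (f (Nat.add x23530 x35518)) (Nat.add (f (Nat.add x23532 x35516)) (Nat.add
    (f (Nat.add x23536 x35512)) (Nat.add (f (Nat.add x23538 x35510)) (Nat.add
    (f (Nat.add x23546 x35502)) (Nat.add (f (Nat.add x23548 x35500)) (Nat.add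
    (f (Nat.add x23550 x35498)) (Nat.add (f (Nat.add x23554 x35494)) (Nat.add
    (f (Nat.add x23556 x35492)) (Nat.add (f (Nat.add x23562 x35486)) (Nat.add
    (f (Nat.add x23588 x35460)) (Nat.add (f (Nat.add x23594 x35454)) (Nat.add
    (f (Nat.add x23596 x35452)) (Nat.add (f (Nat.add x23606 x35442)) (Nat.add
    (f (Nat.add x23612 x35436)) (Nat.add (f (Nat.add x23614 x35434)) (Nat.add
    (f (Nat.add x23618 x35430)) (Nat.add (f (Nat.add x23620 x35428)) (Nat.add
    (f (Nat.add x23622 x35426)) (Nat.add (f (Nat.add x23630 x35418)) (Nat.add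
    (f (Nat.add x23632 x35416)) (Nat.add (f (Nat.add x23636 x35412)) (Nat.add
    (f (Nat.add x23638 x35410)) (Nat.add (f (Nat.add x23640 x35408)) (Nat.add
    (f (Nat.add x23644 x35404)) (Nat.add (f (Nat.add x23646 x35402)) (Nat.add
    (f (Nat.add x23660 x35388)) (Nat.add (f (Nat.add x23666 x35382)) (Nat.add
    (f (Nat.add x23668 x35380)) (Nat.add (f (Nat.add x23672 x35376)) (Nat.add
    (f (Nat.add x23674 x35374)) (Nat.add (f (Nat.add x23676 x35372)) (Nat.add
    (f (Nat.add x23684 x35364)) (Nat.add (f (Nat.add x23686 x35362)) (Nat.add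
    (f (Nat.add x23690 x35358)) (Nat.add (f (Nat.add x23692 x35356)) (Nat.add
    (f (Nat.add x23694 x35354)) (Nat.add (f (Nat.add x23698 x35350)) (Nat.add
    (f (Nat.add x23700 x35348)) (Nat.add (f (Nat.add x23708 x35340)) (Nat.add
    (f (Nat.add x23710 x35338)) (Nat.add (f (Nat.add x23712 x35336)) (Nat.add
    (f (Nat.add x23716 x35332)) (Nat.add (f (Nat.add x23718 x35330)) (Nat.add
    (f (Nat.add x23724 x35324)) (Nat.add (f (Nat.add x23738 x35310)) (Nat.add
    (f (Nat.add x23740 x35308)) (Nat.add (f (Nat.add x23744 x35304)) (Nat.add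
    (f (Nat.add x23746 x35302)) (Nat.add (f (Nat.add x23748 x35300)) (Nat.add
    (f (Nat.add x23752 x35296)) (Nat.add (f (Nat.add x23754 x35294)) (Nat.add
    (f (Nat.add x23762 x35286)) (Nat.add (f (Nat.add x23764 x35284)) (Nat.add
    (f (Nat.add x23766 x35282)) (Nat.add (f (Nat.add x23770 x35278))
    0)))))))))))))))))))))))))))))))))))))))))))))))))))))))))))) (Nat.add (Nat.add
    (f (Nat.add x23772 x35276)) (Nat.add (f (Nat.add x23778 x35270)) (Nat.add
    (f (Nat.add x23788 x35260)) (Nat.add (f (Nat.add x23790 x35258)) (Nat.add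
    (f (Nat.add x23796 x35252)) (Nat.add (f (Nat.add x23822 x35226)) (Nat.add
    (f (Nat.add x23828 x35220)) (Nat.add (f (Nat.add x23830 x35218)) (Nat.add
    (f (Nat.add x23834 x35214)) (Nat.add (f (Nat.add x23836 x35212)) (Nat.add
    (f (Nat.add x23838 x35210)) (Nat.add (f (Nat.add x23846 x35202)) (Nat.add
    (f (Nat.add x23848 x35200)) (Nat.add (f (Nat.add x23852 x35196)) (Nat.add
    (f (Nat.add x23854 x35194)) (Nat.add (f (Nat.add x23856 x35192)) (Nat.add
    (f (Nat.add x23860 x35188)) (Nat.add (f (Nat.add x23862 x35186)) (Nat.add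
    (f (Nat.add x23870 x35178)) (Nat.add (f (Nat.add x23872 x35176)) (Nat.add
    (f (Nat.add x23874 x35174)) (Nat.add (f (Nat.add x23878 x35170)) (Nat.add
    (f (Nat.add x23880 x35168)) (Nat.add (f (Nat.add x23886 x35162)) (Nat.add
    (f (Nat.add x23900 x35148)) (Nat.add (f (Nat.add x23902 x35146)) (Nat.add
    (f (Nat.add x23906 x35142)) (Nat.add (f (Nat.add x23908 x35140)) (Nat.add
    (f (Nat.add x23910 x35138)) (Nat.add (f (Nat.add x23914 x35134)) (Nat.add
    (f (Nat.add x23916 x35132)) (Nat.add (f (Nat.add x23924 x35124)) (Nat.add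
    (f (Nat.add x23926 x35122)) (Nat.add (f (Nat.add x23928 x35120)) (Nat.add
    (f (Nat.add x23932 x35116)) (Nat.add (f (Nat.add x23934 x35114)) (Nat.add
    (f (Nat.add x23940 x35108)) (Nat.add (f (Nat.add x23950 x35098)) (Nat.add
    (f (Nat.add x23952 x35096)) (Nat.add (f (Nat.add x23958 x35090)) (Nat.add
    (f (Nat.add x23978 x35070)) (Nat.add (f (Nat.add x23980 x35068)) (Nat.add
    (f (Nat.add x23982 x35066)) (Nat.add (f (Nat.add x23986 x35062)) (Nat.add
    (f (Nat.add x23988 x35060)) (Nat.add (f (Nat.add x23994 x35054)) (Nat.add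
    (f (Nat.add x24004 x35044)) (Nat.add (f (Nat.add x24006 x35042)) (Nat.add
    (f (Nat.add x24012 x35036)) (Nat.add (f (Nat.add x24030 x35018)) (Nat.add
    (f (Nat.add x24110 x34938)) (Nat.add (f (Nat.add x24128 x34920)) (Nat.add
    (f (Nat.add x24134 x34914)) (Nat.add (f (Nat.add x24136 x34912)) (Nat.add
    (f (Nat.add x24164 x34884)) (Nat.add (f (Nat.add x24182 x34866)) (Nat.add
    (f (Nat.add x24188 x34860)) (Nat.add (f (Nat.add x24190 x34858)) (Nat.add
    (f (Nat.add x24200 x34848)) (Nat.add (f (Nat.add x24206 x34842))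
    0)))))))))))))))))))))))))))))))))))))))))))))))))))))))))))) (Nat.add (Nat.add
    (f (Nat.add x24208 x34840)) (Nat.add (f (Nat.add x24212 x34836)) (Nat.add
    (f (Nat.add x24214 x34834)) (Nat.add (f (Nat.add x24216 x34832)) (Nat.add
    (f (Nat.add x24236 x34812)) (Nat.add (f (Nat.add x24242 x34806)) (Nat.add
    (f (Nat.add x24244 x34804)) (Nat.add (f (Nat.add x24254 x34794)) (Nat.add
    (f (Nat.add x24260 x34788)) (Nat.add (f (Nat.add x24262 x34786)) (Nat.add
    (f (Nat.add x24266 x34782)) (Nat.add (f (Nat.add x24268 x34780)) (Nat.add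
    (f (Nat.add x24270 x34778)) (Nat.add (f (Nat.add x24278 x34770)) (Nat.add
    (f (Nat.add x24280 x34768)) (Nat.add (f (Nat.add x24284 x34764)) (Nat.add
    (f (Nat.add x24286 x34762)) (Nat.add (f (Nat.add x24288 x34760)) (Nat.add
    (f (Nat.add x24292 x34756)) (Nat.add (f (Nat.add x24294 x34754)) (Nat.add
    (f (Nat.add x24326 x34722)) (Nat.add (f (Nat.add x24344 x34704)) (Nat.add
    (f (Nat.add x24350 x34698)) (Nat.add (f (Nat.add x24352 x34696)) (Nat.add
    (f (Nat.add x24362 x34686)) (Nat.add (f (Nat.add x24368 x34680)) (Nat.add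
    (f (Nat.add x24370 x34678)) (Nat.add (f (Nat.add x24374 x34674)) (Nat.add
    (f (Nat.add x24376 x34672)) (Nat.add (f (Nat.add x24378 x34670)) (Nat.add
    (f (Nat.add x24398 x34650)) (Nat.add (f (Nat.add x24404 x34644)) (Nat.add
    (f (Nat.add x24406 x34642)) (Nat.add (f (Nat.add x24416 x34632)) (Nat.add
    (f (Nat.add x24422 x34626)) (Nat.add (f (Nat.add x24424 x34624)) (Nat.add
    (f (Nat.add x24428 x34620)) (Nat.add (f (Nat.add x24430 x34618)) (Nat.add
    (f (Nat.add x24432 x34616)) (Nat.add (f (Nat.add x24440 x34608)) (Nat.add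
    (f (Nat.add x24442 x34606)) (Nat.add (f (Nat.add x24446 x34602)) (Nat.add
    (f (Nat.add x24448 x34600)) (Nat.add (f (Nat.add x24450 x34598)) (Nat.add
    (f (Nat.add x24454 x34594)) (Nat.add (f (Nat.add x24456 x34592)) (Nat.add
    (f (Nat.add x24470 x34578)) (Nat.add (f (Nat.add x24476 x34572)) (Nat.add
    (f (Nat.add x24478 x34570)) (Nat.add (f (Nat.add x24482 x34566)) (Nat.add
    (f (Nat.add x24484 x34564)) (Nat.add (f (Nat.add x24486 x34562)) (Nat.add
    (f (Nat.add x24494 x34554)) (Nat.add (f (Nat.add x24496 x34552)) (Nat.add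
    (f (Nat.add x24500 x34548)) (Nat.add (f (Nat.add x24502 x34546)) (Nat.add
    (f (Nat.add x24504 x34544)) (Nat.add (f (Nat.add x24508 x34540)) (Nat.add
    (f (Nat.add x24510 x34538)) (Nat.add (f (Nat.add x24518 x34530))
    0)))))))))))))))))))))))))))))))))))))))))))))))))))))))))))) (Nat.add (Nat.add
    (f (Nat.add x24520 x34528)) (Nat.add (f (Nat.add x24522 x34526)) (Nat.add
    (f (Nat.add x24526 x34522)) (Nat.add (f (Nat.add x24528 x34520)) (Nat.add
    (f (Nat.add x24534 x34514)) (Nat.add (f (Nat.add x24560 x34488)) (Nat.add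
    (f (Nat.add x24566 x34482)) (Nat.add (f (Nat.add x24568 x34480)) (Nat.add
    (f (Nat.add x24578 x34470)) (Nat.add (f (Nat.add x24584 x34464)) (Nat.add
    (f (Nat.add x24586 x34462)) (Nat.add (f (Nat.add x24590 x34458)) (Nat.add
    (f (Nat.add x24592 x34456)) (Nat.add (f (Nat.add x24594 x34454)) (Nat.add
    (f (Nat.add x24602 x34446)) (Nat.add (f (Nat.add x24604 x34444)) (Nat.add
    (f (Nat.add x24608 x34440)) (Nat.add (f (Nat.add x24610 x34438)) (Nat.add
    (f (Nat.add x24612 x34436)) (Nat.add (f (Nat.add x24616 x34432)) (Nat.add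
    (f (Nat.add x24618 x34430)) (Nat.add (f (Nat.add x24632 x34416)) (Nat.add
    (f (Nat.add x24638 x34410)) (Nat.add (f (Nat.add x24640 x34408)) (Nat.add
    (f (Nat.add x24644 x34404)) (Nat.add (f (Nat.add x24646 x34402)) (Nat.add
    (f (Nat.add x24648 x34400)) (Nat.add (f (Nat.add x24656 x34392)) (Nat.add
    (f (Nat.add x24658 x34390)) (Nat.add (f (Nat.add x24662 x34386)) (Nat.add
    (f (Nat.add x24664 x34384)) (Nat.add (f (Nat.add x24666 x34382)) (Nat.add
    (f (Nat.add x24670 x34378)) (Nat.add (f (Nat.add x24672 x34376)) (Nat.add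
    (f (Nat.add x24680 x34368)) (Nat.add (f (Nat.add x24682 x34366)) (Nat.add
    (f (Nat.add x24684 x34364)) (Nat.add (f (Nat.add x24688 x34360)) (Nat.add
    (f (Nat.add x24690 x34358)) (Nat.add (f (Nat.add x24696 x34352)) (Nat.add
    (f (Nat.add x24710 x34338)) (Nat.add (f (Nat.add x24712 x34336)) (Nat.add
    (f (Nat.add x24716 x34332)) (Nat.add (f (Nat.add x24718 x34330)) (Nat.add
    (f (Nat.add x24720 x34328)) (Nat.add (f (Nat.add x24724 x34324)) (Nat.add
    (f (Nat.add x24726 x34322)) (Nat.add (f (Nat.add x24734 x34314)) (Nat.add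
    (f (Nat.add x24736 x34312)) (Nat.add (f (Nat.add x24738 x34310)) (Nat.add
    (f (Nat.add x24742 x34306)) (Nat.add (f (Nat.add x24744 x34304)) (Nat.add
    (f (Nat.add x24750 x34298)) (Nat.add (f (Nat.add x24760 x34288)) (Nat.add
    (f (Nat.add x24762 x34286)) (Nat.add (f (Nat.add x24768 x34280)) (Nat.add
    (f (Nat.add x24812 x34236)) (Nat.add (f (Nat.add x24830 x34218)) (Nat.add
    (f (Nat.add x24836 x34212)) (Nat.add (f (Nat.add x24838 x34210))
    0)))))))))))))))))))))))))))))))))))))))))))))))))))))))))))) (Nat.add (Nat.add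
    (f (Nat.add x24848 x34200)) (Nat.add (f (Nat.add x24854 x34194)) (Nat.add
    (f (Nat.add x24856 x34192)) (Nat.add (f (Nat.add x24860 x34188)) (Nat.add
    (f (Nat.add x24862 x34186)) (Nat.add (f (Nat.add x24864 x34184)) (Nat.add
    (f (Nat.add x24884 x34164)) (Nat.add (f (Nat.add x24890 x34158)) (Nat.add
    (f (Nat.add x24892 x34156)) (Nat.add (f (Nat.add x24902 x34146)) (Nat.add
    (f (Nat.add x24908 x34140)) (Nat.add (f (Nat.add x24910 x34138)) (Nat.add
    (f (Nat.add x24914 x34134)) (Nat.add (f (Nat.add x24916 x34132)) (Nat.add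
    (f (Nat.add x24918 x34130)) (Nat.add (f (Nat.add x24926 x34122)) (Nat.add
    (f (Nat.add x24928 x34120)) (Nat.add (f (Nat.add x24932 x34116)) (Nat.add
    (f (Nat.add x24934 x34114)) (Nat.add (f (Nat.add x24936 x34112)) (Nat.add
    (f (Nat.add x24940 x34108)) (Nat.add (f (Nat.add x24942 x34106)) (Nat.add
    (f (Nat.add x24956 x34092)) (Nat.add (f (Nat.add x24962 x34086)) (Nat.add
    (f (Nat.add x24964 x34084)) (Nat.add (f (Nat.add x24968 x34080)) (Nat.add
    (f (Nat.add x24970 x34078)) (Nat.add (f (Nat.add x24972 x34076)) (Nat.add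
    (f (Nat.add x24980 x34068)) (Nat.add (f (Nat.add x24982 x34066)) (Nat.add
    (f (Nat.add x24986 x34062)) (Nat.add (f (Nat.add x24988 x34060)) (Nat.add
    (f (Nat.add x24990 x34058)) (Nat.add (f (Nat.add x24994 x34054)) (Nat.add
    (f (Nat.add x24996 x34052)) (Nat.add (f (Nat.add x25004 x34044)) (Nat.add
    (f (Nat.add x25006 x34042)) (Nat.add (f (Nat.add x25008 x34040)) (Nat.add
    (f (Nat.add x25012 x34036)) (Nat.add (f (Nat.add x25014 x34034)) (Nat.add
    (f (Nat.add x25020 x34028)) (Nat.add (f (Nat.add x25046 x34002)) (Nat.add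
    (f (Nat.add x25052 x33996)) (Nat.add (f (Nat.add x25054 x33994)) (Nat.add
    (f (Nat.add x25064 x33984)) (Nat.add (f (Nat.add x25070 x33978)) (Nat.add
    (f (Nat.add x25072 x33976)) (Nat.add (f (Nat.add x25076 x33972)) (Nat.add
    (f (Nat.add x25078 x33970)) (Nat.add (f (Nat.add x25080 x33968)) (Nat.add
    (f (Nat.add x25088 x33960)) (Nat.add (f (Nat.add x25090 x33958)) (Nat.add
    (f (Nat.add x25094 x33954)) (Nat.add (f (Nat.add x25096 x33952)) (Nat.add
    (f (Nat.add x25098 x33950)) (Nat.add (f (Nat.add x25102 x33946)) (Nat.add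
    (f (Nat.add x25104 x33944)) (Nat.add (f (Nat.add x25118 x33930)) (Nat.add
    (f (Nat.add x25124 x33924)) (Nat.add (f (Nat.add x25126 x33922))
    0)))))))))))))))))))))))))))))))))))))))))))))))))))))))))))) (Nat.add (Nat.add
    (f (Nat.add x25130 x33918)) (Nat.add (f (Nat.add x25132 x33916)) (Nat.add
    (f (Nat.add x25134 x33914)) (Nat.add (f (Nat.add x25142 x33906)) (Nat.add
    (f (Nat.add x25144 x33904)) (Nat.add (f (Nat.add x25148 x33900)) (Nat.add
    (f (Nat.add x25150 x33898)) (Nat.add (f (Nat.add x25152 x33896)) (Nat.add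
    (f (Nat.add x25156 x33892)) (Nat.add (f (Nat.add x25158 x33890)) (Nat.add
    (f (Nat.add x25166 x33882)) (Nat.add (f (Nat.add x25168 x33880)) (Nat.add
    (f (Nat.add x25170 x33878)) (Nat.add (f (Nat.add x25174 x33874)) (Nat.add
    (f (Nat.add x25176 x33872)) (Nat.add (f (Nat.add x25182 x33866)) (Nat.add
    (f (Nat.add x25196 x33852)) (Nat.add (f (Nat.add x25198 x33850)) (Nat.add
    (f (Nat.add x25202 x33846)) (Nat.add (f (Nat.add x25204 x33844)) (Nat.add
    (f (Nat.add x25206 x33842)) (Nat.add (f (Nat.add x25210 x33838)) (Nat.add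
    (f (Nat.add x25212 x33836)) (Nat.add (f (Nat.add x25220 x33828)) (Nat.add
    (f (Nat.add x25222 x33826)) (Nat.add (f (Nat.add x25224 x33824)) (Nat.add
    (f (Nat.add x25228 x33820)) (Nat.add (f (Nat.add x25230 x33818)) (Nat.add
    (f (Nat.add x25236 x33812)) (Nat.add (f (Nat.add x25246 x33802)) (Nat.add
    (f (Nat.add x25248 x33800)) (Nat.add (f (Nat.add x25254 x33794)) (Nat.add
    (f (Nat.add x25280 x33768)) (Nat.add (f (Nat.add x25286 x33762)) (Nat.add
    (f (Nat.add x25288 x33760)) (Nat.add (f (Nat.add x25292 x33756)) (Nat.add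
    (f (Nat.add x25294 x33754)) (Nat.add (f (Nat.add x25296 x33752)) (Nat.add
    (f (Nat.add x25304 x33744)) (Nat.add (f (Nat.add x25306 x33742)) (Nat.add
    (f (Nat.add x25310 x33738)) (Nat.add (f (Nat.add x25312 x33736)) (Nat.add
    (f (Nat.add x25314 x33734)) (Nat.add (f (Nat.add x25318 x33730)) (Nat.add
    (f (Nat.add x25320 x33728)) (Nat.add (f (Nat.add x25328 x33720)) (Nat.add
    (f (Nat.add x25330 x33718)) (Nat.add (f (Nat.add x25332 x33716)) (Nat.add
    (f (Nat.add x25336 x33712)) (Nat.add (f (Nat.add x25338 x33710)) (Nat.add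
    (f (Nat.add x25344 x33704)) (Nat.add (f (Nat.add x25358 x33690)) (Nat.add
    (f (Nat.add x25360 x33688)) (Nat.add (f (Nat.add x25364 x33684)) (Nat.add
    (f (Nat.add x25366 x33682)) (Nat.add (f (Nat.add x25368 x33680)) (Nat.add
    (f (Nat.add x25372 x33676)) (Nat.add (f (Nat.add x25374 x33674)) (Nat.add
    (f (Nat.add x25382 x33666)) (Nat.add (f (Nat.add x25384 x33664))
    0)))))))))))))))))))))))))))))))))))))))))))))))))))))))))))) (Nat.add (Nat.add
    (f (Nat.add x25386 x33662)) (Nat.add (f (Nat.add x25390 x33658)) (Nat.add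
    (f (Nat.add x25392 x33656)) (Nat.add (f (Nat.add x25398 x33650)) (Nat.add
    (f (Nat.add x25408 x33640)) (Nat.add (f (Nat.add x25410 x33638)) (Nat.add
    (f (Nat.add x25416 x33632)) (Nat.add (f (Nat.add x25436 x33612)) (Nat.add
    (f (Nat.add x25438 x33610)) (Nat.add (f (Nat.add x25440 x33608)) (Nat.add
    (f (Nat.add x25444 x33604)) (Nat.add (f (Nat.add x25446 x33602)) (Nat.add
    (f (Nat.add x25452 x33596)) (Nat.add (f (Nat.add x25462 x33586)) (Nat.add
    (f (Nat.add x25464 x33584)) (Nat.add (f (Nat.add x25470 x33578)) (Nat.add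
    (f (Nat.add x25488 x33560)) (Nat.add (f (Nat.add x25532 x33516)) (Nat.add
    (f (Nat.add x25538 x33510)) (Nat.add (f (Nat.add x25540 x33508)) (Nat.add
    (f (Nat.add x25550 x33498)) (Nat.add (f (Nat.add x25556 x33492)) (Nat.add
    (f (Nat.add x25558 x33490)) (Nat.add (f (Nat.add x25562 x33486)) (Nat.add
    (f (Nat.add x25564 x33484)) (Nat.add (f (Nat.add x25566 x33482)) (Nat.add
    (f (Nat.add x25574 x33474)) (Nat.add (f (Nat.add x25576 x33472)) (Nat.add
    (f (Nat.add x25580 x33468)) (Nat.add (f (Nat.add x25582 x33466)) (Nat.add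
    (f (Nat.add x25584 x33464)) (Nat.add (f (Nat.add x25588 x33460)) (Nat.add
    (f (Nat.add x25590 x33458)) (Nat.add (f (Nat.add x25604 x33444)) (Nat.add
    (f (Nat.add x25610 x33438)) (Nat.add (f (Nat.add x25612 x33436)) (Nat.add
    (f (Nat.add x25616 x33432)) (Nat.add (f (Nat.add x25618 x33430)) (Nat.add
    (f (Nat.add x25620 x33428)) (Nat.add (f (Nat.add x25628 x33420)) (Nat.add
    (f (Nat.add x25630 x33418)) (Nat.add (f (Nat.add x25634 x33414)) (Nat.add
    (f (Nat.add x25636 x33412)) (Nat.add (f (Nat.add x25638 x33410)) (Nat.add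
    (f (Nat.add x25642 x33406)) (Nat.add (f (Nat.add x25644 x33404)) (Nat.add
    (f (Nat.add x25652 x33396)) (Nat.add (f (Nat.add x25654 x33394)) (Nat.add
    (f (Nat.add x25656 x33392)) (Nat.add (f (Nat.add x25660 x33388)) (Nat.add
    (f (Nat.add x25662 x33386)) (Nat.add (f (Nat.add x25668 x33380)) (Nat.add
    (f (Nat.add x25682 x33366)) (Nat.add (f (Nat.add x25684 x33364)) (Nat.add
    (f (Nat.add x25688 x33360)) (Nat.add (f (Nat.add x25690 x33358)) (Nat.add
    (f (Nat.add x25692 x33356)) (Nat.add (f (Nat.add x25696 x33352)) (Nat.add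
    (f (Nat.add x25698 x33350)) (Nat.add (f (Nat.add x25706 x33342))
    0)))))))))))))))))))))))))))))))))))))))))))))))))))))))))))) (Nat.add (Nat.add
    (f (Nat.add x25708 x33340)) (Nat.add (f (Nat.add x25710 x33338)) (Nat.add
    (f (Nat.add x25714 x33334)) (Nat.add (f (Nat.add x25716 x33332)) (Nat.add
    (f (Nat.add x25722 x33326)) (Nat.add (f (Nat.add x25732 x33316)) (Nat.add
    (f (Nat.add x25734 x33314)) (Nat.add (f (Nat.add x25740 x33308)) (Nat.add
    (f (Nat.add x25766 x33282)) (Nat.add (f (Nat.add x25772 x33276)) (Nat.add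
    (f (Nat.add x25774 x33274)) (Nat.add (f (Nat.add x25778 x33270)) (Nat.add
    (f (Nat.add x25780 x33268)) (Nat.add (f (Nat.add x25782 x33266)) (Nat.add
    (f (Nat.add x25790 x33258)) (Nat.add (f (Nat.add x25792 x33256)) (Nat.add
    (f (Nat.add x25796 x33252)) (Nat.add (f (Nat.add x25798 x33250)) (Nat.add
    (f (Nat.add x25800 x33248)) (Nat.add (f (Nat.add x25804 x33244)) (Nat.add
    (f (Nat.add x25806 x33242)) (Nat.add (f (Nat.add x25814 x33234)) (Nat.add
    (f (Nat.add x25816 x33232)) (Nat.add (f (Nat.add x25818 x33230)) (Nat.add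
    (f (Nat.add x25822 x33226)) (Nat.add (f (Nat.add x25824 x33224)) (Nat.add
    (f (Nat.add x25830 x33218)) (Nat.add (f (Nat.add x25844 x33204)) (Nat.add
    (f (Nat.add x25846 x33202)) (Nat.add (f (Nat.add x25850 x33198)) (Nat.add
    (f (Nat.add x25852 x33196)) (Nat.add (f (Nat.add x25854 x33194)) (Nat.add
    (f (Nat.add x25858 x33190)) (Nat.add (f (Nat.add x25860 x33188)) (Nat.add
    (f (Nat.add x25868 x33180)) (Nat.add (f (Nat.add x25870 x33178)) (Nat.add
    (f (Nat.add x25872 x33176)) (Nat.add (f (Nat.add x25876 x33172)) (Nat.add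
    (f (Nat.add x25878 x33170)) (Nat.add (f (Nat.add x25884 x33164)) (Nat.add
    (f (Nat.add x25894 x33154)) (Nat.add (f (Nat.add x25896 x33152)) (Nat.add
    (f (Nat.add x25902 x33146)) (Nat.add (f (Nat.add x25922 x33126)) (Nat.add
    (f (Nat.add x25924 x33124)) (Nat.add (f (Nat.add x25926 x33122)) (Nat.add
    (f (Nat.add x25930 x33118)) (Nat.add (f (Nat.add x25932 x33116)) (Nat.add
    (f (Nat.add x25938 x33110)) (Nat.add (f (Nat.add x25948 x33100)) (Nat.add
    (f (Nat.add x25950 x33098)) (Nat.add (f (Nat.add x25956 x33092)) (Nat.add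
    (f (Nat.add x25974 x33074)) (Nat.add (f (Nat.add x26006 x33042)) (Nat.add
    (f (Nat.add x26008 x33040)) (Nat.add (f (Nat.add x26012 x33036)) (Nat.add
    (f (Nat.add x26014 x33034)) (Nat.add (f (Nat.add x26016 x33032)) (Nat.add
    (f (Nat.add x26020 x33028)) (Nat.add (f (Nat.add x26022 x33026))
    0)))))))))))))))))))))))))))))))))))))))))))))))))))))))))))) (Nat.add (Nat.add
    (f (Nat.add x26030 x33018)) (Nat.add (f (Nat.add x26032 x33016)) (Nat.add
    (f (Nat.add x26034 x33014)) (Nat.add (f (Nat.add x26038 x33010)) (Nat.add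
    (f (Nat.add x26040 x33008)) (Nat.add (f (Nat.add x26046 x33002)) (Nat.add
    (f (Nat.add x26056 x32992)) (Nat.add (f (Nat.add x26058 x32990)) (Nat.add
    (f (Nat.add x26064 x32984)) (Nat.add (f (Nat.add x26084 x32964)) (Nat.add
    (f (Nat.add x26086 x32962)) (Nat.add (f (Nat.add x26088 x32960)) (Nat.add
    (f (Nat.add x26092 x32956)) (Nat.add (f (Nat.add x26094 x32954)) (Nat.add
    (f (Nat.add x26100 x32948)) (Nat.add (f (Nat.add x26110 x32938)) (Nat.add
    (f (Nat.add x26112 x32936)) (Nat.add (f (Nat.add x26118 x32930)) (Nat.add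
    (f (Nat.add x26136 x32912)) (Nat.add (f (Nat.add x26164 x32884)) (Nat.add
    (f (Nat.add x26166 x32882)) (Nat.add (f (Nat.add x26172 x32876)) (Nat.add
    (f (Nat.add x26190 x32858)) (Nat.add (f (Nat.add x26324 x32724)) (Nat.add
    (f (Nat.add x26378 x32670)) (Nat.add (f (Nat.add x26396 x32652)) (Nat.add
    (f (Nat.add x26402 x32646)) (Nat.add (f (Nat.add x26404 x32644)) (Nat.add
    (f (Nat.add x26432 x32616)) (Nat.add (f (Nat.add x26450 x32598)) (Nat.add
    (f (Nat.add x26456 x32592)) (Nat.add (f (Nat.add x26458 x32590)) (Nat.add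
    (f (Nat.add x26468 x32580)) (Nat.add (f (Nat.add x26474 x32574)) (Nat.add
    (f (Nat.add x26476 x32572)) (Nat.add (f (Nat.add x26480 x32568)) (Nat.add
    (f (Nat.add x26482 x32566)) (Nat.add (f (Nat.add x26484 x32564)) (Nat.add
    (f (Nat.add x26540 x32508)) (Nat.add (f (Nat.add x26558 x32490)) (Nat.add
    (f (Nat.add x26564 x32484)) (Nat.add (f (Nat.add x26566 x32482)) (Nat.add
    (f (Nat.add x26594 x32454)) (Nat.add (f (Nat.add x26612 x32436)) (Nat.add
    (f (Nat.add x26618 x32430)) (Nat.add (f (Nat.add x26620 x32428)) (Nat.add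
    (f (Nat.add x26630 x32418)) (Nat.add (f (Nat.add x26636 x32412)) (Nat.add
    (f (Nat.add x26638 x32410)) (Nat.add (f (Nat.add x26642 x32406)) (Nat.add
    (f (Nat.add x26644 x32404)) (Nat.add (f (Nat.add x26646 x32402)) (Nat.add
    (f (Nat.add x26666 x32382)) (Nat.add (f (Nat.add x26672 x32376)) (Nat.add
    (f (Nat.add x26674 x32374)) (Nat.add (f (Nat.add x26684 x32364)) (Nat.add
    (f (Nat.add x26690 x32358)) (Nat.add (f (Nat.add x26692 x32356)) (Nat.add
    (f (Nat.add x26696 x32352)) (Nat.add (f (Nat.add x26698 x32350))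
    0)))))))))))))))))))))))))))))))))))))))))))))))))))))))))))) (Nat.add (Nat.add
    (f (Nat.add x26700 x32348)) (Nat.add (f (Nat.add x26708 x32340)) (Nat.add
    (f (Nat.add x26710 x32338)) (Nat.add (f (Nat.add x26714 x32334)) (Nat.add
    (f (Nat.add x26716 x32332)) (Nat.add (f (Nat.add x26718 x32330)) (Nat.add
    (f (Nat.add x26722 x32326)) (Nat.add (f (Nat.add x26724 x32324)) (Nat.add
    (f (Nat.add x26756 x32292)) (Nat.add (f (Nat.add x26774 x32274)) (Nat.add
    (f (Nat.add x26780 x32268)) (Nat.add (f (Nat.add x26782 x32266)) (Nat.add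
    (f (Nat.add x26792 x32256)) (Nat.add (f (Nat.add x26798 x32250)) (Nat.add
    (f (Nat.add x26800 x32248)) (Nat.add (f (Nat.add x26804 x32244)) (Nat.add
    (f (Nat.add x26806 x32242)) (Nat.add (f (Nat.add x26808 x32240)) (Nat.add
    (f (Nat.add x26828 x32220)) (Nat.add (f (Nat.add x26834 x32214)) (Nat.add
    (f (Nat.add x26836 x32212)) (Nat.add (f (Nat.add x26846 x32202)) (Nat.add
    (f (Nat.add x26852 x32196)) (Nat.add (f (Nat.add x26854 x32194)) (Nat.add
    (f (Nat.add x26858 x32190)) (Nat.add (f (Nat.add x26860 x32188)) (Nat.add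
    (f (Nat.add x26862 x32186)) (Nat.add (f (Nat.add x26870 x32178)) (Nat.add
    (f (Nat.add x26872 x32176)) (Nat.add (f (Nat.add x26876 x32172)) (Nat.add
    (f (Nat.add x26878 x32170)) (Nat.add (f (Nat.add x26880 x32168)) (Nat.add
    (f (Nat.add x26884 x32164)) (Nat.add (f (Nat.add x26886 x32162)) (Nat.add
    (f (Nat.add x26900 x32148)) (Nat.add (f (Nat.add x26906 x32142)) (Nat.add
    (f (Nat.add x26908 x32140)) (Nat.add (f (Nat.add x26912 x32136)) (Nat.add
    (f (Nat.add x26914 x32134)) (Nat.add (f (Nat.add x26916 x32132)) (Nat.add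
    (f (Nat.add x26924 x32124)) (Nat.add (f (Nat.add x26926 x32122)) (Nat.add
    (f (Nat.add x26930 x32118)) (Nat.add (f (Nat.add x26932 x32116)) (Nat.add
    (f (Nat.add x26934 x32114)) (Nat.add (f (Nat.add x26938 x32110)) (Nat.add
    (f (Nat.add x26940 x32108)) (Nat.add (f (Nat.add x26948 x32100)) (Nat.add
    (f (Nat.add x26950 x32098)) (Nat.add (f (Nat.add x26952 x32096)) (Nat.add
    (f (Nat.add x26956 x32092)) (Nat.add (f (Nat.add x26958 x32090)) (Nat.add
    (f (Nat.add x26964 x32084)) (Nat.add (f (Nat.add x27026 x32022)) (Nat.add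
    (f (Nat.add x27044 x32004)) (Nat.add (f (Nat.add x27050 x31998)) (Nat.add
    (f (Nat.add x27052 x31996)) (Nat.add (f (Nat.add x27080 x31968)) (Nat.add
    (f (Nat.add x27098 x31950)) (Nat.add (f (Nat.add x27104 x31944))
    0)))))))))))))))))))))))))))))))))))))))))))))))))))))))))))) (Nat.add (Nat.add
    (f (Nat.add x27106 x31942)) (Nat.add (f (Nat.add x27116 x31932)) (Nat.add
    (f (Nat.add x27122 x31926)) (Nat.add (f (Nat.add x27124 x31924)) (Nat.add
    (f (Nat.add x27128 x31920)) (Nat.add (f (Nat.add x27130 x31918)) (Nat.add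
    (f (Nat.add x27132 x31916)) (Nat.add (f (Nat.add x27152 x31896)) (Nat.add
    (f (Nat.add x27158 x31890)) (Nat.add (f (Nat.add x27160 x31888)) (Nat.add
    (f (Nat.add x27170 x31878)) (Nat.add (f (Nat.add x27176 x31872)) (Nat.add
    (f (Nat.add x27178 x31870)) (Nat.add (f (Nat.add x27182 x31866)) (Nat.add
    (f (Nat.add x27184 x31864)) (Nat.add (f (Nat.add x27186 x31862)) (Nat.add
    (f (Nat.add x27194 x31854)) (Nat.add (f (Nat.add x27196 x31852)) (Nat.add
    (f (Nat.add x27200 x31848)) (Nat.add (f (Nat.add x27202 x31846)) (Nat.add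
    (f (Nat.add x27204 x31844)) (Nat.add (f (Nat.add x27208 x31840)) (Nat.add
    (f (Nat.add x27210 x31838)) (Nat.add (f (Nat.add x27242 x31806)) (Nat.add
    (f (Nat.add x27260 x31788)) (Nat.add (f (Nat.add x27266 x31782)) (Nat.add
    (f (Nat.add x27268 x31780)) (Nat.add (f (Nat.add x27278 x31770)) (Nat.add
    (f (Nat.add x27284 x31764)) (Nat.add (f (Nat.add x27286 x31762)) (Nat.add
    (f (Nat.add x27290 x31758)) (Nat.add (f (Nat.add x27292 x31756)) (Nat.add
    (f (Nat.add x27294 x31754)) (Nat.add (f (Nat.add x27314 x31734)) (Nat.add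
    (f (Nat.add x27320 x31728)) (Nat.add (f (Nat.add x27322 x31726)) (Nat.add
    (f (Nat.add x27332 x31716)) (Nat.add (f (Nat.add x27338 x31710)) (Nat.add
    (f (Nat.add x27340 x31708)) (Nat.add (f (Nat.add x27344 x31704)) (Nat.add
    (f (Nat.add x27346 x31702)) (Nat.add (f (Nat.add x27348 x31700)) (Nat.add
    (f (Nat.add x27356 x31692)) (Nat.add (f (Nat.add x27358 x31690)) (Nat.add
    (f (Nat.add x27362 x31686)) (Nat.add (f (Nat.add x27364 x31684)) (Nat.add
    (f (Nat.add x27366 x31682)) (Nat.add (f (Nat.add x27370 x31678)) (Nat.add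
    (f (Nat.add x27372 x31676)) (Nat.add (f (Nat.add x27386 x31662)) (Nat.add
    (f (Nat.add x27392 x31656)) (Nat.add (f (Nat.add x27394 x31654)) (Nat.add
    (f (Nat.add x27398 x31650)) (Nat.add (f (Nat.add x27400 x31648)) (Nat.add
    (f (Nat.add x27402 x31646)) (Nat.add (f (Nat.add x27410 x31638)) (Nat.add
    (f (Nat.add x27412 x31636)) (Nat.add (f (Nat.add x27416 x31632)) (Nat.add
    (f (Nat.add x27418 x31630)) (Nat.add (f (Nat.add x27420 x31628))
    0)))))))))))))))))))))))))))))))))))))))))))))))))))))))))))) (Nat.add (Nat.add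
    (f (Nat.add x27424 x31624)) (Nat.add (f (Nat.add x27426 x31622)) (Nat.add
    (f (Nat.add x27434 x31614)) (Nat.add (f (Nat.add x27436 x31612)) (Nat.add
    (f (Nat.add x27438 x31610)) (Nat.add (f (Nat.add x27442 x31606)) (Nat.add
    (f (Nat.add x27444 x31604)) (Nat.add (f (Nat.add x27450 x31598)) (Nat.add
    (f (Nat.add x27476 x31572)) (Nat.add (f (Nat.add x27482 x31566)) (Nat.add
    (f (Nat.add x27484 x31564)) (Nat.add (f (Nat.add x27494 x31554)) (Nat.add
    (f (Nat.add x27500 x31548)) (Nat.add (f (Nat.add x27502 x31546)) (Nat.add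
    (f (Nat.add x27506 x31542)) (Nat.add (f (Nat.add x27508 x31540)) (Nat.add
    (f (Nat.add x27510 x31538)) (Nat.add (f (Nat.add x27518 x31530)) (Nat.add
    (f (Nat.add x27520 x31528)) (Nat.add (f (Nat.add x27524 x31524)) (Nat.add
    (f (Nat.add x27526 x31522)) (Nat.add (f (Nat.add x27528 x31520)) (Nat.add
    (f (Nat.add x27532 x31516)) (Nat.add (f (Nat.add x27534 x31514)) (Nat.add
    (f (Nat.add x27548 x31500)) (Nat.add (f (Nat.add x27554 x31494)) (Nat.add
    (f (Nat.add x27556 x31492)) (Nat.add (f (Nat.add x27560 x31488)) (Nat.add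
    (f (Nat.add x27562 x31486)) (Nat.add (f (Nat.add x27564 x31484)) (Nat.add
    (f (Nat.add x27572 x31476)) (Nat.add (f (Nat.add x27574 x31474)) (Nat.add
    (f (Nat.add x27578 x31470)) (Nat.add (f (Nat.add x27580 x31468)) (Nat.add
    (f (Nat.add x27582 x31466)) (Nat.add (f (Nat.add x27586 x31462)) (Nat.add
    (f (Nat.add x27588 x31460)) (Nat.add (f (Nat.add x27596 x31452)) (Nat.add
    (f (Nat.add x27598 x31450)) (Nat.add (f (Nat.add x27600 x31448)) (Nat.add
    (f (Nat.add x27604 x31444)) (Nat.add (f (Nat.add x27606 x31442)) (Nat.add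
    (f (Nat.add x27612 x31436)) (Nat.add (f (Nat.add x27626 x31422)) (Nat.add
    (f (Nat.add x27628 x31420)) (Nat.add (f (Nat.add x27632 x31416)) (Nat.add
    (f (Nat.add x27634 x31414)) (Nat.add (f (Nat.add x27636 x31412)) (Nat.add
    (f (Nat.add x27640 x31408)) (Nat.add (f (Nat.add x27642 x31406)) (Nat.add
    (f (Nat.add x27650 x31398)) (Nat.add (f (Nat.add x27652 x31396)) (Nat.add
    (f (Nat.add x27654 x31394)) (Nat.add (f (Nat.add x27658 x31390)) (Nat.add
    (f (Nat.add x27660 x31388)) (Nat.add (f (Nat.add x27666 x31382)) (Nat.add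
    (f (Nat.add x27676 x31372)) (Nat.add (f (Nat.add x27678 x31370)) (Nat.add
    (f (Nat.add x27684 x31364)) (Nat.add (f (Nat.add x27728 x31320))
    0)))))))))))))))))))))))))))))))))))))))))))))))))))))))))))) (Nat.add (Nat.add
    (f (Nat.add x27746 x31302)) (Nat.add (f (Nat.add x27752 x31296)) (Nat.add
    (f (Nat.add x27754 x31294)) (Nat.add (f (Nat.add x27764 x31284)) (Nat.add
    (f (Nat.add x27770 x31278)) (Nat.add (f (Nat.add x27772 x31276)) (Nat.add
    (f (Nat.add x27776 x31272)) (Nat.add (f (Nat.add x27778 x31270)) (Nat.add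
    (f (Nat.add x27780 x31268)) (Nat.add (f (Nat.add x27800 x31248)) (Nat.add
    (f (Nat.add x27806 x31242)) (Nat.add (f (Nat.add x27808 x31240)) (Nat.add
    (f (Nat.add x27818 x31230)) (Nat.add (f (Nat.add x27824 x31224)) (Nat.add
    (f (Nat.add x27826 x31222)) (Nat.add (f (Nat.add x27830 x31218)) (Nat.add
    (f (Nat.add x27832 x31216)) (Nat.add (f (Nat.add x27834 x31214)) (Nat.add
    (f (Nat.add x27842 x31206)) (Nat.add (f (Nat.add x27844 x31204)) (Nat.add
    (f (Nat.add x27848 x31200)) (Nat.add (f (Nat.add x27850 x31198)) (Nat.add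
    (f (Nat.add x27852 x31196)) (Nat.add (f (Nat.add x27856 x31192)) (Nat.add
    (f (Nat.add x27858 x31190)) (Nat.add (f (Nat.add x27872 x31176)) (Nat.add
    (f (Nat.add x27878 x31170)) (Nat.add (f (Nat.add x27880 x31168)) (Nat.add
    (f (Nat.add x27884 x31164)) (Nat.add (f (Nat.add x27886 x31162)) (Nat.add
    (f (Nat.add x27888 x31160)) (Nat.add (f (Nat.add x27896 x31152)) (Nat.add
    (f (Nat.add x27898 x31150)) (Nat.add (f (Nat.add x27902 x31146)) (Nat.add
    (f (Nat.add x27904 x31144)) (Nat.add (f (Nat.add x27906 x31142)) (Nat.add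
    (f (Nat.add x27910 x31138)) (Nat.add (f (Nat.add x27912 x31136)) (Nat.add
    (f (Nat.add x27920 x31128)) (Nat.add (f (Nat.add x27922 x31126)) (Nat.add
    (f (Nat.add x27924 x31124)) (Nat.add (f (Nat.add x27928 x31120)) (Nat.add
    (f (Nat.add x27930 x31118)) (Nat.add (f (Nat.add x27936 x31112)) (Nat.add
    (f (Nat.add x27962 x31086)) (Nat.add (f (Nat.add x27968 x31080)) (Nat.add
    (f (Nat.add x27970 x31078)) (Nat.add (f (Nat.add x27980 x31068)) (Nat.add
    (f (Nat.add x27986 x31062)) (Nat.add (f (Nat.add x27988 x31060)) (Nat.add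
    (f (Nat.add x27992 x31056)) (Nat.add (f (Nat.add x27994 x31054)) (Nat.add
    (f (Nat.add x27996 x31052)) (Nat.add (f (Nat.add x28004 x31044)) (Nat.add
    (f (Nat.add x28006 x31042)) (Nat.add (f (Nat.add x28010 x31038)) (Nat.add
    (f (Nat.add x28012 x31036)) (Nat.add (f (Nat.add x28014 x31034)) (Nat.add
    (f (Nat.add x28018 x31030)) (Nat.add (f (Nat.add x28020 x31028))
    0)))))))))))))))))))))))))))))))))))))))))))))))))))))))))))) (Nat.add (Nat.add
    (f (Nat.add x28034 x31014)) (Nat.add (f (Nat.add x28040 x31008)) (Nat.add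
    (f (Nat.add x28042 x31006)) (Nat.add (f (Nat.add x28046 x31002)) (Nat.add
    (f (Nat.add x28048 x31000)) (Nat.add (f (Nat.add x28050 x30998)) (Nat.add
    (f (Nat.add x28058 x30990)) (Nat.add (f (Nat.add x28060 x30988)) (Nat.add
    (f (Nat.add x28064 x30984)) (Nat.add (f (Nat.add x28066 x30982)) (Nat.add
    (f (Nat.add x28068 x30980)) (Nat.add (f (Nat.add x28072 x30976)) (Nat.add
    (f (Nat.add x28074 x30974)) (Nat.add (f (Nat.add x28082 x30966)) (Nat.add
    (f (Nat.add x28084 x30964)) (Nat.add (f (Nat.add x28086 x30962)) (Nat.add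
    (f (Nat.add x28090 x30958)) (Nat.add (f (Nat.add x28092 x30956)) (Nat.add
    (f (Nat.add x28098 x30950)) (Nat.add (f (Nat.add x28112 x30936)) (Nat.add
    (f (Nat.add x28114 x30934)) (Nat.add (f (Nat.add x28118 x30930)) (Nat.add
    (f (Nat.add x28120 x30928)) (Nat.add (f (Nat.add x28122 x30926)) (Nat.add
    (f (Nat.add x28126 x30922)) (Nat.add (f (Nat.add x28128 x30920)) (Nat.add
    (f (Nat.add x28136 x30912)) (Nat.add (f (Nat.add x28138 x30910)) (Nat.add
    (f (Nat.add x28140 x30908)) (Nat.add (f (Nat.add x28144 x30904)) (Nat.add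
    (f (Nat.add x28146 x30902)) (Nat.add (f (Nat.add x28152 x30896)) (Nat.add
    (f (Nat.add x28162 x30886)) (Nat.add (f (Nat.add x28164 x30884)) (Nat.add
    (f (Nat.add x28170 x30878)) (Nat.add (f (Nat.add x28196 x30852)) (Nat.add
    (f (Nat.add x28202 x30846)) (Nat.add (f (Nat.add x28204 x30844)) (Nat.add
    (f (Nat.add x28208 x30840)) (Nat.add (f (Nat.add x28210 x30838)) (Nat.add
    (f (Nat.add x28212 x30836)) (Nat.add (f (Nat.add x28220 x30828)) (Nat.add
    (f (Nat.add x28222 x30826)) (Nat.add (f (Nat.add x28226 x30822)) (Nat.add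
    (f (Nat.add x28228 x30820)) (Nat.add (f (Nat.add x28230 x30818)) (Nat.add
    (f (Nat.add x28234 x30814)) (Nat.add (f (Nat.add x28236 x30812)) (Nat.add
    (f (Nat.add x28244 x30804)) (Nat.add (f (Nat.add x28246 x30802)) (Nat.add
    (f (Nat.add x28248 x30800)) (Nat.add (f (Nat.add x28252 x30796)) (Nat.add
    (f (Nat.add x28254 x30794)) (Nat.add (f (Nat.add x28260 x30788)) (Nat.add
    (f (Nat.add x28274 x30774)) (Nat.add (f (Nat.add x28276 x30772)) (Nat.add
    (f (Nat.add x28280 x30768)) (Nat.add (f (Nat.add x28282 x30766)) (Nat.add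
    (f (Nat.add x28284 x30764)) (Nat.add (f (Nat.add x28288 x30760))
    0)))))))))))))))))))))))))))))))))))))))))))))))))))))))))))) (Nat.add (Nat.add
    (f (Nat.add x28290 x30758)) (Nat.add (f (Nat.add x28298 x30750)) (Nat.add
    (f (Nat.add x28300 x30748)) (Nat.add (f (Nat.add x28302 x30746)) (Nat.add
    (f (Nat.add x28306 x30742)) (Nat.add (f (Nat.add x28308 x30740)) (Nat.add
    (f (Nat.add x28314 x30734)) (Nat.add (f (Nat.add x28324 x30724)) (Nat.add
    (f (Nat.add x28326 x30722)) (Nat.add (f (Nat.add x28332 x30716)) (Nat.add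
    (f (Nat.add x28352 x30696)) (Nat.add (f (Nat.add x28354 x30694)) (Nat.add
    (f (Nat.add x28356 x30692)) (Nat.add (f (Nat.add x28360 x30688)) (Nat.add
    (f (Nat.add x28362 x30686)) (Nat.add (f (Nat.add x28368 x30680)) (Nat.add
    (f (Nat.add x28378 x30670)) (Nat.add (f (Nat.add x28380 x30668)) (Nat.add
    (f (Nat.add x28386 x30662)) (Nat.add (f (Nat.add x28404 x30644)) (Nat.add
    (f (Nat.add x28484 x30564)) (Nat.add (f (Nat.add x28502 x30546)) (Nat.add
    (f (Nat.add x28508 x30540)) (Nat.add (f (Nat.add x28510 x30538)) (Nat.add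
    (f (Nat.add x28538 x30510)) (Nat.add (f (Nat.add x28556 x30492)) (Nat.add
    (f (Nat.add x28562 x30486)) (Nat.add (f (Nat.add x28564 x30484)) (Nat.add
    (f (Nat.add x28574 x30474)) (Nat.add (f (Nat.add x28580 x30468)) (Nat.add
    (f (Nat.add x28582 x30466)) (Nat.add (f (Nat.add x28586 x30462)) (Nat.add
    (f (Nat.add x28588 x30460)) (Nat.add (f (Nat.add x28590 x30458)) (Nat.add
    (f (Nat.add x28610 x30438)) (Nat.add (f (Nat.add x28616 x30432)) (Nat.add
    (f (Nat.add x28618 x30430)) (Nat.add (f (Nat.add x28628 x30420)) (Nat.add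
    (f (Nat.add x28634 x30414)) (Nat.add (f (Nat.add x28636 x30412)) (Nat.add
    (f (Nat.add x28640 x30408)) (Nat.add (f (Nat.add x28642 x30406)) (Nat.add
    (f (Nat.add x28644 x30404)) (Nat.add (f (Nat.add x28652 x30396)) (Nat.add
    (f (Nat.add x28654 x30394)) (Nat.add (f (Nat.add x28658 x30390)) (Nat.add
    (f (Nat.add x28660 x30388)) (Nat.add (f (Nat.add x28662 x30386)) (Nat.add
    (f (Nat.add x28666 x30382)) (Nat.add (f (Nat.add x28668 x30380)) (Nat.add
    (f (Nat.add x28700 x30348)) (Nat.add (f (Nat.add x28718 x30330)) (Nat.add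
    (f (Nat.add x28724 x30324)) (Nat.add (f (Nat.add x28726 x30322)) (Nat.add
    (f (Nat.add x28736 x30312)) (Nat.add (f (Nat.add x28742 x30306)) (Nat.add
    (f (Nat.add x28744 x30304)) (Nat.add (f (Nat.add x28748 x30300)) (Nat.add
    (f (Nat.add x28750 x30298)) (Nat.add (f (Nat.add x28752 x30296))
    0)))))))))))))))))))))))))))))))))))))))))))))))))))))))))))) (Nat.add (Nat.add
    (f (Nat.add x28772 x30276)) (Nat.add (f (Nat.add x28778 x30270)) (Nat.add
    (f (Nat.add x28780 x30268)) (Nat.add (f (Nat.add x28790 x30258)) (Nat.add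
    (f (Nat.add x28796 x30252)) (Nat.add (f (Nat.add x28798 x30250)) (Nat.add
    (f (Nat.add x28802 x30246)) (Nat.add (f (Nat.add x28804 x30244)) (Nat.add
    (f (Nat.add x28806 x30242)) (Nat.add (f (Nat.add x28814 x30234)) (Nat.add
    (f (Nat.add x28816 x30232)) (Nat.add (f (Nat.add x28820 x30228)) (Nat.add
    (f (Nat.add x28822 x30226)) (Nat.add (f (Nat.add x28824 x30224)) (Nat.add
    (f (Nat.add x28828 x30220)) (Nat.add (f (Nat.add x28830 x30218)) (Nat.add
    (f (Nat.add x28844 x30204)) (Nat.add (f (Nat.add x28850 x30198)) (Nat.add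
    (f (Nat.add x28852 x30196)) (Nat.add (f (Nat.add x28856 x30192)) (Nat.add
    (f (Nat.add x28858 x30190)) (Nat.add (f (Nat.add x28860 x30188)) (Nat.add
    (f (Nat.add x28868 x30180)) (Nat.add (f (Nat.add x28870 x30178)) (Nat.add
    (f (Nat.add x28874 x30174)) (Nat.add (f (Nat.add x28876 x30172)) (Nat.add
    (f (Nat.add x28878 x30170)) (Nat.add (f (Nat.add x28882 x30166)) (Nat.add
    (f (Nat.add x28884 x30164)) (Nat.add (f (Nat.add x28892 x30156)) (Nat.add
    (f (Nat.add x28894 x30154)) (Nat.add (f (Nat.add x28896 x30152)) (Nat.add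
    (f (Nat.add x28900 x30148)) (Nat.add (f (Nat.add x28902 x30146)) (Nat.add
    (f (Nat.add x28908 x30140)) (Nat.add (f (Nat.add x28934 x30114)) (Nat.add
    (f (Nat.add x28940 x30108)) (Nat.add (f (Nat.add x28942 x30106)) (Nat.add
    (f (Nat.add x28952 x30096)) (Nat.add (f (Nat.add x28958 x30090)) (Nat.add
    (f (Nat.add x28960 x30088)) (Nat.add (f (Nat.add x28964 x30084)) (Nat.add
    (f (Nat.add x28966 x30082)) (Nat.add (f (Nat.add x28968 x30080)) (Nat.add
    (f (Nat.add x28976 x30072)) (Nat.add (f (Nat.add x28978 x30070)) (Nat.add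
    (f (Nat.add x28982 x30066)) (Nat.add (f (Nat.add x28984 x30064)) (Nat.add
    (f (Nat.add x28986 x30062)) (Nat.add (f (Nat.add x28990 x30058)) (Nat.add
    (f (Nat.add x28992 x30056)) (Nat.add (f (Nat.add x29006 x30042)) (Nat.add
    (f (Nat.add x29012 x30036)) (Nat.add (f (Nat.add x29014 x30034)) (Nat.add
    (f (Nat.add x29018 x30030)) (Nat.add (f (Nat.add x29020 x30028)) (Nat.add
    (f (Nat.add x29022 x30026)) (Nat.add (f (Nat.add x29030 x30018)) (Nat.add
    (f (Nat.add x29032 x30016)) (Nat.add (f (Nat.add x29036 x30012))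
    0)))))))))))))))))))))))))))))))))))))))))))))))))))))))))))) (Nat.add (Nat.add
    (f (Nat.add x29038 x30010)) (Nat.add (f (Nat.add x29040 x30008)) (Nat.add
    (f (Nat.add x29044 x30004)) (Nat.add (f (Nat.add x29046 x30002)) (Nat.add
    (f (Nat.add x29054 x29994)) (Nat.add (f (Nat.add x29056 x29992)) (Nat.add
    (f (Nat.add x29058 x29990)) (Nat.add (f (Nat.add x29062 x29986)) (Nat.add
    (f (Nat.add x29064 x29984)) (Nat.add (f (Nat.add x29070 x29978)) (Nat.add
    (f (Nat.add x29084 x29964)) (Nat.add (f (Nat.add x29086 x29962)) (Nat.add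
    (f (Nat.add x29090 x29958)) (Nat.add (f (Nat.add x29092 x29956)) (Nat.add
    (f (Nat.add x29094 x29954)) (Nat.add (f (Nat.add x29098 x29950)) (Nat.add
    (f (Nat.add x29100 x29948)) (Nat.add (f (Nat.add x29108 x29940)) (Nat.add
    (f (Nat.add x29110 x29938)) (Nat.add (f (Nat.add x29112 x29936)) (Nat.add
    (f (Nat.add x29116 x29932)) (Nat.add (f (Nat.add x29118 x29930)) (Nat.add
    (f (Nat.add x29124 x29924)) (Nat.add (f (Nat.add x29134 x29914)) (Nat.add
    (f (Nat.add x29136 x29912)) (Nat.add (f (Nat.add x29142 x29906)) (Nat.add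
    (f (Nat.add x29186 x29862)) (Nat.add (f (Nat.add x29204 x29844)) (Nat.add
    (f (Nat.add x29210 x29838)) (Nat.add (f (Nat.add x29212 x29836)) (Nat.add
    (f (Nat.add x29222 x29826)) (Nat.add (f (Nat.add x29228 x29820)) (Nat.add
    (f (Nat.add x29230 x29818)) (Nat.add (f (Nat.add x29234 x29814)) (Nat.add
    (f (Nat.add x29236 x29812)) (Nat.add (f (Nat.add x29238 x29810)) (Nat.add
    (f (Nat.add x29258 x29790)) (Nat.add (f (Nat.add x29264 x29784)) (Nat.add
    (f (Nat.add x29266 x29782)) (Nat.add (f (Nat.add x29276 x29772)) (Nat.add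
    (f (Nat.add x29282 x29766)) (Nat.add (f (Nat.add x29284 x29764)) (Nat.add
    (f (Nat.add x29288 x29760)) (Nat.add (f (Nat.add x29290 x29758)) (Nat.add
    (f (Nat.add x29292 x29756)) (Nat.add (f (Nat.add x29300 x29748)) (Nat.add
    (f (Nat.add x29302 x29746)) (Nat.add (f (Nat.add x29306 x29742)) (Nat.add
    (f (Nat.add x29308 x29740)) (Nat.add (f (Nat.add x29310 x29738)) (Nat.add
    (f (Nat.add x29314 x29734)) (Nat.add (f (Nat.add x29316 x29732)) (Nat.add
    (f (Nat.add x29330 x29718)) (Nat.add (f (Nat.add x29336 x29712)) (Nat.add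
    (f (Nat.add x29338 x29710)) (Nat.add (f (Nat.add x29342 x29706)) (Nat.add
    (f (Nat.add x29344 x29704)) (Nat.add (f (Nat.add x29346 x29702)) (Nat.add
    (f (Nat.add x29354 x29694)) (Nat.add (f (Nat.add x29356 x29692))
    0)))))))))))))))))))))))))))))))))))))))))))))))))))))))))))) (Nat.add (Nat.add
    (f (Nat.add x29360 x29688)) (Nat.add (f (Nat.add x29362 x29686)) (Nat.add
    (f (Nat.add x29364 x29684)) (Nat.add (f (Nat.add x29368 x29680)) (Nat.add
    (f (Nat.add x29370 x29678)) (Nat.add (f (Nat.add x29378 x29670)) (Nat.add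
    (f (Nat.add x29380 x29668)) (Nat.add (f (Nat.add x29382 x29666)) (Nat.add
    (f (Nat.add x29386 x29662)) (Nat.add (f (Nat.add x29388 x29660)) (Nat.add
    (f (Nat.add x29394 x29654)) (Nat.add (f (Nat.add x29420 x29628)) (Nat.add
    (f (Nat.add x29426 x29622)) (Nat.add (f (Nat.add x29428 x29620)) (Nat.add
    (f (Nat.add x29438 x29610)) (Nat.add (f (Nat.add x29444 x29604)) (Nat.add
    (f (Nat.add x29446 x29602)) (Nat.add (f (Nat.add x29450 x29598)) (Nat.add
    (f (Nat.add x29452 x29596)) (Nat.add (f (Nat.add x29454 x29594)) (Nat.add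
    (f (Nat.add x29462 x29586)) (Nat.add (f (Nat.add x29464 x29584)) (Nat.add
    (f (Nat.add x29468 x29580)) (Nat.add (f (Nat.add x29470 x29578)) (Nat.add
    (f (Nat.add x29472 x29576)) (Nat.add (f (Nat.add x29476 x29572)) (Nat.add
    (f (Nat.add x29478 x29570)) (Nat.add (f (Nat.add x29492 x29556)) (Nat.add
    (f (Nat.add x29498 x29550)) (Nat.add (f (Nat.add x29500 x29548)) (Nat.add
    (f (Nat.add x29504 x29544)) (Nat.add (f (Nat.add x29506 x29542)) (Nat.add
    (f (Nat.add x29508 x29540)) (Nat.add (f (Nat.add x29516 x29532)) (Nat.add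
    (f (Nat.add x29518 x29530)) (Nat.add (f (Nat.add x29522 x29526)) (Nat.add
    (f (Nat.add x29524 x29524)) (Nat.add (f (Nat.add x29526 x29522)) (Nat.add
    (f (Nat.add x29530 x29518)) (Nat.add (f (Nat.add x29532 x29516)) (Nat.add
    (f (Nat.add x29540 x29508)) (Nat.add (f (Nat.add x29542 x29506)) (Nat.add
    (f (Nat.add x29544 x29504)) (Nat.add (f (Nat.add x29548 x29500)) (Nat.add
    (f (Nat.add x29550 x29498)) (Nat.add (f (Nat.add x29556 x29492)) (Nat.add
    (f (Nat.add x29570 x29478)) (Nat.add (f (Nat.add x29572 x29476)) (Nat.add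
    (f (Nat.add x29576 x29472)) (Nat.add (f (Nat.add x29578 x29470)) (Nat.add
    (f (Nat.add x29580 x29468)) (Nat.add (f (Nat.add x29584 x29464)) (Nat.add
    (f (Nat.add x29586 x29462)) (Nat.add (f (Nat.add x29594 x29454)) (Nat.add
    (f (Nat.add x29596 x29452)) (Nat.add (f (Nat.add x29598 x29450)) (Nat.add
    (f (Nat.add x29602 x29446)) (Nat.add (f (Nat.add x29604 x29444)) (Nat.add
    (f (Nat.add x29610 x29438)) (Nat.add (f (Nat.add x29620 x29428))
    0)))))))))))))))))))))))))))))))))))))))))))))))))))))))))))) (Nat.add (Nat.add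
    (f (Nat.add x29622 x29426)) (Nat.add (f (Nat.add x29628 x29420)) (Nat.add
    (f (Nat.add x29654 x29394)) (Nat.add (f (Nat.add x29660 x29388)) (Nat.add
    (f (Nat.add x29662 x29386)) (Nat.add (f (Nat.add x29666 x29382)) (Nat.add
    (f (Nat.add x29668 x29380)) (Nat.add (f (Nat.add x29670 x29378)) (Nat.add
    (f (Nat.add x29678 x29370)) (Nat.add (f (Nat.add x29680 x29368)) (Nat.add
    (f (Nat.add x29684 x29364)) (Nat.add (f (Nat.add x29686 x29362)) (Nat.add
    (f (Nat.add x29688 x29360)) (Nat.add (f (Nat.add x29692 x29356)) (Nat.add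
    (f (Nat.add x29694 x29354)) (Nat.add (f (Nat.add x29702 x29346)) (Nat.add
    (f (Nat.add x29704 x29344)) (Nat.add (f (Nat.add x29706 x29342)) (Nat.add
    (f (Nat.add x29710 x29338)) (Nat.add (f (Nat.add x29712 x29336)) (Nat.add
    (f (Nat.add x29718 x29330)) (Nat.add (f (Nat.add x29732 x29316)) (Nat.add
    (f (Nat.add x29734 x29314)) (Nat.add (f (Nat.add x29738 x29310)) (Nat.add
    (f (Nat.add x29740 x29308)) (Nat.add (f (Nat.add x29742 x29306)) (Nat.add
    (f (Nat.add x29746 x29302)) (Nat.add (f (Nat.add x29748 x29300)) (Nat.add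
    (f (Nat.add x29756 x29292)) (Nat.add (f (Nat.add x29758 x29290)) (Nat.add
    (f (Nat.add x29760 x29288)) (Nat.add (f (Nat.add x29764 x29284)) (Nat.add
    (f (Nat.add x29766 x29282)) (Nat.add (f (Nat.add x29772 x29276)) (Nat.add
    (f (Nat.add x29782 x29266)) (Nat.add (f (Nat.add x29784 x29264)) (Nat.add
    (f (Nat.add x29790 x29258)) (Nat.add (f (Nat.add x29810 x29238)) (Nat.add
    (f (Nat.add x29812 x29236)) (Nat.add (f (Nat.add x29814 x29234)) (Nat.add
    (f (Nat.add x29818 x29230)) (Nat.add (f (Nat.add x29820 x29228)) (Nat.add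
    (f (Nat.add x29826 x29222)) (Nat.add (f (Nat.add x29836 x29212)) (Nat.add
    (f (Nat.add x29838 x29210)) (Nat.add (f (Nat.add x29844 x29204)) (Nat.add
    (f (Nat.add x29862 x29186)) (Nat.add (f (Nat.add x29906 x29142)) (Nat.add
    (f (Nat.add x29912 x29136)) (Nat.add (f (Nat.add x29914 x29134)) (Nat.add
    (f (Nat.add x29924 x29124)) (Nat.add (f (Nat.add x29930 x29118)) (Nat.add
    (f (Nat.add x29932 x29116)) (Nat.add (f (Nat.add x29936 x29112)) (Nat.add
    (f (Nat.add x29938 x29110)) (Nat.add (f (Nat.add x29940 x29108)) (Nat.add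
    (f (Nat.add x29948 x29100)) (Nat.add (f (Nat.add x29950 x29098)) (Nat.add
    (f (Nat.add x29954 x29094)) (Nat.add (f (Nat.add x29956 x29092))
    0)))))))))))))))))))))))))))))))))))))))))))))))))))))))))))) (Nat.add (Nat.add
    (f (Nat.add x29958 x29090)) (Nat.add (f (Nat.add x29962 x29086)) (Nat.add
    (f (Nat.add x29964 x29084)) (Nat.add (f (Nat.add x29978 x29070)) (Nat.add
    (f (Nat.add x29984 x29064)) (Nat.add (f (Nat.add x29986 x29062)) (Nat.add
    (f (Nat.add x29990 x29058)) (Nat.add (f (Nat.add x29992 x29056)) (Nat.add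
    (f (Nat.add x29994 x29054)) (Nat.add (f (Nat.add x30002 x29046)) (Nat.add
    (f (Nat.add x30004 x29044)) (Nat.add (f (Nat.add x30008 x29040)) (Nat.add
    (f (Nat.add x30010 x29038)) (Nat.add (f (Nat.add x30012 x29036)) (Nat.add
    (f (Nat.add x30016 x29032)) (Nat.add (f (Nat.add x30018 x29030)) (Nat.add
    (f (Nat.add x30026 x29022)) (Nat.add (f (Nat.add x30028 x29020)) (Nat.add
    (f (Nat.add x30030 x29018)) (Nat.add (f (Nat.add x30034 x29014)) (Nat.add
    (f (Nat.add x30036 x29012)) (Nat.add (f (Nat.add x30042 x29006)) (Nat.add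
    (f (Nat.add x30056 x28992)) (Nat.add (f (Nat.add x30058 x28990)) (Nat.add
    (f (Nat.add x30062 x28986)) (Nat.add (f (Nat.add x30064 x28984)) (Nat.add
    (f (Nat.add x30066 x28982)) (Nat.add (f (Nat.add x30070 x28978)) (Nat.add
    (f (Nat.add x30072 x28976)) (Nat.add (f (Nat.add x30080 x28968)) (Nat.add
    (f (Nat.add x30082 x28966)) (Nat.add (f (Nat.add x30084 x28964)) (Nat.add
    (f (Nat.add x30088 x28960)) (Nat.add (f (Nat.add x30090 x28958)) (Nat.add
    (f (Nat.add x30096 x28952)) (Nat.add (f (Nat.add x30106 x28942)) (Nat.add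
    (f (Nat.add x30108 x28940)) (Nat.add (f (Nat.add x30114 x28934)) (Nat.add
    (f (Nat.add x30140 x28908)) (Nat.add (f (Nat.add x30146 x28902)) (Nat.add
    (f (Nat.add x30148 x28900)) (Nat.add (f (Nat.add x30152 x28896)) (Nat.add
    (f (Nat.add x30154 x28894)) (Nat.add (f (Nat.add x30156 x28892)) (Nat.add
    (f (Nat.add x30164 x28884)) (Nat.add (f (Nat.add x30166 x28882)) (Nat.add
    (f (Nat.add x30170 x28878)) (Nat.add (f (Nat.add x30172 x28876)) (Nat.add
    (f (Nat.add x30174 x28874)) (Nat.add (f (Nat.add x30178 x28870)) (Nat.add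
    (f (Nat.add x30180 x28868)) (Nat.add (f (Nat.add x30188 x28860)) (Nat.add
    (f (Nat.add x30190 x28858)) (Nat.add (f (Nat.add x30192 x28856)) (Nat.add
    (f (Nat.add x30196 x28852)) (Nat.add (f (Nat.add x30198 x28850)) (Nat.add
    (f (Nat.add x30204 x28844)) (Nat.add (f (Nat.add x30218 x28830)) (Nat.add
    (f (Nat.add x30220 x28828)) (Nat.add (f (Nat.add x30224 x28824))
    0)))))))))))))))))))))))))))))))))))))))))))))))))))))))))))) (Nat.add (Nat.add
    (f (Nat.add x30226 x28822)) (Nat.add (f (Nat.add x30228 x28820)) (Nat.add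
    (f (Nat.add x30232 x28816)) (Nat.add (f (Nat.add x30234 x28814)) (Nat.add
    (f (Nat.add x30242 x28806)) (Nat.add (f (Nat.add x30244 x28804)) (Nat.add
    (f (Nat.add x30246 x28802)) (Nat.add (f (Nat.add x30250 x28798)) (Nat.add
    (f (Nat.add x30252 x28796)) (Nat.add (f (Nat.add x30258 x28790)) (Nat.add
    (f (Nat.add x30268 x28780)) (Nat.add (f (Nat.add x30270 x28778)) (Nat.add
    (f (Nat.add x30276 x28772)) (Nat.add (f (Nat.add x30296 x28752)) (Nat.add
    (f (Nat.add x30298 x28750)) (Nat.add (f (Nat.add x30300 x28748)) (Nat.add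
    (f (Nat.add x30304 x28744)) (Nat.add (f (Nat.add x30306 x28742)) (Nat.add
    (f (Nat.add x30312 x28736)) (Nat.add (f (Nat.add x30322 x28726)) (Nat.add
    (f (Nat.add x30324 x28724)) (Nat.add (f (Nat.add x30330 x28718)) (Nat.add
    (f (Nat.add x30348 x28700)) (Nat.add (f (Nat.add x30380 x28668)) (Nat.add
    (f (Nat.add x30382 x28666)) (Nat.add (f (Nat.add x30386 x28662)) (Nat.add
    (f (Nat.add x30388 x28660)) (Nat.add (f (Nat.add x30390 x28658)) (Nat.add
    (f (Nat.add x30394 x28654)) (Nat.add (f (Nat.add x30396 x28652)) (Nat.add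
    (f (Nat.add x30404 x28644)) (Nat.add (f (Nat.add x30406 x28642)) (Nat.add
    (f (Nat.add x30408 x28640)) (Nat.add (f (Nat.add x30412 x28636)) (Nat.add
    (f (Nat.add x30414 x28634)) (Nat.add (f (Nat.add x30420 x28628)) (Nat.add
    (f (Nat.add x30430 x28618)) (Nat.add (f (Nat.add x30432 x28616)) (Nat.add
    (f (Nat.add x30438 x28610)) (Nat.add (f (Nat.add x30458 x28590)) (Nat.add
    (f (Nat.add x30460 x28588)) (Nat.add (f (Nat.add x30462 x28586)) (Nat.add
    (f (Nat.add x30466 x28582)) (Nat.add (f (Nat.add x30468 x28580)) (Nat.add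
    (f (Nat.add x30474 x28574)) (Nat.add (f (Nat.add x30484 x28564)) (Nat.add
    (f (Nat.add x30486 x28562)) (Nat.add (f (Nat.add x30492 x28556)) (Nat.add
    (f (Nat.add x30510 x28538)) (Nat.add (f (Nat.add x30538 x28510)) (Nat.add
    (f (Nat.add x30540 x28508)) (Nat.add (f (Nat.add x30546 x28502)) (Nat.add
    (f (Nat.add x30564 x28484)) (Nat.add (f (Nat.add x30644 x28404)) (Nat.add
    (f (Nat.add x30662 x28386)) (Nat.add (f (Nat.add x30668 x28380)) (Nat.add
    (f (Nat.add x30670 x28378)) (Nat.add (f (Nat.add x30680 x28368)) (Nat.add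
    (f (Nat.add x30686 x28362)) (Nat.add (f (Nat.add x30688 x28360))
    0)))))))))))))))))))))))))))))))))))))))))))))))))))))))))))) (Nat.add (Nat.add
    (f (Nat.add x30692 x28356)) (Nat.add (f (Nat.add x30694 x28354)) (Nat.add
    (f (Nat.add x30696 x28352)) (Nat.add (f (Nat.add x30716 x28332)) (Nat.add
    (f (Nat.add x30722 x28326)) (Nat.add (f (Nat.add x30724 x28324)) (Nat.add
    (f (Nat.add x30734 x28314)) (Nat.add (f (Nat.add x30740 x28308)) (Nat.add
    (f (Nat.add x30742 x28306)) (Nat.add (f (Nat.add x30746 x28302)) (Nat.add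
    (f (Nat.add x30748 x28300)) (Nat.add (f (Nat.add x30750 x28298)) (Nat.add
    (f (Nat.add x30758 x28290)) (Nat.add (f (Nat.add x30760 x28288)) (Nat.add
    (f (Nat.add x30764 x28284)) (Nat.add (f (Nat.add x30766 x28282)) (Nat.add
    (f (Nat.add x30768 x28280)) (Nat.add (f (Nat.add x30772 x28276)) (Nat.add
    (f (Nat.add x30774 x28274)) (Nat.add (f (Nat.add x30788 x28260)) (Nat.add
    (f (Nat.add x30794 x28254)) (Nat.add (f (Nat.add x30796 x28252)) (Nat.add
    (f (Nat.add x30800 x28248)) (Nat.add (f (Nat.add x30802 x28246)) (Nat.add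
    (f (Nat.add x30804 x28244)) (Nat.add (f (Nat.add x30812 x28236)) (Nat.add
    (f (Nat.add x30814 x28234)) (Nat.add (f (Nat.add x30818 x28230)) (Nat.add
    (f (Nat.add x30820 x28228)) (Nat.add (f (Nat.add x30822 x28226)) (Nat.add
    (f (Nat.add x30826 x28222)) (Nat.add (f (Nat.add x30828 x28220)) (Nat.add
    (f (Nat.add x30836 x28212)) (Nat.add (f (Nat.add x30838 x28210)) (Nat.add
    (f (Nat.add x30840 x28208)) (Nat.add (f (Nat.add x30844 x28204)) (Nat.add
    (f (Nat.add x30846 x28202)) (Nat.add (f (Nat.add x30852 x28196)) (Nat.add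
    (f (Nat.add x30878 x28170)) (Nat.add (f (Nat.add x30884 x28164)) (Nat.add
    (f (Nat.add x30886 x28162)) (Nat.add (f (Nat.add x30896 x28152)) (Nat.add
    (f (Nat.add x30902 x28146)) (Nat.add (f (Nat.add x30904 x28144)) (Nat.add
    (f (Nat.add x30908 x28140)) (Nat.add (f (Nat.add x30910 x28138)) (Nat.add
    (f (Nat.add x30912 x28136)) (Nat.add (f (Nat.add x30920 x28128)) (Nat.add
    (f (Nat.add x30922 x28126)) (Nat.add (f (Nat.add x30926 x28122)) (Nat.add
    (f (Nat.add x30928 x28120)) (Nat.add (f (Nat.add x30930 x28118)) (Nat.add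
    (f (Nat.add x30934 x28114)) (Nat.add (f (Nat.add x30936 x28112)) (Nat.add
    (f (Nat.add x30950 x28098)) (Nat.add (f (Nat.add x30956 x28092)) (Nat.add
    (f (Nat.add x30958 x28090)) (Nat.add (f (Nat.add x30962 x28086)) (Nat.add
    (f (Nat.add x30964 x28084)) (Nat.add (f (Nat.add x30966 x28082))
    0)))))))))))))))))))))))))))))))))))))))))))))))))))))))))))) (Nat.add (Nat.add
    (f (Nat.add x30974 x28074)) (Nat.add (f (Nat.add x30976 x28072)) (Nat.add
    (f (Nat.add x30980 x28068)) (Nat.add (f (Nat.add x30982 x28066)) (Nat.add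
    (f (Nat.add x30984 x28064)) (Nat.add (f (Nat.add x30988 x28060)) (Nat.add
    (f (Nat.add x30990 x28058)) (Nat.add (f (Nat.add x30998 x28050)) (Nat.add
    (f (Nat.add x31000 x28048)) (Nat.add (f (Nat.add x31002 x28046)) (Nat.add
    (f (Nat.add x31006 x28042)) (Nat.add (f (Nat.add x31008 x28040)) (Nat.add
    (f (Nat.add x31014 x28034)) (Nat.add (f (Nat.add x31028 x28020)) (Nat.add
    (f (Nat.add x31030 x28018)) (Nat.add (f (Nat.add x31034 x28014)) (Nat.add
    (f (Nat.add x31036 x28012)) (Nat.add (f (Nat.add x31038 x28010)) (Nat.add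
    (f (Nat.add x31042 x28006)) (Nat.add (f (Nat.add x31044 x28004)) (Nat.add
    (f (Nat.add x31052 x27996)) (Nat.add (f (Nat.add x31054 x27994)) (Nat.add
    (f (Nat.add x31056 x27992)) (Nat.add (f (Nat.add x31060 x27988)) (Nat.add
    (f (Nat.add x31062 x27986)) (Nat.add (f (Nat.add x31068 x27980)) (Nat.add
    (f (Nat.add x31078 x27970)) (Nat.add (f (Nat.add x31080 x27968)) (Nat.add
    (f (Nat.add x31086 x27962)) (Nat.add (f (Nat.add x31112 x27936)) (Nat.add
    (f (Nat.add x31118 x27930)) (Nat.add (f (Nat.add x31120 x27928)) (Nat.add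
    (f (Nat.add x31124 x27924)) (Nat.add (f (Nat.add x31126 x27922)) (Nat.add
    (f (Nat.add x31128 x27920)) (Nat.add (f (Nat.add x31136 x27912)) (Nat.add
    (f (Nat.add x31138 x27910)) (Nat.add (f (Nat.add x31142 x27906)) (Nat.add
    (f (Nat.add x31144 x27904)) (Nat.add (f (Nat.add x31146 x27902)) (Nat.add
    (f (Nat.add x31150 x27898)) (Nat.add (f (Nat.add x31152 x27896)) (Nat.add
    (f (Nat.add x31160 x27888)) (Nat.add (f (Nat.add x31162 x27886)) (Nat.add
    (f (Nat.add x31164 x27884)) (Nat.add (f (Nat.add x31168 x27880)) (Nat.add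
    (f (Nat.add x31170 x27878)) (Nat.add (f (Nat.add x31176 x27872)) (Nat.add
    (f (Nat.add x31190 x27858)) (Nat.add (f (Nat.add x31192 x27856)) (Nat.add
    (f (Nat.add x31196 x27852)) (Nat.add (f (Nat.add x31198 x27850)) (Nat.add
    (f (Nat.add x31200 x27848)) (Nat.add (f (Nat.add x31204 x27844)) (Nat.add
    (f (Nat.add x31206 x27842)) (Nat.add (f (Nat.add x31214 x27834)) (Nat.add
    (f (Nat.add x31216 x27832)) (Nat.add (f (Nat.add x31218 x27830)) (Nat.add
    (f (Nat.add x31222 x27826)) (Nat.add (f (Nat.add x31224 x27824))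
    0)))))))))))))))))))))))))))))))))))))))))))))))))))))))))))) (Nat.add (Nat.add
    (f (Nat.add x31230 x27818)) (Nat.add (f (Nat.add x31240 x27808)) (Nat.add
    (f (Nat.add x31242 x27806)) (Nat.add (f (Nat.add x31248 x27800)) (Nat.add
    (f (Nat.add x31268 x27780)) (Nat.add (f (Nat.add x31270 x27778)) (Nat.add
    (f (Nat.add x31272 x27776)) (Nat.add (f (Nat.add x31276 x27772)) (Nat.add
    (f (Nat.add x31278 x27770)) (Nat.add (f (Nat.add x31284 x27764)) (Nat.add
    (f (Nat.add x31294 x27754)) (Nat.add (f (Nat.add x31296 x27752)) (Nat.add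
    (f (Nat.add x31302 x27746)) (Nat.add (f (Nat.add x31320 x27728)) (Nat.add
    (f (Nat.add x31364 x27684)) (Nat.add (f (Nat.add x31370 x27678)) (Nat.add
    (f (Nat.add x31372 x27676)) (Nat.add (f (Nat.add x31382 x27666)) (Nat.add
    (f (Nat.add x31388 x27660)) (Nat.add (f (Nat.add x31390 x27658)) (Nat.add
    (f (Nat.add x31394 x27654)) (Nat.add (f (Nat.add x31396 x27652)) (Nat.add
    (f (Nat.add x31398 x27650)) (Nat.add (f (Nat.add x31406 x27642)) (Nat.add
    (f (Nat.add x31408 x27640)) (Nat.add (f (Nat.add x31412 x27636)) (Nat.add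
    (f (Nat.add x31414 x27634)) (Nat.add (f (Nat.add x31416 x27632)) (Nat.add
    (f (Nat.add x31420 x27628)) (Nat.add (f (Nat.add x31422 x27626)) (Nat.add
    (f (Nat.add x31436 x27612)) (Nat.add (f (Nat.add x31442 x27606)) (Nat.add
    (f (Nat.add x31444 x27604)) (Nat.add (f (Nat.add x31448 x27600)) (Nat.add
    (f (Nat.add x31450 x27598)) (Nat.add (f (Nat.add x31452 x27596)) (Nat.add
    (f (Nat.add x31460 x27588)) (Nat.add (f (Nat.add x31462 x27586)) (Nat.add
    (f (Nat.add x31466 x27582)) (Nat.add (f (Nat.add x31468 x27580)) (Nat.add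
    (f (Nat.add x31470 x27578)) (Nat.add (f (Nat.add x31474 x27574)) (Nat.add
    (f (Nat.add x31476 x27572)) (Nat.add (f (Nat.add x31484 x27564)) (Nat.add
    (f (Nat.add x31486 x27562)) (Nat.add (f (Nat.add x31488 x27560)) (Nat.add
    (f (Nat.add x31492 x27556)) (Nat.add (f (Nat.add x31494 x27554)) (Nat.add
    (f (Nat.add x31500 x27548)) (Nat.add (f (Nat.add x31514 x27534)) (Nat.add
    (f (Nat.add x31516 x27532)) (Nat.add (f (Nat.add x31520 x27528)) (Nat.add
    (f (Nat.add x31522 x27526)) (Nat.add (f (Nat.add x31524 x27524)) (Nat.add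
    (f (Nat.add x31528 x27520)) (Nat.add (f (Nat.add x31530 x27518)) (Nat.add
    (f (Nat.add x31538 x27510)) (Nat.add (f (Nat.add x31540 x27508)) (Nat.add
    (f (Nat.add x31542 x27506)) (Nat.add (f (Nat.add x31546 x27502))
    0)))))))))))))))))))))))))))))))))))))))))))))))))))))))))))) (Nat.add (Nat.add
    (f (Nat.add x31548 x27500)) (Nat.add (f (Nat.add x31554 x27494)) (Nat.add
    (f (Nat.add x31564 x27484)) (Nat.add (f (Nat.add x31566 x27482)) (Nat.add
    (f (Nat.add x31572 x27476)) (Nat.add (f (Nat.add x31598 x27450)) (Nat.add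
    (f (Nat.add x31604 x27444)) (Nat.add (f (Nat.add x31606 x27442)) (Nat.add
    (f (Nat.add x31610 x27438)) (Nat.add (f (Nat.add x31612 x27436)) (Nat.add
    (f (Nat.add x31614 x27434)) (Nat.add (f (Nat.add x31622 x27426)) (Nat.add
    (f (Nat.add x31624 x27424)) (Nat.add (f (Nat.add x31628 x27420)) (Nat.add
    (f (Nat.add x31630 x27418)) (Nat.add (f (Nat.add x31632 x27416)) (Nat.add
    (f (Nat.add x31636 x27412)) (Nat.add (f (Nat.add x31638 x27410)) (Nat.add
    (f (Nat.add x31646 x27402)) (Nat.add (f (Nat.add x31648 x27400)) (Nat.add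
    (f (Nat.add x31650 x27398)) (Nat.add (f (Nat.add x31654 x27394)) (Nat.add
    (f (Nat.add x31656 x27392)) (Nat.add (f (Nat.add x31662 x27386)) (Nat.add
    (f (Nat.add x31676 x27372)) (Nat.add (f (Nat.add x31678 x27370)) (Nat.add
    (f (Nat.add x31682 x27366)) (Nat.add (f (Nat.add x31684 x27364)) (Nat.add
    (f (Nat.add x31686 x27362)) (Nat.add (f (Nat.add x31690 x27358)) (Nat.add
    (f (Nat.add x31692 x27356)) (Nat.add (f (Nat.add x31700 x27348)) (Nat.add
    (f (Nat.add x31702 x27346)) (Nat.add (f (Nat.add x31704 x27344)) (Nat.add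
    (f (Nat.add x31708 x27340)) (Nat.add (f (Nat.add x31710 x27338)) (Nat.add
    (f (Nat.add x31716 x27332)) (Nat.add (f (Nat.add x31726 x27322)) (Nat.add
    (f (Nat.add x31728 x27320)) (Nat.add (f (Nat.add x31734 x27314)) (Nat.add
    (f (Nat.add x31754 x27294)) (Nat.add (f (Nat.add x31756 x27292)) (Nat.add
    (f (Nat.add x31758 x27290)) (Nat.add (f (Nat.add x31762 x27286)) (Nat.add
    (f (Nat.add x31764 x27284)) (Nat.add (f (Nat.add x31770 x27278)) (Nat.add
    (f (Nat.add x31780 x27268)) (Nat.add (f (Nat.add x31782 x27266)) (Nat.add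
    (f (Nat.add x31788 x27260)) (Nat.add (f (Nat.add x31806 x27242)) (Nat.add
    (f (Nat.add x31838 x27210)) (Nat.add (f (Nat.add x31840 x27208)) (Nat.add
    (f (Nat.add x31844 x27204)) (Nat.add (f (Nat.add x31846 x27202)) (Nat.add
    (f (Nat.add x31848 x27200)) (Nat.add (f (Nat.add x31852 x27196)) (Nat.add
    (f (Nat.add x31854 x27194)) (Nat.add (f (Nat.add x31862 x27186)) (Nat.add
    (f (Nat.add x31864 x27184)) (Nat.add (f (Nat.add x31866 x27182))
    0)))))))))))))))))))))))))))))))))))))))))))))))))))))))))))) (Nat.add (Nat.add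
    (f (Nat.add x31870 x27178)) (Nat.add (f (Nat.add x31872 x27176)) (Nat.add
    (f (Nat.add x31878 x27170)) (Nat.add (f (Nat.add x31888 x27160)) (Nat.add
    (f (Nat.add x31890 x27158)) (Nat.add (f (Nat.add x31896 x27152)) (Nat.add
    (f (Nat.add x31916 x27132)) (Nat.add (f (Nat.add x31918 x27130)) (Nat.add
    (f (Nat.add x31920 x27128)) (Nat.add (f (Nat.add x31924 x27124)) (Nat.add
    (f (Nat.add x31926 x27122)) (Nat.add (f (Nat.add x31932 x27116)) (Nat.add
    (f (Nat.add x31942 x27106)) (Nat.add (f (Nat.add x31944 x27104)) (Nat.add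
    (f (Nat.add x31950 x27098)) (Nat.add (f (Nat.add x31968 x27080)) (Nat.add
    (f (Nat.add x31996 x27052)) (Nat.add (f (Nat.add x31998 x27050)) (Nat.add
    (f (Nat.add x32004 x27044)) (Nat.add (f (Nat.add x32022 x27026)) (Nat.add
    (f (Nat.add x32084 x26964)) (Nat.add (f (Nat.add x32090 x26958)) (Nat.add
    (f (Nat.add x32092 x26956)) (Nat.add (f (Nat.add x32096 x26952)) (Nat.add
    (f (Nat.add x32098 x26950)) (Nat.add (f (Nat.add x32100 x26948)) (Nat.add
    (f (Nat.add x32108 x26940)) (Nat.add (f (Nat.add x32110 x26938)) (Nat.add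
    (f (Nat.add x32114 x26934)) (Nat.add (f (Nat.add x32116 x26932)) (Nat.add
    (f (Nat.add x32118 x26930)) (Nat.add (f (Nat.add x32122 x26926)) (Nat.add
    (f (Nat.add x32124 x26924)) (Nat.add (f (Nat.add x32132 x26916)) (Nat.add
    (f (Nat.add x32134 x26914)) (Nat.add (f (Nat.add x32136 x26912)) (Nat.add
    (f (Nat.add x32140 x26908)) (Nat.add (f (Nat.add x32142 x26906)) (Nat.add
    (f (Nat.add x32148 x26900)) (Nat.add (f (Nat.add x32162 x26886)) (Nat.add
    (f (Nat.add x32164 x26884)) (Nat.add (f (Nat.add x32168 x26880)) (Nat.add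
    (f (Nat.add x32170 x26878)) (Nat.add (f (Nat.add x32172 x26876)) (Nat.add
    (f (Nat.add x32176 x26872)) (Nat.add (f (Nat.add x32178 x26870)) (Nat.add
    (f (Nat.add x32186 x26862)) (Nat.add (f (Nat.add x32188 x26860)) (Nat.add
    (f (Nat.add x32190 x26858)) (Nat.add (f (Nat.add x32194 x26854)) (Nat.add
    (f (Nat.add x32196 x26852)) (Nat.add (f (Nat.add x32202 x26846)) (Nat.add
    (f (Nat.add x32212 x26836)) (Nat.add (f (Nat.add x32214 x26834)) (Nat.add
    (f (Nat.add x32220 x26828)) (Nat.add (f (Nat.add x32240 x26808)) (Nat.add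
    (f (Nat.add x32242 x26806)) (Nat.add (f (Nat.add x32244 x26804)) (Nat.add
    (f (Nat.add x32248 x26800)) (Nat.add (f (Nat.add x32250 x26798))
    0)))))))))))))))))))))))))))))))))))))))))))))))))))))))))))) (Nat.add (Nat.add
    (f (Nat.add x32256 x26792)) (Nat.add (f (Nat.add x32266 x26782)) (Nat.add
    (f (Nat.add x32268 x26780)) (Nat.add (f (Nat.add x32274 x26774)) (Nat.add
    (f (Nat.add x32292 x26756)) (Nat.add (f (Nat.add x32324 x26724)) (Nat.add
    (f (Nat.add x32326 x26722)) (Nat.add (f (Nat.add x32330 x26718)) (Nat.add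
    (f (Nat.add x32332 x26716)) (Nat.add (f (Nat.add x32334 x26714)) (Nat.add
    (f (Nat.add x32338 x26710)) (Nat.add (f (Nat.add x32340 x26708)) (Nat.add
    (f (Nat.add x32348 x26700)) (Nat.add (f (Nat.add x32350 x26698)) (Nat.add
    (f (Nat.add x32352 x26696)) (Nat.add (f (Nat.add x32356 x26692)) (Nat.add
    (f (Nat.add x32358 x26690)) (Nat.add (f (Nat.add x32364 x26684)) (Nat.add
    (f (Nat.add x32374 x26674)) (Nat.add (f (Nat.add x32376 x26672)) (Nat.add
    (f (Nat.add x32382 x26666)) (Nat.add (f (Nat.add x32402 x26646)) (Nat.add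
    (f (Nat.add x32404 x26644)) (Nat.add (f (Nat.add x32406 x26642)) (Nat.add
    (f (Nat.add x32410 x26638)) (Nat.add (f (Nat.add x32412 x26636)) (Nat.add
    (f (Nat.add x32418 x26630)) (Nat.add (f (Nat.add x32428 x26620)) (Nat.add
    (f (Nat.add x32430 x26618)) (Nat.add (f (Nat.add x32436 x26612)) (Nat.add
    (f (Nat.add x32454 x26594)) (Nat.add (f (Nat.add x32482 x26566)) (Nat.add
    (f (Nat.add x32484 x26564)) (Nat.add (f (Nat.add x32490 x26558)) (Nat.add
    (f (Nat.add x32508 x26540)) (Nat.add (f (Nat.add x32564 x26484)) (Nat.add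
    (f (Nat.add x32566 x26482)) (Nat.add (f (Nat.add x32568 x26480)) (Nat.add
    (f (Nat.add x32572 x26476)) (Nat.add (f (Nat.add x32574 x26474)) (Nat.add
    (f (Nat.add x32580 x26468)) (Nat.add (f (Nat.add x32590 x26458)) (Nat.add
    (f (Nat.add x32592 x26456)) (Nat.add (f (Nat.add x32598 x26450)) (Nat.add
    (f (Nat.add x32616 x26432)) (Nat.add (f (Nat.add x32644 x26404)) (Nat.add
    (f (Nat.add x32646 x26402)) (Nat.add (f (Nat.add x32652 x26396)) (Nat.add
    (f (Nat.add x32670 x26378)) (Nat.add (f (Nat.add x32724 x26324)) (Nat.add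
    (f (Nat.add x32858 x26190)) (Nat.add (f (Nat.add x32876 x26172)) (Nat.add
    (f (Nat.add x32882 x26166)) (Nat.add (f (Nat.add x32884 x26164)) (Nat.add
    (f (Nat.add x32912 x26136)) (Nat.add (f (Nat.add x32930 x26118)) (Nat.add
    (f (Nat.add x32936 x26112)) (Nat.add (f (Nat.add x32938 x26110)) (Nat.add
    (f (Nat.add x32948 x26100)) (Nat.add (f (Nat.add x32954 x26094))
    0)))))))))))))))))))))))))))))))))))))))))))))))))))))))))))) (Nat.add (Nat.add
    (f (Nat.add x32956 x26092)) (Nat.add (f (Nat.add x32960 x26088)) (Nat.add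
    (f (Nat.add x32962 x26086)) (Nat.add (f (Nat.add x32964 x26084)) (Nat.add
    (f (Nat.add x32984 x26064)) (Nat.add (f (Nat.add x32990 x26058)) (Nat.add
    (f (Nat.add x32992 x26056)) (Nat.add (f (Nat.add x33002 x26046)) (Nat.add
    (f (Nat.add x33008 x26040)) (Nat.add (f (Nat.add x33010 x26038)) (Nat.add
    (f (Nat.add x33014 x26034)) (Nat.add (f (Nat.add x33016 x26032)) (Nat.add
    (f (Nat.add x33018 x26030)) (Nat.add (f (Nat.add x33026 x26022)) (Nat.add
    (f (Nat.add x33028 x26020)) (Nat.add (f (Nat.add x33032 x26016)) (Nat.add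
    (f (Nat.add x33034 x26014)) (Nat.add (f (Nat.add x33036 x26012)) (Nat.add
    (f (Nat.add x33040 x26008)) (Nat.add (f (Nat.add x33042 x26006)) (Nat.add
    (f (Nat.add x33074 x25974)) (Nat.add (f (Nat.add x33092 x25956)) (Nat.add
    (f (Nat.add x33098 x25950)) (Nat.add (f (Nat.add x33100 x25948)) (Nat.add
    (f (Nat.add x33110 x25938)) (Nat.add (f (Nat.add x33116 x25932)) (Nat.add
    (f (Nat.add x33118 x25930)) (Nat.add (f (Nat.add x33122 x25926)) (Nat.add
    (f (Nat.add x33124 x25924)) (Nat.add (f (Nat.add x33126 x25922)) (Nat.add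
    (f (Nat.add x33146 x25902)) (Nat.add (f (Nat.add x33152 x25896)) (Nat.add
    (f (Nat.add x33154 x25894)) (Nat.add (f (Nat.add x33164 x25884)) (Nat.add
    (f (Nat.add x33170 x25878)) (Nat.add (f (Nat.add x33172 x25876)) (Nat.add
    (f (Nat.add x33176 x25872)) (Nat.add (f (Nat.add x33178 x25870)) (Nat.add
    (f (Nat.add x33180 x25868)) (Nat.add (f (Nat.add x33188 x25860)) (Nat.add
    (f (Nat.add x33190 x25858)) (Nat.add (f (Nat.add x33194 x25854)) (Nat.add
    (f (Nat.add x33196 x25852)) (Nat.add (f (Nat.add x33198 x25850)) (Nat.add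
    (f (Nat.add x33202 x25846)) (Nat.add (f (Nat.add x33204 x25844)) (Nat.add
    (f (Nat.add x33218 x25830)) (Nat.add (f (Nat.add x33224 x25824)) (Nat.add
    (f (Nat.add x33226 x25822)) (Nat.add (f (Nat.add x33230 x25818)) (Nat.add
    (f (Nat.add x33232 x25816)) (Nat.add (f (Nat.add x33234 x25814)) (Nat.add
    (f (Nat.add x33242 x25806)) (Nat.add (f (Nat.add x33244 x25804)) (Nat.add
    (f (Nat.add x33248 x25800)) (Nat.add (f (Nat.add x33250 x25798)) (Nat.add
    (f (Nat.add x33252 x25796)) (Nat.add (f (Nat.add x33256 x25792)) (Nat.add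
    (f (Nat.add x33258 x25790)) (Nat.add (f (Nat.add x33266 x25782))
    0)))))))))))))))))))))))))))))))))))))))))))))))))))))))))))) (Nat.add (Nat.add
    (f (Nat.add x33268 x25780)) (Nat.add (f (Nat.add x33270 x25778)) (Nat.add
    (f (Nat.add x33274 x25774)) (Nat.add (f (Nat.add x33276 x25772)) (Nat.add
    (f (Nat.add x33282 x25766)) (Nat.add (f (Nat.add x33308 x25740)) (Nat.add
    (f (Nat.add x33314 x25734)) (Nat.add (f (Nat.add x33316 x25732)) (Nat.add
    (f (Nat.add x33326 x25722)) (Nat.add (f (Nat.add x33332 x25716)) (Nat.add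
    (f (Nat.add x33334 x25714)) (Nat.add (f (Nat.add x33338 x25710)) (Nat.add
    (f (Nat.add x33340 x25708)) (Nat.add (f (Nat.add x33342 x25706)) (Nat.add
    (f (Nat.add x33350 x25698)) (Nat.add (f (Nat.add x33352 x25696)) (Nat.add
    (f (Nat.add x33356 x25692)) (Nat.add (f (Nat.add x33358 x25690)) (Nat.add
    (f (Nat.add x33360 x25688)) (Nat.add (f (Nat.add x33364 x25684)) (Nat.add
    (f (Nat.add x33366 x25682)) (Nat.add (f (Nat.add x33380 x25668)) (Nat.add
    (f (Nat.add x33386 x25662)) (Nat.add (f (Nat.add x33388 x25660)) (Nat.add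
    (f (Nat.add x33392 x25656)) (Nat.add (f (Nat.add x33394 x25654)) (Nat.add
    (f (Nat.add x33396 x25652)) (Nat.add (f (Nat.add x33404 x25644)) (Nat.add
    (f (Nat.add x33406 x25642)) (Nat.add (f (Nat.add x33410 x25638)) (Nat.add
    (f (Nat.add x33412 x25636)) (Nat.add (f (Nat.add x33414 x25634)) (Nat.add
    (f (Nat.add x33418 x25630)) (Nat.add (f (Nat.add x33420 x25628)) (Nat.add
    (f (Nat.add x33428 x25620)) (Nat.add (f (Nat.add x33430 x25618)) (Nat.add
    (f (Nat.add x33432 x25616)) (Nat.add (f (Nat.add x33436 x25612)) (Nat.add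
    (f (Nat.add x33438 x25610)) (Nat.add (f (Nat.add x33444 x25604)) (Nat.add
    (f (Nat.add x33458 x25590)) (Nat.add (f (Nat.add x33460 x25588)) (Nat.add
    (f (Nat.add x33464 x25584)) (Nat.add (f (Nat.add x33466 x25582)) (Nat.add
    (f (Nat.add x33468 x25580)) (Nat.add (f (Nat.add x33472 x25576)) (Nat.add
    (f (Nat.add x33474 x25574)) (Nat.add (f (Nat.add x33482 x25566)) (Nat.add
    (f (Nat.add x33484 x25564)) (Nat.add (f (Nat.add x33486 x25562)) (Nat.add
    (f (Nat.add x33490 x25558)) (Nat.add (f (Nat.add x33492 x25556)) (Nat.add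
    (f (Nat.add x33498 x25550)) (Nat.add (f (Nat.add x33508 x25540)) (Nat.add
    (f (Nat.add x33510 x25538)) (Nat.add (f (Nat.add x33516 x25532)) (Nat.add
    (f (Nat.add x33560 x25488)) (Nat.add (f (Nat.add x33578 x25470)) (Nat.add
    (f (Nat.add x33584 x25464)) (Nat.add (f (Nat.add x33586 x25462))
    0)))))))))))))))))))))))))))))))))))))))))))))))))))))))))))) (Nat.add (Nat.add
    (f (Nat.add x33596 x25452)) (Nat.add (f (Nat.add x33602 x25446)) (Nat.add
    (f (Nat.add x33604 x25444)) (Nat.add (f (Nat.add x33608 x25440)) (Nat.add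
    (f (Nat.add x33610 x25438)) (Nat.add (f (Nat.add x33612 x25436)) (Nat.add
    (f (Nat.add x33632 x25416)) (Nat.add (f (Nat.add x33638 x25410)) (Nat.add
    (f (Nat.add x33640 x25408)) (Nat.add (f (Nat.add x33650 x25398)) (Nat.add
    (f (Nat.add x33656 x25392)) (Nat.add (f (Nat.add x33658 x25390)) (Nat.add
    (f (Nat.add x33662 x25386)) (Nat.add (f (Nat.add x33664 x25384)) (Nat.add
    (f (Nat.add x33666 x25382)) (Nat.add (f (Nat.add x33674 x25374)) (Nat.add
    (f (Nat.add x33676 x25372)) (Nat.add (f (Nat.add x33680 x25368)) (Nat.add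
    (f (Nat.add x33682 x25366)) (Nat.add (f (Nat.add x33684 x25364)) (Nat.add
    (f (Nat.add x33688 x25360)) (Nat.add (f (Nat.add x33690 x25358)) (Nat.add
    (f (Nat.add x33704 x25344)) (Nat.add (f (Nat.add x33710 x25338)) (Nat.add
    (f (Nat.add x33712 x25336)) (Nat.add (f (Nat.add x33716 x25332)) (Nat.add
    (f (Nat.add x33718 x25330)) (Nat.add (f (Nat.add x33720 x25328)) (Nat.add
    (f (Nat.add x33728 x25320)) (Nat.add (f (Nat.add x33730 x25318)) (Nat.add
    (f (Nat.add x33734 x25314)) (Nat.add (f (Nat.add x33736 x25312)) (Nat.add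
    (f (Nat.add x33738 x25310)) (Nat.add (f (Nat.add x33742 x25306)) (Nat.add
    (f (Nat.add x33744 x25304)) (Nat.add (f (Nat.add x33752 x25296)) (Nat.add
    (f (Nat.add x33754 x25294)) (Nat.add (f (Nat.add x33756 x25292)) (Nat.add
    (f (Nat.add x33760 x25288)) (Nat.add (f (Nat.add x33762 x25286)) (Nat.add
    (f (Nat.add x33768 x25280)) (Nat.add (f (Nat.add x33794 x25254)) (Nat.add
    (f (Nat.add x33800 x25248)) (Nat.add (f (Nat.add x33802 x25246)) (Nat.add
    (f (Nat.add x33812 x25236)) (Nat.add (f (Nat.add x33818 x25230)) (Nat.add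
    (f (Nat.add x33820 x25228)) (Nat.add (f (Nat.add x33824 x25224)) (Nat.add
    (f (Nat.add x33826 x25222)) (Nat.add (f (Nat.add x33828 x25220)) (Nat.add
    (f (Nat.add x33836 x25212)) (Nat.add (f (Nat.add x33838 x25210)) (Nat.add
    (f (Nat.add x33842 x25206)) (Nat.add (f (Nat.add x33844 x25204)) (Nat.add
    (f (Nat.add x33846 x25202)) (Nat.add (f (Nat.add x33850 x25198)) (Nat.add
    (f (Nat.add x33852 x25196)) (Nat.add (f (Nat.add x33866 x25182)) (Nat.add
    (f (Nat.add x33872 x25176)) (Nat.add (f (Nat.add x33874 x25174))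
    0)))))))))))))))))))))))))))))))))))))))))))))))))))))))))))) (Nat.add (Nat.add
    (f (Nat.add x33878 x25170)) (Nat.add (f (Nat.add x33880 x25168)) (Nat.add
    (f (Nat.add x33882 x25166)) (Nat.add (f (Nat.add x33890 x25158)) (Nat.add
    (f (Nat.add x33892 x25156)) (Nat.add (f (Nat.add x33896 x25152)) (Nat.add
    (f (Nat.add x33898 x25150)) (Nat.add (f (Nat.add x33900 x25148)) (Nat.add
    (f (Nat.add x33904 x25144)) (Nat.add (f (Nat.add x33906 x25142)) (Nat.add
    (f (Nat.add x33914 x25134)) (Nat.add (f (Nat.add x33916 x25132)) (Nat.add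
    (f (Nat.add x33918 x25130)) (Nat.add (f (Nat.add x33922 x25126)) (Nat.add
    (f (Nat.add x33924 x25124)) (Nat.add (f (Nat.add x33930 x25118)) (Nat.add
    (f (Nat.add x33944 x25104)) (Nat.add (f (Nat.add x33946 x25102)) (Nat.add
    (f (Nat.add x33950 x25098)) (Nat.add (f (Nat.add x33952 x25096)) (Nat.add
    (f (Nat.add x33954 x25094)) (Nat.add (f (Nat.add x33958 x25090)) (Nat.add
    (f (Nat.add x33960 x25088)) (Nat.add (f (Nat.add x33968 x25080)) (Nat.add
    (f (Nat.add x33970 x25078)) (Nat.add (f (Nat.add x33972 x25076)) (Nat.add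
    (f (Nat.add x33976 x25072)) (Nat.add (f (Nat.add x33978 x25070)) (Nat.add
    (f (Nat.add x33984 x25064)) (Nat.add (f (Nat.add x33994 x25054)) (Nat.add
    (f (Nat.add x33996 x25052)) (Nat.add (f (Nat.add x34002 x25046)) (Nat.add
    (f (Nat.add x34028 x25020)) (Nat.add (f (Nat.add x34034 x25014)) (Nat.add
    (f (Nat.add x34036 x25012)) (Nat.add (f (Nat.add x34040 x25008)) (Nat.add
    (f (Nat.add x34042 x25006)) (Nat.add (f (Nat.add x34044 x25004)) (Nat.add
    (f (Nat.add x34052 x24996)) (Nat.add (f (Nat.add x34054 x24994)) (Nat.add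
    (f (Nat.add x34058 x24990)) (Nat.add (f (Nat.add x34060 x24988)) (Nat.add
    (f (Nat.add x34062 x24986)) (Nat.add (f (Nat.add x34066 x24982)) (Nat.add
    (f (Nat.add x34068 x24980)) (Nat.add (f (Nat.add x34076 x24972)) (Nat.add
    (f (Nat.add x34078 x24970)) (Nat.add (f (Nat.add x34080 x24968)) (Nat.add
    (f (Nat.add x34084 x24964)) (Nat.add (f (Nat.add x34086 x24962)) (Nat.add
    (f (Nat.add x34092 x24956)) (Nat.add (f (Nat.add x34106 x24942)) (Nat.add
    (f (Nat.add x34108 x24940)) (Nat.add (f (Nat.add x34112 x24936)) (Nat.add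
    (f (Nat.add x34114 x24934)) (Nat.add (f (Nat.add x34116 x24932)) (Nat.add
    (f (Nat.add x34120 x24928)) (Nat.add (f (Nat.add x34122 x24926)) (Nat.add
    (f (Nat.add x34130 x24918)) (Nat.add (f (Nat.add x34132 x24916))
    0)))))))))))))))))))))))))))))))))))))))))))))))))))))))))))) (Nat.add (Nat.add
    (f (Nat.add x34134 x24914)) (Nat.add (f (Nat.add x34138 x24910)) (Nat.add
    (f (Nat.add x34140 x24908)) (Nat.add (f (Nat.add x34146 x24902)) (Nat.add
    (f (Nat.add x34156 x24892)) (Nat.add (f (Nat.add x34158 x24890)) (Nat.add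
    (f (Nat.add x34164 x24884)) (Nat.add (f (Nat.add x34184 x24864)) (Nat.add
    (f (Nat.add x34186 x24862)) (Nat.add (f (Nat.add x34188 x24860)) (Nat.add
    (f (Nat.add x34192 x24856)) (Nat.add (f (Nat.add x34194 x24854)) (Nat.add
    (f (Nat.add x34200 x24848)) (Nat.add (f (Nat.add x34210 x24838)) (Nat.add
    (f (Nat.add x34212 x24836)) (Nat.add (f (Nat.add x34218 x24830)) (Nat.add
    (f (Nat.add x34236 x24812)) (Nat.add (f (Nat.add x34280 x24768)) (Nat.add
    (f (Nat.add x34286 x24762)) (Nat.add (f (Nat.add x34288 x24760)) (Nat.add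
    (f (Nat.add x34298 x24750)) (Nat.add (f (Nat.add x34304 x24744)) (Nat.add
    (f (Nat.add x34306 x24742)) (Nat.add (f (Nat.add x34310 x24738)) (Nat.add
    (f (Nat.add x34312 x24736)) (Nat.add (f (Nat.add x34314 x24734)) (Nat.add
    (f (Nat.add x34322 x24726)) (Nat.add (f (Nat.add x34324 x24724)) (Nat.add
    (f (Nat.add x34328 x24720)) (Nat.add (f (Nat.add x34330 x24718)) (Nat.add
    (f (Nat.add x34332 x24716)) (Nat.add (f (Nat.add x34336 x24712)) (Nat.add
    (f (Nat.add x34338 x24710)) (Nat.add (f (Nat.add x34352 x24696)) (Nat.add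
    (f (Nat.add x34358 x24690)) (Nat.add (f (Nat.add x34360 x24688)) (Nat.add
    (f (Nat.add x34364 x24684)) (Nat.add (f (Nat.add x34366 x24682)) (Nat.add
    (f (Nat.add x34368 x24680)) (Nat.add (f (Nat.add x34376 x24672)) (Nat.add
    (f (Nat.add x34378 x24670)) (Nat.add (f (Nat.add x34382 x24666)) (Nat.add
    (f (Nat.add x34384 x24664)) (Nat.add (f (Nat.add x34386 x24662)) (Nat.add
    (f (Nat.add x34390 x24658)) (Nat.add (f (Nat.add x34392 x24656)) (Nat.add
    (f (Nat.add x34400 x24648)) (Nat.add (f (Nat.add x34402 x24646)) (Nat.add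
    (f (Nat.add x34404 x24644)) (Nat.add (f (Nat.add x34408 x24640)) (Nat.add
    (f (Nat.add x34410 x24638)) (Nat.add (f (Nat.add x34416 x24632)) (Nat.add
    (f (Nat.add x34430 x24618)) (Nat.add (f (Nat.add x34432 x24616)) (Nat.add
    (f (Nat.add x34436 x24612)) (Nat.add (f (Nat.add x34438 x24610)) (Nat.add
    (f (Nat.add x34440 x24608)) (Nat.add (f (Nat.add x34444 x24604)) (Nat.add
    (f (Nat.add x34446 x24602)) (Nat.add (f (Nat.add x34454 x24594))
    0)))))))))))))))))))))))))))))))))))))))))))))))))))))))))))) (Nat.add (Nat.add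
    (f (Nat.add x34456 x24592)) (Nat.add (f (Nat.add x34458 x24590)) (Nat.add
    (f (Nat.add x34462 x24586)) (Nat.add (f (Nat.add x34464 x24584)) (Nat.add
    (f (Nat.add x34470 x24578)) (Nat.add (f (Nat.add x34480 x24568)) (Nat.add
    (f (Nat.add x34482 x24566)) (Nat.add (f (Nat.add x34488 x24560)) (Nat.add
    (f (Nat.add x34514 x24534)) (Nat.add (f (Nat.add x34520 x24528)) (Nat.add
    (f (Nat.add x34522 x24526)) (Nat.add (f (Nat.add x34526 x24522)) (Nat.add
    (f (Nat.add x34528 x24520)) (Nat.add (f (Nat.add x34530 x24518)) (Nat.add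
    (f (Nat.add x34538 x24510)) (Nat.add (f (Nat.add x34540 x24508)) (Nat.add
    (f (Nat.add x34544 x24504)) (Nat.add (f (Nat.add x34546 x24502)) (Nat.add
    (f (Nat.add x34548 x24500)) (Nat.add (f (Nat.add x34552 x24496)) (Nat.add
    (f (Nat.add x34554 x24494)) (Nat.add (f (Nat.add x34562 x24486)) (Nat.add
    (f (Nat.add x34564 x24484)) (Nat.add (f (Nat.add x34566 x24482)) (Nat.add
    (f (Nat.add x34570 x24478)) (Nat.add (f (Nat.add x34572 x24476)) (Nat.add
    (f (Nat.add x34578 x24470)) (Nat.add (f (Nat.add x34592 x24456)) (Nat.add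
    (f (Nat.add x34594 x24454)) (Nat.add (f (Nat.add x34598 x24450)) (Nat.add
    (f (Nat.add x34600 x24448)) (Nat.add (f (Nat.add x34602 x24446)) (Nat.add
    (f (Nat.add x34606 x24442)) (Nat.add (f (Nat.add x34608 x24440)) (Nat.add
    (f (Nat.add x34616 x24432)) (Nat.add (f (Nat.add x34618 x24430)) (Nat.add
    (f (Nat.add x34620 x24428)) (Nat.add (f (Nat.add x34624 x24424)) (Nat.add
    (f (Nat.add x34626 x24422)) (Nat.add (f (Nat.add x34632 x24416)) (Nat.add
    (f (Nat.add x34642 x24406)) (Nat.add (f (Nat.add x34644 x24404)) (Nat.add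
    (f (Nat.add x34650 x24398)) (Nat.add (f (Nat.add x34670 x24378)) (Nat.add
    (f (Nat.add x34672 x24376)) (Nat.add (f (Nat.add x34674 x24374)) (Nat.add
    (f (Nat.add x34678 x24370)) (Nat.add (f (Nat.add x34680 x24368)) (Nat.add
    (f (Nat.add x34686 x24362)) (Nat.add (f (Nat.add x34696 x24352)) (Nat.add
    (f (Nat.add x34698 x24350)) (Nat.add (f (Nat.add x34704 x24344)) (Nat.add
    (f (Nat.add x34722 x24326)) (Nat.add (f (Nat.add x34754 x24294)) (Nat.add
    (f (Nat.add x34756 x24292)) (Nat.add (f (Nat.add x34760 x24288)) (Nat.add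
    (f (Nat.add x34762 x24286)) (Nat.add (f (Nat.add x34764 x24284)) (Nat.add
    (f (Nat.add x34768 x24280)) (Nat.add (f (Nat.add x34770 x24278))
    0)))))))))))))))))))))))))))))))))))))))))))))))))))))))))))) (Nat.add (Nat.add
    (f (Nat.add x34778 x24270)) (Nat.add (f (Nat.add x34780 x24268)) (Nat.add
    (f (Nat.add x34782 x24266)) (Nat.add (f (Nat.add x34786 x24262)) (Nat.add
    (f (Nat.add x34788 x24260)) (Nat.add (f (Nat.add x34794 x24254)) (Nat.add
    (f (Nat.add x34804 x24244)) (Nat.add (f (Nat.add x34806 x24242)) (Nat.add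
    (f (Nat.add x34812 x24236)) (Nat.add (f (Nat.add x34832 x24216)) (Nat.add
    (f (Nat.add x34834 x24214)) (Nat.add (f (Nat.add x34836 x24212)) (Nat.add
    (f (Nat.add x34840 x24208)) (Nat.add (f (Nat.add x34842 x24206)) (Nat.add
    (f (Nat.add x34848 x24200)) (Nat.add (f (Nat.add x34858 x24190)) (Nat.add
    (f (Nat.add x34860 x24188)) (Nat.add (f (Nat.add x34866 x24182)) (Nat.add
    (f (Nat.add x34884 x24164)) (Nat.add (f (Nat.add x34912 x24136)) (Nat.add
    (f (Nat.add x34914 x24134)) (Nat.add (f (Nat.add x34920 x24128)) (Nat.add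
    (f (Nat.add x34938 x24110)) (Nat.add (f (Nat.add x35018 x24030)) (Nat.add
    (f (Nat.add x35036 x24012)) (Nat.add (f (Nat.add x35042 x24006)) (Nat.add
    (f (Nat.add x35044 x24004)) (Nat.add (f (Nat.add x35054 x23994)) (Nat.add
    (f (Nat.add x35060 x23988)) (Nat.add (f (Nat.add x35062 x23986)) (Nat.add
    (f (Nat.add x35066 x23982)) (Nat.add (f (Nat.add x35068 x23980)) (Nat.add
    (f (Nat.add x35070 x23978)) (Nat.add (f (Nat.add x35090 x23958)) (Nat.add
    (f (Nat.add x35096 x23952)) (Nat.add (f (Nat.add x35098 x23950)) (Nat.add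
    (f (Nat.add x35108 x23940)) (Nat.add (f (Nat.add x35114 x23934)) (Nat.add
    (f (Nat.add x35116 x23932)) (Nat.add (f (Nat.add x35120 x23928)) (Nat.add
    (f (Nat.add x35122 x23926)) (Nat.add (f (Nat.add x35124 x23924)) (Nat.add
    (f (Nat.add x35132 x23916)) (Nat.add (f (Nat.add x35134 x23914)) (Nat.add
    (f (Nat.add x35138 x23910)) (Nat.add (f (Nat.add x35140 x23908)) (Nat.add
    (f (Nat.add x35142 x23906)) (Nat.add (f (Nat.add x35146 x23902)) (Nat.add
    (f (Nat.add x35148 x23900)) (Nat.add (f (Nat.add x35162 x23886)) (Nat.add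
    (f (Nat.add x35168 x23880)) (Nat.add (f (Nat.add x35170 x23878)) (Nat.add
    (f (Nat.add x35174 x23874)) (Nat.add (f (Nat.add x35176 x23872)) (Nat.add
    (f (Nat.add x35178 x23870)) (Nat.add (f (Nat.add x35186 x23862)) (Nat.add
    (f (Nat.add x35188 x23860)) (Nat.add (f (Nat.add x35192 x23856)) (Nat.add
    (f (Nat.add x35194 x23854)) (Nat.add (f (Nat.add x35196 x23852))
    0)))))))))))))))))))))))))))))))))))))))))))))))))))))))))))) (Nat.add (Nat.add
    (f (Nat.add x35200 x23848)) (Nat.add (f (Nat.add x35202 x23846)) (Nat.add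
    (f (Nat.add x35210 x23838)) (Nat.add (f (Nat.add x35212 x23836)) (Nat.add
    (f (Nat.add x35214 x23834)) (Nat.add (f (Nat.add x35218 x23830)) (Nat.add
    (f (Nat.add x35220 x23828)) (Nat.add (f (Nat.add x35226 x23822)) (Nat.add
    (f (Nat.add x35252 x23796)) (Nat.add (f (Nat.add x35258 x23790)) (Nat.add
    (f (Nat.add x35260 x23788)) (Nat.add (f (Nat.add x35270 x23778)) (Nat.add
    (f (Nat.add x35276 x23772)) (Nat.add (f (Nat.add x35278 x23770)) (Nat.add
    (f (Nat.add x35282 x23766)) (Nat.add (f (Nat.add x35284 x23764)) (Nat.add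
    (f (Nat.add x35286 x23762)) (Nat.add (f (Nat.add x35294 x23754)) (Nat.add
    (f (Nat.add x35296 x23752)) (Nat.add (f (Nat.add x35300 x23748)) (Nat.add
    (f (Nat.add x35302 x23746)) (Nat.add (f (Nat.add x35304 x23744)) (Nat.add
    (f (Nat.add x35308 x23740)) (Nat.add (f (Nat.add x35310 x23738)) (Nat.add
    (f (Nat.add x35324 x23724)) (Nat.add (f (Nat.add x35330 x23718)) (Nat.add
    (f (Nat.add x35332 x23716)) (Nat.add (f (Nat.add x35336 x23712)) (Nat.add
    (f (Nat.add x35338 x23710)) (Nat.add (f (Nat.add x35340 x23708)) (Nat.add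
    (f (Nat.add x35348 x23700)) (Nat.add (f (Nat.add x35350 x23698)) (Nat.add
    (f (Nat.add x35354 x23694)) (Nat.add (f (Nat.add x35356 x23692)) (Nat.add
    (f (Nat.add x35358 x23690)) (Nat.add (f (Nat.add x35362 x23686)) (Nat.add
    (f (Nat.add x35364 x23684)) (Nat.add (f (Nat.add x35372 x23676)) (Nat.add
    (f (Nat.add x35374 x23674)) (Nat.add (f (Nat.add x35376 x23672)) (Nat.add
    (f (Nat.add x35380 x23668)) (Nat.add (f (Nat.add x35382 x23666)) (Nat.add
    (f (Nat.add x35388 x23660)) (Nat.add (f (Nat.add x35402 x23646)) (Nat.add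
    (f (Nat.add x35404 x23644)) (Nat.add (f (Nat.add x35408 x23640)) (Nat.add
    (f (Nat.add x35410 x23638)) (Nat.add (f (Nat.add x35412 x23636)) (Nat.add
    (f (Nat.add x35416 x23632)) (Nat.add (f (Nat.add x35418 x23630)) (Nat.add
    (f (Nat.add x35426 x23622)) (Nat.add (f (Nat.add x35428 x23620)) (Nat.add
    (f (Nat.add x35430 x23618)) (Nat.add (f (Nat.add x35434 x23614)) (Nat.add
    (f (Nat.add x35436 x23612)) (Nat.add (f (Nat.add x35442 x23606)) (Nat.add
    (f (Nat.add x35452 x23596)) (Nat.add (f (Nat.add x35454 x23594)) (Nat.add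
    (f (Nat.add x35460 x23588)) (Nat.add (f (Nat.add x35486 x23562))
    0)))))))))))))))))))))))))))))))))))))))))))))))))))))))))))) (Nat.add (Nat.add
    (f (Nat.add x35492 x23556)) (Nat.add (f (Nat.add x35494 x23554)) (Nat.add
    (f (Nat.add x35498 x23550)) (Nat.add (f (Nat.add x35500 x23548)) (Nat.add
    (f (Nat.add x35502 x23546)) (Nat.add (f (Nat.add x35510 x23538)) (Nat.add
    (f (Nat.add x35512 x23536)) (Nat.add (f (Nat.add x35516 x23532)) (Nat.add
    (f (Nat.add x35518 x23530)) (Nat.add (f (Nat.add x35520 x23528)) (Nat.add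
    (f (Nat.add x35524 x23524)) (Nat.add (f (Nat.add x35526 x23522)) (Nat.add
    (f (Nat.add x35534 x23514)) (Nat.add (f (Nat.add x35536 x23512)) (Nat.add
    (f (Nat.add x35538 x23510)) (Nat.add (f (Nat.add x35542 x23506)) (Nat.add
    (f (Nat.add x35544 x23504)) (Nat.add (f (Nat.add x35550 x23498)) (Nat.add
    (f (Nat.add x35564 x23484)) (Nat.add (f (Nat.add x35566 x23482)) (Nat.add
    (f (Nat.add x35570 x23478)) (Nat.add (f (Nat.add x35572 x23476)) (Nat.add
    (f (Nat.add x35574 x23474)) (Nat.add (f (Nat.add x35578 x23470)) (Nat.add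
    (f (Nat.add x35580 x23468)) (Nat.add (f (Nat.add x35588 x23460)) (Nat.add
    (f (Nat.add x35590 x23458)) (Nat.add (f (Nat.add x35592 x23456)) (Nat.add
    (f (Nat.add x35596 x23452)) (Nat.add (f (Nat.add x35598 x23450)) (Nat.add
    (f (Nat.add x35604 x23444)) (Nat.add (f (Nat.add x35614 x23434)) (Nat.add
    (f (Nat.add x35616 x23432)) (Nat.add (f (Nat.add x35622 x23426)) (Nat.add
    (f (Nat.add x35642 x23406)) (Nat.add (f (Nat.add x35644 x23404)) (Nat.add
    (f (Nat.add x35646 x23402)) (Nat.add (f (Nat.add x35650 x23398)) (Nat.add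
    (f (Nat.add x35652 x23396)) (Nat.add (f (Nat.add x35658 x23390)) (Nat.add
    (f (Nat.add x35668 x23380)) (Nat.add (f (Nat.add x35670 x23378)) (Nat.add
    (f (Nat.add x35676 x23372)) (Nat.add (f (Nat.add x35694 x23354)) (Nat.add
    (f (Nat.add x35738 x23310)) (Nat.add (f (Nat.add x35744 x23304)) (Nat.add
    (f (Nat.add x35746 x23302)) (Nat.add (f (Nat.add x35756 x23292)) (Nat.add
    (f (Nat.add x35762 x23286)) (Nat.add (f (Nat.add x35764 x23284)) (Nat.add
    (f (Nat.add x35768 x23280)) (Nat.add (f (Nat.add x35770 x23278)) (Nat.add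
    (f (Nat.add x35772 x23276)) (Nat.add (f (Nat.add x35780 x23268)) (Nat.add
    (f (Nat.add x35782 x23266)) (Nat.add (f (Nat.add x35786 x23262)) (Nat.add
    (f (Nat.add x35788 x23260)) (Nat.add (f (Nat.add x35790 x23258)) (Nat.add
    (f (Nat.add x35794 x23254)) (Nat.add (f (Nat.add x35796 x23252))
    0)))))))))))))))))))))))))))))))))))))))))))))))))))))))))))) (Nat.add (Nat.add
    (f (Nat.add x35810 x23238)) (Nat.add (f (Nat.add x35816 x23232)) (Nat.add
    (f (Nat.add x35818 x23230)) (Nat.add (f (Nat.add x35822 x23226)) (Nat.add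
    (f (Nat.add x35824 x23224)) (Nat.add (f (Nat.add x35826 x23222)) (Nat.add
    (f (Nat.add x35834 x23214)) (Nat.add (f (Nat.add x35836 x23212)) (Nat.add
    (f (Nat.add x35840 x23208)) (Nat.add (f (Nat.add x35842 x23206)) (Nat.add
    (f (Nat.add x35844 x23204)) (Nat.add (f (Nat.add x35848 x23200)) (Nat.add
    (f (Nat.add x35850 x23198)) (Nat.add (f (Nat.add x35858 x23190)) (Nat.add
    (f (Nat.add x35860 x23188)) (Nat.add (f (Nat.add x35862 x23186)) (Nat.add
    (f (Nat.add x35866 x23182)) (Nat.add (f (Nat.add x35868 x23180)) (Nat.add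
    (f (Nat.add x35874 x23174)) (Nat.add (f (Nat.add x35888 x23160)) (Nat.add
    (f (Nat.add x35890 x23158)) (Nat.add (f (Nat.add x35894 x23154)) (Nat.add
    (f (Nat.add x35896 x23152)) (Nat.add (f (Nat.add x35898 x23150)) (Nat.add
    (f (Nat.add x35902 x23146)) (Nat.add (f (Nat.add x35904 x23144)) (Nat.add
    (f (Nat.add x35912 x23136)) (Nat.add (f (Nat.add x35914 x23134)) (Nat.add
    (f (Nat.add x35916 x23132)) (Nat.add (f (Nat.add x35920 x23128)) (Nat.add
    (f (Nat.add x35922 x23126)) (Nat.add (f (Nat.add x35928 x23120)) (Nat.add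
    (f (Nat.add x35938 x23110)) (Nat.add (f (Nat.add x35940 x23108)) (Nat.add
    (f (Nat.add x35946 x23102)) (Nat.add (f (Nat.add x35972 x23076)) (Nat.add
    (f (Nat.add x35978 x23070)) (Nat.add (f (Nat.add x35980 x23068)) (Nat.add
    (f (Nat.add x35984 x23064)) (Nat.add (f (Nat.add x35986 x23062)) (Nat.add
    (f (Nat.add x35988 x23060)) (Nat.add (f (Nat.add x35996 x23052)) (Nat.add
    (f (Nat.add x35998 x23050)) (Nat.add (f (Nat.add x36002 x23046)) (Nat.add
    (f (Nat.add x36004 x23044)) (Nat.add (f (Nat.add x36006 x23042)) (Nat.add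
    (f (Nat.add x36010 x23038)) (Nat.add (f (Nat.add x36012 x23036)) (Nat.add
    (f (Nat.add x36020 x23028)) (Nat.add (f (Nat.add x36022 x23026)) (Nat.add
    (f (Nat.add x36024 x23024)) (Nat.add (f (Nat.add x36028 x23020)) (Nat.add
    (f (Nat.add x36030 x23018)) (Nat.add (f (Nat.add x36036 x23012)) (Nat.add
    (f (Nat.add x36050 x22998)) (Nat.add (f (Nat.add x36052 x22996)) (Nat.add
    (f (Nat.add x36056 x22992)) (Nat.add (f (Nat.add x36058 x22990)) (Nat.add
    (f (Nat.add x36060 x22988)) (Nat.add (f (Nat.add x36064 x22984))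
    0)))))))))))))))))))))))))))))))))))))))))))))))))))))))))))) (Nat.add (Nat.add
    (f (Nat.add x36066 x22982)) (Nat.add (f (Nat.add x36074 x22974)) (Nat.add
    (f (Nat.add x36076 x22972)) (Nat.add (f (Nat.add x36078 x22970)) (Nat.add
    (f (Nat.add x36082 x22966)) (Nat.add (f (Nat.add x36084 x22964)) (Nat.add
    (f (Nat.add x36090 x22958)) (Nat.add (f (Nat.add x36100 x22948)) (Nat.add
    (f (Nat.add x36102 x22946)) (Nat.add (f (Nat.add x36108 x22940)) (Nat.add
    (f (Nat.add x36128 x22920)) (Nat.add (f (Nat.add x36130 x22918)) (Nat.add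
    (f (Nat.add x36132 x22916)) (Nat.add (f (Nat.add x36136 x22912)) (Nat.add
    (f (Nat.add x36138 x22910)) (Nat.add (f (Nat.add x36144 x22904)) (Nat.add
    (f (Nat.add x36154 x22894)) (Nat.add (f (Nat.add x36156 x22892)) (Nat.add
    (f (Nat.add x36162 x22886)) (Nat.add (f (Nat.add x36180 x22868)) (Nat.add
    (f (Nat.add x36212 x22836)) (Nat.add (f (Nat.add x36214 x22834)) (Nat.add
    (f (Nat.add x36218 x22830)) (Nat.add (f (Nat.add x36220 x22828)) (Nat.add
    (f (Nat.add x36222 x22826)) (Nat.add (f (Nat.add x36226 x22822)) (Nat.add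
    (f (Nat.add x36228 x22820)) (Nat.add (f (Nat.add x36236 x22812)) (Nat.add
    (f (Nat.add x36238 x22810)) (Nat.add (f (Nat.add x36240 x22808)) (Nat.add
    (f (Nat.add x36244 x22804)) (Nat.add (f (Nat.add x36246 x22802)) (Nat.add
    (f (Nat.add x36252 x22796)) (Nat.add (f (Nat.add x36262 x22786)) (Nat.add
    (f (Nat.add x36264 x22784)) (Nat.add (f (Nat.add x36270 x22778)) (Nat.add
    (f (Nat.add x36290 x22758)) (Nat.add (f (Nat.add x36292 x22756)) (Nat.add
    (f (Nat.add x36294 x22754)) (Nat.add (f (Nat.add x36298 x22750)) (Nat.add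
    (f (Nat.add x36300 x22748)) (Nat.add (f (Nat.add x36306 x22742)) (Nat.add
    (f (Nat.add x36316 x22732)) (Nat.add (f (Nat.add x36318 x22730)) (Nat.add
    (f (Nat.add x36324 x22724)) (Nat.add (f (Nat.add x36342 x22706)) (Nat.add
    (f (Nat.add x36370 x22678)) (Nat.add (f (Nat.add x36372 x22676)) (Nat.add
    (f (Nat.add x36378 x22670)) (Nat.add (f (Nat.add x36396 x22652)) (Nat.add
    (f (Nat.add x36458 x22590)) (Nat.add (f (Nat.add x36464 x22584)) (Nat.add
    (f (Nat.add x36466 x22582)) (Nat.add (f (Nat.add x36470 x22578)) (Nat.add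
    (f (Nat.add x36472 x22576)) (Nat.add (f (Nat.add x36474 x22574)) (Nat.add
    (f (Nat.add x36482 x22566)) (Nat.add (f (Nat.add x36484 x22564)) (Nat.add
    (f (Nat.add x36488 x22560)) (Nat.add (f (Nat.add x36490 x22558))
    0)))))))))))))))))))))))))))))))))))))))))))))))))))))))))))) (Nat.add (Nat.add
    (f (Nat.add x36492 x22556)) (Nat.add (f (Nat.add x36496 x22552)) (Nat.add
    (f (Nat.add x36498 x22550)) (Nat.add (f (Nat.add x36506 x22542)) (Nat.add
    (f (Nat.add x36508 x22540)) (Nat.add (f (Nat.add x36510 x22538)) (Nat.add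
    (f (Nat.add x36514 x22534)) (Nat.add (f (Nat.add x36516 x22532)) (Nat.add
    (f (Nat.add x36522 x22526)) (Nat.add (f (Nat.add x36536 x22512)) (Nat.add
    (f (Nat.add x36538 x22510)) (Nat.add (f (Nat.add x36542 x22506)) (Nat.add
    (f (Nat.add x36544 x22504)) (Nat.add (f (Nat.add x36546 x22502)) (Nat.add
    (f (Nat.add x36550 x22498)) (Nat.add (f (Nat.add x36552 x22496)) (Nat.add
    (f (Nat.add x36560 x22488)) (Nat.add (f (Nat.add x36562 x22486)) (Nat.add
    (f (Nat.add x36564 x22484)) (Nat.add (f (Nat.add x36568 x22480)) (Nat.add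
    (f (Nat.add x36570 x22478)) (Nat.add (f (Nat.add x36576 x22472)) (Nat.add
    (f (Nat.add x36586 x22462)) (Nat.add (f (Nat.add x36588 x22460)) (Nat.add
    (f (Nat.add x36594 x22454)) (Nat.add (f (Nat.add x36614 x22434)) (Nat.add
    (f (Nat.add x36616 x22432)) (Nat.add (f (Nat.add x36618 x22430)) (Nat.add
    (f (Nat.add x36622 x22426)) (Nat.add (f (Nat.add x36624 x22424)) (Nat.add
    (f (Nat.add x36630 x22418)) (Nat.add (f (Nat.add x36640 x22408)) (Nat.add
    (f (Nat.add x36642 x22406)) (Nat.add (f (Nat.add x36648 x22400)) (Nat.add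
    (f (Nat.add x36666 x22382)) (Nat.add (f (Nat.add x36698 x22350)) (Nat.add
    (f (Nat.add x36700 x22348)) (Nat.add (f (Nat.add x36704 x22344)) (Nat.add
    (f (Nat.add x36706 x22342)) (Nat.add (f (Nat.add x36708 x22340)) (Nat.add
    (f (Nat.add x36712 x22336)) (Nat.add (f (Nat.add x36714 x22334)) (Nat.add
    (f (Nat.add x36722 x22326)) (Nat.add (f (Nat.add x36724 x22324)) (Nat.add
    (f (Nat.add x36726 x22322)) (Nat.add (f (Nat.add x36730 x22318)) (Nat.add
    (f (Nat.add x36732 x22316)) (Nat.add (f (Nat.add x36738 x22310)) (Nat.add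
    (f (Nat.add x36748 x22300)) (Nat.add (f (Nat.add x36750 x22298)) (Nat.add
    (f (Nat.add x36756 x22292)) (Nat.add (f (Nat.add x36776 x22272)) (Nat.add
    (f (Nat.add x36778 x22270)) (Nat.add (f (Nat.add x36780 x22268)) (Nat.add
    (f (Nat.add x36784 x22264)) (Nat.add (f (Nat.add x36786 x22262)) (Nat.add
    (f (Nat.add x36792 x22256)) (Nat.add (f (Nat.add x36802 x22246)) (Nat.add
    (f (Nat.add x36804 x22244)) (Nat.add (f (Nat.add x36810 x22238))
    0)))))))))))))))))))))))))))))))))))))))))))))))))))))))))))) (Nat.add (Nat.add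
    (f (Nat.add x36828 x22220)) (Nat.add (f (Nat.add x36856 x22192)) (Nat.add
    (f (Nat.add x36858 x22190)) (Nat.add (f (Nat.add x36864 x22184)) (Nat.add
    (f (Nat.add x36882 x22166)) (Nat.add (f (Nat.add x36938 x22110)) (Nat.add
    (f (Nat.add x36940 x22108)) (Nat.add (f (Nat.add x36942 x22106)) (Nat.add
    (f (Nat.add x36946 x22102)) (Nat.add (f (Nat.add x36948 x22100)) (Nat.add
    (f (Nat.add x36954 x22094)) (Nat.add (f (Nat.add x36964 x22084)) (Nat.add
    (f (Nat.add x36966 x22082)) (Nat.add (f (Nat.add x36972 x22076)) (Nat.add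
    (f (Nat.add x36990 x22058)) (Nat.add (f (Nat.add x37018 x22030)) (Nat.add
    (f (Nat.add x37020 x22028)) (Nat.add (f (Nat.add x37026 x22022)) (Nat.add
    (f (Nat.add x37044 x22004)) (Nat.add (f (Nat.add x37098 x21950)) (Nat.add
    (f (Nat.add x37196 x21852)) (Nat.add (f (Nat.add x37202 x21846)) (Nat.add
    (f (Nat.add x37204 x21844)) (Nat.add (f (Nat.add x37214 x21834)) (Nat.add
    (f (Nat.add x37220 x21828)) (Nat.add (f (Nat.add x37222 x21826)) (Nat.add
    (f (Nat.add x37226 x21822)) (Nat.add (f (Nat.add x37228 x21820)) (Nat.add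
    (f (Nat.add x37230 x21818)) (Nat.add (f (Nat.add x37238 x21810)) (Nat.add
    (f (Nat.add x37240 x21808)) (Nat.add (f (Nat.add x37244 x21804)) (Nat.add
    (f (Nat.add x37246 x21802)) (Nat.add (f (Nat.add x37248 x21800)) (Nat.add
    (f (Nat.add x37252 x21796)) (Nat.add (f (Nat.add x37254 x21794)) (Nat.add
    (f (Nat.add x37268 x21780)) (Nat.add (f (Nat.add x37274 x21774)) (Nat.add
    (f (Nat.add x37276 x21772)) (Nat.add (f (Nat.add x37280 x21768)) (Nat.add
    (f (Nat.add x37282 x21766)) (Nat.add (f (Nat.add x37284 x21764)) (Nat.add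
    (f (Nat.add x37292 x21756)) (Nat.add (f (Nat.add x37294 x21754)) (Nat.add
    (f (Nat.add x37298 x21750)) (Nat.add (f (Nat.add x37300 x21748)) (Nat.add
    (f (Nat.add x37302 x21746)) (Nat.add (f (Nat.add x37306 x21742)) (Nat.add
    (f (Nat.add x37308 x21740)) (Nat.add (f (Nat.add x37316 x21732)) (Nat.add
    (f (Nat.add x37318 x21730)) (Nat.add (f (Nat.add x37320 x21728)) (Nat.add
    (f (Nat.add x37324 x21724)) (Nat.add (f (Nat.add x37326 x21722)) (Nat.add
    (f (Nat.add x37332 x21716)) (Nat.add (f (Nat.add x37346 x21702)) (Nat.add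
    (f (Nat.add x37348 x21700)) (Nat.add (f (Nat.add x37352 x21696)) (Nat.add
    (f (Nat.add x37354 x21694)) (Nat.add (f (Nat.add x37356 x21692))
    0)))))))))))))))))))))))))))))))))))))))))))))))))))))))))))) (Nat.add (Nat.add
    (f (Nat.add x37360 x21688)) (Nat.add (f (Nat.add x37362 x21686)) (Nat.add
    (f (Nat.add x37370 x21678)) (Nat.add (f (Nat.add x37372 x21676)) (Nat.add
    (f (Nat.add x37374 x21674)) (Nat.add (f (Nat.add x37378 x21670)) (Nat.add
    (f (Nat.add x37380 x21668)) (Nat.add (f (Nat.add x37386 x21662)) (Nat.add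
    (f (Nat.add x37396 x21652)) (Nat.add (f (Nat.add x37398 x21650)) (Nat.add
    (f (Nat.add x37404 x21644)) (Nat.add (f (Nat.add x37430 x21618)) (Nat.add
    (f (Nat.add x37436 x21612)) (Nat.add (f (Nat.add x37438 x21610)) (Nat.add
    (f (Nat.add x37442 x21606)) (Nat.add (f (Nat.add x37444 x21604)) (Nat.add
    (f (Nat.add x37446 x21602)) (Nat.add (f (Nat.add x37454 x21594)) (Nat.add
    (f (Nat.add x37456 x21592)) (Nat.add (f (Nat.add x37460 x21588)) (Nat.add
    (f (Nat.add x37462 x21586)) (Nat.add (f (Nat.add x37464 x21584)) (Nat.add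
    (f (Nat.add x37468 x21580)) (Nat.add (f (Nat.add x37470 x21578)) (Nat.add
    (f (Nat.add x37478 x21570)) (Nat.add (f (Nat.add x37480 x21568)) (Nat.add
    (f (Nat.add x37482 x21566)) (Nat.add (f (Nat.add x37486 x21562)) (Nat.add
    (f (Nat.add x37488 x21560)) (Nat.add (f (Nat.add x37494 x21554)) (Nat.add
    (f (Nat.add x37508 x21540)) (Nat.add (f (Nat.add x37510 x21538)) (Nat.add
    (f (Nat.add x37514 x21534)) (Nat.add (f (Nat.add x37516 x21532)) (Nat.add
    (f (Nat.add x37518 x21530)) (Nat.add (f (Nat.add x37522 x21526)) (Nat.add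
    (f (Nat.add x37524 x21524)) (Nat.add (f (Nat.add x37532 x21516)) (Nat.add
    (f (Nat.add x37534 x21514)) (Nat.add (f (Nat.add x37536 x21512)) (Nat.add
    (f (Nat.add x37540 x21508)) (Nat.add (f (Nat.add x37542 x21506)) (Nat.add
    (f (Nat.add x37548 x21500)) (Nat.add (f (Nat.add x37558 x21490)) (Nat.add
    (f (Nat.add x37560 x21488)) (Nat.add (f (Nat.add x37566 x21482)) (Nat.add
    (f (Nat.add x37586 x21462)) (Nat.add (f (Nat.add x37588 x21460)) (Nat.add
    (f (Nat.add x37590 x21458)) (Nat.add (f (Nat.add x37594 x21454)) (Nat.add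
    (f (Nat.add x37596 x21452)) (Nat.add (f (Nat.add x37602 x21446)) (Nat.add
    (f (Nat.add x37612 x21436)) (Nat.add (f (Nat.add x37614 x21434)) (Nat.add
    (f (Nat.add x37620 x21428)) (Nat.add (f (Nat.add x37638 x21410)) (Nat.add
    (f (Nat.add x37670 x21378)) (Nat.add (f (Nat.add x37672 x21376)) (Nat.add
    (f (Nat.add x37676 x21372)) (Nat.add (f (Nat.add x37678 x21370))
    0)))))))))))))))))))))))))))))))))))))))))))))))))))))))))))) (Nat.add (Nat.add
    (f (Nat.add x37680 x21368)) (Nat.add (f (Nat.add x37684 x21364)) (Nat.add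
    (f (Nat.add x37686 x21362)) (Nat.add (f (Nat.add x37694 x21354)) (Nat.add
    (f (Nat.add x37696 x21352)) (Nat.add (f (Nat.add x37698 x21350)) (Nat.add
    (f (Nat.add x37702 x21346)) (Nat.add (f (Nat.add x37704 x21344)) (Nat.add
    (f (Nat.add x37710 x21338)) (Nat.add (f (Nat.add x37720 x21328)) (Nat.add
    (f (Nat.add x37722 x21326)) (Nat.add (f (Nat.add x37728 x21320)) (Nat.add
    (f (Nat.add x37748 x21300)) (Nat.add (f (Nat.add x37750 x21298)) (Nat.add
    (f (Nat.add x37752 x21296)) (Nat.add (f (Nat.add x37756 x21292)) (Nat.add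
    (f (Nat.add x37758 x21290)) (Nat.add (f (Nat.add x37764 x21284)) (Nat.add
    (f (Nat.add x37774 x21274)) (Nat.add (f (Nat.add x37776 x21272)) (Nat.add
    (f (Nat.add x37782 x21266)) (Nat.add (f (Nat.add x37800 x21248)) (Nat.add
    (f (Nat.add x37828 x21220)) (Nat.add (f (Nat.add x37830 x21218)) (Nat.add
    (f (Nat.add x37836 x21212)) (Nat.add (f (Nat.add x37854 x21194)) (Nat.add
    (f (Nat.add x37916 x21132)) (Nat.add (f (Nat.add x37922 x21126)) (Nat.add
    (f (Nat.add x37924 x21124)) (Nat.add (f (Nat.add x37928 x21120)) (Nat.add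
    (f (Nat.add x37930 x21118)) (Nat.add (f (Nat.add x37932 x21116)) (Nat.add
    (f (Nat.add x37940 x21108)) (Nat.add (f (Nat.add x37942 x21106)) (Nat.add
    (f (Nat.add x37946 x21102)) (Nat.add (f (Nat.add x37948 x21100)) (Nat.add
    (f (Nat.add x37950 x21098)) (Nat.add (f (Nat.add x37954 x21094)) (Nat.add
    (f (Nat.add x37956 x21092)) (Nat.add (f (Nat.add x37964 x21084)) (Nat.add
    (f (Nat.add x37966 x21082)) (Nat.add (f (Nat.add x37968 x21080)) (Nat.add
    (f (Nat.add x37972 x21076)) (Nat.add (f (Nat.add x37974 x21074)) (Nat.add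
    (f (Nat.add x37980 x21068)) (Nat.add (f (Nat.add x37994 x21054)) (Nat.add
    (f (Nat.add x37996 x21052)) (Nat.add (f (Nat.add x38000 x21048)) (Nat.add
    (f (Nat.add x38002 x21046)) (Nat.add (f (Nat.add x38004 x21044)) (Nat.add
    (f (Nat.add x38008 x21040)) (Nat.add (f (Nat.add x38010 x21038)) (Nat.add
    (f (Nat.add x38018 x21030)) (Nat.add (f (Nat.add x38020 x21028)) (Nat.add
    (f (Nat.add x38022 x21026)) (Nat.add (f (Nat.add x38026 x21022)) (Nat.add
    (f (Nat.add x38028 x21020)) (Nat.add (f (Nat.add x38034 x21014)) (Nat.add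
    (f (Nat.add x38044 x21004)) (Nat.add (f (Nat.add x38046 x21002))
    0)))))))))))))))))))))))))))))))))))))))))))))))))))))))))))) (Nat.add (Nat.add
    (f (Nat.add x38052 x20996)) (Nat.add (f (Nat.add x38072 x20976)) (Nat.add
    (f (Nat.add x38074 x20974)) (Nat.add (f (Nat.add x38076 x20972)) (Nat.add
    (f (Nat.add x38080 x20968)) (Nat.add (f (Nat.add x38082 x20966)) (Nat.add
    (f (Nat.add x38088 x20960)) (Nat.add (f (Nat.add x38098 x20950)) (Nat.add
    (f (Nat.add x38100 x20948)) (Nat.add (f (Nat.add x38106 x20942)) (Nat.add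
    (f (Nat.add x38124 x20924)) (Nat.add (f (Nat.add x38156 x20892)) (Nat.add
    (f (Nat.add x38158 x20890)) (Nat.add (f (Nat.add x38162 x20886)) (Nat.add
    (f (Nat.add x38164 x20884)) (Nat.add (f (Nat.add x38166 x20882)) (Nat.add
    (f (Nat.add x38170 x20878)) (Nat.add (f (Nat.add x38172 x20876)) (Nat.add
    (f (Nat.add x38180 x20868)) (Nat.add (f (Nat.add x38182 x20866)) (Nat.add
    (f (Nat.add x38184 x20864)) (Nat.add (f (Nat.add x38188 x20860)) (Nat.add
    (f (Nat.add x38190 x20858)) (Nat.add (f (Nat.add x38196 x20852)) (Nat.add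
    (f (Nat.add x38206 x20842)) (Nat.add (f (Nat.add x38208 x20840)) (Nat.add
    (f (Nat.add x38214 x20834)) (Nat.add (f (Nat.add x38234 x20814)) (Nat.add
    (f (Nat.add x38236 x20812)) (Nat.add (f (Nat.add x38238 x20810)) (Nat.add
    (f (Nat.add x38242 x20806)) (Nat.add (f (Nat.add x38244 x20804)) (Nat.add
    (f (Nat.add x38250 x20798)) (Nat.add (f (Nat.add x38260 x20788)) (Nat.add
    (f (Nat.add x38262 x20786)) (Nat.add (f (Nat.add x38268 x20780)) (Nat.add
    (f (Nat.add x38286 x20762)) (Nat.add (f (Nat.add x38314 x20734)) (Nat.add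
    (f (Nat.add x38316 x20732)) (Nat.add (f (Nat.add x38322 x20726)) (Nat.add
    (f (Nat.add x38340 x20708)) (Nat.add (f (Nat.add x38396 x20652)) (Nat.add
    (f (Nat.add x38398 x20650)) (Nat.add (f (Nat.add x38400 x20648)) (Nat.add
    (f (Nat.add x38404 x20644)) (Nat.add (f (Nat.add x38406 x20642)) (Nat.add
    (f (Nat.add x38412 x20636)) (Nat.add (f (Nat.add x38422 x20626)) (Nat.add
    (f (Nat.add x38424 x20624)) (Nat.add (f (Nat.add x38430 x20618)) (Nat.add
    (f (Nat.add x38448 x20600)) (Nat.add (f (Nat.add x38476 x20572)) (Nat.add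
    (f (Nat.add x38478 x20570)) (Nat.add (f (Nat.add x38484 x20564)) (Nat.add
    (f (Nat.add x38502 x20546)) (Nat.add (f (Nat.add x38556 x20492)) (Nat.add
    (f (Nat.add x38642 x20406)) (Nat.add (f (Nat.add x38644 x20404)) (Nat.add
    (f (Nat.add x38648 x20400)) (Nat.add (f (Nat.add x38650 x20398))
    0)))))))))))))))))))))))))))))))))))))))))))))))))))))))))))) (Nat.add (Nat.add
    (f (Nat.add x38652 x20396)) (Nat.add (f (Nat.add x38656 x20392)) (Nat.add
    (f (Nat.add x38658 x20390)) (Nat.add (f (Nat.add x38666 x20382)) (Nat.add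
    (f (Nat.add x38668 x20380)) (Nat.add (f (Nat.add x38670 x20378)) (Nat.add
    (f (Nat.add x38674 x20374)) (Nat.add (f (Nat.add x38676 x20372)) (Nat.add
    (f (Nat.add x38682 x20366)) (Nat.add (f (Nat.add x38692 x20356)) (Nat.add
    (f (Nat.add x38694 x20354)) (Nat.add (f (Nat.add x38700 x20348)) (Nat.add
    (f (Nat.add x38720 x20328)) (Nat.add (f (Nat.add x38722 x20326)) (Nat.add
    (f (Nat.add x38724 x20324)) (Nat.add (f (Nat.add x38728 x20320)) (Nat.add
    (f (Nat.add x38730 x20318)) (Nat.add (f (Nat.add x38736 x20312)) (Nat.add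
    (f (Nat.add x38746 x20302)) (Nat.add (f (Nat.add x38748 x20300)) (Nat.add
    (f (Nat.add x38754 x20294)) (Nat.add (f (Nat.add x38772 x20276)) (Nat.add
    (f (Nat.add x38800 x20248)) (Nat.add (f (Nat.add x38802 x20246)) (Nat.add
    (f (Nat.add x38808 x20240)) (Nat.add (f (Nat.add x38826 x20222)) (Nat.add
    (f (Nat.add x38882 x20166)) (Nat.add (f (Nat.add x38884 x20164)) (Nat.add
    (f (Nat.add x38886 x20162)) (Nat.add (f (Nat.add x38890 x20158)) (Nat.add
    (f (Nat.add x38892 x20156)) (Nat.add (f (Nat.add x38898 x20150)) (Nat.add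
    (f (Nat.add x38908 x20140)) (Nat.add (f (Nat.add x38910 x20138)) (Nat.add
    (f (Nat.add x38916 x20132)) (Nat.add (f (Nat.add x38934 x20114)) (Nat.add
    (f (Nat.add x38962 x20086)) (Nat.add (f (Nat.add x38964 x20084)) (Nat.add
    (f (Nat.add x38970 x20078)) (Nat.add (f (Nat.add x38988 x20060)) (Nat.add
    (f (Nat.add x39042 x20006)) (Nat.add (f (Nat.add x39124 x19924)) (Nat.add
    (f (Nat.add x39126 x19922)) (Nat.add (f (Nat.add x39132 x19916)) (Nat.add
    (f (Nat.add x39150 x19898)) (Nat.add (f (Nat.add x39204 x19844)) (Nat.add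
    (f (Nat.add x39446 x19602)) (Nat.add (f (Nat.add x39500 x19548)) (Nat.add
    (f (Nat.add x39518 x19530)) (Nat.add (f (Nat.add x39524 x19524)) (Nat.add
    (f (Nat.add x39526 x19522)) (Nat.add (f (Nat.add x39554 x19494)) (Nat.add
    (f (Nat.add x39572 x19476)) (Nat.add (f (Nat.add x39578 x19470)) (Nat.add
    (f (Nat.add x39580 x19468)) (Nat.add (f (Nat.add x39590 x19458)) (Nat.add
    (f (Nat.add x39596 x19452)) (Nat.add (f (Nat.add x39598 x19450)) (Nat.add
    (f (Nat.add x39602 x19446)) (Nat.add (f (Nat.add x39604 x19444))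
    0)))))))))))))))))))))))))))))))))))))))))))))))))))))))))))) (Nat.add (Nat.add
    (f (Nat.add x39606 x19442)) (Nat.add (f (Nat.add x39662 x19386)) (Nat.add
    (f (Nat.add x39680 x19368)) (Nat.add (f (Nat.add x39686 x19362)) (Nat.add
    (f (Nat.add x39688 x19360)) (Nat.add (f (Nat.add x39716 x19332)) (Nat.add
    (f (Nat.add x39734 x19314)) (Nat.add (f (Nat.add x39740 x19308)) (Nat.add
    (f (Nat.add x39742 x19306)) (Nat.add (f (Nat.add x39752 x19296)) (Nat.add
    (f (Nat.add x39758 x19290)) (Nat.add (f (Nat.add x39760 x19288)) (Nat.add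
    (f (Nat.add x39764 x19284)) (Nat.add (f (Nat.add x39766 x19282)) (Nat.add
    (f (Nat.add x39768 x19280)) (Nat.add (f (Nat.add x39788 x19260)) (Nat.add
    (f (Nat.add x39794 x19254)) (Nat.add (f (Nat.add x39796 x19252)) (Nat.add
    (f (Nat.add x39806 x19242)) (Nat.add (f (Nat.add x39812 x19236)) (Nat.add
    (f (Nat.add x39814 x19234)) (Nat.add (f (Nat.add x39818 x19230)) (Nat.add
    (f (Nat.add x39820 x19228)) (Nat.add (f (Nat.add x39822 x19226)) (Nat.add
    (f (Nat.add x39830 x19218)) (Nat.add (f (Nat.add x39832 x19216)) (Nat.add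
    (f (Nat.add x39836 x19212)) (Nat.add (f (Nat.add x39838 x19210)) (Nat.add
    (f (Nat.add x39840 x19208)) (Nat.add (f (Nat.add x39844 x19204)) (Nat.add
    (f (Nat.add x39846 x19202)) (Nat.add (f (Nat.add x39878 x19170)) (Nat.add
    (f (Nat.add x39896 x19152)) (Nat.add (f (Nat.add x39902 x19146)) (Nat.add
    (f (Nat.add x39904 x19144)) (Nat.add (f (Nat.add x39914 x19134)) (Nat.add
    (f (Nat.add x39920 x19128)) (Nat.add (f (Nat.add x39922 x19126)) (Nat.add
    (f (Nat.add x39926 x19122)) (Nat.add (f (Nat.add x39928 x19120)) (Nat.add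
    (f (Nat.add x39930 x19118)) (Nat.add (f (Nat.add x39950 x19098)) (Nat.add
    (f (Nat.add x39956 x19092)) (Nat.add (f (Nat.add x39958 x19090)) (Nat.add
    (f (Nat.add x39968 x19080)) (Nat.add (f (Nat.add x39974 x19074)) (Nat.add
    (f (Nat.add x39976 x19072)) (Nat.add (f (Nat.add x39980 x19068)) (Nat.add
    (f (Nat.add x39982 x19066)) (Nat.add (f (Nat.add x39984 x19064)) (Nat.add
    (f (Nat.add x39992 x19056)) (Nat.add (f (Nat.add x39994 x19054)) (Nat.add
    (f (Nat.add x39998 x19050)) (Nat.add (f (Nat.add x40000 x19048)) (Nat.add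
    (f (Nat.add x40002 x19046)) (Nat.add (f (Nat.add x40006 x19042)) (Nat.add
    (f (Nat.add x40008 x19040)) (Nat.add (f (Nat.add x40022 x19026)) (Nat.add
    (f (Nat.add x40028 x19020)) (Nat.add (f (Nat.add x40030 x19018))
    0)))))))))))))))))))))))))))))))))))))))))))))))))))))))))))) (Nat.add (Nat.add
    (f (Nat.add x40034 x19014)) (Nat.add (f (Nat.add x40036 x19012)) (Nat.add
    (f (Nat.add x40038 x19010)) (Nat.add (f (Nat.add x40046 x19002)) (Nat.add
    (f (Nat.add x40048 x19000)) (Nat.add (f (Nat.add x40052 x18996)) (Nat.add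
    (f (Nat.add x40054 x18994)) (Nat.add (f (Nat.add x40056 x18992)) (Nat.add
    (f (Nat.add x40060 x18988)) (Nat.add (f (Nat.add x40062 x18986)) (Nat.add
    (f (Nat.add x40070 x18978)) (Nat.add (f (Nat.add x40072 x18976)) (Nat.add
    (f (Nat.add x40074 x18974)) (Nat.add (f (Nat.add x40078 x18970)) (Nat.add
    (f (Nat.add x40080 x18968)) (Nat.add (f (Nat.add x40086 x18962)) (Nat.add
    (f (Nat.add x40148 x18900)) (Nat.add (f (Nat.add x40166 x18882)) (Nat.add
    (f (Nat.add x40172 x18876)) (Nat.add (f (Nat.add x40174 x18874)) (Nat.add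
    (f (Nat.add x40202 x18846)) (Nat.add (f (Nat.add x40220 x18828)) (Nat.add
    (f (Nat.add x40226 x18822)) (Nat.add (f (Nat.add x40228 x18820)) (Nat.add
    (f (Nat.add x40238 x18810)) (Nat.add (f (Nat.add x40244 x18804)) (Nat.add
    (f (Nat.add x40246 x18802)) (Nat.add (f (Nat.add x40250 x18798)) (Nat.add
    (f (Nat.add x40252 x18796)) (Nat.add (f (Nat.add x40254 x18794)) (Nat.add
    (f (Nat.add x40274 x18774)) (Nat.add (f (Nat.add x40280 x18768)) (Nat.add
    (f (Nat.add x40282 x18766)) (Nat.add (f (Nat.add x40292 x18756)) (Nat.add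
    (f (Nat.add x40298 x18750)) (Nat.add (f (Nat.add x40300 x18748)) (Nat.add
    (f (Nat.add x40304 x18744)) (Nat.add (f (Nat.add x40306 x18742)) (Nat.add
    (f (Nat.add x40308 x18740)) (Nat.add (f (Nat.add x40316 x18732)) (Nat.add
    (f (Nat.add x40318 x18730)) (Nat.add (f (Nat.add x40322 x18726)) (Nat.add
    (f (Nat.add x40324 x18724)) (Nat.add (f (Nat.add x40326 x18722)) (Nat.add
    (f (Nat.add x40330 x18718)) (Nat.add (f (Nat.add x40332 x18716)) (Nat.add
    (f (Nat.add x40364 x18684)) (Nat.add (f (Nat.add x40382 x18666)) (Nat.add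
    (f (Nat.add x40388 x18660)) (Nat.add (f (Nat.add x40390 x18658)) (Nat.add
    (f (Nat.add x40400 x18648)) (Nat.add (f (Nat.add x40406 x18642)) (Nat.add
    (f (Nat.add x40408 x18640)) (Nat.add (f (Nat.add x40412 x18636)) (Nat.add
    (f (Nat.add x40414 x18634)) (Nat.add (f (Nat.add x40416 x18632)) (Nat.add
    (f (Nat.add x40436 x18612)) (Nat.add (f (Nat.add x40442 x18606)) (Nat.add
    (f (Nat.add x40444 x18604)) (Nat.add (f (Nat.add x40454 x18594))
    0)))))))))))))))))))))))))))))))))))))))))))))))))))))))))))) (Nat.add (Nat.add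
    (f (Nat.add x40460 x18588)) (Nat.add (f (Nat.add x40462 x18586)) (Nat.add
    (f (Nat.add x40466 x18582)) (Nat.add (f (Nat.add x40468 x18580)) (Nat.add
    (f (Nat.add x40470 x18578)) (Nat.add (f (Nat.add x40478 x18570)) (Nat.add
    (f (Nat.add x40480 x18568)) (Nat.add (f (Nat.add x40484 x18564)) (Nat.add
    (f (Nat.add x40486 x18562)) (Nat.add (f (Nat.add x40488 x18560)) (Nat.add
    (f (Nat.add x40492 x18556)) (Nat.add (f (Nat.add x40494 x18554)) (Nat.add
    (f (Nat.add x40508 x18540)) (Nat.add (f (Nat.add x40514 x18534)) (Nat.add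
    (f (Nat.add x40516 x18532)) (Nat.add (f (Nat.add x40520 x18528)) (Nat.add
    (f (Nat.add x40522 x18526)) (Nat.add (f (Nat.add x40524 x18524)) (Nat.add
    (f (Nat.add x40532 x18516)) (Nat.add (f (Nat.add x40534 x18514)) (Nat.add
    (f (Nat.add x40538 x18510)) (Nat.add (f (Nat.add x40540 x18508)) (Nat.add
    (f (Nat.add x40542 x18506)) (Nat.add (f (Nat.add x40546 x18502)) (Nat.add
    (f (Nat.add x40548 x18500)) (Nat.add (f (Nat.add x40556 x18492)) (Nat.add
    (f (Nat.add x40558 x18490)) (Nat.add (f (Nat.add x40560 x18488)) (Nat.add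
    (f (Nat.add x40564 x18484)) (Nat.add (f (Nat.add x40566 x18482)) (Nat.add
    (f (Nat.add x40572 x18476)) (Nat.add (f (Nat.add x40598 x18450)) (Nat.add
    (f (Nat.add x40604 x18444)) (Nat.add (f (Nat.add x40606 x18442)) (Nat.add
    (f (Nat.add x40616 x18432)) (Nat.add (f (Nat.add x40622 x18426)) (Nat.add
    (f (Nat.add x40624 x18424)) (Nat.add (f (Nat.add x40628 x18420)) (Nat.add
    (f (Nat.add x40630 x18418)) (Nat.add (f (Nat.add x40632 x18416)) (Nat.add
    (f (Nat.add x40640 x18408)) (Nat.add (f (Nat.add x40642 x18406)) (Nat.add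
    (f (Nat.add x40646 x18402)) (Nat.add (f (Nat.add x40648 x18400)) (Nat.add
    (f (Nat.add x40650 x18398)) (Nat.add (f (Nat.add x40654 x18394)) (Nat.add
    (f (Nat.add x40656 x18392)) (Nat.add (f (Nat.add x40670 x18378)) (Nat.add
    (f (Nat.add x40676 x18372)) (Nat.add (f (Nat.add x40678 x18370)) (Nat.add
    (f (Nat.add x40682 x18366)) (Nat.add (f (Nat.add x40684 x18364)) (Nat.add
    (f (Nat.add x40686 x18362)) (Nat.add (f (Nat.add x40694 x18354)) (Nat.add
    (f (Nat.add x40696 x18352)) (Nat.add (f (Nat.add x40700 x18348)) (Nat.add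
    (f (Nat.add x40702 x18346)) (Nat.add (f (Nat.add x40704 x18344)) (Nat.add
    (f (Nat.add x40708 x18340)) (Nat.add (f (Nat.add x40710 x18338))
    0)))))))))))))))))))))))))))))))))))))))))))))))))))))))))))) (Nat.add (Nat.add
    (f (Nat.add x40718 x18330)) (Nat.add (f (Nat.add x40720 x18328)) (Nat.add
    (f (Nat.add x40722 x18326)) (Nat.add (f (Nat.add x40726 x18322)) (Nat.add
    (f (Nat.add x40728 x18320)) (Nat.add (f (Nat.add x40734 x18314)) (Nat.add
    (f (Nat.add x40748 x18300)) (Nat.add (f (Nat.add x40750 x18298)) (Nat.add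
    (f (Nat.add x40754 x18294)) (Nat.add (f (Nat.add x40756 x18292)) (Nat.add
    (f (Nat.add x40758 x18290)) (Nat.add (f (Nat.add x40762 x18286)) (Nat.add
    (f (Nat.add x40764 x18284)) (Nat.add (f (Nat.add x40772 x18276)) (Nat.add
    (f (Nat.add x40774 x18274)) (Nat.add (f (Nat.add x40776 x18272)) (Nat.add
    (f (Nat.add x40780 x18268)) (Nat.add (f (Nat.add x40782 x18266)) (Nat.add
    (f (Nat.add x40788 x18260)) (Nat.add (f (Nat.add x40798 x18250)) (Nat.add
    (f (Nat.add x40800 x18248)) (Nat.add (f (Nat.add x40806 x18242)) (Nat.add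
    (f (Nat.add x40850 x18198)) (Nat.add (f (Nat.add x40868 x18180)) (Nat.add
    (f (Nat.add x40874 x18174)) (Nat.add (f (Nat.add x40876 x18172)) (Nat.add
    (f (Nat.add x40886 x18162)) (Nat.add (f (Nat.add x40892 x18156)) (Nat.add
    (f (Nat.add x40894 x18154)) (Nat.add (f (Nat.add x40898 x18150)) (Nat.add
    (f (Nat.add x40900 x18148)) (Nat.add (f (Nat.add x40902 x18146)) (Nat.add
    (f (Nat.add x40922 x18126)) (Nat.add (f (Nat.add x40928 x18120)) (Nat.add
    (f (Nat.add x40930 x18118)) (Nat.add (f (Nat.add x40940 x18108)) (Nat.add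
    (f (Nat.add x40946 x18102)) (Nat.add (f (Nat.add x40948 x18100)) (Nat.add
    (f (Nat.add x40952 x18096)) (Nat.add (f (Nat.add x40954 x18094)) (Nat.add
    (f (Nat.add x40956 x18092)) (Nat.add (f (Nat.add x40964 x18084)) (Nat.add
    (f (Nat.add x40966 x18082)) (Nat.add (f (Nat.add x40970 x18078)) (Nat.add
    (f (Nat.add x40972 x18076)) (Nat.add (f (Nat.add x40974 x18074)) (Nat.add
    (f (Nat.add x40978 x18070)) (Nat.add (f (Nat.add x40980 x18068)) (Nat.add
    (f (Nat.add x40994 x18054)) (Nat.add (f (Nat.add x41000 x18048)) (Nat.add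
    (f (Nat.add x41002 x18046)) (Nat.add (f (Nat.add x41006 x18042)) (Nat.add
    (f (Nat.add x41008 x18040)) (Nat.add (f (Nat.add x41010 x18038)) (Nat.add
    (f (Nat.add x41018 x18030)) (Nat.add (f (Nat.add x41020 x18028)) (Nat.add
    (f (Nat.add x41024 x18024)) (Nat.add (f (Nat.add x41026 x18022)) (Nat.add
    (f (Nat.add x41028 x18020)) (Nat.add (f (Nat.add x41032 x18016))
    0)))))))))))))))))))))))))))))))))))))))))))))))))))))))))))) (Nat.add (Nat.add
    (f (Nat.add x41034 x18014)) (Nat.add (f (Nat.add x41042 x18006)) (Nat.add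
    (f (Nat.add x41044 x18004)) (Nat.add (f (Nat.add x41046 x18002)) (Nat.add
    (f (Nat.add x41050 x17998)) (Nat.add (f (Nat.add x41052 x17996)) (Nat.add
    (f (Nat.add x41058 x17990)) (Nat.add (f (Nat.add x41084 x17964)) (Nat.add
    (f (Nat.add x41090 x17958)) (Nat.add (f (Nat.add x41092 x17956)) (Nat.add
    (f (Nat.add x41102 x17946)) (Nat.add (f (Nat.add x41108 x17940)) (Nat.add
    (f (Nat.add x41110 x17938)) (Nat.add (f (Nat.add x41114 x17934)) (Nat.add
    (f (Nat.add x41116 x17932)) (Nat.add (f (Nat.add x41118 x17930)) (Nat.add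
    (f (Nat.add x41126 x17922)) (Nat.add (f (Nat.add x41128 x17920)) (Nat.add
    (f (Nat.add x41132 x17916)) (Nat.add (f (Nat.add x41134 x17914)) (Nat.add
    (f (Nat.add x41136 x17912)) (Nat.add (f (Nat.add x41140 x17908)) (Nat.add
    (f (Nat.add x41142 x17906)) (Nat.add (f (Nat.add x41156 x17892)) (Nat.add
    (f (Nat.add x41162 x17886)) (Nat.add (f (Nat.add x41164 x17884)) (Nat.add
    (f (Nat.add x41168 x17880)) (Nat.add (f (Nat.add x41170 x17878)) (Nat.add
    (f (Nat.add x41172 x17876)) (Nat.add (f (Nat.add x41180 x17868)) (Nat.add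
    (f (Nat.add x41182 x17866)) (Nat.add (f (Nat.add x41186 x17862)) (Nat.add
    (f (Nat.add x41188 x17860)) (Nat.add (f (Nat.add x41190 x17858)) (Nat.add
    (f (Nat.add x41194 x17854)) (Nat.add (f (Nat.add x41196 x17852)) (Nat.add
    (f (Nat.add x41204 x17844)) (Nat.add (f (Nat.add x41206 x17842)) (Nat.add
    (f (Nat.add x41208 x17840)) (Nat.add (f (Nat.add x41212 x17836)) (Nat.add
    (f (Nat.add x41214 x17834)) (Nat.add (f (Nat.add x41220 x17828)) (Nat.add
    (f (Nat.add x41234 x17814)) (Nat.add (f (Nat.add x41236 x17812)) (Nat.add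
    (f (Nat.add x41240 x17808)) (Nat.add (f (Nat.add x41242 x17806)) (Nat.add
    (f (Nat.add x41244 x17804)) (Nat.add (f (Nat.add x41248 x17800)) (Nat.add
    (f (Nat.add x41250 x17798)) (Nat.add (f (Nat.add x41258 x17790)) (Nat.add
    (f (Nat.add x41260 x17788)) (Nat.add (f (Nat.add x41262 x17786)) (Nat.add
    (f (Nat.add x41266 x17782)) (Nat.add (f (Nat.add x41268 x17780)) (Nat.add
    (f (Nat.add x41274 x17774)) (Nat.add (f (Nat.add x41284 x17764)) (Nat.add
    (f (Nat.add x41286 x17762)) (Nat.add (f (Nat.add x41292 x17756)) (Nat.add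
    (f (Nat.add x41318 x17730)) (Nat.add (f (Nat.add x41324 x17724))
    0)))))))))))))))))))))))))))))))))))))))))))))))))))))))))))) (Nat.add (Nat.add
    (f (Nat.add x41326 x17722)) (Nat.add (f (Nat.add x41330 x17718)) (Nat.add
    (f (Nat.add x41332 x17716)) (Nat.add (f (Nat.add x41334 x17714)) (Nat.add
    (f (Nat.add x41342 x17706)) (Nat.add (f (Nat.add x41344 x17704)) (Nat.add
    (f (Nat.add x41348 x17700)) (Nat.add (f (Nat.add x41350 x17698)) (Nat.add
    (f (Nat.add x41352 x17696)) (Nat.add (f (Nat.add x41356 x17692)) (Nat.add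
    (f (Nat.add x41358 x17690)) (Nat.add (f (Nat.add x41366 x17682)) (Nat.add
    (f (Nat.add x41368 x17680)) (Nat.add (f (Nat.add x41370 x17678)) (Nat.add
    (f (Nat.add x41374 x17674)) (Nat.add (f (Nat.add x41376 x17672)) (Nat.add
    (f (Nat.add x41382 x17666)) (Nat.add (f (Nat.add x41396 x17652)) (Nat.add
    (f (Nat.add x41398 x17650)) (Nat.add (f (Nat.add x41402 x17646)) (Nat.add
    (f (Nat.add x41404 x17644)) (Nat.add (f (Nat.add x41406 x17642)) (Nat.add
    (f (Nat.add x41410 x17638)) (Nat.add (f (Nat.add x41412 x17636)) (Nat.add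
    (f (Nat.add x41420 x17628)) (Nat.add (f (Nat.add x41422 x17626)) (Nat.add
    (f (Nat.add x41424 x17624)) (Nat.add (f (Nat.add x41428 x17620)) (Nat.add
    (f (Nat.add x41430 x17618)) (Nat.add (f (Nat.add x41436 x17612)) (Nat.add
    (f (Nat.add x41446 x17602)) (Nat.add (f (Nat.add x41448 x17600)) (Nat.add
    (f (Nat.add x41454 x17594)) (Nat.add (f (Nat.add x41474 x17574)) (Nat.add
    (f (Nat.add x41476 x17572)) (Nat.add (f (Nat.add x41478 x17570)) (Nat.add
    (f (Nat.add x41482 x17566)) (Nat.add (f (Nat.add x41484 x17564)) (Nat.add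
    (f (Nat.add x41490 x17558)) (Nat.add (f (Nat.add x41500 x17548)) (Nat.add
    (f (Nat.add x41502 x17546)) (Nat.add (f (Nat.add x41508 x17540)) (Nat.add
    (f (Nat.add x41526 x17522)) (Nat.add (f (Nat.add x41606 x17442)) (Nat.add
    (f (Nat.add x41624 x17424)) (Nat.add (f (Nat.add x41630 x17418)) (Nat.add
    (f (Nat.add x41632 x17416)) (Nat.add (f (Nat.add x41660 x17388)) (Nat.add
    (f (Nat.add x41678 x17370)) (Nat.add (f (Nat.add x41684 x17364)) (Nat.add
    (f (Nat.add x41686 x17362)) (Nat.add (f (Nat.add x41696 x17352)) (Nat.add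
    (f (Nat.add x41702 x17346)) (Nat.add (f (Nat.add x41704 x17344)) (Nat.add
    (f (Nat.add x41708 x17340)) (Nat.add (f (Nat.add x41710 x17338)) (Nat.add
    (f (Nat.add x41712 x17336)) (Nat.add (f (Nat.add x41732 x17316)) (Nat.add
    (f (Nat.add x41738 x17310)) (Nat.add (f (Nat.add x41740 x17308))
    0)))))))))))))))))))))))))))))))))))))))))))))))))))))))))))) (Nat.add (Nat.add
    (f (Nat.add x41750 x17298)) (Nat.add (f (Nat.add x41756 x17292)) (Nat.add
    (f (Nat.add x41758 x17290)) (Nat.add (f (Nat.add x41762 x17286)) (Nat.add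
    (f (Nat.add x41764 x17284)) (Nat.add (f (Nat.add x41766 x17282)) (Nat.add
    (f (Nat.add x41774 x17274)) (Nat.add (f (Nat.add x41776 x17272)) (Nat.add
    (f (Nat.add x41780 x17268)) (Nat.add (f (Nat.add x41782 x17266)) (Nat.add
    (f (Nat.add x41784 x17264)) (Nat.add (f (Nat.add x41788 x17260)) (Nat.add
    (f (Nat.add x41790 x17258)) (Nat.add (f (Nat.add x41822 x17226)) (Nat.add
    (f (Nat.add x41840 x17208)) (Nat.add (f (Nat.add x41846 x17202)) (Nat.add
    (f (Nat.add x41848 x17200)) (Nat.add (f (Nat.add x41858 x17190)) (Nat.add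
    (f (Nat.add x41864 x17184)) (Nat.add (f (Nat.add x41866 x17182)) (Nat.add
    (f (Nat.add x41870 x17178)) (Nat.add (f (Nat.add x41872 x17176)) (Nat.add
    (f (Nat.add x41874 x17174)) (Nat.add (f (Nat.add x41894 x17154)) (Nat.add
    (f (Nat.add x41900 x17148)) (Nat.add (f (Nat.add x41902 x17146)) (Nat.add
    (f (Nat.add x41912 x17136)) (Nat.add (f (Nat.add x41918 x17130)) (Nat.add
    (f (Nat.add x41920 x17128)) (Nat.add (f (Nat.add x41924 x17124)) (Nat.add
    (f (Nat.add x41926 x17122)) (Nat.add (f (Nat.add x41928 x17120)) (Nat.add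
    (f (Nat.add x41936 x17112)) (Nat.add (f (Nat.add x41938 x17110)) (Nat.add
    (f (Nat.add x41942 x17106)) (Nat.add (f (Nat.add x41944 x17104)) (Nat.add
    (f (Nat.add x41946 x17102)) (Nat.add (f (Nat.add x41950 x17098)) (Nat.add
    (f (Nat.add x41952 x17096)) (Nat.add (f (Nat.add x41966 x17082)) (Nat.add
    (f (Nat.add x41972 x17076)) (Nat.add (f (Nat.add x41974 x17074)) (Nat.add
    (f (Nat.add x41978 x17070)) (Nat.add (f (Nat.add x41980 x17068)) (Nat.add
    (f (Nat.add x41982 x17066)) (Nat.add (f (Nat.add x41990 x17058)) (Nat.add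
    (f (Nat.add x41992 x17056)) (Nat.add (f (Nat.add x41996 x17052)) (Nat.add
    (f (Nat.add x41998 x17050)) (Nat.add (f (Nat.add x42000 x17048)) (Nat.add
    (f (Nat.add x42004 x17044)) (Nat.add (f (Nat.add x42006 x17042)) (Nat.add
    (f (Nat.add x42014 x17034)) (Nat.add (f (Nat.add x42016 x17032)) (Nat.add
    (f (Nat.add x42018 x17030)) (Nat.add (f (Nat.add x42022 x17026)) (Nat.add
    (f (Nat.add x42024 x17024)) (Nat.add (f (Nat.add x42030 x17018)) (Nat.add
    (f (Nat.add x42056 x16992)) (Nat.add (f (Nat.add x42062 x16986))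
    0)))))))))))))))))))))))))))))))))))))))))))))))))))))))))))) (Nat.add (Nat.add
    (f (Nat.add x42064 x16984)) (Nat.add (f (Nat.add x42074 x16974)) (Nat.add
    (f (Nat.add x42080 x16968)) (Nat.add (f (Nat.add x42082 x16966)) (Nat.add
    (f (Nat.add x42086 x16962)) (Nat.add (f (Nat.add x42088 x16960)) (Nat.add
    (f (Nat.add x42090 x16958)) (Nat.add (f (Nat.add x42098 x16950)) (Nat.add
    (f (Nat.add x42100 x16948)) (Nat.add (f (Nat.add x42104 x16944)) (Nat.add
    (f (Nat.add x42106 x16942)) (Nat.add (f (Nat.add x42108 x16940)) (Nat.add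
    (f (Nat.add x42112 x16936)) (Nat.add (f (Nat.add x42114 x16934)) (Nat.add
    (f (Nat.add x42128 x16920)) (Nat.add (f (Nat.add x42134 x16914)) (Nat.add
    (f (Nat.add x42136 x16912)) (Nat.add (f (Nat.add x42140 x16908)) (Nat.add
    (f (Nat.add x42142 x16906)) (Nat.add (f (Nat.add x42144 x16904)) (Nat.add
    (f (Nat.add x42152 x16896)) (Nat.add (f (Nat.add x42154 x16894)) (Nat.add
    (f (Nat.add x42158 x16890)) (Nat.add (f (Nat.add x42160 x16888)) (Nat.add
    (f (Nat.add x42162 x16886)) (Nat.add (f (Nat.add x42166 x16882)) (Nat.add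
    (f (Nat.add x42168 x16880)) (Nat.add (f (Nat.add x42176 x16872)) (Nat.add
    (f (Nat.add x42178 x16870)) (Nat.add (f (Nat.add x42180 x16868)) (Nat.add
    (f (Nat.add x42184 x16864)) (Nat.add (f (Nat.add x42186 x16862)) (Nat.add
    (f (Nat.add x42192 x16856)) (Nat.add (f (Nat.add x42206 x16842)) (Nat.add
    (f (Nat.add x42208 x16840)) (Nat.add (f (Nat.add x42212 x16836)) (Nat.add
    (f (Nat.add x42214 x16834)) (Nat.add (f (Nat.add x42216 x16832)) (Nat.add
    (f (Nat.add x42220 x16828)) (Nat.add (f (Nat.add x42222 x16826)) (Nat.add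
    (f (Nat.add x42230 x16818)) (Nat.add (f (Nat.add x42232 x16816)) (Nat.add
    (f (Nat.add x42234 x16814)) (Nat.add (f (Nat.add x42238 x16810)) (Nat.add
    (f (Nat.add x42240 x16808)) (Nat.add (f (Nat.add x42246 x16802)) (Nat.add
    (f (Nat.add x42256 x16792)) (Nat.add (f (Nat.add x42258 x16790)) (Nat.add
    (f (Nat.add x42264 x16784)) (Nat.add (f (Nat.add x42308 x16740)) (Nat.add
    (f (Nat.add x42326 x16722)) (Nat.add (f (Nat.add x42332 x16716)) (Nat.add
    (f (Nat.add x42334 x16714)) (Nat.add (f (Nat.add x42344 x16704)) (Nat.add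
    (f (Nat.add x42350 x16698)) (Nat.add (f (Nat.add x42352 x16696)) (Nat.add
    (f (Nat.add x42356 x16692)) (Nat.add (f (Nat.add x42358 x16690)) (Nat.add
    (f (Nat.add x42360 x16688)) (Nat.add (f (Nat.add x42380 x16668))
    0)))))))))))))))))))))))))))))))))))))))))))))))))))))))))))) (Nat.add (Nat.add
    (f (Nat.add x42386 x16662)) (Nat.add (f (Nat.add x42388 x16660)) (Nat.add
    (f (Nat.add x42398 x16650)) (Nat.add (f (Nat.add x42404 x16644)) (Nat.add
    (f (Nat.add x42406 x16642)) (Nat.add (f (Nat.add x42410 x16638)) (Nat.add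
    (f (Nat.add x42412 x16636)) (Nat.add (f (Nat.add x42414 x16634)) (Nat.add
    (f (Nat.add x42422 x16626)) (Nat.add (f (Nat.add x42424 x16624)) (Nat.add
    (f (Nat.add x42428 x16620)) (Nat.add (f (Nat.add x42430 x16618)) (Nat.add
    (f (Nat.add x42432 x16616)) (Nat.add (f (Nat.add x42436 x16612)) (Nat.add
    (f (Nat.add x42438 x16610)) (Nat.add (f (Nat.add x42452 x16596)) (Nat.add
    (f (Nat.add x42458 x16590)) (Nat.add (f (Nat.add x42460 x16588)) (Nat.add
    (f (Nat.add x42464 x16584)) (Nat.add (f (Nat.add x42466 x16582)) (Nat.add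
    (f (Nat.add x42468 x16580)) (Nat.add (f (Nat.add x42476 x16572)) (Nat.add
    (f (Nat.add x42478 x16570)) (Nat.add (f (Nat.add x42482 x16566)) (Nat.add
    (f (Nat.add x42484 x16564)) (Nat.add (f (Nat.add x42486 x16562)) (Nat.add
    (f (Nat.add x42490 x16558)) (Nat.add (f (Nat.add x42492 x16556)) (Nat.add
    (f (Nat.add x42500 x16548)) (Nat.add (f (Nat.add x42502 x16546)) (Nat.add
    (f (Nat.add x42504 x16544)) (Nat.add (f (Nat.add x42508 x16540)) (Nat.add
    (f (Nat.add x42510 x16538)) (Nat.add (f (Nat.add x42516 x16532)) (Nat.add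
    (f (Nat.add x42542 x16506)) (Nat.add (f (Nat.add x42548 x16500)) (Nat.add
    (f (Nat.add x42550 x16498)) (Nat.add (f (Nat.add x42560 x16488)) (Nat.add
    (f (Nat.add x42566 x16482)) (Nat.add (f (Nat.add x42568 x16480)) (Nat.add
    (f (Nat.add x42572 x16476)) (Nat.add (f (Nat.add x42574 x16474)) (Nat.add
    (f (Nat.add x42576 x16472)) (Nat.add (f (Nat.add x42584 x16464)) (Nat.add
    (f (Nat.add x42586 x16462)) (Nat.add (f (Nat.add x42590 x16458)) (Nat.add
    (f (Nat.add x42592 x16456)) (Nat.add (f (Nat.add x42594 x16454)) (Nat.add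
    (f (Nat.add x42598 x16450)) (Nat.add (f (Nat.add x42600 x16448)) (Nat.add
    (f (Nat.add x42614 x16434)) (Nat.add (f (Nat.add x42620 x16428)) (Nat.add
    (f (Nat.add x42622 x16426)) (Nat.add (f (Nat.add x42626 x16422)) (Nat.add
    (f (Nat.add x42628 x16420)) (Nat.add (f (Nat.add x42630 x16418)) (Nat.add
    (f (Nat.add x42638 x16410)) (Nat.add (f (Nat.add x42640 x16408)) (Nat.add
    (f (Nat.add x42644 x16404)) (Nat.add (f (Nat.add x42646 x16402))
    0)))))))))))))))))))))))))))))))))))))))))))))))))))))))))))) (Nat.add (Nat.add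
    (f (Nat.add x42648 x16400)) (Nat.add (f (Nat.add x42652 x16396)) (Nat.add
    (f (Nat.add x42654 x16394)) (Nat.add (f (Nat.add x42662 x16386)) (Nat.add
    (f (Nat.add x42664 x16384)) (Nat.add (f (Nat.add x42666 x16382)) (Nat.add
    (f (Nat.add x42670 x16378)) (Nat.add (f (Nat.add x42672 x16376)) (Nat.add
    (f (Nat.add x42678 x16370)) (Nat.add (f (Nat.add x42692 x16356)) (Nat.add
    (f (Nat.add x42694 x16354)) (Nat.add (f (Nat.add x42698 x16350)) (Nat.add
    (f (Nat.add x42700 x16348)) (Nat.add (f (Nat.add x42702 x16346)) (Nat.add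
    (f (Nat.add x42706 x16342)) (Nat.add (f (Nat.add x42708 x16340)) (Nat.add
    (f (Nat.add x42716 x16332)) (Nat.add (f (Nat.add x42718 x16330)) (Nat.add
    (f (Nat.add x42720 x16328)) (Nat.add (f (Nat.add x42724 x16324)) (Nat.add
    (f (Nat.add x42726 x16322)) (Nat.add (f (Nat.add x42732 x16316)) (Nat.add
    (f (Nat.add x42742 x16306)) (Nat.add (f (Nat.add x42744 x16304)) (Nat.add
    (f (Nat.add x42750 x16298)) (Nat.add (f (Nat.add x42776 x16272)) (Nat.add
    (f (Nat.add x42782 x16266)) (Nat.add (f (Nat.add x42784 x16264)) (Nat.add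
    (f (Nat.add x42788 x16260)) (Nat.add (f (Nat.add x42790 x16258)) (Nat.add
    (f (Nat.add x42792 x16256)) (Nat.add (f (Nat.add x42800 x16248)) (Nat.add
    (f (Nat.add x42802 x16246)) (Nat.add (f (Nat.add x42806 x16242)) (Nat.add
    (f (Nat.add x42808 x16240)) (Nat.add (f (Nat.add x42810 x16238)) (Nat.add
    (f (Nat.add x42814 x16234)) (Nat.add (f (Nat.add x42816 x16232)) (Nat.add
    (f (Nat.add x42824 x16224)) (Nat.add (f (Nat.add x42826 x16222)) (Nat.add
    (f (Nat.add x42828 x16220)) (Nat.add (f (Nat.add x42832 x16216)) (Nat.add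
    (f (Nat.add x42834 x16214)) (Nat.add (f (Nat.add x42840 x16208)) (Nat.add
    (f (Nat.add x42854 x16194)) (Nat.add (f (Nat.add x42856 x16192)) (Nat.add
    (f (Nat.add x42860 x16188)) (Nat.add (f (Nat.add x42862 x16186)) (Nat.add
    (f (Nat.add x42864 x16184)) (Nat.add (f (Nat.add x42868 x16180)) (Nat.add
    (f (Nat.add x42870 x16178)) (Nat.add (f (Nat.add x42878 x16170)) (Nat.add
    (f (Nat.add x42880 x16168)) (Nat.add (f (Nat.add x42882 x16166)) (Nat.add
    (f (Nat.add x42886 x16162)) (Nat.add (f (Nat.add x42888 x16160)) (Nat.add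
    (f (Nat.add x42894 x16154)) (Nat.add (f (Nat.add x42904 x16144)) (Nat.add
    (f (Nat.add x42906 x16142)) (Nat.add (f (Nat.add x42912 x16136))
    0)))))))))))))))))))))))))))))))))))))))))))))))))))))))))))) (Nat.add (Nat.add
    (f (Nat.add x42932 x16116)) (Nat.add (f (Nat.add x42934 x16114)) (Nat.add
    (f (Nat.add x42936 x16112)) (Nat.add (f (Nat.add x42940 x16108)) (Nat.add
    (f (Nat.add x42942 x16106)) (Nat.add (f (Nat.add x42948 x16100)) (Nat.add
    (f (Nat.add x42958 x16090)) (Nat.add (f (Nat.add x42960 x16088)) (Nat.add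
    (f (Nat.add x42966 x16082)) (Nat.add (f (Nat.add x42984 x16064)) (Nat.add
    (f (Nat.add x43028 x16020)) (Nat.add (f (Nat.add x43034 x16014)) (Nat.add
    (f (Nat.add x43036 x16012)) (Nat.add (f (Nat.add x43046 x16002)) (Nat.add
    (f (Nat.add x43052 x15996)) (Nat.add (f (Nat.add x43054 x15994)) (Nat.add
    (f (Nat.add x43058 x15990)) (Nat.add (f (Nat.add x43060 x15988)) (Nat.add
    (f (Nat.add x43062 x15986)) (Nat.add (f (Nat.add x43070 x15978)) (Nat.add
    (f (Nat.add x43072 x15976)) (Nat.add (f (Nat.add x43076 x15972)) (Nat.add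
    (f (Nat.add x43078 x15970)) (Nat.add (f (Nat.add x43080 x15968)) (Nat.add
    (f (Nat.add x43084 x15964)) (Nat.add (f (Nat.add x43086 x15962)) (Nat.add
    (f (Nat.add x43100 x15948)) (Nat.add (f (Nat.add x43106 x15942)) (Nat.add
    (f (Nat.add x43108 x15940)) (Nat.add (f (Nat.add x43112 x15936)) (Nat.add
    (f (Nat.add x43114 x15934)) (Nat.add (f (Nat.add x43116 x15932)) (Nat.add
    (f (Nat.add x43124 x15924)) (Nat.add (f (Nat.add x43126 x15922)) (Nat.add
    (f (Nat.add x43130 x15918)) (Nat.add (f (Nat.add x43132 x15916)) (Nat.add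
    (f (Nat.add x43134 x15914)) (Nat.add (f (Nat.add x43138 x15910)) (Nat.add
    (f (Nat.add x43140 x15908)) (Nat.add (f (Nat.add x43148 x15900)) (Nat.add
    (f (Nat.add x43150 x15898)) (Nat.add (f (Nat.add x43152 x15896)) (Nat.add
    (f (Nat.add x43156 x15892)) (Nat.add (f (Nat.add x43158 x15890)) (Nat.add
    (f (Nat.add x43164 x15884)) (Nat.add (f (Nat.add x43178 x15870)) (Nat.add
    (f (Nat.add x43180 x15868)) (Nat.add (f (Nat.add x43184 x15864)) (Nat.add
    (f (Nat.add x43186 x15862)) (Nat.add (f (Nat.add x43188 x15860)) (Nat.add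
    (f (Nat.add x43192 x15856)) (Nat.add (f (Nat.add x43194 x15854)) (Nat.add
    (f (Nat.add x43202 x15846)) (Nat.add (f (Nat.add x43204 x15844)) (Nat.add
    (f (Nat.add x43206 x15842)) (Nat.add (f (Nat.add x43210 x15838)) (Nat.add
    (f (Nat.add x43212 x15836)) (Nat.add (f (Nat.add x43218 x15830)) (Nat.add
    (f (Nat.add x43228 x15820)) (Nat.add (f (Nat.add x43230 x15818))
    0)))))))))))))))))))))))))))))))))))))))))))))))))))))))))))) (Nat.add (Nat.add
    (f (Nat.add x43236 x15812)) (Nat.add (f (Nat.add x43262 x15786)) (Nat.add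
    (f (Nat.add x43268 x15780)) (Nat.add (f (Nat.add x43270 x15778)) (Nat.add
    (f (Nat.add x43274 x15774)) (Nat.add (f (Nat.add x43276 x15772)) (Nat.add
    (f (Nat.add x43278 x15770)) (Nat.add (f (Nat.add x43286 x15762)) (Nat.add
    (f (Nat.add x43288 x15760)) (Nat.add (f (Nat.add x43292 x15756)) (Nat.add
    (f (Nat.add x43294 x15754)) (Nat.add (f (Nat.add x43296 x15752)) (Nat.add
    (f (Nat.add x43300 x15748)) (Nat.add (f (Nat.add x43302 x15746)) (Nat.add
    (f (Nat.add x43310 x15738)) (Nat.add (f (Nat.add x43312 x15736)) (Nat.add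
    (f (Nat.add x43314 x15734)) (Nat.add (f (Nat.add x43318 x15730)) (Nat.add
    (f (Nat.add x43320 x15728)) (Nat.add (f (Nat.add x43326 x15722)) (Nat.add
    (f (Nat.add x43340 x15708)) (Nat.add (f (Nat.add x43342 x15706)) (Nat.add
    (f (Nat.add x43346 x15702)) (Nat.add (f (Nat.add x43348 x15700)) (Nat.add
    (f (Nat.add x43350 x15698)) (Nat.add (f (Nat.add x43354 x15694)) (Nat.add
    (f (Nat.add x43356 x15692)) (Nat.add (f (Nat.add x43364 x15684)) (Nat.add
    (f (Nat.add x43366 x15682)) (Nat.add (f (Nat.add x43368 x15680)) (Nat.add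
    (f (Nat.add x43372 x15676)) (Nat.add (f (Nat.add x43374 x15674)) (Nat.add
    (f (Nat.add x43380 x15668)) (Nat.add (f (Nat.add x43390 x15658)) (Nat.add
    (f (Nat.add x43392 x15656)) (Nat.add (f (Nat.add x43398 x15650)) (Nat.add
    (f (Nat.add x43418 x15630)) (Nat.add (f (Nat.add x43420 x15628)) (Nat.add
    (f (Nat.add x43422 x15626)) (Nat.add (f (Nat.add x43426 x15622)) (Nat.add
    (f (Nat.add x43428 x15620)) (Nat.add (f (Nat.add x43434 x15614)) (Nat.add
    (f (Nat.add x43444 x15604)) (Nat.add (f (Nat.add x43446 x15602)) (Nat.add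
    (f (Nat.add x43452 x15596)) (Nat.add (f (Nat.add x43470 x15578)) (Nat.add
    (f (Nat.add x43502 x15546)) (Nat.add (f (Nat.add x43504 x15544)) (Nat.add
    (f (Nat.add x43508 x15540)) (Nat.add (f (Nat.add x43510 x15538)) (Nat.add
    (f (Nat.add x43512 x15536)) (Nat.add (f (Nat.add x43516 x15532)) (Nat.add
    (f (Nat.add x43518 x15530)) (Nat.add (f (Nat.add x43526 x15522)) (Nat.add
    (f (Nat.add x43528 x15520)) (Nat.add (f (Nat.add x43530 x15518)) (Nat.add
    (f (Nat.add x43534 x15514)) (Nat.add (f (Nat.add x43536 x15512)) (Nat.add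
    (f (Nat.add x43542 x15506)) (Nat.add (f (Nat.add x43552 x15496))
    0)))))))))))))))))))))))))))))))))))))))))))))))))))))))))))) (Nat.add (Nat.add
    (f (Nat.add x43554 x15494)) (Nat.add (f (Nat.add x43560 x15488)) (Nat.add
    (f (Nat.add x43580 x15468)) (Nat.add (f (Nat.add x43582 x15466)) (Nat.add
    (f (Nat.add x43584 x15464)) (Nat.add (f (Nat.add x43588 x15460)) (Nat.add
    (f (Nat.add x43590 x15458)) (Nat.add (f (Nat.add x43596 x15452)) (Nat.add
    (f (Nat.add x43606 x15442)) (Nat.add (f (Nat.add x43608 x15440)) (Nat.add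
    (f (Nat.add x43614 x15434)) (Nat.add (f (Nat.add x43632 x15416)) (Nat.add
    (f (Nat.add x43660 x15388)) (Nat.add (f (Nat.add x43662 x15386)) (Nat.add
    (f (Nat.add x43668 x15380)) (Nat.add (f (Nat.add x43686 x15362)) (Nat.add
    (f (Nat.add x43766 x15282)) (Nat.add (f (Nat.add x43784 x15264)) (Nat.add
    (f (Nat.add x43790 x15258)) (Nat.add (f (Nat.add x43792 x15256)) (Nat.add
    (f (Nat.add x43802 x15246)) (Nat.add (f (Nat.add x43808 x15240)) (Nat.add
    (f (Nat.add x43810 x15238)) (Nat.add (f (Nat.add x43814 x15234)) (Nat.add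
    (f (Nat.add x43816 x15232)) (Nat.add (f (Nat.add x43818 x15230)) (Nat.add
    (f (Nat.add x43838 x15210)) (Nat.add (f (Nat.add x43844 x15204)) (Nat.add
    (f (Nat.add x43846 x15202)) (Nat.add (f (Nat.add x43856 x15192)) (Nat.add
    (f (Nat.add x43862 x15186)) (Nat.add (f (Nat.add x43864 x15184)) (Nat.add
    (f (Nat.add x43868 x15180)) (Nat.add (f (Nat.add x43870 x15178)) (Nat.add
    (f (Nat.add x43872 x15176)) (Nat.add (f (Nat.add x43880 x15168)) (Nat.add
    (f (Nat.add x43882 x15166)) (Nat.add (f (Nat.add x43886 x15162)) (Nat.add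
    (f (Nat.add x43888 x15160)) (Nat.add (f (Nat.add x43890 x15158)) (Nat.add
    (f (Nat.add x43894 x15154)) (Nat.add (f (Nat.add x43896 x15152)) (Nat.add
    (f (Nat.add x43910 x15138)) (Nat.add (f (Nat.add x43916 x15132)) (Nat.add
    (f (Nat.add x43918 x15130)) (Nat.add (f (Nat.add x43922 x15126)) (Nat.add
    (f (Nat.add x43924 x15124)) (Nat.add (f (Nat.add x43926 x15122)) (Nat.add
    (f (Nat.add x43934 x15114)) (Nat.add (f (Nat.add x43936 x15112)) (Nat.add
    (f (Nat.add x43940 x15108)) (Nat.add (f (Nat.add x43942 x15106)) (Nat.add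
    (f (Nat.add x43944 x15104)) (Nat.add (f (Nat.add x43948 x15100)) (Nat.add
    (f (Nat.add x43950 x15098)) (Nat.add (f (Nat.add x43958 x15090)) (Nat.add
    (f (Nat.add x43960 x15088)) (Nat.add (f (Nat.add x43962 x15086)) (Nat.add
    (f (Nat.add x43966 x15082)) (Nat.add (f (Nat.add x43968 x15080))
    0)))))))))))))))))))))))))))))))))))))))))))))))))))))))))))) (Nat.add (Nat.add
    (f (Nat.add x43974 x15074)) (Nat.add (f (Nat.add x44000 x15048)) (Nat.add
    (f (Nat.add x44006 x15042)) (Nat.add (f (Nat.add x44008 x15040)) (Nat.add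
    (f (Nat.add x44018 x15030)) (Nat.add (f (Nat.add x44024 x15024)) (Nat.add
    (f (Nat.add x44026 x15022)) (Nat.add (f (Nat.add x44030 x15018)) (Nat.add
    (f (Nat.add x44032 x15016)) (Nat.add (f (Nat.add x44034 x15014)) (Nat.add
    (f (Nat.add x44042 x15006)) (Nat.add (f (Nat.add x44044 x15004)) (Nat.add
    (f (Nat.add x44048 x15000)) (Nat.add (f (Nat.add x44050 x14998)) (Nat.add
    (f (Nat.add x44052 x14996)) (Nat.add (f (Nat.add x44056 x14992)) (Nat.add
    (f (Nat.add x44058 x14990)) (Nat.add (f (Nat.add x44072 x14976)) (Nat.add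
    (f (Nat.add x44078 x14970)) (Nat.add (f (Nat.add x44080 x14968)) (Nat.add
    (f (Nat.add x44084 x14964)) (Nat.add (f (Nat.add x44086 x14962)) (Nat.add
    (f (Nat.add x44088 x14960)) (Nat.add (f (Nat.add x44096 x14952)) (Nat.add
    (f (Nat.add x44098 x14950)) (Nat.add (f (Nat.add x44102 x14946)) (Nat.add
    (f (Nat.add x44104 x14944)) (Nat.add (f (Nat.add x44106 x14942)) (Nat.add
    (f (Nat.add x44110 x14938)) (Nat.add (f (Nat.add x44112 x14936)) (Nat.add
    (f (Nat.add x44120 x14928)) (Nat.add (f (Nat.add x44122 x14926)) (Nat.add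
    (f (Nat.add x44124 x14924)) (Nat.add (f (Nat.add x44128 x14920)) (Nat.add
    (f (Nat.add x44130 x14918)) (Nat.add (f (Nat.add x44136 x14912)) (Nat.add
    (f (Nat.add x44150 x14898)) (Nat.add (f (Nat.add x44152 x14896)) (Nat.add
    (f (Nat.add x44156 x14892)) (Nat.add (f (Nat.add x44158 x14890)) (Nat.add
    (f (Nat.add x44160 x14888)) (Nat.add (f (Nat.add x44164 x14884)) (Nat.add
    (f (Nat.add x44166 x14882)) (Nat.add (f (Nat.add x44174 x14874)) (Nat.add
    (f (Nat.add x44176 x14872)) (Nat.add (f (Nat.add x44178 x14870)) (Nat.add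
    (f (Nat.add x44182 x14866)) (Nat.add (f (Nat.add x44184 x14864)) (Nat.add
    (f (Nat.add x44190 x14858)) (Nat.add (f (Nat.add x44200 x14848)) (Nat.add
    (f (Nat.add x44202 x14846)) (Nat.add (f (Nat.add x44208 x14840)) (Nat.add
    (f (Nat.add x44234 x14814)) (Nat.add (f (Nat.add x44240 x14808)) (Nat.add
    (f (Nat.add x44242 x14806)) (Nat.add (f (Nat.add x44246 x14802)) (Nat.add
    (f (Nat.add x44248 x14800)) (Nat.add (f (Nat.add x44250 x14798)) (Nat.add
    (f (Nat.add x44258 x14790)) (Nat.add (f (Nat.add x44260 x14788))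
    0)))))))))))))))))))))))))))))))))))))))))))))))))))))))))))) (Nat.add (Nat.add
    (f (Nat.add x44264 x14784)) (Nat.add (f (Nat.add x44266 x14782)) (Nat.add
    (f (Nat.add x44268 x14780)) (Nat.add (f (Nat.add x44272 x14776)) (Nat.add
    (f (Nat.add x44274 x14774)) (Nat.add (f (Nat.add x44282 x14766)) (Nat.add
    (f (Nat.add x44284 x14764)) (Nat.add (f (Nat.add x44286 x14762)) (Nat.add
    (f (Nat.add x44290 x14758)) (Nat.add (f (Nat.add x44292 x14756)) (Nat.add
    (f (Nat.add x44298 x14750)) (Nat.add (f (Nat.add x44312 x14736)) (Nat.add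
    (f (Nat.add x44314 x14734)) (Nat.add (f (Nat.add x44318 x14730)) (Nat.add
    (f (Nat.add x44320 x14728)) (Nat.add (f (Nat.add x44322 x14726)) (Nat.add
    (f (Nat.add x44326 x14722)) (Nat.add (f (Nat.add x44328 x14720)) (Nat.add
    (f (Nat.add x44336 x14712)) (Nat.add (f (Nat.add x44338 x14710)) (Nat.add
    (f (Nat.add x44340 x14708)) (Nat.add (f (Nat.add x44344 x14704)) (Nat.add
    (f (Nat.add x44346 x14702)) (Nat.add (f (Nat.add x44352 x14696)) (Nat.add
    (f (Nat.add x44362 x14686)) (Nat.add (f (Nat.add x44364 x14684)) (Nat.add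
    (f (Nat.add x44370 x14678)) (Nat.add (f (Nat.add x44390 x14658)) (Nat.add
    (f (Nat.add x44392 x14656)) (Nat.add (f (Nat.add x44394 x14654)) (Nat.add
    (f (Nat.add x44398 x14650)) (Nat.add (f (Nat.add x44400 x14648)) (Nat.add
    (f (Nat.add x44406 x14642)) (Nat.add (f (Nat.add x44416 x14632)) (Nat.add
    (f (Nat.add x44418 x14630)) (Nat.add (f (Nat.add x44424 x14624)) (Nat.add
    (f (Nat.add x44442 x14606)) (Nat.add (f (Nat.add x44486 x14562)) (Nat.add
    (f (Nat.add x44492 x14556)) (Nat.add (f (Nat.add x44494 x14554)) (Nat.add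
    (f (Nat.add x44504 x14544)) (Nat.add (f (Nat.add x44510 x14538)) (Nat.add
    (f (Nat.add x44512 x14536)) (Nat.add (f (Nat.add x44516 x14532)) (Nat.add
    (f (Nat.add x44518 x14530)) (Nat.add (f (Nat.add x44520 x14528)) (Nat.add
    (f (Nat.add x44528 x14520)) (Nat.add (f (Nat.add x44530 x14518)) (Nat.add
    (f (Nat.add x44534 x14514)) (Nat.add (f (Nat.add x44536 x14512)) (Nat.add
    (f (Nat.add x44538 x14510)) (Nat.add (f (Nat.add x44542 x14506)) (Nat.add
    (f (Nat.add x44544 x14504)) (Nat.add (f (Nat.add x44558 x14490)) (Nat.add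
    (f (Nat.add x44564 x14484)) (Nat.add (f (Nat.add x44566 x14482)) (Nat.add
    (f (Nat.add x44570 x14478)) (Nat.add (f (Nat.add x44572 x14476)) (Nat.add
    (f (Nat.add x44574 x14474)) (Nat.add (f (Nat.add x44582 x14466))
    0)))))))))))))))))))))))))))))))))))))))))))))))))))))))))))) (Nat.add (Nat.add
    (f (Nat.add x44584 x14464)) (Nat.add (f (Nat.add x44588 x14460)) (Nat.add
    (f (Nat.add x44590 x14458)) (Nat.add (f (Nat.add x44592 x14456)) (Nat.add
    (f (Nat.add x44596 x14452)) (Nat.add (f (Nat.add x44598 x14450)) (Nat.add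
    (f (Nat.add x44606 x14442)) (Nat.add (f (Nat.add x44608 x14440)) (Nat.add
    (f (Nat.add x44610 x14438)) (Nat.add (f (Nat.add x44614 x14434)) (Nat.add
    (f (Nat.add x44616 x14432)) (Nat.add (f (Nat.add x44622 x14426)) (Nat.add
    (f (Nat.add x44636 x14412)) (Nat.add (f (Nat.add x44638 x14410)) (Nat.add
    (f (Nat.add x44642 x14406)) (Nat.add (f (Nat.add x44644 x14404)) (Nat.add
    (f (Nat.add x44646 x14402)) (Nat.add (f (Nat.add x44650 x14398)) (Nat.add
    (f (Nat.add x44652 x14396)) (Nat.add (f (Nat.add x44660 x14388)) (Nat.add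
    (f (Nat.add x44662 x14386)) (Nat.add (f (Nat.add x44664 x14384)) (Nat.add
    (f (Nat.add x44668 x14380)) (Nat.add (f (Nat.add x44670 x14378)) (Nat.add
    (f (Nat.add x44676 x14372)) (Nat.add (f (Nat.add x44686 x14362)) (Nat.add
    (f (Nat.add x44688 x14360)) (Nat.add (f (Nat.add x44694 x14354)) (Nat.add
    (f (Nat.add x44720 x14328)) (Nat.add (f (Nat.add x44726 x14322)) (Nat.add
    (f (Nat.add x44728 x14320)) (Nat.add (f (Nat.add x44732 x14316)) (Nat.add
    (f (Nat.add x44734 x14314)) (Nat.add (f (Nat.add x44736 x14312)) (Nat.add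
    (f (Nat.add x44744 x14304)) (Nat.add (f (Nat.add x44746 x14302)) (Nat.add
    (f (Nat.add x44750 x14298)) (Nat.add (f (Nat.add x44752 x14296)) (Nat.add
    (f (Nat.add x44754 x14294)) (Nat.add (f (Nat.add x44758 x14290)) (Nat.add
    (f (Nat.add x44760 x14288)) (Nat.add (f (Nat.add x44768 x14280)) (Nat.add
    (f (Nat.add x44770 x14278)) (Nat.add (f (Nat.add x44772 x14276)) (Nat.add
    (f (Nat.add x44776 x14272)) (Nat.add (f (Nat.add x44778 x14270)) (Nat.add
    (f (Nat.add x44784 x14264)) (Nat.add (f (Nat.add x44798 x14250)) (Nat.add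
    (f (Nat.add x44800 x14248)) (Nat.add (f (Nat.add x44804 x14244)) (Nat.add
    (f (Nat.add x44806 x14242)) (Nat.add (f (Nat.add x44808 x14240)) (Nat.add
    (f (Nat.add x44812 x14236)) (Nat.add (f (Nat.add x44814 x14234)) (Nat.add
    (f (Nat.add x44822 x14226)) (Nat.add (f (Nat.add x44824 x14224)) (Nat.add
    (f (Nat.add x44826 x14222)) (Nat.add (f (Nat.add x44830 x14218)) (Nat.add
    (f (Nat.add x44832 x14216)) (Nat.add (f (Nat.add x44838 x14210))
    0)))))))))))))))))))))))))))))))))))))))))))))))))))))))))))) (Nat.add (Nat.add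
    (f (Nat.add x44848 x14200)) (Nat.add (f (Nat.add x44850 x14198)) (Nat.add
    (f (Nat.add x44856 x14192)) (Nat.add (f (Nat.add x44876 x14172)) (Nat.add
    (f (Nat.add x44878 x14170)) (Nat.add (f (Nat.add x44880 x14168)) (Nat.add
    (f (Nat.add x44884 x14164)) (Nat.add (f (Nat.add x44886 x14162)) (Nat.add
    (f (Nat.add x44892 x14156)) (Nat.add (f (Nat.add x44902 x14146)) (Nat.add
    (f (Nat.add x44904 x14144)) (Nat.add (f (Nat.add x44910 x14138)) (Nat.add
    (f (Nat.add x44928 x14120)) (Nat.add (f (Nat.add x44960 x14088)) (Nat.add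
    (f (Nat.add x44962 x14086)) (Nat.add (f (Nat.add x44966 x14082)) (Nat.add
    (f (Nat.add x44968 x14080)) (Nat.add (f (Nat.add x44970 x14078)) (Nat.add
    (f (Nat.add x44974 x14074)) (Nat.add (f (Nat.add x44976 x14072)) (Nat.add
    (f (Nat.add x44984 x14064)) (Nat.add (f (Nat.add x44986 x14062)) (Nat.add
    (f (Nat.add x44988 x14060)) (Nat.add (f (Nat.add x44992 x14056)) (Nat.add
    (f (Nat.add x44994 x14054)) (Nat.add (f (Nat.add x45000 x14048)) (Nat.add
    (f (Nat.add x45010 x14038)) (Nat.add (f (Nat.add x45012 x14036)) (Nat.add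
    (f (Nat.add x45018 x14030)) (Nat.add (f (Nat.add x45038 x14010)) (Nat.add
    (f (Nat.add x45040 x14008)) (Nat.add (f (Nat.add x45042 x14006)) (Nat.add
    (f (Nat.add x45046 x14002)) (Nat.add (f (Nat.add x45048 x14000)) (Nat.add
    (f (Nat.add x45054 x13994)) (Nat.add (f (Nat.add x45064 x13984)) (Nat.add
    (f (Nat.add x45066 x13982)) (Nat.add (f (Nat.add x45072 x13976)) (Nat.add
    (f (Nat.add x45090 x13958)) (Nat.add (f (Nat.add x45118 x13930)) (Nat.add
    (f (Nat.add x45120 x13928)) (Nat.add (f (Nat.add x45126 x13922)) (Nat.add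
    (f (Nat.add x45144 x13904)) (Nat.add (f (Nat.add x45206 x13842)) (Nat.add
    (f (Nat.add x45212 x13836)) (Nat.add (f (Nat.add x45214 x13834)) (Nat.add
    (f (Nat.add x45218 x13830)) (Nat.add (f (Nat.add x45220 x13828)) (Nat.add
    (f (Nat.add x45222 x13826)) (Nat.add (f (Nat.add x45230 x13818)) (Nat.add
    (f (Nat.add x45232 x13816)) (Nat.add (f (Nat.add x45236 x13812)) (Nat.add
    (f (Nat.add x45238 x13810)) (Nat.add (f (Nat.add x45240 x13808)) (Nat.add
    (f (Nat.add x45244 x13804)) (Nat.add (f (Nat.add x45246 x13802)) (Nat.add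
    (f (Nat.add x45254 x13794)) (Nat.add (f (Nat.add x45256 x13792)) (Nat.add
    (f (Nat.add x45258 x13790)) (Nat.add (f (Nat.add x45262 x13786))
    0)))))))))))))))))))))))))))))))))))))))))))))))))))))))))))) (Nat.add (Nat.add
    (f (Nat.add x45264 x13784)) (Nat.add (f (Nat.add x45270 x13778)) (Nat.add
    (f (Nat.add x45284 x13764)) (Nat.add (f (Nat.add x45286 x13762)) (Nat.add
    (f (Nat.add x45290 x13758)) (Nat.add (f (Nat.add x45292 x13756)) (Nat.add
    (f (Nat.add x45294 x13754)) (Nat.add (f (Nat.add x45298 x13750)) (Nat.add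
    (f (Nat.add x45300 x13748)) (Nat.add (f (Nat.add x45308 x13740)) (Nat.add
    (f (Nat.add x45310 x13738)) (Nat.add (f (Nat.add x45312 x13736)) (Nat.add
    (f (Nat.add x45316 x13732)) (Nat.add (f (Nat.add x45318 x13730)) (Nat.add
    (f (Nat.add x45324 x13724)) (Nat.add (f (Nat.add x45334 x13714)) (Nat.add
    (f (Nat.add x45336 x13712)) (Nat.add (f (Nat.add x45342 x13706)) (Nat.add
    (f (Nat.add x45362 x13686)) (Nat.add (f (Nat.add x45364 x13684)) (Nat.add
    (f (Nat.add x45366 x13682)) (Nat.add (f (Nat.add x45370 x13678)) (Nat.add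
    (f (Nat.add x45372 x13676)) (Nat.add (f (Nat.add x45378 x13670)) (Nat.add
    (f (Nat.add x45388 x13660)) (Nat.add (f (Nat.add x45390 x13658)) (Nat.add
    (f (Nat.add x45396 x13652)) (Nat.add (f (Nat.add x45414 x13634)) (Nat.add
    (f (Nat.add x45446 x13602)) (Nat.add (f (Nat.add x45448 x13600)) (Nat.add
    (f (Nat.add x45452 x13596)) (Nat.add (f (Nat.add x45454 x13594)) (Nat.add
    (f (Nat.add x45456 x13592)) (Nat.add (f (Nat.add x45460 x13588)) (Nat.add
    (f (Nat.add x45462 x13586)) (Nat.add (f (Nat.add x45470 x13578)) (Nat.add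
    (f (Nat.add x45472 x13576)) (Nat.add (f (Nat.add x45474 x13574)) (Nat.add
    (f (Nat.add x45478 x13570)) (Nat.add (f (Nat.add x45480 x13568)) (Nat.add
    (f (Nat.add x45486 x13562)) (Nat.add (f (Nat.add x45496 x13552)) (Nat.add
    (f (Nat.add x45498 x13550)) (Nat.add (f (Nat.add x45504 x13544)) (Nat.add
    (f (Nat.add x45524 x13524)) (Nat.add (f (Nat.add x45526 x13522)) (Nat.add
    (f (Nat.add x45528 x13520)) (Nat.add (f (Nat.add x45532 x13516)) (Nat.add
    (f (Nat.add x45534 x13514)) (Nat.add (f (Nat.add x45540 x13508)) (Nat.add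
    (f (Nat.add x45550 x13498)) (Nat.add (f (Nat.add x45552 x13496)) (Nat.add
    (f (Nat.add x45558 x13490)) (Nat.add (f (Nat.add x45576 x13472)) (Nat.add
    (f (Nat.add x45604 x13444)) (Nat.add (f (Nat.add x45606 x13442)) (Nat.add
    (f (Nat.add x45612 x13436)) (Nat.add (f (Nat.add x45630 x13418)) (Nat.add
    (f (Nat.add x45686 x13362)) (Nat.add (f (Nat.add x45688 x13360))
    0)))))))))))))))))))))))))))))))))))))))))))))))))))))))))))) (Nat.add (Nat.add
    (f (Nat.add x45690 x13358)) (Nat.add (f (Nat.add x45694 x13354)) (Nat.add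
    (f (Nat.add x45696 x13352)) (Nat.add (f (Nat.add x45702 x13346)) (Nat.add
    (f (Nat.add x45712 x13336)) (Nat.add (f (Nat.add x45714 x13334)) (Nat.add
    (f (Nat.add x45720 x13328)) (Nat.add (f (Nat.add x45738 x13310)) (Nat.add
    (f (Nat.add x45766 x13282)) (Nat.add (f (Nat.add x45768 x13280)) (Nat.add
    (f (Nat.add x45774 x13274)) (Nat.add (f (Nat.add x45792 x13256)) (Nat.add
    (f (Nat.add x45846 x13202)) (Nat.add (f (Nat.add x45980 x13068)) (Nat.add
    (f (Nat.add x45998 x13050)) (Nat.add (f (Nat.add x46004 x13044)) (Nat.add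
    (f (Nat.add x46006 x13042)) (Nat.add (f (Nat.add x46034 x13014)) (Nat.add
    (f (Nat.add x46052 x12996)) (Nat.add (f (Nat.add x46058 x12990)) (Nat.add
    (f (Nat.add x46060 x12988)) (Nat.add (f (Nat.add x46070 x12978)) (Nat.add
    (f (Nat.add x46076 x12972)) (Nat.add (f (Nat.add x46078 x12970)) (Nat.add
    (f (Nat.add x46082 x12966)) (Nat.add (f (Nat.add x46084 x12964)) (Nat.add
    (f (Nat.add x46086 x12962)) (Nat.add (f (Nat.add x46106 x12942)) (Nat.add
    (f (Nat.add x46112 x12936)) (Nat.add (f (Nat.add x46114 x12934)) (Nat.add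
    (f (Nat.add x46124 x12924)) (Nat.add (f (Nat.add x46130 x12918)) (Nat.add
    (f (Nat.add x46132 x12916)) (Nat.add (f (Nat.add x46136 x12912)) (Nat.add
    (f (Nat.add x46138 x12910)) (Nat.add (f (Nat.add x46140 x12908)) (Nat.add
    (f (Nat.add x46148 x12900)) (Nat.add (f (Nat.add x46150 x12898)) (Nat.add
    (f (Nat.add x46154 x12894)) (Nat.add (f (Nat.add x46156 x12892)) (Nat.add
    (f (Nat.add x46158 x12890)) (Nat.add (f (Nat.add x46162 x12886)) (Nat.add
    (f (Nat.add x46164 x12884)) (Nat.add (f (Nat.add x46196 x12852)) (Nat.add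
    (f (Nat.add x46214 x12834)) (Nat.add (f (Nat.add x46220 x12828)) (Nat.add
    (f (Nat.add x46222 x12826)) (Nat.add (f (Nat.add x46232 x12816)) (Nat.add
    (f (Nat.add x46238 x12810)) (Nat.add (f (Nat.add x46240 x12808)) (Nat.add
    (f (Nat.add x46244 x12804)) (Nat.add (f (Nat.add x46246 x12802)) (Nat.add
    (f (Nat.add x46248 x12800)) (Nat.add (f (Nat.add x46268 x12780)) (Nat.add
    (f (Nat.add x46274 x12774)) (Nat.add (f (Nat.add x46276 x12772)) (Nat.add
    (f (Nat.add x46286 x12762)) (Nat.add (f (Nat.add x46292 x12756)) (Nat.add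
    (f (Nat.add x46294 x12754)) (Nat.add (f (Nat.add x46298 x12750))
    0)))))))))))))))))))))))))))))))))))))))))))))))))))))))))))) (Nat.add (Nat.add
    (f (Nat.add x46300 x12748)) (Nat.add (f (Nat.add x46302 x12746)) (Nat.add
    (f (Nat.add x46310 x12738)) (Nat.add (f (Nat.add x46312 x12736)) (Nat.add
    (f (Nat.add x46316 x12732)) (Nat.add (f (Nat.add x46318 x12730)) (Nat.add
    (f (Nat.add x46320 x12728)) (Nat.add (f (Nat.add x46324 x12724)) (Nat.add
    (f (Nat.add x46326 x12722)) (Nat.add (f (Nat.add x46340 x12708)) (Nat.add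
    (f (Nat.add x46346 x12702)) (Nat.add (f (Nat.add x46348 x12700)) (Nat.add
    (f (Nat.add x46352 x12696)) (Nat.add (f (Nat.add x46354 x12694)) (Nat.add
    (f (Nat.add x46356 x12692)) (Nat.add (f (Nat.add x46364 x12684)) (Nat.add
    (f (Nat.add x46366 x12682)) (Nat.add (f (Nat.add x46370 x12678)) (Nat.add
    (f (Nat.add x46372 x12676)) (Nat.add (f (Nat.add x46374 x12674)) (Nat.add
    (f (Nat.add x46378 x12670)) (Nat.add (f (Nat.add x46380 x12668)) (Nat.add
    (f (Nat.add x46388 x12660)) (Nat.add (f (Nat.add x46390 x12658)) (Nat.add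
    (f (Nat.add x46392 x12656)) (Nat.add (f (Nat.add x46396 x12652)) (Nat.add
    (f (Nat.add x46398 x12650)) (Nat.add (f (Nat.add x46404 x12644)) (Nat.add
    (f (Nat.add x46430 x12618)) (Nat.add (f (Nat.add x46436 x12612)) (Nat.add
    (f (Nat.add x46438 x12610)) (Nat.add (f (Nat.add x46448 x12600)) (Nat.add
    (f (Nat.add x46454 x12594)) (Nat.add (f (Nat.add x46456 x12592)) (Nat.add
    (f (Nat.add x46460 x12588)) (Nat.add (f (Nat.add x46462 x12586)) (Nat.add
    (f (Nat.add x46464 x12584)) (Nat.add (f (Nat.add x46472 x12576)) (Nat.add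
    (f (Nat.add x46474 x12574)) (Nat.add (f (Nat.add x46478 x12570)) (Nat.add
    (f (Nat.add x46480 x12568)) (Nat.add (f (Nat.add x46482 x12566)) (Nat.add
    (f (Nat.add x46486 x12562)) (Nat.add (f (Nat.add x46488 x12560)) (Nat.add
    (f (Nat.add x46502 x12546)) (Nat.add (f (Nat.add x46508 x12540)) (Nat.add
    (f (Nat.add x46510 x12538)) (Nat.add (f (Nat.add x46514 x12534)) (Nat.add
    (f (Nat.add x46516 x12532)) (Nat.add (f (Nat.add x46518 x12530)) (Nat.add
    (f (Nat.add x46526 x12522)) (Nat.add (f (Nat.add x46528 x12520)) (Nat.add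
    (f (Nat.add x46532 x12516)) (Nat.add (f (Nat.add x46534 x12514)) (Nat.add
    (f (Nat.add x46536 x12512)) (Nat.add (f (Nat.add x46540 x12508)) (Nat.add
    (f (Nat.add x46542 x12506)) (Nat.add (f (Nat.add x46550 x12498)) (Nat.add
    (f (Nat.add x46552 x12496)) (Nat.add (f (Nat.add x46554 x12494))
    0)))))))))))))))))))))))))))))))))))))))))))))))))))))))))))) (Nat.add (Nat.add
    (f (Nat.add x46558 x12490)) (Nat.add (f (Nat.add x46560 x12488)) (Nat.add
    (f (Nat.add x46566 x12482)) (Nat.add (f (Nat.add x46580 x12468)) (Nat.add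
    (f (Nat.add x46582 x12466)) (Nat.add (f (Nat.add x46586 x12462)) (Nat.add
    (f (Nat.add x46588 x12460)) (Nat.add (f (Nat.add x46590 x12458)) (Nat.add
    (f (Nat.add x46594 x12454)) (Nat.add (f (Nat.add x46596 x12452)) (Nat.add
    (f (Nat.add x46604 x12444)) (Nat.add (f (Nat.add x46606 x12442)) (Nat.add
    (f (Nat.add x46608 x12440)) (Nat.add (f (Nat.add x46612 x12436)) (Nat.add
    (f (Nat.add x46614 x12434)) (Nat.add (f (Nat.add x46620 x12428)) (Nat.add
    (f (Nat.add x46630 x12418)) (Nat.add (f (Nat.add x46632 x12416)) (Nat.add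
    (f (Nat.add x46638 x12410)) (Nat.add (f (Nat.add x46682 x12366)) (Nat.add
    (f (Nat.add x46700 x12348)) (Nat.add (f (Nat.add x46706 x12342)) (Nat.add
    (f (Nat.add x46708 x12340)) (Nat.add (f (Nat.add x46718 x12330)) (Nat.add
    (f (Nat.add x46724 x12324)) (Nat.add (f (Nat.add x46726 x12322)) (Nat.add
    (f (Nat.add x46730 x12318)) (Nat.add (f (Nat.add x46732 x12316)) (Nat.add
    (f (Nat.add x46734 x12314)) (Nat.add (f (Nat.add x46754 x12294)) (Nat.add
    (f (Nat.add x46760 x12288)) (Nat.add (f (Nat.add x46762 x12286)) (Nat.add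
    (f (Nat.add x46772 x12276)) (Nat.add (f (Nat.add x46778 x12270)) (Nat.add
    (f (Nat.add x46780 x12268)) (Nat.add (f (Nat.add x46784 x12264)) (Nat.add
    (f (Nat.add x46786 x12262)) (Nat.add (f (Nat.add x46788 x12260)) (Nat.add
    (f (Nat.add x46796 x12252)) (Nat.add (f (Nat.add x46798 x12250)) (Nat.add
    (f (Nat.add x46802 x12246)) (Nat.add (f (Nat.add x46804 x12244)) (Nat.add
    (f (Nat.add x46806 x12242)) (Nat.add (f (Nat.add x46810 x12238)) (Nat.add
    (f (Nat.add x46812 x12236)) (Nat.add (f (Nat.add x46826 x12222)) (Nat.add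
    (f (Nat.add x46832 x12216)) (Nat.add (f (Nat.add x46834 x12214)) (Nat.add
    (f (Nat.add x46838 x12210)) (Nat.add (f (Nat.add x46840 x12208)) (Nat.add
    (f (Nat.add x46842 x12206)) (Nat.add (f (Nat.add x46850 x12198)) (Nat.add
    (f (Nat.add x46852 x12196)) (Nat.add (f (Nat.add x46856 x12192)) (Nat.add
    (f (Nat.add x46858 x12190)) (Nat.add (f (Nat.add x46860 x12188)) (Nat.add
    (f (Nat.add x46864 x12184)) (Nat.add (f (Nat.add x46866 x12182)) (Nat.add
    (f (Nat.add x46874 x12174)) (Nat.add (f (Nat.add x46876 x12172))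
    0)))))))))))))))))))))))))))))))))))))))))))))))))))))))))))) (Nat.add (Nat.add
    (f (Nat.add x46878 x12170)) (Nat.add (f (Nat.add x46882 x12166)) (Nat.add
    (f (Nat.add x46884 x12164)) (Nat.add (f (Nat.add x46890 x12158)) (Nat.add
    (f (Nat.add x46916 x12132)) (Nat.add (f (Nat.add x46922 x12126)) (Nat.add
    (f (Nat.add x46924 x12124)) (Nat.add (f (Nat.add x46934 x12114)) (Nat.add
    (f (Nat.add x46940 x12108)) (Nat.add (f (Nat.add x46942 x12106)) (Nat.add
    (f (Nat.add x46946 x12102)) (Nat.add (f (Nat.add x46948 x12100)) (Nat.add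
    (f (Nat.add x46950 x12098)) (Nat.add (f (Nat.add x46958 x12090)) (Nat.add
    (f (Nat.add x46960 x12088)) (Nat.add (f (Nat.add x46964 x12084)) (Nat.add
    (f (Nat.add x46966 x12082)) (Nat.add (f (Nat.add x46968 x12080)) (Nat.add
    (f (Nat.add x46972 x12076)) (Nat.add (f (Nat.add x46974 x12074)) (Nat.add
    (f (Nat.add x46988 x12060)) (Nat.add (f (Nat.add x46994 x12054)) (Nat.add
    (f (Nat.add x46996 x12052)) (Nat.add (f (Nat.add x47000 x12048)) (Nat.add
    (f (Nat.add x47002 x12046)) (Nat.add (f (Nat.add x47004 x12044)) (Nat.add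
    (f (Nat.add x47012 x12036)) (Nat.add (f (Nat.add x47014 x12034)) (Nat.add
    (f (Nat.add x47018 x12030)) (Nat.add (f (Nat.add x47020 x12028)) (Nat.add
    (f (Nat.add x47022 x12026)) (Nat.add (f (Nat.add x47026 x12022)) (Nat.add
    (f (Nat.add x47028 x12020)) (Nat.add (f (Nat.add x47036 x12012)) (Nat.add
    (f (Nat.add x47038 x12010)) (Nat.add (f (Nat.add x47040 x12008)) (Nat.add
    (f (Nat.add x47044 x12004)) (Nat.add (f (Nat.add x47046 x12002)) (Nat.add
    (f (Nat.add x47052 x11996)) (Nat.add (f (Nat.add x47066 x11982)) (Nat.add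
    (f (Nat.add x47068 x11980)) (Nat.add (f (Nat.add x47072 x11976)) (Nat.add
    (f (Nat.add x47074 x11974)) (Nat.add (f (Nat.add x47076 x11972)) (Nat.add
    (f (Nat.add x47080 x11968)) (Nat.add (f (Nat.add x47082 x11966)) (Nat.add
    (f (Nat.add x47090 x11958)) (Nat.add (f (Nat.add x47092 x11956)) (Nat.add
    (f (Nat.add x47094 x11954)) (Nat.add (f (Nat.add x47098 x11950)) (Nat.add
    (f (Nat.add x47100 x11948)) (Nat.add (f (Nat.add x47106 x11942)) (Nat.add
    (f (Nat.add x47116 x11932)) (Nat.add (f (Nat.add x47118 x11930)) (Nat.add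
    (f (Nat.add x47124 x11924)) (Nat.add (f (Nat.add x47150 x11898)) (Nat.add
    (f (Nat.add x47156 x11892)) (Nat.add (f (Nat.add x47158 x11890)) (Nat.add
    (f (Nat.add x47162 x11886)) (Nat.add (f (Nat.add x47164 x11884))
    0)))))))))))))))))))))))))))))))))))))))))))))))))))))))))))) (Nat.add (Nat.add
    (f (Nat.add x47166 x11882)) (Nat.add (f (Nat.add x47174 x11874)) (Nat.add
    (f (Nat.add x47176 x11872)) (Nat.add (f (Nat.add x47180 x11868)) (Nat.add
    (f (Nat.add x47182 x11866)) (Nat.add (f (Nat.add x47184 x11864)) (Nat.add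
    (f (Nat.add x47188 x11860)) (Nat.add (f (Nat.add x47190 x11858)) (Nat.add
    (f (Nat.add x47198 x11850)) (Nat.add (f (Nat.add x47200 x11848)) (Nat.add
    (f (Nat.add x47202 x11846)) (Nat.add (f (Nat.add x47206 x11842)) (Nat.add
    (f (Nat.add x47208 x11840)) (Nat.add (f (Nat.add x47214 x11834)) (Nat.add
    (f (Nat.add x47228 x11820)) (Nat.add (f (Nat.add x47230 x11818)) (Nat.add
    (f (Nat.add x47234 x11814)) (Nat.add (f (Nat.add x47236 x11812)) (Nat.add
    (f (Nat.add x47238 x11810)) (Nat.add (f (Nat.add x47242 x11806)) (Nat.add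
    (f (Nat.add x47244 x11804)) (Nat.add (f (Nat.add x47252 x11796)) (Nat.add
    (f (Nat.add x47254 x11794)) (Nat.add (f (Nat.add x47256 x11792)) (Nat.add
    (f (Nat.add x47260 x11788)) (Nat.add (f (Nat.add x47262 x11786)) (Nat.add
    (f (Nat.add x47268 x11780)) (Nat.add (f (Nat.add x47278 x11770)) (Nat.add
    (f (Nat.add x47280 x11768)) (Nat.add (f (Nat.add x47286 x11762)) (Nat.add
    (f (Nat.add x47306 x11742)) (Nat.add (f (Nat.add x47308 x11740)) (Nat.add
    (f (Nat.add x47310 x11738)) (Nat.add (f (Nat.add x47314 x11734)) (Nat.add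
    (f (Nat.add x47316 x11732)) (Nat.add (f (Nat.add x47322 x11726)) (Nat.add
    (f (Nat.add x47332 x11716)) (Nat.add (f (Nat.add x47334 x11714)) (Nat.add
    (f (Nat.add x47340 x11708)) (Nat.add (f (Nat.add x47358 x11690)) (Nat.add
    (f (Nat.add x47402 x11646)) (Nat.add (f (Nat.add x47408 x11640)) (Nat.add
    (f (Nat.add x47410 x11638)) (Nat.add (f (Nat.add x47420 x11628)) (Nat.add
    (f (Nat.add x47426 x11622)) (Nat.add (f (Nat.add x47428 x11620)) (Nat.add
    (f (Nat.add x47432 x11616)) (Nat.add (f (Nat.add x47434 x11614)) (Nat.add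
    (f (Nat.add x47436 x11612)) (Nat.add (f (Nat.add x47444 x11604)) (Nat.add
    (f (Nat.add x47446 x11602)) (Nat.add (f (Nat.add x47450 x11598)) (Nat.add
    (f (Nat.add x47452 x11596)) (Nat.add (f (Nat.add x47454 x11594)) (Nat.add
    (f (Nat.add x47458 x11590)) (Nat.add (f (Nat.add x47460 x11588)) (Nat.add
    (f (Nat.add x47474 x11574)) (Nat.add (f (Nat.add x47480 x11568)) (Nat.add
    (f (Nat.add x47482 x11566)) (Nat.add (f (Nat.add x47486 x11562))
    0)))))))))))))))))))))))))))))))))))))))))))))))))))))))))))) (Nat.add (Nat.add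
    (f (Nat.add x47488 x11560)) (Nat.add (f (Nat.add x47490 x11558)) (Nat.add
    (f (Nat.add x47498 x11550)) (Nat.add (f (Nat.add x47500 x11548)) (Nat.add
    (f (Nat.add x47504 x11544)) (Nat.add (f (Nat.add x47506 x11542)) (Nat.add
    (f (Nat.add x47508 x11540)) (Nat.add (f (Nat.add x47512 x11536)) (Nat.add
    (f (Nat.add x47514 x11534)) (Nat.add (f (Nat.add x47522 x11526)) (Nat.add
    (f (Nat.add x47524 x11524)) (Nat.add (f (Nat.add x47526 x11522)) (Nat.add
    (f (Nat.add x47530 x11518)) (Nat.add (f (Nat.add x47532 x11516)) (Nat.add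
    (f (Nat.add x47538 x11510)) (Nat.add (f (Nat.add x47552 x11496)) (Nat.add
    (f (Nat.add x47554 x11494)) (Nat.add (f (Nat.add x47558 x11490)) (Nat.add
    (f (Nat.add x47560 x11488)) (Nat.add (f (Nat.add x47562 x11486)) (Nat.add
    (f (Nat.add x47566 x11482)) (Nat.add (f (Nat.add x47568 x11480)) (Nat.add
    (f (Nat.add x47576 x11472)) (Nat.add (f (Nat.add x47578 x11470)) (Nat.add
    (f (Nat.add x47580 x11468)) (Nat.add (f (Nat.add x47584 x11464)) (Nat.add
    (f (Nat.add x47586 x11462)) (Nat.add (f (Nat.add x47592 x11456)) (Nat.add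
    (f (Nat.add x47602 x11446)) (Nat.add (f (Nat.add x47604 x11444)) (Nat.add
    (f (Nat.add x47610 x11438)) (Nat.add (f (Nat.add x47636 x11412)) (Nat.add
    (f (Nat.add x47642 x11406)) (Nat.add (f (Nat.add x47644 x11404)) (Nat.add
    (f (Nat.add x47648 x11400)) (Nat.add (f (Nat.add x47650 x11398)) (Nat.add
    (f (Nat.add x47652 x11396)) (Nat.add (f (Nat.add x47660 x11388)) (Nat.add
    (f (Nat.add x47662 x11386)) (Nat.add (f (Nat.add x47666 x11382)) (Nat.add
    (f (Nat.add x47668 x11380)) (Nat.add (f (Nat.add x47670 x11378)) (Nat.add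
    (f (Nat.add x47674 x11374)) (Nat.add (f (Nat.add x47676 x11372)) (Nat.add
    (f (Nat.add x47684 x11364)) (Nat.add (f (Nat.add x47686 x11362)) (Nat.add
    (f (Nat.add x47688 x11360)) (Nat.add (f (Nat.add x47692 x11356)) (Nat.add
    (f (Nat.add x47694 x11354)) (Nat.add (f (Nat.add x47700 x11348)) (Nat.add
    (f (Nat.add x47714 x11334)) (Nat.add (f (Nat.add x47716 x11332)) (Nat.add
    (f (Nat.add x47720 x11328)) (Nat.add (f (Nat.add x47722 x11326)) (Nat.add
    (f (Nat.add x47724 x11324)) (Nat.add (f (Nat.add x47728 x11320)) (Nat.add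
    (f (Nat.add x47730 x11318)) (Nat.add (f (Nat.add x47738 x11310)) (Nat.add
    (f (Nat.add x47740 x11308)) (Nat.add (f (Nat.add x47742 x11306))
    0)))))))))))))))))))))))))))))))))))))))))))))))))))))))))))) (Nat.add (Nat.add
    (f (Nat.add x47746 x11302)) (Nat.add (f (Nat.add x47748 x11300)) (Nat.add
    (f (Nat.add x47754 x11294)) (Nat.add (f (Nat.add x47764 x11284)) (Nat.add
    (f (Nat.add x47766 x11282)) (Nat.add (f (Nat.add x47772 x11276)) (Nat.add
    (f (Nat.add x47792 x11256)) (Nat.add (f (Nat.add x47794 x11254)) (Nat.add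
    (f (Nat.add x47796 x11252)) (Nat.add (f (Nat.add x47800 x11248)) (Nat.add
    (f (Nat.add x47802 x11246)) (Nat.add (f (Nat.add x47808 x11240)) (Nat.add
    (f (Nat.add x47818 x11230)) (Nat.add (f (Nat.add x47820 x11228)) (Nat.add
    (f (Nat.add x47826 x11222)) (Nat.add (f (Nat.add x47844 x11204)) (Nat.add
    (f (Nat.add x47876 x11172)) (Nat.add (f (Nat.add x47878 x11170)) (Nat.add
    (f (Nat.add x47882 x11166)) (Nat.add (f (Nat.add x47884 x11164)) (Nat.add
    (f (Nat.add x47886 x11162)) (Nat.add (f (Nat.add x47890 x11158)) (Nat.add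
    (f (Nat.add x47892 x11156)) (Nat.add (f (Nat.add x47900 x11148)) (Nat.add
    (f (Nat.add x47902 x11146)) (Nat.add (f (Nat.add x47904 x11144)) (Nat.add
    (f (Nat.add x47908 x11140)) (Nat.add (f (Nat.add x47910 x11138)) (Nat.add
    (f (Nat.add x47916 x11132)) (Nat.add (f (Nat.add x47926 x11122)) (Nat.add
    (f (Nat.add x47928 x11120)) (Nat.add (f (Nat.add x47934 x11114)) (Nat.add
    (f (Nat.add x47954 x11094)) (Nat.add (f (Nat.add x47956 x11092)) (Nat.add
    (f (Nat.add x47958 x11090)) (Nat.add (f (Nat.add x47962 x11086)) (Nat.add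
    (f (Nat.add x47964 x11084)) (Nat.add (f (Nat.add x47970 x11078)) (Nat.add
    (f (Nat.add x47980 x11068)) (Nat.add (f (Nat.add x47982 x11066)) (Nat.add
    (f (Nat.add x47988 x11060)) (Nat.add (f (Nat.add x48006 x11042)) (Nat.add
    (f (Nat.add x48034 x11014)) (Nat.add (f (Nat.add x48036 x11012)) (Nat.add
    (f (Nat.add x48042 x11006)) (Nat.add (f (Nat.add x48060 x10988)) (Nat.add
    (f (Nat.add x48140 x10908)) (Nat.add (f (Nat.add x48158 x10890)) (Nat.add
    (f (Nat.add x48164 x10884)) (Nat.add (f (Nat.add x48166 x10882)) (Nat.add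
    (f (Nat.add x48176 x10872)) (Nat.add (f (Nat.add x48182 x10866)) (Nat.add
    (f (Nat.add x48184 x10864)) (Nat.add (f (Nat.add x48188 x10860)) (Nat.add
    (f (Nat.add x48190 x10858)) (Nat.add (f (Nat.add x48192 x10856)) (Nat.add
    (f (Nat.add x48212 x10836)) (Nat.add (f (Nat.add x48218 x10830)) (Nat.add
    (f (Nat.add x48220 x10828)) (Nat.add (f (Nat.add x48230 x10818))
    0)))))))))))))))))))))))))))))))))))))))))))))))))))))))))))) (Nat.add (Nat.add
    (f (Nat.add x48236 x10812)) (Nat.add (f (Nat.add x48238 x10810)) (Nat.add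
    (f (Nat.add x48242 x10806)) (Nat.add (f (Nat.add x48244 x10804)) (Nat.add
    (f (Nat.add x48246 x10802)) (Nat.add (f (Nat.add x48254 x10794)) (Nat.add
    (f (Nat.add x48256 x10792)) (Nat.add (f (Nat.add x48260 x10788)) (Nat.add
    (f (Nat.add x48262 x10786)) (Nat.add (f (Nat.add x48264 x10784)) (Nat.add
    (f (Nat.add x48268 x10780)) (Nat.add (f (Nat.add x48270 x10778)) (Nat.add
    (f (Nat.add x48284 x10764)) (Nat.add (f (Nat.add x48290 x10758)) (Nat.add
    (f (Nat.add x48292 x10756)) (Nat.add (f (Nat.add x48296 x10752)) (Nat.add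
    (f (Nat.add x48298 x10750)) (Nat.add (f (Nat.add x48300 x10748)) (Nat.add
    (f (Nat.add x48308 x10740)) (Nat.add (f (Nat.add x48310 x10738)) (Nat.add
    (f (Nat.add x48314 x10734)) (Nat.add (f (Nat.add x48316 x10732)) (Nat.add
    (f (Nat.add x48318 x10730)) (Nat.add (f (Nat.add x48322 x10726)) (Nat.add
    (f (Nat.add x48324 x10724)) (Nat.add (f (Nat.add x48332 x10716)) (Nat.add
    (f (Nat.add x48334 x10714)) (Nat.add (f (Nat.add x48336 x10712)) (Nat.add
    (f (Nat.add x48340 x10708)) (Nat.add (f (Nat.add x48342 x10706)) (Nat.add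
    (f (Nat.add x48348 x10700)) (Nat.add (f (Nat.add x48374 x10674)) (Nat.add
    (f (Nat.add x48380 x10668)) (Nat.add (f (Nat.add x48382 x10666)) (Nat.add
    (f (Nat.add x48392 x10656)) (Nat.add (f (Nat.add x48398 x10650)) (Nat.add
    (f (Nat.add x48400 x10648)) (Nat.add (f (Nat.add x48404 x10644)) (Nat.add
    (f (Nat.add x48406 x10642)) (Nat.add (f (Nat.add x48408 x10640)) (Nat.add
    (f (Nat.add x48416 x10632)) (Nat.add (f (Nat.add x48418 x10630)) (Nat.add
    (f (Nat.add x48422 x10626)) (Nat.add (f (Nat.add x48424 x10624)) (Nat.add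
    (f (Nat.add x48426 x10622)) (Nat.add (f (Nat.add x48430 x10618)) (Nat.add
    (f (Nat.add x48432 x10616)) (Nat.add (f (Nat.add x48446 x10602)) (Nat.add
    (f (Nat.add x48452 x10596)) (Nat.add (f (Nat.add x48454 x10594)) (Nat.add
    (f (Nat.add x48458 x10590)) (Nat.add (f (Nat.add x48460 x10588)) (Nat.add
    (f (Nat.add x48462 x10586)) (Nat.add (f (Nat.add x48470 x10578)) (Nat.add
    (f (Nat.add x48472 x10576)) (Nat.add (f (Nat.add x48476 x10572)) (Nat.add
    (f (Nat.add x48478 x10570)) (Nat.add (f (Nat.add x48480 x10568)) (Nat.add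
    (f (Nat.add x48484 x10564)) (Nat.add (f (Nat.add x48486 x10562))
    0)))))))))))))))))))))))))))))))))))))))))))))))))))))))))))) (Nat.add (Nat.add
    (f (Nat.add x48494 x10554)) (Nat.add (f (Nat.add x48496 x10552)) (Nat.add
    (f (Nat.add x48498 x10550)) (Nat.add (f (Nat.add x48502 x10546)) (Nat.add
    (f (Nat.add x48504 x10544)) (Nat.add (f (Nat.add x48510 x10538)) (Nat.add
    (f (Nat.add x48524 x10524)) (Nat.add (f (Nat.add x48526 x10522)) (Nat.add
    (f (Nat.add x48530 x10518)) (Nat.add (f (Nat.add x48532 x10516)) (Nat.add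
    (f (Nat.add x48534 x10514)) (Nat.add (f (Nat.add x48538 x10510)) (Nat.add
    (f (Nat.add x48540 x10508)) (Nat.add (f (Nat.add x48548 x10500)) (Nat.add
    (f (Nat.add x48550 x10498)) (Nat.add (f (Nat.add x48552 x10496)) (Nat.add
    (f (Nat.add x48556 x10492)) (Nat.add (f (Nat.add x48558 x10490)) (Nat.add
    (f (Nat.add x48564 x10484)) (Nat.add (f (Nat.add x48574 x10474)) (Nat.add
    (f (Nat.add x48576 x10472)) (Nat.add (f (Nat.add x48582 x10466)) (Nat.add
    (f (Nat.add x48608 x10440)) (Nat.add (f (Nat.add x48614 x10434)) (Nat.add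
    (f (Nat.add x48616 x10432)) (Nat.add (f (Nat.add x48620 x10428)) (Nat.add
    (f (Nat.add x48622 x10426)) (Nat.add (f (Nat.add x48624 x10424)) (Nat.add
    (f (Nat.add x48632 x10416)) (Nat.add (f (Nat.add x48634 x10414)) (Nat.add
    (f (Nat.add x48638 x10410)) (Nat.add (f (Nat.add x48640 x10408)) (Nat.add
    (f (Nat.add x48642 x10406)) (Nat.add (f (Nat.add x48646 x10402)) (Nat.add
    (f (Nat.add x48648 x10400)) (Nat.add (f (Nat.add x48656 x10392)) (Nat.add
    (f (Nat.add x48658 x10390)) (Nat.add (f (Nat.add x48660 x10388)) (Nat.add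
    (f (Nat.add x48664 x10384)) (Nat.add (f (Nat.add x48666 x10382)) (Nat.add
    (f (Nat.add x48672 x10376)) (Nat.add (f (Nat.add x48686 x10362)) (Nat.add
    (f (Nat.add x48688 x10360)) (Nat.add (f (Nat.add x48692 x10356)) (Nat.add
    (f (Nat.add x48694 x10354)) (Nat.add (f (Nat.add x48696 x10352)) (Nat.add
    (f (Nat.add x48700 x10348)) (Nat.add (f (Nat.add x48702 x10346)) (Nat.add
    (f (Nat.add x48710 x10338)) (Nat.add (f (Nat.add x48712 x10336)) (Nat.add
    (f (Nat.add x48714 x10334)) (Nat.add (f (Nat.add x48718 x10330)) (Nat.add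
    (f (Nat.add x48720 x10328)) (Nat.add (f (Nat.add x48726 x10322)) (Nat.add
    (f (Nat.add x48736 x10312)) (Nat.add (f (Nat.add x48738 x10310)) (Nat.add
    (f (Nat.add x48744 x10304)) (Nat.add (f (Nat.add x48764 x10284)) (Nat.add
    (f (Nat.add x48766 x10282)) (Nat.add (f (Nat.add x48768 x10280))
    0)))))))))))))))))))))))))))))))))))))))))))))))))))))))))))) (Nat.add (Nat.add
    (f (Nat.add x48772 x10276)) (Nat.add (f (Nat.add x48774 x10274)) (Nat.add
    (f (Nat.add x48780 x10268)) (Nat.add (f (Nat.add x48790 x10258)) (Nat.add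
    (f (Nat.add x48792 x10256)) (Nat.add (f (Nat.add x48798 x10250)) (Nat.add
    (f (Nat.add x48816 x10232)) (Nat.add (f (Nat.add x48860 x10188)) (Nat.add
    (f (Nat.add x48866 x10182)) (Nat.add (f (Nat.add x48868 x10180)) (Nat.add
    (f (Nat.add x48878 x10170)) (Nat.add (f (Nat.add x48884 x10164)) (Nat.add
    (f (Nat.add x48886 x10162)) (Nat.add (f (Nat.add x48890 x10158)) (Nat.add
    (f (Nat.add x48892 x10156)) (Nat.add (f (Nat.add x48894 x10154)) (Nat.add
    (f (Nat.add x48902 x10146)) (Nat.add (f (Nat.add x48904 x10144)) (Nat.add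
    (f (Nat.add x48908 x10140)) (Nat.add (f (Nat.add x48910 x10138)) (Nat.add
    (f (Nat.add x48912 x10136)) (Nat.add (f (Nat.add x48916 x10132)) (Nat.add
    (f (Nat.add x48918 x10130)) (Nat.add (f (Nat.add x48932 x10116)) (Nat.add
    (f (Nat.add x48938 x10110)) (Nat.add (f (Nat.add x48940 x10108)) (Nat.add
    (f (Nat.add x48944 x10104)) (Nat.add (f (Nat.add x48946 x10102)) (Nat.add
    (f (Nat.add x48948 x10100)) (Nat.add (f (Nat.add x48956 x10092)) (Nat.add
    (f (Nat.add x48958 x10090)) (Nat.add (f (Nat.add x48962 x10086)) (Nat.add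
    (f (Nat.add x48964 x10084)) (Nat.add (f (Nat.add x48966 x10082)) (Nat.add
    (f (Nat.add x48970 x10078)) (Nat.add (f (Nat.add x48972 x10076)) (Nat.add
    (f (Nat.add x48980 x10068)) (Nat.add (f (Nat.add x48982 x10066)) (Nat.add
    (f (Nat.add x48984 x10064)) (Nat.add (f (Nat.add x48988 x10060)) (Nat.add
    (f (Nat.add x48990 x10058)) (Nat.add (f (Nat.add x48996 x10052)) (Nat.add
    (f (Nat.add x49010 x10038)) (Nat.add (f (Nat.add x49012 x10036)) (Nat.add
    (f (Nat.add x49016 x10032)) (Nat.add (f (Nat.add x49018 x10030)) (Nat.add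
    (f (Nat.add x49020 x10028)) (Nat.add (f (Nat.add x49024 x10024)) (Nat.add
    (f (Nat.add x49026 x10022)) (Nat.add (f (Nat.add x49034 x10014)) (Nat.add
    (f (Nat.add x49036 x10012)) (Nat.add (f (Nat.add x49038 x10010)) (Nat.add
    (f (Nat.add x49042 x10006)) (Nat.add (f (Nat.add x49044 x10004)) (Nat.add
    (f (Nat.add x49050 x9998)) (Nat.add (f (Nat.add x49060 x9988)) (Nat.add
    (f (Nat.add x49062 x9986)) (Nat.add (f (Nat.add x49068 x9980)) (Nat.add
    (f (Nat.add x49094 x9954)) (Nat.add (f (Nat.add x49100 x9948))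
    0)))))))))))))))))))))))))))))))))))))))))))))))))))))))))))) (Nat.add (Nat.add
    (f (Nat.add x49102 x9946)) (Nat.add (f (Nat.add x49106 x9942)) (Nat.add
    (f (Nat.add x49108 x9940)) (Nat.add (f (Nat.add x49110 x9938)) (Nat.add
    (f (Nat.add x49118 x9930)) (Nat.add (f (Nat.add x49120 x9928)) (Nat.add
    (f (Nat.add x49124 x9924)) (Nat.add (f (Nat.add x49126 x9922)) (Nat.add
    (f (Nat.add x49128 x9920)) (Nat.add (f (Nat.add x49132 x9916)) (Nat.add
    (f (Nat.add x49134 x9914)) (Nat.add (f (Nat.add x49142 x9906)) (Nat.add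
    (f (Nat.add x49144 x9904)) (Nat.add (f (Nat.add x49146 x9902)) (Nat.add
    (f (Nat.add x49150 x9898)) (Nat.add (f (Nat.add x49152 x9896)) (Nat.add
    (f (Nat.add x49158 x9890)) (Nat.add (f (Nat.add x49172 x9876)) (Nat.add
    (f (Nat.add x49174 x9874)) (Nat.add (f (Nat.add x49178 x9870)) (Nat.add
    (f (Nat.add x49180 x9868)) (Nat.add (f (Nat.add x49182 x9866)) (Nat.add
    (f (Nat.add x49186 x9862)) (Nat.add (f (Nat.add x49188 x9860)) (Nat.add
    (f (Nat.add x49196 x9852)) (Nat.add (f (Nat.add x49198 x9850)) (Nat.add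
    (f (Nat.add x49200 x9848)) (Nat.add (f (Nat.add x49204 x9844)) (Nat.add
    (f (Nat.add x49206 x9842)) (Nat.add (f (Nat.add x49212 x9836)) (Nat.add
    (f (Nat.add x49222 x9826)) (Nat.add (f (Nat.add x49224 x9824)) (Nat.add
    (f (Nat.add x49230 x9818)) (Nat.add (f (Nat.add x49250 x9798)) (Nat.add
    (f (Nat.add x49252 x9796)) (Nat.add (f (Nat.add x49254 x9794)) (Nat.add
    (f (Nat.add x49258 x9790)) (Nat.add (f (Nat.add x49260 x9788)) (Nat.add
    (f (Nat.add x49266 x9782)) (Nat.add (f (Nat.add x49276 x9772)) (Nat.add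
    (f (Nat.add x49278 x9770)) (Nat.add (f (Nat.add x49284 x9764)) (Nat.add
    (f (Nat.add x49302 x9746)) (Nat.add (f (Nat.add x49334 x9714)) (Nat.add
    (f (Nat.add x49336 x9712)) (Nat.add (f (Nat.add x49340 x9708)) (Nat.add
    (f (Nat.add x49342 x9706)) (Nat.add (f (Nat.add x49344 x9704)) (Nat.add
    (f (Nat.add x49348 x9700)) (Nat.add (f (Nat.add x49350 x9698)) (Nat.add
    (f (Nat.add x49358 x9690)) (Nat.add (f (Nat.add x49360 x9688)) (Nat.add
    (f (Nat.add x49362 x9686)) (Nat.add (f (Nat.add x49366 x9682)) (Nat.add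
    (f (Nat.add x49368 x9680)) (Nat.add (f (Nat.add x49374 x9674)) (Nat.add
    (f (Nat.add x49384 x9664)) (Nat.add (f (Nat.add x49386 x9662)) (Nat.add
    (f (Nat.add x49392 x9656)) (Nat.add (f (Nat.add x49412 x9636))
    0)))))))))))))))))))))))))))))))))))))))))))))))))))))))))))) (Nat.add (Nat.add
    (f (Nat.add x49414 x9634)) (Nat.add (f (Nat.add x49416 x9632)) (Nat.add
    (f (Nat.add x49420 x9628)) (Nat.add (f (Nat.add x49422 x9626)) (Nat.add
    (f (Nat.add x49428 x9620)) (Nat.add (f (Nat.add x49438 x9610)) (Nat.add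
    (f (Nat.add x49440 x9608)) (Nat.add (f (Nat.add x49446 x9602)) (Nat.add
    (f (Nat.add x49464 x9584)) (Nat.add (f (Nat.add x49492 x9556)) (Nat.add
    (f (Nat.add x49494 x9554)) (Nat.add (f (Nat.add x49500 x9548)) (Nat.add
    (f (Nat.add x49518 x9530)) (Nat.add (f (Nat.add x49580 x9468)) (Nat.add
    (f (Nat.add x49586 x9462)) (Nat.add (f (Nat.add x49588 x9460)) (Nat.add
    (f (Nat.add x49592 x9456)) (Nat.add (f (Nat.add x49594 x9454)) (Nat.add
    (f (Nat.add x49596 x9452)) (Nat.add (f (Nat.add x49604 x9444)) (Nat.add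
    (f (Nat.add x49606 x9442)) (Nat.add (f (Nat.add x49610 x9438)) (Nat.add
    (f (Nat.add x49612 x9436)) (Nat.add (f (Nat.add x49614 x9434)) (Nat.add
    (f (Nat.add x49618 x9430)) (Nat.add (f (Nat.add x49620 x9428)) (Nat.add
    (f (Nat.add x49628 x9420)) (Nat.add (f (Nat.add x49630 x9418)) (Nat.add
    (f (Nat.add x49632 x9416)) (Nat.add (f (Nat.add x49636 x9412)) (Nat.add
    (f (Nat.add x49638 x9410)) (Nat.add (f (Nat.add x49644 x9404)) (Nat.add
    (f (Nat.add x49658 x9390)) (Nat.add (f (Nat.add x49660 x9388)) (Nat.add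
    (f (Nat.add x49664 x9384)) (Nat.add (f (Nat.add x49666 x9382)) (Nat.add
    (f (Nat.add x49668 x9380)) (Nat.add (f (Nat.add x49672 x9376)) (Nat.add
    (f (Nat.add x49674 x9374)) (Nat.add (f (Nat.add x49682 x9366)) (Nat.add
    (f (Nat.add x49684 x9364)) (Nat.add (f (Nat.add x49686 x9362)) (Nat.add
    (f (Nat.add x49690 x9358)) (Nat.add (f (Nat.add x49692 x9356)) (Nat.add
    (f (Nat.add x49698 x9350)) (Nat.add (f (Nat.add x49708 x9340)) (Nat.add
    (f (Nat.add x49710 x9338)) (Nat.add (f (Nat.add x49716 x9332)) (Nat.add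
    (f (Nat.add x49736 x9312)) (Nat.add (f (Nat.add x49738 x9310)) (Nat.add
    (f (Nat.add x49740 x9308)) (Nat.add (f (Nat.add x49744 x9304)) (Nat.add
    (f (Nat.add x49746 x9302)) (Nat.add (f (Nat.add x49752 x9296)) (Nat.add
    (f (Nat.add x49762 x9286)) (Nat.add (f (Nat.add x49764 x9284)) (Nat.add
    (f (Nat.add x49770 x9278)) (Nat.add (f (Nat.add x49788 x9260)) (Nat.add
    (f (Nat.add x49820 x9228)) (Nat.add (f (Nat.add x49822 x9226))
    0)))))))))))))))))))))))))))))))))))))))))))))))))))))))))))) (Nat.add (Nat.add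
    (f (Nat.add x49826 x9222)) (Nat.add (f (Nat.add x49828 x9220)) (Nat.add
    (f (Nat.add x49830 x9218)) (Nat.add (f (Nat.add x49834 x9214)) (Nat.add
    (f (Nat.add x49836 x9212)) (Nat.add (f (Nat.add x49844 x9204)) (Nat.add
    (f (Nat.add x49846 x9202)) (Nat.add (f (Nat.add x49848 x9200)) (Nat.add
    (f (Nat.add x49852 x9196)) (Nat.add (f (Nat.add x49854 x9194)) (Nat.add
    (f (Nat.add x49860 x9188)) (Nat.add (f (Nat.add x49870 x9178)) (Nat.add
    (f (Nat.add x49872 x9176)) (Nat.add (f (Nat.add x49878 x9170)) (Nat.add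
    (f (Nat.add x49898 x9150)) (Nat.add (f (Nat.add x49900 x9148)) (Nat.add
    (f (Nat.add x49902 x9146)) (Nat.add (f (Nat.add x49906 x9142)) (Nat.add
    (f (Nat.add x49908 x9140)) (Nat.add (f (Nat.add x49914 x9134)) (Nat.add
    (f (Nat.add x49924 x9124)) (Nat.add (f (Nat.add x49926 x9122)) (Nat.add
    (f (Nat.add x49932 x9116)) (Nat.add (f (Nat.add x49950 x9098)) (Nat.add
    (f (Nat.add x49978 x9070)) (Nat.add (f (Nat.add x49980 x9068)) (Nat.add
    (f (Nat.add x49986 x9062)) (Nat.add (f (Nat.add x50004 x9044)) (Nat.add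
    (f (Nat.add x50060 x8988)) (Nat.add (f (Nat.add x50062 x8986)) (Nat.add
    (f (Nat.add x50064 x8984)) (Nat.add (f (Nat.add x50068 x8980)) (Nat.add
    (f (Nat.add x50070 x8978)) (Nat.add (f (Nat.add x50076 x8972)) (Nat.add
    (f (Nat.add x50086 x8962)) (Nat.add (f (Nat.add x50088 x8960)) (Nat.add
    (f (Nat.add x50094 x8954)) (Nat.add (f (Nat.add x50112 x8936)) (Nat.add
    (f (Nat.add x50140 x8908)) (Nat.add (f (Nat.add x50142 x8906)) (Nat.add
    (f (Nat.add x50148 x8900)) (Nat.add (f (Nat.add x50166 x8882)) (Nat.add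
    (f (Nat.add x50220 x8828)) (Nat.add (f (Nat.add x50318 x8730)) (Nat.add
    (f (Nat.add x50324 x8724)) (Nat.add (f (Nat.add x50326 x8722)) (Nat.add
    (f (Nat.add x50336 x8712)) (Nat.add (f (Nat.add x50342 x8706)) (Nat.add
    (f (Nat.add x50344 x8704)) (Nat.add (f (Nat.add x50348 x8700)) (Nat.add
    (f (Nat.add x50350 x8698)) (Nat.add (f (Nat.add x50352 x8696)) (Nat.add
    (f (Nat.add x50360 x8688)) (Nat.add (f (Nat.add x50362 x8686)) (Nat.add
    (f (Nat.add x50366 x8682)) (Nat.add (f (Nat.add x50368 x8680)) (Nat.add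
    (f (Nat.add x50370 x8678)) (Nat.add (f (Nat.add x50374 x8674)) (Nat.add
    (f (Nat.add x50376 x8672)) (Nat.add (f (Nat.add x50390 x8658))
    0)))))))))))))))))))))))))))))))))))))))))))))))))))))))))))) (Nat.add (Nat.add
    (f (Nat.add x50396 x8652)) (Nat.add (f (Nat.add x50398 x8650)) (Nat.add
    (f (Nat.add x50402 x8646)) (Nat.add (f (Nat.add x50404 x8644)) (Nat.add
    (f (Nat.add x50406 x8642)) (Nat.add (f (Nat.add x50414 x8634)) (Nat.add
    (f (Nat.add x50416 x8632)) (Nat.add (f (Nat.add x50420 x8628)) (Nat.add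
    (f (Nat.add x50422 x8626)) (Nat.add (f (Nat.add x50424 x8624)) (Nat.add
    (f (Nat.add x50428 x8620)) (Nat.add (f (Nat.add x50430 x8618)) (Nat.add
    (f (Nat.add x50438 x8610)) (Nat.add (f (Nat.add x50440 x8608)) (Nat.add
    (f (Nat.add x50442 x8606)) (Nat.add (f (Nat.add x50446 x8602)) (Nat.add
    (f (Nat.add x50448 x8600)) (Nat.add (f (Nat.add x50454 x8594)) (Nat.add
    (f (Nat.add x50468 x8580)) (Nat.add (f (Nat.add x50470 x8578)) (Nat.add
    (f (Nat.add x50474 x8574)) (Nat.add (f (Nat.add x50476 x8572)) (Nat.add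
    (f (Nat.add x50478 x8570)) (Nat.add (f (Nat.add x50482 x8566)) (Nat.add
    (f (Nat.add x50484 x8564)) (Nat.add (f (Nat.add x50492 x8556)) (Nat.add
    (f (Nat.add x50494 x8554)) (Nat.add (f (Nat.add x50496 x8552)) (Nat.add
    (f (Nat.add x50500 x8548)) (Nat.add (f (Nat.add x50502 x8546)) (Nat.add
    (f (Nat.add x50508 x8540)) (Nat.add (f (Nat.add x50518 x8530)) (Nat.add
    (f (Nat.add x50520 x8528)) (Nat.add (f (Nat.add x50526 x8522)) (Nat.add
    (f (Nat.add x50552 x8496)) (Nat.add (f (Nat.add x50558 x8490)) (Nat.add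
    (f (Nat.add x50560 x8488)) (Nat.add (f (Nat.add x50564 x8484)) (Nat.add
    (f (Nat.add x50566 x8482)) (Nat.add (f (Nat.add x50568 x8480)) (Nat.add
    (f (Nat.add x50576 x8472)) (Nat.add (f (Nat.add x50578 x8470)) (Nat.add
    (f (Nat.add x50582 x8466)) (Nat.add (f (Nat.add x50584 x8464)) (Nat.add
    (f (Nat.add x50586 x8462)) (Nat.add (f (Nat.add x50590 x8458)) (Nat.add
    (f (Nat.add x50592 x8456)) (Nat.add (f (Nat.add x50600 x8448)) (Nat.add
    (f (Nat.add x50602 x8446)) (Nat.add (f (Nat.add x50604 x8444)) (Nat.add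
    (f (Nat.add x50608 x8440)) (Nat.add (f (Nat.add x50610 x8438)) (Nat.add
    (f (Nat.add x50616 x8432)) (Nat.add (f (Nat.add x50630 x8418)) (Nat.add
    (f (Nat.add x50632 x8416)) (Nat.add (f (Nat.add x50636 x8412)) (Nat.add
    (f (Nat.add x50638 x8410)) (Nat.add (f (Nat.add x50640 x8408)) (Nat.add
    (f (Nat.add x50644 x8404)) (Nat.add (f (Nat.add x50646 x8402))
    0)))))))))))))))))))))))))))))))))))))))))))))))))))))))))))) (Nat.add (Nat.add
    (f (Nat.add x50654 x8394)) (Nat.add (f (Nat.add x50656 x8392)) (Nat.add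
    (f (Nat.add x50658 x8390)) (Nat.add (f (Nat.add x50662 x8386)) (Nat.add
    (f (Nat.add x50664 x8384)) (Nat.add (f (Nat.add x50670 x8378)) (Nat.add
    (f (Nat.add x50680 x8368)) (Nat.add (f (Nat.add x50682 x8366)) (Nat.add
    (f (Nat.add x50688 x8360)) (Nat.add (f (Nat.add x50708 x8340)) (Nat.add
    (f (Nat.add x50710 x8338)) (Nat.add (f (Nat.add x50712 x8336)) (Nat.add
    (f (Nat.add x50716 x8332)) (Nat.add (f (Nat.add x50718 x8330)) (Nat.add
    (f (Nat.add x50724 x8324)) (Nat.add (f (Nat.add x50734 x8314)) (Nat.add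
    (f (Nat.add x50736 x8312)) (Nat.add (f (Nat.add x50742 x8306)) (Nat.add
    (f (Nat.add x50760 x8288)) (Nat.add (f (Nat.add x50792 x8256)) (Nat.add
    (f (Nat.add x50794 x8254)) (Nat.add (f (Nat.add x50798 x8250)) (Nat.add
    (f (Nat.add x50800 x8248)) (Nat.add (f (Nat.add x50802 x8246)) (Nat.add
    (f (Nat.add x50806 x8242)) (Nat.add (f (Nat.add x50808 x8240)) (Nat.add
    (f (Nat.add x50816 x8232)) (Nat.add (f (Nat.add x50818 x8230)) (Nat.add
    (f (Nat.add x50820 x8228)) (Nat.add (f (Nat.add x50824 x8224)) (Nat.add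
    (f (Nat.add x50826 x8222)) (Nat.add (f (Nat.add x50832 x8216)) (Nat.add
    (f (Nat.add x50842 x8206)) (Nat.add (f (Nat.add x50844 x8204)) (Nat.add
    (f (Nat.add x50850 x8198)) (Nat.add (f (Nat.add x50870 x8178)) (Nat.add
    (f (Nat.add x50872 x8176)) (Nat.add (f (Nat.add x50874 x8174)) (Nat.add
    (f (Nat.add x50878 x8170)) (Nat.add (f (Nat.add x50880 x8168)) (Nat.add
    (f (Nat.add x50886 x8162)) (Nat.add (f (Nat.add x50896 x8152)) (Nat.add
    (f (Nat.add x50898 x8150)) (Nat.add (f (Nat.add x50904 x8144)) (Nat.add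
    (f (Nat.add x50922 x8126)) (Nat.add (f (Nat.add x50950 x8098)) (Nat.add
    (f (Nat.add x50952 x8096)) (Nat.add (f (Nat.add x50958 x8090)) (Nat.add
    (f (Nat.add x50976 x8072)) (Nat.add (f (Nat.add x51038 x8010)) (Nat.add
    (f (Nat.add x51044 x8004)) (Nat.add (f (Nat.add x51046 x8002)) (Nat.add
    (f (Nat.add x51050 x7998)) (Nat.add (f (Nat.add x51052 x7996)) (Nat.add
    (f (Nat.add x51054 x7994)) (Nat.add (f (Nat.add x51062 x7986)) (Nat.add
    (f (Nat.add x51064 x7984)) (Nat.add (f (Nat.add x51068 x7980)) (Nat.add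
    (f (Nat.add x51070 x7978)) (Nat.add (f (Nat.add x51072 x7976))
    0)))))))))))))))))))))))))))))))))))))))))))))))))))))))))))) (Nat.add (Nat.add
    (f (Nat.add x51076 x7972)) (Nat.add (f (Nat.add x51078 x7970)) (Nat.add
    (f (Nat.add x51086 x7962)) (Nat.add (f (Nat.add x51088 x7960)) (Nat.add
    (f (Nat.add x51090 x7958)) (Nat.add (f (Nat.add x51094 x7954)) (Nat.add
    (f (Nat.add x51096 x7952)) (Nat.add (f (Nat.add x51102 x7946)) (Nat.add
    (f (Nat.add x51116 x7932)) (Nat.add (f (Nat.add x51118 x7930)) (Nat.add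
    (f (Nat.add x51122 x7926)) (Nat.add (f (Nat.add x51124 x7924)) (Nat.add
    (f (Nat.add x51126 x7922)) (Nat.add (f (Nat.add x51130 x7918)) (Nat.add
    (f (Nat.add x51132 x7916)) (Nat.add (f (Nat.add x51140 x7908)) (Nat.add
    (f (Nat.add x51142 x7906)) (Nat.add (f (Nat.add x51144 x7904)) (Nat.add
    (f (Nat.add x51148 x7900)) (Nat.add (f (Nat.add x51150 x7898)) (Nat.add
    (f (Nat.add x51156 x7892)) (Nat.add (f (Nat.add x51166 x7882)) (Nat.add
    (f (Nat.add x51168 x7880)) (Nat.add (f (Nat.add x51174 x7874)) (Nat.add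
    (f (Nat.add x51194 x7854)) (Nat.add (f (Nat.add x51196 x7852)) (Nat.add
    (f (Nat.add x51198 x7850)) (Nat.add (f (Nat.add x51202 x7846)) (Nat.add
    (f (Nat.add x51204 x7844)) (Nat.add (f (Nat.add x51210 x7838)) (Nat.add
    (f (Nat.add x51220 x7828)) (Nat.add (f (Nat.add x51222 x7826)) (Nat.add
    (f (Nat.add x51228 x7820)) (Nat.add (f (Nat.add x51246 x7802)) (Nat.add
    (f (Nat.add x51278 x7770)) (Nat.add (f (Nat.add x51280 x7768)) (Nat.add
    (f (Nat.add x51284 x7764)) (Nat.add (f (Nat.add x51286 x7762)) (Nat.add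
    (f (Nat.add x51288 x7760)) (Nat.add (f (Nat.add x51292 x7756)) (Nat.add
    (f (Nat.add x51294 x7754)) (Nat.add (f (Nat.add x51302 x7746)) (Nat.add
    (f (Nat.add x51304 x7744)) (Nat.add (f (Nat.add x51306 x7742)) (Nat.add
    (f (Nat.add x51310 x7738)) (Nat.add (f (Nat.add x51312 x7736)) (Nat.add
    (f (Nat.add x51318 x7730)) (Nat.add (f (Nat.add x51328 x7720)) (Nat.add
    (f (Nat.add x51330 x7718)) (Nat.add (f (Nat.add x51336 x7712)) (Nat.add
    (f (Nat.add x51356 x7692)) (Nat.add (f (Nat.add x51358 x7690)) (Nat.add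
    (f (Nat.add x51360 x7688)) (Nat.add (f (Nat.add x51364 x7684)) (Nat.add
    (f (Nat.add x51366 x7682)) (Nat.add (f (Nat.add x51372 x7676)) (Nat.add
    (f (Nat.add x51382 x7666)) (Nat.add (f (Nat.add x51384 x7664)) (Nat.add
    (f (Nat.add x51390 x7658)) (Nat.add (f (Nat.add x51408 x7640))
    0)))))))))))))))))))))))))))))))))))))))))))))))))))))))))))) (Nat.add (Nat.add
    (f (Nat.add x51436 x7612)) (Nat.add (f (Nat.add x51438 x7610)) (Nat.add
    (f (Nat.add x51444 x7604)) (Nat.add (f (Nat.add x51462 x7586)) (Nat.add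
    (f (Nat.add x51518 x7530)) (Nat.add (f (Nat.add x51520 x7528)) (Nat.add
    (f (Nat.add x51522 x7526)) (Nat.add (f (Nat.add x51526 x7522)) (Nat.add
    (f (Nat.add x51528 x7520)) (Nat.add (f (Nat.add x51534 x7514)) (Nat.add
    (f (Nat.add x51544 x7504)) (Nat.add (f (Nat.add x51546 x7502)) (Nat.add
    (f (Nat.add x51552 x7496)) (Nat.add (f (Nat.add x51570 x7478)) (Nat.add
    (f (Nat.add x51598 x7450)) (Nat.add (f (Nat.add x51600 x7448)) (Nat.add
    (f (Nat.add x51606 x7442)) (Nat.add (f (Nat.add x51624 x7424)) (Nat.add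
    (f (Nat.add x51678 x7370)) (Nat.add (f (Nat.add x51764 x7284)) (Nat.add
    (f (Nat.add x51766 x7282)) (Nat.add (f (Nat.add x51770 x7278)) (Nat.add
    (f (Nat.add x51772 x7276)) (Nat.add (f (Nat.add x51774 x7274)) (Nat.add
    (f (Nat.add x51778 x7270)) (Nat.add (f (Nat.add x51780 x7268)) (Nat.add
    (f (Nat.add x51788 x7260)) (Nat.add (f (Nat.add x51790 x7258)) (Nat.add
    (f (Nat.add x51792 x7256)) (Nat.add (f (Nat.add x51796 x7252)) (Nat.add
    (f (Nat.add x51798 x7250)) (Nat.add (f (Nat.add x51804 x7244)) (Nat.add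
    (f (Nat.add x51814 x7234)) (Nat.add (f (Nat.add x51816 x7232)) (Nat.add
    (f (Nat.add x51822 x7226)) (Nat.add (f (Nat.add x51842 x7206)) (Nat.add
    (f (Nat.add x51844 x7204)) (Nat.add (f (Nat.add x51846 x7202)) (Nat.add
    (f (Nat.add x51850 x7198)) (Nat.add (f (Nat.add x51852 x7196)) (Nat.add
    (f (Nat.add x51858 x7190)) (Nat.add (f (Nat.add x51868 x7180)) (Nat.add
    (f (Nat.add x51870 x7178)) (Nat.add (f (Nat.add x51876 x7172)) (Nat.add
    (f (Nat.add x51894 x7154)) (Nat.add (f (Nat.add x51922 x7126)) (Nat.add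
    (f (Nat.add x51924 x7124)) (Nat.add (f (Nat.add x51930 x7118)) (Nat.add
    (f (Nat.add x51948 x7100)) (Nat.add (f (Nat.add x52004 x7044)) (Nat.add
    (f (Nat.add x52006 x7042)) (Nat.add (f (Nat.add x52008 x7040)) (Nat.add
    (f (Nat.add x52012 x7036)) (Nat.add (f (Nat.add x52014 x7034)) (Nat.add
    (f (Nat.add x52020 x7028)) (Nat.add (f (Nat.add x52030 x7018)) (Nat.add
    (f (Nat.add x52032 x7016)) (Nat.add (f (Nat.add x52038 x7010)) (Nat.add
    (f (Nat.add x52056 x6992)) (Nat.add (f (Nat.add x52084 x6964))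
    0)))))))))))))))))))))))))))))))))))))))))))))))))))))))))))) (Nat.add (Nat.add
    (f (Nat.add x52086 x6962)) (Nat.add (f (Nat.add x52092 x6956)) (Nat.add
    (f (Nat.add x52110 x6938)) (Nat.add (f (Nat.add x52164 x6884)) (Nat.add
    (f (Nat.add x52246 x6802)) (Nat.add (f (Nat.add x52248 x6800)) (Nat.add
    (f (Nat.add x52254 x6794)) (Nat.add (f (Nat.add x52272 x6776)) (Nat.add
    (f (Nat.add x52326 x6722)) (Nat.add (f (Nat.add x52514 x6534)) (Nat.add
    (f (Nat.add x52532 x6516)) (Nat.add (f (Nat.add x52538 x6510)) (Nat.add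
    (f (Nat.add x52540 x6508)) (Nat.add (f (Nat.add x52550 x6498)) (Nat.add
    (f (Nat.add x52556 x6492)) (Nat.add (f (Nat.add x52558 x6490)) (Nat.add
    (f (Nat.add x52562 x6486)) (Nat.add (f (Nat.add x52564 x6484)) (Nat.add
    (f (Nat.add x52566 x6482)) (Nat.add (f (Nat.add x52586 x6462)) (Nat.add
    (f (Nat.add x52592 x6456)) (Nat.add (f (Nat.add x52594 x6454)) (Nat.add
    (f (Nat.add x52604 x6444)) (Nat.add (f (Nat.add x52610 x6438)) (Nat.add
    (f (Nat.add x52612 x6436)) (Nat.add (f (Nat.add x52616 x6432)) (Nat.add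
    (f (Nat.add x52618 x6430)) (Nat.add (f (Nat.add x52620 x6428)) (Nat.add
    (f (Nat.add x52628 x6420)) (Nat.add (f (Nat.add x52630 x6418)) (Nat.add
    (f (Nat.add x52634 x6414)) (Nat.add (f (Nat.add x52636 x6412)) (Nat.add
    (f (Nat.add x52638 x6410)) (Nat.add (f (Nat.add x52642 x6406)) (Nat.add
    (f (Nat.add x52644 x6404)) (Nat.add (f (Nat.add x52658 x6390)) (Nat.add
    (f (Nat.add x52664 x6384)) (Nat.add (f (Nat.add x52666 x6382)) (Nat.add
    (f (Nat.add x52670 x6378)) (Nat.add (f (Nat.add x52672 x6376)) (Nat.add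
    (f (Nat.add x52674 x6374)) (Nat.add (f (Nat.add x52682 x6366)) (Nat.add
    (f (Nat.add x52684 x6364)) (Nat.add (f (Nat.add x52688 x6360)) (Nat.add
    (f (Nat.add x52690 x6358)) (Nat.add (f (Nat.add x52692 x6356)) (Nat.add
    (f (Nat.add x52696 x6352)) (Nat.add (f (Nat.add x52698 x6350)) (Nat.add
    (f (Nat.add x52706 x6342)) (Nat.add (f (Nat.add x52708 x6340)) (Nat.add
    (f (Nat.add x52710 x6338)) (Nat.add (f (Nat.add x52714 x6334)) (Nat.add
    (f (Nat.add x52716 x6332)) (Nat.add (f (Nat.add x52722 x6326)) (Nat.add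
    (f (Nat.add x52748 x6300)) (Nat.add (f (Nat.add x52754 x6294)) (Nat.add
    (f (Nat.add x52756 x6292)) (Nat.add (f (Nat.add x52766 x6282)) (Nat.add
    (f (Nat.add x52772 x6276)) (Nat.add (f (Nat.add x52774 x6274))
    0)))))))))))))))))))))))))))))))))))))))))))))))))))))))))))) (Nat.add (Nat.add
    (f (Nat.add x52778 x6270)) (Nat.add (f (Nat.add x52780 x6268)) (Nat.add
    (f (Nat.add x52782 x6266)) (Nat.add (f (Nat.add x52790 x6258)) (Nat.add
    (f (Nat.add x52792 x6256)) (Nat.add (f (Nat.add x52796 x6252)) (Nat.add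
    (f (Nat.add x52798 x6250)) (Nat.add (f (Nat.add x52800 x6248)) (Nat.add
    (f (Nat.add x52804 x6244)) (Nat.add (f (Nat.add x52806 x6242)) (Nat.add
    (f (Nat.add x52820 x6228)) (Nat.add (f (Nat.add x52826 x6222)) (Nat.add
    (f (Nat.add x52828 x6220)) (Nat.add (f (Nat.add x52832 x6216)) (Nat.add
    (f (Nat.add x52834 x6214)) (Nat.add (f (Nat.add x52836 x6212)) (Nat.add
    (f (Nat.add x52844 x6204)) (Nat.add (f (Nat.add x52846 x6202)) (Nat.add
    (f (Nat.add x52850 x6198)) (Nat.add (f (Nat.add x52852 x6196)) (Nat.add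
    (f (Nat.add x52854 x6194)) (Nat.add (f (Nat.add x52858 x6190)) (Nat.add
    (f (Nat.add x52860 x6188)) (Nat.add (f (Nat.add x52868 x6180)) (Nat.add
    (f (Nat.add x52870 x6178)) (Nat.add (f (Nat.add x52872 x6176)) (Nat.add
    (f (Nat.add x52876 x6172)) (Nat.add (f (Nat.add x52878 x6170)) (Nat.add
    (f (Nat.add x52884 x6164)) (Nat.add (f (Nat.add x52898 x6150)) (Nat.add
    (f (Nat.add x52900 x6148)) (Nat.add (f (Nat.add x52904 x6144)) (Nat.add
    (f (Nat.add x52906 x6142)) (Nat.add (f (Nat.add x52908 x6140)) (Nat.add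
    (f (Nat.add x52912 x6136)) (Nat.add (f (Nat.add x52914 x6134)) (Nat.add
    (f (Nat.add x52922 x6126)) (Nat.add (f (Nat.add x52924 x6124)) (Nat.add
    (f (Nat.add x52926 x6122)) (Nat.add (f (Nat.add x52930 x6118)) (Nat.add
    (f (Nat.add x52932 x6116)) (Nat.add (f (Nat.add x52938 x6110)) (Nat.add
    (f (Nat.add x52948 x6100)) (Nat.add (f (Nat.add x52950 x6098)) (Nat.add
    (f (Nat.add x52956 x6092)) (Nat.add (f (Nat.add x52982 x6066)) (Nat.add
    (f (Nat.add x52988 x6060)) (Nat.add (f (Nat.add x52990 x6058)) (Nat.add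
    (f (Nat.add x52994 x6054)) (Nat.add (f (Nat.add x52996 x6052)) (Nat.add
    (f (Nat.add x52998 x6050)) (Nat.add (f (Nat.add x53006 x6042)) (Nat.add
    (f (Nat.add x53008 x6040)) (Nat.add (f (Nat.add x53012 x6036)) (Nat.add
    (f (Nat.add x53014 x6034)) (Nat.add (f (Nat.add x53016 x6032)) (Nat.add
    (f (Nat.add x53020 x6028)) (Nat.add (f (Nat.add x53022 x6026)) (Nat.add
    (f (Nat.add x53030 x6018)) (Nat.add (f (Nat.add x53032 x6016))
    0)))))))))))))))))))))))))))))))))))))))))))))))))))))))))))) (Nat.add (Nat.add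
    (f (Nat.add x53034 x6014)) (Nat.add (f (Nat.add x53038 x6010)) (Nat.add
    (f (Nat.add x53040 x6008)) (Nat.add (f (Nat.add x53046 x6002)) (Nat.add
    (f (Nat.add x53060 x5988)) (Nat.add (f (Nat.add x53062 x5986)) (Nat.add
    (f (Nat.add x53066 x5982)) (Nat.add (f (Nat.add x53068 x5980)) (Nat.add
    (f (Nat.add x53070 x5978)) (Nat.add (f (Nat.add x53074 x5974)) (Nat.add
    (f (Nat.add x53076 x5972)) (Nat.add (f (Nat.add x53084 x5964)) (Nat.add
    (f (Nat.add x53086 x5962)) (Nat.add (f (Nat.add x53088 x5960)) (Nat.add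
    (f (Nat.add x53092 x5956)) (Nat.add (f (Nat.add x53094 x5954)) (Nat.add
    (f (Nat.add x53100 x5948)) (Nat.add (f (Nat.add x53110 x5938)) (Nat.add
    (f (Nat.add x53112 x5936)) (Nat.add (f (Nat.add x53118 x5930)) (Nat.add
    (f (Nat.add x53138 x5910)) (Nat.add (f (Nat.add x53140 x5908)) (Nat.add
    (f (Nat.add x53142 x5906)) (Nat.add (f (Nat.add x53146 x5902)) (Nat.add
    (f (Nat.add x53148 x5900)) (Nat.add (f (Nat.add x53154 x5894)) (Nat.add
    (f (Nat.add x53164 x5884)) (Nat.add (f (Nat.add x53166 x5882)) (Nat.add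
    (f (Nat.add x53172 x5876)) (Nat.add (f (Nat.add x53190 x5858)) (Nat.add
    (f (Nat.add x53234 x5814)) (Nat.add (f (Nat.add x53240 x5808)) (Nat.add
    (f (Nat.add x53242 x5806)) (Nat.add (f (Nat.add x53252 x5796)) (Nat.add
    (f (Nat.add x53258 x5790)) (Nat.add (f (Nat.add x53260 x5788)) (Nat.add
    (f (Nat.add x53264 x5784)) (Nat.add (f (Nat.add x53266 x5782)) (Nat.add
    (f (Nat.add x53268 x5780)) (Nat.add (f (Nat.add x53276 x5772)) (Nat.add
    (f (Nat.add x53278 x5770)) (Nat.add (f (Nat.add x53282 x5766)) (Nat.add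
    (f (Nat.add x53284 x5764)) (Nat.add (f (Nat.add x53286 x5762)) (Nat.add
    (f (Nat.add x53290 x5758)) (Nat.add (f (Nat.add x53292 x5756)) (Nat.add
    (f (Nat.add x53306 x5742)) (Nat.add (f (Nat.add x53312 x5736)) (Nat.add
    (f (Nat.add x53314 x5734)) (Nat.add (f (Nat.add x53318 x5730)) (Nat.add
    (f (Nat.add x53320 x5728)) (Nat.add (f (Nat.add x53322 x5726)) (Nat.add
    (f (Nat.add x53330 x5718)) (Nat.add (f (Nat.add x53332 x5716)) (Nat.add
    (f (Nat.add x53336 x5712)) (Nat.add (f (Nat.add x53338 x5710)) (Nat.add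
    (f (Nat.add x53340 x5708)) (Nat.add (f (Nat.add x53344 x5704)) (Nat.add
    (f (Nat.add x53346 x5702)) (Nat.add (f (Nat.add x53354 x5694))
    0)))))))))))))))))))))))))))))))))))))))))))))))))))))))))))) (Nat.add (Nat.add
    (f (Nat.add x53356 x5692)) (Nat.add (f (Nat.add x53358 x5690)) (Nat.add
    (f (Nat.add x53362 x5686)) (Nat.add (f (Nat.add x53364 x5684)) (Nat.add
    (f (Nat.add x53370 x5678)) (Nat.add (f (Nat.add x53384 x5664)) (Nat.add
    (f (Nat.add x53386 x5662)) (Nat.add (f (Nat.add x53390 x5658)) (Nat.add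
    (f (Nat.add x53392 x5656)) (Nat.add (f (Nat.add x53394 x5654)) (Nat.add
    (f (Nat.add x53398 x5650)) (Nat.add (f (Nat.add x53400 x5648)) (Nat.add
    (f (Nat.add x53408 x5640)) (Nat.add (f (Nat.add x53410 x5638)) (Nat.add
    (f (Nat.add x53412 x5636)) (Nat.add (f (Nat.add x53416 x5632)) (Nat.add
    (f (Nat.add x53418 x5630)) (Nat.add (f (Nat.add x53424 x5624)) (Nat.add
    (f (Nat.add x53434 x5614)) (Nat.add (f (Nat.add x53436 x5612)) (Nat.add
    (f (Nat.add x53442 x5606)) (Nat.add (f (Nat.add x53468 x5580)) (Nat.add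
    (f (Nat.add x53474 x5574)) (Nat.add (f (Nat.add x53476 x5572)) (Nat.add
    (f (Nat.add x53480 x5568)) (Nat.add (f (Nat.add x53482 x5566)) (Nat.add
    (f (Nat.add x53484 x5564)) (Nat.add (f (Nat.add x53492 x5556)) (Nat.add
    (f (Nat.add x53494 x5554)) (Nat.add (f (Nat.add x53498 x5550)) (Nat.add
    (f (Nat.add x53500 x5548)) (Nat.add (f (Nat.add x53502 x5546)) (Nat.add
    (f (Nat.add x53506 x5542)) (Nat.add (f (Nat.add x53508 x5540)) (Nat.add
    (f (Nat.add x53516 x5532)) (Nat.add (f (Nat.add x53518 x5530)) (Nat.add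
    (f (Nat.add x53520 x5528)) (Nat.add (f (Nat.add x53524 x5524)) (Nat.add
    (f (Nat.add x53526 x5522)) (Nat.add (f (Nat.add x53532 x5516)) (Nat.add
    (f (Nat.add x53546 x5502)) (Nat.add (f (Nat.add x53548 x5500)) (Nat.add
    (f (Nat.add x53552 x5496)) (Nat.add (f (Nat.add x53554 x5494)) (Nat.add
    (f (Nat.add x53556 x5492)) (Nat.add (f (Nat.add x53560 x5488)) (Nat.add
    (f (Nat.add x53562 x5486)) (Nat.add (f (Nat.add x53570 x5478)) (Nat.add
    (f (Nat.add x53572 x5476)) (Nat.add (f (Nat.add x53574 x5474)) (Nat.add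
    (f (Nat.add x53578 x5470)) (Nat.add (f (Nat.add x53580 x5468)) (Nat.add
    (f (Nat.add x53586 x5462)) (Nat.add (f (Nat.add x53596 x5452)) (Nat.add
    (f (Nat.add x53598 x5450)) (Nat.add (f (Nat.add x53604 x5444)) (Nat.add
    (f (Nat.add x53624 x5424)) (Nat.add (f (Nat.add x53626 x5422)) (Nat.add
    (f (Nat.add x53628 x5420)) (Nat.add (f (Nat.add x53632 x5416))
    0)))))))))))))))))))))))))))))))))))))))))))))))))))))))))))) (Nat.add (Nat.add
    (f (Nat.add x53634 x5414)) (Nat.add (f (Nat.add x53640 x5408)) (Nat.add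
    (f (Nat.add x53650 x5398)) (Nat.add (f (Nat.add x53652 x5396)) (Nat.add
    (f (Nat.add x53658 x5390)) (Nat.add (f (Nat.add x53676 x5372)) (Nat.add
    (f (Nat.add x53708 x5340)) (Nat.add (f (Nat.add x53710 x5338)) (Nat.add
    (f (Nat.add x53714 x5334)) (Nat.add (f (Nat.add x53716 x5332)) (Nat.add
    (f (Nat.add x53718 x5330)) (Nat.add (f (Nat.add x53722 x5326)) (Nat.add
    (f (Nat.add x53724 x5324)) (Nat.add (f (Nat.add x53732 x5316)) (Nat.add
    (f (Nat.add x53734 x5314)) (Nat.add (f (Nat.add x53736 x5312)) (Nat.add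
    (f (Nat.add x53740 x5308)) (Nat.add (f (Nat.add x53742 x5306)) (Nat.add
    (f (Nat.add x53748 x5300)) (Nat.add (f (Nat.add x53758 x5290)) (Nat.add
    (f (Nat.add x53760 x5288)) (Nat.add (f (Nat.add x53766 x5282)) (Nat.add
    (f (Nat.add x53786 x5262)) (Nat.add (f (Nat.add x53788 x5260)) (Nat.add
    (f (Nat.add x53790 x5258)) (Nat.add (f (Nat.add x53794 x5254)) (Nat.add
    (f (Nat.add x53796 x5252)) (Nat.add (f (Nat.add x53802 x5246)) (Nat.add
    (f (Nat.add x53812 x5236)) (Nat.add (f (Nat.add x53814 x5234)) (Nat.add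
    (f (Nat.add x53820 x5228)) (Nat.add (f (Nat.add x53838 x5210)) (Nat.add
    (f (Nat.add x53866 x5182)) (Nat.add (f (Nat.add x53868 x5180)) (Nat.add
    (f (Nat.add x53874 x5174)) (Nat.add (f (Nat.add x53892 x5156)) (Nat.add
    (f (Nat.add x53954 x5094)) (Nat.add (f (Nat.add x53960 x5088)) (Nat.add
    (f (Nat.add x53962 x5086)) (Nat.add (f (Nat.add x53966 x5082)) (Nat.add
    (f (Nat.add x53968 x5080)) (Nat.add (f (Nat.add x53970 x5078)) (Nat.add
    (f (Nat.add x53978 x5070)) (Nat.add (f (Nat.add x53980 x5068)) (Nat.add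
    (f (Nat.add x53984 x5064)) (Nat.add (f (Nat.add x53986 x5062)) (Nat.add
    (f (Nat.add x53988 x5060)) (Nat.add (f (Nat.add x53992 x5056)) (Nat.add
    (f (Nat.add x53994 x5054)) (Nat.add (f (Nat.add x54002 x5046)) (Nat.add
    (f (Nat.add x54004 x5044)) (Nat.add (f (Nat.add x54006 x5042)) (Nat.add
    (f (Nat.add x54010 x5038)) (Nat.add (f (Nat.add x54012 x5036)) (Nat.add
    (f (Nat.add x54018 x5030)) (Nat.add (f (Nat.add x54032 x5016)) (Nat.add
    (f (Nat.add x54034 x5014)) (Nat.add (f (Nat.add x54038 x5010)) (Nat.add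
    (f (Nat.add x54040 x5008)) (Nat.add (f (Nat.add x54042 x5006))
    0)))))))))))))))))))))))))))))))))))))))))))))))))))))))))))) (Nat.add (Nat.add
    (f (Nat.add x54046 x5002)) (Nat.add (f (Nat.add x54048 x5000)) (Nat.add
    (f (Nat.add x54056 x4992)) (Nat.add (f (Nat.add x54058 x4990)) (Nat.add
    (f (Nat.add x54060 x4988)) (Nat.add (f (Nat.add x54064 x4984)) (Nat.add
    (f (Nat.add x54066 x4982)) (Nat.add (f (Nat.add x54072 x4976)) (Nat.add
    (f (Nat.add x54082 x4966)) (Nat.add (f (Nat.add x54084 x4964)) (Nat.add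
    (f (Nat.add x54090 x4958)) (Nat.add (f (Nat.add x54110 x4938)) (Nat.add
    (f (Nat.add x54112 x4936)) (Nat.add (f (Nat.add x54114 x4934)) (Nat.add
    (f (Nat.add x54118 x4930)) (Nat.add (f (Nat.add x54120 x4928)) (Nat.add
    (f (Nat.add x54126 x4922)) (Nat.add (f (Nat.add x54136 x4912)) (Nat.add
    (f (Nat.add x54138 x4910)) (Nat.add (f (Nat.add x54144 x4904)) (Nat.add
    (f (Nat.add x54162 x4886)) (Nat.add (f (Nat.add x54194 x4854)) (Nat.add
    (f (Nat.add x54196 x4852)) (Nat.add (f (Nat.add x54200 x4848)) (Nat.add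
    (f (Nat.add x54202 x4846)) (Nat.add (f (Nat.add x54204 x4844)) (Nat.add
    (f (Nat.add x54208 x4840)) (Nat.add (f (Nat.add x54210 x4838)) (Nat.add
    (f (Nat.add x54218 x4830)) (Nat.add (f (Nat.add x54220 x4828)) (Nat.add
    (f (Nat.add x54222 x4826)) (Nat.add (f (Nat.add x54226 x4822)) (Nat.add
    (f (Nat.add x54228 x4820)) (Nat.add (f (Nat.add x54234 x4814)) (Nat.add
    (f (Nat.add x54244 x4804)) (Nat.add (f (Nat.add x54246 x4802)) (Nat.add
    (f (Nat.add x54252 x4796)) (Nat.add (f (Nat.add x54272 x4776)) (Nat.add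
    (f (Nat.add x54274 x4774)) (Nat.add (f (Nat.add x54276 x4772)) (Nat.add
    (f (Nat.add x54280 x4768)) (Nat.add (f (Nat.add x54282 x4766)) (Nat.add
    (f (Nat.add x54288 x4760)) (Nat.add (f (Nat.add x54298 x4750)) (Nat.add
    (f (Nat.add x54300 x4748)) (Nat.add (f (Nat.add x54306 x4742)) (Nat.add
    (f (Nat.add x54324 x4724)) (Nat.add (f (Nat.add x54352 x4696)) (Nat.add
    (f (Nat.add x54354 x4694)) (Nat.add (f (Nat.add x54360 x4688)) (Nat.add
    (f (Nat.add x54378 x4670)) (Nat.add (f (Nat.add x54434 x4614)) (Nat.add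
    (f (Nat.add x54436 x4612)) (Nat.add (f (Nat.add x54438 x4610)) (Nat.add
    (f (Nat.add x54442 x4606)) (Nat.add (f (Nat.add x54444 x4604)) (Nat.add
    (f (Nat.add x54450 x4598)) (Nat.add (f (Nat.add x54460 x4588)) (Nat.add
    (f (Nat.add x54462 x4586)) (Nat.add (f (Nat.add x54468 x4580))
    0)))))))))))))))))))))))))))))))))))))))))))))))))))))))))))) (Nat.add (Nat.add
    (f (Nat.add x54486 x4562)) (Nat.add (f (Nat.add x54514 x4534)) (Nat.add
    (f (Nat.add x54516 x4532)) (Nat.add (f (Nat.add x54522 x4526)) (Nat.add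
    (f (Nat.add x54540 x4508)) (Nat.add (f (Nat.add x54594 x4454)) (Nat.add
    (f (Nat.add x54692 x4356)) (Nat.add (f (Nat.add x54698 x4350)) (Nat.add
    (f (Nat.add x54700 x4348)) (Nat.add (f (Nat.add x54710 x4338)) (Nat.add
    (f (Nat.add x54716 x4332)) (Nat.add (f (Nat.add x54718 x4330)) (Nat.add
    (f (Nat.add x54722 x4326)) (Nat.add (f (Nat.add x54724 x4324)) (Nat.add
    (f (Nat.add x54726 x4322)) (Nat.add (f (Nat.add x54734 x4314)) (Nat.add
    (f (Nat.add x54736 x4312)) (Nat.add (f (Nat.add x54740 x4308)) (Nat.add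
    (f (Nat.add x54742 x4306)) (Nat.add (f (Nat.add x54744 x4304)) (Nat.add
    (f (Nat.add x54748 x4300)) (Nat.add (f (Nat.add x54750 x4298)) (Nat.add
    (f (Nat.add x54764 x4284)) (Nat.add (f (Nat.add x54770 x4278)) (Nat.add
    (f (Nat.add x54772 x4276)) (Nat.add (f (Nat.add x54776 x4272)) (Nat.add
    (f (Nat.add x54778 x4270)) (Nat.add (f (Nat.add x54780 x4268)) (Nat.add
    (f (Nat.add x54788 x4260)) (Nat.add (f (Nat.add x54790 x4258)) (Nat.add
    (f (Nat.add x54794 x4254)) (Nat.add (f (Nat.add x54796 x4252)) (Nat.add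
    (f (Nat.add x54798 x4250)) (Nat.add (f (Nat.add x54802 x4246)) (Nat.add
    (f (Nat.add x54804 x4244)) (Nat.add (f (Nat.add x54812 x4236)) (Nat.add
    (f (Nat.add x54814 x4234)) (Nat.add (f (Nat.add x54816 x4232)) (Nat.add
    (f (Nat.add x54820 x4228)) (Nat.add (f (Nat.add x54822 x4226)) (Nat.add
    (f (Nat.add x54828 x4220)) (Nat.add (f (Nat.add x54842 x4206)) (Nat.add
    (f (Nat.add x54844 x4204)) (Nat.add (f (Nat.add x54848 x4200)) (Nat.add
    (f (Nat.add x54850 x4198)) (Nat.add (f (Nat.add x54852 x4196)) (Nat.add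
    (f (Nat.add x54856 x4192)) (Nat.add (f (Nat.add x54858 x4190)) (Nat.add
    (f (Nat.add x54866 x4182)) (Nat.add (f (Nat.add x54868 x4180)) (Nat.add
    (f (Nat.add x54870 x4178)) (Nat.add (f (Nat.add x54874 x4174)) (Nat.add
    (f (Nat.add x54876 x4172)) (Nat.add (f (Nat.add x54882 x4166)) (Nat.add
    (f (Nat.add x54892 x4156)) (Nat.add (f (Nat.add x54894 x4154)) (Nat.add
    (f (Nat.add x54900 x4148)) (Nat.add (f (Nat.add x54926 x4122)) (Nat.add
    (f (Nat.add x54932 x4116)) (Nat.add (f (Nat.add x54934 x4114))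
    0)))))))))))))))))))))))))))))))))))))))))))))))))))))))))))) (Nat.add (Nat.add
    (f (Nat.add x54938 x4110)) (Nat.add (f (Nat.add x54940 x4108)) (Nat.add
    (f (Nat.add x54942 x4106)) (Nat.add (f (Nat.add x54950 x4098)) (Nat.add
    (f (Nat.add x54952 x4096)) (Nat.add (f (Nat.add x54956 x4092)) (Nat.add
    (f (Nat.add x54958 x4090)) (Nat.add (f (Nat.add x54960 x4088)) (Nat.add
    (f (Nat.add x54964 x4084)) (Nat.add (f (Nat.add x54966 x4082)) (Nat.add
    (f (Nat.add x54974 x4074)) (Nat.add (f (Nat.add x54976 x4072)) (Nat.add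
    (f (Nat.add x54978 x4070)) (Nat.add (f (Nat.add x54982 x4066)) (Nat.add
    (f (Nat.add x54984 x4064)) (Nat.add (f (Nat.add x54990 x4058)) (Nat.add
    (f (Nat.add x55004 x4044)) (Nat.add (f (Nat.add x55006 x4042)) (Nat.add
    (f (Nat.add x55010 x4038)) (Nat.add (f (Nat.add x55012 x4036)) (Nat.add
    (f (Nat.add x55014 x4034)) (Nat.add (f (Nat.add x55018 x4030)) (Nat.add
    (f (Nat.add x55020 x4028)) (Nat.add (f (Nat.add x55028 x4020)) (Nat.add
    (f (Nat.add x55030 x4018)) (Nat.add (f (Nat.add x55032 x4016)) (Nat.add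
    (f (Nat.add x55036 x4012)) (Nat.add (f (Nat.add x55038 x4010)) (Nat.add
    (f (Nat.add x55044 x4004)) (Nat.add (f (Nat.add x55054 x3994)) (Nat.add
    (f (Nat.add x55056 x3992)) (Nat.add (f (Nat.add x55062 x3986)) (Nat.add
    (f (Nat.add x55082 x3966)) (Nat.add (f (Nat.add x55084 x3964)) (Nat.add
    (f (Nat.add x55086 x3962)) (Nat.add (f (Nat.add x55090 x3958)) (Nat.add
    (f (Nat.add x55092 x3956)) (Nat.add (f (Nat.add x55098 x3950)) (Nat.add
    (f (Nat.add x55108 x3940)) (Nat.add (f (Nat.add x55110 x3938)) (Nat.add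
    (f (Nat.add x55116 x3932)) (Nat.add (f (Nat.add x55134 x3914)) (Nat.add
    (f (Nat.add x55166 x3882)) (Nat.add (f (Nat.add x55168 x3880)) (Nat.add
    (f (Nat.add x55172 x3876)) (Nat.add (f (Nat.add x55174 x3874)) (Nat.add
    (f (Nat.add x55176 x3872)) (Nat.add (f (Nat.add x55180 x3868)) (Nat.add
    (f (Nat.add x55182 x3866)) (Nat.add (f (Nat.add x55190 x3858)) (Nat.add
    (f (Nat.add x55192 x3856)) (Nat.add (f (Nat.add x55194 x3854)) (Nat.add
    (f (Nat.add x55198 x3850)) (Nat.add (f (Nat.add x55200 x3848)) (Nat.add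
    (f (Nat.add x55206 x3842)) (Nat.add (f (Nat.add x55216 x3832)) (Nat.add
    (f (Nat.add x55218 x3830)) (Nat.add (f (Nat.add x55224 x3824)) (Nat.add
    (f (Nat.add x55244 x3804)) (Nat.add (f (Nat.add x55246 x3802))
    0)))))))))))))))))))))))))))))))))))))))))))))))))))))))))))) (Nat.add (Nat.add
    (f (Nat.add x55248 x3800)) (Nat.add (f (Nat.add x55252 x3796)) (Nat.add
    (f (Nat.add x55254 x3794)) (Nat.add (f (Nat.add x55260 x3788)) (Nat.add
    (f (Nat.add x55270 x3778)) (Nat.add (f (Nat.add x55272 x3776)) (Nat.add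
    (f (Nat.add x55278 x3770)) (Nat.add (f (Nat.add x55296 x3752)) (Nat.add
    (f (Nat.add x55324 x3724)) (Nat.add (f (Nat.add x55326 x3722)) (Nat.add
    (f (Nat.add x55332 x3716)) (Nat.add (f (Nat.add x55350 x3698)) (Nat.add
    (f (Nat.add x55412 x3636)) (Nat.add (f (Nat.add x55418 x3630)) (Nat.add
    (f (Nat.add x55420 x3628)) (Nat.add (f (Nat.add x55424 x3624)) (Nat.add
    (f (Nat.add x55426 x3622)) (Nat.add (f (Nat.add x55428 x3620)) (Nat.add
    (f (Nat.add x55436 x3612)) (Nat.add (f (Nat.add x55438 x3610)) (Nat.add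
    (f (Nat.add x55442 x3606)) (Nat.add (f (Nat.add x55444 x3604)) (Nat.add
    (f (Nat.add x55446 x3602)) (Nat.add (f (Nat.add x55450 x3598)) (Nat.add
    (f (Nat.add x55452 x3596)) (Nat.add (f (Nat.add x55460 x3588)) (Nat.add
    (f (Nat.add x55462 x3586)) (Nat.add (f (Nat.add x55464 x3584)) (Nat.add
    (f (Nat.add x55468 x3580)) (Nat.add (f (Nat.add x55470 x3578)) (Nat.add
    (f (Nat.add x55476 x3572)) (Nat.add (f (Nat.add x55490 x3558)) (Nat.add
    (f (Nat.add x55492 x3556)) (Nat.add (f (Nat.add x55496 x3552)) (Nat.add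
    (f (Nat.add x55498 x3550)) (Nat.add (f (Nat.add x55500 x3548)) (Nat.add
    (f (Nat.add x55504 x3544)) (Nat.add (f (Nat.add x55506 x3542)) (Nat.add
    (f (Nat.add x55514 x3534)) (Nat.add (f (Nat.add x55516 x3532)) (Nat.add
    (f (Nat.add x55518 x3530)) (Nat.add (f (Nat.add x55522 x3526)) (Nat.add
    (f (Nat.add x55524 x3524)) (Nat.add (f (Nat.add x55530 x3518)) (Nat.add
    (f (Nat.add x55540 x3508)) (Nat.add (f (Nat.add x55542 x3506)) (Nat.add
    (f (Nat.add x55548 x3500)) (Nat.add (f (Nat.add x55568 x3480)) (Nat.add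
    (f (Nat.add x55570 x3478)) (Nat.add (f (Nat.add x55572 x3476)) (Nat.add
    (f (Nat.add x55576 x3472)) (Nat.add (f (Nat.add x55578 x3470)) (Nat.add
    (f (Nat.add x55584 x3464)) (Nat.add (f (Nat.add x55594 x3454)) (Nat.add
    (f (Nat.add x55596 x3452)) (Nat.add (f (Nat.add x55602 x3446)) (Nat.add
    (f (Nat.add x55620 x3428)) (Nat.add (f (Nat.add x55652 x3396)) (Nat.add
    (f (Nat.add x55654 x3394)) (Nat.add (f (Nat.add x55658 x3390))
    0)))))))))))))))))))))))))))))))))))))))))))))))))))))))))))) (Nat.add (Nat.add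
    (f (Nat.add x55660 x3388)) (Nat.add (f (Nat.add x55662 x3386)) (Nat.add
    (f (Nat.add x55666 x3382)) (Nat.add (f (Nat.add x55668 x3380)) (Nat.add
    (f (Nat.add x55676 x3372)) (Nat.add (f (Nat.add x55678 x3370)) (Nat.add
    (f (Nat.add x55680 x3368)) (Nat.add (f (Nat.add x55684 x3364)) (Nat.add
    (f (Nat.add x55686 x3362)) (Nat.add (f (Nat.add x55692 x3356)) (Nat.add
    (f (Nat.add x55702 x3346)) (Nat.add (f (Nat.add x55704 x3344)) (Nat.add
    (f (Nat.add x55710 x3338)) (Nat.add (f (Nat.add x55730 x3318)) (Nat.add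
    (f (Nat.add x55732 x3316)) (Nat.add (f (Nat.add x55734 x3314)) (Nat.add
    (f (Nat.add x55738 x3310)) (Nat.add (f (Nat.add x55740 x3308)) (Nat.add
    (f (Nat.add x55746 x3302)) (Nat.add (f (Nat.add x55756 x3292)) (Nat.add
    (f (Nat.add x55758 x3290)) (Nat.add (f (Nat.add x55764 x3284)) (Nat.add
    (f (Nat.add x55782 x3266)) (Nat.add (f (Nat.add x55810 x3238)) (Nat.add
    (f (Nat.add x55812 x3236)) (Nat.add (f (Nat.add x55818 x3230)) (Nat.add
    (f (Nat.add x55836 x3212)) (Nat.add (f (Nat.add x55892 x3156)) (Nat.add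
    (f (Nat.add x55894 x3154)) (Nat.add (f (Nat.add x55896 x3152)) (Nat.add
    (f (Nat.add x55900 x3148)) (Nat.add (f (Nat.add x55902 x3146)) (Nat.add
    (f (Nat.add x55908 x3140)) (Nat.add (f (Nat.add x55918 x3130)) (Nat.add
    (f (Nat.add x55920 x3128)) (Nat.add (f (Nat.add x55926 x3122)) (Nat.add
    (f (Nat.add x55944 x3104)) (Nat.add (f (Nat.add x55972 x3076)) (Nat.add
    (f (Nat.add x55974 x3074)) (Nat.add (f (Nat.add x55980 x3068)) (Nat.add
    (f (Nat.add x55998 x3050)) (Nat.add (f (Nat.add x56052 x2996)) (Nat.add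
    (f (Nat.add x56138 x2910)) (Nat.add (f (Nat.add x56140 x2908)) (Nat.add
    (f (Nat.add x56144 x2904)) (Nat.add (f (Nat.add x56146 x2902)) (Nat.add
    (f (Nat.add x56148 x2900)) (Nat.add (f (Nat.add x56152 x2896)) (Nat.add
    (f (Nat.add x56154 x2894)) (Nat.add (f (Nat.add x56162 x2886)) (Nat.add
    (f (Nat.add x56164 x2884)) (Nat.add (f (Nat.add x56166 x2882)) (Nat.add
    (f (Nat.add x56170 x2878)) (Nat.add (f (Nat.add x56172 x2876)) (Nat.add
    (f (Nat.add x56178 x2870)) (Nat.add (f (Nat.add x56188 x2860)) (Nat.add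
    (f (Nat.add x56190 x2858)) (Nat.add (f (Nat.add x56196 x2852)) (Nat.add
    (f (Nat.add x56216 x2832)) (Nat.add (f (Nat.add x56218 x2830))
    0)))))))))))))))))))))))))))))))))))))))))))))))))))))))))))) (Nat.add (Nat.add
    (f (Nat.add x56220 x2828)) (Nat.add (f (Nat.add x56224 x2824)) (Nat.add
    (f (Nat.add x56226 x2822)) (Nat.add (f (Nat.add x56232 x2816)) (Nat.add
    (f (Nat.add x56242 x2806)) (Nat.add (f (Nat.add x56244 x2804)) (Nat.add
    (f (Nat.add x56250 x2798)) (Nat.add (f (Nat.add x56268 x2780)) (Nat.add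
    (f (Nat.add x56296 x2752)) (Nat.add (f (Nat.add x56298 x2750)) (Nat.add
    (f (Nat.add x56304 x2744)) (Nat.add (f (Nat.add x56322 x2726)) (Nat.add
    (f (Nat.add x56378 x2670)) (Nat.add (f (Nat.add x56380 x2668)) (Nat.add
    (f (Nat.add x56382 x2666)) (Nat.add (f (Nat.add x56386 x2662)) (Nat.add
    (f (Nat.add x56388 x2660)) (Nat.add (f (Nat.add x56394 x2654)) (Nat.add
    (f (Nat.add x56404 x2644)) (Nat.add (f (Nat.add x56406 x2642)) (Nat.add
    (f (Nat.add x56412 x2636)) (Nat.add (f (Nat.add x56430 x2618)) (Nat.add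
    (f (Nat.add x56458 x2590)) (Nat.add (f (Nat.add x56460 x2588)) (Nat.add
    (f (Nat.add x56466 x2582)) (Nat.add (f (Nat.add x56484 x2564)) (Nat.add
    (f (Nat.add x56538 x2510)) (Nat.add (f (Nat.add x56620 x2428)) (Nat.add
    (f (Nat.add x56622 x2426)) (Nat.add (f (Nat.add x56628 x2420)) (Nat.add
    (f (Nat.add x56646 x2402)) (Nat.add (f (Nat.add x56700 x2348)) (Nat.add
    (f (Nat.add x56870 x2178)) (Nat.add (f (Nat.add x56876 x2172)) (Nat.add
    (f (Nat.add x56878 x2170)) (Nat.add (f (Nat.add x56882 x2166)) (Nat.add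
    (f (Nat.add x56884 x2164)) (Nat.add (f (Nat.add x56886 x2162)) (Nat.add
    (f (Nat.add x56894 x2154)) (Nat.add (f (Nat.add x56896 x2152)) (Nat.add
    (f (Nat.add x56900 x2148)) (Nat.add (f (Nat.add x56902 x2146)) (Nat.add
    (f (Nat.add x56904 x2144)) (Nat.add (f (Nat.add x56908 x2140)) (Nat.add
    (f (Nat.add x56910 x2138)) (Nat.add (f (Nat.add x56918 x2130)) (Nat.add
    (f (Nat.add x56920 x2128)) (Nat.add (f (Nat.add x56922 x2126)) (Nat.add
    (f (Nat.add x56926 x2122)) (Nat.add (f (Nat.add x56928 x2120)) (Nat.add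
    (f (Nat.add x56934 x2114)) (Nat.add (f (Nat.add x56948 x2100)) (Nat.add
    (f (Nat.add x56950 x2098)) (Nat.add (f (Nat.add x56954 x2094)) (Nat.add
    (f (Nat.add x56956 x2092)) (Nat.add (f (Nat.add x56958 x2090)) (Nat.add
    (f (Nat.add x56962 x2086)) (Nat.add (f (Nat.add x56964 x2084)) (Nat.add
    (f (Nat.add x56972 x2076)) (Nat.add (f (Nat.add x56974 x2074))
    0)))))))))))))))))))))))))))))))))))))))))))))))))))))))))))) (Nat.add (Nat.add
    (f (Nat.add x56976 x2072)) (Nat.add (f (Nat.add x56980 x2068)) (Nat.add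
    (f (Nat.add x56982 x2066)) (Nat.add (f (Nat.add x56988 x2060)) (Nat.add
    (f (Nat.add x56998 x2050)) (Nat.add (f (Nat.add x57000 x2048)) (Nat.add
    (f (Nat.add x57006 x2042)) (Nat.add (f (Nat.add x57026 x2022)) (Nat.add
    (f (Nat.add x57028 x2020)) (Nat.add (f (Nat.add x57030 x2018)) (Nat.add
    (f (Nat.add x57034 x2014)) (Nat.add (f (Nat.add x57036 x2012)) (Nat.add
    (f (Nat.add x57042 x2006)) (Nat.add (f (Nat.add x57052 x1996)) (Nat.add
    (f (Nat.add x57054 x1994)) (Nat.add (f (Nat.add x57060 x1988)) (Nat.add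
    (f (Nat.add x57078 x1970)) (Nat.add (f (Nat.add x57110 x1938)) (Nat.add
    (f (Nat.add x57112 x1936)) (Nat.add (f (Nat.add x57116 x1932)) (Nat.add
    (f (Nat.add x57118 x1930)) (Nat.add (f (Nat.add x57120 x1928)) (Nat.add
    (f (Nat.add x57124 x1924)) (Nat.add (f (Nat.add x57126 x1922)) (Nat.add
    (f (Nat.add x57134 x1914)) (Nat.add (f (Nat.add x57136 x1912)) (Nat.add
    (f (Nat.add x57138 x1910)) (Nat.add (f (Nat.add x57142 x1906)) (Nat.add
    (f (Nat.add x57144 x1904)) (Nat.add (f (Nat.add x57150 x1898)) (Nat.add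
    (f (Nat.add x57160 x1888)) (Nat.add (f (Nat.add x57162 x1886)) (Nat.add
    (f (Nat.add x57168 x1880)) (Nat.add (f (Nat.add x57188 x1860)) (Nat.add
    (f (Nat.add x57190 x1858)) (Nat.add (f (Nat.add x57192 x1856)) (Nat.add
    (f (Nat.add x57196 x1852)) (Nat.add (f (Nat.add x57198 x1850)) (Nat.add
    (f (Nat.add x57204 x1844)) (Nat.add (f (Nat.add x57214 x1834)) (Nat.add
    (f (Nat.add x57216 x1832)) (Nat.add (f (Nat.add x57222 x1826)) (Nat.add
    (f (Nat.add x57240 x1808)) (Nat.add (f (Nat.add x57268 x1780)) (Nat.add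
    (f (Nat.add x57270 x1778)) (Nat.add (f (Nat.add x57276 x1772)) (Nat.add
    (f (Nat.add x57294 x1754)) (Nat.add (f (Nat.add x57350 x1698)) (Nat.add
    (f (Nat.add x57352 x1696)) (Nat.add (f (Nat.add x57354 x1694)) (Nat.add
    (f (Nat.add x57358 x1690)) (Nat.add (f (Nat.add x57360 x1688)) (Nat.add
    (f (Nat.add x57366 x1682)) (Nat.add (f (Nat.add x57376 x1672)) (Nat.add
    (f (Nat.add x57378 x1670)) (Nat.add (f (Nat.add x57384 x1664)) (Nat.add
    (f (Nat.add x57402 x1646)) (Nat.add (f (Nat.add x57430 x1618)) (Nat.add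
    (f (Nat.add x57432 x1616)) (Nat.add (f (Nat.add x57438 x1610))
    0)))))))))))))))))))))))))))))))))))))))))))))))))))))))))))) (Nat.add (Nat.add
    (f (Nat.add x57456 x1592)) (Nat.add (f (Nat.add x57510 x1538)) (Nat.add
    (f (Nat.add x57596 x1452)) (Nat.add (f (Nat.add x57598 x1450)) (Nat.add
    (f (Nat.add x57602 x1446)) (Nat.add (f (Nat.add x57604 x1444)) (Nat.add
    (f (Nat.add x57606 x1442)) (Nat.add (f (Nat.add x57610 x1438)) (Nat.add
    (f (Nat.add x57612 x1436)) (Nat.add (f (Nat.add x57620 x1428)) (Nat.add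
    (f (Nat.add x57622 x1426)) (Nat.add (f (Nat.add x57624 x1424)) (Nat.add
    (f (Nat.add x57628 x1420)) (Nat.add (f (Nat.add x57630 x1418)) (Nat.add
    (f (Nat.add x57636 x1412)) (Nat.add (f (Nat.add x57646 x1402)) (Nat.add
    (f (Nat.add x57648 x1400)) (Nat.add (f (Nat.add x57654 x1394)) (Nat.add
    (f (Nat.add x57674 x1374)) (Nat.add (f (Nat.add x57676 x1372)) (Nat.add
    (f (Nat.add x57678 x1370)) (Nat.add (f (Nat.add x57682 x1366)) (Nat.add
    (f (Nat.add x57684 x1364)) (Nat.add (f (Nat.add x57690 x1358)) (Nat.add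
    (f (Nat.add x57700 x1348)) (Nat.add (f (Nat.add x57702 x1346)) (Nat.add
    (f (Nat.add x57708 x1340)) (Nat.add (f (Nat.add x57726 x1322)) (Nat.add
    (f (Nat.add x57754 x1294)) (Nat.add (f (Nat.add x57756 x1292)) (Nat.add
    (f (Nat.add x57762 x1286)) (Nat.add (f (Nat.add x57780 x1268)) (Nat.add
    (f (Nat.add x57836 x1212)) (Nat.add (f (Nat.add x57838 x1210)) (Nat.add
    (f (Nat.add x57840 x1208)) (Nat.add (f (Nat.add x57844 x1204)) (Nat.add
    (f (Nat.add x57846 x1202)) (Nat.add (f (Nat.add x57852 x1196)) (Nat.add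
    (f (Nat.add x57862 x1186)) (Nat.add (f (Nat.add x57864 x1184)) (Nat.add
    (f (Nat.add x57870 x1178)) (Nat.add (f (Nat.add x57888 x1160)) (Nat.add
    (f (Nat.add x57916 x1132)) (Nat.add (f (Nat.add x57918 x1130)) (Nat.add
    (f (Nat.add x57924 x1124)) (Nat.add (f (Nat.add x57942 x1106)) (Nat.add
    (f (Nat.add x57996 x1052)) (Nat.add (f (Nat.add x58078 x970)) (Nat.add
    (f (Nat.add x58080 x968)) (Nat.add (f (Nat.add x58086 x962)) (Nat.add (f (Nat.add x58104 x944))
    (Nat.add (f (Nat.add x58158 x890)) (Nat.add (f (Nat.add x58322 x726)) (Nat.add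
    (f (Nat.add x58324 x724)) (Nat.add (f (Nat.add x58326 x722)) (Nat.add (f (Nat.add x58330 x718))
    (Nat.add (f (Nat.add x58332 x716)) (Nat.add (f (Nat.add x58338 x710)) (Nat.add
    (f (Nat.add x58348 x700)) (Nat.add (f (Nat.add x58350 x698))
    0)))))))))))))))))))))))))))))))))))))))))))))))))))))))))))) (Nat.add (Nat.add
    (f (Nat.add x58356 x692)) (Nat.add (f (Nat.add x58374 x674)) (Nat.add (f (Nat.add x58402 x646))
    (Nat.add (f (Nat.add x58404 x644)) (Nat.add (f (Nat.add x58410 x638)) (Nat.add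
    (f (Nat.add x58428 x620)) (Nat.add (f (Nat.add x58482 x566)) (Nat.add (f (Nat.add x58564 x484))
    (Nat.add (f (Nat.add x58566 x482)) (Nat.add (f (Nat.add x58572 x476)) (Nat.add
    (f (Nat.add x58590 x458)) (Nat.add (f (Nat.add x58644 x404)) (Nat.add (f (Nat.add x58806 x242))
    0)))))))))))))
    0)))))))))))))))))))))))))))))))))))))))))))))))))))))))))))))))))))))))))))))))))))))))))))))))))))))))))))))))))))))))))))))))))))))))))))))))))))))) v2)

theorem fin2_eq0 (f : Nat → Nat) (v1 v2 : Nat) (x : Nat → Nat) :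
    apLL (fun t => x t.cd) cds (fin2 f v1 v2) =
    and (Nat.beq (sum2 (fun t => f (x t.cd)) cds) v1)
      (Nat.beq (sum2 (fun t => f (Nat.add (x t.cd) (x (Nat.sub 59048 t.cd)))) cds) v2) :=
  Eq.refl (apLL (fun t => x t.cd) cds (fin2 f v1 v2))

theorem fin2_eq (f : Nat → Nat) (v1 v2 : Nat) (x : Nat → Nat) :
    ap x (fin2 f v1 v2) = and (Nat.beq (sumL (fun s => f (x s)) (secL 10 10 0 [])) v1)
      (Nat.beq (sumL (fun s => f (Nat.add (x s) (x (Nat.sub 59048 s)))) (secL 10 10 0 [])) v2) :=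
  ((ap_eq x (fin2 f v1 v2)).symm.trans (fin2_eq0 f v1 v2 x)).trans
    (congr (congrArg and (congrArg (fun z => Nat.beq z v1) (sum2_eq cds _ codes_ok (fun s => f (x s)))))
      (congrArg (fun z => Nat.beq z v2)
        (sum2_eq cds _ codes_ok (fun s => f (Nat.add (x s) (x (Nat.sub 59048 s)))))))

def ch0 : List (Nat × Nat) :=
    [(242,10), (404,20), (458,40), (476,40), (482,40), (484,10), (566,20), (620,40), (638,40),
    (644,20), (674,40), (692,20), (944,20), (962,40), (968,20), (1106,20), (1124,40), (1130,40),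
    (1132,20)]

def sqA0 (X M
    u0 u1 u2 u3 u4 u5 u6 u7 u8 u9 u10 u11 u12 u13 u14 u15 u16 u17 u18 : Nat) : Nat :=
    (Nat.add (Nat.mul (Nat.mul (Nat.land u0 M) (Nat.sub X (Nat.land u0 M))) 10)
    (Nat.add (Nat.mul (Nat.mul (Nat.land u1 M) (Nat.sub X (Nat.land u1 M))) 20)
    (Nat.add (Nat.mul (Nat.mul (Nat.land u2 M) (Nat.sub X (Nat.land u2 M))) 40)
    (Nat.add (Nat.mul (Nat.mul (Nat.land u3 M) (Nat.sub X (Nat.land u3 M))) 40)
    (Nat.add (Nat.mul (Nat.mul (Nat.land u4 M) (Nat.sub X (Nat.land u4 M))) 40)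
    (Nat.add (Nat.mul (Nat.mul (Nat.land u5 M) (Nat.sub X (Nat.land u5 M))) 10)
    (Nat.add (Nat.mul (Nat.mul (Nat.land u6 M) (Nat.sub X (Nat.land u6 M))) 20)
    (Nat.add (Nat.mul (Nat.mul (Nat.land u7 M) (Nat.sub X (Nat.land u7 M))) 40)
    (Nat.add (Nat.mul (Nat.mul (Nat.land u8 M) (Nat.sub X (Nat.land u8 M))) 40)
    (Nat.add (Nat.mul (Nat.mul (Nat.land u9 M) (Nat.sub X (Nat.land u9 M))) 20)
    (Nat.add (Nat.mul (Nat.mul (Nat.land u10 M) (Nat.sub X (Nat.land u10 M))) 40)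
    (Nat.add (Nat.mul (Nat.mul (Nat.land u11 M) (Nat.sub X (Nat.land u11 M))) 20)
    (Nat.add (Nat.mul (Nat.mul (Nat.land u12 M) (Nat.sub X (Nat.land u12 M))) 20)
    (Nat.add (Nat.mul (Nat.mul (Nat.land u13 M) (Nat.sub X (Nat.land u13 M))) 40)
    (Nat.add (Nat.mul (Nat.mul (Nat.land u14 M) (Nat.sub X (Nat.land u14 M))) 20)
    (Nat.add (Nat.mul (Nat.mul (Nat.land u15 M) (Nat.sub X (Nat.land u15 M))) 20)
    (Nat.add (Nat.mul (Nat.mul (Nat.land u16 M) (Nat.sub X (Nat.land u16 M))) 40)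
    (Nat.add (Nat.mul (Nat.mul (Nat.land u17 M) (Nat.sub X (Nat.land u17 M))) 40)
    (Nat.add (Nat.mul (Nat.mul (Nat.land u18 M) (Nat.sub X (Nat.land u18 M))) 20)
    0)))))))))))))))))))

def sqB0 (z0 z1 z2 z3 : Nat) : Nat :=
  sqA0 (Nat.shiftLeft 1 164) (Nat.sub (Nat.shiftLeft 1 164) 1)
    z0
    (Nat.shiftRight z0 164)
    (Nat.shiftRight (Nat.shiftRight z0 164) 164)
    (Nat.shiftRight (Nat.shiftRight (Nat.shiftRight z0 164) 164) 164)
    (Nat.shiftRight (Nat.shiftRight (Nat.shiftRight (Nat.shiftRight z0 164) 164) 164) 164)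
    (Nat.shiftRight (Nat.shiftRight (Nat.shiftRight (Nat.shiftRight (Nat.shiftRight z0 164) 164) 164) 164) 164)
    z1
    (Nat.shiftRight z1 164)
    (Nat.shiftRight (Nat.shiftRight z1 164) 164)
    (Nat.shiftRight (Nat.shiftRight (Nat.shiftRight z1 164) 164) 164)
    (Nat.shiftRight (Nat.shiftRight (Nat.shiftRight (Nat.shiftRight z1 164) 164) 164) 164)
    (Nat.shiftRight (Nat.shiftRight (Nat.shiftRight (Nat.shiftRight (Nat.shiftRight z1 164) 164) 164) 164) 164)
    z2
    (Nat.shiftRight z2 164)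
    (Nat.shiftRight (Nat.shiftRight z2 164) 164)
    (Nat.shiftRight (Nat.shiftRight (Nat.shiftRight z2 164) 164) 164)
    (Nat.shiftRight (Nat.shiftRight (Nat.shiftRight (Nat.shiftRight z2 164) 164) 164) 164)
    (Nat.shiftRight (Nat.shiftRight (Nat.shiftRight (Nat.shiftRight (Nat.shiftRight z2 164) 164) 164) 164) 164)
    z3

def sqC0 (u : Nat) : Nat :=
  sqB0
    u
    (sh6 164 u)
    (sh6 164 (sh6 164 u))
    (sh6 164 (sh6 164 (sh6 164 u)))

noncomputable def sq0 (v : Nat) : Nat := sqC0 (Nat.add v (offs 164 (Nat.shiftLeft 1 (Nat.sub 164 1)) ch0))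

theorem sq_eq0 : sq0 = sqF 164 ch0 := Eq.refl sq0

theorem side_ok0 : sideOK 10 164 mask cf10 ch0 = true := by decide +kernel

def ch1 : List (Nat × Nat) :=
    [(1160,40), (1178,40), (1184,40), (1186,40), (1196,40), (1202,40), (1204,40), (1208,20),
    (1210,10), (1268,20), (1286,40), (1292,40), (1294,40), (1322,40), (1340,40), (1346,40),
    (1348,40), (1358,40), (1364,40)]

def sqA1 (X M
    u0 u1 u2 u3 u4 u5 u6 u7 u8 u9 u10 u11 u12 u13 u14 u15 u16 u17 u18 : Nat) : Nat :=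
    (Nat.add (Nat.mul (Nat.mul (Nat.land u0 M) (Nat.sub X (Nat.land u0 M))) 40)
    (Nat.add (Nat.mul (Nat.mul (Nat.land u1 M) (Nat.sub X (Nat.land u1 M))) 40)
    (Nat.add (Nat.mul (Nat.mul (Nat.land u2 M) (Nat.sub X (Nat.land u2 M))) 40)
    (Nat.add (Nat.mul (Nat.mul (Nat.land u3 M) (Nat.sub X (Nat.land u3 M))) 40)
    (Nat.add (Nat.mul (Nat.mul (Nat.land u4 M) (Nat.sub X (Nat.land u4 M))) 40)
    (Nat.add (Nat.mul (Nat.mul (Nat.land u5 M) (Nat.sub X (Nat.land u5 M))) 40)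
    (Nat.add (Nat.mul (Nat.mul (Nat.land u6 M) (Nat.sub X (Nat.land u6 M))) 40)
    (Nat.add (Nat.mul (Nat.mul (Nat.land u7 M) (Nat.sub X (Nat.land u7 M))) 20)
    (Nat.add (Nat.mul (Nat.mul (Nat.land u8 M) (Nat.sub X (Nat.land u8 M))) 10)
    (Nat.add (Nat.mul (Nat.mul (Nat.land u9 M) (Nat.sub X (Nat.land u9 M))) 20)
    (Nat.add (Nat.mul (Nat.mul (Nat.land u10 M) (Nat.sub X (Nat.land u10 M))) 40)
    (Nat.add (Nat.mul (Nat.mul (Nat.land u11 M) (Nat.sub X (Nat.land u11 M))) 40)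
    (Nat.add (Nat.mul (Nat.mul (Nat.land u12 M) (Nat.sub X (Nat.land u12 M))) 40)
    (Nat.add (Nat.mul (Nat.mul (Nat.land u13 M) (Nat.sub X (Nat.land u13 M))) 40)
    (Nat.add (Nat.mul (Nat.mul (Nat.land u14 M) (Nat.sub X (Nat.land u14 M))) 40)
    (Nat.add (Nat.mul (Nat.mul (Nat.land u15 M) (Nat.sub X (Nat.land u15 M))) 40)
    (Nat.add (Nat.mul (Nat.mul (Nat.land u16 M) (Nat.sub X (Nat.land u16 M))) 40)
    (Nat.add (Nat.mul (Nat.mul (Nat.land u17 M) (Nat.sub X (Nat.land u17 M))) 40)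
    (Nat.add (Nat.mul (Nat.mul (Nat.land u18 M) (Nat.sub X (Nat.land u18 M))) 40)
    0)))))))))))))))))))

def sqB1 (z0 z1 z2 z3 : Nat) : Nat :=
  sqA1 (Nat.shiftLeft 1 164) (Nat.sub (Nat.shiftLeft 1 164) 1)
    z0
    (Nat.shiftRight z0 164)
    (Nat.shiftRight (Nat.shiftRight z0 164) 164)
    (Nat.shiftRight (Nat.shiftRight (Nat.shiftRight z0 164) 164) 164)
    (Nat.shiftRight (Nat.shiftRight (Nat.shiftRight (Nat.shiftRight z0 164) 164) 164) 164)
    (Nat.shiftRight (Nat.shiftRight (Nat.shiftRight (Nat.shiftRight (Nat.shiftRight z0 164) 164) 164) 164) 164)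
    z1
    (Nat.shiftRight z1 164)
    (Nat.shiftRight (Nat.shiftRight z1 164) 164)
    (Nat.shiftRight (Nat.shiftRight (Nat.shiftRight z1 164) 164) 164)
    (Nat.shiftRight (Nat.shiftRight (Nat.shiftRight (Nat.shiftRight z1 164) 164) 164) 164)
    (Nat.shiftRight (Nat.shiftRight (Nat.shiftRight (Nat.shiftRight (Nat.shiftRight z1 164) 164) 164) 164) 164)
    z2
    (Nat.shiftRight z2 164)
    (Nat.shiftRight (Nat.shiftRight z2 164) 164)
    (Nat.shiftRight (Nat.shiftRight (Nat.shiftRight z2 164) 164) 164)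
    (Nat.shiftRight (Nat.shiftRight (Nat.shiftRight (Nat.shiftRight z2 164) 164) 164) 164)
    (Nat.shiftRight (Nat.shiftRight (Nat.shiftRight (Nat.shiftRight (Nat.shiftRight z2 164) 164) 164) 164) 164)
    z3

def sqC1 (u : Nat) : Nat :=
  sqB1
    u
    (sh6 164 u)
    (sh6 164 (sh6 164 u))
    (sh6 164 (sh6 164 (sh6 164 u)))

noncomputable def sq1 (v : Nat) : Nat := sqC1 (Nat.add v (offs 164 (Nat.shiftLeft 1 (Nat.sub 164 1)) ch1))

theorem sq_eq1 : sq1 = sqF 164 ch1 := Eq.refl sq1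

theorem side_ok1 : sideOK 10 164 mask cf10 ch1 = true := by decide +kernel

def ch2 : List (Nat × Nat) :=
    [(1366,20), (1370,40), (1394,40), (1400,40), (1402,20), (1412,40), (1418,40), (1424,40),
    (1436,20), (1610,40), (1616,40), (1646,20), (1664,40), (1670,40), (1682,40), (1688,40),
    (1694,10), (1772,40), (1778,40), (1808,20)]

def sqA2 (X M
    u0 u1 u2 u3 u4 u5 u6 u7 u8 u9 u10 u11 u12 u13 u14 u15 u16 u17 u18 u19 : Nat) : Nat :=
    (Nat.add (Nat.mul (Nat.mul (Nat.land u0 M) (Nat.sub X (Nat.land u0 M))) 20)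
    (Nat.add (Nat.mul (Nat.mul (Nat.land u1 M) (Nat.sub X (Nat.land u1 M))) 40)
    (Nat.add (Nat.mul (Nat.mul (Nat.land u2 M) (Nat.sub X (Nat.land u2 M))) 40)
    (Nat.add (Nat.mul (Nat.mul (Nat.land u3 M) (Nat.sub X (Nat.land u3 M))) 40)
    (Nat.add (Nat.mul (Nat.mul (Nat.land u4 M) (Nat.sub X (Nat.land u4 M))) 20)
    (Nat.add (Nat.mul (Nat.mul (Nat.land u5 M) (Nat.sub X (Nat.land u5 M))) 40)
    (Nat.add (Nat.mul (Nat.mul (Nat.land u6 M) (Nat.sub X (Nat.land u6 M))) 40)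
    (Nat.add (Nat.mul (Nat.mul (Nat.land u7 M) (Nat.sub X (Nat.land u7 M))) 40)
    (Nat.add (Nat.mul (Nat.mul (Nat.land u8 M) (Nat.sub X (Nat.land u8 M))) 20)
    (Nat.add (Nat.mul (Nat.mul (Nat.land u9 M) (Nat.sub X (Nat.land u9 M))) 40)
    (Nat.add (Nat.mul (Nat.mul (Nat.land u10 M) (Nat.sub X (Nat.land u10 M))) 40)
    (Nat.add (Nat.mul (Nat.mul (Nat.land u11 M) (Nat.sub X (Nat.land u11 M))) 20)
    (Nat.add (Nat.mul (Nat.mul (Nat.land u12 M) (Nat.sub X (Nat.land u12 M))) 40)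
    (Nat.add (Nat.mul (Nat.mul (Nat.land u13 M) (Nat.sub X (Nat.land u13 M))) 40)
    (Nat.add (Nat.mul (Nat.mul (Nat.land u14 M) (Nat.sub X (Nat.land u14 M))) 40)
    (Nat.add (Nat.mul (Nat.mul (Nat.land u15 M) (Nat.sub X (Nat.land u15 M))) 40)
    (Nat.add (Nat.mul (Nat.mul (Nat.land u16 M) (Nat.sub X (Nat.land u16 M))) 10)
    (Nat.add (Nat.mul (Nat.mul (Nat.land u17 M) (Nat.sub X (Nat.land u17 M))) 40)
    (Nat.add (Nat.mul (Nat.mul (Nat.land u18 M) (Nat.sub X (Nat.land u18 M))) 40)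
    (Nat.add (Nat.mul (Nat.mul (Nat.land u19 M) (Nat.sub X (Nat.land u19 M))) 20)
    0))))))))))))))))))))

def sqB2 (z0 z1 z2 z3 : Nat) : Nat :=
  sqA2 (Nat.shiftLeft 1 164) (Nat.sub (Nat.shiftLeft 1 164) 1)
    z0
    (Nat.shiftRight z0 164)
    (Nat.shiftRight (Nat.shiftRight z0 164) 164)
    (Nat.shiftRight (Nat.shiftRight (Nat.shiftRight z0 164) 164) 164)
    (Nat.shiftRight (Nat.shiftRight (Nat.shiftRight (Nat.shiftRight z0 164) 164) 164) 164)
    (Nat.shiftRight (Nat.shiftRight (Nat.shiftRight (Nat.shiftRight (Nat.shiftRight z0 164) 164) 164) 164) 164)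
    z1
    (Nat.shiftRight z1 164)
    (Nat.shiftRight (Nat.shiftRight z1 164) 164)
    (Nat.shiftRight (Nat.shiftRight (Nat.shiftRight z1 164) 164) 164)
    (Nat.shiftRight (Nat.shiftRight (Nat.shiftRight (Nat.shiftRight z1 164) 164) 164) 164)
    (Nat.shiftRight (Nat.shiftRight (Nat.shiftRight (Nat.shiftRight (Nat.shiftRight z1 164) 164) 164) 164) 164)
    z2
    (Nat.shiftRight z2 164)
    (Nat.shiftRight (Nat.shiftRight z2 164) 164)
    (Nat.shiftRight (Nat.shiftRight (Nat.shiftRight z2 164) 164) 164)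
    (Nat.shiftRight (Nat.shiftRight (Nat.shiftRight (Nat.shiftRight z2 164) 164) 164) 164)
    (Nat.shiftRight (Nat.shiftRight (Nat.shiftRight (Nat.shiftRight (Nat.shiftRight z2 164) 164) 164) 164) 164)
    z3
    (Nat.shiftRight z3 164)

def sqC2 (u : Nat) : Nat :=
  sqB2
    u
    (sh6 164 u)
    (sh6 164 (sh6 164 u))
    (sh6 164 (sh6 164 (sh6 164 u)))

noncomputable def sq2 (v : Nat) : Nat := sqC2 (Nat.add v (offs 164 (Nat.shiftLeft 1 (Nat.sub 164 1)) ch2))

theorem sq_eq2 : sq2 = sqF 164 ch2 := Eq.refl sq2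

theorem side_ok2 : sideOK 10 164 mask cf10 ch2 = true := by decide +kernel

def ch3 : List (Nat × Nat) :=
    [(1826,40), (1832,40), (1844,40), (1850,20), (1880,40), (1886,20), (1898,40), (1970,20),
    (1988,40), (2006,20), (2042,20), (2420,10), (2582,20), (2588,40), (2636,40), (2642,40),
    (2644,20), (2654,40), (2660,40)]

def sqA3 (X M
    u0 u1 u2 u3 u4 u5 u6 u7 u8 u9 u10 u11 u12 u13 u14 u15 u16 u17 u18 : Nat) : Nat :=
    (Nat.add (Nat.mul (Nat.mul (Nat.land u0 M) (Nat.sub X (Nat.land u0 M))) 40)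
    (Nat.add (Nat.mul (Nat.mul (Nat.land u1 M) (Nat.sub X (Nat.land u1 M))) 40)
    (Nat.add (Nat.mul (Nat.mul (Nat.land u2 M) (Nat.sub X (Nat.land u2 M))) 40)
    (Nat.add (Nat.mul (Nat.mul (Nat.land u3 M) (Nat.sub X (Nat.land u3 M))) 20)
    (Nat.add (Nat.mul (Nat.mul (Nat.land u4 M) (Nat.sub X (Nat.land u4 M))) 40)
    (Nat.add (Nat.mul (Nat.mul (Nat.land u5 M) (Nat.sub X (Nat.land u5 M))) 20)
    (Nat.add (Nat.mul (Nat.mul (Nat.land u6 M) (Nat.sub X (Nat.land u6 M))) 40)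
    (Nat.add (Nat.mul (Nat.mul (Nat.land u7 M) (Nat.sub X (Nat.land u7 M))) 20)
    (Nat.add (Nat.mul (Nat.mul (Nat.land u8 M) (Nat.sub X (Nat.land u8 M))) 40)
    (Nat.add (Nat.mul (Nat.mul (Nat.land u9 M) (Nat.sub X (Nat.land u9 M))) 20)
    (Nat.add (Nat.mul (Nat.mul (Nat.land u10 M) (Nat.sub X (Nat.land u10 M))) 20)
    (Nat.add (Nat.mul (Nat.mul (Nat.land u11 M) (Nat.sub X (Nat.land u11 M))) 10)
    (Nat.add (Nat.mul (Nat.mul (Nat.land u12 M) (Nat.sub X (Nat.land u12 M))) 20)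
    (Nat.add (Nat.mul (Nat.mul (Nat.land u13 M) (Nat.sub X (Nat.land u13 M))) 40)
    (Nat.add (Nat.mul (Nat.mul (Nat.land u14 M) (Nat.sub X (Nat.land u14 M))) 40)
    (Nat.add (Nat.mul (Nat.mul (Nat.land u15 M) (Nat.sub X (Nat.land u15 M))) 40)
    (Nat.add (Nat.mul (Nat.mul (Nat.land u16 M) (Nat.sub X (Nat.land u16 M))) 20)
    (Nat.add (Nat.mul (Nat.mul (Nat.land u17 M) (Nat.sub X (Nat.land u17 M))) 40)
    (Nat.add (Nat.mul (Nat.mul (Nat.land u18 M) (Nat.sub X (Nat.land u18 M))) 40)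
    0)))))))))))))))))))

def sqB3 (z0 z1 z2 z3 : Nat) : Nat :=
  sqA3 (Nat.shiftLeft 1 164) (Nat.sub (Nat.shiftLeft 1 164) 1)
    z0
    (Nat.shiftRight z0 164)
    (Nat.shiftRight (Nat.shiftRight z0 164) 164)
    (Nat.shiftRight (Nat.shiftRight (Nat.shiftRight z0 164) 164) 164)
    (Nat.shiftRight (Nat.shiftRight (Nat.shiftRight (Nat.shiftRight z0 164) 164) 164) 164)
    (Nat.shiftRight (Nat.shiftRight (Nat.shiftRight (Nat.shiftRight (Nat.shiftRight z0 164) 164) 164) 164) 164)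
    z1
    (Nat.shiftRight z1 164)
    (Nat.shiftRight (Nat.shiftRight z1 164) 164)
    (Nat.shiftRight (Nat.shiftRight (Nat.shiftRight z1 164) 164) 164)
    (Nat.shiftRight (Nat.shiftRight (Nat.shiftRight (Nat.shiftRight z1 164) 164) 164) 164)
    (Nat.shiftRight (Nat.shiftRight (Nat.shiftRight (Nat.shiftRight (Nat.shiftRight z1 164) 164) 164) 164) 164)
    z2
    (Nat.shiftRight z2 164)
    (Nat.shiftRight (Nat.shiftRight z2 164) 164)
    (Nat.shiftRight (Nat.shiftRight (Nat.shiftRight z2 164) 164) 164)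
    (Nat.shiftRight (Nat.shiftRight (Nat.shiftRight (Nat.shiftRight z2 164) 164) 164) 164)
    (Nat.shiftRight (Nat.shiftRight (Nat.shiftRight (Nat.shiftRight (Nat.shiftRight z2 164) 164) 164) 164) 164)
    z3

def sqC3 (u : Nat) : Nat :=
  sqB3
    u
    (sh6 164 u)
    (sh6 164 (sh6 164 u))
    (sh6 164 (sh6 164 (sh6 164 u)))

noncomputable def sq3 (v : Nat) : Nat := sqC3 (Nat.add v (offs 164 (Nat.shiftLeft 1 (Nat.sub 164 1)) ch3))

theorem sq_eq3 : sq3 = sqF 164 ch3 := Eq.refl sq3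

theorem side_ok3 : sideOK 10 164 mask cf10 ch3 = true := by decide +kernel

def ch4 : List (Nat × Nat) :=
    [(2662,20), (2744,20), (2750,40), (2798,40), (2804,40), (2806,40), (2816,40), (2822,40),
    (2824,40), (2828,20), (2830,20), (2852,40), (2858,40), (2860,40), (2870,40), (2876,40),
    (2878,40), (3122,20), (3128,40)]

def sqA4 (X M
    u0 u1 u2 u3 u4 u5 u6 u7 u8 u9 u10 u11 u12 u13 u14 u15 u16 u17 u18 : Nat) : Nat :=
    (Nat.add (Nat.mul (Nat.mul (Nat.land u0 M) (Nat.sub X (Nat.land u0 M))) 20)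
    (Nat.add (Nat.mul (Nat.mul (Nat.land u1 M) (Nat.sub X (Nat.land u1 M))) 20)
    (Nat.add (Nat.mul (Nat.mul (Nat.land u2 M) (Nat.sub X (Nat.land u2 M))) 40)
    (Nat.add (Nat.mul (Nat.mul (Nat.land u3 M) (Nat.sub X (Nat.land u3 M))) 40)
    (Nat.add (Nat.mul (Nat.mul (Nat.land u4 M) (Nat.sub X (Nat.land u4 M))) 40)
    (Nat.add (Nat.mul (Nat.mul (Nat.land u5 M) (Nat.sub X (Nat.land u5 M))) 40)
    (Nat.add (Nat.mul (Nat.mul (Nat.land u6 M) (Nat.sub X (Nat.land u6 M))) 40)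
    (Nat.add (Nat.mul (Nat.mul (Nat.land u7 M) (Nat.sub X (Nat.land u7 M))) 40)
    (Nat.add (Nat.mul (Nat.mul (Nat.land u8 M) (Nat.sub X (Nat.land u8 M))) 40)
    (Nat.add (Nat.mul (Nat.mul (Nat.land u9 M) (Nat.sub X (Nat.land u9 M))) 20)
    (Nat.add (Nat.mul (Nat.mul (Nat.land u10 M) (Nat.sub X (Nat.land u10 M))) 20)
    (Nat.add (Nat.mul (Nat.mul (Nat.land u11 M) (Nat.sub X (Nat.land u11 M))) 40)
    (Nat.add (Nat.mul (Nat.mul (Nat.land u12 M) (Nat.sub X (Nat.land u12 M))) 40)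
    (Nat.add (Nat.mul (Nat.mul (Nat.land u13 M) (Nat.sub X (Nat.land u13 M))) 40)
    (Nat.add (Nat.mul (Nat.mul (Nat.land u14 M) (Nat.sub X (Nat.land u14 M))) 40)
    (Nat.add (Nat.mul (Nat.mul (Nat.land u15 M) (Nat.sub X (Nat.land u15 M))) 40)
    (Nat.add (Nat.mul (Nat.mul (Nat.land u16 M) (Nat.sub X (Nat.land u16 M))) 40)
    (Nat.add (Nat.mul (Nat.mul (Nat.land u17 M) (Nat.sub X (Nat.land u17 M))) 20)
    (Nat.add (Nat.mul (Nat.mul (Nat.land u18 M) (Nat.sub X (Nat.land u18 M))) 40)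
    0)))))))))))))))))))

def sqB4 (z0 z1 z2 z3 : Nat) : Nat :=
  sqA4 (Nat.shiftLeft 1 164) (Nat.sub (Nat.shiftLeft 1 164) 1)
    z0
    (Nat.shiftRight z0 164)
    (Nat.shiftRight (Nat.shiftRight z0 164) 164)
    (Nat.shiftRight (Nat.shiftRight (Nat.shiftRight z0 164) 164) 164)
    (Nat.shiftRight (Nat.shiftRight (Nat.shiftRight (Nat.shiftRight z0 164) 164) 164) 164)
    (Nat.shiftRight (Nat.shiftRight (Nat.shiftRight (Nat.shiftRight (Nat.shiftRight z0 164) 164) 164) 164) 164)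
    z1
    (Nat.shiftRight z1 164)
    (Nat.shiftRight (Nat.shiftRight z1 164) 164)
    (Nat.shiftRight (Nat.shiftRight (Nat.shiftRight z1 164) 164) 164)
    (Nat.shiftRight (Nat.shiftRight (Nat.shiftRight (Nat.shiftRight z1 164) 164) 164) 164)
    (Nat.shiftRight (Nat.shiftRight (Nat.shiftRight (Nat.shiftRight (Nat.shiftRight z1 164) 164) 164) 164) 164)
    z2
    (Nat.shiftRight z2 164)
    (Nat.shiftRight (Nat.shiftRight z2 164) 164)
    (Nat.shiftRight (Nat.shiftRight (Nat.shiftRight z2 164) 164) 164)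
    (Nat.shiftRight (Nat.shiftRight (Nat.shiftRight (Nat.shiftRight z2 164) 164) 164) 164)
    (Nat.shiftRight (Nat.shiftRight (Nat.shiftRight (Nat.shiftRight (Nat.shiftRight z2 164) 164) 164) 164) 164)
    z3

def sqC4 (u : Nat) : Nat :=
  sqB4
    u
    (sh6 164 u)
    (sh6 164 (sh6 164 u))
    (sh6 164 (sh6 164 (sh6 164 u)))

noncomputable def sq4 (v : Nat) : Nat := sqC4 (Nat.add v (offs 164 (Nat.shiftLeft 1 (Nat.sub 164 1)) ch4))

theorem sq_eq4 : sq4 = sqF 164 ch4 := Eq.refl sq4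

theorem side_ok4 : sideOK 10 164 mask cf10 ch4 = true := by decide +kernel

def ch5 : List (Nat × Nat) :=
    [(3140,40), (3146,20), (3284,20), (3290,40), (3292,20), (3302,40), (3308,40), (3310,40),
    (3314,20), (3316,20), (3338,40), (3344,40), (3346,40), (3356,40), (3362,40), (3364,40),
    (3368,40), (3370,40), (3380,20), (3382,40)]

def sqA5 (X M
    u0 u1 u2 u3 u4 u5 u6 u7 u8 u9 u10 u11 u12 u13 u14 u15 u16 u17 u18 u19 : Nat) : Nat :=
    (Nat.add (Nat.mul (Nat.mul (Nat.land u0 M) (Nat.sub X (Nat.land u0 M))) 40)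
    (Nat.add (Nat.mul (Nat.mul (Nat.land u1 M) (Nat.sub X (Nat.land u1 M))) 20)
    (Nat.add (Nat.mul (Nat.mul (Nat.land u2 M) (Nat.sub X (Nat.land u2 M))) 20)
    (Nat.add (Nat.mul (Nat.mul (Nat.land u3 M) (Nat.sub X (Nat.land u3 M))) 40)
    (Nat.add (Nat.mul (Nat.mul (Nat.land u4 M) (Nat.sub X (Nat.land u4 M))) 20)
    (Nat.add (Nat.mul (Nat.mul (Nat.land u5 M) (Nat.sub X (Nat.land u5 M))) 40)
    (Nat.add (Nat.mul (Nat.mul (Nat.land u6 M) (Nat.sub X (Nat.land u6 M))) 40)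
    (Nat.add (Nat.mul (Nat.mul (Nat.land u7 M) (Nat.sub X (Nat.land u7 M))) 40)
    (Nat.add (Nat.mul (Nat.mul (Nat.land u8 M) (Nat.sub X (Nat.land u8 M))) 20)
    (Nat.add (Nat.mul (Nat.mul (Nat.land u9 M) (Nat.sub X (Nat.land u9 M))) 20)
    (Nat.add (Nat.mul (Nat.mul (Nat.land u10 M) (Nat.sub X (Nat.land u10 M))) 40)
    (Nat.add (Nat.mul (Nat.mul (Nat.land u11 M) (Nat.sub X (Nat.land u11 M))) 40)
    (Nat.add (Nat.mul (Nat.mul (Nat.land u12 M) (Nat.sub X (Nat.land u12 M))) 40)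
    (Nat.add (Nat.mul (Nat.mul (Nat.land u13 M) (Nat.sub X (Nat.land u13 M))) 40)
    (Nat.add (Nat.mul (Nat.mul (Nat.land u14 M) (Nat.sub X (Nat.land u14 M))) 40)
    (Nat.add (Nat.mul (Nat.mul (Nat.land u15 M) (Nat.sub X (Nat.land u15 M))) 40)
    (Nat.add (Nat.mul (Nat.mul (Nat.land u16 M) (Nat.sub X (Nat.land u16 M))) 40)
    (Nat.add (Nat.mul (Nat.mul (Nat.land u17 M) (Nat.sub X (Nat.land u17 M))) 40)
    (Nat.add (Nat.mul (Nat.mul (Nat.land u18 M) (Nat.sub X (Nat.land u18 M))) 20)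
    (Nat.add (Nat.mul (Nat.mul (Nat.land u19 M) (Nat.sub X (Nat.land u19 M))) 40)
    0))))))))))))))))))))

def sqB5 (z0 z1 z2 z3 : Nat) : Nat :=
  sqA5 (Nat.shiftLeft 1 164) (Nat.sub (Nat.shiftLeft 1 164) 1)
    z0
    (Nat.shiftRight z0 164)
    (Nat.shiftRight (Nat.shiftRight z0 164) 164)
    (Nat.shiftRight (Nat.shiftRight (Nat.shiftRight z0 164) 164) 164)
    (Nat.shiftRight (Nat.shiftRight (Nat.shiftRight (Nat.shiftRight z0 164) 164) 164) 164)
    (Nat.shiftRight (Nat.shiftRight (Nat.shiftRight (Nat.shiftRight (Nat.shiftRight z0 164) 164) 164) 164) 164)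
    z1
    (Nat.shiftRight z1 164)
    (Nat.shiftRight (Nat.shiftRight z1 164) 164)
    (Nat.shiftRight (Nat.shiftRight (Nat.shiftRight z1 164) 164) 164)
    (Nat.shiftRight (Nat.shiftRight (Nat.shiftRight (Nat.shiftRight z1 164) 164) 164) 164)
    (Nat.shiftRight (Nat.shiftRight (Nat.shiftRight (Nat.shiftRight (Nat.shiftRight z1 164) 164) 164) 164) 164)
    z2
    (Nat.shiftRight z2 164)
    (Nat.shiftRight (Nat.shiftRight z2 164) 164)
    (Nat.shiftRight (Nat.shiftRight (Nat.shiftRight z2 164) 164) 164)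
    (Nat.shiftRight (Nat.shiftRight (Nat.shiftRight (Nat.shiftRight z2 164) 164) 164) 164)
    (Nat.shiftRight (Nat.shiftRight (Nat.shiftRight (Nat.shiftRight (Nat.shiftRight z2 164) 164) 164) 164) 164)
    z3
    (Nat.shiftRight z3 164)

def sqC5 (u : Nat) : Nat :=
  sqB5
    u
    (sh6 164 u)
    (sh6 164 (sh6 164 u))
    (sh6 164 (sh6 164 (sh6 164 u)))

noncomputable def sq5 (v : Nat) : Nat := sqC5 (Nat.add v (offs 164 (Nat.shiftLeft 1 (Nat.sub 164 1)) ch5))

theorem sq_eq5 : sq5 = sqF 164 ch5 := Eq.refl sq5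

theorem side_ok5 : sideOK 10 164 mask cf10 ch5 = true := by decide +kernel

def ch6 : List (Nat × Nat) :=
    [(3388,10), (3446,20), (3452,40), (3454,40), (3464,40), (3470,40), (3472,40), (3476,40),
    (3478,40), (3500,40), (3506,40), (3508,40), (3518,40), (3524,40), (3526,40), (3530,40),
    (3532,20), (3542,40), (3544,40)]

def sqA6 (X M
    u0 u1 u2 u3 u4 u5 u6 u7 u8 u9 u10 u11 u12 u13 u14 u15 u16 u17 u18 : Nat) : Nat :=
    (Nat.add (Nat.mul (Nat.mul (Nat.land u0 M) (Nat.sub X (Nat.land u0 M))) 10)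
    (Nat.add (Nat.mul (Nat.mul (Nat.land u1 M) (Nat.sub X (Nat.land u1 M))) 20)
    (Nat.add (Nat.mul (Nat.mul (Nat.land u2 M) (Nat.sub X (Nat.land u2 M))) 40)
    (Nat.add (Nat.mul (Nat.mul (Nat.land u3 M) (Nat.sub X (Nat.land u3 M))) 40)
    (Nat.add (Nat.mul (Nat.mul (Nat.land u4 M) (Nat.sub X (Nat.land u4 M))) 40)
    (Nat.add (Nat.mul (Nat.mul (Nat.land u5 M) (Nat.sub X (Nat.land u5 M))) 40)
    (Nat.add (Nat.mul (Nat.mul (Nat.land u6 M) (Nat.sub X (Nat.land u6 M))) 40)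
    (Nat.add (Nat.mul (Nat.mul (Nat.land u7 M) (Nat.sub X (Nat.land u7 M))) 40)
    (Nat.add (Nat.mul (Nat.mul (Nat.land u8 M) (Nat.sub X (Nat.land u8 M))) 40)
    (Nat.add (Nat.mul (Nat.mul (Nat.land u9 M) (Nat.sub X (Nat.land u9 M))) 40)
    (Nat.add (Nat.mul (Nat.mul (Nat.land u10 M) (Nat.sub X (Nat.land u10 M))) 40)
    (Nat.add (Nat.mul (Nat.mul (Nat.land u11 M) (Nat.sub X (Nat.land u11 M))) 40)
    (Nat.add (Nat.mul (Nat.mul (Nat.land u12 M) (Nat.sub X (Nat.land u12 M))) 40)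
    (Nat.add (Nat.mul (Nat.mul (Nat.land u13 M) (Nat.sub X (Nat.land u13 M))) 40)
    (Nat.add (Nat.mul (Nat.mul (Nat.land u14 M) (Nat.sub X (Nat.land u14 M))) 40)
    (Nat.add (Nat.mul (Nat.mul (Nat.land u15 M) (Nat.sub X (Nat.land u15 M))) 40)
    (Nat.add (Nat.mul (Nat.mul (Nat.land u16 M) (Nat.sub X (Nat.land u16 M))) 20)
    (Nat.add (Nat.mul (Nat.mul (Nat.land u17 M) (Nat.sub X (Nat.land u17 M))) 40)
    (Nat.add (Nat.mul (Nat.mul (Nat.land u18 M) (Nat.sub X (Nat.land u18 M))) 40)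
    0)))))))))))))))))))

def sqB6 (z0 z1 z2 z3 : Nat) : Nat :=
  sqA6 (Nat.shiftLeft 1 164) (Nat.sub (Nat.shiftLeft 1 164) 1)
    z0
    (Nat.shiftRight z0 164)
    (Nat.shiftRight (Nat.shiftRight z0 164) 164)
    (Nat.shiftRight (Nat.shiftRight (Nat.shiftRight z0 164) 164) 164)
    (Nat.shiftRight (Nat.shiftRight (Nat.shiftRight (Nat.shiftRight z0 164) 164) 164) 164)
    (Nat.shiftRight (Nat.shiftRight (Nat.shiftRight (Nat.shiftRight (Nat.shiftRight z0 164) 164) 164) 164) 164)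
    z1
    (Nat.shiftRight z1 164)
    (Nat.shiftRight (Nat.shiftRight z1 164) 164)
    (Nat.shiftRight (Nat.shiftRight (Nat.shiftRight z1 164) 164) 164)
    (Nat.shiftRight (Nat.shiftRight (Nat.shiftRight (Nat.shiftRight z1 164) 164) 164) 164)
    (Nat.shiftRight (Nat.shiftRight (Nat.shiftRight (Nat.shiftRight (Nat.shiftRight z1 164) 164) 164) 164) 164)
    z2
    (Nat.shiftRight z2 164)
    (Nat.shiftRight (Nat.shiftRight z2 164) 164)
    (Nat.shiftRight (Nat.shiftRight (Nat.shiftRight z2 164) 164) 164)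
    (Nat.shiftRight (Nat.shiftRight (Nat.shiftRight (Nat.shiftRight z2 164) 164) 164) 164)
    (Nat.shiftRight (Nat.shiftRight (Nat.shiftRight (Nat.shiftRight (Nat.shiftRight z2 164) 164) 164) 164) 164)
    z3

def sqC6 (u : Nat) : Nat :=
  sqB6
    u
    (sh6 164 u)
    (sh6 164 (sh6 164 u))
    (sh6 164 (sh6 164 (sh6 164 u)))

noncomputable def sq6 (v : Nat) : Nat := sqC6 (Nat.add v (offs 164 (Nat.shiftLeft 1 (Nat.sub 164 1)) ch6))

theorem sq_eq6 : sq6 = sqF 164 ch6 := Eq.refl sq6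

theorem side_ok6 : sideOK 10 164 mask cf10 ch6 = true := by decide +kernel

def ch7 : List (Nat × Nat) :=
    [(3548,40), (3572,20), (3578,20), (3580,40), (3584,20), (3598,20), (3776,40), (3788,40),
    (3794,40), (3796,40), (3800,20), (3824,20), (3830,40), (3832,40), (3842,40), (3848,40),
    (3850,40), (3854,40), (3866,40)]

def sqA7 (X M
    u0 u1 u2 u3 u4 u5 u6 u7 u8 u9 u10 u11 u12 u13 u14 u15 u16 u17 u18 : Nat) : Nat :=
    (Nat.add (Nat.mul (Nat.mul (Nat.land u0 M) (Nat.sub X (Nat.land u0 M))) 40)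
    (Nat.add (Nat.mul (Nat.mul (Nat.land u1 M) (Nat.sub X (Nat.land u1 M))) 20)
    (Nat.add (Nat.mul (Nat.mul (Nat.land u2 M) (Nat.sub X (Nat.land u2 M))) 20)
    (Nat.add (Nat.mul (Nat.mul (Nat.land u3 M) (Nat.sub X (Nat.land u3 M))) 40)
    (Nat.add (Nat.mul (Nat.mul (Nat.land u4 M) (Nat.sub X (Nat.land u4 M))) 20)
    (Nat.add (Nat.mul (Nat.mul (Nat.land u5 M) (Nat.sub X (Nat.land u5 M))) 20)
    (Nat.add (Nat.mul (Nat.mul (Nat.land u6 M) (Nat.sub X (Nat.land u6 M))) 40)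
    (Nat.add (Nat.mul (Nat.mul (Nat.land u7 M) (Nat.sub X (Nat.land u7 M))) 40)
    (Nat.add (Nat.mul (Nat.mul (Nat.land u8 M) (Nat.sub X (Nat.land u8 M))) 40)
    (Nat.add (Nat.mul (Nat.mul (Nat.land u9 M) (Nat.sub X (Nat.land u9 M))) 40)
    (Nat.add (Nat.mul (Nat.mul (Nat.land u10 M) (Nat.sub X (Nat.land u10 M))) 20)
    (Nat.add (Nat.mul (Nat.mul (Nat.land u11 M) (Nat.sub X (Nat.land u11 M))) 20)
    (Nat.add (Nat.mul (Nat.mul (Nat.land u12 M) (Nat.sub X (Nat.land u12 M))) 40)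
    (Nat.add (Nat.mul (Nat.mul (Nat.land u13 M) (Nat.sub X (Nat.land u13 M))) 40)
    (Nat.add (Nat.mul (Nat.mul (Nat.land u14 M) (Nat.sub X (Nat.land u14 M))) 40)
    (Nat.add (Nat.mul (Nat.mul (Nat.land u15 M) (Nat.sub X (Nat.land u15 M))) 40)
    (Nat.add (Nat.mul (Nat.mul (Nat.land u16 M) (Nat.sub X (Nat.land u16 M))) 40)
    (Nat.add (Nat.mul (Nat.mul (Nat.land u17 M) (Nat.sub X (Nat.land u17 M))) 40)
    (Nat.add (Nat.mul (Nat.mul (Nat.land u18 M) (Nat.sub X (Nat.land u18 M))) 40)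
    0)))))))))))))))))))

def sqB7 (z0 z1 z2 z3 : Nat) : Nat :=
  sqA7 (Nat.shiftLeft 1 164) (Nat.sub (Nat.shiftLeft 1 164) 1)
    z0
    (Nat.shiftRight z0 164)
    (Nat.shiftRight (Nat.shiftRight z0 164) 164)
    (Nat.shiftRight (Nat.shiftRight (Nat.shiftRight z0 164) 164) 164)
    (Nat.shiftRight (Nat.shiftRight (Nat.shiftRight (Nat.shiftRight z0 164) 164) 164) 164)
    (Nat.shiftRight (Nat.shiftRight (Nat.shiftRight (Nat.shiftRight (Nat.shiftRight z0 164) 164) 164) 164) 164)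
    z1
    (Nat.shiftRight z1 164)
    (Nat.shiftRight (Nat.shiftRight z1 164) 164)
    (Nat.shiftRight (Nat.shiftRight (Nat.shiftRight z1 164) 164) 164)
    (Nat.shiftRight (Nat.shiftRight (Nat.shiftRight (Nat.shiftRight z1 164) 164) 164) 164)
    (Nat.shiftRight (Nat.shiftRight (Nat.shiftRight (Nat.shiftRight (Nat.shiftRight z1 164) 164) 164) 164) 164)
    z2
    (Nat.shiftRight z2 164)
    (Nat.shiftRight (Nat.shiftRight z2 164) 164)
    (Nat.shiftRight (Nat.shiftRight (Nat.shiftRight z2 164) 164) 164)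
    (Nat.shiftRight (Nat.shiftRight (Nat.shiftRight (Nat.shiftRight z2 164) 164) 164) 164)
    (Nat.shiftRight (Nat.shiftRight (Nat.shiftRight (Nat.shiftRight (Nat.shiftRight z2 164) 164) 164) 164) 164)
    z3

def sqC7 (u : Nat) : Nat :=
  sqB7
    u
    (sh6 164 u)
    (sh6 164 (sh6 164 u))
    (sh6 164 (sh6 164 (sh6 164 u)))

noncomputable def sq7 (v : Nat) : Nat := sqC7 (Nat.add v (offs 164 (Nat.shiftLeft 1 (Nat.sub 164 1)) ch7))

theorem sq_eq7 : sq7 = sqF 164 ch7 := Eq.refl sq7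

theorem side_ok7 : sideOK 10 164 mask cf10 ch7 = true := by decide +kernel

def ch8 : List (Nat × Nat) :=
    [(3868,20), (3872,20), (3938,40), (3940,20), (3950,40), (3956,40), (3958,40), (3962,40),
    (3986,20), (3992,40), (3994,40), (4004,40), (4010,40), (4012,20), (4016,40), (4028,40),
    (4034,40), (4058,40), (4064,40), (4070,40)]

def sqA8 (X M
    u0 u1 u2 u3 u4 u5 u6 u7 u8 u9 u10 u11 u12 u13 u14 u15 u16 u17 u18 u19 : Nat) : Nat :=
    (Nat.add (Nat.mul (Nat.mul (Nat.land u0 M) (Nat.sub X (Nat.land u0 M))) 20)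
    (Nat.add (Nat.mul (Nat.mul (Nat.land u1 M) (Nat.sub X (Nat.land u1 M))) 20)
    (Nat.add (Nat.mul (Nat.mul (Nat.land u2 M) (Nat.sub X (Nat.land u2 M))) 40)
    (Nat.add (Nat.mul (Nat.mul (Nat.land u3 M) (Nat.sub X (Nat.land u3 M))) 20)
    (Nat.add (Nat.mul (Nat.mul (Nat.land u4 M) (Nat.sub X (Nat.land u4 M))) 40)
    (Nat.add (Nat.mul (Nat.mul (Nat.land u5 M) (Nat.sub X (Nat.land u5 M))) 40)
    (Nat.add (Nat.mul (Nat.mul (Nat.land u6 M) (Nat.sub X (Nat.land u6 M))) 40)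
    (Nat.add (Nat.mul (Nat.mul (Nat.land u7 M) (Nat.sub X (Nat.land u7 M))) 40)
    (Nat.add (Nat.mul (Nat.mul (Nat.land u8 M) (Nat.sub X (Nat.land u8 M))) 20)
    (Nat.add (Nat.mul (Nat.mul (Nat.land u9 M) (Nat.sub X (Nat.land u9 M))) 40)
    (Nat.add (Nat.mul (Nat.mul (Nat.land u10 M) (Nat.sub X (Nat.land u10 M))) 40)
    (Nat.add (Nat.mul (Nat.mul (Nat.land u11 M) (Nat.sub X (Nat.land u11 M))) 40)
    (Nat.add (Nat.mul (Nat.mul (Nat.land u12 M) (Nat.sub X (Nat.land u12 M))) 40)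
    (Nat.add (Nat.mul (Nat.mul (Nat.land u13 M) (Nat.sub X (Nat.land u13 M))) 20)
    (Nat.add (Nat.mul (Nat.mul (Nat.land u14 M) (Nat.sub X (Nat.land u14 M))) 40)
    (Nat.add (Nat.mul (Nat.mul (Nat.land u15 M) (Nat.sub X (Nat.land u15 M))) 40)
    (Nat.add (Nat.mul (Nat.mul (Nat.land u16 M) (Nat.sub X (Nat.land u16 M))) 40)
    (Nat.add (Nat.mul (Nat.mul (Nat.land u17 M) (Nat.sub X (Nat.land u17 M))) 40)
    (Nat.add (Nat.mul (Nat.mul (Nat.land u18 M) (Nat.sub X (Nat.land u18 M))) 40)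
    (Nat.add (Nat.mul (Nat.mul (Nat.land u19 M) (Nat.sub X (Nat.land u19 M))) 40)
    0))))))))))))))))))))

def sqB8 (z0 z1 z2 z3 : Nat) : Nat :=
  sqA8 (Nat.shiftLeft 1 164) (Nat.sub (Nat.shiftLeft 1 164) 1)
    z0
    (Nat.shiftRight z0 164)
    (Nat.shiftRight (Nat.shiftRight z0 164) 164)
    (Nat.shiftRight (Nat.shiftRight (Nat.shiftRight z0 164) 164) 164)
    (Nat.shiftRight (Nat.shiftRight (Nat.shiftRight (Nat.shiftRight z0 164) 164) 164) 164)
    (Nat.shiftRight (Nat.shiftRight (Nat.shiftRight (Nat.shiftRight (Nat.shiftRight z0 164) 164) 164) 164) 164)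
    z1
    (Nat.shiftRight z1 164)
    (Nat.shiftRight (Nat.shiftRight z1 164) 164)
    (Nat.shiftRight (Nat.shiftRight (Nat.shiftRight z1 164) 164) 164)
    (Nat.shiftRight (Nat.shiftRight (Nat.shiftRight (Nat.shiftRight z1 164) 164) 164) 164)
    (Nat.shiftRight (Nat.shiftRight (Nat.shiftRight (Nat.shiftRight (Nat.shiftRight z1 164) 164) 164) 164) 164)
    z2
    (Nat.shiftRight z2 164)
    (Nat.shiftRight (Nat.shiftRight z2 164) 164)
    (Nat.shiftRight (Nat.shiftRight (Nat.shiftRight z2 164) 164) 164)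
    (Nat.shiftRight (Nat.shiftRight (Nat.shiftRight (Nat.shiftRight z2 164) 164) 164) 164)
    (Nat.shiftRight (Nat.shiftRight (Nat.shiftRight (Nat.shiftRight (Nat.shiftRight z2 164) 164) 164) 164) 164)
    z3
    (Nat.shiftRight z3 164)

def sqC8 (u : Nat) : Nat :=
  sqB8
    u
    (sh6 164 u)
    (sh6 164 (sh6 164 u))
    (sh6 164 (sh6 164 (sh6 164 u)))

noncomputable def sq8 (v : Nat) : Nat := sqC8 (Nat.add v (offs 164 (Nat.shiftLeft 1 (Nat.sub 164 1)) ch8))

theorem sq_eq8 : sq8 = sqF 164 ch8 := Eq.refl sq8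

theorem side_ok8 : sideOK 10 164 mask cf10 ch8 = true := by decide +kernel

def ch9 : List (Nat × Nat) :=
    [(4082,40), (4088,40), (4148,10), (4154,40), (4156,20), (4172,20), (4178,40), (4196,20),
    (4586,20), (4598,10), (4748,40), (4760,20), (4766,40), (4802,40), (4814,40), (4820,40),
    (4826,40), (4910,40), (4922,20)]

def sqA9 (X M
    u0 u1 u2 u3 u4 u5 u6 u7 u8 u9 u10 u11 u12 u13 u14 u15 u16 u17 u18 : Nat) : Nat :=
    (Nat.add (Nat.mul (Nat.mul (Nat.land u0 M) (Nat.sub X (Nat.land u0 M))) 40)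
    (Nat.add (Nat.mul (Nat.mul (Nat.land u1 M) (Nat.sub X (Nat.land u1 M))) 40)
    (Nat.add (Nat.mul (Nat.mul (Nat.land u2 M) (Nat.sub X (Nat.land u2 M))) 10)
    (Nat.add (Nat.mul (Nat.mul (Nat.land u3 M) (Nat.sub X (Nat.land u3 M))) 40)
    (Nat.add (Nat.mul (Nat.mul (Nat.land u4 M) (Nat.sub X (Nat.land u4 M))) 20)
    (Nat.add (Nat.mul (Nat.mul (Nat.land u5 M) (Nat.sub X (Nat.land u5 M))) 20)
    (Nat.add (Nat.mul (Nat.mul (Nat.land u6 M) (Nat.sub X (Nat.land u6 M))) 40)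
    (Nat.add (Nat.mul (Nat.mul (Nat.land u7 M) (Nat.sub X (Nat.land u7 M))) 20)
    (Nat.add (Nat.mul (Nat.mul (Nat.land u8 M) (Nat.sub X (Nat.land u8 M))) 20)
    (Nat.add (Nat.mul (Nat.mul (Nat.land u9 M) (Nat.sub X (Nat.land u9 M))) 10)
    (Nat.add (Nat.mul (Nat.mul (Nat.land u10 M) (Nat.sub X (Nat.land u10 M))) 40)
    (Nat.add (Nat.mul (Nat.mul (Nat.land u11 M) (Nat.sub X (Nat.land u11 M))) 20)
    (Nat.add (Nat.mul (Nat.mul (Nat.land u12 M) (Nat.sub X (Nat.land u12 M))) 40)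
    (Nat.add (Nat.mul (Nat.mul (Nat.land u13 M) (Nat.sub X (Nat.land u13 M))) 40)
    (Nat.add (Nat.mul (Nat.mul (Nat.land u14 M) (Nat.sub X (Nat.land u14 M))) 40)
    (Nat.add (Nat.mul (Nat.mul (Nat.land u15 M) (Nat.sub X (Nat.land u15 M))) 40)
    (Nat.add (Nat.mul (Nat.mul (Nat.land u16 M) (Nat.sub X (Nat.land u16 M))) 40)
    (Nat.add (Nat.mul (Nat.mul (Nat.land u17 M) (Nat.sub X (Nat.land u17 M))) 40)
    (Nat.add (Nat.mul (Nat.mul (Nat.land u18 M) (Nat.sub X (Nat.land u18 M))) 20)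
    0)))))))))))))))))))

def sqB9 (z0 z1 z2 z3 : Nat) : Nat :=
  sqA9 (Nat.shiftLeft 1 164) (Nat.sub (Nat.shiftLeft 1 164) 1)
    z0
    (Nat.shiftRight z0 164)
    (Nat.shiftRight (Nat.shiftRight z0 164) 164)
    (Nat.shiftRight (Nat.shiftRight (Nat.shiftRight z0 164) 164) 164)
    (Nat.shiftRight (Nat.shiftRight (Nat.shiftRight (Nat.shiftRight z0 164) 164) 164) 164)
    (Nat.shiftRight (Nat.shiftRight (Nat.shiftRight (Nat.shiftRight (Nat.shiftRight z0 164) 164) 164) 164) 164)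
    z1
    (Nat.shiftRight z1 164)
    (Nat.shiftRight (Nat.shiftRight z1 164) 164)
    (Nat.shiftRight (Nat.shiftRight (Nat.shiftRight z1 164) 164) 164)
    (Nat.shiftRight (Nat.shiftRight (Nat.shiftRight (Nat.shiftRight z1 164) 164) 164) 164)
    (Nat.shiftRight (Nat.shiftRight (Nat.shiftRight (Nat.shiftRight (Nat.shiftRight z1 164) 164) 164) 164) 164)
    z2
    (Nat.shiftRight z2 164)
    (Nat.shiftRight (Nat.shiftRight z2 164) 164)
    (Nat.shiftRight (Nat.shiftRight (Nat.shiftRight z2 164) 164) 164)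
    (Nat.shiftRight (Nat.shiftRight (Nat.shiftRight (Nat.shiftRight z2 164) 164) 164) 164)
    (Nat.shiftRight (Nat.shiftRight (Nat.shiftRight (Nat.shiftRight (Nat.shiftRight z2 164) 164) 164) 164) 164)
    z3

def sqC9 (u : Nat) : Nat :=
  sqB9
    u
    (sh6 164 u)
    (sh6 164 (sh6 164 u))
    (sh6 164 (sh6 164 (sh6 164 u)))

noncomputable def sq9 (v : Nat) : Nat := sqC9 (Nat.add v (offs 164 (Nat.shiftLeft 1 (Nat.sub 164 1)) ch9))

theorem sq_eq9 : sq9 = sqF 164 ch9 := Eq.refl sq9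

theorem side_ok9 : sideOK 10 164 mask cf10 ch9 = true := by decide +kernel

def ch10 : List (Nat × Nat) :=
    [(4928,40), (4934,20), (4964,40), (4976,40), (4982,40), (4988,20), (5000,40), (5030,20),
    (5036,20), (5234,40), (5252,40), (5288,40), (5300,20), (5306,40), (5324,10), (5396,40),
    (5414,40), (5450,40), (5462,20)]

def sqA10 (X M
    u0 u1 u2 u3 u4 u5 u6 u7 u8 u9 u10 u11 u12 u13 u14 u15 u16 u17 u18 : Nat) : Nat :=
    (Nat.add (Nat.mul (Nat.mul (Nat.land u0 M) (Nat.sub X (Nat.land u0 M))) 40)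
    (Nat.add (Nat.mul (Nat.mul (Nat.land u1 M) (Nat.sub X (Nat.land u1 M))) 20)
    (Nat.add (Nat.mul (Nat.mul (Nat.land u2 M) (Nat.sub X (Nat.land u2 M))) 40)
    (Nat.add (Nat.mul (Nat.mul (Nat.land u3 M) (Nat.sub X (Nat.land u3 M))) 40)
    (Nat.add (Nat.mul (Nat.mul (Nat.land u4 M) (Nat.sub X (Nat.land u4 M))) 40)
    (Nat.add (Nat.mul (Nat.mul (Nat.land u5 M) (Nat.sub X (Nat.land u5 M))) 20)
    (Nat.add (Nat.mul (Nat.mul (Nat.land u6 M) (Nat.sub X (Nat.land u6 M))) 40)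
    (Nat.add (Nat.mul (Nat.mul (Nat.land u7 M) (Nat.sub X (Nat.land u7 M))) 20)
    (Nat.add (Nat.mul (Nat.mul (Nat.land u8 M) (Nat.sub X (Nat.land u8 M))) 20)
    (Nat.add (Nat.mul (Nat.mul (Nat.land u9 M) (Nat.sub X (Nat.land u9 M))) 40)
    (Nat.add (Nat.mul (Nat.mul (Nat.land u10 M) (Nat.sub X (Nat.land u10 M))) 40)
    (Nat.add (Nat.mul (Nat.mul (Nat.land u11 M) (Nat.sub X (Nat.land u11 M))) 40)
    (Nat.add (Nat.mul (Nat.mul (Nat.land u12 M) (Nat.sub X (Nat.land u12 M))) 20)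
    (Nat.add (Nat.mul (Nat.mul (Nat.land u13 M) (Nat.sub X (Nat.land u13 M))) 40)
    (Nat.add (Nat.mul (Nat.mul (Nat.land u14 M) (Nat.sub X (Nat.land u14 M))) 10)
    (Nat.add (Nat.mul (Nat.mul (Nat.land u15 M) (Nat.sub X (Nat.land u15 M))) 40)
    (Nat.add (Nat.mul (Nat.mul (Nat.land u16 M) (Nat.sub X (Nat.land u16 M))) 40)
    (Nat.add (Nat.mul (Nat.mul (Nat.land u17 M) (Nat.sub X (Nat.land u17 M))) 40)
    (Nat.add (Nat.mul (Nat.mul (Nat.land u18 M) (Nat.sub X (Nat.land u18 M))) 20)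
    0)))))))))))))))))))

def sqB10 (z0 z1 z2 z3 : Nat) : Nat :=
  sqA10 (Nat.shiftLeft 1 164) (Nat.sub (Nat.shiftLeft 1 164) 1)
    z0
    (Nat.shiftRight z0 164)
    (Nat.shiftRight (Nat.shiftRight z0 164) 164)
    (Nat.shiftRight (Nat.shiftRight (Nat.shiftRight z0 164) 164) 164)
    (Nat.shiftRight (Nat.shiftRight (Nat.shiftRight (Nat.shiftRight z0 164) 164) 164) 164)
    (Nat.shiftRight (Nat.shiftRight (Nat.shiftRight (Nat.shiftRight (Nat.shiftRight z0 164) 164) 164) 164) 164)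
    z1
    (Nat.shiftRight z1 164)
    (Nat.shiftRight (Nat.shiftRight z1 164) 164)
    (Nat.shiftRight (Nat.shiftRight (Nat.shiftRight z1 164) 164) 164)
    (Nat.shiftRight (Nat.shiftRight (Nat.shiftRight (Nat.shiftRight z1 164) 164) 164) 164)
    (Nat.shiftRight (Nat.shiftRight (Nat.shiftRight (Nat.shiftRight (Nat.shiftRight z1 164) 164) 164) 164) 164)
    z2
    (Nat.shiftRight z2 164)
    (Nat.shiftRight (Nat.shiftRight z2 164) 164)
    (Nat.shiftRight (Nat.shiftRight (Nat.shiftRight z2 164) 164) 164)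
    (Nat.shiftRight (Nat.shiftRight (Nat.shiftRight (Nat.shiftRight z2 164) 164) 164) 164)
    (Nat.shiftRight (Nat.shiftRight (Nat.shiftRight (Nat.shiftRight (Nat.shiftRight z2 164) 164) 164) 164) 164)
    z3

def sqC10 (u : Nat) : Nat :=
  sqB10
    u
    (sh6 164 u)
    (sh6 164 (sh6 164 u))
    (sh6 164 (sh6 164 (sh6 164 u)))

noncomputable def sq10 (v : Nat) : Nat := sqC10 (Nat.add v (offs 164 (Nat.shiftLeft 1 (Nat.sub 164 1)) ch10))

theorem sq_eq10 : sq10 = sqF 164 ch10 := Eq.refl sq10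

theorem side_ok10 : sideOK 10 164 mask cf10 ch10 = true := by decide +kernel

def ch11 : List (Nat × Nat) :=
    [(5468,20), (5516,20), (5612,10), (5624,20), (7502,10), (7664,20), (7682,40), (7684,20),
    (7718,40), (7736,40), (7738,40), (7742,20), (7744,10), (7826,20), (7844,40), (7846,40),
    (7880,40), (7898,40), (7900,20), (7904,40)]

def sqA11 (X M
    u0 u1 u2 u3 u4 u5 u6 u7 u8 u9 u10 u11 u12 u13 u14 u15 u16 u17 u18 u19 : Nat) : Nat :=
    (Nat.add (Nat.mul (Nat.mul (Nat.land u0 M) (Nat.sub X (Nat.land u0 M))) 20)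
    (Nat.add (Nat.mul (Nat.mul (Nat.land u1 M) (Nat.sub X (Nat.land u1 M))) 20)
    (Nat.add (Nat.mul (Nat.mul (Nat.land u2 M) (Nat.sub X (Nat.land u2 M))) 10)
    (Nat.add (Nat.mul (Nat.mul (Nat.land u3 M) (Nat.sub X (Nat.land u3 M))) 20)
    (Nat.add (Nat.mul (Nat.mul (Nat.land u4 M) (Nat.sub X (Nat.land u4 M))) 10)
    (Nat.add (Nat.mul (Nat.mul (Nat.land u5 M) (Nat.sub X (Nat.land u5 M))) 20)
    (Nat.add (Nat.mul (Nat.mul (Nat.land u6 M) (Nat.sub X (Nat.land u6 M))) 40)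
    (Nat.add (Nat.mul (Nat.mul (Nat.land u7 M) (Nat.sub X (Nat.land u7 M))) 20)
    (Nat.add (Nat.mul (Nat.mul (Nat.land u8 M) (Nat.sub X (Nat.land u8 M))) 40)
    (Nat.add (Nat.mul (Nat.mul (Nat.land u9 M) (Nat.sub X (Nat.land u9 M))) 40)
    (Nat.add (Nat.mul (Nat.mul (Nat.land u10 M) (Nat.sub X (Nat.land u10 M))) 40)
    (Nat.add (Nat.mul (Nat.mul (Nat.land u11 M) (Nat.sub X (Nat.land u11 M))) 20)
    (Nat.add (Nat.mul (Nat.mul (Nat.land u12 M) (Nat.sub X (Nat.land u12 M))) 10)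
    (Nat.add (Nat.mul (Nat.mul (Nat.land u13 M) (Nat.sub X (Nat.land u13 M))) 20)
    (Nat.add (Nat.mul (Nat.mul (Nat.land u14 M) (Nat.sub X (Nat.land u14 M))) 40)
    (Nat.add (Nat.mul (Nat.mul (Nat.land u15 M) (Nat.sub X (Nat.land u15 M))) 40)
    (Nat.add (Nat.mul (Nat.mul (Nat.land u16 M) (Nat.sub X (Nat.land u16 M))) 40)
    (Nat.add (Nat.mul (Nat.mul (Nat.land u17 M) (Nat.sub X (Nat.land u17 M))) 40)
    (Nat.add (Nat.mul (Nat.mul (Nat.land u18 M) (Nat.sub X (Nat.land u18 M))) 20)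
    (Nat.add (Nat.mul (Nat.mul (Nat.land u19 M) (Nat.sub X (Nat.land u19 M))) 40)
    0))))))))))))))))))))

def sqB11 (z0 z1 z2 z3 : Nat) : Nat :=
  sqA11 (Nat.shiftLeft 1 164) (Nat.sub (Nat.shiftLeft 1 164) 1)
    z0
    (Nat.shiftRight z0 164)
    (Nat.shiftRight (Nat.shiftRight z0 164) 164)
    (Nat.shiftRight (Nat.shiftRight (Nat.shiftRight z0 164) 164) 164)
    (Nat.shiftRight (Nat.shiftRight (Nat.shiftRight (Nat.shiftRight z0 164) 164) 164) 164)
    (Nat.shiftRight (Nat.shiftRight (Nat.shiftRight (Nat.shiftRight (Nat.shiftRight z0 164) 164) 164) 164) 164)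
    z1
    (Nat.shiftRight z1 164)
    (Nat.shiftRight (Nat.shiftRight z1 164) 164)
    (Nat.shiftRight (Nat.shiftRight (Nat.shiftRight z1 164) 164) 164)
    (Nat.shiftRight (Nat.shiftRight (Nat.shiftRight (Nat.shiftRight z1 164) 164) 164) 164)
    (Nat.shiftRight (Nat.shiftRight (Nat.shiftRight (Nat.shiftRight (Nat.shiftRight z1 164) 164) 164) 164) 164)
    z2
    (Nat.shiftRight z2 164)
    (Nat.shiftRight (Nat.shiftRight z2 164) 164)
    (Nat.shiftRight (Nat.shiftRight (Nat.shiftRight z2 164) 164) 164)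
    (Nat.shiftRight (Nat.shiftRight (Nat.shiftRight (Nat.shiftRight z2 164) 164) 164) 164)
    (Nat.shiftRight (Nat.shiftRight (Nat.shiftRight (Nat.shiftRight (Nat.shiftRight z2 164) 164) 164) 164) 164)
    z3
    (Nat.shiftRight z3 164)

def sqC11 (u : Nat) : Nat :=
  sqB11
    u
    (sh6 164 u)
    (sh6 164 (sh6 164 u))
    (sh6 164 (sh6 164 (sh6 164 u)))

noncomputable def sq11 (v : Nat) : Nat := sqC11 (Nat.add v (offs 164 (Nat.shiftLeft 1 (Nat.sub 164 1)) ch11))

theorem sq_eq11 : sq11 = sqF 164 ch11 := Eq.refl sq11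

theorem side_ok11 : sideOK 10 164 mask cf10 ch11 = true := by decide +kernel

def ch12 : List (Nat × Nat) :=
    [(7916,20), (8168,40), (8204,20), (8222,40), (8228,10), (8330,40), (8366,20), (8384,20),
    (9140,20), (9194,40), (9196,10), (9302,20), (9356,20), (9680,10), (9842,20), (9844,20),
    (9848,20), (9850,20), (9860,20)]

def sqA12 (X M
    u0 u1 u2 u3 u4 u5 u6 u7 u8 u9 u10 u11 u12 u13 u14 u15 u16 u17 u18 : Nat) : Nat :=
    (Nat.add (Nat.mul (Nat.mul (Nat.land u0 M) (Nat.sub X (Nat.land u0 M))) 20)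
    (Nat.add (Nat.mul (Nat.mul (Nat.land u1 M) (Nat.sub X (Nat.land u1 M))) 40)
    (Nat.add (Nat.mul (Nat.mul (Nat.land u2 M) (Nat.sub X (Nat.land u2 M))) 20)
    (Nat.add (Nat.mul (Nat.mul (Nat.land u3 M) (Nat.sub X (Nat.land u3 M))) 40)
    (Nat.add (Nat.mul (Nat.mul (Nat.land u4 M) (Nat.sub X (Nat.land u4 M))) 10)
    (Nat.add (Nat.mul (Nat.mul (Nat.land u5 M) (Nat.sub X (Nat.land u5 M))) 40)
    (Nat.add (Nat.mul (Nat.mul (Nat.land u6 M) (Nat.sub X (Nat.land u6 M))) 20)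
    (Nat.add (Nat.mul (Nat.mul (Nat.land u7 M) (Nat.sub X (Nat.land u7 M))) 20)
    (Nat.add (Nat.mul (Nat.mul (Nat.land u8 M) (Nat.sub X (Nat.land u8 M))) 20)
    (Nat.add (Nat.mul (Nat.mul (Nat.land u9 M) (Nat.sub X (Nat.land u9 M))) 40)
    (Nat.add (Nat.mul (Nat.mul (Nat.land u10 M) (Nat.sub X (Nat.land u10 M))) 10)
    (Nat.add (Nat.mul (Nat.mul (Nat.land u11 M) (Nat.sub X (Nat.land u11 M))) 20)
    (Nat.add (Nat.mul (Nat.mul (Nat.land u12 M) (Nat.sub X (Nat.land u12 M))) 20)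
    (Nat.add (Nat.mul (Nat.mul (Nat.land u13 M) (Nat.sub X (Nat.land u13 M))) 10)
    (Nat.add (Nat.mul (Nat.mul (Nat.land u14 M) (Nat.sub X (Nat.land u14 M))) 20)
    (Nat.add (Nat.mul (Nat.mul (Nat.land u15 M) (Nat.sub X (Nat.land u15 M))) 20)
    (Nat.add (Nat.mul (Nat.mul (Nat.land u16 M) (Nat.sub X (Nat.land u16 M))) 20)
    (Nat.add (Nat.mul (Nat.mul (Nat.land u17 M) (Nat.sub X (Nat.land u17 M))) 20)
    (Nat.add (Nat.mul (Nat.mul (Nat.land u18 M) (Nat.sub X (Nat.land u18 M))) 20)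
    0)))))))))))))))))))

def sqB12 (z0 z1 z2 z3 : Nat) : Nat :=
  sqA12 (Nat.shiftLeft 1 164) (Nat.sub (Nat.shiftLeft 1 164) 1)
    z0
    (Nat.shiftRight z0 164)
    (Nat.shiftRight (Nat.shiftRight z0 164) 164)
    (Nat.shiftRight (Nat.shiftRight (Nat.shiftRight z0 164) 164) 164)
    (Nat.shiftRight (Nat.shiftRight (Nat.shiftRight (Nat.shiftRight z0 164) 164) 164) 164)
    (Nat.shiftRight (Nat.shiftRight (Nat.shiftRight (Nat.shiftRight (Nat.shiftRight z0 164) 164) 164) 164) 164)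
    z1
    (Nat.shiftRight z1 164)
    (Nat.shiftRight (Nat.shiftRight z1 164) 164)
    (Nat.shiftRight (Nat.shiftRight (Nat.shiftRight z1 164) 164) 164)
    (Nat.shiftRight (Nat.shiftRight (Nat.shiftRight (Nat.shiftRight z1 164) 164) 164) 164)
    (Nat.shiftRight (Nat.shiftRight (Nat.shiftRight (Nat.shiftRight (Nat.shiftRight z1 164) 164) 164) 164) 164)
    z2
    (Nat.shiftRight z2 164)
    (Nat.shiftRight (Nat.shiftRight z2 164) 164)
    (Nat.shiftRight (Nat.shiftRight (Nat.shiftRight z2 164) 164) 164)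
    (Nat.shiftRight (Nat.shiftRight (Nat.shiftRight (Nat.shiftRight z2 164) 164) 164) 164)
    (Nat.shiftRight (Nat.shiftRight (Nat.shiftRight (Nat.shiftRight (Nat.shiftRight z2 164) 164) 164) 164) 164)
    z3

def sqC12 (u : Nat) : Nat :=
  sqB12
    u
    (sh6 164 u)
    (sh6 164 (sh6 164 u))
    (sh6 164 (sh6 164 (sh6 164 u)))

noncomputable def sq12 (v : Nat) : Nat := sqC12 (Nat.add v (offs 164 (Nat.shiftLeft 1 (Nat.sub 164 1)) ch12))

theorem sq_eq12 : sq12 = sqF 164 ch12 := Eq.refl sq12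

theorem side_ok12 : sideOK 10 164 mask cf10 ch12 = true := by decide +kernel

def ch13 : List (Nat × Nat) :=
    [(9862,40), (9868,20), (9896,20), (9898,40), (9902,20), (9904,40), (9916,20), (9922,10),
    (10004,10), (10006,40), (10010,40), (10012,40), (10024,40), (10028,20), (10030,20), (10060,20),
    (10066,40), (10334,20), (10336,20)]

def sqA13 (X M
    u0 u1 u2 u3 u4 u5 u6 u7 u8 u9 u10 u11 u12 u13 u14 u15 u16 u17 u18 : Nat) : Nat :=
    (Nat.add (Nat.mul (Nat.mul (Nat.land u0 M) (Nat.sub X (Nat.land u0 M))) 40)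
    (Nat.add (Nat.mul (Nat.mul (Nat.land u1 M) (Nat.sub X (Nat.land u1 M))) 20)
    (Nat.add (Nat.mul (Nat.mul (Nat.land u2 M) (Nat.sub X (Nat.land u2 M))) 20)
    (Nat.add (Nat.mul (Nat.mul (Nat.land u3 M) (Nat.sub X (Nat.land u3 M))) 40)
    (Nat.add (Nat.mul (Nat.mul (Nat.land u4 M) (Nat.sub X (Nat.land u4 M))) 20)
    (Nat.add (Nat.mul (Nat.mul (Nat.land u5 M) (Nat.sub X (Nat.land u5 M))) 40)
    (Nat.add (Nat.mul (Nat.mul (Nat.land u6 M) (Nat.sub X (Nat.land u6 M))) 20)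
    (Nat.add (Nat.mul (Nat.mul (Nat.land u7 M) (Nat.sub X (Nat.land u7 M))) 10)
    (Nat.add (Nat.mul (Nat.mul (Nat.land u8 M) (Nat.sub X (Nat.land u8 M))) 10)
    (Nat.add (Nat.mul (Nat.mul (Nat.land u9 M) (Nat.sub X (Nat.land u9 M))) 40)
    (Nat.add (Nat.mul (Nat.mul (Nat.land u10 M) (Nat.sub X (Nat.land u10 M))) 40)
    (Nat.add (Nat.mul (Nat.mul (Nat.land u11 M) (Nat.sub X (Nat.land u11 M))) 40)
    (Nat.add (Nat.mul (Nat.mul (Nat.land u12 M) (Nat.sub X (Nat.land u12 M))) 40)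
    (Nat.add (Nat.mul (Nat.mul (Nat.land u13 M) (Nat.sub X (Nat.land u13 M))) 20)
    (Nat.add (Nat.mul (Nat.mul (Nat.land u14 M) (Nat.sub X (Nat.land u14 M))) 20)
    (Nat.add (Nat.mul (Nat.mul (Nat.land u15 M) (Nat.sub X (Nat.land u15 M))) 20)
    (Nat.add (Nat.mul (Nat.mul (Nat.land u16 M) (Nat.sub X (Nat.land u16 M))) 40)
    (Nat.add (Nat.mul (Nat.mul (Nat.land u17 M) (Nat.sub X (Nat.land u17 M))) 20)
    (Nat.add (Nat.mul (Nat.mul (Nat.land u18 M) (Nat.sub X (Nat.land u18 M))) 20)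
    0)))))))))))))))))))

def sqB13 (z0 z1 z2 z3 : Nat) : Nat :=
  sqA13 (Nat.shiftLeft 1 164) (Nat.sub (Nat.shiftLeft 1 164) 1)
    z0
    (Nat.shiftRight z0 164)
    (Nat.shiftRight (Nat.shiftRight z0 164) 164)
    (Nat.shiftRight (Nat.shiftRight (Nat.shiftRight z0 164) 164) 164)
    (Nat.shiftRight (Nat.shiftRight (Nat.shiftRight (Nat.shiftRight z0 164) 164) 164) 164)
    (Nat.shiftRight (Nat.shiftRight (Nat.shiftRight (Nat.shiftRight (Nat.shiftRight z0 164) 164) 164) 164) 164)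
    z1
    (Nat.shiftRight z1 164)
    (Nat.shiftRight (Nat.shiftRight z1 164) 164)
    (Nat.shiftRight (Nat.shiftRight (Nat.shiftRight z1 164) 164) 164)
    (Nat.shiftRight (Nat.shiftRight (Nat.shiftRight (Nat.shiftRight z1 164) 164) 164) 164)
    (Nat.shiftRight (Nat.shiftRight (Nat.shiftRight (Nat.shiftRight (Nat.shiftRight z1 164) 164) 164) 164) 164)
    z2
    (Nat.shiftRight z2 164)
    (Nat.shiftRight (Nat.shiftRight z2 164) 164)
    (Nat.shiftRight (Nat.shiftRight (Nat.shiftRight z2 164) 164) 164)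
    (Nat.shiftRight (Nat.shiftRight (Nat.shiftRight (Nat.shiftRight z2 164) 164) 164) 164)
    (Nat.shiftRight (Nat.shiftRight (Nat.shiftRight (Nat.shiftRight (Nat.shiftRight z2 164) 164) 164) 164) 164)
    z3

def sqC13 (u : Nat) : Nat :=
  sqB13
    u
    (sh6 164 u)
    (sh6 164 (sh6 164 u))
    (sh6 164 (sh6 164 (sh6 164 u)))

noncomputable def sq13 (v : Nat) : Nat := sqC13 (Nat.add v (offs 164 (Nat.shiftLeft 1 (Nat.sub 164 1)) ch13))

theorem sq_eq13 : sq13 = sqF 164 ch13 := Eq.refl sq13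

theorem side_ok13 : sideOK 10 164 mask cf10 ch13 = true := by decide +kernel

def ch14 : List (Nat × Nat) :=
    [(10346,20), (10348,40), (10352,40), (10384,40), (10388,20), (10390,20), (10402,40),
    (10406,10), (10492,10), (10498,20), (10510,20), (11356,20), (11360,20), (11374,10), (11468,10),
    (11482,20), (11486,20), (11518,20), (14762,2), (29524,1)]

def sqA14 (X M
    u0 u1 u2 u3 u4 u5 u6 u7 u8 u9 u10 u11 u12 u13 u14 u15 u16 u17 u18 u19 : Nat) : Nat :=
    (Nat.add (Nat.mul (Nat.mul (Nat.land u0 M) (Nat.sub X (Nat.land u0 M))) 20)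
    (Nat.add (Nat.mul (Nat.mul (Nat.land u1 M) (Nat.sub X (Nat.land u1 M))) 40)
    (Nat.add (Nat.mul (Nat.mul (Nat.land u2 M) (Nat.sub X (Nat.land u2 M))) 40)
    (Nat.add (Nat.mul (Nat.mul (Nat.land u3 M) (Nat.sub X (Nat.land u3 M))) 40)
    (Nat.add (Nat.mul (Nat.mul (Nat.land u4 M) (Nat.sub X (Nat.land u4 M))) 20)
    (Nat.add (Nat.mul (Nat.mul (Nat.land u5 M) (Nat.sub X (Nat.land u5 M))) 20)
    (Nat.add (Nat.mul (Nat.mul (Nat.land u6 M) (Nat.sub X (Nat.land u6 M))) 40)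
    (Nat.add (Nat.mul (Nat.mul (Nat.land u7 M) (Nat.sub X (Nat.land u7 M))) 10)
    (Nat.add (Nat.mul (Nat.mul (Nat.land u8 M) (Nat.sub X (Nat.land u8 M))) 10)
    (Nat.add (Nat.mul (Nat.mul (Nat.land u9 M) (Nat.sub X (Nat.land u9 M))) 20)
    (Nat.add (Nat.mul (Nat.mul (Nat.land u10 M) (Nat.sub X (Nat.land u10 M))) 20)
    (Nat.add (Nat.mul (Nat.mul (Nat.land u11 M) (Nat.sub X (Nat.land u11 M))) 20)
    (Nat.add (Nat.mul (Nat.mul (Nat.land u12 M) (Nat.sub X (Nat.land u12 M))) 20)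
    (Nat.add (Nat.mul (Nat.mul (Nat.land u13 M) (Nat.sub X (Nat.land u13 M))) 10)
    (Nat.add (Nat.mul (Nat.mul (Nat.land u14 M) (Nat.sub X (Nat.land u14 M))) 10)
    (Nat.add (Nat.mul (Nat.mul (Nat.land u15 M) (Nat.sub X (Nat.land u15 M))) 20)
    (Nat.add (Nat.mul (Nat.mul (Nat.land u16 M) (Nat.sub X (Nat.land u16 M))) 20)
    (Nat.add (Nat.mul (Nat.mul (Nat.land u17 M) (Nat.sub X (Nat.land u17 M))) 20)
    (Nat.add (Nat.mul (Nat.mul (Nat.land u18 M) (Nat.sub X (Nat.land u18 M))) 2)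
    (Nat.add (Nat.mul (Nat.mul (Nat.land u19 M) (Nat.sub X (Nat.land u19 M))) 1)
    0))))))))))))))))))))

def sqB14 (z0 z1 z2 z3 : Nat) : Nat :=
  sqA14 (Nat.shiftLeft 1 164) (Nat.sub (Nat.shiftLeft 1 164) 1)
    z0
    (Nat.shiftRight z0 164)
    (Nat.shiftRight (Nat.shiftRight z0 164) 164)
    (Nat.shiftRight (Nat.shiftRight (Nat.shiftRight z0 164) 164) 164)
    (Nat.shiftRight (Nat.shiftRight (Nat.shiftRight (Nat.shiftRight z0 164) 164) 164) 164)
    (Nat.shiftRight (Nat.shiftRight (Nat.shiftRight (Nat.shiftRight (Nat.shiftRight z0 164) 164) 164) 164) 164)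
    z1
    (Nat.shiftRight z1 164)
    (Nat.shiftRight (Nat.shiftRight z1 164) 164)
    (Nat.shiftRight (Nat.shiftRight (Nat.shiftRight z1 164) 164) 164)
    (Nat.shiftRight (Nat.shiftRight (Nat.shiftRight (Nat.shiftRight z1 164) 164) 164) 164)
    (Nat.shiftRight (Nat.shiftRight (Nat.shiftRight (Nat.shiftRight (Nat.shiftRight z1 164) 164) 164) 164) 164)
    z2
    (Nat.shiftRight z2 164)
    (Nat.shiftRight (Nat.shiftRight z2 164) 164)
    (Nat.shiftRight (Nat.shiftRight (Nat.shiftRight z2 164) 164) 164)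
    (Nat.shiftRight (Nat.shiftRight (Nat.shiftRight (Nat.shiftRight z2 164) 164) 164) 164)
    (Nat.shiftRight (Nat.shiftRight (Nat.shiftRight (Nat.shiftRight (Nat.shiftRight z2 164) 164) 164) 164) 164)
    z3
    (Nat.shiftRight z3 164)

def sqC14 (u : Nat) : Nat :=
  sqB14
    u
    (sh6 164 u)
    (sh6 164 (sh6 164 u))
    (sh6 164 (sh6 164 (sh6 164 u)))

noncomputable def sq14 (v : Nat) : Nat := sqC14 (Nat.add v (offs 164 (Nat.shiftLeft 1 (Nat.sub 164 1)) ch14))

theorem sq_eq14 : sq14 = sqF 164 ch14 := Eq.refl sq14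

theorem side_ok14 : sideOK 10 164 mask cf10 ch14 = true := by decide +kernel

theorem cover : beqP (repL 10 10) (ch0 ++ (ch1 ++ (ch2 ++ (ch3 ++ (ch4 ++ (ch5 ++ (ch6 ++ (ch7 ++ (ch8 ++ (ch9 ++ (ch10 ++ (ch11 ++ (ch12 ++ (ch13 ++ (ch14 ++ []))))))))))))))) = true := by decide +kernel

theorem len_ok : (secL 10 10 0 []).length = 8953 := by decide +kernel

theorem wt_ok : (List.map Prod.snd (ch0 ++ (ch1 ++ (ch2 ++ (ch3 ++ (ch4 ++ (ch5 ++ (ch6 ++ (ch7 ++ (ch8 ++ (ch9 ++ (ch10 ++ (ch11 ++ (ch12 ++ (ch13 ++ (ch14 ++ [])))))))))))))))).sum = 8953 := by decide +kernel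

end Vale.Agent.P348.A10_10
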