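import Vale.Agent.P348.KCore2
import Vale.Agent.P348.Poly

set_option maxRecDepth 1000000
set_option maxHeartbeats 0
set_option linter.all false

namespace Vale.Agent.P348.A10_6

def mask : Nat := nat_lit 9792356192518641008886903855380360520814062152359669284726422334777003860614779308384601203831733568001461349374080457004112492505135116256125295612451748047841068756669046210774316170225229455240874095159998137344683900438726159476174497814473347619139417416483314184998682438915246864839976660475829025781447438642858475676689797636560718449271533087706201328323294388441581636843368627311752566409579088908250440459878284317172008023055100376097156188213211414320774093279523975697645233806425447020625251335952199929021095687496999826252497988508812311040570966290264537479556449592329676555137926852155277793707142964781476426837642599624598578951624022900159778678848014703474548774730831082878770957663174962326373200615478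96737830853203752580970136114086780192996168032603969326128858764970784917382857544453190014288313203850184671512466138878376186045555662535240444779770530898860117805286790358870231841501124955544405293251731986663802645894552622734888535509041312459584396123401561200468485949804900863105412720455195889004353163881257107674249216489624174617879592885588063551581127051272302192612591058251419285602921797769225722095437733638357979837775873375220845158978544443849991356646785243852129112876601315780184050938701247141133411135931840565336562276616404962917505927116471220569894912455519093209613802324086764911208045831288643918140557703462473923270398239432623099285355330722708050832389129092226058696302395536771845576303986200846340523096877191093186404409250453649021499491587539821946381302633262765983355106185148911387386240088370060652408381665165328695187314295739187111644138752812335395269331245466540815699929747310430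784642979214481867121318677424563159469083357767594537930337735720508212640081932442975931170893084892906530044211088713649879380762102071107640752149244491822007900578145708036065448007377999334210995030805916404781819849418377068473828652925642139695904063428259962839817946615438591244008708254399414883354506972793898231876085612646905608330359882136516444293053178282465994007294730657493260393961467152916089529085139283559166301766831762103170658812519549989365036944308757891721834842777179414779374317032178555558125093224727657461647901938497619885243257720510543209063936677926257938349297227446353920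

def KK : Type :=
    Nat → Nat → Nat → Nat → Nat → Nat → Nat → Nat → Nat → Nat → Nat → Nat → Nat → Nat → Nat → Nat →
    Nat → Nat → Nat → Nat → Nat → Nat → Nat → Nat → Nat → Nat → Nat → Nat → Nat → Nat → Nat → Nat →
    Nat → Nat → Nat → Nat → Nat → Nat → Nat → Nat → Nat → Nat → Nat → Nat → Nat → Nat → Nat → Nat →
    Nat → Nat → Nat → Nat → Nat → Nat → Nat → Nat → Nat → Nat → Nat → Nat → Nat → Nat → Nat → Nat →
    Nat → Nat → Nat → Nat → Nat → Nat → Nat → Nat → Nat → Nat → Nat → Nat → Nat → Nat → Nat → Nat →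
    Nat → Nat → Nat → Nat → Nat → Nat → Nat → Nat → Nat → Nat → Nat → Nat → Nat → Nat → Nat → Nat →
    Nat → Nat → Nat → Nat → Nat → Nat → Nat → Nat → Nat → Nat → Nat → Nat → Nat → Nat → Nat → Nat →
    Nat → Nat → Nat → Nat → Nat → Nat → Nat → Nat → Nat → Nat → Nat → Nat → Nat → Nat → Nat → Nat →
    Nat → Nat → Nat → Nat → Nat → Nat → Nat → Nat → Nat → Nat → Nat → Nat → Nat → Nat → Nat → Nat →
    Nat → Nat → Nat → Nat → Nat → Nat → Nat → Nat → Nat → Nat → Nat → Nat → Nat → Nat → Nat → Nat →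
    Nat → Nat → Nat → Nat → Nat → Nat → Nat → Nat → Nat → Nat → Nat → Nat → Nat → Nat → Nat → Nat →
    Nat → Nat → Nat → Nat → Nat → Nat → Nat → Nat → Nat → Nat → Nat → Nat → Nat → Nat → Nat → Nat →
    Nat → Nat → Nat → Nat → Nat → Nat → Nat → Nat → Nat → Nat → Nat → Nat → Nat → Nat → Nat → Nat →
    Nat → Nat → Nat → Nat → Nat → Nat → Nat → Nat → Nat → Nat → Nat → Nat → Nat → Nat → Nat → Nat →
    Nat → Nat → Nat → Nat → Nat → Nat → Nat → Nat → Nat → Nat → Nat → Nat → Nat → Nat → Nat → Nat →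
    Nat → Nat → Nat → Nat → Nat → Nat → Nat → Nat → Nat → Nat → Nat → Nat → Nat → Nat → Nat → Nat →
    Nat → Nat → Nat → Nat → Nat → Nat → Nat → Nat → Nat → Nat → Nat → Nat → Nat → Nat → Nat → Nat →
    Nat → Nat → Nat → Nat → Nat → Nat → Nat → Nat → Nat → Nat → Nat → Nat → Nat → Nat → Nat → Nat →
    Nat → Nat → Nat → Nat → Nat → Nat → Nat → Nat → Nat → Nat → Nat → Nat → Nat → Nat → Nat → Nat →
    Nat → Nat → Nat → Nat → Nat → Nat → Nat → Nat → Nat → Nat → Nat → Nat → Nat → Nat → Nat → Nat →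
    Nat → Nat → Nat → Nat → Nat → Nat → Nat → Nat → Nat → Nat → Nat → Nat → Nat → Nat → Nat → Nat →
    Nat → Nat → Nat → Nat → Nat → Nat → Nat → Nat → Nat → Nat → Nat → Nat → Nat → Nat → Nat → Nat →
    Nat → Nat → Nat → Nat → Nat → Nat → Nat → Nat → Nat → Nat → Nat → Nat → Nat → Nat → Nat → Nat →
    Nat → Nat → Nat → Nat → Nat → Nat → Nat → Nat → Nat → Nat → Nat → Nat → Nat → Nat → Nat → Nat →
    Nat → Nat → Nat → Nat → Nat → Nat → Nat → Nat → Nat → Nat → Nat → Nat → Nat → Nat → Nat → Nat →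
    Nat → Nat → Nat → Nat → Nat → Nat → Nat → Nat → Nat → Nat → Nat → Nat → Nat → Nat → Nat → Nat →
    Nat → Nat → Nat → Nat → Nat → Nat → Nat → Nat → Nat → Nat → Nat → Nat → Nat → Nat → Nat → Nat →
    Nat → Nat → Nat → Nat → Nat → Nat → Nat → Nat → Nat → Nat → Nat → Nat → Nat → Nat → Nat → Nat →
    Nat → Nat → Nat → Nat → Nat → Nat → Nat → Nat → Nat → Nat → Nat → Nat → Nat → Nat → Nat → Nat →
    Nat → Nat → Nat → Nat → Nat → Nat → Nat → Nat → Nat → Nat → Nat → Nat → Nat → Nat → Nat → Nat →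
    Nat → Nat → Nat → Nat → Nat → Nat → Nat → Nat → Nat → Nat → Nat → Nat → Nat → Nat → Nat → Nat →
    Nat → Nat → Nat → Nat → Nat → Nat → Nat → Nat → Nat → Nat → Nat → Nat → Nat → Nat → Nat → Nat →
    Nat → Nat → Nat → Nat → Nat → Nat → Nat → Nat → Nat → Nat → Nat → Nat → Nat → Nat → Nat → Nat →
    Nat → Nat → Nat → Nat → Nat → Nat → Nat → Nat → Nat → Nat → Nat → Nat → Nat → Nat → Nat → Nat →
    Nat → Nat → Nat → Nat → Nat → Nat → Nat → Nat → Nat → Nat → Nat → Nat → Nat → Nat → Nat → Nat →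
    Nat → Nat → Nat → Nat → Nat → Nat → Nat → Nat → Nat → Nat → Nat → Nat → Nat → Nat → Nat → Nat →
    Nat → Nat → Nat → Nat → Nat → Nat → Nat → Nat → Nat → Nat → Nat → Nat → Nat → Nat → Nat → Nat →
    Nat → Nat → Nat → Nat → Nat → Nat → Nat → Nat → Nat → Nat → Nat → Nat → Nat → Nat → Nat → Nat →
    Nat → Nat → Nat → Nat → Nat → Nat → Nat → Nat → Nat → Nat → Nat → Nat → Nat → Nat → Nat → Nat →
    Nat → Nat → Nat → Nat → Nat → Nat → Nat → Nat → Nat → Nat → Nat → Nat → Nat → Nat → Nat → Nat →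
    Nat → Nat → Nat → Nat → Nat → Nat → Nat → Nat → Nat → Nat → Nat → Nat → Nat → Nat → Nat → Nat →
    Nat → Nat → Nat → Nat → Nat → Nat → Nat → Nat → Nat → Nat → Nat → Nat → Nat → Nat → Nat → Nat →
    Nat → Nat → Nat → Nat → Nat → Nat → Nat → Nat → Nat → Nat → Nat → Nat → Nat → Nat → Nat → Nat →
    Nat → Nat → Nat → Nat → Nat → Nat → Nat → Nat → Nat → Nat → Nat → Nat → Nat → Nat → Nat → Nat →
    Nat → Nat → Nat → Nat → Nat → Nat → Nat → Nat → Nat → Nat → Nat → Nat → Nat → Nat → Nat → Nat →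
    Nat → Nat → Nat → Nat → Nat → Nat → Nat → Nat → Nat → Nat → Nat → Nat → Nat → Nat → Nat → Nat →
    Nat → Nat → Nat → Nat → Nat → Nat → Nat → Nat → Nat → Nat → Nat → Nat → Nat → Nat → Nat → Nat →
    Nat → Nat → Nat → Nat → Nat → Nat → Nat → Nat → Nat → Nat → Nat → Nat → Nat → Nat → Nat → Nat →
    Nat → Nat → Nat → Nat → Nat → Nat → Nat → Nat → Nat → Nat → Nat → Nat → Nat → Nat → Nat → Nat →
    Nat → Nat → Nat → Nat → Nat → Nat → Nat → Nat → Nat → Nat → Nat → Nat → Nat → Nat → Nat → Nat →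
    Nat → Nat → Nat → Nat → Nat → Nat → Nat → Nat → Nat → Nat → Nat → Nat → Nat → Nat → Nat → Nat →
    Nat → Nat → Nat → Nat → Nat → Nat → Nat → Nat → Nat → Nat → Nat → Nat → Nat → Nat → Nat → Nat →
    Nat → Nat → Nat → Nat → Nat → Nat → Nat → Nat → Nat → Nat → Nat → Nat → Nat → Nat → Nat → Nat →
    Nat → Nat → Nat → Nat → Nat → Nat → Nat → Nat → Nat → Nat → Nat → Nat → Nat → Nat → Nat → Nat →
    Nat → Nat → Nat → Nat → Nat → Nat → Nat → Nat → Nat → Nat → Nat → Nat → Nat → Nat → Nat → Nat →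
    Nat → Nat → Nat → Nat → Nat → Nat → Nat → Nat → Nat → Nat → Nat → Nat → Nat → Nat → Nat → Nat →
    Nat → Nat → Nat → Nat → Nat → Nat → Nat → Nat → Nat → Nat → Nat → Nat → Nat → Nat → Nat → Nat →
    Nat → Nat → Nat → Nat → Nat → Nat → Nat → Nat → Nat → Nat → Nat → Nat → Nat → Nat → Nat → Nat →
    Nat → Nat → Nat → Nat → Nat → Nat → Nat → Nat → Nat → Nat → Nat → Nat → Nat → Nat → Nat → Nat →
    Nat → Nat → Nat → Nat → Nat → Nat → Nat → Nat → Nat → Nat → Nat → Nat → Nat → Nat → Nat → Nat →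
    Nat → Nat → Nat → Nat → Nat → Nat → Nat → Nat → Nat → Nat → Nat → Nat → Nat → Nat → Nat → Nat →
    Nat → Nat → Nat → Nat → Nat → Nat → Nat → Nat → Nat → Nat → Nat → Nat → Nat → Nat → Nat → Nat →
    Nat → Nat → Nat → Nat → Nat → Nat → Nat → Nat → Nat → Nat → Nat → Nat → Nat → Nat → Nat → Nat →
    Nat → Nat → Nat → Nat → Nat → Nat → Nat → Nat → Nat → Nat → Nat → Nat → Nat → Nat → Nat → Nat →
    Nat → Nat → Nat → Nat → Nat → Nat → Nat → Nat → Nat → Nat → Nat → Nat → Nat → Nat → Nat → Nat →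
    Nat → Nat → Nat → Nat → Nat → Nat → Nat → Nat → Nat → Nat → Nat → Nat → Nat → Nat → Nat → Nat →
    Nat → Nat → Nat → Nat → Nat → Nat → Nat → Nat → Nat → Nat → Nat → Nat → Nat → Nat → Nat → Nat →
    Nat → Nat → Nat → Nat → Nat → Nat → Nat → Nat → Nat → Nat → Nat → Nat → Nat → Nat → Nat → Nat →
    Nat → Nat → Nat → Nat → Nat → Nat → Nat → Nat → Nat → Nat → Nat → Nat → Nat → Nat → Nat → Nat →
    Nat → Nat → Nat → Nat → Nat → Nat → Nat → Nat → Nat → Nat → Nat → Nat → Nat → Nat → Nat → Nat →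
    Nat → Nat → Nat → Nat → Nat → Nat → Nat → Nat → Nat → Nat → Nat → Nat → Nat → Nat → Nat → Nat →
    Nat → Nat → Nat → Nat → Nat → Nat → Nat → Nat → Nat → Nat → Nat → Nat → Nat → Nat → Nat → Nat →
    Nat → Nat → Nat → Nat → Nat → Nat → Nat → Nat → Nat → Nat → Nat → Nat → Nat → Nat → Nat → Nat →
    Nat → Nat → Nat → Nat → Nat → Nat → Nat → Nat → Nat → Nat → Nat → Nat → Nat → Nat → Nat → Nat →
    Nat → Nat → Nat → Nat → Nat → Nat → Nat → Nat → Nat → Nat → Nat → Nat → Nat → Nat → Nat → Nat →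
    Nat → Nat → Nat → Nat → Nat → Nat → Nat → Nat → Nat → Nat → Nat → Nat → Nat → Nat → Nat → Nat →
    Nat → Nat → Nat → Nat → Nat → Nat → Nat → Nat → Nat → Nat → Nat → Nat → Nat → Nat → Nat → Nat →
    Nat → Nat → Nat → Nat → Nat → Nat → Nat → Nat → Nat → Nat → Nat → Nat → Nat → Nat → Nat → Nat →
    Nat → Nat → Nat → Nat → Nat → Nat → Nat → Nat → Nat → Nat → Nat → Nat → Nat → Nat → Nat → Nat →
    Nat → Nat → Nat → Nat → Nat → Nat → Nat → Nat → Nat → Nat → Nat → Nat → Nat → Nat → Nat → Nat →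
    Nat → Nat → Nat → Nat → Nat → Nat → Nat → Nat → Nat → Nat → Nat → Nat → Nat → Nat → Nat → Nat →
    Nat → Nat → Nat → Nat → Nat → Nat → Nat → Nat → Nat → Nat → Nat → Nat → Nat → Nat → Nat → Nat →
    Nat → Nat → Nat → Nat → Nat → Nat → Nat → Nat → Nat → Nat → Nat → Nat → Nat → Nat → Nat → Nat →
    Nat → Nat → Nat → Nat → Nat → Nat → Nat → Nat → Nat → Nat → Nat → Nat → Nat → Nat → Nat → Nat →
    Nat → Nat → Nat → Nat → Nat → Nat → Nat → Nat → Nat → Nat → Nat → Nat → Nat → Nat → Nat → Nat →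
    Nat → Nat → Nat → Nat → Nat → Nat → Nat → Nat → Nat → Nat → Nat → Nat → Nat → Nat → Nat → Nat →
    Nat → Nat → Nat → Nat → Nat → Nat → Nat → Nat → Nat → Nat → Nat → Nat → Nat → Nat → Nat → Nat →
    Nat → Nat → Nat → Nat → Nat → Nat → Nat → Nat → Nat → Nat → Nat → Nat → Nat → Nat → Nat → Nat →
    Nat → Nat → Nat → Nat → Nat → Nat → Nat → Nat → Nat → Nat → Nat → Nat → Nat → Nat → Nat → Nat →
    Nat → Nat → Nat → Nat → Nat → Nat → Nat → Nat → Nat → Nat → Nat → Nat → Nat → Nat → Nat → Nat →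
    Nat → Nat → Nat → Nat → Nat → Nat → Nat → Nat → Nat → Nat → Nat → Nat → Nat → Nat → Nat → Nat →
    Nat → Nat → Nat → Nat → Nat → Nat → Nat → Nat → Nat → Nat → Nat → Nat → Nat → Nat → Nat → Nat →
    Nat → Nat → Nat → Nat → Nat → Nat → Nat → Nat → Nat → Nat → Nat → Nat → Nat → Nat → Nat → Nat →
    Nat → Nat → Nat → Nat → Nat → Nat → Nat → Nat → Nat → Nat → Nat → Nat → Nat → Nat → Nat → Nat →
    Nat → Nat → Nat → Nat → Nat → Nat → Nat → Nat → Nat → Nat → Nat → Nat → Nat → Nat → Nat → Nat →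
    Nat → Nat → Nat → Nat → Nat → Nat → Nat → Nat → Nat → Nat → Nat → Nat → Nat → Nat → Nat → Nat →
    Nat → Nat → Nat → Nat → Nat → Nat → Nat → Nat → Nat → Nat → Nat → Nat → Nat → Nat → Nat → Nat →
    Nat → Nat → Nat → Nat → Nat → Nat → Nat → Nat → Nat → Nat → Nat → Nat → Nat → Nat → Nat → Nat →
    Nat → Nat → Nat → Nat → Nat → Nat → Nat → Nat → Nat → Nat → Nat → Nat → Nat → Nat → Nat → Nat →
    Nat → Nat → Nat → Nat → Nat → Nat → Nat → Nat → Nat → Nat → Nat → Nat → Nat → Nat → Nat → Nat →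
    Nat → Nat → Nat → Nat → Nat → Nat → Nat → Nat → Nat → Nat → Nat → Nat → Nat → Nat → Nat → Nat →
    Nat → Nat → Nat → Nat → Nat → Nat → Nat → Nat → Nat → Nat → Nat → Nat → Nat → Nat → Nat → Nat →
    Nat → Nat → Nat → Nat → Nat → Nat → Nat → Nat → Nat → Nat → Nat → Nat → Nat → Nat → Nat → Nat →
    Nat → Nat → Nat → Nat → Nat → Nat → Nat → Nat → Nat → Nat → Nat → Nat → Nat → Nat → Nat → Nat →
    Nat → Nat → Nat → Nat → Nat → Nat → Nat → Nat → Nat → Nat → Nat → Nat → Nat → Nat → Nat → Nat →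
    Nat → Nat → Nat → Nat → Nat → Nat → Nat → Nat → Nat → Nat → Nat → Nat → Nat → Nat → Nat → Nat →
    Nat → Nat → Nat → Nat → Nat → Nat → Nat → Nat → Nat → Nat → Nat → Nat → Nat → Nat → Nat → Nat →
    Nat → Nat → Nat → Nat → Nat → Nat → Nat → Nat → Nat → Nat → Nat → Nat → Nat → Nat → Nat → Nat →
    Nat → Nat → Nat → Nat → Nat → Nat → Nat → Nat → Nat → Nat → Nat → Nat → Nat → Nat → Nat → Nat →
    Nat → Nat → Nat → Nat → Nat → Nat → Nat → Nat → Nat → Nat → Nat → Nat → Nat → Nat → Nat → Nat →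
    Nat → Nat → Nat → Nat → Nat → Nat → Nat → Nat → Nat → Nat → Nat → Nat → Nat → Nat → Nat → Nat →
    Nat → Nat → Nat → Nat → Nat → Nat → Nat → Nat → Nat → Nat → Nat → Nat → Nat → Nat → Nat → Nat →
    Nat → Nat → Nat → Nat → Nat → Nat → Nat → Nat → Nat → Nat → Nat → Nat → Nat → Nat → Nat → Nat →
    Nat → Nat → Nat → Nat → Nat → Nat → Nat → Nat → Nat → Nat → Nat → Nat → Nat → Nat → Nat → Nat →
    Nat → Nat → Nat → Nat → Nat → Nat → Nat → Nat → Nat → Nat → Nat → Nat → Nat → Nat → Nat → Nat →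
    Nat → Nat → Nat → Nat → Nat → Nat → Nat → Nat → Nat → Nat → Nat → Nat → Nat → Nat → Nat → Nat →
    Nat → Nat → Nat → Nat → Nat → Nat → Nat → Nat → Nat → Nat → Nat → Nat → Nat → Nat → Nat → Nat →
    Nat → Nat → Nat → Nat → Nat → Nat → Nat → Nat → Nat → Nat → Nat → Nat → Nat → Nat → Nat → Nat →
    Nat → Nat → Nat → Nat → Nat → Nat → Nat → Nat → Nat → Nat → Nat → Nat → Nat → Nat → Nat → Nat →
    Nat → Nat → Nat → Nat → Nat → Nat → Nat → Nat → Nat → Nat → Nat → Nat → Nat → Nat → Nat → Nat →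
    Nat → Nat → Nat → Nat → Nat → Nat → Nat → Nat → Nat → Nat → Nat → Nat → Nat → Nat → Nat → Nat →
    Nat → Nat → Nat → Nat → Nat → Nat → Nat → Nat → Nat → Nat → Nat → Nat → Nat → Nat → Nat → Nat →
    Nat → Nat → Nat → Nat → Nat → Nat → Nat → Nat → Nat → Nat → Nat → Nat → Nat → Nat → Nat → Nat →
    Nat → Nat → Nat → Nat → Nat → Nat → Nat → Nat → Nat → Nat → Nat → Nat → Nat → Nat → Nat → Nat →
    Nat → Nat → Nat → Nat → Nat → Nat → Nat → Nat → Nat → Nat → Nat → Nat → Nat → Nat → Nat → Nat →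
    Nat → Nat → Nat → Nat → Nat → Nat → Nat → Nat → Nat → Nat → Nat → Nat → Nat → Nat → Nat → Nat →
    Nat → Nat → Nat → Nat → Nat → Nat → Nat → Nat → Nat → Nat → Nat → Nat → Nat → Nat → Nat → Nat →
    Nat → Nat → Nat → Nat → Nat → Nat → Nat → Nat → Nat → Nat → Nat → Nat → Nat → Nat → Nat → Nat →
    Nat → Nat → Nat → Nat → Nat → Nat → Nat → Nat → Nat → Nat → Nat → Nat → Nat → Nat → Nat → Nat →
    Nat → Nat → Nat → Nat → Nat → Nat → Nat → Nat → Nat → Nat → Nat → Nat → Nat → Nat → Nat → Nat →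
    Nat → Nat → Nat → Nat → Nat → Nat → Nat → Nat → Nat → Nat → Nat → Nat → Nat → Nat → Nat → Nat →
    Nat → Nat → Nat → Nat → Nat → Nat → Nat → Nat → Nat → Nat → Nat → Nat → Nat → Nat → Nat → Nat →
    Nat → Nat → Nat → Nat → Nat → Nat → Nat → Nat → Nat → Nat → Nat → Nat → Nat → Nat → Nat → Nat →
    Nat → Nat → Nat → Nat → Nat → Nat → Nat → Nat → Nat → Nat → Nat → Nat → Nat → Nat → Nat → Nat →
    Nat → Nat → Nat → Nat → Nat → Nat → Nat → Nat → Nat → Nat → Nat → Nat → Nat → Nat → Nat → Nat →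
    Nat → Nat → Nat → Nat → Nat → Nat → Nat → Nat → Nat → Nat → Nat → Nat → Nat → Nat → Nat → Nat →
    Nat → Nat → Nat → Nat → Nat → Nat → Nat → Nat → Nat → Nat → Nat → Nat → Nat → Nat → Nat → Nat →
    Nat → Nat → Nat → Nat → Nat → Nat → Nat → Nat → Nat → Nat → Nat → Nat → Nat → Nat → Nat → Nat →
    Nat → Nat → Nat → Nat → Nat → Nat → Nat → Nat → Nat → Nat → Nat → Nat → Nat → Nat → Nat → Nat →
    Nat → Nat → Nat → Nat → Nat → Nat → Nat → Nat → Nat → Nat → Nat → Nat → Nat → Nat → Nat → Nat →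
    Nat → Nat → Nat → Nat → Nat → Nat → Nat → Nat → Nat → Nat → Nat → Nat → Nat → Nat → Nat → Nat →
    Nat → Nat → Nat → Nat → Nat → Nat → Nat → Nat → Nat → Nat → Nat → Nat → Nat → Nat → Nat → Nat →
    Nat → Nat → Nat → Nat → Nat → Nat → Nat → Nat → Nat → Nat → Nat → Nat → Nat → Nat → Nat → Nat →
    Nat → Nat → Nat → Nat → Nat → Nat → Nat → Nat → Nat → Nat → Nat → Nat → Nat → Nat → Nat → Nat →
    Nat → Nat → Nat → Nat → Nat → Nat → Nat → Nat → Nat → Nat → Nat → Nat → Nat → Nat → Nat → Nat →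
    Nat → Nat → Nat → Nat → Nat → Nat → Nat → Nat → Nat → Nat → Nat → Nat → Nat → Nat → Nat → Nat →
    Nat → Nat → Nat → Nat → Nat → Nat → Nat → Nat → Nat → Nat → Nat → Nat → Nat → Nat → Nat → Nat →
    Nat → Nat → Nat → Nat → Nat → Nat → Nat → Nat → Nat → Nat → Nat → Nat → Nat → Nat → Nat → Nat →
    Nat → Nat → Nat → Nat → Nat → Nat → Nat → Nat → Nat → Nat → Nat → Nat → Nat → Nat → Nat → Nat →
    Nat → Nat → Nat → Nat → Nat → Nat → Nat → Nat → Nat → Nat → Nat → Nat → Nat → Nat → Nat → Nat →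
    Nat → Nat → Nat → Nat → Nat → Nat → Nat → Nat → Nat → Nat → Nat → Nat → Nat → Nat → Nat → Nat →
    Nat → Nat → Nat → Nat → Nat → Nat → Nat → Nat → Nat → Nat → Nat → Nat → Nat → Nat → Nat → Nat →
    Nat → Nat → Nat → Nat → Nat → Nat → Nat → Nat → Nat → Nat → Nat → Nat → Nat → Nat → Nat → Nat →
    Nat → Nat → Nat → Nat → Nat → Nat → Nat → Nat → Nat → Nat → Nat → Nat → Nat → Nat → Nat → Nat →
    Nat → Nat → Nat → Nat → Nat → Nat → Nat → Nat → Nat → Nat → Nat → Nat → Nat → Nat → Nat → Nat →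
    Nat → Nat → Nat → Nat → Nat → Nat → Nat → Nat → Nat → Nat → Nat → Nat → Nat → Nat → Nat → Nat →
    Nat → Nat → Nat → Nat → Nat → Nat → Nat → Nat → Nat → Nat → Nat → Nat → Nat → Nat → Nat → Nat →
    Nat → Nat → Nat → Nat → Nat → Nat → Nat → Nat → Nat → Nat → Nat → Nat → Nat → Nat → Nat → Nat →
    Nat → Nat → Nat → Nat → Nat → Nat → Nat → Nat → Nat → Nat → Nat → Nat → Nat → Nat → Nat → Nat →
    Nat → Nat → Nat → Nat → Nat → Nat → Nat → Nat → Nat → Nat → Nat → Nat → Nat → Nat → Nat → Nat →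
    Nat → Nat → Nat → Nat → Nat → Nat → Nat → Nat → Nat → Nat → Nat → Nat → Nat → Nat → Nat → Nat →
    Nat → Nat → Nat → Nat → Nat → Nat → Nat → Nat → Nat → Nat → Nat → Nat → Nat → Nat → Nat → Nat →
    Nat → Nat → Nat → Nat → Nat → Nat → Nat → Nat → Nat → Nat → Nat → Nat → Nat → Nat → Nat → Nat →
    Nat → Nat → Nat → Nat → Nat → Nat → Nat → Nat → Nat → Nat → Nat → Nat → Nat → Nat → Nat → Nat →
    Nat → Nat → Nat → Nat → Nat → Nat → Nat → Nat → Nat → Nat → Nat → Nat → Nat → Nat → Nat → Nat →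
    Nat → Nat → Nat → Nat → Nat → Nat → Nat → Nat → Nat → Nat → Nat → Nat → Nat → Nat → Nat → Nat →
    Nat → Nat → Nat → Nat → Nat → Nat → Nat → Nat → Nat → Nat → Nat → Nat → Nat → Nat → Nat → Nat →
    Nat → Nat → Nat → Nat → Nat → Nat → Nat → Nat → Nat → Nat → Nat → Nat → Nat → Nat → Nat → Nat →
    Nat → Nat → Nat → Nat → Nat → Nat → Nat → Nat → Nat → Nat → Nat → Nat → Nat → Nat → Nat → Nat →
    Nat → Nat → Nat → Nat → Nat → Nat → Nat → Nat → Nat → Nat → Nat → Nat → Nat → Nat → Nat → Nat →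
    Nat → Nat → Nat → Nat → Nat → Nat → Nat → Nat → Nat → Nat → Nat → Nat → Nat → Nat → Nat → Nat →
    Nat → Nat → Nat → Nat → Nat → Nat → Nat → Nat → Nat → Nat → Nat → Nat → Nat → Nat → Nat → Nat →
    Nat → Nat → Nat → Nat → Nat → Nat → Nat → Nat → Nat → Nat → Nat → Nat → Nat → Nat → Nat → Nat →
    Nat → Nat → Nat → Nat → Nat → Nat → Nat → Nat → Nat → Nat → Nat → Nat → Nat → Nat → Nat → Nat →
    Nat → Nat → Nat → Nat → Nat → Nat → Nat → Nat → Nat → Nat → Nat → Nat → Nat → Nat → Nat → Nat →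
    Nat → Nat → Nat → Nat → Nat → Nat → Nat → Nat → Nat → Nat → Nat → Nat → Nat → Nat → Nat → Nat →
    Nat → Nat → Nat → Nat → Nat → Nat → Nat → Nat → Nat → Nat → Nat → Nat → Nat → Nat → Nat → Nat →
    Nat → Nat → Nat → Nat → Nat → Nat → Nat → Nat → Nat → Nat → Nat → Nat → Nat → Nat → Nat → Nat →
    Nat → Nat → Bool

noncomputable def cd0 : List Spec :=
  [Spec.mk (nat_lit 26) (nat_lit 0) [] (nat_lit 0) [] false,
   Spec.mk (nat_lit 44) (nat_lit 0) [] (nat_lit 0) [] false,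
   Spec.mk (nat_lit 50) (nat_lit 0) [] (nat_lit 0) [] false,
   Spec.mk (nat_lit 52) (nat_lit 0) [] (nat_lit 0) [] false,
   Spec.mk (nat_lit 62) (nat_lit 0) [] (nat_lit 0) [] false,
   Spec.mk (nat_lit 68) (nat_lit 0) [] (nat_lit 0) [] false,
   Spec.mk (nat_lit 70) (nat_lit 0) [] (nat_lit 0) [] false,
   Spec.mk (nat_lit 74) (nat_lit 0) [] (nat_lit 0) [] false,
   Spec.mk (nat_lit 76) (nat_lit 0) [] (nat_lit 0) [] false,
   Spec.mk (nat_lit 78) (nat_lit 0) [] (nat_lit 0) [] false,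
   Spec.mk (nat_lit 98) (nat_lit 0) [] (nat_lit 0) [] false,
   Spec.mk (nat_lit 104) (nat_lit 0) [] (nat_lit 0) [] false,
   Spec.mk (nat_lit 106) (nat_lit 0) [] (nat_lit 0) [] false,
   Spec.mk (nat_lit 116) (nat_lit 0) [] (nat_lit 0) [] false,
   Spec.mk (nat_lit 122) (nat_lit 0) [] (nat_lit 0) [] false,
   Spec.mk (nat_lit 124) (nat_lit 0) [] (nat_lit 0) [] false,
   Spec.mk (nat_lit 128) (nat_lit 0) [] (nat_lit 0) [] false,
   Spec.mk (nat_lit 130) (nat_lit 0) [] (nat_lit 0) [] false,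
   Spec.mk (nat_lit 132) (nat_lit 0) [] (nat_lit 0) [] false,
   Spec.mk (nat_lit 140) (nat_lit 0) [] (nat_lit 0) [] false,
   Spec.mk (nat_lit 142) (nat_lit 0) [] (nat_lit 0) [] false,
   Spec.mk (nat_lit 146) (nat_lit 0) [] (nat_lit 0) [] false,
   Spec.mk (nat_lit 148) (nat_lit 0) [] (nat_lit 0) [] false,
   Spec.mk (nat_lit 150) (nat_lit 0) [] (nat_lit 0) [] false,
   Spec.mk (nat_lit 154) (nat_lit 0) [] (nat_lit 0) [] false,
   Spec.mk (nat_lit 156) (nat_lit 0) [] (nat_lit 0) [] false,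
   Spec.mk (nat_lit 170) (nat_lit 0) [] (nat_lit 0) [] false,
   Spec.mk (nat_lit 176) (nat_lit 0) [] (nat_lit 0) [] false,
   Spec.mk (nat_lit 178) (nat_lit 0) [] (nat_lit 0) [] false,
   Spec.mk (nat_lit 182) (nat_lit 0) [] (nat_lit 0) [] false,
   Spec.mk (nat_lit 184) (nat_lit 0) [] (nat_lit 0) [] false,
   Spec.mk (nat_lit 186) (nat_lit 0) [] (nat_lit 0) [] false,
   Spec.mk (nat_lit 194) (nat_lit 0) [] (nat_lit 0) [] false,
   Spec.mk (nat_lit 196) (nat_lit 0) [] (nat_lit 0) [] false,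
   Spec.mk (nat_lit 200) (nat_lit 0) [] (nat_lit 0) [] false,
   Spec.mk (nat_lit 202) (nat_lit 0) [] (nat_lit 0) [] false,
   Spec.mk (nat_lit 204) (nat_lit 0) [] (nat_lit 0) [] false,
   Spec.mk (nat_lit 208) (nat_lit 0) [] (nat_lit 0) [] false,
   Spec.mk (nat_lit 210) (nat_lit 0) [] (nat_lit 0) [] false,
   Spec.mk (nat_lit 218) (nat_lit 0) [] (nat_lit 0) [] false,
   Spec.mk (nat_lit 220) (nat_lit 0) [] (nat_lit 0) [] false,
   Spec.mk (nat_lit 222) (nat_lit 0) [] (nat_lit 0) [] false,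
   Spec.mk (nat_lit 226) (nat_lit 0) [] (nat_lit 0) [] false,
   Spec.mk (nat_lit 228) (nat_lit 0) [] (nat_lit 0) [] false,
   Spec.mk (nat_lit 234) (nat_lit 0) [] (nat_lit 0) [] false,
   Spec.mk (nat_lit 260) (nat_lit 0) [] (nat_lit 0) [] false,
   Spec.mk (nat_lit 266) (nat_lit 0) [] (nat_lit 0) [] false,
   Spec.mk (nat_lit 268) (nat_lit 0) [] (nat_lit 0) [] false,
   Spec.mk (nat_lit 278) (nat_lit 0) [] (nat_lit 0) [] false,
   Spec.mk (nat_lit 284) (nat_lit 0) [] (nat_lit 0) [] false,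
   Spec.mk (nat_lit 286) (nat_lit 0) [] (nat_lit 0) [] false,
   Spec.mk (nat_lit 290) (nat_lit 0) [] (nat_lit 0) [] false,
   Spec.mk (nat_lit 292) (nat_lit 0) [] (nat_lit 0) [] false,
   Spec.mk (nat_lit 294) (nat_lit 0) [] (nat_lit 0) [] false,
   Spec.mk (nat_lit 302) (nat_lit 0) [] (nat_lit 0) [] false,
   Spec.mk (nat_lit 304) (nat_lit 0) [] (nat_lit 0) [] false,
   Spec.mk (nat_lit 308) (nat_lit 0) [] (nat_lit 0) [] false,
   Spec.mk (nat_lit 310) (nat_lit 0) [] (nat_lit 0) [] false,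
   Spec.mk (nat_lit 312) (nat_lit 0) [] (nat_lit 0) [] false,
   Spec.mk (nat_lit 316) (nat_lit 0) [] (nat_lit 0) [] false]

noncomputable def cd1 : List Spec :=
  [Spec.mk (nat_lit 318) (nat_lit 0) [] (nat_lit 0) [] false,
   Spec.mk (nat_lit 332) (nat_lit 0) [] (nat_lit 0) [] false,
   Spec.mk (nat_lit 338) (nat_lit 0) [] (nat_lit 0) [] false,
   Spec.mk (nat_lit 340) (nat_lit 0) [] (nat_lit 0) [] false,
   Spec.mk (nat_lit 344) (nat_lit 0) [] (nat_lit 0) [] false,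
   Spec.mk (nat_lit 346) (nat_lit 0) [] (nat_lit 0) [] false,
   Spec.mk (nat_lit 348) (nat_lit 0) [] (nat_lit 0) [] false,
   Spec.mk (nat_lit 356) (nat_lit 0) [] (nat_lit 0) [] false,
   Spec.mk (nat_lit 358) (nat_lit 0) [] (nat_lit 0) [] false,
   Spec.mk (nat_lit 362) (nat_lit 0) [] (nat_lit 0) [] false,
   Spec.mk (nat_lit 364) (nat_lit 0) [] (nat_lit 0) [] false,
   Spec.mk (nat_lit 366) (nat_lit 0) [] (nat_lit 0) [] false,
   Spec.mk (nat_lit 370) (nat_lit 0) [] (nat_lit 0) [] false,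
   Spec.mk (nat_lit 372) (nat_lit 0) [] (nat_lit 0) [] false,
   Spec.mk (nat_lit 380) (nat_lit 0) [] (nat_lit 0) [] false,
   Spec.mk (nat_lit 382) (nat_lit 0) [] (nat_lit 0) [] false,
   Spec.mk (nat_lit 384) (nat_lit 0) [] (nat_lit 0) [] false,
   Spec.mk (nat_lit 388) (nat_lit 0) [] (nat_lit 0) [] false,
   Spec.mk (nat_lit 390) (nat_lit 0) [] (nat_lit 0) [] false,
   Spec.mk (nat_lit 396) (nat_lit 0) [] (nat_lit 0) [] false,
   Spec.mk (nat_lit 410) (nat_lit 0) [] (nat_lit 0) [] false,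
   Spec.mk (nat_lit 412) (nat_lit 0) [] (nat_lit 0) [] false,
   Spec.mk (nat_lit 416) (nat_lit 0) [] (nat_lit 0) [] false,
   Spec.mk (nat_lit 418) (nat_lit 0) [] (nat_lit 0) [] false,
   Spec.mk (nat_lit 420) (nat_lit 0) [] (nat_lit 0) [] false,
   Spec.mk (nat_lit 424) (nat_lit 0) [] (nat_lit 0) [] false,
   Spec.mk (nat_lit 426) (nat_lit 0) [] (nat_lit 0) [] false,
   Spec.mk (nat_lit 434) (nat_lit 0) [] (nat_lit 0) [] false,
   Spec.mk (nat_lit 436) (nat_lit 0) [] (nat_lit 0) [] false,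
   Spec.mk (nat_lit 438) (nat_lit 0) [] (nat_lit 0) [] false,
   Spec.mk (nat_lit 442) (nat_lit 0) [] (nat_lit 0) [] false,
   Spec.mk (nat_lit 444) (nat_lit 0) [] (nat_lit 0) [] false,
   Spec.mk (nat_lit 450) (nat_lit 0) [] (nat_lit 0) [] false,
   Spec.mk (nat_lit 460) (nat_lit 0) [] (nat_lit 0) [] false,
   Spec.mk (nat_lit 462) (nat_lit 0) [] (nat_lit 0) [] false,
   Spec.mk (nat_lit 468) (nat_lit 0) [] (nat_lit 0) [] false,
   Spec.mk (nat_lit 494) (nat_lit 0) [] (nat_lit 0) [] false,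
   Spec.mk (nat_lit 500) (nat_lit 0) [] (nat_lit 0) [] false,
   Spec.mk (nat_lit 502) (nat_lit 0) [] (nat_lit 0) [] false,
   Spec.mk (nat_lit 506) (nat_lit 0) [] (nat_lit 0) [] false,
   Spec.mk (nat_lit 508) (nat_lit 0) [] (nat_lit 0) [] false,
   Spec.mk (nat_lit 510) (nat_lit 0) [] (nat_lit 0) [] false,
   Spec.mk (nat_lit 518) (nat_lit 0) [] (nat_lit 0) [] false,
   Spec.mk (nat_lit 520) (nat_lit 0) [] (nat_lit 0) [] false,
   Spec.mk (nat_lit 524) (nat_lit 0) [] (nat_lit 0) [] false,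
   Spec.mk (nat_lit 526) (nat_lit 0) [] (nat_lit 0) [] false,
   Spec.mk (nat_lit 528) (nat_lit 0) [] (nat_lit 0) [] false,
   Spec.mk (nat_lit 532) (nat_lit 0) [] (nat_lit 0) [] false,
   Spec.mk (nat_lit 534) (nat_lit 0) [] (nat_lit 0) [] false,
   Spec.mk (nat_lit 542) (nat_lit 0) [] (nat_lit 0) [] false,
   Spec.mk (nat_lit 544) (nat_lit 0) [] (nat_lit 0) [] false,
   Spec.mk (nat_lit 546) (nat_lit 0) [] (nat_lit 0) [] false,
   Spec.mk (nat_lit 550) (nat_lit 0) [] (nat_lit 0) [] false,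
   Spec.mk (nat_lit 552) (nat_lit 0) [] (nat_lit 0) [] false,
   Spec.mk (nat_lit 558) (nat_lit 0) [] (nat_lit 0) [] false,
   Spec.mk (nat_lit 572) (nat_lit 0) [] (nat_lit 0) [] false,
   Spec.mk (nat_lit 574) (nat_lit 0) [] (nat_lit 0) [] false,
   Spec.mk (nat_lit 578) (nat_lit 0) [] (nat_lit 0) [] false,
   Spec.mk (nat_lit 580) (nat_lit 0) [] (nat_lit 0) [] false,
   Spec.mk (nat_lit 582) (nat_lit 0) [] (nat_lit 0) [] false]

noncomputable def cd2 : List Spec :=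
  [Spec.mk (nat_lit 586) (nat_lit 0) [] (nat_lit 0) [] false,
   Spec.mk (nat_lit 588) (nat_lit 0) [] (nat_lit 0) [] false,
   Spec.mk (nat_lit 596) (nat_lit 0) [] (nat_lit 0) [] false,
   Spec.mk (nat_lit 598) (nat_lit 0) [] (nat_lit 0) [] false,
   Spec.mk (nat_lit 600) (nat_lit 0) [] (nat_lit 0) [] false,
   Spec.mk (nat_lit 604) (nat_lit 0) [] (nat_lit 0) [] false,
   Spec.mk (nat_lit 606) (nat_lit 0) [] (nat_lit 0) [] false,
   Spec.mk (nat_lit 612) (nat_lit 0) [] (nat_lit 0) [] false,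
   Spec.mk (nat_lit 622) (nat_lit 0) [] (nat_lit 0) [] false,
   Spec.mk (nat_lit 624) (nat_lit 0) [] (nat_lit 0) [] false,
   Spec.mk (nat_lit 630) (nat_lit 0) [] (nat_lit 0) [] false,
   Spec.mk (nat_lit 650) (nat_lit 0) [] (nat_lit 0) [] false,
   Spec.mk (nat_lit 652) (nat_lit 0) [] (nat_lit 0) [] false,
   Spec.mk (nat_lit 654) (nat_lit 0) [] (nat_lit 0) [] false,
   Spec.mk (nat_lit 658) (nat_lit 0) [] (nat_lit 0) [] false,
   Spec.mk (nat_lit 660) (nat_lit 0) [] (nat_lit 0) [] false,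
   Spec.mk (nat_lit 666) (nat_lit 0) [] (nat_lit 0) [] false,
   Spec.mk (nat_lit 676) (nat_lit 0) [] (nat_lit 0) [] false,
   Spec.mk (nat_lit 678) (nat_lit 0) [] (nat_lit 0) [] false,
   Spec.mk (nat_lit 684) (nat_lit 0) [] (nat_lit 0) [] false,
   Spec.mk (nat_lit 702) (nat_lit 0) [] (nat_lit 0) [] false,
   Spec.mk (nat_lit 746) (nat_lit 0) [] (nat_lit 0) [] false,
   Spec.mk (nat_lit 752) (nat_lit 0) [] (nat_lit 0) [] false,
   Spec.mk (nat_lit 754) (nat_lit 0) [] (nat_lit 0) [] false,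
   Spec.mk (nat_lit 764) (nat_lit 0) [] (nat_lit 0) [] false,
   Spec.mk (nat_lit 770) (nat_lit 0) [] (nat_lit 0) [] false,
   Spec.mk (nat_lit 772) (nat_lit 0) [] (nat_lit 0) [] false,
   Spec.mk (nat_lit 776) (nat_lit 0) [] (nat_lit 0) [] false,
   Spec.mk (nat_lit 778) (nat_lit 0) [] (nat_lit 0) [] false,
   Spec.mk (nat_lit 780) (nat_lit 0) [] (nat_lit 0) [] false,
   Spec.mk (nat_lit 788) (nat_lit 0) [] (nat_lit 0) [] false,
   Spec.mk (nat_lit 790) (nat_lit 0) [] (nat_lit 0) [] false,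
   Spec.mk (nat_lit 794) (nat_lit 0) [] (nat_lit 0) [] false,
   Spec.mk (nat_lit 796) (nat_lit 0) [] (nat_lit 0) [] false,
   Spec.mk (nat_lit 798) (nat_lit 0) [] (nat_lit 0) [] false,
   Spec.mk (nat_lit 802) (nat_lit 0) [] (nat_lit 0) [] false,
   Spec.mk (nat_lit 804) (nat_lit 0) [] (nat_lit 0) [] false,
   Spec.mk (nat_lit 818) (nat_lit 0) [] (nat_lit 0) [] false,
   Spec.mk (nat_lit 824) (nat_lit 0) [] (nat_lit 0) [] false,
   Spec.mk (nat_lit 826) (nat_lit 0) [] (nat_lit 0) [] false,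
   Spec.mk (nat_lit 830) (nat_lit 0) [] (nat_lit 0) [] false,
   Spec.mk (nat_lit 832) (nat_lit 0) [] (nat_lit 0) [] false,
   Spec.mk (nat_lit 834) (nat_lit 0) [] (nat_lit 0) [] false,
   Spec.mk (nat_lit 842) (nat_lit 0) [] (nat_lit 0) [] false,
   Spec.mk (nat_lit 844) (nat_lit 0) [] (nat_lit 0) [] false,
   Spec.mk (nat_lit 848) (nat_lit 0) [] (nat_lit 0) [] false,
   Spec.mk (nat_lit 850) (nat_lit 0) [] (nat_lit 0) [] false,
   Spec.mk (nat_lit 852) (nat_lit 0) [] (nat_lit 0) [] false,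
   Spec.mk (nat_lit 856) (nat_lit 0) [] (nat_lit 0) [] false,
   Spec.mk (nat_lit 858) (nat_lit 0) [] (nat_lit 0) [] false,
   Spec.mk (nat_lit 866) (nat_lit 0) [] (nat_lit 0) [] false,
   Spec.mk (nat_lit 868) (nat_lit 0) [] (nat_lit 0) [] false,
   Spec.mk (nat_lit 870) (nat_lit 0) [] (nat_lit 0) [] false,
   Spec.mk (nat_lit 874) (nat_lit 0) [] (nat_lit 0) [] false,
   Spec.mk (nat_lit 876) (nat_lit 0) [] (nat_lit 0) [] false,
   Spec.mk (nat_lit 882) (nat_lit 0) [] (nat_lit 0) [] false,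
   Spec.mk (nat_lit 896) (nat_lit 0) [] (nat_lit 0) [] false,
   Spec.mk (nat_lit 898) (nat_lit 0) [] (nat_lit 0) [] false,
   Spec.mk (nat_lit 902) (nat_lit 0) [] (nat_lit 0) [] false,
   Spec.mk (nat_lit 904) (nat_lit 0) [] (nat_lit 0) [] false]

noncomputable def cd3 : List Spec :=
  [Spec.mk (nat_lit 906) (nat_lit 0) [] (nat_lit 0) [] false,
   Spec.mk (nat_lit 910) (nat_lit 0) [] (nat_lit 0) [] false,
   Spec.mk (nat_lit 912) (nat_lit 0) [] (nat_lit 0) [] false,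
   Spec.mk (nat_lit 920) (nat_lit 0) [] (nat_lit 0) [] false,
   Spec.mk (nat_lit 922) (nat_lit 0) [] (nat_lit 0) [] false,
   Spec.mk (nat_lit 924) (nat_lit 0) [] (nat_lit 0) [] false,
   Spec.mk (nat_lit 928) (nat_lit 0) [] (nat_lit 0) [] false,
   Spec.mk (nat_lit 930) (nat_lit 0) [] (nat_lit 0) [] false,
   Spec.mk (nat_lit 936) (nat_lit 0) [] (nat_lit 0) [] false,
   Spec.mk (nat_lit 946) (nat_lit 0) [] (nat_lit 0) [] false,
   Spec.mk (nat_lit 948) (nat_lit 0) [] (nat_lit 0) [] false,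
   Spec.mk (nat_lit 954) (nat_lit 0) [] (nat_lit 0) [] false,
   Spec.mk (nat_lit 980) (nat_lit 0) [] (nat_lit 0) [] false,
   Spec.mk (nat_lit 986) (nat_lit 0) [] (nat_lit 0) [] false,
   Spec.mk (nat_lit 988) (nat_lit 0) [] (nat_lit 0) [] false,
   Spec.mk (nat_lit 992) (nat_lit 0) [] (nat_lit 0) [] false,
   Spec.mk (nat_lit 994) (nat_lit 0) [] (nat_lit 0) [] false,
   Spec.mk (nat_lit 996) (nat_lit 0) [] (nat_lit 0) [] false,
   Spec.mk (nat_lit 1004) (nat_lit 0) [] (nat_lit 0) [] false,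
   Spec.mk (nat_lit 1006) (nat_lit 0) [] (nat_lit 0) [] false,
   Spec.mk (nat_lit 1010) (nat_lit 0) [] (nat_lit 0) [] false,
   Spec.mk (nat_lit 1012) (nat_lit 0) [] (nat_lit 0) [] false,
   Spec.mk (nat_lit 1014) (nat_lit 0) [] (nat_lit 0) [] false,
   Spec.mk (nat_lit 1018) (nat_lit 0) [] (nat_lit 0) [] false,
   Spec.mk (nat_lit 1020) (nat_lit 0) [] (nat_lit 0) [] false,
   Spec.mk (nat_lit 1028) (nat_lit 0) [] (nat_lit 0) [] false,
   Spec.mk (nat_lit 1030) (nat_lit 0) [] (nat_lit 0) [] false,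
   Spec.mk (nat_lit 1032) (nat_lit 0) [] (nat_lit 0) [] false,
   Spec.mk (nat_lit 1036) (nat_lit 0) [] (nat_lit 0) [] false,
   Spec.mk (nat_lit 1038) (nat_lit 0) [] (nat_lit 0) [] false,
   Spec.mk (nat_lit 1044) (nat_lit 0) [] (nat_lit 0) [] false,
   Spec.mk (nat_lit 1058) (nat_lit 0) [] (nat_lit 0) [] false,
   Spec.mk (nat_lit 1060) (nat_lit 0) [] (nat_lit 0) [] false,
   Spec.mk (nat_lit 1064) (nat_lit 0) [] (nat_lit 0) [] false,
   Spec.mk (nat_lit 1066) (nat_lit 0) [] (nat_lit 0) [] false,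
   Spec.mk (nat_lit 1068) (nat_lit 0) [] (nat_lit 0) [] false,
   Spec.mk (nat_lit 1072) (nat_lit 0) [] (nat_lit 0) [] false,
   Spec.mk (nat_lit 1074) (nat_lit 0) [] (nat_lit 0) [] false,
   Spec.mk (nat_lit 1082) (nat_lit 0) [] (nat_lit 0) [] false,
   Spec.mk (nat_lit 1084) (nat_lit 0) [] (nat_lit 0) [] false,
   Spec.mk (nat_lit 1086) (nat_lit 0) [] (nat_lit 0) [] false,
   Spec.mk (nat_lit 1090) (nat_lit 0) [] (nat_lit 0) [] false,
   Spec.mk (nat_lit 1092) (nat_lit 0) [] (nat_lit 0) [] false,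
   Spec.mk (nat_lit 1098) (nat_lit 0) [] (nat_lit 0) [] false,
   Spec.mk (nat_lit 1108) (nat_lit 0) [] (nat_lit 0) [] false,
   Spec.mk (nat_lit 1110) (nat_lit 0) [] (nat_lit 0) [] false,
   Spec.mk (nat_lit 1116) (nat_lit 0) [] (nat_lit 0) [] false,
   Spec.mk (nat_lit 1136) (nat_lit 0) [] (nat_lit 0) [] false,
   Spec.mk (nat_lit 1138) (nat_lit 0) [] (nat_lit 0) [] false,
   Spec.mk (nat_lit 1140) (nat_lit 0) [] (nat_lit 0) [] false,
   Spec.mk (nat_lit 1144) (nat_lit 0) [] (nat_lit 0) [] false,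
   Spec.mk (nat_lit 1146) (nat_lit 0) [] (nat_lit 0) [] false,
   Spec.mk (nat_lit 1152) (nat_lit 0) [] (nat_lit 0) [] false,
   Spec.mk (nat_lit 1162) (nat_lit 0) [] (nat_lit 0) [] false,
   Spec.mk (nat_lit 1164) (nat_lit 0) [] (nat_lit 0) [] false,
   Spec.mk (nat_lit 1170) (nat_lit 0) [] (nat_lit 0) [] false,
   Spec.mk (nat_lit 1188) (nat_lit 0) [] (nat_lit 0) [] false,
   Spec.mk (nat_lit 1220) (nat_lit 0) [] (nat_lit 0) [] false,
   Spec.mk (nat_lit 1222) (nat_lit 0) [] (nat_lit 0) [] false,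
   Spec.mk (nat_lit 1226) (nat_lit 0) [] (nat_lit 0) [] false]

noncomputable def cd4 : List Spec :=
  [Spec.mk (nat_lit 1228) (nat_lit 0) [] (nat_lit 0) [] false,
   Spec.mk (nat_lit 1230) (nat_lit 0) [] (nat_lit 0) [] false,
   Spec.mk (nat_lit 1234) (nat_lit 0) [] (nat_lit 0) [] false,
   Spec.mk (nat_lit 1236) (nat_lit 0) [] (nat_lit 0) [] false,
   Spec.mk (nat_lit 1244) (nat_lit 0) [] (nat_lit 0) [] false,
   Spec.mk (nat_lit 1246) (nat_lit 0) [] (nat_lit 0) [] false,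
   Spec.mk (nat_lit 1248) (nat_lit 0) [] (nat_lit 0) [] false,
   Spec.mk (nat_lit 1252) (nat_lit 0) [] (nat_lit 0) [] false,
   Spec.mk (nat_lit 1254) (nat_lit 0) [] (nat_lit 0) [] false,
   Spec.mk (nat_lit 1260) (nat_lit 0) [] (nat_lit 0) [] false,
   Spec.mk (nat_lit 1270) (nat_lit 0) [] (nat_lit 0) [] false,
   Spec.mk (nat_lit 1272) (nat_lit 0) [] (nat_lit 0) [] false,
   Spec.mk (nat_lit 1278) (nat_lit 0) [] (nat_lit 0) [] false,
   Spec.mk (nat_lit 1298) (nat_lit 0) [] (nat_lit 0) [] false,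
   Spec.mk (nat_lit 1300) (nat_lit 0) [] (nat_lit 0) [] false,
   Spec.mk (nat_lit 1302) (nat_lit 0) [] (nat_lit 0) [] false,
   Spec.mk (nat_lit 1306) (nat_lit 0) [] (nat_lit 0) [] false,
   Spec.mk (nat_lit 1308) (nat_lit 0) [] (nat_lit 0) [] false,
   Spec.mk (nat_lit 1314) (nat_lit 0) [] (nat_lit 0) [] false,
   Spec.mk (nat_lit 1324) (nat_lit 0) [] (nat_lit 0) [] false,
   Spec.mk (nat_lit 1326) (nat_lit 0) [] (nat_lit 0) [] false,
   Spec.mk (nat_lit 1332) (nat_lit 0) [] (nat_lit 0) [] false,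
   Spec.mk (nat_lit 1350) (nat_lit 0) [] (nat_lit 0) [] false,
   Spec.mk (nat_lit 1378) (nat_lit 0) [] (nat_lit 0) [] false,
   Spec.mk (nat_lit 1380) (nat_lit 0) [] (nat_lit 0) [] false,
   Spec.mk (nat_lit 1386) (nat_lit 0) [] (nat_lit 0) [] false,
   Spec.mk (nat_lit 1404) (nat_lit 0) [] (nat_lit 0) [] false,
   Spec.mk (nat_lit 1466) (nat_lit 0) [] (nat_lit 0) [] false,
   Spec.mk (nat_lit 1472) (nat_lit 0) [] (nat_lit 0) [] false,
   Spec.mk (nat_lit 1474) (nat_lit 0) [] (nat_lit 0) [] false,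
   Spec.mk (nat_lit 1478) (nat_lit 0) [] (nat_lit 0) [] false,
   Spec.mk (nat_lit 1480) (nat_lit 0) [] (nat_lit 0) [] false,
   Spec.mk (nat_lit 1482) (nat_lit 0) [] (nat_lit 0) [] false,
   Spec.mk (nat_lit 1490) (nat_lit 0) [] (nat_lit 0) [] false,
   Spec.mk (nat_lit 1492) (nat_lit 0) [] (nat_lit 0) [] false,
   Spec.mk (nat_lit 1496) (nat_lit 0) [] (nat_lit 0) [] false,
   Spec.mk (nat_lit 1498) (nat_lit 0) [] (nat_lit 0) [] false,
   Spec.mk (nat_lit 1500) (nat_lit 0) [] (nat_lit 0) [] false,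
   Spec.mk (nat_lit 1504) (nat_lit 0) [] (nat_lit 0) [] false,
   Spec.mk (nat_lit 1506) (nat_lit 0) [] (nat_lit 0) [] false,
   Spec.mk (nat_lit 1514) (nat_lit 0) [] (nat_lit 0) [] false,
   Spec.mk (nat_lit 1516) (nat_lit 0) [] (nat_lit 0) [] false,
   Spec.mk (nat_lit 1518) (nat_lit 0) [] (nat_lit 0) [] false,
   Spec.mk (nat_lit 1522) (nat_lit 0) [] (nat_lit 0) [] false,
   Spec.mk (nat_lit 1524) (nat_lit 0) [] (nat_lit 0) [] false,
   Spec.mk (nat_lit 1530) (nat_lit 0) [] (nat_lit 0) [] false,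
   Spec.mk (nat_lit 1544) (nat_lit 0) [] (nat_lit 0) [] false,
   Spec.mk (nat_lit 1546) (nat_lit 0) [] (nat_lit 0) [] false,
   Spec.mk (nat_lit 1550) (nat_lit 0) [] (nat_lit 0) [] false,
   Spec.mk (nat_lit 1552) (nat_lit 0) [] (nat_lit 0) [] false,
   Spec.mk (nat_lit 1554) (nat_lit 0) [] (nat_lit 0) [] false,
   Spec.mk (nat_lit 1558) (nat_lit 0) [] (nat_lit 0) [] false,
   Spec.mk (nat_lit 1560) (nat_lit 0) [] (nat_lit 0) [] false,
   Spec.mk (nat_lit 1568) (nat_lit 0) [] (nat_lit 0) [] false,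
   Spec.mk (nat_lit 1570) (nat_lit 0) [] (nat_lit 0) [] false,
   Spec.mk (nat_lit 1572) (nat_lit 0) [] (nat_lit 0) [] false,
   Spec.mk (nat_lit 1576) (nat_lit 0) [] (nat_lit 0) [] false,
   Spec.mk (nat_lit 1578) (nat_lit 0) [] (nat_lit 0) [] false,
   Spec.mk (nat_lit 1584) (nat_lit 0) [] (nat_lit 0) [] false,
   Spec.mk (nat_lit 1594) (nat_lit 0) [] (nat_lit 0) [] false]

noncomputable def cd5 : List Spec :=
  [Spec.mk (nat_lit 1596) (nat_lit 0) [] (nat_lit 0) [] false,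
   Spec.mk (nat_lit 1602) (nat_lit 0) [] (nat_lit 0) [] false,
   Spec.mk (nat_lit 1622) (nat_lit 0) [] (nat_lit 0) [] false,
   Spec.mk (nat_lit 1624) (nat_lit 0) [] (nat_lit 0) [] false,
   Spec.mk (nat_lit 1626) (nat_lit 0) [] (nat_lit 0) [] false,
   Spec.mk (nat_lit 1630) (nat_lit 0) [] (nat_lit 0) [] false,
   Spec.mk (nat_lit 1632) (nat_lit 0) [] (nat_lit 0) [] false,
   Spec.mk (nat_lit 1638) (nat_lit 0) [] (nat_lit 0) [] false,
   Spec.mk (nat_lit 1648) (nat_lit 0) [] (nat_lit 0) [] false,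
   Spec.mk (nat_lit 1650) (nat_lit 0) [] (nat_lit 0) [] false,
   Spec.mk (nat_lit 1656) (nat_lit 0) [] (nat_lit 0) [] false,
   Spec.mk (nat_lit 1674) (nat_lit 0) [] (nat_lit 0) [] false,
   Spec.mk (nat_lit 1706) (nat_lit 0) [] (nat_lit 0) [] false,
   Spec.mk (nat_lit 1708) (nat_lit 0) [] (nat_lit 0) [] false,
   Spec.mk (nat_lit 1712) (nat_lit 0) [] (nat_lit 0) [] false,
   Spec.mk (nat_lit 1714) (nat_lit 0) [] (nat_lit 0) [] false,
   Spec.mk (nat_lit 1716) (nat_lit 0) [] (nat_lit 0) [] false,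
   Spec.mk (nat_lit 1720) (nat_lit 0) [] (nat_lit 0) [] false,
   Spec.mk (nat_lit 1722) (nat_lit 0) [] (nat_lit 0) [] false,
   Spec.mk (nat_lit 1730) (nat_lit 0) [] (nat_lit 0) [] false,
   Spec.mk (nat_lit 1732) (nat_lit 0) [] (nat_lit 0) [] false,
   Spec.mk (nat_lit 1734) (nat_lit 0) [] (nat_lit 0) [] false,
   Spec.mk (nat_lit 1738) (nat_lit 0) [] (nat_lit 0) [] false,
   Spec.mk (nat_lit 1740) (nat_lit 0) [] (nat_lit 0) [] false,
   Spec.mk (nat_lit 1746) (nat_lit 0) [] (nat_lit 0) [] false,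
   Spec.mk (nat_lit 1756) (nat_lit 0) [] (nat_lit 0) [] false,
   Spec.mk (nat_lit 1758) (nat_lit 0) [] (nat_lit 0) [] false,
   Spec.mk (nat_lit 1764) (nat_lit 0) [] (nat_lit 0) [] false,
   Spec.mk (nat_lit 1784) (nat_lit 0) [] (nat_lit 0) [] false,
   Spec.mk (nat_lit 1786) (nat_lit 0) [] (nat_lit 0) [] false,
   Spec.mk (nat_lit 1788) (nat_lit 0) [] (nat_lit 0) [] false,
   Spec.mk (nat_lit 1792) (nat_lit 0) [] (nat_lit 0) [] false,
   Spec.mk (nat_lit 1794) (nat_lit 0) [] (nat_lit 0) [] false,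
   Spec.mk (nat_lit 1800) (nat_lit 0) [] (nat_lit 0) [] false,
   Spec.mk (nat_lit 1810) (nat_lit 0) [] (nat_lit 0) [] false,
   Spec.mk (nat_lit 1812) (nat_lit 0) [] (nat_lit 0) [] false,
   Spec.mk (nat_lit 1818) (nat_lit 0) [] (nat_lit 0) [] false,
   Spec.mk (nat_lit 1836) (nat_lit 0) [] (nat_lit 0) [] false,
   Spec.mk (nat_lit 1864) (nat_lit 0) [] (nat_lit 0) [] false,
   Spec.mk (nat_lit 1866) (nat_lit 0) [] (nat_lit 0) [] false,
   Spec.mk (nat_lit 1872) (nat_lit 0) [] (nat_lit 0) [] false,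
   Spec.mk (nat_lit 1890) (nat_lit 0) [] (nat_lit 0) [] false,
   Spec.mk (nat_lit 1946) (nat_lit 0) [] (nat_lit 0) [] false,
   Spec.mk (nat_lit 1948) (nat_lit 0) [] (nat_lit 0) [] false,
   Spec.mk (nat_lit 1950) (nat_lit 0) [] (nat_lit 0) [] false,
   Spec.mk (nat_lit 1954) (nat_lit 0) [] (nat_lit 0) [] false,
   Spec.mk (nat_lit 1956) (nat_lit 0) [] (nat_lit 0) [] false,
   Spec.mk (nat_lit 1962) (nat_lit 0) [] (nat_lit 0) [] false,
   Spec.mk (nat_lit 1972) (nat_lit 0) [] (nat_lit 0) [] false,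
   Spec.mk (nat_lit 1974) (nat_lit 0) [] (nat_lit 0) [] false,
   Spec.mk (nat_lit 1980) (nat_lit 0) [] (nat_lit 0) [] false,
   Spec.mk (nat_lit 1998) (nat_lit 0) [] (nat_lit 0) [] false,
   Spec.mk (nat_lit 2026) (nat_lit 0) [] (nat_lit 0) [] false,
   Spec.mk (nat_lit 2028) (nat_lit 0) [] (nat_lit 0) [] false,
   Spec.mk (nat_lit 2034) (nat_lit 0) [] (nat_lit 0) [] false,
   Spec.mk (nat_lit 2052) (nat_lit 0) [] (nat_lit 0) [] false,
   Spec.mk (nat_lit 2106) (nat_lit 0) [] (nat_lit 0) [] false,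
   Spec.mk (nat_lit 2204) (nat_lit 0) [] (nat_lit 0) [] false,
   Spec.mk (nat_lit 2210) (nat_lit 0) [] (nat_lit 0) [] false,
   Spec.mk (nat_lit 2212) (nat_lit 0) [] (nat_lit 0) [] false]

noncomputable def cd6 : List Spec :=
  [Spec.mk (nat_lit 2222) (nat_lit 0) [] (nat_lit 0) [] false,
   Spec.mk (nat_lit 2228) (nat_lit 0) [] (nat_lit 0) [] false,
   Spec.mk (nat_lit 2230) (nat_lit 0) [] (nat_lit 0) [] false,
   Spec.mk (nat_lit 2234) (nat_lit 0) [] (nat_lit 0) [] false,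
   Spec.mk (nat_lit 2236) (nat_lit 0) [] (nat_lit 0) [] false,
   Spec.mk (nat_lit 2238) (nat_lit 0) [] (nat_lit 0) [] false,
   Spec.mk (nat_lit 2246) (nat_lit 0) [] (nat_lit 0) [] false,
   Spec.mk (nat_lit 2248) (nat_lit 0) [] (nat_lit 0) [] false,
   Spec.mk (nat_lit 2252) (nat_lit 0) [] (nat_lit 0) [] false,
   Spec.mk (nat_lit 2254) (nat_lit 0) [] (nat_lit 0) [] false,
   Spec.mk (nat_lit 2256) (nat_lit 0) [] (nat_lit 0) [] false,
   Spec.mk (nat_lit 2260) (nat_lit 0) [] (nat_lit 0) [] false,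
   Spec.mk (nat_lit 2262) (nat_lit 0) [] (nat_lit 0) [] false,
   Spec.mk (nat_lit 2276) (nat_lit 0) [] (nat_lit 0) [] false,
   Spec.mk (nat_lit 2282) (nat_lit 0) [] (nat_lit 0) [] false,
   Spec.mk (nat_lit 2284) (nat_lit 0) [] (nat_lit 0) [] false,
   Spec.mk (nat_lit 2288) (nat_lit 0) [] (nat_lit 0) [] false,
   Spec.mk (nat_lit 2290) (nat_lit 0) [] (nat_lit 0) [] false,
   Spec.mk (nat_lit 2292) (nat_lit 0) [] (nat_lit 0) [] false,
   Spec.mk (nat_lit 2300) (nat_lit 0) [] (nat_lit 0) [] false,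
   Spec.mk (nat_lit 2302) (nat_lit 0) [] (nat_lit 0) [] false,
   Spec.mk (nat_lit 2306) (nat_lit 0) [] (nat_lit 0) [] false,
   Spec.mk (nat_lit 2308) (nat_lit 0) [] (nat_lit 0) [] false,
   Spec.mk (nat_lit 2310) (nat_lit 0) [] (nat_lit 0) [] false,
   Spec.mk (nat_lit 2314) (nat_lit 0) [] (nat_lit 0) [] false,
   Spec.mk (nat_lit 2316) (nat_lit 0) [] (nat_lit 0) [] false,
   Spec.mk (nat_lit 2324) (nat_lit 0) [] (nat_lit 0) [] false,
   Spec.mk (nat_lit 2326) (nat_lit 0) [] (nat_lit 0) [] false,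
   Spec.mk (nat_lit 2328) (nat_lit 0) [] (nat_lit 0) [] false,
   Spec.mk (nat_lit 2332) (nat_lit 0) [] (nat_lit 0) [] false,
   Spec.mk (nat_lit 2334) (nat_lit 0) [] (nat_lit 0) [] false,
   Spec.mk (nat_lit 2340) (nat_lit 0) [] (nat_lit 0) [] false,
   Spec.mk (nat_lit 2354) (nat_lit 0) [] (nat_lit 0) [] false,
   Spec.mk (nat_lit 2356) (nat_lit 0) [] (nat_lit 0) [] false,
   Spec.mk (nat_lit 2360) (nat_lit 0) [] (nat_lit 0) [] false,
   Spec.mk (nat_lit 2362) (nat_lit 0) [] (nat_lit 0) [] false,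
   Spec.mk (nat_lit 2364) (nat_lit 0) [] (nat_lit 0) [] false,
   Spec.mk (nat_lit 2368) (nat_lit 0) [] (nat_lit 0) [] false,
   Spec.mk (nat_lit 2370) (nat_lit 0) [] (nat_lit 0) [] false,
   Spec.mk (nat_lit 2378) (nat_lit 0) [] (nat_lit 0) [] false,
   Spec.mk (nat_lit 2380) (nat_lit 0) [] (nat_lit 0) [] false,
   Spec.mk (nat_lit 2382) (nat_lit 0) [] (nat_lit 0) [] false,
   Spec.mk (nat_lit 2386) (nat_lit 0) [] (nat_lit 0) [] false,
   Spec.mk (nat_lit 2388) (nat_lit 0) [] (nat_lit 0) [] false,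
   Spec.mk (nat_lit 2394) (nat_lit 0) [] (nat_lit 0) [] false,
   Spec.mk (nat_lit 2404) (nat_lit 0) [] (nat_lit 0) [] false,
   Spec.mk (nat_lit 2406) (nat_lit 0) [] (nat_lit 0) [] false,
   Spec.mk (nat_lit 2412) (nat_lit 0) [] (nat_lit 0) [] false,
   Spec.mk (nat_lit 2438) (nat_lit 0) [] (nat_lit 0) [] false,
   Spec.mk (nat_lit 2444) (nat_lit 0) [] (nat_lit 0) [] false,
   Spec.mk (nat_lit 2446) (nat_lit 0) [] (nat_lit 0) [] false,
   Spec.mk (nat_lit 2450) (nat_lit 0) [] (nat_lit 0) [] false,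
   Spec.mk (nat_lit 2452) (nat_lit 0) [] (nat_lit 0) [] false,
   Spec.mk (nat_lit 2454) (nat_lit 0) [] (nat_lit 0) [] false,
   Spec.mk (nat_lit 2462) (nat_lit 0) [] (nat_lit 0) [] false,
   Spec.mk (nat_lit 2464) (nat_lit 0) [] (nat_lit 0) [] false,
   Spec.mk (nat_lit 2468) (nat_lit 0) [] (nat_lit 0) [] false,
   Spec.mk (nat_lit 2470) (nat_lit 0) [] (nat_lit 0) [] false,
   Spec.mk (nat_lit 2472) (nat_lit 0) [] (nat_lit 0) [] false,
   Spec.mk (nat_lit 2476) (nat_lit 0) [] (nat_lit 0) [] false]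

noncomputable def cd7 : List Spec :=
  [Spec.mk (nat_lit 2478) (nat_lit 0) [] (nat_lit 0) [] false,
   Spec.mk (nat_lit 2486) (nat_lit 0) [] (nat_lit 0) [] false,
   Spec.mk (nat_lit 2488) (nat_lit 0) [] (nat_lit 0) [] false,
   Spec.mk (nat_lit 2490) (nat_lit 0) [] (nat_lit 0) [] false,
   Spec.mk (nat_lit 2494) (nat_lit 0) [] (nat_lit 0) [] false,
   Spec.mk (nat_lit 2496) (nat_lit 0) [] (nat_lit 0) [] false,
   Spec.mk (nat_lit 2502) (nat_lit 0) [] (nat_lit 0) [] false,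
   Spec.mk (nat_lit 2516) (nat_lit 0) [] (nat_lit 0) [] false,
   Spec.mk (nat_lit 2518) (nat_lit 0) [] (nat_lit 0) [] false,
   Spec.mk (nat_lit 2522) (nat_lit 0) [] (nat_lit 0) [] false,
   Spec.mk (nat_lit 2524) (nat_lit 0) [] (nat_lit 0) [] false,
   Spec.mk (nat_lit 2526) (nat_lit 0) [] (nat_lit 0) [] false,
   Spec.mk (nat_lit 2530) (nat_lit 0) [] (nat_lit 0) [] false,
   Spec.mk (nat_lit 2532) (nat_lit 0) [] (nat_lit 0) [] false,
   Spec.mk (nat_lit 2540) (nat_lit 0) [] (nat_lit 0) [] false,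
   Spec.mk (nat_lit 2542) (nat_lit 0) [] (nat_lit 0) [] false,
   Spec.mk (nat_lit 2544) (nat_lit 0) [] (nat_lit 0) [] false,
   Spec.mk (nat_lit 2548) (nat_lit 0) [] (nat_lit 0) [] false,
   Spec.mk (nat_lit 2550) (nat_lit 0) [] (nat_lit 0) [] false,
   Spec.mk (nat_lit 2556) (nat_lit 0) [] (nat_lit 0) [] false,
   Spec.mk (nat_lit 2566) (nat_lit 0) [] (nat_lit 0) [] false,
   Spec.mk (nat_lit 2568) (nat_lit 0) [] (nat_lit 0) [] false,
   Spec.mk (nat_lit 2574) (nat_lit 0) [] (nat_lit 0) [] false,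
   Spec.mk (nat_lit 2594) (nat_lit 0) [] (nat_lit 0) [] false,
   Spec.mk (nat_lit 2596) (nat_lit 0) [] (nat_lit 0) [] false,
   Spec.mk (nat_lit 2598) (nat_lit 0) [] (nat_lit 0) [] false,
   Spec.mk (nat_lit 2602) (nat_lit 0) [] (nat_lit 0) [] false,
   Spec.mk (nat_lit 2604) (nat_lit 0) [] (nat_lit 0) [] false,
   Spec.mk (nat_lit 2610) (nat_lit 0) [] (nat_lit 0) [] false,
   Spec.mk (nat_lit 2620) (nat_lit 0) [] (nat_lit 0) [] false,
   Spec.mk (nat_lit 2622) (nat_lit 0) [] (nat_lit 0) [] false,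
   Spec.mk (nat_lit 2628) (nat_lit 0) [] (nat_lit 0) [] false,
   Spec.mk (nat_lit 2646) (nat_lit 0) [] (nat_lit 0) [] false,
   Spec.mk (nat_lit 2678) (nat_lit 0) [] (nat_lit 0) [] false,
   Spec.mk (nat_lit 2680) (nat_lit 0) [] (nat_lit 0) [] false,
   Spec.mk (nat_lit 2684) (nat_lit 0) [] (nat_lit 0) [] false,
   Spec.mk (nat_lit 2686) (nat_lit 0) [] (nat_lit 0) [] false,
   Spec.mk (nat_lit 2688) (nat_lit 0) [] (nat_lit 0) [] false,
   Spec.mk (nat_lit 2692) (nat_lit 0) [] (nat_lit 0) [] false,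
   Spec.mk (nat_lit 2694) (nat_lit 0) [] (nat_lit 0) [] false,
   Spec.mk (nat_lit 2702) (nat_lit 0) [] (nat_lit 0) [] false,
   Spec.mk (nat_lit 2704) (nat_lit 0) [] (nat_lit 0) [] false,
   Spec.mk (nat_lit 2706) (nat_lit 0) [] (nat_lit 0) [] false,
   Spec.mk (nat_lit 2710) (nat_lit 0) [] (nat_lit 0) [] false,
   Spec.mk (nat_lit 2712) (nat_lit 0) [] (nat_lit 0) [] false,
   Spec.mk (nat_lit 2718) (nat_lit 0) [] (nat_lit 0) [] false,
   Spec.mk (nat_lit 2728) (nat_lit 0) [] (nat_lit 0) [] false,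
   Spec.mk (nat_lit 2730) (nat_lit 0) [] (nat_lit 0) [] false,
   Spec.mk (nat_lit 2736) (nat_lit 0) [] (nat_lit 0) [] false,
   Spec.mk (nat_lit 2756) (nat_lit 0) [] (nat_lit 0) [] false,
   Spec.mk (nat_lit 2758) (nat_lit 0) [] (nat_lit 0) [] false,
   Spec.mk (nat_lit 2760) (nat_lit 0) [] (nat_lit 0) [] false,
   Spec.mk (nat_lit 2764) (nat_lit 0) [] (nat_lit 0) [] false,
   Spec.mk (nat_lit 2766) (nat_lit 0) [] (nat_lit 0) [] false,
   Spec.mk (nat_lit 2772) (nat_lit 0) [] (nat_lit 0) [] false,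
   Spec.mk (nat_lit 2782) (nat_lit 0) [] (nat_lit 0) [] false,
   Spec.mk (nat_lit 2784) (nat_lit 0) [] (nat_lit 0) [] false,
   Spec.mk (nat_lit 2790) (nat_lit 0) [] (nat_lit 0) [] false,
   Spec.mk (nat_lit 2808) (nat_lit 0) [] (nat_lit 0) [] false,
   Spec.mk (nat_lit 2836) (nat_lit 0) [] (nat_lit 0) [] false]

noncomputable def cd8 : List Spec :=
  [Spec.mk (nat_lit 2838) (nat_lit 0) [] (nat_lit 0) [] false,
   Spec.mk (nat_lit 2844) (nat_lit 0) [] (nat_lit 0) [] false,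
   Spec.mk (nat_lit 2862) (nat_lit 0) [] (nat_lit 0) [] false,
   Spec.mk (nat_lit 2924) (nat_lit 0) [] (nat_lit 0) [] false,
   Spec.mk (nat_lit 2930) (nat_lit 0) [] (nat_lit 0) [] false,
   Spec.mk (nat_lit 2932) (nat_lit 0) [] (nat_lit 0) [] false,
   Spec.mk (nat_lit 2936) (nat_lit 0) [] (nat_lit 0) [] false,
   Spec.mk (nat_lit 2938) (nat_lit 0) [] (nat_lit 0) [] false,
   Spec.mk (nat_lit 2940) (nat_lit 0) [] (nat_lit 0) [] false,
   Spec.mk (nat_lit 2948) (nat_lit 0) [] (nat_lit 0) [] false,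
   Spec.mk (nat_lit 2950) (nat_lit 0) [] (nat_lit 0) [] false,
   Spec.mk (nat_lit 2954) (nat_lit 0) [] (nat_lit 0) [] false,
   Spec.mk (nat_lit 2956) (nat_lit 0) [] (nat_lit 0) [] false,
   Spec.mk (nat_lit 2958) (nat_lit 0) [] (nat_lit 0) [] false,
   Spec.mk (nat_lit 2962) (nat_lit 0) [] (nat_lit 0) [] false,
   Spec.mk (nat_lit 2964) (nat_lit 0) [] (nat_lit 0) [] false,
   Spec.mk (nat_lit 2972) (nat_lit 0) [] (nat_lit 0) [] false,
   Spec.mk (nat_lit 2974) (nat_lit 0) [] (nat_lit 0) [] false,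
   Spec.mk (nat_lit 2976) (nat_lit 0) [] (nat_lit 0) [] false,
   Spec.mk (nat_lit 2980) (nat_lit 0) [] (nat_lit 0) [] false,
   Spec.mk (nat_lit 2982) (nat_lit 0) [] (nat_lit 0) [] false,
   Spec.mk (nat_lit 2988) (nat_lit 0) [] (nat_lit 0) [] false,
   Spec.mk (nat_lit 3002) (nat_lit 0) [] (nat_lit 0) [] false,
   Spec.mk (nat_lit 3004) (nat_lit 0) [] (nat_lit 0) [] false,
   Spec.mk (nat_lit 3008) (nat_lit 0) [] (nat_lit 0) [] false,
   Spec.mk (nat_lit 3010) (nat_lit 0) [] (nat_lit 0) [] false,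
   Spec.mk (nat_lit 3012) (nat_lit 0) [] (nat_lit 0) [] false,
   Spec.mk (nat_lit 3016) (nat_lit 0) [] (nat_lit 0) [] false,
   Spec.mk (nat_lit 3018) (nat_lit 0) [] (nat_lit 0) [] false,
   Spec.mk (nat_lit 3026) (nat_lit 0) [] (nat_lit 0) [] false,
   Spec.mk (nat_lit 3028) (nat_lit 0) [] (nat_lit 0) [] false,
   Spec.mk (nat_lit 3030) (nat_lit 0) [] (nat_lit 0) [] false,
   Spec.mk (nat_lit 3034) (nat_lit 0) [] (nat_lit 0) [] false,
   Spec.mk (nat_lit 3036) (nat_lit 0) [] (nat_lit 0) [] false,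
   Spec.mk (nat_lit 3042) (nat_lit 0) [] (nat_lit 0) [] false,
   Spec.mk (nat_lit 3052) (nat_lit 0) [] (nat_lit 0) [] false,
   Spec.mk (nat_lit 3054) (nat_lit 0) [] (nat_lit 0) [] false,
   Spec.mk (nat_lit 3060) (nat_lit 0) [] (nat_lit 0) [] false,
   Spec.mk (nat_lit 3080) (nat_lit 0) [] (nat_lit 0) [] false,
   Spec.mk (nat_lit 3082) (nat_lit 0) [] (nat_lit 0) [] false,
   Spec.mk (nat_lit 3084) (nat_lit 0) [] (nat_lit 0) [] false,
   Spec.mk (nat_lit 3088) (nat_lit 0) [] (nat_lit 0) [] false,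
   Spec.mk (nat_lit 3090) (nat_lit 0) [] (nat_lit 0) [] false,
   Spec.mk (nat_lit 3096) (nat_lit 0) [] (nat_lit 0) [] false,
   Spec.mk (nat_lit 3106) (nat_lit 0) [] (nat_lit 0) [] false,
   Spec.mk (nat_lit 3108) (nat_lit 0) [] (nat_lit 0) [] false,
   Spec.mk (nat_lit 3114) (nat_lit 0) [] (nat_lit 0) [] false,
   Spec.mk (nat_lit 3132) (nat_lit 0) [] (nat_lit 0) [] false,
   Spec.mk (nat_lit 3164) (nat_lit 0) [] (nat_lit 0) [] false,
   Spec.mk (nat_lit 3166) (nat_lit 0) [] (nat_lit 0) [] false,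
   Spec.mk (nat_lit 3170) (nat_lit 0) [] (nat_lit 0) [] false,
   Spec.mk (nat_lit 3172) (nat_lit 0) [] (nat_lit 0) [] false,
   Spec.mk (nat_lit 3174) (nat_lit 0) [] (nat_lit 0) [] false,
   Spec.mk (nat_lit 3178) (nat_lit 0) [] (nat_lit 0) [] false,
   Spec.mk (nat_lit 3180) (nat_lit 0) [] (nat_lit 0) [] false,
   Spec.mk (nat_lit 3188) (nat_lit 0) [] (nat_lit 0) [] false,
   Spec.mk (nat_lit 3190) (nat_lit 0) [] (nat_lit 0) [] false,
   Spec.mk (nat_lit 3192) (nat_lit 0) [] (nat_lit 0) [] false,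
   Spec.mk (nat_lit 3196) (nat_lit 0) [] (nat_lit 0) [] false,
   Spec.mk (nat_lit 3198) (nat_lit 0) [] (nat_lit 0) [] false]

noncomputable def cd9 : List Spec :=
  [Spec.mk (nat_lit 3204) (nat_lit 0) [] (nat_lit 0) [] false,
   Spec.mk (nat_lit 3214) (nat_lit 0) [] (nat_lit 0) [] false,
   Spec.mk (nat_lit 3216) (nat_lit 0) [] (nat_lit 0) [] false,
   Spec.mk (nat_lit 3222) (nat_lit 0) [] (nat_lit 0) [] false,
   Spec.mk (nat_lit 3242) (nat_lit 0) [] (nat_lit 0) [] false,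
   Spec.mk (nat_lit 3244) (nat_lit 0) [] (nat_lit 0) [] false,
   Spec.mk (nat_lit 3246) (nat_lit 0) [] (nat_lit 0) [] false,
   Spec.mk (nat_lit 3250) (nat_lit 0) [] (nat_lit 0) [] false,
   Spec.mk (nat_lit 3252) (nat_lit 0) [] (nat_lit 0) [] false,
   Spec.mk (nat_lit 3258) (nat_lit 0) [] (nat_lit 0) [] false,
   Spec.mk (nat_lit 3268) (nat_lit 0) [] (nat_lit 0) [] false,
   Spec.mk (nat_lit 3270) (nat_lit 0) [] (nat_lit 0) [] false,
   Spec.mk (nat_lit 3276) (nat_lit 0) [] (nat_lit 0) [] false,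
   Spec.mk (nat_lit 3294) (nat_lit 0) [] (nat_lit 0) [] false,
   Spec.mk (nat_lit 3322) (nat_lit 0) [] (nat_lit 0) [] false,
   Spec.mk (nat_lit 3324) (nat_lit 0) [] (nat_lit 0) [] false,
   Spec.mk (nat_lit 3330) (nat_lit 0) [] (nat_lit 0) [] false,
   Spec.mk (nat_lit 3348) (nat_lit 0) [] (nat_lit 0) [] false,
   Spec.mk (nat_lit 3404) (nat_lit 0) [] (nat_lit 0) [] false,
   Spec.mk (nat_lit 3406) (nat_lit 0) [] (nat_lit 0) [] false,
   Spec.mk (nat_lit 3408) (nat_lit 0) [] (nat_lit 0) [] false,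
   Spec.mk (nat_lit 3412) (nat_lit 0) [] (nat_lit 0) [] false,
   Spec.mk (nat_lit 3414) (nat_lit 0) [] (nat_lit 0) [] false,
   Spec.mk (nat_lit 3420) (nat_lit 0) [] (nat_lit 0) [] false,
   Spec.mk (nat_lit 3430) (nat_lit 0) [] (nat_lit 0) [] false,
   Spec.mk (nat_lit 3432) (nat_lit 0) [] (nat_lit 0) [] false,
   Spec.mk (nat_lit 3438) (nat_lit 0) [] (nat_lit 0) [] false,
   Spec.mk (nat_lit 3456) (nat_lit 0) [] (nat_lit 0) [] false,
   Spec.mk (nat_lit 3484) (nat_lit 0) [] (nat_lit 0) [] false,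
   Spec.mk (nat_lit 3486) (nat_lit 0) [] (nat_lit 0) [] false,
   Spec.mk (nat_lit 3492) (nat_lit 0) [] (nat_lit 0) [] false,
   Spec.mk (nat_lit 3510) (nat_lit 0) [] (nat_lit 0) [] false,
   Spec.mk (nat_lit 3564) (nat_lit 0) [] (nat_lit 0) [] false,
   Spec.mk (nat_lit 3650) (nat_lit 0) [] (nat_lit 0) [] false,
   Spec.mk (nat_lit 3652) (nat_lit 0) [] (nat_lit 0) [] false,
   Spec.mk (nat_lit 3656) (nat_lit 0) [] (nat_lit 0) [] false,
   Spec.mk (nat_lit 3658) (nat_lit 0) [] (nat_lit 0) [] false,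
   Spec.mk (nat_lit 3660) (nat_lit 0) [] (nat_lit 0) [] false,
   Spec.mk (nat_lit 3664) (nat_lit 0) [] (nat_lit 0) [] false,
   Spec.mk (nat_lit 3666) (nat_lit 0) [] (nat_lit 0) [] false,
   Spec.mk (nat_lit 3674) (nat_lit 0) [] (nat_lit 0) [] false,
   Spec.mk (nat_lit 3676) (nat_lit 0) [] (nat_lit 0) [] false,
   Spec.mk (nat_lit 3678) (nat_lit 0) [] (nat_lit 0) [] false,
   Spec.mk (nat_lit 3682) (nat_lit 0) [] (nat_lit 0) [] false,
   Spec.mk (nat_lit 3684) (nat_lit 0) [] (nat_lit 0) [] false,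
   Spec.mk (nat_lit 3690) (nat_lit 0) [] (nat_lit 0) [] false,
   Spec.mk (nat_lit 3700) (nat_lit 0) [] (nat_lit 0) [] false,
   Spec.mk (nat_lit 3702) (nat_lit 0) [] (nat_lit 0) [] false,
   Spec.mk (nat_lit 3708) (nat_lit 0) [] (nat_lit 0) [] false,
   Spec.mk (nat_lit 3728) (nat_lit 0) [] (nat_lit 0) [] false,
   Spec.mk (nat_lit 3730) (nat_lit 0) [] (nat_lit 0) [] false,
   Spec.mk (nat_lit 3732) (nat_lit 0) [] (nat_lit 0) [] false,
   Spec.mk (nat_lit 3736) (nat_lit 0) [] (nat_lit 0) [] false,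
   Spec.mk (nat_lit 3738) (nat_lit 0) [] (nat_lit 0) [] false,
   Spec.mk (nat_lit 3744) (nat_lit 0) [] (nat_lit 0) [] false,
   Spec.mk (nat_lit 3754) (nat_lit 0) [] (nat_lit 0) [] false,
   Spec.mk (nat_lit 3756) (nat_lit 0) [] (nat_lit 0) [] false,
   Spec.mk (nat_lit 3762) (nat_lit 0) [] (nat_lit 0) [] false,
   Spec.mk (nat_lit 3780) (nat_lit 0) [] (nat_lit 0) [] false,
   Spec.mk (nat_lit 3808) (nat_lit 0) [] (nat_lit 0) [] false]

noncomputable def cd10 : List Spec :=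
  [Spec.mk (nat_lit 3810) (nat_lit 0) [] (nat_lit 0) [] false,
   Spec.mk (nat_lit 3816) (nat_lit 0) [] (nat_lit 0) [] false,
   Spec.mk (nat_lit 3834) (nat_lit 0) [] (nat_lit 0) [] false,
   Spec.mk (nat_lit 3890) (nat_lit 0) [] (nat_lit 0) [] false,
   Spec.mk (nat_lit 3892) (nat_lit 0) [] (nat_lit 0) [] false,
   Spec.mk (nat_lit 3894) (nat_lit 0) [] (nat_lit 0) [] false,
   Spec.mk (nat_lit 3898) (nat_lit 0) [] (nat_lit 0) [] false,
   Spec.mk (nat_lit 3900) (nat_lit 0) [] (nat_lit 0) [] false,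
   Spec.mk (nat_lit 3906) (nat_lit 0) [] (nat_lit 0) [] false,
   Spec.mk (nat_lit 3916) (nat_lit 0) [] (nat_lit 0) [] false,
   Spec.mk (nat_lit 3918) (nat_lit 0) [] (nat_lit 0) [] false,
   Spec.mk (nat_lit 3924) (nat_lit 0) [] (nat_lit 0) [] false,
   Spec.mk (nat_lit 3942) (nat_lit 0) [] (nat_lit 0) [] false,
   Spec.mk (nat_lit 3970) (nat_lit 0) [] (nat_lit 0) [] false,
   Spec.mk (nat_lit 3972) (nat_lit 0) [] (nat_lit 0) [] false,
   Spec.mk (nat_lit 3978) (nat_lit 0) [] (nat_lit 0) [] false,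
   Spec.mk (nat_lit 3996) (nat_lit 0) [] (nat_lit 0) [] false,
   Spec.mk (nat_lit 4050) (nat_lit 0) [] (nat_lit 0) [] false,
   Spec.mk (nat_lit 4132) (nat_lit 0) [] (nat_lit 0) [] false,
   Spec.mk (nat_lit 4134) (nat_lit 0) [] (nat_lit 0) [] false,
   Spec.mk (nat_lit 4140) (nat_lit 0) [] (nat_lit 0) [] false,
   Spec.mk (nat_lit 4158) (nat_lit 0) [] (nat_lit 0) [] false,
   Spec.mk (nat_lit 4212) (nat_lit 0) [] (nat_lit 0) [] false,
   Spec.mk (nat_lit 4382) (nat_lit 0) [] (nat_lit 0) [] false,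
   Spec.mk (nat_lit 4388) (nat_lit 0) [] (nat_lit 0) [] false,
   Spec.mk (nat_lit 4390) (nat_lit 0) [] (nat_lit 0) [] false,
   Spec.mk (nat_lit 4394) (nat_lit 0) [] (nat_lit 0) [] false,
   Spec.mk (nat_lit 4396) (nat_lit 0) [] (nat_lit 0) [] false,
   Spec.mk (nat_lit 4398) (nat_lit 0) [] (nat_lit 0) [] false,
   Spec.mk (nat_lit 4406) (nat_lit 0) [] (nat_lit 0) [] false,
   Spec.mk (nat_lit 4408) (nat_lit 0) [] (nat_lit 0) [] false,
   Spec.mk (nat_lit 4412) (nat_lit 0) [] (nat_lit 0) [] false,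
   Spec.mk (nat_lit 4414) (nat_lit 0) [] (nat_lit 0) [] false,
   Spec.mk (nat_lit 4416) (nat_lit 0) [] (nat_lit 0) [] false,
   Spec.mk (nat_lit 4420) (nat_lit 0) [] (nat_lit 0) [] false,
   Spec.mk (nat_lit 4422) (nat_lit 0) [] (nat_lit 0) [] false,
   Spec.mk (nat_lit 4430) (nat_lit 0) [] (nat_lit 0) [] false,
   Spec.mk (nat_lit 4432) (nat_lit 0) [] (nat_lit 0) [] false,
   Spec.mk (nat_lit 4434) (nat_lit 0) [] (nat_lit 0) [] false,
   Spec.mk (nat_lit 4438) (nat_lit 0) [] (nat_lit 0) [] false,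
   Spec.mk (nat_lit 4440) (nat_lit 0) [] (nat_lit 0) [] false,
   Spec.mk (nat_lit 4446) (nat_lit 0) [] (nat_lit 0) [] false,
   Spec.mk (nat_lit 4460) (nat_lit 0) [] (nat_lit 0) [] false,
   Spec.mk (nat_lit 4462) (nat_lit 0) [] (nat_lit 0) [] false,
   Spec.mk (nat_lit 4466) (nat_lit 0) [] (nat_lit 0) [] false,
   Spec.mk (nat_lit 4468) (nat_lit 0) [] (nat_lit 0) [] false,
   Spec.mk (nat_lit 4470) (nat_lit 0) [] (nat_lit 0) [] false,
   Spec.mk (nat_lit 4474) (nat_lit 0) [] (nat_lit 0) [] false,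
   Spec.mk (nat_lit 4476) (nat_lit 0) [] (nat_lit 0) [] false,
   Spec.mk (nat_lit 4484) (nat_lit 0) [] (nat_lit 0) [] false,
   Spec.mk (nat_lit 4486) (nat_lit 0) [] (nat_lit 0) [] false,
   Spec.mk (nat_lit 4488) (nat_lit 0) [] (nat_lit 0) [] false,
   Spec.mk (nat_lit 4492) (nat_lit 0) [] (nat_lit 0) [] false,
   Spec.mk (nat_lit 4494) (nat_lit 0) [] (nat_lit 0) [] false,
   Spec.mk (nat_lit 4500) (nat_lit 0) [] (nat_lit 0) [] false,
   Spec.mk (nat_lit 4510) (nat_lit 0) [] (nat_lit 0) [] false,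
   Spec.mk (nat_lit 4512) (nat_lit 0) [] (nat_lit 0) [] false,
   Spec.mk (nat_lit 4518) (nat_lit 0) [] (nat_lit 0) [] false,
   Spec.mk (nat_lit 4538) (nat_lit 0) [] (nat_lit 0) [] false,
   Spec.mk (nat_lit 4540) (nat_lit 0) [] (nat_lit 0) [] false]

noncomputable def cd11 : List Spec :=
  [Spec.mk (nat_lit 4542) (nat_lit 0) [] (nat_lit 0) [] false,
   Spec.mk (nat_lit 4546) (nat_lit 0) [] (nat_lit 0) [] false,
   Spec.mk (nat_lit 4548) (nat_lit 0) [] (nat_lit 0) [] false,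
   Spec.mk (nat_lit 4554) (nat_lit 0) [] (nat_lit 0) [] false,
   Spec.mk (nat_lit 4564) (nat_lit 0) [] (nat_lit 0) [] false,
   Spec.mk (nat_lit 4566) (nat_lit 0) [] (nat_lit 0) [] false,
   Spec.mk (nat_lit 4572) (nat_lit 0) [] (nat_lit 0) [] false,
   Spec.mk (nat_lit 4590) (nat_lit 0) [] (nat_lit 0) [] false,
   Spec.mk (nat_lit 4622) (nat_lit 0) [] (nat_lit 0) [] false,
   Spec.mk (nat_lit 4624) (nat_lit 0) [] (nat_lit 0) [] false,
   Spec.mk (nat_lit 4628) (nat_lit 0) [] (nat_lit 0) [] false,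
   Spec.mk (nat_lit 4630) (nat_lit 0) [] (nat_lit 0) [] false,
   Spec.mk (nat_lit 4632) (nat_lit 0) [] (nat_lit 0) [] false,
   Spec.mk (nat_lit 4636) (nat_lit 0) [] (nat_lit 0) [] false,
   Spec.mk (nat_lit 4638) (nat_lit 0) [] (nat_lit 0) [] false,
   Spec.mk (nat_lit 4646) (nat_lit 0) [] (nat_lit 0) [] false,
   Spec.mk (nat_lit 4648) (nat_lit 0) [] (nat_lit 0) [] false,
   Spec.mk (nat_lit 4650) (nat_lit 0) [] (nat_lit 0) [] false,
   Spec.mk (nat_lit 4654) (nat_lit 0) [] (nat_lit 0) [] false,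
   Spec.mk (nat_lit 4656) (nat_lit 0) [] (nat_lit 0) [] false,
   Spec.mk (nat_lit 4662) (nat_lit 0) [] (nat_lit 0) [] false,
   Spec.mk (nat_lit 4672) (nat_lit 0) [] (nat_lit 0) [] false,
   Spec.mk (nat_lit 4674) (nat_lit 0) [] (nat_lit 0) [] false,
   Spec.mk (nat_lit 4680) (nat_lit 0) [] (nat_lit 0) [] false,
   Spec.mk (nat_lit 4700) (nat_lit 0) [] (nat_lit 0) [] false,
   Spec.mk (nat_lit 4702) (nat_lit 0) [] (nat_lit 0) [] false,
   Spec.mk (nat_lit 4704) (nat_lit 0) [] (nat_lit 0) [] false,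
   Spec.mk (nat_lit 4708) (nat_lit 0) [] (nat_lit 0) [] false,
   Spec.mk (nat_lit 4710) (nat_lit 0) [] (nat_lit 0) [] false,
   Spec.mk (nat_lit 4716) (nat_lit 0) [] (nat_lit 0) [] false,
   Spec.mk (nat_lit 4726) (nat_lit 0) [] (nat_lit 0) [] false,
   Spec.mk (nat_lit 4728) (nat_lit 0) [] (nat_lit 0) [] false,
   Spec.mk (nat_lit 4734) (nat_lit 0) [] (nat_lit 0) [] false,
   Spec.mk (nat_lit 4752) (nat_lit 0) [] (nat_lit 0) [] false,
   Spec.mk (nat_lit 4780) (nat_lit 0) [] (nat_lit 0) [] false,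
   Spec.mk (nat_lit 4782) (nat_lit 0) [] (nat_lit 0) [] false,
   Spec.mk (nat_lit 4788) (nat_lit 0) [] (nat_lit 0) [] false,
   Spec.mk (nat_lit 4806) (nat_lit 0) [] (nat_lit 0) [] false,
   Spec.mk (nat_lit 4862) (nat_lit 0) [] (nat_lit 0) [] false,
   Spec.mk (nat_lit 4864) (nat_lit 0) [] (nat_lit 0) [] false,
   Spec.mk (nat_lit 4866) (nat_lit 0) [] (nat_lit 0) [] false,
   Spec.mk (nat_lit 4870) (nat_lit 0) [] (nat_lit 0) [] false,
   Spec.mk (nat_lit 4872) (nat_lit 0) [] (nat_lit 0) [] false,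
   Spec.mk (nat_lit 4878) (nat_lit 0) [] (nat_lit 0) [] false,
   Spec.mk (nat_lit 4888) (nat_lit 0) [] (nat_lit 0) [] false,
   Spec.mk (nat_lit 4890) (nat_lit 0) [] (nat_lit 0) [] false,
   Spec.mk (nat_lit 4896) (nat_lit 0) [] (nat_lit 0) [] false,
   Spec.mk (nat_lit 4914) (nat_lit 0) [] (nat_lit 0) [] false,
   Spec.mk (nat_lit 4942) (nat_lit 0) [] (nat_lit 0) [] false,
   Spec.mk (nat_lit 4944) (nat_lit 0) [] (nat_lit 0) [] false,
   Spec.mk (nat_lit 4950) (nat_lit 0) [] (nat_lit 0) [] false,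
   Spec.mk (nat_lit 4968) (nat_lit 0) [] (nat_lit 0) [] false,
   Spec.mk (nat_lit 5022) (nat_lit 0) [] (nat_lit 0) [] false,
   Spec.mk (nat_lit 5108) (nat_lit 0) [] (nat_lit 0) [] false,
   Spec.mk (nat_lit 5110) (nat_lit 0) [] (nat_lit 0) [] false,
   Spec.mk (nat_lit 5114) (nat_lit 0) [] (nat_lit 0) [] false,
   Spec.mk (nat_lit 5116) (nat_lit 0) [] (nat_lit 0) [] false,
   Spec.mk (nat_lit 5118) (nat_lit 0) [] (nat_lit 0) [] false,
   Spec.mk (nat_lit 5122) (nat_lit 0) [] (nat_lit 0) [] false,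
   Spec.mk (nat_lit 5124) (nat_lit 0) [] (nat_lit 0) [] false]

noncomputable def cd12 : List Spec :=
  [Spec.mk (nat_lit 5132) (nat_lit 0) [] (nat_lit 0) [] false,
   Spec.mk (nat_lit 5134) (nat_lit 0) [] (nat_lit 0) [] false,
   Spec.mk (nat_lit 5136) (nat_lit 0) [] (nat_lit 0) [] false,
   Spec.mk (nat_lit 5140) (nat_lit 0) [] (nat_lit 0) [] false,
   Spec.mk (nat_lit 5142) (nat_lit 0) [] (nat_lit 0) [] false,
   Spec.mk (nat_lit 5148) (nat_lit 0) [] (nat_lit 0) [] false,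
   Spec.mk (nat_lit 5158) (nat_lit 0) [] (nat_lit 0) [] false,
   Spec.mk (nat_lit 5160) (nat_lit 0) [] (nat_lit 0) [] false,
   Spec.mk (nat_lit 5166) (nat_lit 0) [] (nat_lit 0) [] false,
   Spec.mk (nat_lit 5186) (nat_lit 0) [] (nat_lit 0) [] false,
   Spec.mk (nat_lit 5188) (nat_lit 0) [] (nat_lit 0) [] false,
   Spec.mk (nat_lit 5190) (nat_lit 0) [] (nat_lit 0) [] false,
   Spec.mk (nat_lit 5194) (nat_lit 0) [] (nat_lit 0) [] false,
   Spec.mk (nat_lit 5196) (nat_lit 0) [] (nat_lit 0) [] false,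
   Spec.mk (nat_lit 5202) (nat_lit 0) [] (nat_lit 0) [] false,
   Spec.mk (nat_lit 5212) (nat_lit 0) [] (nat_lit 0) [] false,
   Spec.mk (nat_lit 5214) (nat_lit 0) [] (nat_lit 0) [] false,
   Spec.mk (nat_lit 5220) (nat_lit 0) [] (nat_lit 0) [] false,
   Spec.mk (nat_lit 5238) (nat_lit 0) [] (nat_lit 0) [] false,
   Spec.mk (nat_lit 5266) (nat_lit 0) [] (nat_lit 0) [] false,
   Spec.mk (nat_lit 5268) (nat_lit 0) [] (nat_lit 0) [] false,
   Spec.mk (nat_lit 5274) (nat_lit 0) [] (nat_lit 0) [] false,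
   Spec.mk (nat_lit 5292) (nat_lit 0) [] (nat_lit 0) [] false,
   Spec.mk (nat_lit 5348) (nat_lit 0) [] (nat_lit 0) [] false,
   Spec.mk (nat_lit 5350) (nat_lit 0) [] (nat_lit 0) [] false,
   Spec.mk (nat_lit 5352) (nat_lit 0) [] (nat_lit 0) [] false,
   Spec.mk (nat_lit 5356) (nat_lit 0) [] (nat_lit 0) [] false,
   Spec.mk (nat_lit 5358) (nat_lit 0) [] (nat_lit 0) [] false,
   Spec.mk (nat_lit 5364) (nat_lit 0) [] (nat_lit 0) [] false,
   Spec.mk (nat_lit 5374) (nat_lit 0) [] (nat_lit 0) [] false,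
   Spec.mk (nat_lit 5376) (nat_lit 0) [] (nat_lit 0) [] false,
   Spec.mk (nat_lit 5382) (nat_lit 0) [] (nat_lit 0) [] false,
   Spec.mk (nat_lit 5400) (nat_lit 0) [] (nat_lit 0) [] false,
   Spec.mk (nat_lit 5428) (nat_lit 0) [] (nat_lit 0) [] false,
   Spec.mk (nat_lit 5430) (nat_lit 0) [] (nat_lit 0) [] false,
   Spec.mk (nat_lit 5436) (nat_lit 0) [] (nat_lit 0) [] false,
   Spec.mk (nat_lit 5454) (nat_lit 0) [] (nat_lit 0) [] false,
   Spec.mk (nat_lit 5508) (nat_lit 0) [] (nat_lit 0) [] false,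
   Spec.mk (nat_lit 5590) (nat_lit 0) [] (nat_lit 0) [] false,
   Spec.mk (nat_lit 5592) (nat_lit 0) [] (nat_lit 0) [] false,
   Spec.mk (nat_lit 5598) (nat_lit 0) [] (nat_lit 0) [] false,
   Spec.mk (nat_lit 5616) (nat_lit 0) [] (nat_lit 0) [] false,
   Spec.mk (nat_lit 5670) (nat_lit 0) [] (nat_lit 0) [] false,
   Spec.mk (nat_lit 5834) (nat_lit 0) [] (nat_lit 0) [] false,
   Spec.mk (nat_lit 5836) (nat_lit 0) [] (nat_lit 0) [] false,
   Spec.mk (nat_lit 5838) (nat_lit 0) [] (nat_lit 0) [] false,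
   Spec.mk (nat_lit 5842) (nat_lit 0) [] (nat_lit 0) [] false,
   Spec.mk (nat_lit 5844) (nat_lit 0) [] (nat_lit 0) [] false,
   Spec.mk (nat_lit 5850) (nat_lit 0) [] (nat_lit 0) [] false,
   Spec.mk (nat_lit 5860) (nat_lit 0) [] (nat_lit 0) [] false,
   Spec.mk (nat_lit 5862) (nat_lit 0) [] (nat_lit 0) [] false,
   Spec.mk (nat_lit 5868) (nat_lit 0) [] (nat_lit 0) [] false,
   Spec.mk (nat_lit 5886) (nat_lit 0) [] (nat_lit 0) [] false,
   Spec.mk (nat_lit 5914) (nat_lit 0) [] (nat_lit 0) [] false,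
   Spec.mk (nat_lit 5916) (nat_lit 0) [] (nat_lit 0) [] false,
   Spec.mk (nat_lit 5922) (nat_lit 0) [] (nat_lit 0) [] false,
   Spec.mk (nat_lit 5940) (nat_lit 0) [] (nat_lit 0) [] false,
   Spec.mk (nat_lit 5994) (nat_lit 0) [] (nat_lit 0) [] false,
   Spec.mk (nat_lit 6076) (nat_lit 0) [] (nat_lit 0) [] false,
   Spec.mk (nat_lit 6078) (nat_lit 0) [] (nat_lit 0) [] false]

noncomputable def cd13 : List Spec :=
  [Spec.mk (nat_lit 6084) (nat_lit 0) [] (nat_lit 0) [] false,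
   Spec.mk (nat_lit 6102) (nat_lit 0) [] (nat_lit 0) [] false,
   Spec.mk (nat_lit 6156) (nat_lit 0) [] (nat_lit 0) [] false,
   Spec.mk (nat_lit 6318) (nat_lit 0) [] (nat_lit 0) [] false,
   Spec.mk (nat_lit 6578) (nat_lit 0) [] (nat_lit 0) [] false,
   Spec.mk (nat_lit 6584) (nat_lit 0) [] (nat_lit 0) [] false,
   Spec.mk (nat_lit 6586) (nat_lit 0) [] (nat_lit 0) [] false,
   Spec.mk (nat_lit 6596) (nat_lit 0) [] (nat_lit 0) [] false,
   Spec.mk (nat_lit 6602) (nat_lit 0) [] (nat_lit 0) [] false,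
   Spec.mk (nat_lit 6604) (nat_lit 0) [] (nat_lit 0) [] false,
   Spec.mk (nat_lit 6608) (nat_lit 0) [] (nat_lit 0) [] false,
   Spec.mk (nat_lit 6610) (nat_lit 0) [] (nat_lit 0) [] false,
   Spec.mk (nat_lit 6612) (nat_lit 0) [] (nat_lit 0) [] false,
   Spec.mk (nat_lit 6620) (nat_lit 0) [] (nat_lit 0) [] false,
   Spec.mk (nat_lit 6622) (nat_lit 0) [] (nat_lit 0) [] false,
   Spec.mk (nat_lit 6626) (nat_lit 0) [] (nat_lit 0) [] false,
   Spec.mk (nat_lit 6628) (nat_lit 0) [] (nat_lit 0) [] false,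
   Spec.mk (nat_lit 6630) (nat_lit 0) [] (nat_lit 0) [] false,
   Spec.mk (nat_lit 6634) (nat_lit 0) [] (nat_lit 0) [] false,
   Spec.mk (nat_lit 6636) (nat_lit 0) [] (nat_lit 0) [] false,
   Spec.mk (nat_lit 6650) (nat_lit 0) [] (nat_lit 0) [] false,
   Spec.mk (nat_lit 6656) (nat_lit 0) [] (nat_lit 0) [] false,
   Spec.mk (nat_lit 6658) (nat_lit 0) [] (nat_lit 0) [] false,
   Spec.mk (nat_lit 6662) (nat_lit 0) [] (nat_lit 0) [] false,
   Spec.mk (nat_lit 6664) (nat_lit 0) [] (nat_lit 0) [] false,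
   Spec.mk (nat_lit 6666) (nat_lit 0) [] (nat_lit 0) [] false,
   Spec.mk (nat_lit 6674) (nat_lit 0) [] (nat_lit 0) [] false,
   Spec.mk (nat_lit 6676) (nat_lit 0) [] (nat_lit 0) [] false,
   Spec.mk (nat_lit 6680) (nat_lit 0) [] (nat_lit 0) [] false,
   Spec.mk (nat_lit 6682) (nat_lit 0) [] (nat_lit 0) [] false,
   Spec.mk (nat_lit 6684) (nat_lit 0) [] (nat_lit 0) [] false,
   Spec.mk (nat_lit 6688) (nat_lit 0) [] (nat_lit 0) [] false,
   Spec.mk (nat_lit 6690) (nat_lit 0) [] (nat_lit 0) [] false,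
   Spec.mk (nat_lit 6698) (nat_lit 0) [] (nat_lit 0) [] false,
   Spec.mk (nat_lit 6700) (nat_lit 0) [] (nat_lit 0) [] false,
   Spec.mk (nat_lit 6702) (nat_lit 0) [] (nat_lit 0) [] false,
   Spec.mk (nat_lit 6706) (nat_lit 0) [] (nat_lit 0) [] false,
   Spec.mk (nat_lit 6708) (nat_lit 0) [] (nat_lit 0) [] false,
   Spec.mk (nat_lit 6714) (nat_lit 0) [] (nat_lit 0) [] false,
   Spec.mk (nat_lit 6728) (nat_lit 0) [] (nat_lit 0) [] false,
   Spec.mk (nat_lit 6730) (nat_lit 0) [] (nat_lit 0) [] false,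
   Spec.mk (nat_lit 6734) (nat_lit 0) [] (nat_lit 0) [] false,
   Spec.mk (nat_lit 6736) (nat_lit 0) [] (nat_lit 0) [] false,
   Spec.mk (nat_lit 6738) (nat_lit 0) [] (nat_lit 0) [] false,
   Spec.mk (nat_lit 6742) (nat_lit 0) [] (nat_lit 0) [] false,
   Spec.mk (nat_lit 6744) (nat_lit 0) [] (nat_lit 0) [] false,
   Spec.mk (nat_lit 6752) (nat_lit 0) [] (nat_lit 0) [] false,
   Spec.mk (nat_lit 6754) (nat_lit 0) [] (nat_lit 0) [] false,
   Spec.mk (nat_lit 6756) (nat_lit 0) [] (nat_lit 0) [] false,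
   Spec.mk (nat_lit 6760) (nat_lit 0) [] (nat_lit 0) [] false,
   Spec.mk (nat_lit 6762) (nat_lit 0) [] (nat_lit 0) [] false,
   Spec.mk (nat_lit 6768) (nat_lit 0) [] (nat_lit 0) [] false,
   Spec.mk (nat_lit 6778) (nat_lit 0) [] (nat_lit 0) [] false,
   Spec.mk (nat_lit 6780) (nat_lit 0) [] (nat_lit 0) [] false,
   Spec.mk (nat_lit 6786) (nat_lit 0) [] (nat_lit 0) [] false,
   Spec.mk (nat_lit 6812) (nat_lit 0) [] (nat_lit 0) [] false,
   Spec.mk (nat_lit 6818) (nat_lit 0) [] (nat_lit 0) [] false,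
   Spec.mk (nat_lit 6820) (nat_lit 0) [] (nat_lit 0) [] false,
   Spec.mk (nat_lit 6824) (nat_lit 0) [] (nat_lit 0) [] false,
   Spec.mk (nat_lit 6826) (nat_lit 0) [] (nat_lit 0) [] false]

noncomputable def cd14 : List Spec :=
  [Spec.mk (nat_lit 6828) (nat_lit 0) [] (nat_lit 0) [] false,
   Spec.mk (nat_lit 6836) (nat_lit 0) [] (nat_lit 0) [] false,
   Spec.mk (nat_lit 6838) (nat_lit 0) [] (nat_lit 0) [] false,
   Spec.mk (nat_lit 6842) (nat_lit 0) [] (nat_lit 0) [] false,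
   Spec.mk (nat_lit 6844) (nat_lit 0) [] (nat_lit 0) [] false,
   Spec.mk (nat_lit 6846) (nat_lit 0) [] (nat_lit 0) [] false,
   Spec.mk (nat_lit 6850) (nat_lit 0) [] (nat_lit 0) [] false,
   Spec.mk (nat_lit 6852) (nat_lit 0) [] (nat_lit 0) [] false,
   Spec.mk (nat_lit 6860) (nat_lit 0) [] (nat_lit 0) [] false,
   Spec.mk (nat_lit 6862) (nat_lit 0) [] (nat_lit 0) [] false,
   Spec.mk (nat_lit 6864) (nat_lit 0) [] (nat_lit 0) [] false,
   Spec.mk (nat_lit 6868) (nat_lit 0) [] (nat_lit 0) [] false,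
   Spec.mk (nat_lit 6870) (nat_lit 0) [] (nat_lit 0) [] false,
   Spec.mk (nat_lit 6876) (nat_lit 0) [] (nat_lit 0) [] false,
   Spec.mk (nat_lit 6890) (nat_lit 0) [] (nat_lit 0) [] false,
   Spec.mk (nat_lit 6892) (nat_lit 0) [] (nat_lit 0) [] false,
   Spec.mk (nat_lit 6896) (nat_lit 0) [] (nat_lit 0) [] false,
   Spec.mk (nat_lit 6898) (nat_lit 0) [] (nat_lit 0) [] false,
   Spec.mk (nat_lit 6900) (nat_lit 0) [] (nat_lit 0) [] false,
   Spec.mk (nat_lit 6904) (nat_lit 0) [] (nat_lit 0) [] false,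
   Spec.mk (nat_lit 6906) (nat_lit 0) [] (nat_lit 0) [] false,
   Spec.mk (nat_lit 6914) (nat_lit 0) [] (nat_lit 0) [] false,
   Spec.mk (nat_lit 6916) (nat_lit 0) [] (nat_lit 0) [] false,
   Spec.mk (nat_lit 6918) (nat_lit 0) [] (nat_lit 0) [] false,
   Spec.mk (nat_lit 6922) (nat_lit 0) [] (nat_lit 0) [] false,
   Spec.mk (nat_lit 6924) (nat_lit 0) [] (nat_lit 0) [] false,
   Spec.mk (nat_lit 6930) (nat_lit 0) [] (nat_lit 0) [] false,
   Spec.mk (nat_lit 6940) (nat_lit 0) [] (nat_lit 0) [] false,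
   Spec.mk (nat_lit 6942) (nat_lit 0) [] (nat_lit 0) [] false,
   Spec.mk (nat_lit 6948) (nat_lit 0) [] (nat_lit 0) [] false,
   Spec.mk (nat_lit 6968) (nat_lit 0) [] (nat_lit 0) [] false,
   Spec.mk (nat_lit 6970) (nat_lit 0) [] (nat_lit 0) [] false,
   Spec.mk (nat_lit 6972) (nat_lit 0) [] (nat_lit 0) [] false,
   Spec.mk (nat_lit 6976) (nat_lit 0) [] (nat_lit 0) [] false,
   Spec.mk (nat_lit 6978) (nat_lit 0) [] (nat_lit 0) [] false,
   Spec.mk (nat_lit 6984) (nat_lit 0) [] (nat_lit 0) [] false,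
   Spec.mk (nat_lit 6994) (nat_lit 0) [] (nat_lit 0) [] false,
   Spec.mk (nat_lit 6996) (nat_lit 0) [] (nat_lit 0) [] false,
   Spec.mk (nat_lit 7002) (nat_lit 0) [] (nat_lit 0) [] false,
   Spec.mk (nat_lit 7020) (nat_lit 0) [] (nat_lit 0) [] false,
   Spec.mk (nat_lit 7052) (nat_lit 0) [] (nat_lit 0) [] false,
   Spec.mk (nat_lit 7054) (nat_lit 0) [] (nat_lit 0) [] false,
   Spec.mk (nat_lit 7058) (nat_lit 0) [] (nat_lit 0) [] false,
   Spec.mk (nat_lit 7060) (nat_lit 0) [] (nat_lit 0) [] false,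
   Spec.mk (nat_lit 7062) (nat_lit 0) [] (nat_lit 0) [] false,
   Spec.mk (nat_lit 7066) (nat_lit 0) [] (nat_lit 0) [] false,
   Spec.mk (nat_lit 7068) (nat_lit 0) [] (nat_lit 0) [] false,
   Spec.mk (nat_lit 7076) (nat_lit 0) [] (nat_lit 0) [] false,
   Spec.mk (nat_lit 7078) (nat_lit 0) [] (nat_lit 0) [] false,
   Spec.mk (nat_lit 7080) (nat_lit 0) [] (nat_lit 0) [] false,
   Spec.mk (nat_lit 7084) (nat_lit 0) [] (nat_lit 0) [] false,
   Spec.mk (nat_lit 7086) (nat_lit 0) [] (nat_lit 0) [] false,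
   Spec.mk (nat_lit 7092) (nat_lit 0) [] (nat_lit 0) [] false,
   Spec.mk (nat_lit 7102) (nat_lit 0) [] (nat_lit 0) [] false,
   Spec.mk (nat_lit 7104) (nat_lit 0) [] (nat_lit 0) [] false,
   Spec.mk (nat_lit 7110) (nat_lit 0) [] (nat_lit 0) [] false,
   Spec.mk (nat_lit 7130) (nat_lit 0) [] (nat_lit 0) [] false,
   Spec.mk (nat_lit 7132) (nat_lit 0) [] (nat_lit 0) [] false,
   Spec.mk (nat_lit 7134) (nat_lit 0) [] (nat_lit 0) [] false,
   Spec.mk (nat_lit 7138) (nat_lit 0) [] (nat_lit 0) [] false]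

noncomputable def cd15 : List Spec :=
  [Spec.mk (nat_lit 7140) (nat_lit 0) [] (nat_lit 0) [] false,
   Spec.mk (nat_lit 7146) (nat_lit 0) [] (nat_lit 0) [] false,
   Spec.mk (nat_lit 7156) (nat_lit 0) [] (nat_lit 0) [] false,
   Spec.mk (nat_lit 7158) (nat_lit 0) [] (nat_lit 0) [] false,
   Spec.mk (nat_lit 7164) (nat_lit 0) [] (nat_lit 0) [] false,
   Spec.mk (nat_lit 7182) (nat_lit 0) [] (nat_lit 0) [] false,
   Spec.mk (nat_lit 7210) (nat_lit 0) [] (nat_lit 0) [] false,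
   Spec.mk (nat_lit 7212) (nat_lit 0) [] (nat_lit 0) [] false,
   Spec.mk (nat_lit 7218) (nat_lit 0) [] (nat_lit 0) [] false,
   Spec.mk (nat_lit 7236) (nat_lit 0) [] (nat_lit 0) [] false,
   Spec.mk (nat_lit 7298) (nat_lit 0) [] (nat_lit 0) [] false,
   Spec.mk (nat_lit 7304) (nat_lit 0) [] (nat_lit 0) [] false,
   Spec.mk (nat_lit 7306) (nat_lit 0) [] (nat_lit 0) [] false,
   Spec.mk (nat_lit 7310) (nat_lit 0) [] (nat_lit 0) [] false,
   Spec.mk (nat_lit 7312) (nat_lit 0) [] (nat_lit 0) [] false,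
   Spec.mk (nat_lit 7314) (nat_lit 0) [] (nat_lit 0) [] false,
   Spec.mk (nat_lit 7322) (nat_lit 0) [] (nat_lit 0) [] false,
   Spec.mk (nat_lit 7324) (nat_lit 0) [] (nat_lit 0) [] false,
   Spec.mk (nat_lit 7328) (nat_lit 0) [] (nat_lit 0) [] false,
   Spec.mk (nat_lit 7330) (nat_lit 0) [] (nat_lit 0) [] false,
   Spec.mk (nat_lit 7332) (nat_lit 0) [] (nat_lit 0) [] false,
   Spec.mk (nat_lit 7336) (nat_lit 0) [] (nat_lit 0) [] false,
   Spec.mk (nat_lit 7338) (nat_lit 0) [] (nat_lit 0) [] false,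
   Spec.mk (nat_lit 7346) (nat_lit 0) [] (nat_lit 0) [] false,
   Spec.mk (nat_lit 7348) (nat_lit 0) [] (nat_lit 0) [] false,
   Spec.mk (nat_lit 7350) (nat_lit 0) [] (nat_lit 0) [] false,
   Spec.mk (nat_lit 7354) (nat_lit 0) [] (nat_lit 0) [] false,
   Spec.mk (nat_lit 7356) (nat_lit 0) [] (nat_lit 0) [] false,
   Spec.mk (nat_lit 7362) (nat_lit 0) [] (nat_lit 0) [] false,
   Spec.mk (nat_lit 7376) (nat_lit 0) [] (nat_lit 0) [] false,
   Spec.mk (nat_lit 7378) (nat_lit 0) [] (nat_lit 0) [] false,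
   Spec.mk (nat_lit 7382) (nat_lit 0) [] (nat_lit 0) [] false,
   Spec.mk (nat_lit 7384) (nat_lit 0) [] (nat_lit 0) [] false,
   Spec.mk (nat_lit 7386) (nat_lit 0) [] (nat_lit 0) [] false,
   Spec.mk (nat_lit 7390) (nat_lit 0) [] (nat_lit 0) [] false,
   Spec.mk (nat_lit 7392) (nat_lit 0) [] (nat_lit 0) [] false,
   Spec.mk (nat_lit 7400) (nat_lit 0) [] (nat_lit 0) [] false,
   Spec.mk (nat_lit 7402) (nat_lit 0) [] (nat_lit 0) [] false,
   Spec.mk (nat_lit 7404) (nat_lit 0) [] (nat_lit 0) [] false,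
   Spec.mk (nat_lit 7408) (nat_lit 0) [] (nat_lit 0) [] false,
   Spec.mk (nat_lit 7410) (nat_lit 0) [] (nat_lit 0) [] false,
   Spec.mk (nat_lit 7416) (nat_lit 0) [] (nat_lit 0) [] false,
   Spec.mk (nat_lit 7426) (nat_lit 0) [] (nat_lit 0) [] false,
   Spec.mk (nat_lit 7428) (nat_lit 0) [] (nat_lit 0) [] false,
   Spec.mk (nat_lit 7434) (nat_lit 0) [] (nat_lit 0) [] false,
   Spec.mk (nat_lit 7454) (nat_lit 0) [] (nat_lit 0) [] false,
   Spec.mk (nat_lit 7456) (nat_lit 0) [] (nat_lit 0) [] false,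
   Spec.mk (nat_lit 7458) (nat_lit 0) [] (nat_lit 0) [] false,
   Spec.mk (nat_lit 7462) (nat_lit 0) [] (nat_lit 0) [] false,
   Spec.mk (nat_lit 7464) (nat_lit 0) [] (nat_lit 0) [] false,
   Spec.mk (nat_lit 7470) (nat_lit 0) [] (nat_lit 0) [] false,
   Spec.mk (nat_lit 7480) (nat_lit 0) [] (nat_lit 0) [] false,
   Spec.mk (nat_lit 7482) (nat_lit 0) [] (nat_lit 0) [] false,
   Spec.mk (nat_lit 7488) (nat_lit 0) [] (nat_lit 0) [] false,
   Spec.mk (nat_lit 7506) (nat_lit 0) [] (nat_lit 0) [] false,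
   Spec.mk (nat_lit 7538) (nat_lit 0) [] (nat_lit 0) [] false,
   Spec.mk (nat_lit 7540) (nat_lit 0) [] (nat_lit 0) [] false,
   Spec.mk (nat_lit 7544) (nat_lit 0) [] (nat_lit 0) [] false,
   Spec.mk (nat_lit 7546) (nat_lit 0) [] (nat_lit 0) [] false,
   Spec.mk (nat_lit 7548) (nat_lit 0) [] (nat_lit 0) [] false]

noncomputable def cd16 : List Spec :=
  [Spec.mk (nat_lit 7552) (nat_lit 0) [] (nat_lit 0) [] false,
   Spec.mk (nat_lit 7554) (nat_lit 0) [] (nat_lit 0) [] false,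
   Spec.mk (nat_lit 7562) (nat_lit 0) [] (nat_lit 0) [] false,
   Spec.mk (nat_lit 7564) (nat_lit 0) [] (nat_lit 0) [] false,
   Spec.mk (nat_lit 7566) (nat_lit 0) [] (nat_lit 0) [] false,
   Spec.mk (nat_lit 7570) (nat_lit 0) [] (nat_lit 0) [] false,
   Spec.mk (nat_lit 7572) (nat_lit 0) [] (nat_lit 0) [] false,
   Spec.mk (nat_lit 7578) (nat_lit 0) [] (nat_lit 0) [] false,
   Spec.mk (nat_lit 7588) (nat_lit 0) [] (nat_lit 0) [] false,
   Spec.mk (nat_lit 7590) (nat_lit 0) [] (nat_lit 0) [] false,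
   Spec.mk (nat_lit 7596) (nat_lit 0) [] (nat_lit 0) [] false,
   Spec.mk (nat_lit 7616) (nat_lit 0) [] (nat_lit 0) [] false,
   Spec.mk (nat_lit 7618) (nat_lit 0) [] (nat_lit 0) [] false,
   Spec.mk (nat_lit 7620) (nat_lit 0) [] (nat_lit 0) [] false,
   Spec.mk (nat_lit 7624) (nat_lit 0) [] (nat_lit 0) [] false,
   Spec.mk (nat_lit 7626) (nat_lit 0) [] (nat_lit 0) [] false,
   Spec.mk (nat_lit 7632) (nat_lit 0) [] (nat_lit 0) [] false,
   Spec.mk (nat_lit 7642) (nat_lit 0) [] (nat_lit 0) [] false,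
   Spec.mk (nat_lit 7644) (nat_lit 0) [] (nat_lit 0) [] false,
   Spec.mk (nat_lit 7650) (nat_lit 0) [] (nat_lit 0) [] false,
   Spec.mk (nat_lit 7668) (nat_lit 0) [] (nat_lit 0) [] false,
   Spec.mk (nat_lit 7696) (nat_lit 0) [] (nat_lit 0) [] false,
   Spec.mk (nat_lit 7698) (nat_lit 0) [] (nat_lit 0) [] false,
   Spec.mk (nat_lit 7704) (nat_lit 0) [] (nat_lit 0) [] false,
   Spec.mk (nat_lit 7722) (nat_lit 0) [] (nat_lit 0) [] false,
   Spec.mk (nat_lit 7778) (nat_lit 0) [] (nat_lit 0) [] false,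
   Spec.mk (nat_lit 7780) (nat_lit 0) [] (nat_lit 0) [] false,
   Spec.mk (nat_lit 7782) (nat_lit 0) [] (nat_lit 0) [] false,
   Spec.mk (nat_lit 7786) (nat_lit 0) [] (nat_lit 0) [] false,
   Spec.mk (nat_lit 7788) (nat_lit 0) [] (nat_lit 0) [] false,
   Spec.mk (nat_lit 7794) (nat_lit 0) [] (nat_lit 0) [] false,
   Spec.mk (nat_lit 7804) (nat_lit 0) [] (nat_lit 0) [] false,
   Spec.mk (nat_lit 7806) (nat_lit 0) [] (nat_lit 0) [] false,
   Spec.mk (nat_lit 7812) (nat_lit 0) [] (nat_lit 0) [] false,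
   Spec.mk (nat_lit 7830) (nat_lit 0) [] (nat_lit 0) [] false,
   Spec.mk (nat_lit 7858) (nat_lit 0) [] (nat_lit 0) [] false,
   Spec.mk (nat_lit 7860) (nat_lit 0) [] (nat_lit 0) [] false,
   Spec.mk (nat_lit 7866) (nat_lit 0) [] (nat_lit 0) [] false,
   Spec.mk (nat_lit 7884) (nat_lit 0) [] (nat_lit 0) [] false,
   Spec.mk (nat_lit 7938) (nat_lit 0) [] (nat_lit 0) [] false,
   Spec.mk (nat_lit 8024) (nat_lit 0) [] (nat_lit 0) [] false,
   Spec.mk (nat_lit 8026) (nat_lit 0) [] (nat_lit 0) [] false,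
   Spec.mk (nat_lit 8030) (nat_lit 0) [] (nat_lit 0) [] false,
   Spec.mk (nat_lit 8032) (nat_lit 0) [] (nat_lit 0) [] false,
   Spec.mk (nat_lit 8034) (nat_lit 0) [] (nat_lit 0) [] false,
   Spec.mk (nat_lit 8038) (nat_lit 0) [] (nat_lit 0) [] false,
   Spec.mk (nat_lit 8040) (nat_lit 0) [] (nat_lit 0) [] false,
   Spec.mk (nat_lit 8048) (nat_lit 0) [] (nat_lit 0) [] false,
   Spec.mk (nat_lit 8050) (nat_lit 0) [] (nat_lit 0) [] false,
   Spec.mk (nat_lit 8052) (nat_lit 0) [] (nat_lit 0) [] false,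
   Spec.mk (nat_lit 8056) (nat_lit 0) [] (nat_lit 0) [] false,
   Spec.mk (nat_lit 8058) (nat_lit 0) [] (nat_lit 0) [] false,
   Spec.mk (nat_lit 8064) (nat_lit 0) [] (nat_lit 0) [] false,
   Spec.mk (nat_lit 8074) (nat_lit 0) [] (nat_lit 0) [] false,
   Spec.mk (nat_lit 8076) (nat_lit 0) [] (nat_lit 0) [] false,
   Spec.mk (nat_lit 8082) (nat_lit 0) [] (nat_lit 0) [] false,
   Spec.mk (nat_lit 8102) (nat_lit 0) [] (nat_lit 0) [] false,
   Spec.mk (nat_lit 8104) (nat_lit 0) [] (nat_lit 0) [] false,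
   Spec.mk (nat_lit 8106) (nat_lit 0) [] (nat_lit 0) [] false,
   Spec.mk (nat_lit 8110) (nat_lit 0) [] (nat_lit 0) [] false]

noncomputable def cd17 : List Spec :=
  [Spec.mk (nat_lit 8112) (nat_lit 0) [] (nat_lit 0) [] false,
   Spec.mk (nat_lit 8118) (nat_lit 0) [] (nat_lit 0) [] false,
   Spec.mk (nat_lit 8128) (nat_lit 0) [] (nat_lit 0) [] false,
   Spec.mk (nat_lit 8130) (nat_lit 0) [] (nat_lit 0) [] false,
   Spec.mk (nat_lit 8136) (nat_lit 0) [] (nat_lit 0) [] false,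
   Spec.mk (nat_lit 8154) (nat_lit 0) [] (nat_lit 0) [] false,
   Spec.mk (nat_lit 8182) (nat_lit 0) [] (nat_lit 0) [] false,
   Spec.mk (nat_lit 8184) (nat_lit 0) [] (nat_lit 0) [] false,
   Spec.mk (nat_lit 8190) (nat_lit 0) [] (nat_lit 0) [] false,
   Spec.mk (nat_lit 8208) (nat_lit 0) [] (nat_lit 0) [] false,
   Spec.mk (nat_lit 8264) (nat_lit 0) [] (nat_lit 0) [] false,
   Spec.mk (nat_lit 8266) (nat_lit 0) [] (nat_lit 0) [] false,
   Spec.mk (nat_lit 8268) (nat_lit 0) [] (nat_lit 0) [] false,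
   Spec.mk (nat_lit 8272) (nat_lit 0) [] (nat_lit 0) [] false,
   Spec.mk (nat_lit 8274) (nat_lit 0) [] (nat_lit 0) [] false,
   Spec.mk (nat_lit 8280) (nat_lit 0) [] (nat_lit 0) [] false,
   Spec.mk (nat_lit 8290) (nat_lit 0) [] (nat_lit 0) [] false,
   Spec.mk (nat_lit 8292) (nat_lit 0) [] (nat_lit 0) [] false,
   Spec.mk (nat_lit 8298) (nat_lit 0) [] (nat_lit 0) [] false,
   Spec.mk (nat_lit 8316) (nat_lit 0) [] (nat_lit 0) [] false,
   Spec.mk (nat_lit 8344) (nat_lit 0) [] (nat_lit 0) [] false,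
   Spec.mk (nat_lit 8346) (nat_lit 0) [] (nat_lit 0) [] false,
   Spec.mk (nat_lit 8352) (nat_lit 0) [] (nat_lit 0) [] false,
   Spec.mk (nat_lit 8370) (nat_lit 0) [] (nat_lit 0) [] false,
   Spec.mk (nat_lit 8424) (nat_lit 0) [] (nat_lit 0) [] false,
   Spec.mk (nat_lit 8506) (nat_lit 0) [] (nat_lit 0) [] false,
   Spec.mk (nat_lit 8508) (nat_lit 0) [] (nat_lit 0) [] false,
   Spec.mk (nat_lit 8514) (nat_lit 0) [] (nat_lit 0) [] false,
   Spec.mk (nat_lit 8532) (nat_lit 0) [] (nat_lit 0) [] false,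
   Spec.mk (nat_lit 8586) (nat_lit 0) [] (nat_lit 0) [] false,
   Spec.mk (nat_lit 8756) (nat_lit 0) [] (nat_lit 0) [] false,
   Spec.mk (nat_lit 8762) (nat_lit 0) [] (nat_lit 0) [] false,
   Spec.mk (nat_lit 8764) (nat_lit 0) [] (nat_lit 0) [] false,
   Spec.mk (nat_lit 8768) (nat_lit 0) [] (nat_lit 0) [] false,
   Spec.mk (nat_lit 8770) (nat_lit 0) [] (nat_lit 0) [] false,
   Spec.mk (nat_lit 8772) (nat_lit 0) [] (nat_lit 0) [] false,
   Spec.mk (nat_lit 8780) (nat_lit 0) [] (nat_lit 0) [] false,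
   Spec.mk (nat_lit 8782) (nat_lit 0) [] (nat_lit 0) [] false,
   Spec.mk (nat_lit 8786) (nat_lit 0) [] (nat_lit 0) [] false,
   Spec.mk (nat_lit 8788) (nat_lit 0) [] (nat_lit 0) [] false,
   Spec.mk (nat_lit 8790) (nat_lit 0) [] (nat_lit 0) [] false,
   Spec.mk (nat_lit 8794) (nat_lit 0) [] (nat_lit 0) [] false,
   Spec.mk (nat_lit 8796) (nat_lit 0) [] (nat_lit 0) [] false,
   Spec.mk (nat_lit 8804) (nat_lit 0) [] (nat_lit 0) [] false,
   Spec.mk (nat_lit 8806) (nat_lit 0) [] (nat_lit 0) [] false,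
   Spec.mk (nat_lit 8808) (nat_lit 0) [] (nat_lit 0) [] false,
   Spec.mk (nat_lit 8812) (nat_lit 0) [] (nat_lit 0) [] false,
   Spec.mk (nat_lit 8814) (nat_lit 0) [] (nat_lit 0) [] false,
   Spec.mk (nat_lit 8820) (nat_lit 0) [] (nat_lit 0) [] false,
   Spec.mk (nat_lit 8834) (nat_lit 0) [] (nat_lit 0) [] false,
   Spec.mk (nat_lit 8836) (nat_lit 0) [] (nat_lit 0) [] false,
   Spec.mk (nat_lit 8840) (nat_lit 0) [] (nat_lit 0) [] false,
   Spec.mk (nat_lit 8842) (nat_lit 0) [] (nat_lit 0) [] false,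
   Spec.mk (nat_lit 8844) (nat_lit 0) [] (nat_lit 0) [] false,
   Spec.mk (nat_lit 8848) (nat_lit 0) [] (nat_lit 0) [] false,
   Spec.mk (nat_lit 8850) (nat_lit 0) [] (nat_lit 0) [] false,
   Spec.mk (nat_lit 8858) (nat_lit 0) [] (nat_lit 0) [] false,
   Spec.mk (nat_lit 8860) (nat_lit 0) [] (nat_lit 0) [] false,
   Spec.mk (nat_lit 8862) (nat_lit 0) [] (nat_lit 0) [] false,
   Spec.mk (nat_lit 8866) (nat_lit 0) [] (nat_lit 0) [] false]

noncomputable def cd18 : List Spec :=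
  [Spec.mk (nat_lit 8868) (nat_lit 0) [] (nat_lit 0) [] false,
   Spec.mk (nat_lit 8874) (nat_lit 0) [] (nat_lit 0) [] false,
   Spec.mk (nat_lit 8884) (nat_lit 0) [] (nat_lit 0) [] false,
   Spec.mk (nat_lit 8886) (nat_lit 0) [] (nat_lit 0) [] false,
   Spec.mk (nat_lit 8892) (nat_lit 0) [] (nat_lit 0) [] false,
   Spec.mk (nat_lit 8912) (nat_lit 0) [] (nat_lit 0) [] false,
   Spec.mk (nat_lit 8914) (nat_lit 0) [] (nat_lit 0) [] false,
   Spec.mk (nat_lit 8916) (nat_lit 0) [] (nat_lit 0) [] false,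
   Spec.mk (nat_lit 8920) (nat_lit 0) [] (nat_lit 0) [] false,
   Spec.mk (nat_lit 8922) (nat_lit 0) [] (nat_lit 0) [] false,
   Spec.mk (nat_lit 8928) (nat_lit 0) [] (nat_lit 0) [] false,
   Spec.mk (nat_lit 8938) (nat_lit 0) [] (nat_lit 0) [] false,
   Spec.mk (nat_lit 8940) (nat_lit 0) [] (nat_lit 0) [] false,
   Spec.mk (nat_lit 8946) (nat_lit 0) [] (nat_lit 0) [] false,
   Spec.mk (nat_lit 8964) (nat_lit 0) [] (nat_lit 0) [] false,
   Spec.mk (nat_lit 8996) (nat_lit 0) [] (nat_lit 0) [] false,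
   Spec.mk (nat_lit 8998) (nat_lit 0) [] (nat_lit 0) [] false,
   Spec.mk (nat_lit 9002) (nat_lit 0) [] (nat_lit 0) [] false,
   Spec.mk (nat_lit 9004) (nat_lit 0) [] (nat_lit 0) [] false,
   Spec.mk (nat_lit 9006) (nat_lit 0) [] (nat_lit 0) [] false,
   Spec.mk (nat_lit 9010) (nat_lit 0) [] (nat_lit 0) [] false,
   Spec.mk (nat_lit 9012) (nat_lit 0) [] (nat_lit 0) [] false,
   Spec.mk (nat_lit 9020) (nat_lit 0) [] (nat_lit 0) [] false,
   Spec.mk (nat_lit 9022) (nat_lit 0) [] (nat_lit 0) [] false,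
   Spec.mk (nat_lit 9024) (nat_lit 0) [] (nat_lit 0) [] false,
   Spec.mk (nat_lit 9028) (nat_lit 0) [] (nat_lit 0) [] false,
   Spec.mk (nat_lit 9030) (nat_lit 0) [] (nat_lit 0) [] false,
   Spec.mk (nat_lit 9036) (nat_lit 0) [] (nat_lit 0) [] false,
   Spec.mk (nat_lit 9046) (nat_lit 0) [] (nat_lit 0) [] false,
   Spec.mk (nat_lit 9048) (nat_lit 0) [] (nat_lit 0) [] false,
   Spec.mk (nat_lit 9054) (nat_lit 0) [] (nat_lit 0) [] false,
   Spec.mk (nat_lit 9074) (nat_lit 0) [] (nat_lit 0) [] false,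
   Spec.mk (nat_lit 9076) (nat_lit 0) [] (nat_lit 0) [] false,
   Spec.mk (nat_lit 9078) (nat_lit 0) [] (nat_lit 0) [] false,
   Spec.mk (nat_lit 9082) (nat_lit 0) [] (nat_lit 0) [] false,
   Spec.mk (nat_lit 9084) (nat_lit 0) [] (nat_lit 0) [] false,
   Spec.mk (nat_lit 9090) (nat_lit 0) [] (nat_lit 0) [] false,
   Spec.mk (nat_lit 9100) (nat_lit 0) [] (nat_lit 0) [] false,
   Spec.mk (nat_lit 9102) (nat_lit 0) [] (nat_lit 0) [] false,
   Spec.mk (nat_lit 9108) (nat_lit 0) [] (nat_lit 0) [] false,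
   Spec.mk (nat_lit 9126) (nat_lit 0) [] (nat_lit 0) [] false,
   Spec.mk (nat_lit 9154) (nat_lit 0) [] (nat_lit 0) [] false,
   Spec.mk (nat_lit 9156) (nat_lit 0) [] (nat_lit 0) [] false,
   Spec.mk (nat_lit 9162) (nat_lit 0) [] (nat_lit 0) [] false,
   Spec.mk (nat_lit 9180) (nat_lit 0) [] (nat_lit 0) [] false,
   Spec.mk (nat_lit 9236) (nat_lit 0) [] (nat_lit 0) [] false,
   Spec.mk (nat_lit 9238) (nat_lit 0) [] (nat_lit 0) [] false,
   Spec.mk (nat_lit 9240) (nat_lit 0) [] (nat_lit 0) [] false,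
   Spec.mk (nat_lit 9244) (nat_lit 0) [] (nat_lit 0) [] false,
   Spec.mk (nat_lit 9246) (nat_lit 0) [] (nat_lit 0) [] false,
   Spec.mk (nat_lit 9252) (nat_lit 0) [] (nat_lit 0) [] false,
   Spec.mk (nat_lit 9262) (nat_lit 0) [] (nat_lit 0) [] false,
   Spec.mk (nat_lit 9264) (nat_lit 0) [] (nat_lit 0) [] false,
   Spec.mk (nat_lit 9270) (nat_lit 0) [] (nat_lit 0) [] false,
   Spec.mk (nat_lit 9288) (nat_lit 0) [] (nat_lit 0) [] false,
   Spec.mk (nat_lit 9316) (nat_lit 0) [] (nat_lit 0) [] false,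
   Spec.mk (nat_lit 9318) (nat_lit 0) [] (nat_lit 0) [] false,
   Spec.mk (nat_lit 9324) (nat_lit 0) [] (nat_lit 0) [] false,
   Spec.mk (nat_lit 9342) (nat_lit 0) [] (nat_lit 0) [] false,
   Spec.mk (nat_lit 9396) (nat_lit 0) [] (nat_lit 0) [] false]

noncomputable def cd19 : List Spec :=
  [Spec.mk (nat_lit 9482) (nat_lit 0) [] (nat_lit 0) [] false,
   Spec.mk (nat_lit 9484) (nat_lit 0) [] (nat_lit 0) [] false,
   Spec.mk (nat_lit 9488) (nat_lit 0) [] (nat_lit 0) [] false,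
   Spec.mk (nat_lit 9490) (nat_lit 0) [] (nat_lit 0) [] false,
   Spec.mk (nat_lit 9492) (nat_lit 0) [] (nat_lit 0) [] false,
   Spec.mk (nat_lit 9496) (nat_lit 0) [] (nat_lit 0) [] false,
   Spec.mk (nat_lit 9498) (nat_lit 0) [] (nat_lit 0) [] false,
   Spec.mk (nat_lit 9506) (nat_lit 0) [] (nat_lit 0) [] false,
   Spec.mk (nat_lit 9508) (nat_lit 0) [] (nat_lit 0) [] false,
   Spec.mk (nat_lit 9510) (nat_lit 0) [] (nat_lit 0) [] false,
   Spec.mk (nat_lit 9514) (nat_lit 0) [] (nat_lit 0) [] false,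
   Spec.mk (nat_lit 9516) (nat_lit 0) [] (nat_lit 0) [] false,
   Spec.mk (nat_lit 9522) (nat_lit 0) [] (nat_lit 0) [] false,
   Spec.mk (nat_lit 9532) (nat_lit 0) [] (nat_lit 0) [] false,
   Spec.mk (nat_lit 9534) (nat_lit 0) [] (nat_lit 0) [] false,
   Spec.mk (nat_lit 9540) (nat_lit 0) [] (nat_lit 0) [] false,
   Spec.mk (nat_lit 9560) (nat_lit 0) [] (nat_lit 0) [] false,
   Spec.mk (nat_lit 9562) (nat_lit 0) [] (nat_lit 0) [] false,
   Spec.mk (nat_lit 9564) (nat_lit 0) [] (nat_lit 0) [] false,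
   Spec.mk (nat_lit 9568) (nat_lit 0) [] (nat_lit 0) [] false,
   Spec.mk (nat_lit 9570) (nat_lit 0) [] (nat_lit 0) [] false,
   Spec.mk (nat_lit 9576) (nat_lit 0) [] (nat_lit 0) [] false,
   Spec.mk (nat_lit 9586) (nat_lit 0) [] (nat_lit 0) [] false,
   Spec.mk (nat_lit 9588) (nat_lit 0) [] (nat_lit 0) [] false,
   Spec.mk (nat_lit 9594) (nat_lit 0) [] (nat_lit 0) [] false,
   Spec.mk (nat_lit 9612) (nat_lit 0) [] (nat_lit 0) [] false,
   Spec.mk (nat_lit 9640) (nat_lit 0) [] (nat_lit 0) [] false,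
   Spec.mk (nat_lit 9642) (nat_lit 0) [] (nat_lit 0) [] false,
   Spec.mk (nat_lit 9648) (nat_lit 0) [] (nat_lit 0) [] false,
   Spec.mk (nat_lit 9666) (nat_lit 0) [] (nat_lit 0) [] false,
   Spec.mk (nat_lit 9722) (nat_lit 0) [] (nat_lit 0) [] false,
   Spec.mk (nat_lit 9724) (nat_lit 0) [] (nat_lit 0) [] false,
   Spec.mk (nat_lit 9726) (nat_lit 0) [] (nat_lit 0) [] false,
   Spec.mk (nat_lit 9730) (nat_lit 0) [] (nat_lit 0) [] false,
   Spec.mk (nat_lit 9732) (nat_lit 0) [] (nat_lit 0) [] false,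
   Spec.mk (nat_lit 9738) (nat_lit 0) [] (nat_lit 0) [] false,
   Spec.mk (nat_lit 9748) (nat_lit 0) [] (nat_lit 0) [] false,
   Spec.mk (nat_lit 9750) (nat_lit 0) [] (nat_lit 0) [] false,
   Spec.mk (nat_lit 9756) (nat_lit 0) [] (nat_lit 0) [] false,
   Spec.mk (nat_lit 9774) (nat_lit 0) [] (nat_lit 0) [] false,
   Spec.mk (nat_lit 9802) (nat_lit 0) [] (nat_lit 0) [] false,
   Spec.mk (nat_lit 9804) (nat_lit 0) [] (nat_lit 0) [] false,
   Spec.mk (nat_lit 9810) (nat_lit 0) [] (nat_lit 0) [] false,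
   Spec.mk (nat_lit 9828) (nat_lit 0) [] (nat_lit 0) [] false,
   Spec.mk (nat_lit 9882) (nat_lit 0) [] (nat_lit 0) [] false,
   Spec.mk (nat_lit 9964) (nat_lit 0) [] (nat_lit 0) [] false,
   Spec.mk (nat_lit 9966) (nat_lit 0) [] (nat_lit 0) [] false,
   Spec.mk (nat_lit 9972) (nat_lit 0) [] (nat_lit 0) [] false,
   Spec.mk (nat_lit 9990) (nat_lit 0) [] (nat_lit 0) [] false,
   Spec.mk (nat_lit 10044) (nat_lit 0) [] (nat_lit 0) [] false,
   Spec.mk (nat_lit 10208) (nat_lit 0) [] (nat_lit 0) [] false,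
   Spec.mk (nat_lit 10210) (nat_lit 0) [] (nat_lit 0) [] false,
   Spec.mk (nat_lit 10212) (nat_lit 0) [] (nat_lit 0) [] false,
   Spec.mk (nat_lit 10216) (nat_lit 0) [] (nat_lit 0) [] false,
   Spec.mk (nat_lit 10218) (nat_lit 0) [] (nat_lit 0) [] false,
   Spec.mk (nat_lit 10224) (nat_lit 0) [] (nat_lit 0) [] false,
   Spec.mk (nat_lit 10234) (nat_lit 0) [] (nat_lit 0) [] false,
   Spec.mk (nat_lit 10236) (nat_lit 0) [] (nat_lit 0) [] false,
   Spec.mk (nat_lit 10242) (nat_lit 0) [] (nat_lit 0) [] false,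
   Spec.mk (nat_lit 10260) (nat_lit 0) [] (nat_lit 0) [] false]

noncomputable def cd20 : List Spec :=
  [Spec.mk (nat_lit 10288) (nat_lit 0) [] (nat_lit 0) [] false,
   Spec.mk (nat_lit 10290) (nat_lit 0) [] (nat_lit 0) [] false,
   Spec.mk (nat_lit 10296) (nat_lit 0) [] (nat_lit 0) [] false,
   Spec.mk (nat_lit 10314) (nat_lit 0) [] (nat_lit 0) [] false,
   Spec.mk (nat_lit 10368) (nat_lit 0) [] (nat_lit 0) [] false,
   Spec.mk (nat_lit 10450) (nat_lit 0) [] (nat_lit 0) [] false,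
   Spec.mk (nat_lit 10452) (nat_lit 0) [] (nat_lit 0) [] false,
   Spec.mk (nat_lit 10458) (nat_lit 0) [] (nat_lit 0) [] false,
   Spec.mk (nat_lit 10476) (nat_lit 0) [] (nat_lit 0) [] false,
   Spec.mk (nat_lit 10530) (nat_lit 0) [] (nat_lit 0) [] false,
   Spec.mk (nat_lit 10692) (nat_lit 0) [] (nat_lit 0) [] false,
   Spec.mk (nat_lit 10940) (nat_lit 0) [] (nat_lit 0) [] false,
   Spec.mk (nat_lit 10942) (nat_lit 0) [] (nat_lit 0) [] false,
   Spec.mk (nat_lit 10946) (nat_lit 0) [] (nat_lit 0) [] false,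
   Spec.mk (nat_lit 10948) (nat_lit 0) [] (nat_lit 0) [] false,
   Spec.mk (nat_lit 10950) (nat_lit 0) [] (nat_lit 0) [] false,
   Spec.mk (nat_lit 10954) (nat_lit 0) [] (nat_lit 0) [] false,
   Spec.mk (nat_lit 10956) (nat_lit 0) [] (nat_lit 0) [] false,
   Spec.mk (nat_lit 10964) (nat_lit 0) [] (nat_lit 0) [] false,
   Spec.mk (nat_lit 10966) (nat_lit 0) [] (nat_lit 0) [] false,
   Spec.mk (nat_lit 10968) (nat_lit 0) [] (nat_lit 0) [] false,
   Spec.mk (nat_lit 10972) (nat_lit 0) [] (nat_lit 0) [] false,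
   Spec.mk (nat_lit 10974) (nat_lit 0) [] (nat_lit 0) [] false,
   Spec.mk (nat_lit 10980) (nat_lit 0) [] (nat_lit 0) [] false,
   Spec.mk (nat_lit 10990) (nat_lit 0) [] (nat_lit 0) [] false,
   Spec.mk (nat_lit 10992) (nat_lit 0) [] (nat_lit 0) [] false,
   Spec.mk (nat_lit 10998) (nat_lit 0) [] (nat_lit 0) [] false,
   Spec.mk (nat_lit 11018) (nat_lit 0) [] (nat_lit 0) [] false,
   Spec.mk (nat_lit 11020) (nat_lit 0) [] (nat_lit 0) [] false,
   Spec.mk (nat_lit 11022) (nat_lit 0) [] (nat_lit 0) [] false,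
   Spec.mk (nat_lit 11026) (nat_lit 0) [] (nat_lit 0) [] false,
   Spec.mk (nat_lit 11028) (nat_lit 0) [] (nat_lit 0) [] false,
   Spec.mk (nat_lit 11034) (nat_lit 0) [] (nat_lit 0) [] false,
   Spec.mk (nat_lit 11044) (nat_lit 0) [] (nat_lit 0) [] false,
   Spec.mk (nat_lit 11046) (nat_lit 0) [] (nat_lit 0) [] false,
   Spec.mk (nat_lit 11052) (nat_lit 0) [] (nat_lit 0) [] false,
   Spec.mk (nat_lit 11070) (nat_lit 0) [] (nat_lit 0) [] false,
   Spec.mk (nat_lit 11098) (nat_lit 0) [] (nat_lit 0) [] false,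
   Spec.mk (nat_lit 11100) (nat_lit 0) [] (nat_lit 0) [] false,
   Spec.mk (nat_lit 11106) (nat_lit 0) [] (nat_lit 0) [] false,
   Spec.mk (nat_lit 11124) (nat_lit 0) [] (nat_lit 0) [] false,
   Spec.mk (nat_lit 11180) (nat_lit 0) [] (nat_lit 0) [] false,
   Spec.mk (nat_lit 11182) (nat_lit 0) [] (nat_lit 0) [] false,
   Spec.mk (nat_lit 11184) (nat_lit 0) [] (nat_lit 0) [] false,
   Spec.mk (nat_lit 11188) (nat_lit 0) [] (nat_lit 0) [] false,
   Spec.mk (nat_lit 11190) (nat_lit 0) [] (nat_lit 0) [] false,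
   Spec.mk (nat_lit 11196) (nat_lit 0) [] (nat_lit 0) [] false,
   Spec.mk (nat_lit 11206) (nat_lit 0) [] (nat_lit 0) [] false,
   Spec.mk (nat_lit 11208) (nat_lit 0) [] (nat_lit 0) [] false,
   Spec.mk (nat_lit 11214) (nat_lit 0) [] (nat_lit 0) [] false,
   Spec.mk (nat_lit 11232) (nat_lit 0) [] (nat_lit 0) [] false,
   Spec.mk (nat_lit 11260) (nat_lit 0) [] (nat_lit 0) [] false,
   Spec.mk (nat_lit 11262) (nat_lit 0) [] (nat_lit 0) [] false,
   Spec.mk (nat_lit 11268) (nat_lit 0) [] (nat_lit 0) [] false,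
   Spec.mk (nat_lit 11286) (nat_lit 0) [] (nat_lit 0) [] false,
   Spec.mk (nat_lit 11340) (nat_lit 0) [] (nat_lit 0) [] false,
   Spec.mk (nat_lit 11422) (nat_lit 0) [] (nat_lit 0) [] false,
   Spec.mk (nat_lit 11424) (nat_lit 0) [] (nat_lit 0) [] false,
   Spec.mk (nat_lit 11430) (nat_lit 0) [] (nat_lit 0) [] false,
   Spec.mk (nat_lit 11448) (nat_lit 0) [] (nat_lit 0) [] false]

noncomputable def cd21 : List Spec :=
  [Spec.mk (nat_lit 11502) (nat_lit 0) [] (nat_lit 0) [] false,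
   Spec.mk (nat_lit 11666) (nat_lit 0) [] (nat_lit 0) [] false,
   Spec.mk (nat_lit 11668) (nat_lit 0) [] (nat_lit 0) [] false,
   Spec.mk (nat_lit 11670) (nat_lit 0) [] (nat_lit 0) [] false,
   Spec.mk (nat_lit 11674) (nat_lit 0) [] (nat_lit 0) [] false,
   Spec.mk (nat_lit 11676) (nat_lit 0) [] (nat_lit 0) [] false,
   Spec.mk (nat_lit 11682) (nat_lit 0) [] (nat_lit 0) [] false,
   Spec.mk (nat_lit 11692) (nat_lit 0) [] (nat_lit 0) [] false,
   Spec.mk (nat_lit 11694) (nat_lit 0) [] (nat_lit 0) [] false,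
   Spec.mk (nat_lit 11700) (nat_lit 0) [] (nat_lit 0) [] false,
   Spec.mk (nat_lit 11718) (nat_lit 0) [] (nat_lit 0) [] false,
   Spec.mk (nat_lit 11746) (nat_lit 0) [] (nat_lit 0) [] false,
   Spec.mk (nat_lit 11748) (nat_lit 0) [] (nat_lit 0) [] false,
   Spec.mk (nat_lit 11754) (nat_lit 0) [] (nat_lit 0) [] false,
   Spec.mk (nat_lit 11772) (nat_lit 0) [] (nat_lit 0) [] false,
   Spec.mk (nat_lit 11826) (nat_lit 0) [] (nat_lit 0) [] false,
   Spec.mk (nat_lit 11908) (nat_lit 0) [] (nat_lit 0) [] false,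
   Spec.mk (nat_lit 11910) (nat_lit 0) [] (nat_lit 0) [] false,
   Spec.mk (nat_lit 11916) (nat_lit 0) [] (nat_lit 0) [] false,
   Spec.mk (nat_lit 11934) (nat_lit 0) [] (nat_lit 0) [] false,
   Spec.mk (nat_lit 11988) (nat_lit 0) [] (nat_lit 0) [] false,
   Spec.mk (nat_lit 12150) (nat_lit 0) [] (nat_lit 0) [] false,
   Spec.mk (nat_lit 12394) (nat_lit 0) [] (nat_lit 0) [] false,
   Spec.mk (nat_lit 12396) (nat_lit 0) [] (nat_lit 0) [] false,
   Spec.mk (nat_lit 12402) (nat_lit 0) [] (nat_lit 0) [] false,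
   Spec.mk (nat_lit 12420) (nat_lit 0) [] (nat_lit 0) [] false,
   Spec.mk (nat_lit 12474) (nat_lit 0) [] (nat_lit 0) [] false,
   Spec.mk (nat_lit 12636) (nat_lit 0) [] (nat_lit 0) [] false,
   Spec.mk (nat_lit 13130) (nat_lit 0) [] (nat_lit 0) [] false,
   Spec.mk (nat_lit 13136) (nat_lit 0) [] (nat_lit 0) [] false,
   Spec.mk (nat_lit 13138) (nat_lit 0) [] (nat_lit 0) [] false,
   Spec.mk (nat_lit 13142) (nat_lit 0) [] (nat_lit 0) [] false,
   Spec.mk (nat_lit 13144) (nat_lit 0) [] (nat_lit 0) [] false,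
   Spec.mk (nat_lit 13146) (nat_lit 0) [] (nat_lit 0) [] false,
   Spec.mk (nat_lit 13154) (nat_lit 0) [] (nat_lit 0) [] false,
   Spec.mk (nat_lit 13156) (nat_lit 0) [] (nat_lit 0) [] false,
   Spec.mk (nat_lit 13160) (nat_lit 0) [] (nat_lit 0) [] false,
   Spec.mk (nat_lit 13162) (nat_lit 0) [] (nat_lit 0) [] false,
   Spec.mk (nat_lit 13164) (nat_lit 0) [] (nat_lit 0) [] false,
   Spec.mk (nat_lit 13168) (nat_lit 0) [] (nat_lit 0) [] false,
   Spec.mk (nat_lit 13170) (nat_lit 0) [] (nat_lit 0) [] false,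
   Spec.mk (nat_lit 13178) (nat_lit 0) [] (nat_lit 0) [] false,
   Spec.mk (nat_lit 13180) (nat_lit 0) [] (nat_lit 0) [] false,
   Spec.mk (nat_lit 13182) (nat_lit 0) [] (nat_lit 0) [] false,
   Spec.mk (nat_lit 13186) (nat_lit 0) [] (nat_lit 0) [] false,
   Spec.mk (nat_lit 13188) (nat_lit 0) [] (nat_lit 0) [] false,
   Spec.mk (nat_lit 13194) (nat_lit 0) [] (nat_lit 0) [] false,
   Spec.mk (nat_lit 13208) (nat_lit 0) [] (nat_lit 0) [] false,
   Spec.mk (nat_lit 13210) (nat_lit 0) [] (nat_lit 0) [] false,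
   Spec.mk (nat_lit 13214) (nat_lit 0) [] (nat_lit 0) [] false,
   Spec.mk (nat_lit 13216) (nat_lit 0) [] (nat_lit 0) [] false,
   Spec.mk (nat_lit 13218) (nat_lit 0) [] (nat_lit 0) [] false,
   Spec.mk (nat_lit 13222) (nat_lit 0) [] (nat_lit 0) [] false,
   Spec.mk (nat_lit 13224) (nat_lit 0) [] (nat_lit 0) [] false,
   Spec.mk (nat_lit 13232) (nat_lit 0) [] (nat_lit 0) [] false,
   Spec.mk (nat_lit 13234) (nat_lit 0) [] (nat_lit 0) [] false,
   Spec.mk (nat_lit 13236) (nat_lit 0) [] (nat_lit 0) [] false,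
   Spec.mk (nat_lit 13240) (nat_lit 0) [] (nat_lit 0) [] false,
   Spec.mk (nat_lit 13242) (nat_lit 0) [] (nat_lit 0) [] false,
   Spec.mk (nat_lit 13248) (nat_lit 0) [] (nat_lit 0) [] false]

noncomputable def cd22 : List Spec :=
  [Spec.mk (nat_lit 13258) (nat_lit 0) [] (nat_lit 0) [] false,
   Spec.mk (nat_lit 13260) (nat_lit 0) [] (nat_lit 0) [] false,
   Spec.mk (nat_lit 13266) (nat_lit 0) [] (nat_lit 0) [] false,
   Spec.mk (nat_lit 13286) (nat_lit 0) [] (nat_lit 0) [] false,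
   Spec.mk (nat_lit 13288) (nat_lit 0) [] (nat_lit 0) [] false,
   Spec.mk (nat_lit 13290) (nat_lit 0) [] (nat_lit 0) [] false,
   Spec.mk (nat_lit 13294) (nat_lit 0) [] (nat_lit 0) [] false,
   Spec.mk (nat_lit 13296) (nat_lit 0) [] (nat_lit 0) [] false,
   Spec.mk (nat_lit 13302) (nat_lit 0) [] (nat_lit 0) [] false,
   Spec.mk (nat_lit 13312) (nat_lit 0) [] (nat_lit 0) [] false,
   Spec.mk (nat_lit 13314) (nat_lit 0) [] (nat_lit 0) [] false,
   Spec.mk (nat_lit 13320) (nat_lit 0) [] (nat_lit 0) [] false,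
   Spec.mk (nat_lit 13338) (nat_lit 0) [] (nat_lit 0) [] false,
   Spec.mk (nat_lit 13370) (nat_lit 0) [] (nat_lit 0) [] false,
   Spec.mk (nat_lit 13372) (nat_lit 0) [] (nat_lit 0) [] false,
   Spec.mk (nat_lit 13376) (nat_lit 0) [] (nat_lit 0) [] false,
   Spec.mk (nat_lit 13378) (nat_lit 0) [] (nat_lit 0) [] false,
   Spec.mk (nat_lit 13380) (nat_lit 0) [] (nat_lit 0) [] false,
   Spec.mk (nat_lit 13384) (nat_lit 0) [] (nat_lit 0) [] false,
   Spec.mk (nat_lit 13386) (nat_lit 0) [] (nat_lit 0) [] false,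
   Spec.mk (nat_lit 13394) (nat_lit 0) [] (nat_lit 0) [] false,
   Spec.mk (nat_lit 13396) (nat_lit 0) [] (nat_lit 0) [] false,
   Spec.mk (nat_lit 13398) (nat_lit 0) [] (nat_lit 0) [] false,
   Spec.mk (nat_lit 13402) (nat_lit 0) [] (nat_lit 0) [] false,
   Spec.mk (nat_lit 13404) (nat_lit 0) [] (nat_lit 0) [] false,
   Spec.mk (nat_lit 13410) (nat_lit 0) [] (nat_lit 0) [] false,
   Spec.mk (nat_lit 13420) (nat_lit 0) [] (nat_lit 0) [] false,
   Spec.mk (nat_lit 13422) (nat_lit 0) [] (nat_lit 0) [] false,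
   Spec.mk (nat_lit 13428) (nat_lit 0) [] (nat_lit 0) [] false,
   Spec.mk (nat_lit 13448) (nat_lit 0) [] (nat_lit 0) [] false,
   Spec.mk (nat_lit 13450) (nat_lit 0) [] (nat_lit 0) [] false,
   Spec.mk (nat_lit 13452) (nat_lit 0) [] (nat_lit 0) [] false,
   Spec.mk (nat_lit 13456) (nat_lit 0) [] (nat_lit 0) [] false,
   Spec.mk (nat_lit 13458) (nat_lit 0) [] (nat_lit 0) [] false,
   Spec.mk (nat_lit 13464) (nat_lit 0) [] (nat_lit 0) [] false,
   Spec.mk (nat_lit 13474) (nat_lit 0) [] (nat_lit 0) [] false,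
   Spec.mk (nat_lit 13476) (nat_lit 0) [] (nat_lit 0) [] false,
   Spec.mk (nat_lit 13482) (nat_lit 0) [] (nat_lit 0) [] false,
   Spec.mk (nat_lit 13500) (nat_lit 0) [] (nat_lit 0) [] false,
   Spec.mk (nat_lit 13528) (nat_lit 0) [] (nat_lit 0) [] false,
   Spec.mk (nat_lit 13530) (nat_lit 0) [] (nat_lit 0) [] false,
   Spec.mk (nat_lit 13536) (nat_lit 0) [] (nat_lit 0) [] false,
   Spec.mk (nat_lit 13554) (nat_lit 0) [] (nat_lit 0) [] false,
   Spec.mk (nat_lit 13610) (nat_lit 0) [] (nat_lit 0) [] false,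
   Spec.mk (nat_lit 13612) (nat_lit 0) [] (nat_lit 0) [] false,
   Spec.mk (nat_lit 13614) (nat_lit 0) [] (nat_lit 0) [] false,
   Spec.mk (nat_lit 13618) (nat_lit 0) [] (nat_lit 0) [] false,
   Spec.mk (nat_lit 13620) (nat_lit 0) [] (nat_lit 0) [] false,
   Spec.mk (nat_lit 13626) (nat_lit 0) [] (nat_lit 0) [] false,
   Spec.mk (nat_lit 13636) (nat_lit 0) [] (nat_lit 0) [] false,
   Spec.mk (nat_lit 13638) (nat_lit 0) [] (nat_lit 0) [] false,
   Spec.mk (nat_lit 13644) (nat_lit 0) [] (nat_lit 0) [] false,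
   Spec.mk (nat_lit 13662) (nat_lit 0) [] (nat_lit 0) [] false,
   Spec.mk (nat_lit 13690) (nat_lit 0) [] (nat_lit 0) [] false,
   Spec.mk (nat_lit 13692) (nat_lit 0) [] (nat_lit 0) [] false,
   Spec.mk (nat_lit 13698) (nat_lit 0) [] (nat_lit 0) [] false,
   Spec.mk (nat_lit 13716) (nat_lit 0) [] (nat_lit 0) [] false,
   Spec.mk (nat_lit 13770) (nat_lit 0) [] (nat_lit 0) [] false,
   Spec.mk (nat_lit 13856) (nat_lit 0) [] (nat_lit 0) [] false,
   Spec.mk (nat_lit 13858) (nat_lit 0) [] (nat_lit 0) [] false]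

noncomputable def cd23 : List Spec :=
  [Spec.mk (nat_lit 13862) (nat_lit 0) [] (nat_lit 0) [] false,
   Spec.mk (nat_lit 13864) (nat_lit 0) [] (nat_lit 0) [] false,
   Spec.mk (nat_lit 13866) (nat_lit 0) [] (nat_lit 0) [] false,
   Spec.mk (nat_lit 13870) (nat_lit 0) [] (nat_lit 0) [] false,
   Spec.mk (nat_lit 13872) (nat_lit 0) [] (nat_lit 0) [] false,
   Spec.mk (nat_lit 13880) (nat_lit 0) [] (nat_lit 0) [] false,
   Spec.mk (nat_lit 13882) (nat_lit 0) [] (nat_lit 0) [] false,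
   Spec.mk (nat_lit 13884) (nat_lit 0) [] (nat_lit 0) [] false,
   Spec.mk (nat_lit 13888) (nat_lit 0) [] (nat_lit 0) [] false,
   Spec.mk (nat_lit 13890) (nat_lit 0) [] (nat_lit 0) [] false,
   Spec.mk (nat_lit 13896) (nat_lit 0) [] (nat_lit 0) [] false,
   Spec.mk (nat_lit 13906) (nat_lit 0) [] (nat_lit 0) [] false,
   Spec.mk (nat_lit 13908) (nat_lit 0) [] (nat_lit 0) [] false,
   Spec.mk (nat_lit 13914) (nat_lit 0) [] (nat_lit 0) [] false,
   Spec.mk (nat_lit 13934) (nat_lit 0) [] (nat_lit 0) [] false,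
   Spec.mk (nat_lit 13936) (nat_lit 0) [] (nat_lit 0) [] false,
   Spec.mk (nat_lit 13938) (nat_lit 0) [] (nat_lit 0) [] false,
   Spec.mk (nat_lit 13942) (nat_lit 0) [] (nat_lit 0) [] false,
   Spec.mk (nat_lit 13944) (nat_lit 0) [] (nat_lit 0) [] false,
   Spec.mk (nat_lit 13950) (nat_lit 0) [] (nat_lit 0) [] false,
   Spec.mk (nat_lit 13960) (nat_lit 0) [] (nat_lit 0) [] false,
   Spec.mk (nat_lit 13962) (nat_lit 0) [] (nat_lit 0) [] false,
   Spec.mk (nat_lit 13968) (nat_lit 0) [] (nat_lit 0) [] false,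
   Spec.mk (nat_lit 13986) (nat_lit 0) [] (nat_lit 0) [] false,
   Spec.mk (nat_lit 14014) (nat_lit 0) [] (nat_lit 0) [] false,
   Spec.mk (nat_lit 14016) (nat_lit 0) [] (nat_lit 0) [] false,
   Spec.mk (nat_lit 14022) (nat_lit 0) [] (nat_lit 0) [] false,
   Spec.mk (nat_lit 14040) (nat_lit 0) [] (nat_lit 0) [] false,
   Spec.mk (nat_lit 14096) (nat_lit 0) [] (nat_lit 0) [] false,
   Spec.mk (nat_lit 14098) (nat_lit 0) [] (nat_lit 0) [] false,
   Spec.mk (nat_lit 14100) (nat_lit 0) [] (nat_lit 0) [] false,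
   Spec.mk (nat_lit 14104) (nat_lit 0) [] (nat_lit 0) [] false,
   Spec.mk (nat_lit 14106) (nat_lit 0) [] (nat_lit 0) [] false,
   Spec.mk (nat_lit 14112) (nat_lit 0) [] (nat_lit 0) [] false,
   Spec.mk (nat_lit 14122) (nat_lit 0) [] (nat_lit 0) [] false,
   Spec.mk (nat_lit 14124) (nat_lit 0) [] (nat_lit 0) [] false,
   Spec.mk (nat_lit 14130) (nat_lit 0) [] (nat_lit 0) [] false,
   Spec.mk (nat_lit 14148) (nat_lit 0) [] (nat_lit 0) [] false,
   Spec.mk (nat_lit 14176) (nat_lit 0) [] (nat_lit 0) [] false,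
   Spec.mk (nat_lit 14178) (nat_lit 0) [] (nat_lit 0) [] false,
   Spec.mk (nat_lit 14184) (nat_lit 0) [] (nat_lit 0) [] false,
   Spec.mk (nat_lit 14202) (nat_lit 0) [] (nat_lit 0) [] false,
   Spec.mk (nat_lit 14256) (nat_lit 0) [] (nat_lit 0) [] false,
   Spec.mk (nat_lit 14338) (nat_lit 0) [] (nat_lit 0) [] false,
   Spec.mk (nat_lit 14340) (nat_lit 0) [] (nat_lit 0) [] false,
   Spec.mk (nat_lit 14346) (nat_lit 0) [] (nat_lit 0) [] false,
   Spec.mk (nat_lit 14364) (nat_lit 0) [] (nat_lit 0) [] false,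
   Spec.mk (nat_lit 14418) (nat_lit 0) [] (nat_lit 0) [] false,
   Spec.mk (nat_lit 14582) (nat_lit 0) [] (nat_lit 0) [] false,
   Spec.mk (nat_lit 14584) (nat_lit 0) [] (nat_lit 0) [] false,
   Spec.mk (nat_lit 14586) (nat_lit 0) [] (nat_lit 0) [] false,
   Spec.mk (nat_lit 14590) (nat_lit 0) [] (nat_lit 0) [] false,
   Spec.mk (nat_lit 14592) (nat_lit 0) [] (nat_lit 0) [] false,
   Spec.mk (nat_lit 14598) (nat_lit 0) [] (nat_lit 0) [] false,
   Spec.mk (nat_lit 14608) (nat_lit 0) [] (nat_lit 0) [] false,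
   Spec.mk (nat_lit 14610) (nat_lit 0) [] (nat_lit 0) [] false,
   Spec.mk (nat_lit 14616) (nat_lit 0) [] (nat_lit 0) [] false,
   Spec.mk (nat_lit 14634) (nat_lit 0) [] (nat_lit 0) [] false,
   Spec.mk (nat_lit 14662) (nat_lit 0) [] (nat_lit 0) [] false,
   Spec.mk (nat_lit 14664) (nat_lit 0) [] (nat_lit 0) [] false]

noncomputable def cd24 : List Spec :=
  [Spec.mk (nat_lit 14670) (nat_lit 0) [] (nat_lit 0) [] false,
   Spec.mk (nat_lit 14688) (nat_lit 0) [] (nat_lit 0) [] false,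
   Spec.mk (nat_lit 14742) (nat_lit 0) [] (nat_lit 0) [] false,
   Spec.mk (nat_lit 14824) (nat_lit 0) [] (nat_lit 0) [] false,
   Spec.mk (nat_lit 14826) (nat_lit 0) [] (nat_lit 0) [] false,
   Spec.mk (nat_lit 14832) (nat_lit 0) [] (nat_lit 0) [] false,
   Spec.mk (nat_lit 14850) (nat_lit 0) [] (nat_lit 0) [] false,
   Spec.mk (nat_lit 14904) (nat_lit 0) [] (nat_lit 0) [] false,
   Spec.mk (nat_lit 15066) (nat_lit 0) [] (nat_lit 0) [] false,
   Spec.mk (nat_lit 15314) (nat_lit 0) [] (nat_lit 0) [] false,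
   Spec.mk (nat_lit 15316) (nat_lit 0) [] (nat_lit 0) [] false,
   Spec.mk (nat_lit 15320) (nat_lit 0) [] (nat_lit 0) [] false,
   Spec.mk (nat_lit 15322) (nat_lit 0) [] (nat_lit 0) [] false,
   Spec.mk (nat_lit 15324) (nat_lit 0) [] (nat_lit 0) [] false,
   Spec.mk (nat_lit 15328) (nat_lit 0) [] (nat_lit 0) [] false,
   Spec.mk (nat_lit 15330) (nat_lit 0) [] (nat_lit 0) [] false,
   Spec.mk (nat_lit 15338) (nat_lit 0) [] (nat_lit 0) [] false,
   Spec.mk (nat_lit 15340) (nat_lit 0) [] (nat_lit 0) [] false,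
   Spec.mk (nat_lit 15342) (nat_lit 0) [] (nat_lit 0) [] false,
   Spec.mk (nat_lit 15346) (nat_lit 0) [] (nat_lit 0) [] false,
   Spec.mk (nat_lit 15348) (nat_lit 0) [] (nat_lit 0) [] false,
   Spec.mk (nat_lit 15354) (nat_lit 0) [] (nat_lit 0) [] false,
   Spec.mk (nat_lit 15364) (nat_lit 0) [] (nat_lit 0) [] false,
   Spec.mk (nat_lit 15366) (nat_lit 0) [] (nat_lit 0) [] false,
   Spec.mk (nat_lit 15372) (nat_lit 0) [] (nat_lit 0) [] false,
   Spec.mk (nat_lit 15392) (nat_lit 0) [] (nat_lit 0) [] false,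
   Spec.mk (nat_lit 15394) (nat_lit 0) [] (nat_lit 0) [] false,
   Spec.mk (nat_lit 15396) (nat_lit 0) [] (nat_lit 0) [] false,
   Spec.mk (nat_lit 15400) (nat_lit 0) [] (nat_lit 0) [] false,
   Spec.mk (nat_lit 15402) (nat_lit 0) [] (nat_lit 0) [] false,
   Spec.mk (nat_lit 15408) (nat_lit 0) [] (nat_lit 0) [] false,
   Spec.mk (nat_lit 15418) (nat_lit 0) [] (nat_lit 0) [] false,
   Spec.mk (nat_lit 15420) (nat_lit 0) [] (nat_lit 0) [] false,
   Spec.mk (nat_lit 15426) (nat_lit 0) [] (nat_lit 0) [] false,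
   Spec.mk (nat_lit 15444) (nat_lit 0) [] (nat_lit 0) [] false,
   Spec.mk (nat_lit 15472) (nat_lit 0) [] (nat_lit 0) [] false,
   Spec.mk (nat_lit 15474) (nat_lit 0) [] (nat_lit 0) [] false,
   Spec.mk (nat_lit 15480) (nat_lit 0) [] (nat_lit 0) [] false,
   Spec.mk (nat_lit 15498) (nat_lit 0) [] (nat_lit 0) [] false,
   Spec.mk (nat_lit 15554) (nat_lit 0) [] (nat_lit 0) [] false,
   Spec.mk (nat_lit 15556) (nat_lit 0) [] (nat_lit 0) [] false,
   Spec.mk (nat_lit 15558) (nat_lit 0) [] (nat_lit 0) [] false,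
   Spec.mk (nat_lit 15562) (nat_lit 0) [] (nat_lit 0) [] false,
   Spec.mk (nat_lit 15564) (nat_lit 0) [] (nat_lit 0) [] false,
   Spec.mk (nat_lit 15570) (nat_lit 0) [] (nat_lit 0) [] false,
   Spec.mk (nat_lit 15580) (nat_lit 0) [] (nat_lit 0) [] false,
   Spec.mk (nat_lit 15582) (nat_lit 0) [] (nat_lit 0) [] false,
   Spec.mk (nat_lit 15588) (nat_lit 0) [] (nat_lit 0) [] false,
   Spec.mk (nat_lit 15606) (nat_lit 0) [] (nat_lit 0) [] false,
   Spec.mk (nat_lit 15634) (nat_lit 0) [] (nat_lit 0) [] false,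
   Spec.mk (nat_lit 15636) (nat_lit 0) [] (nat_lit 0) [] false,
   Spec.mk (nat_lit 15642) (nat_lit 0) [] (nat_lit 0) [] false,
   Spec.mk (nat_lit 15660) (nat_lit 0) [] (nat_lit 0) [] false,
   Spec.mk (nat_lit 15714) (nat_lit 0) [] (nat_lit 0) [] false,
   Spec.mk (nat_lit 15796) (nat_lit 0) [] (nat_lit 0) [] false,
   Spec.mk (nat_lit 15798) (nat_lit 0) [] (nat_lit 0) [] false,
   Spec.mk (nat_lit 15804) (nat_lit 0) [] (nat_lit 0) [] false,
   Spec.mk (nat_lit 15822) (nat_lit 0) [] (nat_lit 0) [] false,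
   Spec.mk (nat_lit 15876) (nat_lit 0) [] (nat_lit 0) [] false,
   Spec.mk (nat_lit 16040) (nat_lit 0) [] (nat_lit 0) [] false]

noncomputable def cd25 : List Spec :=
  [Spec.mk (nat_lit 16042) (nat_lit 0) [] (nat_lit 0) [] false,
   Spec.mk (nat_lit 16044) (nat_lit 0) [] (nat_lit 0) [] false,
   Spec.mk (nat_lit 16048) (nat_lit 0) [] (nat_lit 0) [] false,
   Spec.mk (nat_lit 16050) (nat_lit 0) [] (nat_lit 0) [] false,
   Spec.mk (nat_lit 16056) (nat_lit 0) [] (nat_lit 0) [] false,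
   Spec.mk (nat_lit 16066) (nat_lit 0) [] (nat_lit 0) [] false,
   Spec.mk (nat_lit 16068) (nat_lit 0) [] (nat_lit 0) [] false,
   Spec.mk (nat_lit 16074) (nat_lit 0) [] (nat_lit 0) [] false,
   Spec.mk (nat_lit 16092) (nat_lit 0) [] (nat_lit 0) [] false,
   Spec.mk (nat_lit 16120) (nat_lit 0) [] (nat_lit 0) [] false,
   Spec.mk (nat_lit 16122) (nat_lit 0) [] (nat_lit 0) [] false,
   Spec.mk (nat_lit 16128) (nat_lit 0) [] (nat_lit 0) [] false,
   Spec.mk (nat_lit 16146) (nat_lit 0) [] (nat_lit 0) [] false,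
   Spec.mk (nat_lit 16200) (nat_lit 0) [] (nat_lit 0) [] false,
   Spec.mk (nat_lit 16282) (nat_lit 0) [] (nat_lit 0) [] false,
   Spec.mk (nat_lit 16284) (nat_lit 0) [] (nat_lit 0) [] false,
   Spec.mk (nat_lit 16290) (nat_lit 0) [] (nat_lit 0) [] false,
   Spec.mk (nat_lit 16308) (nat_lit 0) [] (nat_lit 0) [] false,
   Spec.mk (nat_lit 16362) (nat_lit 0) [] (nat_lit 0) [] false,
   Spec.mk (nat_lit 16524) (nat_lit 0) [] (nat_lit 0) [] false,
   Spec.mk (nat_lit 16768) (nat_lit 0) [] (nat_lit 0) [] false,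
   Spec.mk (nat_lit 16770) (nat_lit 0) [] (nat_lit 0) [] false,
   Spec.mk (nat_lit 16776) (nat_lit 0) [] (nat_lit 0) [] false,
   Spec.mk (nat_lit 16794) (nat_lit 0) [] (nat_lit 0) [] false,
   Spec.mk (nat_lit 16848) (nat_lit 0) [] (nat_lit 0) [] false,
   Spec.mk (nat_lit 17010) (nat_lit 0) [] (nat_lit 0) [] false,
   Spec.mk (nat_lit 17498) (nat_lit 0) [] (nat_lit 0) [] false,
   Spec.mk (nat_lit 17500) (nat_lit 0) [] (nat_lit 0) [] false,
   Spec.mk (nat_lit 17502) (nat_lit 0) [] (nat_lit 0) [] false,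
   Spec.mk (nat_lit 17506) (nat_lit 0) [] (nat_lit 0) [] false,
   Spec.mk (nat_lit 17508) (nat_lit 0) [] (nat_lit 0) [] false,
   Spec.mk (nat_lit 17514) (nat_lit 0) [] (nat_lit 0) [] false,
   Spec.mk (nat_lit 17524) (nat_lit 0) [] (nat_lit 0) [] false,
   Spec.mk (nat_lit 17526) (nat_lit 0) [] (nat_lit 0) [] false,
   Spec.mk (nat_lit 17532) (nat_lit 0) [] (nat_lit 0) [] false,
   Spec.mk (nat_lit 17550) (nat_lit 0) [] (nat_lit 0) [] false,
   Spec.mk (nat_lit 17578) (nat_lit 0) [] (nat_lit 0) [] false,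
   Spec.mk (nat_lit 17580) (nat_lit 0) [] (nat_lit 0) [] false,
   Spec.mk (nat_lit 17586) (nat_lit 0) [] (nat_lit 0) [] false,
   Spec.mk (nat_lit 17604) (nat_lit 0) [] (nat_lit 0) [] false,
   Spec.mk (nat_lit 17658) (nat_lit 0) [] (nat_lit 0) [] false,
   Spec.mk (nat_lit 17740) (nat_lit 0) [] (nat_lit 0) [] false,
   Spec.mk (nat_lit 17742) (nat_lit 0) [] (nat_lit 0) [] false,
   Spec.mk (nat_lit 17748) (nat_lit 0) [] (nat_lit 0) [] false,
   Spec.mk (nat_lit 17766) (nat_lit 0) [] (nat_lit 0) [] false,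
   Spec.mk (nat_lit 17820) (nat_lit 0) [] (nat_lit 0) [] false,
   Spec.mk (nat_lit 17982) (nat_lit 0) [] (nat_lit 0) [] false,
   Spec.mk (nat_lit 18226) (nat_lit 0) [] (nat_lit 0) [] false,
   Spec.mk (nat_lit 18228) (nat_lit 0) [] (nat_lit 0) [] false,
   Spec.mk (nat_lit 18234) (nat_lit 0) [] (nat_lit 0) [] false,
   Spec.mk (nat_lit 18252) (nat_lit 0) [] (nat_lit 0) [] false,
   Spec.mk (nat_lit 18306) (nat_lit 0) [] (nat_lit 0) [] false,
   Spec.mk (nat_lit 18468) (nat_lit 0) [] (nat_lit 0) [] false,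
   Spec.mk (nat_lit 18954) (nat_lit 0) [] (nat_lit 0) [] false,
   Spec.mk (nat_lit 19700) (nat_lit 0) [] (nat_lit 0) [] false,
   Spec.mk (nat_lit 19706) (nat_lit 0) [] (nat_lit 0) [] false,
   Spec.mk (nat_lit 19708) (nat_lit 0) [] (nat_lit 0) [] false,
   Spec.mk (nat_lit 19718) (nat_lit 0) [] (nat_lit 0) [] false,
   Spec.mk (nat_lit 19724) (nat_lit 0) [] (nat_lit 0) [] false,
   Spec.mk (nat_lit 19726) (nat_lit 0) [] (nat_lit 0) [] false]

noncomputable def cd26 : List Spec :=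
  [Spec.mk (nat_lit 19730) (nat_lit 0) [] (nat_lit 0) [] false,
   Spec.mk (nat_lit 19732) (nat_lit 0) [] (nat_lit 0) [] false,
   Spec.mk (nat_lit 19734) (nat_lit 0) [] (nat_lit 0) [] false,
   Spec.mk (nat_lit 19742) (nat_lit 0) [] (nat_lit 0) [] false,
   Spec.mk (nat_lit 19744) (nat_lit 0) [] (nat_lit 0) [] false,
   Spec.mk (nat_lit 19748) (nat_lit 0) [] (nat_lit 0) [] false,
   Spec.mk (nat_lit 19750) (nat_lit 0) [] (nat_lit 0) [] false,
   Spec.mk (nat_lit 19752) (nat_lit 0) [] (nat_lit 0) [] false,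
   Spec.mk (nat_lit 19756) (nat_lit 0) [] (nat_lit 0) [] false,
   Spec.mk (nat_lit 19758) (nat_lit 0) [] (nat_lit 0) [] false,
   Spec.mk (nat_lit 19772) (nat_lit 0) [] (nat_lit 0) [] false,
   Spec.mk (nat_lit 19778) (nat_lit 0) [] (nat_lit 0) [] false,
   Spec.mk (nat_lit 19780) (nat_lit 0) [] (nat_lit 0) [] false,
   Spec.mk (nat_lit 19784) (nat_lit 0) [] (nat_lit 0) [] false,
   Spec.mk (nat_lit 19786) (nat_lit 0) [] (nat_lit 0) [] false,
   Spec.mk (nat_lit 19788) (nat_lit 0) [] (nat_lit 0) [] false,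
   Spec.mk (nat_lit 19796) (nat_lit 0) [] (nat_lit 0) [] false,
   Spec.mk (nat_lit 19798) (nat_lit 0) [] (nat_lit 0) [] false,
   Spec.mk (nat_lit 19802) (nat_lit 0) [] (nat_lit 0) [] false,
   Spec.mk (nat_lit 19804) (nat_lit 0) [] (nat_lit 0) [] false,
   Spec.mk (nat_lit 19806) (nat_lit 0) [] (nat_lit 0) [] false,
   Spec.mk (nat_lit 19810) (nat_lit 0) [] (nat_lit 0) [] false,
   Spec.mk (nat_lit 19812) (nat_lit 0) [] (nat_lit 0) [] false,
   Spec.mk (nat_lit 19820) (nat_lit 0) [] (nat_lit 0) [] false,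
   Spec.mk (nat_lit 19822) (nat_lit 0) [] (nat_lit 0) [] false,
   Spec.mk (nat_lit 19824) (nat_lit 0) [] (nat_lit 0) [] false,
   Spec.mk (nat_lit 19828) (nat_lit 0) [] (nat_lit 0) [] false,
   Spec.mk (nat_lit 19830) (nat_lit 0) [] (nat_lit 0) [] false,
   Spec.mk (nat_lit 19836) (nat_lit 0) [] (nat_lit 0) [] false,
   Spec.mk (nat_lit 19850) (nat_lit 0) [] (nat_lit 0) [] false,
   Spec.mk (nat_lit 19852) (nat_lit 0) [] (nat_lit 0) [] false,
   Spec.mk (nat_lit 19856) (nat_lit 0) [] (nat_lit 0) [] false,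
   Spec.mk (nat_lit 19858) (nat_lit 0) [] (nat_lit 0) [] false,
   Spec.mk (nat_lit 19860) (nat_lit 0) [] (nat_lit 0) [] false,
   Spec.mk (nat_lit 19864) (nat_lit 0) [] (nat_lit 0) [] false,
   Spec.mk (nat_lit 19866) (nat_lit 0) [] (nat_lit 0) [] false,
   Spec.mk (nat_lit 19874) (nat_lit 0) [] (nat_lit 0) [] false,
   Spec.mk (nat_lit 19876) (nat_lit 0) [] (nat_lit 0) [] false,
   Spec.mk (nat_lit 19878) (nat_lit 0) [] (nat_lit 0) [] false,
   Spec.mk (nat_lit 19882) (nat_lit 0) [] (nat_lit 0) [] false,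
   Spec.mk (nat_lit 19884) (nat_lit 0) [] (nat_lit 0) [] false,
   Spec.mk (nat_lit 19890) (nat_lit 0) [] (nat_lit 0) [] false,
   Spec.mk (nat_lit 19900) (nat_lit 0) [] (nat_lit 0) [] false,
   Spec.mk (nat_lit 19902) (nat_lit 0) [] (nat_lit 0) [] false,
   Spec.mk (nat_lit 19908) (nat_lit 0) [] (nat_lit 0) [] false,
   Spec.mk (nat_lit 19934) (nat_lit 0) [] (nat_lit 0) [] false,
   Spec.mk (nat_lit 19940) (nat_lit 0) [] (nat_lit 0) [] false,
   Spec.mk (nat_lit 19942) (nat_lit 0) [] (nat_lit 0) [] false,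
   Spec.mk (nat_lit 19946) (nat_lit 0) [] (nat_lit 0) [] false,
   Spec.mk (nat_lit 19948) (nat_lit 0) [] (nat_lit 0) [] false,
   Spec.mk (nat_lit 19950) (nat_lit 0) [] (nat_lit 0) [] false,
   Spec.mk (nat_lit 19958) (nat_lit 0) [] (nat_lit 0) [] false,
   Spec.mk (nat_lit 19960) (nat_lit 0) [] (nat_lit 0) [] false,
   Spec.mk (nat_lit 19964) (nat_lit 0) [] (nat_lit 0) [] false,
   Spec.mk (nat_lit 19966) (nat_lit 0) [] (nat_lit 0) [] false,
   Spec.mk (nat_lit 19968) (nat_lit 0) [] (nat_lit 0) [] false,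
   Spec.mk (nat_lit 19972) (nat_lit 0) [] (nat_lit 0) [] false,
   Spec.mk (nat_lit 19974) (nat_lit 0) [] (nat_lit 0) [] false,
   Spec.mk (nat_lit 19982) (nat_lit 0) [] (nat_lit 0) [] false,
   Spec.mk (nat_lit 19984) (nat_lit 0) [] (nat_lit 0) [] false]

noncomputable def cd27 : List Spec :=
  [Spec.mk (nat_lit 19986) (nat_lit 0) [] (nat_lit 0) [] false,
   Spec.mk (nat_lit 19990) (nat_lit 0) [] (nat_lit 0) [] false,
   Spec.mk (nat_lit 19992) (nat_lit 0) [] (nat_lit 0) [] false,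
   Spec.mk (nat_lit 19998) (nat_lit 0) [] (nat_lit 0) [] false,
   Spec.mk (nat_lit 20012) (nat_lit 0) [] (nat_lit 0) [] false,
   Spec.mk (nat_lit 20014) (nat_lit 0) [] (nat_lit 0) [] false,
   Spec.mk (nat_lit 20018) (nat_lit 0) [] (nat_lit 0) [] false,
   Spec.mk (nat_lit 20020) (nat_lit 0) [] (nat_lit 0) [] false,
   Spec.mk (nat_lit 20022) (nat_lit 0) [] (nat_lit 0) [] false,
   Spec.mk (nat_lit 20026) (nat_lit 0) [] (nat_lit 0) [] false,
   Spec.mk (nat_lit 20028) (nat_lit 0) [] (nat_lit 0) [] false,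
   Spec.mk (nat_lit 20036) (nat_lit 0) [] (nat_lit 0) [] false,
   Spec.mk (nat_lit 20038) (nat_lit 0) [] (nat_lit 0) [] false,
   Spec.mk (nat_lit 20040) (nat_lit 0) [] (nat_lit 0) [] false,
   Spec.mk (nat_lit 20044) (nat_lit 0) [] (nat_lit 0) [] false,
   Spec.mk (nat_lit 20046) (nat_lit 0) [] (nat_lit 0) [] false,
   Spec.mk (nat_lit 20052) (nat_lit 0) [] (nat_lit 0) [] false,
   Spec.mk (nat_lit 20062) (nat_lit 0) [] (nat_lit 0) [] false,
   Spec.mk (nat_lit 20064) (nat_lit 0) [] (nat_lit 0) [] false,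
   Spec.mk (nat_lit 20070) (nat_lit 0) [] (nat_lit 0) [] false,
   Spec.mk (nat_lit 20090) (nat_lit 0) [] (nat_lit 0) [] false,
   Spec.mk (nat_lit 20092) (nat_lit 0) [] (nat_lit 0) [] false,
   Spec.mk (nat_lit 20094) (nat_lit 0) [] (nat_lit 0) [] false,
   Spec.mk (nat_lit 20098) (nat_lit 0) [] (nat_lit 0) [] false,
   Spec.mk (nat_lit 20100) (nat_lit 0) [] (nat_lit 0) [] false,
   Spec.mk (nat_lit 20106) (nat_lit 0) [] (nat_lit 0) [] false,
   Spec.mk (nat_lit 20116) (nat_lit 0) [] (nat_lit 0) [] false,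
   Spec.mk (nat_lit 20118) (nat_lit 0) [] (nat_lit 0) [] false,
   Spec.mk (nat_lit 20124) (nat_lit 0) [] (nat_lit 0) [] false,
   Spec.mk (nat_lit 20142) (nat_lit 0) [] (nat_lit 0) [] false,
   Spec.mk (nat_lit 20174) (nat_lit 0) [] (nat_lit 0) [] false,
   Spec.mk (nat_lit 20176) (nat_lit 0) [] (nat_lit 0) [] false,
   Spec.mk (nat_lit 20180) (nat_lit 0) [] (nat_lit 0) [] false,
   Spec.mk (nat_lit 20182) (nat_lit 0) [] (nat_lit 0) [] false,
   Spec.mk (nat_lit 20184) (nat_lit 0) [] (nat_lit 0) [] false,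
   Spec.mk (nat_lit 20188) (nat_lit 0) [] (nat_lit 0) [] false,
   Spec.mk (nat_lit 20190) (nat_lit 0) [] (nat_lit 0) [] false,
   Spec.mk (nat_lit 20198) (nat_lit 0) [] (nat_lit 0) [] false,
   Spec.mk (nat_lit 20200) (nat_lit 0) [] (nat_lit 0) [] false,
   Spec.mk (nat_lit 20202) (nat_lit 0) [] (nat_lit 0) [] false,
   Spec.mk (nat_lit 20206) (nat_lit 0) [] (nat_lit 0) [] false,
   Spec.mk (nat_lit 20208) (nat_lit 0) [] (nat_lit 0) [] false,
   Spec.mk (nat_lit 20214) (nat_lit 0) [] (nat_lit 0) [] false,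
   Spec.mk (nat_lit 20224) (nat_lit 0) [] (nat_lit 0) [] false,
   Spec.mk (nat_lit 20226) (nat_lit 0) [] (nat_lit 0) [] false,
   Spec.mk (nat_lit 20232) (nat_lit 0) [] (nat_lit 0) [] false,
   Spec.mk (nat_lit 20252) (nat_lit 0) [] (nat_lit 0) [] false,
   Spec.mk (nat_lit 20254) (nat_lit 0) [] (nat_lit 0) [] false,
   Spec.mk (nat_lit 20256) (nat_lit 0) [] (nat_lit 0) [] false,
   Spec.mk (nat_lit 20260) (nat_lit 0) [] (nat_lit 0) [] false,
   Spec.mk (nat_lit 20262) (nat_lit 0) [] (nat_lit 0) [] false,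
   Spec.mk (nat_lit 20268) (nat_lit 0) [] (nat_lit 0) [] false,
   Spec.mk (nat_lit 20278) (nat_lit 0) [] (nat_lit 0) [] false,
   Spec.mk (nat_lit 20280) (nat_lit 0) [] (nat_lit 0) [] false,
   Spec.mk (nat_lit 20286) (nat_lit 0) [] (nat_lit 0) [] false,
   Spec.mk (nat_lit 20304) (nat_lit 0) [] (nat_lit 0) [] false,
   Spec.mk (nat_lit 20332) (nat_lit 0) [] (nat_lit 0) [] false,
   Spec.mk (nat_lit 20334) (nat_lit 0) [] (nat_lit 0) [] false,
   Spec.mk (nat_lit 20340) (nat_lit 0) [] (nat_lit 0) [] false,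
   Spec.mk (nat_lit 20358) (nat_lit 0) [] (nat_lit 0) [] false]

noncomputable def cd28 : List Spec :=
  [Spec.mk (nat_lit 20420) (nat_lit 0) [] (nat_lit 0) [] false,
   Spec.mk (nat_lit 20426) (nat_lit 0) [] (nat_lit 0) [] false,
   Spec.mk (nat_lit 20428) (nat_lit 0) [] (nat_lit 0) [] false,
   Spec.mk (nat_lit 20432) (nat_lit 0) [] (nat_lit 0) [] false,
   Spec.mk (nat_lit 20434) (nat_lit 0) [] (nat_lit 0) [] false,
   Spec.mk (nat_lit 20436) (nat_lit 0) [] (nat_lit 0) [] false,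
   Spec.mk (nat_lit 20444) (nat_lit 0) [] (nat_lit 0) [] false,
   Spec.mk (nat_lit 20446) (nat_lit 0) [] (nat_lit 0) [] false,
   Spec.mk (nat_lit 20450) (nat_lit 0) [] (nat_lit 0) [] false,
   Spec.mk (nat_lit 20452) (nat_lit 0) [] (nat_lit 0) [] false,
   Spec.mk (nat_lit 20454) (nat_lit 0) [] (nat_lit 0) [] false,
   Spec.mk (nat_lit 20458) (nat_lit 0) [] (nat_lit 0) [] false,
   Spec.mk (nat_lit 20460) (nat_lit 0) [] (nat_lit 0) [] false,
   Spec.mk (nat_lit 20468) (nat_lit 0) [] (nat_lit 0) [] false,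
   Spec.mk (nat_lit 20470) (nat_lit 0) [] (nat_lit 0) [] false,
   Spec.mk (nat_lit 20472) (nat_lit 0) [] (nat_lit 0) [] false,
   Spec.mk (nat_lit 20476) (nat_lit 0) [] (nat_lit 0) [] false,
   Spec.mk (nat_lit 20478) (nat_lit 0) [] (nat_lit 0) [] false,
   Spec.mk (nat_lit 20484) (nat_lit 0) [] (nat_lit 0) [] false,
   Spec.mk (nat_lit 20498) (nat_lit 0) [] (nat_lit 0) [] false,
   Spec.mk (nat_lit 20500) (nat_lit 0) [] (nat_lit 0) [] false,
   Spec.mk (nat_lit 20504) (nat_lit 0) [] (nat_lit 0) [] false,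
   Spec.mk (nat_lit 20506) (nat_lit 0) [] (nat_lit 0) [] false,
   Spec.mk (nat_lit 20508) (nat_lit 0) [] (nat_lit 0) [] false,
   Spec.mk (nat_lit 20512) (nat_lit 0) [] (nat_lit 0) [] false,
   Spec.mk (nat_lit 20514) (nat_lit 0) [] (nat_lit 0) [] false,
   Spec.mk (nat_lit 20522) (nat_lit 0) [] (nat_lit 0) [] false,
   Spec.mk (nat_lit 20524) (nat_lit 0) [] (nat_lit 0) [] false,
   Spec.mk (nat_lit 20526) (nat_lit 0) [] (nat_lit 0) [] false,
   Spec.mk (nat_lit 20530) (nat_lit 0) [] (nat_lit 0) [] false,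
   Spec.mk (nat_lit 20532) (nat_lit 0) [] (nat_lit 0) [] false,
   Spec.mk (nat_lit 20538) (nat_lit 0) [] (nat_lit 0) [] false,
   Spec.mk (nat_lit 20548) (nat_lit 0) [] (nat_lit 0) [] false,
   Spec.mk (nat_lit 20550) (nat_lit 0) [] (nat_lit 0) [] false,
   Spec.mk (nat_lit 20556) (nat_lit 0) [] (nat_lit 0) [] false,
   Spec.mk (nat_lit 20576) (nat_lit 0) [] (nat_lit 0) [] false,
   Spec.mk (nat_lit 20578) (nat_lit 0) [] (nat_lit 0) [] false,
   Spec.mk (nat_lit 20580) (nat_lit 0) [] (nat_lit 0) [] false,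
   Spec.mk (nat_lit 20584) (nat_lit 0) [] (nat_lit 0) [] false,
   Spec.mk (nat_lit 20586) (nat_lit 0) [] (nat_lit 0) [] false,
   Spec.mk (nat_lit 20592) (nat_lit 0) [] (nat_lit 0) [] false,
   Spec.mk (nat_lit 20602) (nat_lit 0) [] (nat_lit 0) [] false,
   Spec.mk (nat_lit 20604) (nat_lit 0) [] (nat_lit 0) [] false,
   Spec.mk (nat_lit 20610) (nat_lit 0) [] (nat_lit 0) [] false,
   Spec.mk (nat_lit 20628) (nat_lit 0) [] (nat_lit 0) [] false,
   Spec.mk (nat_lit 20660) (nat_lit 0) [] (nat_lit 0) [] false,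
   Spec.mk (nat_lit 20662) (nat_lit 0) [] (nat_lit 0) [] false,
   Spec.mk (nat_lit 20666) (nat_lit 0) [] (nat_lit 0) [] false,
   Spec.mk (nat_lit 20668) (nat_lit 0) [] (nat_lit 0) [] false,
   Spec.mk (nat_lit 20670) (nat_lit 0) [] (nat_lit 0) [] false,
   Spec.mk (nat_lit 20674) (nat_lit 0) [] (nat_lit 0) [] false,
   Spec.mk (nat_lit 20676) (nat_lit 0) [] (nat_lit 0) [] false,
   Spec.mk (nat_lit 20684) (nat_lit 0) [] (nat_lit 0) [] false,
   Spec.mk (nat_lit 20686) (nat_lit 0) [] (nat_lit 0) [] false,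
   Spec.mk (nat_lit 20688) (nat_lit 0) [] (nat_lit 0) [] false,
   Spec.mk (nat_lit 20692) (nat_lit 0) [] (nat_lit 0) [] false,
   Spec.mk (nat_lit 20694) (nat_lit 0) [] (nat_lit 0) [] false,
   Spec.mk (nat_lit 20700) (nat_lit 0) [] (nat_lit 0) [] false,
   Spec.mk (nat_lit 20710) (nat_lit 0) [] (nat_lit 0) [] false,
   Spec.mk (nat_lit 20712) (nat_lit 0) [] (nat_lit 0) [] false]

noncomputable def cd29 : List Spec :=
  [Spec.mk (nat_lit 20718) (nat_lit 0) [] (nat_lit 0) [] false,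
   Spec.mk (nat_lit 20738) (nat_lit 0) [] (nat_lit 0) [] false,
   Spec.mk (nat_lit 20740) (nat_lit 0) [] (nat_lit 0) [] false,
   Spec.mk (nat_lit 20742) (nat_lit 0) [] (nat_lit 0) [] false,
   Spec.mk (nat_lit 20746) (nat_lit 0) [] (nat_lit 0) [] false,
   Spec.mk (nat_lit 20748) (nat_lit 0) [] (nat_lit 0) [] false,
   Spec.mk (nat_lit 20754) (nat_lit 0) [] (nat_lit 0) [] false,
   Spec.mk (nat_lit 20764) (nat_lit 0) [] (nat_lit 0) [] false,
   Spec.mk (nat_lit 20766) (nat_lit 0) [] (nat_lit 0) [] false,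
   Spec.mk (nat_lit 20772) (nat_lit 0) [] (nat_lit 0) [] false,
   Spec.mk (nat_lit 20790) (nat_lit 0) [] (nat_lit 0) [] false,
   Spec.mk (nat_lit 20818) (nat_lit 0) [] (nat_lit 0) [] false,
   Spec.mk (nat_lit 20820) (nat_lit 0) [] (nat_lit 0) [] false,
   Spec.mk (nat_lit 20826) (nat_lit 0) [] (nat_lit 0) [] false,
   Spec.mk (nat_lit 20844) (nat_lit 0) [] (nat_lit 0) [] false,
   Spec.mk (nat_lit 20900) (nat_lit 0) [] (nat_lit 0) [] false,
   Spec.mk (nat_lit 20902) (nat_lit 0) [] (nat_lit 0) [] false,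
   Spec.mk (nat_lit 20904) (nat_lit 0) [] (nat_lit 0) [] false,
   Spec.mk (nat_lit 20908) (nat_lit 0) [] (nat_lit 0) [] false,
   Spec.mk (nat_lit 20910) (nat_lit 0) [] (nat_lit 0) [] false,
   Spec.mk (nat_lit 20916) (nat_lit 0) [] (nat_lit 0) [] false,
   Spec.mk (nat_lit 20926) (nat_lit 0) [] (nat_lit 0) [] false,
   Spec.mk (nat_lit 20928) (nat_lit 0) [] (nat_lit 0) [] false,
   Spec.mk (nat_lit 20934) (nat_lit 0) [] (nat_lit 0) [] false,
   Spec.mk (nat_lit 20952) (nat_lit 0) [] (nat_lit 0) [] false,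
   Spec.mk (nat_lit 20980) (nat_lit 0) [] (nat_lit 0) [] false,
   Spec.mk (nat_lit 20982) (nat_lit 0) [] (nat_lit 0) [] false,
   Spec.mk (nat_lit 20988) (nat_lit 0) [] (nat_lit 0) [] false,
   Spec.mk (nat_lit 21006) (nat_lit 0) [] (nat_lit 0) [] false,
   Spec.mk (nat_lit 21060) (nat_lit 0) [] (nat_lit 0) [] false,
   Spec.mk (nat_lit 21146) (nat_lit 0) [] (nat_lit 0) [] false,
   Spec.mk (nat_lit 21148) (nat_lit 0) [] (nat_lit 0) [] false,
   Spec.mk (nat_lit 21152) (nat_lit 0) [] (nat_lit 0) [] false,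
   Spec.mk (nat_lit 21154) (nat_lit 0) [] (nat_lit 0) [] false,
   Spec.mk (nat_lit 21156) (nat_lit 0) [] (nat_lit 0) [] false,
   Spec.mk (nat_lit 21160) (nat_lit 0) [] (nat_lit 0) [] false,
   Spec.mk (nat_lit 21162) (nat_lit 0) [] (nat_lit 0) [] false,
   Spec.mk (nat_lit 21170) (nat_lit 0) [] (nat_lit 0) [] false,
   Spec.mk (nat_lit 21172) (nat_lit 0) [] (nat_lit 0) [] false,
   Spec.mk (nat_lit 21174) (nat_lit 0) [] (nat_lit 0) [] false,
   Spec.mk (nat_lit 21178) (nat_lit 0) [] (nat_lit 0) [] false,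
   Spec.mk (nat_lit 21180) (nat_lit 0) [] (nat_lit 0) [] false,
   Spec.mk (nat_lit 21186) (nat_lit 0) [] (nat_lit 0) [] false,
   Spec.mk (nat_lit 21196) (nat_lit 0) [] (nat_lit 0) [] false,
   Spec.mk (nat_lit 21198) (nat_lit 0) [] (nat_lit 0) [] false,
   Spec.mk (nat_lit 21204) (nat_lit 0) [] (nat_lit 0) [] false,
   Spec.mk (nat_lit 21224) (nat_lit 0) [] (nat_lit 0) [] false,
   Spec.mk (nat_lit 21226) (nat_lit 0) [] (nat_lit 0) [] false,
   Spec.mk (nat_lit 21228) (nat_lit 0) [] (nat_lit 0) [] false,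
   Spec.mk (nat_lit 21232) (nat_lit 0) [] (nat_lit 0) [] false,
   Spec.mk (nat_lit 21234) (nat_lit 0) [] (nat_lit 0) [] false,
   Spec.mk (nat_lit 21240) (nat_lit 0) [] (nat_lit 0) [] false,
   Spec.mk (nat_lit 21250) (nat_lit 0) [] (nat_lit 0) [] false,
   Spec.mk (nat_lit 21252) (nat_lit 0) [] (nat_lit 0) [] false,
   Spec.mk (nat_lit 21258) (nat_lit 0) [] (nat_lit 0) [] false,
   Spec.mk (nat_lit 21276) (nat_lit 0) [] (nat_lit 0) [] false,
   Spec.mk (nat_lit 21304) (nat_lit 0) [] (nat_lit 0) [] false,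
   Spec.mk (nat_lit 21306) (nat_lit 0) [] (nat_lit 0) [] false,
   Spec.mk (nat_lit 21312) (nat_lit 0) [] (nat_lit 0) [] false,
   Spec.mk (nat_lit 21330) (nat_lit 0) [] (nat_lit 0) [] false]

noncomputable def cd30 : List Spec :=
  [Spec.mk (nat_lit 21386) (nat_lit 0) [] (nat_lit 0) [] false,
   Spec.mk (nat_lit 21388) (nat_lit 0) [] (nat_lit 0) [] false,
   Spec.mk (nat_lit 21390) (nat_lit 0) [] (nat_lit 0) [] false,
   Spec.mk (nat_lit 21394) (nat_lit 0) [] (nat_lit 0) [] false,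
   Spec.mk (nat_lit 21396) (nat_lit 0) [] (nat_lit 0) [] false,
   Spec.mk (nat_lit 21402) (nat_lit 0) [] (nat_lit 0) [] false,
   Spec.mk (nat_lit 21412) (nat_lit 0) [] (nat_lit 0) [] false,
   Spec.mk (nat_lit 21414) (nat_lit 0) [] (nat_lit 0) [] false,
   Spec.mk (nat_lit 21420) (nat_lit 0) [] (nat_lit 0) [] false,
   Spec.mk (nat_lit 21438) (nat_lit 0) [] (nat_lit 0) [] false,
   Spec.mk (nat_lit 21466) (nat_lit 0) [] (nat_lit 0) [] false,
   Spec.mk (nat_lit 21468) (nat_lit 0) [] (nat_lit 0) [] false,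
   Spec.mk (nat_lit 21474) (nat_lit 0) [] (nat_lit 0) [] false,
   Spec.mk (nat_lit 21492) (nat_lit 0) [] (nat_lit 0) [] false,
   Spec.mk (nat_lit 21546) (nat_lit 0) [] (nat_lit 0) [] false,
   Spec.mk (nat_lit 21628) (nat_lit 0) [] (nat_lit 0) [] false,
   Spec.mk (nat_lit 21630) (nat_lit 0) [] (nat_lit 0) [] false,
   Spec.mk (nat_lit 21636) (nat_lit 0) [] (nat_lit 0) [] false,
   Spec.mk (nat_lit 21654) (nat_lit 0) [] (nat_lit 0) [] false,
   Spec.mk (nat_lit 21708) (nat_lit 0) [] (nat_lit 0) [] false,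
   Spec.mk (nat_lit 21878) (nat_lit 0) [] (nat_lit 0) [] false,
   Spec.mk (nat_lit 21884) (nat_lit 0) [] (nat_lit 0) [] false,
   Spec.mk (nat_lit 21886) (nat_lit 0) [] (nat_lit 0) [] false,
   Spec.mk (nat_lit 21890) (nat_lit 0) [] (nat_lit 0) [] false,
   Spec.mk (nat_lit 21892) (nat_lit 0) [] (nat_lit 0) [] false,
   Spec.mk (nat_lit 21894) (nat_lit 0) [] (nat_lit 0) [] false,
   Spec.mk (nat_lit 21902) (nat_lit 0) [] (nat_lit 0) [] false,
   Spec.mk (nat_lit 21904) (nat_lit 0) [] (nat_lit 0) [] false,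
   Spec.mk (nat_lit 21908) (nat_lit 0) [] (nat_lit 0) [] false,
   Spec.mk (nat_lit 21910) (nat_lit 0) [] (nat_lit 0) [] false,
   Spec.mk (nat_lit 21912) (nat_lit 0) [] (nat_lit 0) [] false,
   Spec.mk (nat_lit 21916) (nat_lit 0) [] (nat_lit 0) [] false,
   Spec.mk (nat_lit 21918) (nat_lit 0) [] (nat_lit 0) [] false,
   Spec.mk (nat_lit 21926) (nat_lit 0) [] (nat_lit 0) [] false,
   Spec.mk (nat_lit 21928) (nat_lit 0) [] (nat_lit 0) [] false,
   Spec.mk (nat_lit 21930) (nat_lit 0) [] (nat_lit 0) [] false,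
   Spec.mk (nat_lit 21934) (nat_lit 0) [] (nat_lit 0) [] false,
   Spec.mk (nat_lit 21936) (nat_lit 0) [] (nat_lit 0) [] false,
   Spec.mk (nat_lit 21942) (nat_lit 0) [] (nat_lit 0) [] false,
   Spec.mk (nat_lit 21956) (nat_lit 0) [] (nat_lit 0) [] false,
   Spec.mk (nat_lit 21958) (nat_lit 0) [] (nat_lit 0) [] false,
   Spec.mk (nat_lit 21962) (nat_lit 0) [] (nat_lit 0) [] false,
   Spec.mk (nat_lit 21964) (nat_lit 0) [] (nat_lit 0) [] false,
   Spec.mk (nat_lit 21966) (nat_lit 0) [] (nat_lit 0) [] false,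
   Spec.mk (nat_lit 21970) (nat_lit 0) [] (nat_lit 0) [] false,
   Spec.mk (nat_lit 21972) (nat_lit 0) [] (nat_lit 0) [] false,
   Spec.mk (nat_lit 21980) (nat_lit 0) [] (nat_lit 0) [] false,
   Spec.mk (nat_lit 21982) (nat_lit 0) [] (nat_lit 0) [] false,
   Spec.mk (nat_lit 21984) (nat_lit 0) [] (nat_lit 0) [] false,
   Spec.mk (nat_lit 21988) (nat_lit 0) [] (nat_lit 0) [] false,
   Spec.mk (nat_lit 21990) (nat_lit 0) [] (nat_lit 0) [] false,
   Spec.mk (nat_lit 21996) (nat_lit 0) [] (nat_lit 0) [] false,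
   Spec.mk (nat_lit 22006) (nat_lit 0) [] (nat_lit 0) [] false,
   Spec.mk (nat_lit 22008) (nat_lit 0) [] (nat_lit 0) [] false,
   Spec.mk (nat_lit 22014) (nat_lit 0) [] (nat_lit 0) [] false,
   Spec.mk (nat_lit 22034) (nat_lit 0) [] (nat_lit 0) [] false,
   Spec.mk (nat_lit 22036) (nat_lit 0) [] (nat_lit 0) [] false,
   Spec.mk (nat_lit 22038) (nat_lit 0) [] (nat_lit 0) [] false,
   Spec.mk (nat_lit 22042) (nat_lit 0) [] (nat_lit 0) [] false,
   Spec.mk (nat_lit 22044) (nat_lit 0) [] (nat_lit 0) [] false]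

noncomputable def cd31 : List Spec :=
  [Spec.mk (nat_lit 22050) (nat_lit 0) [] (nat_lit 0) [] false,
   Spec.mk (nat_lit 22060) (nat_lit 0) [] (nat_lit 0) [] false,
   Spec.mk (nat_lit 22062) (nat_lit 0) [] (nat_lit 0) [] false,
   Spec.mk (nat_lit 22068) (nat_lit 0) [] (nat_lit 0) [] false,
   Spec.mk (nat_lit 22086) (nat_lit 0) [] (nat_lit 0) [] false,
   Spec.mk (nat_lit 22118) (nat_lit 0) [] (nat_lit 0) [] false,
   Spec.mk (nat_lit 22120) (nat_lit 0) [] (nat_lit 0) [] false,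
   Spec.mk (nat_lit 22124) (nat_lit 0) [] (nat_lit 0) [] false,
   Spec.mk (nat_lit 22126) (nat_lit 0) [] (nat_lit 0) [] false,
   Spec.mk (nat_lit 22128) (nat_lit 0) [] (nat_lit 0) [] false,
   Spec.mk (nat_lit 22132) (nat_lit 0) [] (nat_lit 0) [] false,
   Spec.mk (nat_lit 22134) (nat_lit 0) [] (nat_lit 0) [] false,
   Spec.mk (nat_lit 22142) (nat_lit 0) [] (nat_lit 0) [] false,
   Spec.mk (nat_lit 22144) (nat_lit 0) [] (nat_lit 0) [] false,
   Spec.mk (nat_lit 22146) (nat_lit 0) [] (nat_lit 0) [] false,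
   Spec.mk (nat_lit 22150) (nat_lit 0) [] (nat_lit 0) [] false,
   Spec.mk (nat_lit 22152) (nat_lit 0) [] (nat_lit 0) [] false,
   Spec.mk (nat_lit 22158) (nat_lit 0) [] (nat_lit 0) [] false,
   Spec.mk (nat_lit 22168) (nat_lit 0) [] (nat_lit 0) [] false,
   Spec.mk (nat_lit 22170) (nat_lit 0) [] (nat_lit 0) [] false,
   Spec.mk (nat_lit 22176) (nat_lit 0) [] (nat_lit 0) [] false,
   Spec.mk (nat_lit 22196) (nat_lit 0) [] (nat_lit 0) [] false,
   Spec.mk (nat_lit 22198) (nat_lit 0) [] (nat_lit 0) [] false,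
   Spec.mk (nat_lit 22200) (nat_lit 0) [] (nat_lit 0) [] false,
   Spec.mk (nat_lit 22204) (nat_lit 0) [] (nat_lit 0) [] false,
   Spec.mk (nat_lit 22206) (nat_lit 0) [] (nat_lit 0) [] false,
   Spec.mk (nat_lit 22212) (nat_lit 0) [] (nat_lit 0) [] false,
   Spec.mk (nat_lit 22222) (nat_lit 0) [] (nat_lit 0) [] false,
   Spec.mk (nat_lit 22224) (nat_lit 0) [] (nat_lit 0) [] false,
   Spec.mk (nat_lit 22230) (nat_lit 0) [] (nat_lit 0) [] false,
   Spec.mk (nat_lit 22248) (nat_lit 0) [] (nat_lit 0) [] false,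
   Spec.mk (nat_lit 22276) (nat_lit 0) [] (nat_lit 0) [] false,
   Spec.mk (nat_lit 22278) (nat_lit 0) [] (nat_lit 0) [] false,
   Spec.mk (nat_lit 22284) (nat_lit 0) [] (nat_lit 0) [] false,
   Spec.mk (nat_lit 22302) (nat_lit 0) [] (nat_lit 0) [] false,
   Spec.mk (nat_lit 22358) (nat_lit 0) [] (nat_lit 0) [] false,
   Spec.mk (nat_lit 22360) (nat_lit 0) [] (nat_lit 0) [] false,
   Spec.mk (nat_lit 22362) (nat_lit 0) [] (nat_lit 0) [] false,
   Spec.mk (nat_lit 22366) (nat_lit 0) [] (nat_lit 0) [] false,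
   Spec.mk (nat_lit 22368) (nat_lit 0) [] (nat_lit 0) [] false,
   Spec.mk (nat_lit 22374) (nat_lit 0) [] (nat_lit 0) [] false,
   Spec.mk (nat_lit 22384) (nat_lit 0) [] (nat_lit 0) [] false,
   Spec.mk (nat_lit 22386) (nat_lit 0) [] (nat_lit 0) [] false,
   Spec.mk (nat_lit 22392) (nat_lit 0) [] (nat_lit 0) [] false,
   Spec.mk (nat_lit 22410) (nat_lit 0) [] (nat_lit 0) [] false,
   Spec.mk (nat_lit 22438) (nat_lit 0) [] (nat_lit 0) [] false,
   Spec.mk (nat_lit 22440) (nat_lit 0) [] (nat_lit 0) [] false,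
   Spec.mk (nat_lit 22446) (nat_lit 0) [] (nat_lit 0) [] false,
   Spec.mk (nat_lit 22464) (nat_lit 0) [] (nat_lit 0) [] false,
   Spec.mk (nat_lit 22518) (nat_lit 0) [] (nat_lit 0) [] false,
   Spec.mk (nat_lit 22604) (nat_lit 0) [] (nat_lit 0) [] false,
   Spec.mk (nat_lit 22606) (nat_lit 0) [] (nat_lit 0) [] false,
   Spec.mk (nat_lit 22610) (nat_lit 0) [] (nat_lit 0) [] false,
   Spec.mk (nat_lit 22612) (nat_lit 0) [] (nat_lit 0) [] false,
   Spec.mk (nat_lit 22614) (nat_lit 0) [] (nat_lit 0) [] false,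
   Spec.mk (nat_lit 22618) (nat_lit 0) [] (nat_lit 0) [] false,
   Spec.mk (nat_lit 22620) (nat_lit 0) [] (nat_lit 0) [] false,
   Spec.mk (nat_lit 22628) (nat_lit 0) [] (nat_lit 0) [] false,
   Spec.mk (nat_lit 22630) (nat_lit 0) [] (nat_lit 0) [] false,
   Spec.mk (nat_lit 22632) (nat_lit 0) [] (nat_lit 0) [] false]

noncomputable def cd32 : List Spec :=
  [Spec.mk (nat_lit 22636) (nat_lit 0) [] (nat_lit 0) [] false,
   Spec.mk (nat_lit 22638) (nat_lit 0) [] (nat_lit 0) [] false,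
   Spec.mk (nat_lit 22644) (nat_lit 0) [] (nat_lit 0) [] false,
   Spec.mk (nat_lit 22654) (nat_lit 0) [] (nat_lit 0) [] false,
   Spec.mk (nat_lit 22656) (nat_lit 0) [] (nat_lit 0) [] false,
   Spec.mk (nat_lit 22662) (nat_lit 0) [] (nat_lit 0) [] false,
   Spec.mk (nat_lit 22682) (nat_lit 0) [] (nat_lit 0) [] false,
   Spec.mk (nat_lit 22684) (nat_lit 0) [] (nat_lit 0) [] false,
   Spec.mk (nat_lit 22686) (nat_lit 0) [] (nat_lit 0) [] false,
   Spec.mk (nat_lit 22690) (nat_lit 0) [] (nat_lit 0) [] false,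
   Spec.mk (nat_lit 22692) (nat_lit 0) [] (nat_lit 0) [] false,
   Spec.mk (nat_lit 22698) (nat_lit 0) [] (nat_lit 0) [] false,
   Spec.mk (nat_lit 22708) (nat_lit 0) [] (nat_lit 0) [] false,
   Spec.mk (nat_lit 22710) (nat_lit 0) [] (nat_lit 0) [] false,
   Spec.mk (nat_lit 22716) (nat_lit 0) [] (nat_lit 0) [] false,
   Spec.mk (nat_lit 22734) (nat_lit 0) [] (nat_lit 0) [] false,
   Spec.mk (nat_lit 22762) (nat_lit 0) [] (nat_lit 0) [] false,
   Spec.mk (nat_lit 22764) (nat_lit 0) [] (nat_lit 0) [] false,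
   Spec.mk (nat_lit 22770) (nat_lit 0) [] (nat_lit 0) [] false,
   Spec.mk (nat_lit 22788) (nat_lit 0) [] (nat_lit 0) [] false,
   Spec.mk (nat_lit 22844) (nat_lit 0) [] (nat_lit 0) [] false,
   Spec.mk (nat_lit 22846) (nat_lit 0) [] (nat_lit 0) [] false,
   Spec.mk (nat_lit 22848) (nat_lit 0) [] (nat_lit 0) [] false,
   Spec.mk (nat_lit 22852) (nat_lit 0) [] (nat_lit 0) [] false,
   Spec.mk (nat_lit 22854) (nat_lit 0) [] (nat_lit 0) [] false,
   Spec.mk (nat_lit 22860) (nat_lit 0) [] (nat_lit 0) [] false,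
   Spec.mk (nat_lit 22870) (nat_lit 0) [] (nat_lit 0) [] false,
   Spec.mk (nat_lit 22872) (nat_lit 0) [] (nat_lit 0) [] false,
   Spec.mk (nat_lit 22878) (nat_lit 0) [] (nat_lit 0) [] false,
   Spec.mk (nat_lit 22896) (nat_lit 0) [] (nat_lit 0) [] false,
   Spec.mk (nat_lit 22924) (nat_lit 0) [] (nat_lit 0) [] false,
   Spec.mk (nat_lit 22926) (nat_lit 0) [] (nat_lit 0) [] false,
   Spec.mk (nat_lit 22932) (nat_lit 0) [] (nat_lit 0) [] false,
   Spec.mk (nat_lit 22950) (nat_lit 0) [] (nat_lit 0) [] false,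
   Spec.mk (nat_lit 23004) (nat_lit 0) [] (nat_lit 0) [] false,
   Spec.mk (nat_lit 23086) (nat_lit 0) [] (nat_lit 0) [] false,
   Spec.mk (nat_lit 23088) (nat_lit 0) [] (nat_lit 0) [] false,
   Spec.mk (nat_lit 23094) (nat_lit 0) [] (nat_lit 0) [] false,
   Spec.mk (nat_lit 23112) (nat_lit 0) [] (nat_lit 0) [] false,
   Spec.mk (nat_lit 23166) (nat_lit 0) [] (nat_lit 0) [] false,
   Spec.mk (nat_lit 23330) (nat_lit 0) [] (nat_lit 0) [] false,
   Spec.mk (nat_lit 23332) (nat_lit 0) [] (nat_lit 0) [] false,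
   Spec.mk (nat_lit 23334) (nat_lit 0) [] (nat_lit 0) [] false,
   Spec.mk (nat_lit 23338) (nat_lit 0) [] (nat_lit 0) [] false,
   Spec.mk (nat_lit 23340) (nat_lit 0) [] (nat_lit 0) [] false,
   Spec.mk (nat_lit 23346) (nat_lit 0) [] (nat_lit 0) [] false,
   Spec.mk (nat_lit 23356) (nat_lit 0) [] (nat_lit 0) [] false,
   Spec.mk (nat_lit 23358) (nat_lit 0) [] (nat_lit 0) [] false,
   Spec.mk (nat_lit 23364) (nat_lit 0) [] (nat_lit 0) [] false,
   Spec.mk (nat_lit 23382) (nat_lit 0) [] (nat_lit 0) [] false,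
   Spec.mk (nat_lit 23410) (nat_lit 0) [] (nat_lit 0) [] false,
   Spec.mk (nat_lit 23412) (nat_lit 0) [] (nat_lit 0) [] false,
   Spec.mk (nat_lit 23418) (nat_lit 0) [] (nat_lit 0) [] false,
   Spec.mk (nat_lit 23436) (nat_lit 0) [] (nat_lit 0) [] false,
   Spec.mk (nat_lit 23490) (nat_lit 0) [] (nat_lit 0) [] false,
   Spec.mk (nat_lit 23572) (nat_lit 0) [] (nat_lit 0) [] false,
   Spec.mk (nat_lit 23574) (nat_lit 0) [] (nat_lit 0) [] false,
   Spec.mk (nat_lit 23580) (nat_lit 0) [] (nat_lit 0) [] false,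
   Spec.mk (nat_lit 23598) (nat_lit 0) [] (nat_lit 0) [] false,
   Spec.mk (nat_lit 23652) (nat_lit 0) [] (nat_lit 0) [] false]

noncomputable def cd33 : List Spec :=
  [Spec.mk (nat_lit 23814) (nat_lit 0) [] (nat_lit 0) [] false,
   Spec.mk (nat_lit 24062) (nat_lit 0) [] (nat_lit 0) [] false,
   Spec.mk (nat_lit 24064) (nat_lit 0) [] (nat_lit 0) [] false,
   Spec.mk (nat_lit 24068) (nat_lit 0) [] (nat_lit 0) [] false,
   Spec.mk (nat_lit 24070) (nat_lit 0) [] (nat_lit 0) [] false,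
   Spec.mk (nat_lit 24072) (nat_lit 0) [] (nat_lit 0) [] false,
   Spec.mk (nat_lit 24076) (nat_lit 0) [] (nat_lit 0) [] false,
   Spec.mk (nat_lit 24078) (nat_lit 0) [] (nat_lit 0) [] false,
   Spec.mk (nat_lit 24086) (nat_lit 0) [] (nat_lit 0) [] false,
   Spec.mk (nat_lit 24088) (nat_lit 0) [] (nat_lit 0) [] false,
   Spec.mk (nat_lit 24090) (nat_lit 0) [] (nat_lit 0) [] false,
   Spec.mk (nat_lit 24094) (nat_lit 0) [] (nat_lit 0) [] false,
   Spec.mk (nat_lit 24096) (nat_lit 0) [] (nat_lit 0) [] false,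
   Spec.mk (nat_lit 24102) (nat_lit 0) [] (nat_lit 0) [] false,
   Spec.mk (nat_lit 24112) (nat_lit 0) [] (nat_lit 0) [] false,
   Spec.mk (nat_lit 24114) (nat_lit 0) [] (nat_lit 0) [] false,
   Spec.mk (nat_lit 24120) (nat_lit 0) [] (nat_lit 0) [] false,
   Spec.mk (nat_lit 24140) (nat_lit 0) [] (nat_lit 0) [] false,
   Spec.mk (nat_lit 24142) (nat_lit 0) [] (nat_lit 0) [] false,
   Spec.mk (nat_lit 24144) (nat_lit 0) [] (nat_lit 0) [] false,
   Spec.mk (nat_lit 24148) (nat_lit 0) [] (nat_lit 0) [] false,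
   Spec.mk (nat_lit 24150) (nat_lit 0) [] (nat_lit 0) [] false,
   Spec.mk (nat_lit 24156) (nat_lit 0) [] (nat_lit 0) [] false,
   Spec.mk (nat_lit 24166) (nat_lit 0) [] (nat_lit 0) [] false,
   Spec.mk (nat_lit 24168) (nat_lit 0) [] (nat_lit 0) [] false,
   Spec.mk (nat_lit 24174) (nat_lit 0) [] (nat_lit 0) [] false,
   Spec.mk (nat_lit 24192) (nat_lit 0) [] (nat_lit 0) [] false,
   Spec.mk (nat_lit 24220) (nat_lit 0) [] (nat_lit 0) [] false,
   Spec.mk (nat_lit 24222) (nat_lit 0) [] (nat_lit 0) [] false,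
   Spec.mk (nat_lit 24228) (nat_lit 0) [] (nat_lit 0) [] false,
   Spec.mk (nat_lit 24246) (nat_lit 0) [] (nat_lit 0) [] false,
   Spec.mk (nat_lit 24302) (nat_lit 0) [] (nat_lit 0) [] false,
   Spec.mk (nat_lit 24304) (nat_lit 0) [] (nat_lit 0) [] false,
   Spec.mk (nat_lit 24306) (nat_lit 0) [] (nat_lit 0) [] false,
   Spec.mk (nat_lit 24310) (nat_lit 0) [] (nat_lit 0) [] false,
   Spec.mk (nat_lit 24312) (nat_lit 0) [] (nat_lit 0) [] false,
   Spec.mk (nat_lit 24318) (nat_lit 0) [] (nat_lit 0) [] false,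
   Spec.mk (nat_lit 24328) (nat_lit 0) [] (nat_lit 0) [] false,
   Spec.mk (nat_lit 24330) (nat_lit 0) [] (nat_lit 0) [] false,
   Spec.mk (nat_lit 24336) (nat_lit 0) [] (nat_lit 0) [] false,
   Spec.mk (nat_lit 24354) (nat_lit 0) [] (nat_lit 0) [] false,
   Spec.mk (nat_lit 24382) (nat_lit 0) [] (nat_lit 0) [] false,
   Spec.mk (nat_lit 24384) (nat_lit 0) [] (nat_lit 0) [] false,
   Spec.mk (nat_lit 24390) (nat_lit 0) [] (nat_lit 0) [] false,
   Spec.mk (nat_lit 24408) (nat_lit 0) [] (nat_lit 0) [] false,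
   Spec.mk (nat_lit 24462) (nat_lit 0) [] (nat_lit 0) [] false,
   Spec.mk (nat_lit 24544) (nat_lit 0) [] (nat_lit 0) [] false,
   Spec.mk (nat_lit 24546) (nat_lit 0) [] (nat_lit 0) [] false,
   Spec.mk (nat_lit 24552) (nat_lit 0) [] (nat_lit 0) [] false,
   Spec.mk (nat_lit 24570) (nat_lit 0) [] (nat_lit 0) [] false,
   Spec.mk (nat_lit 24624) (nat_lit 0) [] (nat_lit 0) [] false,
   Spec.mk (nat_lit 24788) (nat_lit 0) [] (nat_lit 0) [] false,
   Spec.mk (nat_lit 24790) (nat_lit 0) [] (nat_lit 0) [] false,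
   Spec.mk (nat_lit 24792) (nat_lit 0) [] (nat_lit 0) [] false,
   Spec.mk (nat_lit 24796) (nat_lit 0) [] (nat_lit 0) [] false,
   Spec.mk (nat_lit 24798) (nat_lit 0) [] (nat_lit 0) [] false,
   Spec.mk (nat_lit 24804) (nat_lit 0) [] (nat_lit 0) [] false,
   Spec.mk (nat_lit 24814) (nat_lit 0) [] (nat_lit 0) [] false,
   Spec.mk (nat_lit 24816) (nat_lit 0) [] (nat_lit 0) [] false,
   Spec.mk (nat_lit 24822) (nat_lit 0) [] (nat_lit 0) [] false]

noncomputable def cd34 : List Spec :=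
  [Spec.mk (nat_lit 24840) (nat_lit 0) [] (nat_lit 0) [] false,
   Spec.mk (nat_lit 24868) (nat_lit 0) [] (nat_lit 0) [] false,
   Spec.mk (nat_lit 24870) (nat_lit 0) [] (nat_lit 0) [] false,
   Spec.mk (nat_lit 24876) (nat_lit 0) [] (nat_lit 0) [] false,
   Spec.mk (nat_lit 24894) (nat_lit 0) [] (nat_lit 0) [] false,
   Spec.mk (nat_lit 24948) (nat_lit 0) [] (nat_lit 0) [] false,
   Spec.mk (nat_lit 25030) (nat_lit 0) [] (nat_lit 0) [] false,
   Spec.mk (nat_lit 25032) (nat_lit 0) [] (nat_lit 0) [] false,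
   Spec.mk (nat_lit 25038) (nat_lit 0) [] (nat_lit 0) [] false,
   Spec.mk (nat_lit 25056) (nat_lit 0) [] (nat_lit 0) [] false,
   Spec.mk (nat_lit 25110) (nat_lit 0) [] (nat_lit 0) [] false,
   Spec.mk (nat_lit 25272) (nat_lit 0) [] (nat_lit 0) [] false,
   Spec.mk (nat_lit 25516) (nat_lit 0) [] (nat_lit 0) [] false,
   Spec.mk (nat_lit 25518) (nat_lit 0) [] (nat_lit 0) [] false,
   Spec.mk (nat_lit 25524) (nat_lit 0) [] (nat_lit 0) [] false,
   Spec.mk (nat_lit 25542) (nat_lit 0) [] (nat_lit 0) [] false,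
   Spec.mk (nat_lit 25596) (nat_lit 0) [] (nat_lit 0) [] false,
   Spec.mk (nat_lit 25758) (nat_lit 0) [] (nat_lit 0) [] false,
   Spec.mk (nat_lit 26252) (nat_lit 0) [] (nat_lit 0) [] false,
   Spec.mk (nat_lit 26258) (nat_lit 0) [] (nat_lit 0) [] false,
   Spec.mk (nat_lit 26260) (nat_lit 0) [] (nat_lit 0) [] false,
   Spec.mk (nat_lit 26264) (nat_lit 0) [] (nat_lit 0) [] false,
   Spec.mk (nat_lit 26266) (nat_lit 0) [] (nat_lit 0) [] false,
   Spec.mk (nat_lit 26268) (nat_lit 0) [] (nat_lit 0) [] false,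
   Spec.mk (nat_lit 26276) (nat_lit 0) [] (nat_lit 0) [] false,
   Spec.mk (nat_lit 26278) (nat_lit 0) [] (nat_lit 0) [] false,
   Spec.mk (nat_lit 26282) (nat_lit 0) [] (nat_lit 0) [] false,
   Spec.mk (nat_lit 26284) (nat_lit 0) [] (nat_lit 0) [] false,
   Spec.mk (nat_lit 26286) (nat_lit 0) [] (nat_lit 0) [] false,
   Spec.mk (nat_lit 26290) (nat_lit 0) [] (nat_lit 0) [] false,
   Spec.mk (nat_lit 26292) (nat_lit 0) [] (nat_lit 0) [] false,
   Spec.mk (nat_lit 26300) (nat_lit 0) [] (nat_lit 0) [] false,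
   Spec.mk (nat_lit 26302) (nat_lit 0) [] (nat_lit 0) [] false,
   Spec.mk (nat_lit 26304) (nat_lit 0) [] (nat_lit 0) [] false,
   Spec.mk (nat_lit 26308) (nat_lit 0) [] (nat_lit 0) [] false,
   Spec.mk (nat_lit 26310) (nat_lit 0) [] (nat_lit 0) [] false,
   Spec.mk (nat_lit 26316) (nat_lit 0) [] (nat_lit 0) [] false,
   Spec.mk (nat_lit 26330) (nat_lit 0) [] (nat_lit 0) [] false,
   Spec.mk (nat_lit 26332) (nat_lit 0) [] (nat_lit 0) [] false,
   Spec.mk (nat_lit 26336) (nat_lit 0) [] (nat_lit 0) [] false,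
   Spec.mk (nat_lit 26338) (nat_lit 0) [] (nat_lit 0) [] false,
   Spec.mk (nat_lit 26340) (nat_lit 0) [] (nat_lit 0) [] false,
   Spec.mk (nat_lit 26344) (nat_lit 0) [] (nat_lit 0) [] false,
   Spec.mk (nat_lit 26346) (nat_lit 0) [] (nat_lit 0) [] false,
   Spec.mk (nat_lit 26354) (nat_lit 0) [] (nat_lit 0) [] false,
   Spec.mk (nat_lit 26356) (nat_lit 0) [] (nat_lit 0) [] false,
   Spec.mk (nat_lit 26358) (nat_lit 0) [] (nat_lit 0) [] false,
   Spec.mk (nat_lit 26362) (nat_lit 0) [] (nat_lit 0) [] false,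
   Spec.mk (nat_lit 26364) (nat_lit 0) [] (nat_lit 0) [] false,
   Spec.mk (nat_lit 26370) (nat_lit 0) [] (nat_lit 0) [] false,
   Spec.mk (nat_lit 26380) (nat_lit 0) [] (nat_lit 0) [] false,
   Spec.mk (nat_lit 26382) (nat_lit 0) [] (nat_lit 0) [] false,
   Spec.mk (nat_lit 26388) (nat_lit 0) [] (nat_lit 0) [] false,
   Spec.mk (nat_lit 26408) (nat_lit 0) [] (nat_lit 0) [] false,
   Spec.mk (nat_lit 26410) (nat_lit 0) [] (nat_lit 0) [] false,
   Spec.mk (nat_lit 26412) (nat_lit 0) [] (nat_lit 0) [] false,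
   Spec.mk (nat_lit 26416) (nat_lit 0) [] (nat_lit 0) [] false,
   Spec.mk (nat_lit 26418) (nat_lit 0) [] (nat_lit 0) [] false,
   Spec.mk (nat_lit 26424) (nat_lit 0) [] (nat_lit 0) [] false,
   Spec.mk (nat_lit 26434) (nat_lit 0) [] (nat_lit 0) [] false]

noncomputable def cd35 : List Spec :=
  [Spec.mk (nat_lit 26436) (nat_lit 0) [] (nat_lit 0) [] false,
   Spec.mk (nat_lit 26442) (nat_lit 0) [] (nat_lit 0) [] false,
   Spec.mk (nat_lit 26460) (nat_lit 0) [] (nat_lit 0) [] false,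
   Spec.mk (nat_lit 26492) (nat_lit 0) [] (nat_lit 0) [] false,
   Spec.mk (nat_lit 26494) (nat_lit 0) [] (nat_lit 0) [] false,
   Spec.mk (nat_lit 26498) (nat_lit 0) [] (nat_lit 0) [] false,
   Spec.mk (nat_lit 26500) (nat_lit 0) [] (nat_lit 0) [] false,
   Spec.mk (nat_lit 26502) (nat_lit 0) [] (nat_lit 0) [] false,
   Spec.mk (nat_lit 26506) (nat_lit 0) [] (nat_lit 0) [] false,
   Spec.mk (nat_lit 26508) (nat_lit 0) [] (nat_lit 0) [] false,
   Spec.mk (nat_lit 26516) (nat_lit 0) [] (nat_lit 0) [] false,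
   Spec.mk (nat_lit 26518) (nat_lit 0) [] (nat_lit 0) [] false,
   Spec.mk (nat_lit 26520) (nat_lit 0) [] (nat_lit 0) [] false,
   Spec.mk (nat_lit 26524) (nat_lit 0) [] (nat_lit 0) [] false,
   Spec.mk (nat_lit 26526) (nat_lit 0) [] (nat_lit 0) [] false,
   Spec.mk (nat_lit 26532) (nat_lit 0) [] (nat_lit 0) [] false,
   Spec.mk (nat_lit 26542) (nat_lit 0) [] (nat_lit 0) [] false,
   Spec.mk (nat_lit 26544) (nat_lit 0) [] (nat_lit 0) [] false,
   Spec.mk (nat_lit 26550) (nat_lit 0) [] (nat_lit 0) [] false,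
   Spec.mk (nat_lit 26570) (nat_lit 0) [] (nat_lit 0) [] false,
   Spec.mk (nat_lit 26572) (nat_lit 0) [] (nat_lit 0) [] false,
   Spec.mk (nat_lit 26574) (nat_lit 0) [] (nat_lit 0) [] false,
   Spec.mk (nat_lit 26578) (nat_lit 0) [] (nat_lit 0) [] false,
   Spec.mk (nat_lit 26580) (nat_lit 0) [] (nat_lit 0) [] false,
   Spec.mk (nat_lit 26586) (nat_lit 0) [] (nat_lit 0) [] false,
   Spec.mk (nat_lit 26596) (nat_lit 0) [] (nat_lit 0) [] false,
   Spec.mk (nat_lit 26598) (nat_lit 0) [] (nat_lit 0) [] false,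
   Spec.mk (nat_lit 26604) (nat_lit 0) [] (nat_lit 0) [] false,
   Spec.mk (nat_lit 26622) (nat_lit 0) [] (nat_lit 0) [] false,
   Spec.mk (nat_lit 26650) (nat_lit 0) [] (nat_lit 0) [] false,
   Spec.mk (nat_lit 26652) (nat_lit 0) [] (nat_lit 0) [] false,
   Spec.mk (nat_lit 26658) (nat_lit 0) [] (nat_lit 0) [] false,
   Spec.mk (nat_lit 26676) (nat_lit 0) [] (nat_lit 0) [] false,
   Spec.mk (nat_lit 26732) (nat_lit 0) [] (nat_lit 0) [] false,
   Spec.mk (nat_lit 26734) (nat_lit 0) [] (nat_lit 0) [] false,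
   Spec.mk (nat_lit 26736) (nat_lit 0) [] (nat_lit 0) [] false,
   Spec.mk (nat_lit 26740) (nat_lit 0) [] (nat_lit 0) [] false,
   Spec.mk (nat_lit 26742) (nat_lit 0) [] (nat_lit 0) [] false,
   Spec.mk (nat_lit 26748) (nat_lit 0) [] (nat_lit 0) [] false,
   Spec.mk (nat_lit 26758) (nat_lit 0) [] (nat_lit 0) [] false,
   Spec.mk (nat_lit 26760) (nat_lit 0) [] (nat_lit 0) [] false,
   Spec.mk (nat_lit 26766) (nat_lit 0) [] (nat_lit 0) [] false,
   Spec.mk (nat_lit 26784) (nat_lit 0) [] (nat_lit 0) [] false,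
   Spec.mk (nat_lit 26812) (nat_lit 0) [] (nat_lit 0) [] false,
   Spec.mk (nat_lit 26814) (nat_lit 0) [] (nat_lit 0) [] false,
   Spec.mk (nat_lit 26820) (nat_lit 0) [] (nat_lit 0) [] false,
   Spec.mk (nat_lit 26838) (nat_lit 0) [] (nat_lit 0) [] false,
   Spec.mk (nat_lit 26892) (nat_lit 0) [] (nat_lit 0) [] false,
   Spec.mk (nat_lit 26978) (nat_lit 0) [] (nat_lit 0) [] false,
   Spec.mk (nat_lit 26980) (nat_lit 0) [] (nat_lit 0) [] false,
   Spec.mk (nat_lit 26984) (nat_lit 0) [] (nat_lit 0) [] false,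
   Spec.mk (nat_lit 26986) (nat_lit 0) [] (nat_lit 0) [] false,
   Spec.mk (nat_lit 26988) (nat_lit 0) [] (nat_lit 0) [] false,
   Spec.mk (nat_lit 26992) (nat_lit 0) [] (nat_lit 0) [] false,
   Spec.mk (nat_lit 26994) (nat_lit 0) [] (nat_lit 0) [] false,
   Spec.mk (nat_lit 27002) (nat_lit 0) [] (nat_lit 0) [] false,
   Spec.mk (nat_lit 27004) (nat_lit 0) [] (nat_lit 0) [] false,
   Spec.mk (nat_lit 27006) (nat_lit 0) [] (nat_lit 0) [] false,
   Spec.mk (nat_lit 27010) (nat_lit 0) [] (nat_lit 0) [] false,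
   Spec.mk (nat_lit 27012) (nat_lit 0) [] (nat_lit 0) [] false]

noncomputable def cd36 : List Spec :=
  [Spec.mk (nat_lit 27018) (nat_lit 0) [] (nat_lit 0) [] false,
   Spec.mk (nat_lit 27028) (nat_lit 0) [] (nat_lit 0) [] false,
   Spec.mk (nat_lit 27030) (nat_lit 0) [] (nat_lit 0) [] false,
   Spec.mk (nat_lit 27036) (nat_lit 0) [] (nat_lit 0) [] false,
   Spec.mk (nat_lit 27056) (nat_lit 0) [] (nat_lit 0) [] false,
   Spec.mk (nat_lit 27058) (nat_lit 0) [] (nat_lit 0) [] false,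
   Spec.mk (nat_lit 27060) (nat_lit 0) [] (nat_lit 0) [] false,
   Spec.mk (nat_lit 27064) (nat_lit 0) [] (nat_lit 0) [] false,
   Spec.mk (nat_lit 27066) (nat_lit 0) [] (nat_lit 0) [] false,
   Spec.mk (nat_lit 27072) (nat_lit 0) [] (nat_lit 0) [] false,
   Spec.mk (nat_lit 27082) (nat_lit 0) [] (nat_lit 0) [] false,
   Spec.mk (nat_lit 27084) (nat_lit 0) [] (nat_lit 0) [] false,
   Spec.mk (nat_lit 27090) (nat_lit 0) [] (nat_lit 0) [] false,
   Spec.mk (nat_lit 27108) (nat_lit 0) [] (nat_lit 0) [] false,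
   Spec.mk (nat_lit 27136) (nat_lit 0) [] (nat_lit 0) [] false,
   Spec.mk (nat_lit 27138) (nat_lit 0) [] (nat_lit 0) [] false,
   Spec.mk (nat_lit 27144) (nat_lit 0) [] (nat_lit 0) [] false,
   Spec.mk (nat_lit 27162) (nat_lit 0) [] (nat_lit 0) [] false,
   Spec.mk (nat_lit 27218) (nat_lit 0) [] (nat_lit 0) [] false,
   Spec.mk (nat_lit 27220) (nat_lit 0) [] (nat_lit 0) [] false,
   Spec.mk (nat_lit 27222) (nat_lit 0) [] (nat_lit 0) [] false,
   Spec.mk (nat_lit 27226) (nat_lit 0) [] (nat_lit 0) [] false,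
   Spec.mk (nat_lit 27228) (nat_lit 0) [] (nat_lit 0) [] false,
   Spec.mk (nat_lit 27234) (nat_lit 0) [] (nat_lit 0) [] false,
   Spec.mk (nat_lit 27244) (nat_lit 0) [] (nat_lit 0) [] false,
   Spec.mk (nat_lit 27246) (nat_lit 0) [] (nat_lit 0) [] false,
   Spec.mk (nat_lit 27252) (nat_lit 0) [] (nat_lit 0) [] false,
   Spec.mk (nat_lit 27270) (nat_lit 0) [] (nat_lit 0) [] false,
   Spec.mk (nat_lit 27298) (nat_lit 0) [] (nat_lit 0) [] false,
   Spec.mk (nat_lit 27300) (nat_lit 0) [] (nat_lit 0) [] false,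
   Spec.mk (nat_lit 27306) (nat_lit 0) [] (nat_lit 0) [] false,
   Spec.mk (nat_lit 27324) (nat_lit 0) [] (nat_lit 0) [] false,
   Spec.mk (nat_lit 27378) (nat_lit 0) [] (nat_lit 0) [] false,
   Spec.mk (nat_lit 27460) (nat_lit 0) [] (nat_lit 0) [] false,
   Spec.mk (nat_lit 27462) (nat_lit 0) [] (nat_lit 0) [] false,
   Spec.mk (nat_lit 27468) (nat_lit 0) [] (nat_lit 0) [] false,
   Spec.mk (nat_lit 27486) (nat_lit 0) [] (nat_lit 0) [] false,
   Spec.mk (nat_lit 27540) (nat_lit 0) [] (nat_lit 0) [] false,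
   Spec.mk (nat_lit 27704) (nat_lit 0) [] (nat_lit 0) [] false,
   Spec.mk (nat_lit 27706) (nat_lit 0) [] (nat_lit 0) [] false,
   Spec.mk (nat_lit 27708) (nat_lit 0) [] (nat_lit 0) [] false,
   Spec.mk (nat_lit 27712) (nat_lit 0) [] (nat_lit 0) [] false,
   Spec.mk (nat_lit 27714) (nat_lit 0) [] (nat_lit 0) [] false,
   Spec.mk (nat_lit 27720) (nat_lit 0) [] (nat_lit 0) [] false,
   Spec.mk (nat_lit 27730) (nat_lit 0) [] (nat_lit 0) [] false,
   Spec.mk (nat_lit 27732) (nat_lit 0) [] (nat_lit 0) [] false,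
   Spec.mk (nat_lit 27738) (nat_lit 0) [] (nat_lit 0) [] false,
   Spec.mk (nat_lit 27756) (nat_lit 0) [] (nat_lit 0) [] false,
   Spec.mk (nat_lit 27784) (nat_lit 0) [] (nat_lit 0) [] false,
   Spec.mk (nat_lit 27786) (nat_lit 0) [] (nat_lit 0) [] false,
   Spec.mk (nat_lit 27792) (nat_lit 0) [] (nat_lit 0) [] false,
   Spec.mk (nat_lit 27810) (nat_lit 0) [] (nat_lit 0) [] false,
   Spec.mk (nat_lit 27864) (nat_lit 0) [] (nat_lit 0) [] false,
   Spec.mk (nat_lit 27946) (nat_lit 0) [] (nat_lit 0) [] false,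
   Spec.mk (nat_lit 27948) (nat_lit 0) [] (nat_lit 0) [] false,
   Spec.mk (nat_lit 27954) (nat_lit 0) [] (nat_lit 0) [] false,
   Spec.mk (nat_lit 27972) (nat_lit 0) [] (nat_lit 0) [] false,
   Spec.mk (nat_lit 28026) (nat_lit 0) [] (nat_lit 0) [] false,
   Spec.mk (nat_lit 28188) (nat_lit 0) [] (nat_lit 0) [] false,
   Spec.mk (nat_lit 28436) (nat_lit 0) [] (nat_lit 0) [] false]

noncomputable def cd37 : List Spec :=
  [Spec.mk (nat_lit 28438) (nat_lit 0) [] (nat_lit 0) [] false,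
   Spec.mk (nat_lit 28442) (nat_lit 0) [] (nat_lit 0) [] false,
   Spec.mk (nat_lit 28444) (nat_lit 0) [] (nat_lit 0) [] false,
   Spec.mk (nat_lit 28446) (nat_lit 0) [] (nat_lit 0) [] false,
   Spec.mk (nat_lit 28450) (nat_lit 0) [] (nat_lit 0) [] false,
   Spec.mk (nat_lit 28452) (nat_lit 0) [] (nat_lit 0) [] false,
   Spec.mk (nat_lit 28460) (nat_lit 0) [] (nat_lit 0) [] false,
   Spec.mk (nat_lit 28462) (nat_lit 0) [] (nat_lit 0) [] false,
   Spec.mk (nat_lit 28464) (nat_lit 0) [] (nat_lit 0) [] false,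
   Spec.mk (nat_lit 28468) (nat_lit 0) [] (nat_lit 0) [] false,
   Spec.mk (nat_lit 28470) (nat_lit 0) [] (nat_lit 0) [] false,
   Spec.mk (nat_lit 28476) (nat_lit 0) [] (nat_lit 0) [] false,
   Spec.mk (nat_lit 28486) (nat_lit 0) [] (nat_lit 0) [] false,
   Spec.mk (nat_lit 28488) (nat_lit 0) [] (nat_lit 0) [] false,
   Spec.mk (nat_lit 28494) (nat_lit 0) [] (nat_lit 0) [] false,
   Spec.mk (nat_lit 28514) (nat_lit 0) [] (nat_lit 0) [] false,
   Spec.mk (nat_lit 28516) (nat_lit 0) [] (nat_lit 0) [] false,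
   Spec.mk (nat_lit 28518) (nat_lit 0) [] (nat_lit 0) [] false,
   Spec.mk (nat_lit 28522) (nat_lit 0) [] (nat_lit 0) [] false,
   Spec.mk (nat_lit 28524) (nat_lit 0) [] (nat_lit 0) [] false,
   Spec.mk (nat_lit 28530) (nat_lit 0) [] (nat_lit 0) [] false,
   Spec.mk (nat_lit 28540) (nat_lit 0) [] (nat_lit 0) [] false,
   Spec.mk (nat_lit 28542) (nat_lit 0) [] (nat_lit 0) [] false,
   Spec.mk (nat_lit 28548) (nat_lit 0) [] (nat_lit 0) [] false,
   Spec.mk (nat_lit 28566) (nat_lit 0) [] (nat_lit 0) [] false,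
   Spec.mk (nat_lit 28594) (nat_lit 0) [] (nat_lit 0) [] false,
   Spec.mk (nat_lit 28596) (nat_lit 0) [] (nat_lit 0) [] false,
   Spec.mk (nat_lit 28602) (nat_lit 0) [] (nat_lit 0) [] false,
   Spec.mk (nat_lit 28620) (nat_lit 0) [] (nat_lit 0) [] false,
   Spec.mk (nat_lit 28676) (nat_lit 0) [] (nat_lit 0) [] false,
   Spec.mk (nat_lit 28678) (nat_lit 0) [] (nat_lit 0) [] false,
   Spec.mk (nat_lit 28680) (nat_lit 0) [] (nat_lit 0) [] false,
   Spec.mk (nat_lit 28684) (nat_lit 0) [] (nat_lit 0) [] false,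
   Spec.mk (nat_lit 28686) (nat_lit 0) [] (nat_lit 0) [] false,
   Spec.mk (nat_lit 28692) (nat_lit 0) [] (nat_lit 0) [] false,
   Spec.mk (nat_lit 28702) (nat_lit 0) [] (nat_lit 0) [] false,
   Spec.mk (nat_lit 28704) (nat_lit 0) [] (nat_lit 0) [] false,
   Spec.mk (nat_lit 28710) (nat_lit 0) [] (nat_lit 0) [] false,
   Spec.mk (nat_lit 28728) (nat_lit 0) [] (nat_lit 0) [] false,
   Spec.mk (nat_lit 28756) (nat_lit 0) [] (nat_lit 0) [] false,
   Spec.mk (nat_lit 28758) (nat_lit 0) [] (nat_lit 0) [] false,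
   Spec.mk (nat_lit 28764) (nat_lit 0) [] (nat_lit 0) [] false,
   Spec.mk (nat_lit 28782) (nat_lit 0) [] (nat_lit 0) [] false,
   Spec.mk (nat_lit 28836) (nat_lit 0) [] (nat_lit 0) [] false,
   Spec.mk (nat_lit 28918) (nat_lit 0) [] (nat_lit 0) [] false,
   Spec.mk (nat_lit 28920) (nat_lit 0) [] (nat_lit 0) [] false,
   Spec.mk (nat_lit 28926) (nat_lit 0) [] (nat_lit 0) [] false,
   Spec.mk (nat_lit 28944) (nat_lit 0) [] (nat_lit 0) [] false,
   Spec.mk (nat_lit 28998) (nat_lit 0) [] (nat_lit 0) [] false,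
   Spec.mk (nat_lit 29162) (nat_lit 0) [] (nat_lit 0) [] false,
   Spec.mk (nat_lit 29164) (nat_lit 0) [] (nat_lit 0) [] false,
   Spec.mk (nat_lit 29166) (nat_lit 0) [] (nat_lit 0) [] false,
   Spec.mk (nat_lit 29170) (nat_lit 0) [] (nat_lit 0) [] false,
   Spec.mk (nat_lit 29172) (nat_lit 0) [] (nat_lit 0) [] false,
   Spec.mk (nat_lit 29178) (nat_lit 0) [] (nat_lit 0) [] false,
   Spec.mk (nat_lit 29188) (nat_lit 0) [] (nat_lit 0) [] false,
   Spec.mk (nat_lit 29190) (nat_lit 0) [] (nat_lit 0) [] false,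
   Spec.mk (nat_lit 29196) (nat_lit 0) [] (nat_lit 0) [] false,
   Spec.mk (nat_lit 29214) (nat_lit 0) [] (nat_lit 0) [] false,
   Spec.mk (nat_lit 29242) (nat_lit 0) [] (nat_lit 0) [] false]

noncomputable def cd38 : List Spec :=
  [Spec.mk (nat_lit 29244) (nat_lit 0) [] (nat_lit 0) [] false,
   Spec.mk (nat_lit 29250) (nat_lit 0) [] (nat_lit 0) [] false,
   Spec.mk (nat_lit 29268) (nat_lit 0) [] (nat_lit 0) [] false,
   Spec.mk (nat_lit 29322) (nat_lit 0) [] (nat_lit 0) [] false,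
   Spec.mk (nat_lit 29404) (nat_lit 0) [] (nat_lit 0) [] false,
   Spec.mk (nat_lit 29406) (nat_lit 0) [] (nat_lit 0) [] false,
   Spec.mk (nat_lit 29412) (nat_lit 0) [] (nat_lit 0) [] false,
   Spec.mk (nat_lit 29430) (nat_lit 0) [] (nat_lit 0) [] false,
   Spec.mk (nat_lit 29484) (nat_lit 0) [] (nat_lit 0) [] false,
   Spec.mk (nat_lit 29646) (nat_lit 0) [] (nat_lit 0) [] false,
   Spec.mk (nat_lit 29890) (nat_lit 0) [] (nat_lit 0) [] false,
   Spec.mk (nat_lit 29892) (nat_lit 0) [] (nat_lit 0) [] false,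
   Spec.mk (nat_lit 29898) (nat_lit 0) [] (nat_lit 0) [] false,
   Spec.mk (nat_lit 29916) (nat_lit 0) [] (nat_lit 0) [] false,
   Spec.mk (nat_lit 29970) (nat_lit 0) [] (nat_lit 0) [] false,
   Spec.mk (nat_lit 30132) (nat_lit 0) [] (nat_lit 0) [] false,
   Spec.mk (nat_lit 30620) (nat_lit 0) [] (nat_lit 0) [] false,
   Spec.mk (nat_lit 30622) (nat_lit 0) [] (nat_lit 0) [] false,
   Spec.mk (nat_lit 30624) (nat_lit 0) [] (nat_lit 0) [] false,
   Spec.mk (nat_lit 30628) (nat_lit 0) [] (nat_lit 0) [] false,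
   Spec.mk (nat_lit 30630) (nat_lit 0) [] (nat_lit 0) [] false,
   Spec.mk (nat_lit 30636) (nat_lit 0) [] (nat_lit 0) [] false,
   Spec.mk (nat_lit 30646) (nat_lit 0) [] (nat_lit 0) [] false,
   Spec.mk (nat_lit 30648) (nat_lit 0) [] (nat_lit 0) [] false,
   Spec.mk (nat_lit 30654) (nat_lit 0) [] (nat_lit 0) [] false,
   Spec.mk (nat_lit 30672) (nat_lit 0) [] (nat_lit 0) [] false,
   Spec.mk (nat_lit 30700) (nat_lit 0) [] (nat_lit 0) [] false,
   Spec.mk (nat_lit 30702) (nat_lit 0) [] (nat_lit 0) [] false,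
   Spec.mk (nat_lit 30708) (nat_lit 0) [] (nat_lit 0) [] false,
   Spec.mk (nat_lit 30726) (nat_lit 0) [] (nat_lit 0) [] false,
   Spec.mk (nat_lit 30780) (nat_lit 0) [] (nat_lit 0) [] false,
   Spec.mk (nat_lit 30862) (nat_lit 0) [] (nat_lit 0) [] false,
   Spec.mk (nat_lit 30864) (nat_lit 0) [] (nat_lit 0) [] false,
   Spec.mk (nat_lit 30870) (nat_lit 0) [] (nat_lit 0) [] false,
   Spec.mk (nat_lit 30888) (nat_lit 0) [] (nat_lit 0) [] false,
   Spec.mk (nat_lit 30942) (nat_lit 0) [] (nat_lit 0) [] false,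
   Spec.mk (nat_lit 31104) (nat_lit 0) [] (nat_lit 0) [] false,
   Spec.mk (nat_lit 31348) (nat_lit 0) [] (nat_lit 0) [] false,
   Spec.mk (nat_lit 31350) (nat_lit 0) [] (nat_lit 0) [] false,
   Spec.mk (nat_lit 31356) (nat_lit 0) [] (nat_lit 0) [] false,
   Spec.mk (nat_lit 31374) (nat_lit 0) [] (nat_lit 0) [] false,
   Spec.mk (nat_lit 31428) (nat_lit 0) [] (nat_lit 0) [] false,
   Spec.mk (nat_lit 31590) (nat_lit 0) [] (nat_lit 0) [] false,
   Spec.mk (nat_lit 32076) (nat_lit 0) [] (nat_lit 0) [] false,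
   Spec.mk (nat_lit 32810) (nat_lit 0) [] (nat_lit 0) [] false,
   Spec.mk (nat_lit 32812) (nat_lit 0) [] (nat_lit 0) [] false,
   Spec.mk (nat_lit 32816) (nat_lit 0) [] (nat_lit 0) [] false,
   Spec.mk (nat_lit 32818) (nat_lit 0) [] (nat_lit 0) [] false,
   Spec.mk (nat_lit 32820) (nat_lit 0) [] (nat_lit 0) [] false,
   Spec.mk (nat_lit 32824) (nat_lit 0) [] (nat_lit 0) [] false,
   Spec.mk (nat_lit 32826) (nat_lit 0) [] (nat_lit 0) [] false,
   Spec.mk (nat_lit 32834) (nat_lit 0) [] (nat_lit 0) [] false,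
   Spec.mk (nat_lit 32836) (nat_lit 0) [] (nat_lit 0) [] false,
   Spec.mk (nat_lit 32838) (nat_lit 0) [] (nat_lit 0) [] false,
   Spec.mk (nat_lit 32842) (nat_lit 0) [] (nat_lit 0) [] false,
   Spec.mk (nat_lit 32844) (nat_lit 0) [] (nat_lit 0) [] false,
   Spec.mk (nat_lit 32850) (nat_lit 0) [] (nat_lit 0) [] false,
   Spec.mk (nat_lit 32860) (nat_lit 0) [] (nat_lit 0) [] false,
   Spec.mk (nat_lit 32862) (nat_lit 0) [] (nat_lit 0) [] false,
   Spec.mk (nat_lit 32868) (nat_lit 0) [] (nat_lit 0) [] false]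

noncomputable def cd39 : List Spec :=
  [Spec.mk (nat_lit 32888) (nat_lit 0) [] (nat_lit 0) [] false,
   Spec.mk (nat_lit 32890) (nat_lit 0) [] (nat_lit 0) [] false,
   Spec.mk (nat_lit 32892) (nat_lit 0) [] (nat_lit 0) [] false,
   Spec.mk (nat_lit 32896) (nat_lit 0) [] (nat_lit 0) [] false,
   Spec.mk (nat_lit 32898) (nat_lit 0) [] (nat_lit 0) [] false,
   Spec.mk (nat_lit 32904) (nat_lit 0) [] (nat_lit 0) [] false,
   Spec.mk (nat_lit 32914) (nat_lit 0) [] (nat_lit 0) [] false,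
   Spec.mk (nat_lit 32916) (nat_lit 0) [] (nat_lit 0) [] false,
   Spec.mk (nat_lit 32922) (nat_lit 0) [] (nat_lit 0) [] false,
   Spec.mk (nat_lit 32940) (nat_lit 0) [] (nat_lit 0) [] false,
   Spec.mk (nat_lit 32968) (nat_lit 0) [] (nat_lit 0) [] false,
   Spec.mk (nat_lit 32970) (nat_lit 0) [] (nat_lit 0) [] false,
   Spec.mk (nat_lit 32976) (nat_lit 0) [] (nat_lit 0) [] false,
   Spec.mk (nat_lit 32994) (nat_lit 0) [] (nat_lit 0) [] false,
   Spec.mk (nat_lit 33050) (nat_lit 0) [] (nat_lit 0) [] false,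
   Spec.mk (nat_lit 33052) (nat_lit 0) [] (nat_lit 0) [] false,
   Spec.mk (nat_lit 33054) (nat_lit 0) [] (nat_lit 0) [] false,
   Spec.mk (nat_lit 33058) (nat_lit 0) [] (nat_lit 0) [] false,
   Spec.mk (nat_lit 33060) (nat_lit 0) [] (nat_lit 0) [] false,
   Spec.mk (nat_lit 33066) (nat_lit 0) [] (nat_lit 0) [] false,
   Spec.mk (nat_lit 33076) (nat_lit 0) [] (nat_lit 0) [] false,
   Spec.mk (nat_lit 33078) (nat_lit 0) [] (nat_lit 0) [] false,
   Spec.mk (nat_lit 33084) (nat_lit 0) [] (nat_lit 0) [] false,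
   Spec.mk (nat_lit 33102) (nat_lit 0) [] (nat_lit 0) [] false,
   Spec.mk (nat_lit 33130) (nat_lit 0) [] (nat_lit 0) [] false,
   Spec.mk (nat_lit 33132) (nat_lit 0) [] (nat_lit 0) [] false,
   Spec.mk (nat_lit 33138) (nat_lit 0) [] (nat_lit 0) [] false,
   Spec.mk (nat_lit 33156) (nat_lit 0) [] (nat_lit 0) [] false,
   Spec.mk (nat_lit 33210) (nat_lit 0) [] (nat_lit 0) [] false,
   Spec.mk (nat_lit 33292) (nat_lit 0) [] (nat_lit 0) [] false,
   Spec.mk (nat_lit 33294) (nat_lit 0) [] (nat_lit 0) [] false,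
   Spec.mk (nat_lit 33300) (nat_lit 0) [] (nat_lit 0) [] false,
   Spec.mk (nat_lit 33318) (nat_lit 0) [] (nat_lit 0) [] false,
   Spec.mk (nat_lit 33372) (nat_lit 0) [] (nat_lit 0) [] false,
   Spec.mk (nat_lit 33536) (nat_lit 0) [] (nat_lit 0) [] false,
   Spec.mk (nat_lit 33538) (nat_lit 0) [] (nat_lit 0) [] false,
   Spec.mk (nat_lit 33540) (nat_lit 0) [] (nat_lit 0) [] false,
   Spec.mk (nat_lit 33544) (nat_lit 0) [] (nat_lit 0) [] false,
   Spec.mk (nat_lit 33546) (nat_lit 0) [] (nat_lit 0) [] false,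
   Spec.mk (nat_lit 33552) (nat_lit 0) [] (nat_lit 0) [] false,
   Spec.mk (nat_lit 33562) (nat_lit 0) [] (nat_lit 0) [] false,
   Spec.mk (nat_lit 33564) (nat_lit 0) [] (nat_lit 0) [] false,
   Spec.mk (nat_lit 33570) (nat_lit 0) [] (nat_lit 0) [] false,
   Spec.mk (nat_lit 33588) (nat_lit 0) [] (nat_lit 0) [] false,
   Spec.mk (nat_lit 33616) (nat_lit 0) [] (nat_lit 0) [] false,
   Spec.mk (nat_lit 33618) (nat_lit 0) [] (nat_lit 0) [] false,
   Spec.mk (nat_lit 33624) (nat_lit 0) [] (nat_lit 0) [] false,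
   Spec.mk (nat_lit 33642) (nat_lit 0) [] (nat_lit 0) [] false,
   Spec.mk (nat_lit 33696) (nat_lit 0) [] (nat_lit 0) [] false,
   Spec.mk (nat_lit 33778) (nat_lit 0) [] (nat_lit 0) [] false,
   Spec.mk (nat_lit 33780) (nat_lit 0) [] (nat_lit 0) [] false,
   Spec.mk (nat_lit 33786) (nat_lit 0) [] (nat_lit 0) [] false,
   Spec.mk (nat_lit 33804) (nat_lit 0) [] (nat_lit 0) [] false,
   Spec.mk (nat_lit 33858) (nat_lit 0) [] (nat_lit 0) [] false,
   Spec.mk (nat_lit 34020) (nat_lit 0) [] (nat_lit 0) [] false,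
   Spec.mk (nat_lit 34264) (nat_lit 0) [] (nat_lit 0) [] false,
   Spec.mk (nat_lit 34266) (nat_lit 0) [] (nat_lit 0) [] false,
   Spec.mk (nat_lit 34272) (nat_lit 0) [] (nat_lit 0) [] false,
   Spec.mk (nat_lit 34290) (nat_lit 0) [] (nat_lit 0) [] false,
   Spec.mk (nat_lit 34344) (nat_lit 0) [] (nat_lit 0) [] false]

noncomputable def cd40 : List Spec :=
  [Spec.mk (nat_lit 34506) (nat_lit 0) [] (nat_lit 0) [] false,
   Spec.mk (nat_lit 34994) (nat_lit 0) [] (nat_lit 0) [] false,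
   Spec.mk (nat_lit 34996) (nat_lit 0) [] (nat_lit 0) [] false,
   Spec.mk (nat_lit 34998) (nat_lit 0) [] (nat_lit 0) [] false,
   Spec.mk (nat_lit 35002) (nat_lit 0) [] (nat_lit 0) [] false,
   Spec.mk (nat_lit 35004) (nat_lit 0) [] (nat_lit 0) [] false,
   Spec.mk (nat_lit 35010) (nat_lit 0) [] (nat_lit 0) [] false,
   Spec.mk (nat_lit 35020) (nat_lit 0) [] (nat_lit 0) [] false,
   Spec.mk (nat_lit 35022) (nat_lit 0) [] (nat_lit 0) [] false,
   Spec.mk (nat_lit 35028) (nat_lit 0) [] (nat_lit 0) [] false,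
   Spec.mk (nat_lit 35046) (nat_lit 0) [] (nat_lit 0) [] false,
   Spec.mk (nat_lit 35074) (nat_lit 0) [] (nat_lit 0) [] false,
   Spec.mk (nat_lit 35076) (nat_lit 0) [] (nat_lit 0) [] false,
   Spec.mk (nat_lit 35082) (nat_lit 0) [] (nat_lit 0) [] false,
   Spec.mk (nat_lit 35100) (nat_lit 0) [] (nat_lit 0) [] false,
   Spec.mk (nat_lit 35154) (nat_lit 0) [] (nat_lit 0) [] false,
   Spec.mk (nat_lit 35236) (nat_lit 0) [] (nat_lit 0) [] false,
   Spec.mk (nat_lit 35238) (nat_lit 0) [] (nat_lit 0) [] false,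
   Spec.mk (nat_lit 35244) (nat_lit 0) [] (nat_lit 0) [] false,
   Spec.mk (nat_lit 35262) (nat_lit 0) [] (nat_lit 0) [] false,
   Spec.mk (nat_lit 35316) (nat_lit 0) [] (nat_lit 0) [] false,
   Spec.mk (nat_lit 35478) (nat_lit 0) [] (nat_lit 0) [] false,
   Spec.mk (nat_lit 35722) (nat_lit 0) [] (nat_lit 0) [] false,
   Spec.mk (nat_lit 35724) (nat_lit 0) [] (nat_lit 0) [] false,
   Spec.mk (nat_lit 35730) (nat_lit 0) [] (nat_lit 0) [] false,
   Spec.mk (nat_lit 35748) (nat_lit 0) [] (nat_lit 0) [] false,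
   Spec.mk (nat_lit 35802) (nat_lit 0) [] (nat_lit 0) [] false,
   Spec.mk (nat_lit 35964) (nat_lit 0) [] (nat_lit 0) [] false,
   Spec.mk (nat_lit 36450) (nat_lit 0) [] (nat_lit 0) [] false,
   Spec.mk (nat_lit 37180) (nat_lit 0) [] (nat_lit 0) [] false,
   Spec.mk (nat_lit 37182) (nat_lit 0) [] (nat_lit 0) [] false,
   Spec.mk (nat_lit 37188) (nat_lit 0) [] (nat_lit 0) [] false,
   Spec.mk (nat_lit 37206) (nat_lit 0) [] (nat_lit 0) [] false,
   Spec.mk (nat_lit 37260) (nat_lit 0) [] (nat_lit 0) [] false,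
   Spec.mk (nat_lit 37422) (nat_lit 0) [] (nat_lit 0) [] false,
   Spec.mk (nat_lit 37908) (nat_lit 0) [] (nat_lit 0) [] false,
   Spec.mk (nat_lit 39374) (nat_lit 0) [] (nat_lit 0) [] false,
   Spec.mk (nat_lit 39380) (nat_lit 0) [] (nat_lit 0) [] false,
   Spec.mk (nat_lit 39382) (nat_lit 0) [] (nat_lit 0) [] false,
   Spec.mk (nat_lit 39386) (nat_lit 0) [] (nat_lit 0) [] false,
   Spec.mk (nat_lit 39388) (nat_lit 0) [] (nat_lit 0) [] false,
   Spec.mk (nat_lit 39390) (nat_lit 0) [] (nat_lit 0) [] false,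
   Spec.mk (nat_lit 39398) (nat_lit 0) [] (nat_lit 0) [] false,
   Spec.mk (nat_lit 39400) (nat_lit 0) [] (nat_lit 0) [] false,
   Spec.mk (nat_lit 39404) (nat_lit 0) [] (nat_lit 0) [] false,
   Spec.mk (nat_lit 39406) (nat_lit 0) [] (nat_lit 0) [] false,
   Spec.mk (nat_lit 39408) (nat_lit 0) [] (nat_lit 0) [] false,
   Spec.mk (nat_lit 39412) (nat_lit 0) [] (nat_lit 0) [] false,
   Spec.mk (nat_lit 39414) (nat_lit 0) [] (nat_lit 0) [] false,
   Spec.mk (nat_lit 39422) (nat_lit 0) [] (nat_lit 0) [] false,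
   Spec.mk (nat_lit 39424) (nat_lit 0) [] (nat_lit 0) [] false,
   Spec.mk (nat_lit 39426) (nat_lit 0) [] (nat_lit 0) [] false,
   Spec.mk (nat_lit 39430) (nat_lit 0) [] (nat_lit 0) [] false,
   Spec.mk (nat_lit 39432) (nat_lit 0) [] (nat_lit 0) [] false,
   Spec.mk (nat_lit 39438) (nat_lit 0) [] (nat_lit 0) [] false,
   Spec.mk (nat_lit 39452) (nat_lit 0) [] (nat_lit 0) [] false,
   Spec.mk (nat_lit 39454) (nat_lit 0) [] (nat_lit 0) [] false,
   Spec.mk (nat_lit 39458) (nat_lit 0) [] (nat_lit 0) [] false,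
   Spec.mk (nat_lit 39460) (nat_lit 0) [] (nat_lit 0) [] false,
   Spec.mk (nat_lit 39462) (nat_lit 0) [] (nat_lit 0) [] false]

noncomputable def cd41 : List Spec :=
  [Spec.mk (nat_lit 39466) (nat_lit 0) [] (nat_lit 0) [] false,
   Spec.mk (nat_lit 39468) (nat_lit 0) [] (nat_lit 0) [] false,
   Spec.mk (nat_lit 39476) (nat_lit 0) [] (nat_lit 0) [] false,
   Spec.mk (nat_lit 39478) (nat_lit 0) [] (nat_lit 0) [] false,
   Spec.mk (nat_lit 39480) (nat_lit 0) [] (nat_lit 0) [] false,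
   Spec.mk (nat_lit 39484) (nat_lit 0) [] (nat_lit 0) [] false,
   Spec.mk (nat_lit 39486) (nat_lit 0) [] (nat_lit 0) [] false,
   Spec.mk (nat_lit 39492) (nat_lit 0) [] (nat_lit 0) [] false,
   Spec.mk (nat_lit 39502) (nat_lit 0) [] (nat_lit 0) [] false,
   Spec.mk (nat_lit 39504) (nat_lit 0) [] (nat_lit 0) [] false,
   Spec.mk (nat_lit 39510) (nat_lit 0) [] (nat_lit 0) [] false,
   Spec.mk (nat_lit 39530) (nat_lit 0) [] (nat_lit 0) [] false,
   Spec.mk (nat_lit 39532) (nat_lit 0) [] (nat_lit 0) [] false,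
   Spec.mk (nat_lit 39534) (nat_lit 0) [] (nat_lit 0) [] false,
   Spec.mk (nat_lit 39538) (nat_lit 0) [] (nat_lit 0) [] false,
   Spec.mk (nat_lit 39540) (nat_lit 0) [] (nat_lit 0) [] false,
   Spec.mk (nat_lit 39546) (nat_lit 0) [] (nat_lit 0) [] false,
   Spec.mk (nat_lit 39556) (nat_lit 0) [] (nat_lit 0) [] false,
   Spec.mk (nat_lit 39558) (nat_lit 0) [] (nat_lit 0) [] false,
   Spec.mk (nat_lit 39564) (nat_lit 0) [] (nat_lit 0) [] false,
   Spec.mk (nat_lit 39582) (nat_lit 0) [] (nat_lit 0) [] false,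
   Spec.mk (nat_lit 39614) (nat_lit 0) [] (nat_lit 0) [] false,
   Spec.mk (nat_lit 39616) (nat_lit 0) [] (nat_lit 0) [] false,
   Spec.mk (nat_lit 39620) (nat_lit 0) [] (nat_lit 0) [] false,
   Spec.mk (nat_lit 39622) (nat_lit 0) [] (nat_lit 0) [] false,
   Spec.mk (nat_lit 39624) (nat_lit 0) [] (nat_lit 0) [] false,
   Spec.mk (nat_lit 39628) (nat_lit 0) [] (nat_lit 0) [] false,
   Spec.mk (nat_lit 39630) (nat_lit 0) [] (nat_lit 0) [] false,
   Spec.mk (nat_lit 39638) (nat_lit 0) [] (nat_lit 0) [] false,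
   Spec.mk (nat_lit 39640) (nat_lit 0) [] (nat_lit 0) [] false,
   Spec.mk (nat_lit 39642) (nat_lit 0) [] (nat_lit 0) [] false,
   Spec.mk (nat_lit 39646) (nat_lit 0) [] (nat_lit 0) [] false,
   Spec.mk (nat_lit 39648) (nat_lit 0) [] (nat_lit 0) [] false,
   Spec.mk (nat_lit 39654) (nat_lit 0) [] (nat_lit 0) [] false,
   Spec.mk (nat_lit 39664) (nat_lit 0) [] (nat_lit 0) [] false,
   Spec.mk (nat_lit 39666) (nat_lit 0) [] (nat_lit 0) [] false,
   Spec.mk (nat_lit 39672) (nat_lit 0) [] (nat_lit 0) [] false,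
   Spec.mk (nat_lit 39692) (nat_lit 0) [] (nat_lit 0) [] false,
   Spec.mk (nat_lit 39694) (nat_lit 0) [] (nat_lit 0) [] false,
   Spec.mk (nat_lit 39696) (nat_lit 0) [] (nat_lit 0) [] false,
   Spec.mk (nat_lit 39700) (nat_lit 0) [] (nat_lit 0) [] false,
   Spec.mk (nat_lit 39702) (nat_lit 0) [] (nat_lit 0) [] false,
   Spec.mk (nat_lit 39708) (nat_lit 0) [] (nat_lit 0) [] false,
   Spec.mk (nat_lit 39718) (nat_lit 0) [] (nat_lit 0) [] false,
   Spec.mk (nat_lit 39720) (nat_lit 0) [] (nat_lit 0) [] false,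
   Spec.mk (nat_lit 39726) (nat_lit 0) [] (nat_lit 0) [] false,
   Spec.mk (nat_lit 39744) (nat_lit 0) [] (nat_lit 0) [] false,
   Spec.mk (nat_lit 39772) (nat_lit 0) [] (nat_lit 0) [] false,
   Spec.mk (nat_lit 39774) (nat_lit 0) [] (nat_lit 0) [] false,
   Spec.mk (nat_lit 39780) (nat_lit 0) [] (nat_lit 0) [] false,
   Spec.mk (nat_lit 39798) (nat_lit 0) [] (nat_lit 0) [] false,
   Spec.mk (nat_lit 39854) (nat_lit 0) [] (nat_lit 0) [] false,
   Spec.mk (nat_lit 39856) (nat_lit 0) [] (nat_lit 0) [] false,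
   Spec.mk (nat_lit 39858) (nat_lit 0) [] (nat_lit 0) [] false,
   Spec.mk (nat_lit 39862) (nat_lit 0) [] (nat_lit 0) [] false,
   Spec.mk (nat_lit 39864) (nat_lit 0) [] (nat_lit 0) [] false,
   Spec.mk (nat_lit 39870) (nat_lit 0) [] (nat_lit 0) [] false,
   Spec.mk (nat_lit 39880) (nat_lit 0) [] (nat_lit 0) [] false,
   Spec.mk (nat_lit 39882) (nat_lit 0) [] (nat_lit 0) [] false,
   Spec.mk (nat_lit 39888) (nat_lit 0) [] (nat_lit 0) [] false]

noncomputable def cd42 : List Spec :=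
  [Spec.mk (nat_lit 39906) (nat_lit 0) [] (nat_lit 0) [] false,
   Spec.mk (nat_lit 39934) (nat_lit 0) [] (nat_lit 0) [] false,
   Spec.mk (nat_lit 39936) (nat_lit 0) [] (nat_lit 0) [] false,
   Spec.mk (nat_lit 39942) (nat_lit 0) [] (nat_lit 0) [] false,
   Spec.mk (nat_lit 39960) (nat_lit 0) [] (nat_lit 0) [] false,
   Spec.mk (nat_lit 40014) (nat_lit 0) [] (nat_lit 0) [] false,
   Spec.mk (nat_lit 40100) (nat_lit 0) [] (nat_lit 0) [] false,
   Spec.mk (nat_lit 40102) (nat_lit 0) [] (nat_lit 0) [] false,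
   Spec.mk (nat_lit 40106) (nat_lit 0) [] (nat_lit 0) [] false,
   Spec.mk (nat_lit 40108) (nat_lit 0) [] (nat_lit 0) [] false,
   Spec.mk (nat_lit 40110) (nat_lit 0) [] (nat_lit 0) [] false,
   Spec.mk (nat_lit 40114) (nat_lit 0) [] (nat_lit 0) [] false,
   Spec.mk (nat_lit 40116) (nat_lit 0) [] (nat_lit 0) [] false,
   Spec.mk (nat_lit 40124) (nat_lit 0) [] (nat_lit 0) [] false,
   Spec.mk (nat_lit 40126) (nat_lit 0) [] (nat_lit 0) [] false,
   Spec.mk (nat_lit 40128) (nat_lit 0) [] (nat_lit 0) [] false,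
   Spec.mk (nat_lit 40132) (nat_lit 0) [] (nat_lit 0) [] false,
   Spec.mk (nat_lit 40134) (nat_lit 0) [] (nat_lit 0) [] false,
   Spec.mk (nat_lit 40140) (nat_lit 0) [] (nat_lit 0) [] false,
   Spec.mk (nat_lit 40150) (nat_lit 0) [] (nat_lit 0) [] false,
   Spec.mk (nat_lit 40152) (nat_lit 0) [] (nat_lit 0) [] false,
   Spec.mk (nat_lit 40158) (nat_lit 0) [] (nat_lit 0) [] false,
   Spec.mk (nat_lit 40178) (nat_lit 0) [] (nat_lit 0) [] false,
   Spec.mk (nat_lit 40180) (nat_lit 0) [] (nat_lit 0) [] false,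
   Spec.mk (nat_lit 40182) (nat_lit 0) [] (nat_lit 0) [] false,
   Spec.mk (nat_lit 40186) (nat_lit 0) [] (nat_lit 0) [] false,
   Spec.mk (nat_lit 40188) (nat_lit 0) [] (nat_lit 0) [] false,
   Spec.mk (nat_lit 40194) (nat_lit 0) [] (nat_lit 0) [] false,
   Spec.mk (nat_lit 40204) (nat_lit 0) [] (nat_lit 0) [] false,
   Spec.mk (nat_lit 40206) (nat_lit 0) [] (nat_lit 0) [] false,
   Spec.mk (nat_lit 40212) (nat_lit 0) [] (nat_lit 0) [] false,
   Spec.mk (nat_lit 40230) (nat_lit 0) [] (nat_lit 0) [] false,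
   Spec.mk (nat_lit 40258) (nat_lit 0) [] (nat_lit 0) [] false,
   Spec.mk (nat_lit 40260) (nat_lit 0) [] (nat_lit 0) [] false,
   Spec.mk (nat_lit 40266) (nat_lit 0) [] (nat_lit 0) [] false,
   Spec.mk (nat_lit 40284) (nat_lit 0) [] (nat_lit 0) [] false,
   Spec.mk (nat_lit 40340) (nat_lit 0) [] (nat_lit 0) [] false,
   Spec.mk (nat_lit 40342) (nat_lit 0) [] (nat_lit 0) [] false,
   Spec.mk (nat_lit 40344) (nat_lit 0) [] (nat_lit 0) [] false,
   Spec.mk (nat_lit 40348) (nat_lit 0) [] (nat_lit 0) [] false,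
   Spec.mk (nat_lit 40350) (nat_lit 0) [] (nat_lit 0) [] false,
   Spec.mk (nat_lit 40356) (nat_lit 0) [] (nat_lit 0) [] false,
   Spec.mk (nat_lit 40366) (nat_lit 0) [] (nat_lit 0) [] false,
   Spec.mk (nat_lit 40368) (nat_lit 0) [] (nat_lit 0) [] false,
   Spec.mk (nat_lit 40374) (nat_lit 0) [] (nat_lit 0) [] false,
   Spec.mk (nat_lit 40392) (nat_lit 0) [] (nat_lit 0) [] false,
   Spec.mk (nat_lit 40420) (nat_lit 0) [] (nat_lit 0) [] false,
   Spec.mk (nat_lit 40422) (nat_lit 0) [] (nat_lit 0) [] false,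
   Spec.mk (nat_lit 40428) (nat_lit 0) [] (nat_lit 0) [] false,
   Spec.mk (nat_lit 40446) (nat_lit 0) [] (nat_lit 0) [] false,
   Spec.mk (nat_lit 40500) (nat_lit 0) [] (nat_lit 0) [] false,
   Spec.mk (nat_lit 40582) (nat_lit 0) [] (nat_lit 0) [] false,
   Spec.mk (nat_lit 40584) (nat_lit 0) [] (nat_lit 0) [] false,
   Spec.mk (nat_lit 40590) (nat_lit 0) [] (nat_lit 0) [] false,
   Spec.mk (nat_lit 40608) (nat_lit 0) [] (nat_lit 0) [] false,
   Spec.mk (nat_lit 40662) (nat_lit 0) [] (nat_lit 0) [] false,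
   Spec.mk (nat_lit 40826) (nat_lit 0) [] (nat_lit 0) [] false,
   Spec.mk (nat_lit 40828) (nat_lit 0) [] (nat_lit 0) [] false,
   Spec.mk (nat_lit 40830) (nat_lit 0) [] (nat_lit 0) [] false,
   Spec.mk (nat_lit 40834) (nat_lit 0) [] (nat_lit 0) [] false]

noncomputable def cd43 : List Spec :=
  [Spec.mk (nat_lit 40836) (nat_lit 0) [] (nat_lit 0) [] false,
   Spec.mk (nat_lit 40842) (nat_lit 0) [] (nat_lit 0) [] false,
   Spec.mk (nat_lit 40852) (nat_lit 0) [] (nat_lit 0) [] false,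
   Spec.mk (nat_lit 40854) (nat_lit 0) [] (nat_lit 0) [] false,
   Spec.mk (nat_lit 40860) (nat_lit 0) [] (nat_lit 0) [] false,
   Spec.mk (nat_lit 40878) (nat_lit 0) [] (nat_lit 0) [] false,
   Spec.mk (nat_lit 40906) (nat_lit 0) [] (nat_lit 0) [] false,
   Spec.mk (nat_lit 40908) (nat_lit 0) [] (nat_lit 0) [] false,
   Spec.mk (nat_lit 40914) (nat_lit 0) [] (nat_lit 0) [] false,
   Spec.mk (nat_lit 40932) (nat_lit 0) [] (nat_lit 0) [] false,
   Spec.mk (nat_lit 40986) (nat_lit 0) [] (nat_lit 0) [] false,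
   Spec.mk (nat_lit 41068) (nat_lit 0) [] (nat_lit 0) [] false,
   Spec.mk (nat_lit 41070) (nat_lit 0) [] (nat_lit 0) [] false,
   Spec.mk (nat_lit 41076) (nat_lit 0) [] (nat_lit 0) [] false,
   Spec.mk (nat_lit 41094) (nat_lit 0) [] (nat_lit 0) [] false,
   Spec.mk (nat_lit 41148) (nat_lit 0) [] (nat_lit 0) [] false,
   Spec.mk (nat_lit 41310) (nat_lit 0) [] (nat_lit 0) [] false,
   Spec.mk (nat_lit 41558) (nat_lit 0) [] (nat_lit 0) [] false,
   Spec.mk (nat_lit 41560) (nat_lit 0) [] (nat_lit 0) [] false,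
   Spec.mk (nat_lit 41564) (nat_lit 0) [] (nat_lit 0) [] false,
   Spec.mk (nat_lit 41566) (nat_lit 0) [] (nat_lit 0) [] false,
   Spec.mk (nat_lit 41568) (nat_lit 0) [] (nat_lit 0) [] false,
   Spec.mk (nat_lit 41572) (nat_lit 0) [] (nat_lit 0) [] false,
   Spec.mk (nat_lit 41574) (nat_lit 0) [] (nat_lit 0) [] false,
   Spec.mk (nat_lit 41582) (nat_lit 0) [] (nat_lit 0) [] false,
   Spec.mk (nat_lit 41584) (nat_lit 0) [] (nat_lit 0) [] false,
   Spec.mk (nat_lit 41586) (nat_lit 0) [] (nat_lit 0) [] false,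
   Spec.mk (nat_lit 41590) (nat_lit 0) [] (nat_lit 0) [] false,
   Spec.mk (nat_lit 41592) (nat_lit 0) [] (nat_lit 0) [] false,
   Spec.mk (nat_lit 41598) (nat_lit 0) [] (nat_lit 0) [] false,
   Spec.mk (nat_lit 41608) (nat_lit 0) [] (nat_lit 0) [] false,
   Spec.mk (nat_lit 41610) (nat_lit 0) [] (nat_lit 0) [] false,
   Spec.mk (nat_lit 41616) (nat_lit 0) [] (nat_lit 0) [] false,
   Spec.mk (nat_lit 41636) (nat_lit 0) [] (nat_lit 0) [] false,
   Spec.mk (nat_lit 41638) (nat_lit 0) [] (nat_lit 0) [] false,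
   Spec.mk (nat_lit 41640) (nat_lit 0) [] (nat_lit 0) [] false,
   Spec.mk (nat_lit 41644) (nat_lit 0) [] (nat_lit 0) [] false,
   Spec.mk (nat_lit 41646) (nat_lit 0) [] (nat_lit 0) [] false,
   Spec.mk (nat_lit 41652) (nat_lit 0) [] (nat_lit 0) [] false,
   Spec.mk (nat_lit 41662) (nat_lit 0) [] (nat_lit 0) [] false,
   Spec.mk (nat_lit 41664) (nat_lit 0) [] (nat_lit 0) [] false,
   Spec.mk (nat_lit 41670) (nat_lit 0) [] (nat_lit 0) [] false,
   Spec.mk (nat_lit 41688) (nat_lit 0) [] (nat_lit 0) [] false,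
   Spec.mk (nat_lit 41716) (nat_lit 0) [] (nat_lit 0) [] false,
   Spec.mk (nat_lit 41718) (nat_lit 0) [] (nat_lit 0) [] false,
   Spec.mk (nat_lit 41724) (nat_lit 0) [] (nat_lit 0) [] false,
   Spec.mk (nat_lit 41742) (nat_lit 0) [] (nat_lit 0) [] false,
   Spec.mk (nat_lit 41798) (nat_lit 0) [] (nat_lit 0) [] false,
   Spec.mk (nat_lit 41800) (nat_lit 0) [] (nat_lit 0) [] false,
   Spec.mk (nat_lit 41802) (nat_lit 0) [] (nat_lit 0) [] false,
   Spec.mk (nat_lit 41806) (nat_lit 0) [] (nat_lit 0) [] false,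
   Spec.mk (nat_lit 41808) (nat_lit 0) [] (nat_lit 0) [] false,
   Spec.mk (nat_lit 41814) (nat_lit 0) [] (nat_lit 0) [] false,
   Spec.mk (nat_lit 41824) (nat_lit 0) [] (nat_lit 0) [] false,
   Spec.mk (nat_lit 41826) (nat_lit 0) [] (nat_lit 0) [] false,
   Spec.mk (nat_lit 41832) (nat_lit 0) [] (nat_lit 0) [] false,
   Spec.mk (nat_lit 41850) (nat_lit 0) [] (nat_lit 0) [] false,
   Spec.mk (nat_lit 41878) (nat_lit 0) [] (nat_lit 0) [] false,
   Spec.mk (nat_lit 41880) (nat_lit 0) [] (nat_lit 0) [] false,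
   Spec.mk (nat_lit 41886) (nat_lit 0) [] (nat_lit 0) [] false]

noncomputable def cd44 : List Spec :=
  [Spec.mk (nat_lit 41904) (nat_lit 0) [] (nat_lit 0) [] false,
   Spec.mk (nat_lit 41958) (nat_lit 0) [] (nat_lit 0) [] false,
   Spec.mk (nat_lit 42040) (nat_lit 0) [] (nat_lit 0) [] false,
   Spec.mk (nat_lit 42042) (nat_lit 0) [] (nat_lit 0) [] false,
   Spec.mk (nat_lit 42048) (nat_lit 0) [] (nat_lit 0) [] false,
   Spec.mk (nat_lit 42066) (nat_lit 0) [] (nat_lit 0) [] false,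
   Spec.mk (nat_lit 42120) (nat_lit 0) [] (nat_lit 0) [] false,
   Spec.mk (nat_lit 42284) (nat_lit 0) [] (nat_lit 0) [] false,
   Spec.mk (nat_lit 42286) (nat_lit 0) [] (nat_lit 0) [] false,
   Spec.mk (nat_lit 42288) (nat_lit 0) [] (nat_lit 0) [] false,
   Spec.mk (nat_lit 42292) (nat_lit 0) [] (nat_lit 0) [] false,
   Spec.mk (nat_lit 42294) (nat_lit 0) [] (nat_lit 0) [] false,
   Spec.mk (nat_lit 42300) (nat_lit 0) [] (nat_lit 0) [] false,
   Spec.mk (nat_lit 42310) (nat_lit 0) [] (nat_lit 0) [] false,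
   Spec.mk (nat_lit 42312) (nat_lit 0) [] (nat_lit 0) [] false,
   Spec.mk (nat_lit 42318) (nat_lit 0) [] (nat_lit 0) [] false,
   Spec.mk (nat_lit 42336) (nat_lit 0) [] (nat_lit 0) [] false,
   Spec.mk (nat_lit 42364) (nat_lit 0) [] (nat_lit 0) [] false,
   Spec.mk (nat_lit 42366) (nat_lit 0) [] (nat_lit 0) [] false,
   Spec.mk (nat_lit 42372) (nat_lit 0) [] (nat_lit 0) [] false,
   Spec.mk (nat_lit 42390) (nat_lit 0) [] (nat_lit 0) [] false,
   Spec.mk (nat_lit 42444) (nat_lit 0) [] (nat_lit 0) [] false,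
   Spec.mk (nat_lit 42526) (nat_lit 0) [] (nat_lit 0) [] false,
   Spec.mk (nat_lit 42528) (nat_lit 0) [] (nat_lit 0) [] false,
   Spec.mk (nat_lit 42534) (nat_lit 0) [] (nat_lit 0) [] false,
   Spec.mk (nat_lit 42552) (nat_lit 0) [] (nat_lit 0) [] false,
   Spec.mk (nat_lit 42606) (nat_lit 0) [] (nat_lit 0) [] false,
   Spec.mk (nat_lit 42768) (nat_lit 0) [] (nat_lit 0) [] false,
   Spec.mk (nat_lit 43012) (nat_lit 0) [] (nat_lit 0) [] false,
   Spec.mk (nat_lit 43014) (nat_lit 0) [] (nat_lit 0) [] false,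
   Spec.mk (nat_lit 43020) (nat_lit 0) [] (nat_lit 0) [] false,
   Spec.mk (nat_lit 43038) (nat_lit 0) [] (nat_lit 0) [] false,
   Spec.mk (nat_lit 43092) (nat_lit 0) [] (nat_lit 0) [] false,
   Spec.mk (nat_lit 43254) (nat_lit 0) [] (nat_lit 0) [] false,
   Spec.mk (nat_lit 43742) (nat_lit 0) [] (nat_lit 0) [] false,
   Spec.mk (nat_lit 43744) (nat_lit 0) [] (nat_lit 0) [] false,
   Spec.mk (nat_lit 43746) (nat_lit 0) [] (nat_lit 0) [] false,
   Spec.mk (nat_lit 43750) (nat_lit 0) [] (nat_lit 0) [] false,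
   Spec.mk (nat_lit 43752) (nat_lit 0) [] (nat_lit 0) [] false,
   Spec.mk (nat_lit 43758) (nat_lit 0) [] (nat_lit 0) [] false,
   Spec.mk (nat_lit 43768) (nat_lit 0) [] (nat_lit 0) [] false,
   Spec.mk (nat_lit 43770) (nat_lit 0) [] (nat_lit 0) [] false,
   Spec.mk (nat_lit 43776) (nat_lit 0) [] (nat_lit 0) [] false,
   Spec.mk (nat_lit 43794) (nat_lit 0) [] (nat_lit 0) [] false,
   Spec.mk (nat_lit 43822) (nat_lit 0) [] (nat_lit 0) [] false,
   Spec.mk (nat_lit 43824) (nat_lit 0) [] (nat_lit 0) [] false,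
   Spec.mk (nat_lit 43830) (nat_lit 0) [] (nat_lit 0) [] false,
   Spec.mk (nat_lit 43848) (nat_lit 0) [] (nat_lit 0) [] false,
   Spec.mk (nat_lit 43902) (nat_lit 0) [] (nat_lit 0) [] false,
   Spec.mk (nat_lit 43984) (nat_lit 0) [] (nat_lit 0) [] false,
   Spec.mk (nat_lit 43986) (nat_lit 0) [] (nat_lit 0) [] false,
   Spec.mk (nat_lit 43992) (nat_lit 0) [] (nat_lit 0) [] false,
   Spec.mk (nat_lit 44010) (nat_lit 0) [] (nat_lit 0) [] false,
   Spec.mk (nat_lit 44064) (nat_lit 0) [] (nat_lit 0) [] false,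
   Spec.mk (nat_lit 44226) (nat_lit 0) [] (nat_lit 0) [] false,
   Spec.mk (nat_lit 44470) (nat_lit 0) [] (nat_lit 0) [] false,
   Spec.mk (nat_lit 44472) (nat_lit 0) [] (nat_lit 0) [] false,
   Spec.mk (nat_lit 44478) (nat_lit 0) [] (nat_lit 0) [] false,
   Spec.mk (nat_lit 44496) (nat_lit 0) [] (nat_lit 0) [] false,
   Spec.mk (nat_lit 44550) (nat_lit 0) [] (nat_lit 0) [] false]

noncomputable def cd45 : List Spec :=
  [Spec.mk (nat_lit 44712) (nat_lit 0) [] (nat_lit 0) [] false,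
   Spec.mk (nat_lit 45198) (nat_lit 0) [] (nat_lit 0) [] false,
   Spec.mk (nat_lit 45932) (nat_lit 0) [] (nat_lit 0) [] false,
   Spec.mk (nat_lit 45934) (nat_lit 0) [] (nat_lit 0) [] false,
   Spec.mk (nat_lit 45938) (nat_lit 0) [] (nat_lit 0) [] false,
   Spec.mk (nat_lit 45940) (nat_lit 0) [] (nat_lit 0) [] false,
   Spec.mk (nat_lit 45942) (nat_lit 0) [] (nat_lit 0) [] false,
   Spec.mk (nat_lit 45946) (nat_lit 0) [] (nat_lit 0) [] false,
   Spec.mk (nat_lit 45948) (nat_lit 0) [] (nat_lit 0) [] false,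
   Spec.mk (nat_lit 45956) (nat_lit 0) [] (nat_lit 0) [] false,
   Spec.mk (nat_lit 45958) (nat_lit 0) [] (nat_lit 0) [] false,
   Spec.mk (nat_lit 45960) (nat_lit 0) [] (nat_lit 0) [] false,
   Spec.mk (nat_lit 45964) (nat_lit 0) [] (nat_lit 0) [] false,
   Spec.mk (nat_lit 45966) (nat_lit 0) [] (nat_lit 0) [] false,
   Spec.mk (nat_lit 45972) (nat_lit 0) [] (nat_lit 0) [] false,
   Spec.mk (nat_lit 45982) (nat_lit 0) [] (nat_lit 0) [] false,
   Spec.mk (nat_lit 45984) (nat_lit 0) [] (nat_lit 0) [] false,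
   Spec.mk (nat_lit 45990) (nat_lit 0) [] (nat_lit 0) [] false,
   Spec.mk (nat_lit 46010) (nat_lit 0) [] (nat_lit 0) [] false,
   Spec.mk (nat_lit 46012) (nat_lit 0) [] (nat_lit 0) [] false,
   Spec.mk (nat_lit 46014) (nat_lit 0) [] (nat_lit 0) [] false,
   Spec.mk (nat_lit 46018) (nat_lit 0) [] (nat_lit 0) [] false,
   Spec.mk (nat_lit 46020) (nat_lit 0) [] (nat_lit 0) [] false,
   Spec.mk (nat_lit 46026) (nat_lit 0) [] (nat_lit 0) [] false,
   Spec.mk (nat_lit 46036) (nat_lit 0) [] (nat_lit 0) [] false,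
   Spec.mk (nat_lit 46038) (nat_lit 0) [] (nat_lit 0) [] false,
   Spec.mk (nat_lit 46044) (nat_lit 0) [] (nat_lit 0) [] false,
   Spec.mk (nat_lit 46062) (nat_lit 0) [] (nat_lit 0) [] false,
   Spec.mk (nat_lit 46090) (nat_lit 0) [] (nat_lit 0) [] false,
   Spec.mk (nat_lit 46092) (nat_lit 0) [] (nat_lit 0) [] false,
   Spec.mk (nat_lit 46098) (nat_lit 0) [] (nat_lit 0) [] false,
   Spec.mk (nat_lit 46116) (nat_lit 0) [] (nat_lit 0) [] false,
   Spec.mk (nat_lit 46172) (nat_lit 0) [] (nat_lit 0) [] false,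
   Spec.mk (nat_lit 46174) (nat_lit 0) [] (nat_lit 0) [] false,
   Spec.mk (nat_lit 46176) (nat_lit 0) [] (nat_lit 0) [] false,
   Spec.mk (nat_lit 46180) (nat_lit 0) [] (nat_lit 0) [] false,
   Spec.mk (nat_lit 46182) (nat_lit 0) [] (nat_lit 0) [] false,
   Spec.mk (nat_lit 46188) (nat_lit 0) [] (nat_lit 0) [] false,
   Spec.mk (nat_lit 46198) (nat_lit 0) [] (nat_lit 0) [] false,
   Spec.mk (nat_lit 46200) (nat_lit 0) [] (nat_lit 0) [] false,
   Spec.mk (nat_lit 46206) (nat_lit 0) [] (nat_lit 0) [] false,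
   Spec.mk (nat_lit 46224) (nat_lit 0) [] (nat_lit 0) [] false,
   Spec.mk (nat_lit 46252) (nat_lit 0) [] (nat_lit 0) [] false,
   Spec.mk (nat_lit 46254) (nat_lit 0) [] (nat_lit 0) [] false,
   Spec.mk (nat_lit 46260) (nat_lit 0) [] (nat_lit 0) [] false,
   Spec.mk (nat_lit 46278) (nat_lit 0) [] (nat_lit 0) [] false,
   Spec.mk (nat_lit 46332) (nat_lit 0) [] (nat_lit 0) [] false,
   Spec.mk (nat_lit 46414) (nat_lit 0) [] (nat_lit 0) [] false,
   Spec.mk (nat_lit 46416) (nat_lit 0) [] (nat_lit 0) [] false,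
   Spec.mk (nat_lit 46422) (nat_lit 0) [] (nat_lit 0) [] false,
   Spec.mk (nat_lit 46440) (nat_lit 0) [] (nat_lit 0) [] false,
   Spec.mk (nat_lit 46494) (nat_lit 0) [] (nat_lit 0) [] false,
   Spec.mk (nat_lit 46658) (nat_lit 0) [] (nat_lit 0) [] false,
   Spec.mk (nat_lit 46660) (nat_lit 0) [] (nat_lit 0) [] false,
   Spec.mk (nat_lit 46662) (nat_lit 0) [] (nat_lit 0) [] false,
   Spec.mk (nat_lit 46666) (nat_lit 0) [] (nat_lit 0) [] false,
   Spec.mk (nat_lit 46668) (nat_lit 0) [] (nat_lit 0) [] false,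
   Spec.mk (nat_lit 46674) (nat_lit 0) [] (nat_lit 0) [] false,
   Spec.mk (nat_lit 46684) (nat_lit 0) [] (nat_lit 0) [] false,
   Spec.mk (nat_lit 46686) (nat_lit 0) [] (nat_lit 0) [] false]

noncomputable def cd46 : List Spec :=
  [Spec.mk (nat_lit 46692) (nat_lit 0) [] (nat_lit 0) [] false,
   Spec.mk (nat_lit 46710) (nat_lit 0) [] (nat_lit 0) [] false,
   Spec.mk (nat_lit 46738) (nat_lit 0) [] (nat_lit 0) [] false,
   Spec.mk (nat_lit 46740) (nat_lit 0) [] (nat_lit 0) [] false,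
   Spec.mk (nat_lit 46746) (nat_lit 0) [] (nat_lit 0) [] false,
   Spec.mk (nat_lit 46764) (nat_lit 0) [] (nat_lit 0) [] false,
   Spec.mk (nat_lit 46818) (nat_lit 0) [] (nat_lit 0) [] false,
   Spec.mk (nat_lit 46900) (nat_lit 0) [] (nat_lit 0) [] false,
   Spec.mk (nat_lit 46902) (nat_lit 0) [] (nat_lit 0) [] false,
   Spec.mk (nat_lit 46908) (nat_lit 0) [] (nat_lit 0) [] false,
   Spec.mk (nat_lit 46926) (nat_lit 0) [] (nat_lit 0) [] false,
   Spec.mk (nat_lit 46980) (nat_lit 0) [] (nat_lit 0) [] false,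
   Spec.mk (nat_lit 47142) (nat_lit 0) [] (nat_lit 0) [] false,
   Spec.mk (nat_lit 47386) (nat_lit 0) [] (nat_lit 0) [] false,
   Spec.mk (nat_lit 47388) (nat_lit 0) [] (nat_lit 0) [] false,
   Spec.mk (nat_lit 47394) (nat_lit 0) [] (nat_lit 0) [] false,
   Spec.mk (nat_lit 47412) (nat_lit 0) [] (nat_lit 0) [] false,
   Spec.mk (nat_lit 47466) (nat_lit 0) [] (nat_lit 0) [] false,
   Spec.mk (nat_lit 47628) (nat_lit 0) [] (nat_lit 0) [] false,
   Spec.mk (nat_lit 48116) (nat_lit 0) [] (nat_lit 0) [] false,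
   Spec.mk (nat_lit 48118) (nat_lit 0) [] (nat_lit 0) [] false,
   Spec.mk (nat_lit 48120) (nat_lit 0) [] (nat_lit 0) [] false,
   Spec.mk (nat_lit 48124) (nat_lit 0) [] (nat_lit 0) [] false,
   Spec.mk (nat_lit 48126) (nat_lit 0) [] (nat_lit 0) [] false,
   Spec.mk (nat_lit 48132) (nat_lit 0) [] (nat_lit 0) [] false,
   Spec.mk (nat_lit 48142) (nat_lit 0) [] (nat_lit 0) [] false,
   Spec.mk (nat_lit 48144) (nat_lit 0) [] (nat_lit 0) [] false,
   Spec.mk (nat_lit 48150) (nat_lit 0) [] (nat_lit 0) [] false,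
   Spec.mk (nat_lit 48168) (nat_lit 0) [] (nat_lit 0) [] false,
   Spec.mk (nat_lit 48196) (nat_lit 0) [] (nat_lit 0) [] false,
   Spec.mk (nat_lit 48198) (nat_lit 0) [] (nat_lit 0) [] false,
   Spec.mk (nat_lit 48204) (nat_lit 0) [] (nat_lit 0) [] false,
   Spec.mk (nat_lit 48222) (nat_lit 0) [] (nat_lit 0) [] false,
   Spec.mk (nat_lit 48276) (nat_lit 0) [] (nat_lit 0) [] false,
   Spec.mk (nat_lit 48358) (nat_lit 0) [] (nat_lit 0) [] false,
   Spec.mk (nat_lit 48360) (nat_lit 0) [] (nat_lit 0) [] false,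
   Spec.mk (nat_lit 48366) (nat_lit 0) [] (nat_lit 0) [] false,
   Spec.mk (nat_lit 48384) (nat_lit 0) [] (nat_lit 0) [] false,
   Spec.mk (nat_lit 48438) (nat_lit 0) [] (nat_lit 0) [] false,
   Spec.mk (nat_lit 48600) (nat_lit 0) [] (nat_lit 0) [] false,
   Spec.mk (nat_lit 48844) (nat_lit 0) [] (nat_lit 0) [] false,
   Spec.mk (nat_lit 48846) (nat_lit 0) [] (nat_lit 0) [] false,
   Spec.mk (nat_lit 48852) (nat_lit 0) [] (nat_lit 0) [] false,
   Spec.mk (nat_lit 48870) (nat_lit 0) [] (nat_lit 0) [] false,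
   Spec.mk (nat_lit 48924) (nat_lit 0) [] (nat_lit 0) [] false,
   Spec.mk (nat_lit 49086) (nat_lit 0) [] (nat_lit 0) [] false,
   Spec.mk (nat_lit 49572) (nat_lit 0) [] (nat_lit 0) [] false,
   Spec.mk (nat_lit 50302) (nat_lit 0) [] (nat_lit 0) [] false,
   Spec.mk (nat_lit 50304) (nat_lit 0) [] (nat_lit 0) [] false,
   Spec.mk (nat_lit 50310) (nat_lit 0) [] (nat_lit 0) [] false,
   Spec.mk (nat_lit 50328) (nat_lit 0) [] (nat_lit 0) [] false,
   Spec.mk (nat_lit 50382) (nat_lit 0) [] (nat_lit 0) [] false,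
   Spec.mk (nat_lit 50544) (nat_lit 0) [] (nat_lit 0) [] false,
   Spec.mk (nat_lit 51030) (nat_lit 0) [] (nat_lit 0) [] false,
   Spec.mk (nat_lit 52490) (nat_lit 0) [] (nat_lit 0) [] false,
   Spec.mk (nat_lit 52492) (nat_lit 0) [] (nat_lit 0) [] false,
   Spec.mk (nat_lit 52494) (nat_lit 0) [] (nat_lit 0) [] false,
   Spec.mk (nat_lit 52498) (nat_lit 0) [] (nat_lit 0) [] false,
   Spec.mk (nat_lit 52500) (nat_lit 0) [] (nat_lit 0) [] false,
   Spec.mk (nat_lit 52506) (nat_lit 0) [] (nat_lit 0) [] false]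

noncomputable def cd47 : List Spec :=
  [Spec.mk (nat_lit 52516) (nat_lit 0) [] (nat_lit 0) [] false,
   Spec.mk (nat_lit 52518) (nat_lit 0) [] (nat_lit 0) [] false,
   Spec.mk (nat_lit 52524) (nat_lit 0) [] (nat_lit 0) [] false,
   Spec.mk (nat_lit 52542) (nat_lit 0) [] (nat_lit 0) [] false,
   Spec.mk (nat_lit 52570) (nat_lit 0) [] (nat_lit 0) [] false,
   Spec.mk (nat_lit 52572) (nat_lit 0) [] (nat_lit 0) [] false,
   Spec.mk (nat_lit 52578) (nat_lit 0) [] (nat_lit 0) [] false,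
   Spec.mk (nat_lit 52596) (nat_lit 0) [] (nat_lit 0) [] false,
   Spec.mk (nat_lit 52650) (nat_lit 0) [] (nat_lit 0) [] false,
   Spec.mk (nat_lit 52732) (nat_lit 0) [] (nat_lit 0) [] false,
   Spec.mk (nat_lit 52734) (nat_lit 0) [] (nat_lit 0) [] false,
   Spec.mk (nat_lit 52740) (nat_lit 0) [] (nat_lit 0) [] false,
   Spec.mk (nat_lit 52758) (nat_lit 0) [] (nat_lit 0) [] false,
   Spec.mk (nat_lit 52812) (nat_lit 0) [] (nat_lit 0) [] false,
   Spec.mk (nat_lit 52974) (nat_lit 0) [] (nat_lit 0) [] false,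
   Spec.mk (nat_lit 53218) (nat_lit 0) [] (nat_lit 0) [] false,
   Spec.mk (nat_lit 53220) (nat_lit 0) [] (nat_lit 0) [] false,
   Spec.mk (nat_lit 53226) (nat_lit 0) [] (nat_lit 0) [] false,
   Spec.mk (nat_lit 53244) (nat_lit 0) [] (nat_lit 0) [] false,
   Spec.mk (nat_lit 53298) (nat_lit 0) [] (nat_lit 0) [] false,
   Spec.mk (nat_lit 53460) (nat_lit 0) [] (nat_lit 0) [] false,
   Spec.mk (nat_lit 53946) (nat_lit 0) [] (nat_lit 0) [] false,
   Spec.mk (nat_lit 54676) (nat_lit 0) [] (nat_lit 0) [] false,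
   Spec.mk (nat_lit 54678) (nat_lit 0) [] (nat_lit 0) [] false,
   Spec.mk (nat_lit 54684) (nat_lit 0) [] (nat_lit 0) [] false,
   Spec.mk (nat_lit 54702) (nat_lit 0) [] (nat_lit 0) [] false,
   Spec.mk (nat_lit 54756) (nat_lit 0) [] (nat_lit 0) [] false,
   Spec.mk (nat_lit 54918) (nat_lit 0) [] (nat_lit 0) [] false,
   Spec.mk (nat_lit 55404) (nat_lit 0) [] (nat_lit 0) [] false,
   Spec.mk (nat_lit 56862) (nat_lit 0) [] (nat_lit 0) [] false]

noncomputable def cds : List (List Spec) :=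
    cd0 :: cd1 :: cd2 :: cd3 :: cd4 :: cd5 :: cd6 :: cd7 :: cd8 :: cd9 :: cd10 :: cd11 :: cd12 ::
    cd13 :: cd14 :: cd15 :: cd16 :: cd17 :: cd18 :: cd19 :: cd20 :: cd21 :: cd22 :: cd23 :: cd24 ::
    cd25 :: cd26 :: cd27 :: cd28 :: cd29 :: cd30 :: cd31 :: cd32 :: cd33 :: cd34 :: cd35 :: cd36 ::
    cd37 :: cd38 :: cd39 :: cd40 :: cd41 :: cd42 :: cd43 :: cd44 :: cd45 :: cd46 :: cd47 :: []

noncomputable def ap (x : Nat → Nat) (k :
    Nat → Nat → Nat → Nat → Nat → Nat → Nat → Nat → Nat → Nat → Nat → Nat → Nat → Nat → Nat → Nat →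
    Nat → Nat → Nat → Nat → Nat → Nat → Nat → Nat → Nat → Nat → Nat → Nat → Nat → Nat → Nat → Nat →
    Nat → Nat → Nat → Nat → Nat → Nat → Nat → Nat → Nat → Nat → Nat → Nat → Nat → Nat → Nat → Nat →
    Nat → Nat → Nat → Nat → Nat → Nat → Nat → Nat → Nat → Nat → Nat → Nat → Nat → Nat → Nat → Nat →
    Nat → Nat → Nat → Nat → Nat → Nat → Nat → Nat → Nat → Nat → Nat → Nat → Nat → Nat → Nat → Nat →
    Nat → Nat → Nat → Nat → Nat → Nat → Nat → Nat → Nat → Nat → Nat → Nat → Nat → Nat → Nat → Nat →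
    Nat → Nat → Nat → Nat → Nat → Nat → Nat → Nat → Nat → Nat → Nat → Nat → Nat → Nat → Nat → Nat →
    Nat → Nat → Nat → Nat → Nat → Nat → Nat → Nat → Nat → Nat → Nat → Nat → Nat → Nat → Nat → Nat →
    Nat → Nat → Nat → Nat → Nat → Nat → Nat → Nat → Nat → Nat → Nat → Nat → Nat → Nat → Nat → Nat →
    Nat → Nat → Nat → Nat → Nat → Nat → Nat → Nat → Nat → Nat → Nat → Nat → Nat → Nat → Nat → Nat →
    Nat → Nat → Nat → Nat → Nat → Nat → Nat → Nat → Nat → Nat → Nat → Nat → Nat → Nat → Nat → Nat →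
    Nat → Nat → Nat → Nat → Nat → Nat → Nat → Nat → Nat → Nat → Nat → Nat → Nat → Nat → Nat → Nat →
    Nat → Nat → Nat → Nat → Nat → Nat → Nat → Nat → Nat → Nat → Nat → Nat → Nat → Nat → Nat → Nat →
    Nat → Nat → Nat → Nat → Nat → Nat → Nat → Nat → Nat → Nat → Nat → Nat → Nat → Nat → Nat → Nat →
    Nat → Nat → Nat → Nat → Nat → Nat → Nat → Nat → Nat → Nat → Nat → Nat → Nat → Nat → Nat → Nat →
    Nat → Nat → Nat → Nat → Nat → Nat → Nat → Nat → Nat → Nat → Nat → Nat → Nat → Nat → Nat → Nat →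
    Nat → Nat → Nat → Nat → Nat → Nat → Nat → Nat → Nat → Nat → Nat → Nat → Nat → Nat → Nat → Nat →
    Nat → Nat → Nat → Nat → Nat → Nat → Nat → Nat → Nat → Nat → Nat → Nat → Nat → Nat → Nat → Nat →
    Nat → Nat → Nat → Nat → Nat → Nat → Nat → Nat → Nat → Nat → Nat → Nat → Nat → Nat → Nat → Nat →
    Nat → Nat → Nat → Nat → Nat → Nat → Nat → Nat → Nat → Nat → Nat → Nat → Nat → Nat → Nat → Nat →
    Nat → Nat → Nat → Nat → Nat → Nat → Nat → Nat → Nat → Nat → Nat → Nat → Nat → Nat → Nat → Nat →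
    Nat → Nat → Nat → Nat → Nat → Nat → Nat → Nat → Nat → Nat → Nat → Nat → Nat → Nat → Nat → Nat →
    Nat → Nat → Nat → Nat → Nat → Nat → Nat → Nat → Nat → Nat → Nat → Nat → Nat → Nat → Nat → Nat →
    Nat → Nat → Nat → Nat → Nat → Nat → Nat → Nat → Nat → Nat → Nat → Nat → Nat → Nat → Nat → Nat →
    Nat → Nat → Nat → Nat → Nat → Nat → Nat → Nat → Nat → Nat → Nat → Nat → Nat → Nat → Nat → Nat →
    Nat → Nat → Nat → Nat → Nat → Nat → Nat → Nat → Nat → Nat → Nat → Nat → Nat → Nat → Nat → Nat →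
    Nat → Nat → Nat → Nat → Nat → Nat → Nat → Nat → Nat → Nat → Nat → Nat → Nat → Nat → Nat → Nat →
    Nat → Nat → Nat → Nat → Nat → Nat → Nat → Nat → Nat → Nat → Nat → Nat → Nat → Nat → Nat → Nat →
    Nat → Nat → Nat → Nat → Nat → Nat → Nat → Nat → Nat → Nat → Nat → Nat → Nat → Nat → Nat → Nat →
    Nat → Nat → Nat → Nat → Nat → Nat → Nat → Nat → Nat → Nat → Nat → Nat → Nat → Nat → Nat → Nat →
    Nat → Nat → Nat → Nat → Nat → Nat → Nat → Nat → Nat → Nat → Nat → Nat → Nat → Nat → Nat → Nat →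
    Nat → Nat → Nat → Nat → Nat → Nat → Nat → Nat → Nat → Nat → Nat → Nat → Nat → Nat → Nat → Nat →
    Nat → Nat → Nat → Nat → Nat → Nat → Nat → Nat → Nat → Nat → Nat → Nat → Nat → Nat → Nat → Nat →
    Nat → Nat → Nat → Nat → Nat → Nat → Nat → Nat → Nat → Nat → Nat → Nat → Nat → Nat → Nat → Nat →
    Nat → Nat → Nat → Nat → Nat → Nat → Nat → Nat → Nat → Nat → Nat → Nat → Nat → Nat → Nat → Nat →
    Nat → Nat → Nat → Nat → Nat → Nat → Nat → Nat → Nat → Nat → Nat → Nat → Nat → Nat → Nat → Nat →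
    Nat → Nat → Nat → Nat → Nat → Nat → Nat → Nat → Nat → Nat → Nat → Nat → Nat → Nat → Nat → Nat →
    Nat → Nat → Nat → Nat → Nat → Nat → Nat → Nat → Nat → Nat → Nat → Nat → Nat → Nat → Nat → Nat →
    Nat → Nat → Nat → Nat → Nat → Nat → Nat → Nat → Nat → Nat → Nat → Nat → Nat → Nat → Nat → Nat →
    Nat → Nat → Nat → Nat → Nat → Nat → Nat → Nat → Nat → Nat → Nat → Nat → Nat → Nat → Nat → Nat →
    Nat → Nat → Nat → Nat → Nat → Nat → Nat → Nat → Nat → Nat → Nat → Nat → Nat → Nat → Nat → Nat →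
    Nat → Nat → Nat → Nat → Nat → Nat → Nat → Nat → Nat → Nat → Nat → Nat → Nat → Nat → Nat → Nat →
    Nat → Nat → Nat → Nat → Nat → Nat → Nat → Nat → Nat → Nat → Nat → Nat → Nat → Nat → Nat → Nat →
    Nat → Nat → Nat → Nat → Nat → Nat → Nat → Nat → Nat → Nat → Nat → Nat → Nat → Nat → Nat → Nat →
    Nat → Nat → Nat → Nat → Nat → Nat → Nat → Nat → Nat → Nat → Nat → Nat → Nat → Nat → Nat → Nat →
    Nat → Nat → Nat → Nat → Nat → Nat → Nat → Nat → Nat → Nat → Nat → Nat → Nat → Nat → Nat → Nat →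
    Nat → Nat → Nat → Nat → Nat → Nat → Nat → Nat → Nat → Nat → Nat → Nat → Nat → Nat → Nat → Nat →
    Nat → Nat → Nat → Nat → Nat → Nat → Nat → Nat → Nat → Nat → Nat → Nat → Nat → Nat → Nat → Nat →
    Nat → Nat → Nat → Nat → Nat → Nat → Nat → Nat → Nat → Nat → Nat → Nat → Nat → Nat → Nat → Nat →
    Nat → Nat → Nat → Nat → Nat → Nat → Nat → Nat → Nat → Nat → Nat → Nat → Nat → Nat → Nat → Nat →
    Nat → Nat → Nat → Nat → Nat → Nat → Nat → Nat → Nat → Nat → Nat → Nat → Nat → Nat → Nat → Nat →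
    Nat → Nat → Nat → Nat → Nat → Nat → Nat → Nat → Nat → Nat → Nat → Nat → Nat → Nat → Nat → Nat →
    Nat → Nat → Nat → Nat → Nat → Nat → Nat → Nat → Nat → Nat → Nat → Nat → Nat → Nat → Nat → Nat →
    Nat → Nat → Nat → Nat → Nat → Nat → Nat → Nat → Nat → Nat → Nat → Nat → Nat → Nat → Nat → Nat →
    Nat → Nat → Nat → Nat → Nat → Nat → Nat → Nat → Nat → Nat → Nat → Nat → Nat → Nat → Nat → Nat →
    Nat → Nat → Nat → Nat → Nat → Nat → Nat → Nat → Nat → Nat → Nat → Nat → Nat → Nat → Nat → Nat →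
    Nat → Nat → Nat → Nat → Nat → Nat → Nat → Nat → Nat → Nat → Nat → Nat → Nat → Nat → Nat → Nat →
    Nat → Nat → Nat → Nat → Nat → Nat → Nat → Nat → Nat → Nat → Nat → Nat → Nat → Nat → Nat → Nat →
    Nat → Nat → Nat → Nat → Nat → Nat → Nat → Nat → Nat → Nat → Nat → Nat → Nat → Nat → Nat → Nat →
    Nat → Nat → Nat → Nat → Nat → Nat → Nat → Nat → Nat → Nat → Nat → Nat → Nat → Nat → Nat → Nat →
    Nat → Nat → Nat → Nat → Nat → Nat → Nat → Nat → Nat → Nat → Nat → Nat → Nat → Nat → Nat → Nat →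
    Nat → Nat → Nat → Nat → Nat → Nat → Nat → Nat → Nat → Nat → Nat → Nat → Nat → Nat → Nat → Nat →
    Nat → Nat → Nat → Nat → Nat → Nat → Nat → Nat → Nat → Nat → Nat → Nat → Nat → Nat → Nat → Nat →
    Nat → Nat → Nat → Nat → Nat → Nat → Nat → Nat → Nat → Nat → Nat → Nat → Nat → Nat → Nat → Nat →
    Nat → Nat → Nat → Nat → Nat → Nat → Nat → Nat → Nat → Nat → Nat → Nat → Nat → Nat → Nat → Nat →
    Nat → Nat → Nat → Nat → Nat → Nat → Nat → Nat → Nat → Nat → Nat → Nat → Nat → Nat → Nat → Nat →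
    Nat → Nat → Nat → Nat → Nat → Nat → Nat → Nat → Nat → Nat → Nat → Nat → Nat → Nat → Nat → Nat →
    Nat → Nat → Nat → Nat → Nat → Nat → Nat → Nat → Nat → Nat → Nat → Nat → Nat → Nat → Nat → Nat →
    Nat → Nat → Nat → Nat → Nat → Nat → Nat → Nat → Nat → Nat → Nat → Nat → Nat → Nat → Nat → Nat →
    Nat → Nat → Nat → Nat → Nat → Nat → Nat → Nat → Nat → Nat → Nat → Nat → Nat → Nat → Nat → Nat →
    Nat → Nat → Nat → Nat → Nat → Nat → Nat → Nat → Nat → Nat → Nat → Nat → Nat → Nat → Nat → Nat →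
    Nat → Nat → Nat → Nat → Nat → Nat → Nat → Nat → Nat → Nat → Nat → Nat → Nat → Nat → Nat → Nat →
    Nat → Nat → Nat → Nat → Nat → Nat → Nat → Nat → Nat → Nat → Nat → Nat → Nat → Nat → Nat → Nat →
    Nat → Nat → Nat → Nat → Nat → Nat → Nat → Nat → Nat → Nat → Nat → Nat → Nat → Nat → Nat → Nat →
    Nat → Nat → Nat → Nat → Nat → Nat → Nat → Nat → Nat → Nat → Nat → Nat → Nat → Nat → Nat → Nat →
    Nat → Nat → Nat → Nat → Nat → Nat → Nat → Nat → Nat → Nat → Nat → Nat → Nat → Nat → Nat → Nat →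
    Nat → Nat → Nat → Nat → Nat → Nat → Nat → Nat → Nat → Nat → Nat → Nat → Nat → Nat → Nat → Nat →
    Nat → Nat → Nat → Nat → Nat → Nat → Nat → Nat → Nat → Nat → Nat → Nat → Nat → Nat → Nat → Nat →
    Nat → Nat → Nat → Nat → Nat → Nat → Nat → Nat → Nat → Nat → Nat → Nat → Nat → Nat → Nat → Nat →
    Nat → Nat → Nat → Nat → Nat → Nat → Nat → Nat → Nat → Nat → Nat → Nat → Nat → Nat → Nat → Nat →
    Nat → Nat → Nat → Nat → Nat → Nat → Nat → Nat → Nat → Nat → Nat → Nat → Nat → Nat → Nat → Nat →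
    Nat → Nat → Nat → Nat → Nat → Nat → Nat → Nat → Nat → Nat → Nat → Nat → Nat → Nat → Nat → Nat →
    Nat → Nat → Nat → Nat → Nat → Nat → Nat → Nat → Nat → Nat → Nat → Nat → Nat → Nat → Nat → Nat →
    Nat → Nat → Nat → Nat → Nat → Nat → Nat → Nat → Nat → Nat → Nat → Nat → Nat → Nat → Nat → Nat →
    Nat → Nat → Nat → Nat → Nat → Nat → Nat → Nat → Nat → Nat → Nat → Nat → Nat → Nat → Nat → Nat →
    Nat → Nat → Nat → Nat → Nat → Nat → Nat → Nat → Nat → Nat → Nat → Nat → Nat → Nat → Nat → Nat →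
    Nat → Nat → Nat → Nat → Nat → Nat → Nat → Nat → Nat → Nat → Nat → Nat → Nat → Nat → Nat → Nat →
    Nat → Nat → Nat → Nat → Nat → Nat → Nat → Nat → Nat → Nat → Nat → Nat → Nat → Nat → Nat → Nat →
    Nat → Nat → Nat → Nat → Nat → Nat → Nat → Nat → Nat → Nat → Nat → Nat → Nat → Nat → Nat → Nat →
    Nat → Nat → Nat → Nat → Nat → Nat → Nat → Nat → Nat → Nat → Nat → Nat → Nat → Nat → Nat → Nat →
    Nat → Nat → Nat → Nat → Nat → Nat → Nat → Nat → Nat → Nat → Nat → Nat → Nat → Nat → Nat → Nat →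
    Nat → Nat → Nat → Nat → Nat → Nat → Nat → Nat → Nat → Nat → Nat → Nat → Nat → Nat → Nat → Nat →
    Nat → Nat → Nat → Nat → Nat → Nat → Nat → Nat → Nat → Nat → Nat → Nat → Nat → Nat → Nat → Nat →
    Nat → Nat → Nat → Nat → Nat → Nat → Nat → Nat → Nat → Nat → Nat → Nat → Nat → Nat → Nat → Nat →
    Nat → Nat → Nat → Nat → Nat → Nat → Nat → Nat → Nat → Nat → Nat → Nat → Nat → Nat → Nat → Nat →
    Nat → Nat → Nat → Nat → Nat → Nat → Nat → Nat → Nat → Nat → Nat → Nat → Nat → Nat → Nat → Nat →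
    Nat → Nat → Nat → Nat → Nat → Nat → Nat → Nat → Nat → Nat → Nat → Nat → Nat → Nat → Nat → Nat →
    Nat → Nat → Nat → Nat → Nat → Nat → Nat → Nat → Nat → Nat → Nat → Nat → Nat → Nat → Nat → Nat →
    Nat → Nat → Nat → Nat → Nat → Nat → Nat → Nat → Nat → Nat → Nat → Nat → Nat → Nat → Nat → Nat →
    Nat → Nat → Nat → Nat → Nat → Nat → Nat → Nat → Nat → Nat → Nat → Nat → Nat → Nat → Nat → Nat →
    Nat → Nat → Nat → Nat → Nat → Nat → Nat → Nat → Nat → Nat → Nat → Nat → Nat → Nat → Nat → Nat →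
    Nat → Nat → Nat → Nat → Nat → Nat → Nat → Nat → Nat → Nat → Nat → Nat → Nat → Nat → Nat → Nat →
    Nat → Nat → Nat → Nat → Nat → Nat → Nat → Nat → Nat → Nat → Nat → Nat → Nat → Nat → Nat → Nat →
    Nat → Nat → Nat → Nat → Nat → Nat → Nat → Nat → Nat → Nat → Nat → Nat → Nat → Nat → Nat → Nat →
    Nat → Nat → Nat → Nat → Nat → Nat → Nat → Nat → Nat → Nat → Nat → Nat → Nat → Nat → Nat → Nat →
    Nat → Nat → Nat → Nat → Nat → Nat → Nat → Nat → Nat → Nat → Nat → Nat → Nat → Nat → Nat → Nat →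
    Nat → Nat → Nat → Nat → Nat → Nat → Nat → Nat → Nat → Nat → Nat → Nat → Nat → Nat → Nat → Nat →
    Nat → Nat → Nat → Nat → Nat → Nat → Nat → Nat → Nat → Nat → Nat → Nat → Nat → Nat → Nat → Nat →
    Nat → Nat → Nat → Nat → Nat → Nat → Nat → Nat → Nat → Nat → Nat → Nat → Nat → Nat → Nat → Nat →
    Nat → Nat → Nat → Nat → Nat → Nat → Nat → Nat → Nat → Nat → Nat → Nat → Nat → Nat → Nat → Nat →
    Nat → Nat → Nat → Nat → Nat → Nat → Nat → Nat → Nat → Nat → Nat → Nat → Nat → Nat → Nat → Nat →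
    Nat → Nat → Nat → Nat → Nat → Nat → Nat → Nat → Nat → Nat → Nat → Nat → Nat → Nat → Nat → Nat →
    Nat → Nat → Nat → Nat → Nat → Nat → Nat → Nat → Nat → Nat → Nat → Nat → Nat → Nat → Nat → Nat →
    Nat → Nat → Nat → Nat → Nat → Nat → Nat → Nat → Nat → Nat → Nat → Nat → Nat → Nat → Nat → Nat →
    Nat → Nat → Nat → Nat → Nat → Nat → Nat → Nat → Nat → Nat → Nat → Nat → Nat → Nat → Nat → Nat →
    Nat → Nat → Nat → Nat → Nat → Nat → Nat → Nat → Nat → Nat → Nat → Nat → Nat → Nat → Nat → Nat →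
    Nat → Nat → Nat → Nat → Nat → Nat → Nat → Nat → Nat → Nat → Nat → Nat → Nat → Nat → Nat → Nat →
    Nat → Nat → Nat → Nat → Nat → Nat → Nat → Nat → Nat → Nat → Nat → Nat → Nat → Nat → Nat → Nat →
    Nat → Nat → Nat → Nat → Nat → Nat → Nat → Nat → Nat → Nat → Nat → Nat → Nat → Nat → Nat → Nat →
    Nat → Nat → Nat → Nat → Nat → Nat → Nat → Nat → Nat → Nat → Nat → Nat → Nat → Nat → Nat → Nat →
    Nat → Nat → Nat → Nat → Nat → Nat → Nat → Nat → Nat → Nat → Nat → Nat → Nat → Nat → Nat → Nat →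
    Nat → Nat → Nat → Nat → Nat → Nat → Nat → Nat → Nat → Nat → Nat → Nat → Nat → Nat → Nat → Nat →
    Nat → Nat → Nat → Nat → Nat → Nat → Nat → Nat → Nat → Nat → Nat → Nat → Nat → Nat → Nat → Nat →
    Nat → Nat → Nat → Nat → Nat → Nat → Nat → Nat → Nat → Nat → Nat → Nat → Nat → Nat → Nat → Nat →
    Nat → Nat → Nat → Nat → Nat → Nat → Nat → Nat → Nat → Nat → Nat → Nat → Nat → Nat → Nat → Nat →
    Nat → Nat → Nat → Nat → Nat → Nat → Nat → Nat → Nat → Nat → Nat → Nat → Nat → Nat → Nat → Nat →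
    Nat → Nat → Nat → Nat → Nat → Nat → Nat → Nat → Nat → Nat → Nat → Nat → Nat → Nat → Nat → Nat →
    Nat → Nat → Nat → Nat → Nat → Nat → Nat → Nat → Nat → Nat → Nat → Nat → Nat → Nat → Nat → Nat →
    Nat → Nat → Nat → Nat → Nat → Nat → Nat → Nat → Nat → Nat → Nat → Nat → Nat → Nat → Nat → Nat →
    Nat → Nat → Nat → Nat → Nat → Nat → Nat → Nat → Nat → Nat → Nat → Nat → Nat → Nat → Nat → Nat →
    Nat → Nat → Nat → Nat → Nat → Nat → Nat → Nat → Nat → Nat → Nat → Nat → Nat → Nat → Nat → Nat →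
    Nat → Nat → Nat → Nat → Nat → Nat → Nat → Nat → Nat → Nat → Nat → Nat → Nat → Nat → Nat → Nat →
    Nat → Nat → Nat → Nat → Nat → Nat → Nat → Nat → Nat → Nat → Nat → Nat → Nat → Nat → Nat → Nat →
    Nat → Nat → Nat → Nat → Nat → Nat → Nat → Nat → Nat → Nat → Nat → Nat → Nat → Nat → Nat → Nat →
    Nat → Nat → Nat → Nat → Nat → Nat → Nat → Nat → Nat → Nat → Nat → Nat → Nat → Nat → Nat → Nat →
    Nat → Nat → Nat → Nat → Nat → Nat → Nat → Nat → Nat → Nat → Nat → Nat → Nat → Nat → Nat → Nat →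
    Nat → Nat → Nat → Nat → Nat → Nat → Nat → Nat → Nat → Nat → Nat → Nat → Nat → Nat → Nat → Nat →
    Nat → Nat → Nat → Nat → Nat → Nat → Nat → Nat → Nat → Nat → Nat → Nat → Nat → Nat → Nat → Nat →
    Nat → Nat → Nat → Nat → Nat → Nat → Nat → Nat → Nat → Nat → Nat → Nat → Nat → Nat → Nat → Nat →
    Nat → Nat → Nat → Nat → Nat → Nat → Nat → Nat → Nat → Nat → Nat → Nat → Nat → Nat → Nat → Nat →
    Nat → Nat → Nat → Nat → Nat → Nat → Nat → Nat → Nat → Nat → Nat → Nat → Nat → Nat → Nat → Nat →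
    Nat → Nat → Nat → Nat → Nat → Nat → Nat → Nat → Nat → Nat → Nat → Nat → Nat → Nat → Nat → Nat →
    Nat → Nat → Nat → Nat → Nat → Nat → Nat → Nat → Nat → Nat → Nat → Nat → Nat → Nat → Nat → Nat →
    Nat → Nat → Nat → Nat → Nat → Nat → Nat → Nat → Nat → Nat → Nat → Nat → Nat → Nat → Nat → Nat →
    Nat → Nat → Nat → Nat → Nat → Nat → Nat → Nat → Nat → Nat → Nat → Nat → Nat → Nat → Nat → Nat →
    Nat → Nat → Nat → Nat → Nat → Nat → Nat → Nat → Nat → Nat → Nat → Nat → Nat → Nat → Nat → Nat →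
    Nat → Nat → Nat → Nat → Nat → Nat → Nat → Nat → Nat → Nat → Nat → Nat → Nat → Nat → Nat → Nat →
    Nat → Nat → Nat → Nat → Nat → Nat → Nat → Nat → Nat → Nat → Nat → Nat → Nat → Nat → Nat → Nat →
    Nat → Nat → Nat → Nat → Nat → Nat → Nat → Nat → Nat → Nat → Nat → Nat → Nat → Nat → Nat → Nat →
    Nat → Nat → Nat → Nat → Nat → Nat → Nat → Nat → Nat → Nat → Nat → Nat → Nat → Nat → Nat → Nat →
    Nat → Nat → Nat → Nat → Nat → Nat → Nat → Nat → Nat → Nat → Nat → Nat → Nat → Nat → Nat → Nat →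
    Nat → Nat → Nat → Nat → Nat → Nat → Nat → Nat → Nat → Nat → Nat → Nat → Nat → Nat → Nat → Nat →
    Nat → Nat → Nat → Nat → Nat → Nat → Nat → Nat → Nat → Nat → Nat → Nat → Nat → Nat → Nat → Nat →
    Nat → Nat → Nat → Nat → Nat → Nat → Nat → Nat → Nat → Nat → Nat → Nat → Nat → Nat → Nat → Nat →
    Nat → Nat → Nat → Nat → Nat → Nat → Nat → Nat → Nat → Nat → Nat → Nat → Nat → Nat → Nat → Nat →
    Nat → Nat → Nat → Nat → Nat → Nat → Nat → Nat → Nat → Nat → Nat → Nat → Nat → Nat → Nat → Nat →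
    Nat → Nat → Nat → Nat → Nat → Nat → Nat → Nat → Nat → Nat → Nat → Nat → Nat → Nat → Nat → Nat →
    Nat → Nat → Nat → Nat → Nat → Nat → Nat → Nat → Nat → Nat → Nat → Nat → Nat → Nat → Nat → Nat →
    Nat → Nat → Nat → Nat → Nat → Nat → Nat → Nat → Nat → Nat → Nat → Nat → Nat → Nat → Nat → Nat →
    Nat → Nat → Nat → Nat → Nat → Nat → Nat → Nat → Nat → Nat → Nat → Nat → Nat → Nat → Nat → Nat →
    Nat → Nat → Nat → Nat → Nat → Nat → Nat → Nat → Nat → Nat → Nat → Nat → Nat → Nat → Nat → Nat →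
    Nat → Nat → Nat → Nat → Nat → Nat → Nat → Nat → Nat → Nat → Nat → Nat → Nat → Nat → Nat → Nat →
    Nat → Nat → Nat → Nat → Nat → Nat → Nat → Nat → Nat → Nat → Nat → Nat → Nat → Nat → Nat → Nat →
    Nat → Nat → Nat → Nat → Nat → Nat → Nat → Nat → Nat → Nat → Nat → Nat → Nat → Nat → Nat → Nat →
    Nat → Nat → Nat → Nat → Nat → Nat → Nat → Nat → Nat → Nat → Nat → Nat → Nat → Nat → Nat → Nat →
    Nat → Nat → Nat → Nat → Nat → Nat → Nat → Nat → Nat → Nat → Nat → Nat → Nat → Nat → Nat → Nat →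
    Nat → Nat → Nat → Nat → Nat → Nat → Nat → Nat → Nat → Nat → Nat → Nat → Nat → Nat → Nat → Nat →
    Nat → Nat → Nat → Nat → Nat → Nat → Nat → Nat → Nat → Nat → Nat → Nat → Nat → Nat → Nat → Nat →
    Nat → Nat → Nat → Nat → Nat → Nat → Nat → Nat → Nat → Nat → Nat → Nat → Nat → Nat → Nat → Nat →
    Nat → Nat → Nat → Nat → Nat → Nat → Nat → Nat → Nat → Nat → Nat → Nat → Nat → Nat → Nat → Nat →
    Nat → Nat → Nat → Nat → Nat → Nat → Nat → Nat → Nat → Nat → Nat → Nat → Nat → Nat → Nat → Nat →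
    Nat → Nat → Nat → Nat → Nat → Nat → Nat → Nat → Nat → Nat → Nat → Nat → Nat → Nat → Nat → Nat →
    Nat → Nat → Nat → Nat → Nat → Nat → Nat → Nat → Nat → Nat → Nat → Nat → Nat → Nat → Nat → Nat →
    Nat → Nat → Nat → Nat → Nat → Nat → Nat → Nat → Nat → Nat → Nat → Nat → Nat → Nat → Nat → Nat →
    Nat → Nat → Nat → Nat → Nat → Nat → Nat → Nat → Nat → Nat → Nat → Nat → Nat → Nat → Nat → Nat →
    Nat → Nat → Nat → Nat → Nat → Nat → Nat → Nat → Nat → Nat → Nat → Nat → Nat → Nat → Nat → Nat →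
    Nat → Nat → Nat → Nat → Nat → Nat → Nat → Nat → Nat → Nat → Nat → Nat → Nat → Nat → Nat → Nat →
    Nat → Nat → Nat → Nat → Nat → Nat → Nat → Nat → Nat → Nat → Nat → Nat → Nat → Nat → Nat → Nat →
    Nat → Nat → Bool) : Bool :=
  k
    (x (nat_lit 26)) (x (nat_lit 44)) (x (nat_lit 50)) (x (nat_lit 52)) (x (nat_lit 62))
    (x (nat_lit 68)) (x (nat_lit 70)) (x (nat_lit 74)) (x (nat_lit 76)) (x (nat_lit 78))
    (x (nat_lit 98)) (x (nat_lit 104)) (x (nat_lit 106)) (x (nat_lit 116)) (x (nat_lit 122))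
    (x (nat_lit 124)) (x (nat_lit 128)) (x (nat_lit 130)) (x (nat_lit 132)) (x (nat_lit 140))
    (x (nat_lit 142)) (x (nat_lit 146)) (x (nat_lit 148)) (x (nat_lit 150)) (x (nat_lit 154))
    (x (nat_lit 156)) (x (nat_lit 170)) (x (nat_lit 176)) (x (nat_lit 178)) (x (nat_lit 182))
    (x (nat_lit 184)) (x (nat_lit 186)) (x (nat_lit 194)) (x (nat_lit 196)) (x (nat_lit 200))
    (x (nat_lit 202)) (x (nat_lit 204)) (x (nat_lit 208)) (x (nat_lit 210)) (x (nat_lit 218))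
    (x (nat_lit 220)) (x (nat_lit 222)) (x (nat_lit 226)) (x (nat_lit 228)) (x (nat_lit 234))
    (x (nat_lit 260)) (x (nat_lit 266)) (x (nat_lit 268)) (x (nat_lit 278)) (x (nat_lit 284))
    (x (nat_lit 286)) (x (nat_lit 290)) (x (nat_lit 292)) (x (nat_lit 294)) (x (nat_lit 302))
    (x (nat_lit 304)) (x (nat_lit 308)) (x (nat_lit 310)) (x (nat_lit 312)) (x (nat_lit 316))
    (x (nat_lit 318)) (x (nat_lit 332)) (x (nat_lit 338)) (x (nat_lit 340)) (x (nat_lit 344))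
    (x (nat_lit 346)) (x (nat_lit 348)) (x (nat_lit 356)) (x (nat_lit 358)) (x (nat_lit 362))
    (x (nat_lit 364)) (x (nat_lit 366)) (x (nat_lit 370)) (x (nat_lit 372)) (x (nat_lit 380))
    (x (nat_lit 382)) (x (nat_lit 384)) (x (nat_lit 388)) (x (nat_lit 390)) (x (nat_lit 396))
    (x (nat_lit 410)) (x (nat_lit 412)) (x (nat_lit 416)) (x (nat_lit 418)) (x (nat_lit 420))
    (x (nat_lit 424)) (x (nat_lit 426)) (x (nat_lit 434)) (x (nat_lit 436)) (x (nat_lit 438))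
    (x (nat_lit 442)) (x (nat_lit 444)) (x (nat_lit 450)) (x (nat_lit 460)) (x (nat_lit 462))
    (x (nat_lit 468)) (x (nat_lit 494)) (x (nat_lit 500)) (x (nat_lit 502)) (x (nat_lit 506))
    (x (nat_lit 508)) (x (nat_lit 510)) (x (nat_lit 518)) (x (nat_lit 520)) (x (nat_lit 524))
    (x (nat_lit 526)) (x (nat_lit 528)) (x (nat_lit 532)) (x (nat_lit 534)) (x (nat_lit 542))
    (x (nat_lit 544)) (x (nat_lit 546)) (x (nat_lit 550)) (x (nat_lit 552)) (x (nat_lit 558))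
    (x (nat_lit 572)) (x (nat_lit 574)) (x (nat_lit 578)) (x (nat_lit 580)) (x (nat_lit 582))
    (x (nat_lit 586)) (x (nat_lit 588)) (x (nat_lit 596)) (x (nat_lit 598)) (x (nat_lit 600))
    (x (nat_lit 604)) (x (nat_lit 606)) (x (nat_lit 612)) (x (nat_lit 622)) (x (nat_lit 624))
    (x (nat_lit 630)) (x (nat_lit 650)) (x (nat_lit 652)) (x (nat_lit 654)) (x (nat_lit 658))
    (x (nat_lit 660)) (x (nat_lit 666)) (x (nat_lit 676)) (x (nat_lit 678)) (x (nat_lit 684))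
    (x (nat_lit 702)) (x (nat_lit 746)) (x (nat_lit 752)) (x (nat_lit 754)) (x (nat_lit 764))
    (x (nat_lit 770)) (x (nat_lit 772)) (x (nat_lit 776)) (x (nat_lit 778)) (x (nat_lit 780))
    (x (nat_lit 788)) (x (nat_lit 790)) (x (nat_lit 794)) (x (nat_lit 796)) (x (nat_lit 798))
    (x (nat_lit 802)) (x (nat_lit 804)) (x (nat_lit 818)) (x (nat_lit 824)) (x (nat_lit 826))
    (x (nat_lit 830)) (x (nat_lit 832)) (x (nat_lit 834)) (x (nat_lit 842)) (x (nat_lit 844))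
    (x (nat_lit 848)) (x (nat_lit 850)) (x (nat_lit 852)) (x (nat_lit 856)) (x (nat_lit 858))
    (x (nat_lit 866)) (x (nat_lit 868)) (x (nat_lit 870)) (x (nat_lit 874)) (x (nat_lit 876))
    (x (nat_lit 882)) (x (nat_lit 896)) (x (nat_lit 898)) (x (nat_lit 902)) (x (nat_lit 904))
    (x (nat_lit 906)) (x (nat_lit 910)) (x (nat_lit 912)) (x (nat_lit 920)) (x (nat_lit 922))
    (x (nat_lit 924)) (x (nat_lit 928)) (x (nat_lit 930)) (x (nat_lit 936)) (x (nat_lit 946))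
    (x (nat_lit 948)) (x (nat_lit 954)) (x (nat_lit 980)) (x (nat_lit 986)) (x (nat_lit 988))
    (x (nat_lit 992)) (x (nat_lit 994)) (x (nat_lit 996)) (x (nat_lit 1004)) (x (nat_lit 1006))
    (x (nat_lit 1010)) (x (nat_lit 1012)) (x (nat_lit 1014)) (x (nat_lit 1018)) (x (nat_lit 1020))
    (x (nat_lit 1028)) (x (nat_lit 1030)) (x (nat_lit 1032)) (x (nat_lit 1036)) (x (nat_lit 1038))
    (x (nat_lit 1044)) (x (nat_lit 1058)) (x (nat_lit 1060)) (x (nat_lit 1064)) (x (nat_lit 1066))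
    (x (nat_lit 1068)) (x (nat_lit 1072)) (x (nat_lit 1074)) (x (nat_lit 1082)) (x (nat_lit 1084))
    (x (nat_lit 1086)) (x (nat_lit 1090)) (x (nat_lit 1092)) (x (nat_lit 1098)) (x (nat_lit 1108))
    (x (nat_lit 1110)) (x (nat_lit 1116)) (x (nat_lit 1136)) (x (nat_lit 1138)) (x (nat_lit 1140))
    (x (nat_lit 1144)) (x (nat_lit 1146)) (x (nat_lit 1152)) (x (nat_lit 1162)) (x (nat_lit 1164))
    (x (nat_lit 1170)) (x (nat_lit 1188)) (x (nat_lit 1220)) (x (nat_lit 1222)) (x (nat_lit 1226))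
    (x (nat_lit 1228)) (x (nat_lit 1230)) (x (nat_lit 1234)) (x (nat_lit 1236)) (x (nat_lit 1244))
    (x (nat_lit 1246)) (x (nat_lit 1248)) (x (nat_lit 1252)) (x (nat_lit 1254)) (x (nat_lit 1260))
    (x (nat_lit 1270)) (x (nat_lit 1272)) (x (nat_lit 1278)) (x (nat_lit 1298)) (x (nat_lit 1300))
    (x (nat_lit 1302)) (x (nat_lit 1306)) (x (nat_lit 1308)) (x (nat_lit 1314)) (x (nat_lit 1324))
    (x (nat_lit 1326)) (x (nat_lit 1332)) (x (nat_lit 1350)) (x (nat_lit 1378)) (x (nat_lit 1380))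
    (x (nat_lit 1386)) (x (nat_lit 1404)) (x (nat_lit 1466)) (x (nat_lit 1472)) (x (nat_lit 1474))
    (x (nat_lit 1478)) (x (nat_lit 1480)) (x (nat_lit 1482)) (x (nat_lit 1490)) (x (nat_lit 1492))
    (x (nat_lit 1496)) (x (nat_lit 1498)) (x (nat_lit 1500)) (x (nat_lit 1504)) (x (nat_lit 1506))
    (x (nat_lit 1514)) (x (nat_lit 1516)) (x (nat_lit 1518)) (x (nat_lit 1522)) (x (nat_lit 1524))
    (x (nat_lit 1530)) (x (nat_lit 1544)) (x (nat_lit 1546)) (x (nat_lit 1550)) (x (nat_lit 1552))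
    (x (nat_lit 1554)) (x (nat_lit 1558)) (x (nat_lit 1560)) (x (nat_lit 1568)) (x (nat_lit 1570))
    (x (nat_lit 1572)) (x (nat_lit 1576)) (x (nat_lit 1578)) (x (nat_lit 1584)) (x (nat_lit 1594))
    (x (nat_lit 1596)) (x (nat_lit 1602)) (x (nat_lit 1622)) (x (nat_lit 1624)) (x (nat_lit 1626))
    (x (nat_lit 1630)) (x (nat_lit 1632)) (x (nat_lit 1638)) (x (nat_lit 1648)) (x (nat_lit 1650))
    (x (nat_lit 1656)) (x (nat_lit 1674)) (x (nat_lit 1706)) (x (nat_lit 1708)) (x (nat_lit 1712))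
    (x (nat_lit 1714)) (x (nat_lit 1716)) (x (nat_lit 1720)) (x (nat_lit 1722)) (x (nat_lit 1730))
    (x (nat_lit 1732)) (x (nat_lit 1734)) (x (nat_lit 1738)) (x (nat_lit 1740)) (x (nat_lit 1746))
    (x (nat_lit 1756)) (x (nat_lit 1758)) (x (nat_lit 1764)) (x (nat_lit 1784)) (x (nat_lit 1786))
    (x (nat_lit 1788)) (x (nat_lit 1792)) (x (nat_lit 1794)) (x (nat_lit 1800)) (x (nat_lit 1810))
    (x (nat_lit 1812)) (x (nat_lit 1818)) (x (nat_lit 1836)) (x (nat_lit 1864)) (x (nat_lit 1866))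
    (x (nat_lit 1872)) (x (nat_lit 1890)) (x (nat_lit 1946)) (x (nat_lit 1948)) (x (nat_lit 1950))
    (x (nat_lit 1954)) (x (nat_lit 1956)) (x (nat_lit 1962)) (x (nat_lit 1972)) (x (nat_lit 1974))
    (x (nat_lit 1980)) (x (nat_lit 1998)) (x (nat_lit 2026)) (x (nat_lit 2028)) (x (nat_lit 2034))
    (x (nat_lit 2052)) (x (nat_lit 2106)) (x (nat_lit 2204)) (x (nat_lit 2210)) (x (nat_lit 2212))
    (x (nat_lit 2222)) (x (nat_lit 2228)) (x (nat_lit 2230)) (x (nat_lit 2234)) (x (nat_lit 2236))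
    (x (nat_lit 2238)) (x (nat_lit 2246)) (x (nat_lit 2248)) (x (nat_lit 2252)) (x (nat_lit 2254))
    (x (nat_lit 2256)) (x (nat_lit 2260)) (x (nat_lit 2262)) (x (nat_lit 2276)) (x (nat_lit 2282))
    (x (nat_lit 2284)) (x (nat_lit 2288)) (x (nat_lit 2290)) (x (nat_lit 2292)) (x (nat_lit 2300))
    (x (nat_lit 2302)) (x (nat_lit 2306)) (x (nat_lit 2308)) (x (nat_lit 2310)) (x (nat_lit 2314))
    (x (nat_lit 2316)) (x (nat_lit 2324)) (x (nat_lit 2326)) (x (nat_lit 2328)) (x (nat_lit 2332))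
    (x (nat_lit 2334)) (x (nat_lit 2340)) (x (nat_lit 2354)) (x (nat_lit 2356)) (x (nat_lit 2360))
    (x (nat_lit 2362)) (x (nat_lit 2364)) (x (nat_lit 2368)) (x (nat_lit 2370)) (x (nat_lit 2378))
    (x (nat_lit 2380)) (x (nat_lit 2382)) (x (nat_lit 2386)) (x (nat_lit 2388)) (x (nat_lit 2394))
    (x (nat_lit 2404)) (x (nat_lit 2406)) (x (nat_lit 2412)) (x (nat_lit 2438)) (x (nat_lit 2444))
    (x (nat_lit 2446)) (x (nat_lit 2450)) (x (nat_lit 2452)) (x (nat_lit 2454)) (x (nat_lit 2462))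
    (x (nat_lit 2464)) (x (nat_lit 2468)) (x (nat_lit 2470)) (x (nat_lit 2472)) (x (nat_lit 2476))
    (x (nat_lit 2478)) (x (nat_lit 2486)) (x (nat_lit 2488)) (x (nat_lit 2490)) (x (nat_lit 2494))
    (x (nat_lit 2496)) (x (nat_lit 2502)) (x (nat_lit 2516)) (x (nat_lit 2518)) (x (nat_lit 2522))
    (x (nat_lit 2524)) (x (nat_lit 2526)) (x (nat_lit 2530)) (x (nat_lit 2532)) (x (nat_lit 2540))
    (x (nat_lit 2542)) (x (nat_lit 2544)) (x (nat_lit 2548)) (x (nat_lit 2550)) (x (nat_lit 2556))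
    (x (nat_lit 2566)) (x (nat_lit 2568)) (x (nat_lit 2574)) (x (nat_lit 2594)) (x (nat_lit 2596))
    (x (nat_lit 2598)) (x (nat_lit 2602)) (x (nat_lit 2604)) (x (nat_lit 2610)) (x (nat_lit 2620))
    (x (nat_lit 2622)) (x (nat_lit 2628)) (x (nat_lit 2646)) (x (nat_lit 2678)) (x (nat_lit 2680))
    (x (nat_lit 2684)) (x (nat_lit 2686)) (x (nat_lit 2688)) (x (nat_lit 2692)) (x (nat_lit 2694))
    (x (nat_lit 2702)) (x (nat_lit 2704)) (x (nat_lit 2706)) (x (nat_lit 2710)) (x (nat_lit 2712))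
    (x (nat_lit 2718)) (x (nat_lit 2728)) (x (nat_lit 2730)) (x (nat_lit 2736)) (x (nat_lit 2756))
    (x (nat_lit 2758)) (x (nat_lit 2760)) (x (nat_lit 2764)) (x (nat_lit 2766)) (x (nat_lit 2772))
    (x (nat_lit 2782)) (x (nat_lit 2784)) (x (nat_lit 2790)) (x (nat_lit 2808)) (x (nat_lit 2836))
    (x (nat_lit 2838)) (x (nat_lit 2844)) (x (nat_lit 2862)) (x (nat_lit 2924)) (x (nat_lit 2930))
    (x (nat_lit 2932)) (x (nat_lit 2936)) (x (nat_lit 2938)) (x (nat_lit 2940)) (x (nat_lit 2948))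
    (x (nat_lit 2950)) (x (nat_lit 2954)) (x (nat_lit 2956)) (x (nat_lit 2958)) (x (nat_lit 2962))
    (x (nat_lit 2964)) (x (nat_lit 2972)) (x (nat_lit 2974)) (x (nat_lit 2976)) (x (nat_lit 2980))
    (x (nat_lit 2982)) (x (nat_lit 2988)) (x (nat_lit 3002)) (x (nat_lit 3004)) (x (nat_lit 3008))
    (x (nat_lit 3010)) (x (nat_lit 3012)) (x (nat_lit 3016)) (x (nat_lit 3018)) (x (nat_lit 3026))
    (x (nat_lit 3028)) (x (nat_lit 3030)) (x (nat_lit 3034)) (x (nat_lit 3036)) (x (nat_lit 3042))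
    (x (nat_lit 3052)) (x (nat_lit 3054)) (x (nat_lit 3060)) (x (nat_lit 3080)) (x (nat_lit 3082))
    (x (nat_lit 3084)) (x (nat_lit 3088)) (x (nat_lit 3090)) (x (nat_lit 3096)) (x (nat_lit 3106))
    (x (nat_lit 3108)) (x (nat_lit 3114)) (x (nat_lit 3132)) (x (nat_lit 3164)) (x (nat_lit 3166))
    (x (nat_lit 3170)) (x (nat_lit 3172)) (x (nat_lit 3174)) (x (nat_lit 3178)) (x (nat_lit 3180))
    (x (nat_lit 3188)) (x (nat_lit 3190)) (x (nat_lit 3192)) (x (nat_lit 3196)) (x (nat_lit 3198))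
    (x (nat_lit 3204)) (x (nat_lit 3214)) (x (nat_lit 3216)) (x (nat_lit 3222)) (x (nat_lit 3242))
    (x (nat_lit 3244)) (x (nat_lit 3246)) (x (nat_lit 3250)) (x (nat_lit 3252)) (x (nat_lit 3258))
    (x (nat_lit 3268)) (x (nat_lit 3270)) (x (nat_lit 3276)) (x (nat_lit 3294)) (x (nat_lit 3322))
    (x (nat_lit 3324)) (x (nat_lit 3330)) (x (nat_lit 3348)) (x (nat_lit 3404)) (x (nat_lit 3406))
    (x (nat_lit 3408)) (x (nat_lit 3412)) (x (nat_lit 3414)) (x (nat_lit 3420)) (x (nat_lit 3430))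
    (x (nat_lit 3432)) (x (nat_lit 3438)) (x (nat_lit 3456)) (x (nat_lit 3484)) (x (nat_lit 3486))
    (x (nat_lit 3492)) (x (nat_lit 3510)) (x (nat_lit 3564)) (x (nat_lit 3650)) (x (nat_lit 3652))
    (x (nat_lit 3656)) (x (nat_lit 3658)) (x (nat_lit 3660)) (x (nat_lit 3664)) (x (nat_lit 3666))
    (x (nat_lit 3674)) (x (nat_lit 3676)) (x (nat_lit 3678)) (x (nat_lit 3682)) (x (nat_lit 3684))
    (x (nat_lit 3690)) (x (nat_lit 3700)) (x (nat_lit 3702)) (x (nat_lit 3708)) (x (nat_lit 3728))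
    (x (nat_lit 3730)) (x (nat_lit 3732)) (x (nat_lit 3736)) (x (nat_lit 3738)) (x (nat_lit 3744))
    (x (nat_lit 3754)) (x (nat_lit 3756)) (x (nat_lit 3762)) (x (nat_lit 3780)) (x (nat_lit 3808))
    (x (nat_lit 3810)) (x (nat_lit 3816)) (x (nat_lit 3834)) (x (nat_lit 3890)) (x (nat_lit 3892))
    (x (nat_lit 3894)) (x (nat_lit 3898)) (x (nat_lit 3900)) (x (nat_lit 3906)) (x (nat_lit 3916))
    (x (nat_lit 3918)) (x (nat_lit 3924)) (x (nat_lit 3942)) (x (nat_lit 3970)) (x (nat_lit 3972))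
    (x (nat_lit 3978)) (x (nat_lit 3996)) (x (nat_lit 4050)) (x (nat_lit 4132)) (x (nat_lit 4134))
    (x (nat_lit 4140)) (x (nat_lit 4158)) (x (nat_lit 4212)) (x (nat_lit 4382)) (x (nat_lit 4388))
    (x (nat_lit 4390)) (x (nat_lit 4394)) (x (nat_lit 4396)) (x (nat_lit 4398)) (x (nat_lit 4406))
    (x (nat_lit 4408)) (x (nat_lit 4412)) (x (nat_lit 4414)) (x (nat_lit 4416)) (x (nat_lit 4420))
    (x (nat_lit 4422)) (x (nat_lit 4430)) (x (nat_lit 4432)) (x (nat_lit 4434)) (x (nat_lit 4438))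
    (x (nat_lit 4440)) (x (nat_lit 4446)) (x (nat_lit 4460)) (x (nat_lit 4462)) (x (nat_lit 4466))
    (x (nat_lit 4468)) (x (nat_lit 4470)) (x (nat_lit 4474)) (x (nat_lit 4476)) (x (nat_lit 4484))
    (x (nat_lit 4486)) (x (nat_lit 4488)) (x (nat_lit 4492)) (x (nat_lit 4494)) (x (nat_lit 4500))
    (x (nat_lit 4510)) (x (nat_lit 4512)) (x (nat_lit 4518)) (x (nat_lit 4538)) (x (nat_lit 4540))
    (x (nat_lit 4542)) (x (nat_lit 4546)) (x (nat_lit 4548)) (x (nat_lit 4554)) (x (nat_lit 4564))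
    (x (nat_lit 4566)) (x (nat_lit 4572)) (x (nat_lit 4590)) (x (nat_lit 4622)) (x (nat_lit 4624))
    (x (nat_lit 4628)) (x (nat_lit 4630)) (x (nat_lit 4632)) (x (nat_lit 4636)) (x (nat_lit 4638))
    (x (nat_lit 4646)) (x (nat_lit 4648)) (x (nat_lit 4650)) (x (nat_lit 4654)) (x (nat_lit 4656))
    (x (nat_lit 4662)) (x (nat_lit 4672)) (x (nat_lit 4674)) (x (nat_lit 4680)) (x (nat_lit 4700))
    (x (nat_lit 4702)) (x (nat_lit 4704)) (x (nat_lit 4708)) (x (nat_lit 4710)) (x (nat_lit 4716))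
    (x (nat_lit 4726)) (x (nat_lit 4728)) (x (nat_lit 4734)) (x (nat_lit 4752)) (x (nat_lit 4780))
    (x (nat_lit 4782)) (x (nat_lit 4788)) (x (nat_lit 4806)) (x (nat_lit 4862)) (x (nat_lit 4864))
    (x (nat_lit 4866)) (x (nat_lit 4870)) (x (nat_lit 4872)) (x (nat_lit 4878)) (x (nat_lit 4888))
    (x (nat_lit 4890)) (x (nat_lit 4896)) (x (nat_lit 4914)) (x (nat_lit 4942)) (x (nat_lit 4944))
    (x (nat_lit 4950)) (x (nat_lit 4968)) (x (nat_lit 5022)) (x (nat_lit 5108)) (x (nat_lit 5110))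
    (x (nat_lit 5114)) (x (nat_lit 5116)) (x (nat_lit 5118)) (x (nat_lit 5122)) (x (nat_lit 5124))
    (x (nat_lit 5132)) (x (nat_lit 5134)) (x (nat_lit 5136)) (x (nat_lit 5140)) (x (nat_lit 5142))
    (x (nat_lit 5148)) (x (nat_lit 5158)) (x (nat_lit 5160)) (x (nat_lit 5166)) (x (nat_lit 5186))
    (x (nat_lit 5188)) (x (nat_lit 5190)) (x (nat_lit 5194)) (x (nat_lit 5196)) (x (nat_lit 5202))
    (x (nat_lit 5212)) (x (nat_lit 5214)) (x (nat_lit 5220)) (x (nat_lit 5238)) (x (nat_lit 5266))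
    (x (nat_lit 5268)) (x (nat_lit 5274)) (x (nat_lit 5292)) (x (nat_lit 5348)) (x (nat_lit 5350))
    (x (nat_lit 5352)) (x (nat_lit 5356)) (x (nat_lit 5358)) (x (nat_lit 5364)) (x (nat_lit 5374))
    (x (nat_lit 5376)) (x (nat_lit 5382)) (x (nat_lit 5400)) (x (nat_lit 5428)) (x (nat_lit 5430))
    (x (nat_lit 5436)) (x (nat_lit 5454)) (x (nat_lit 5508)) (x (nat_lit 5590)) (x (nat_lit 5592))
    (x (nat_lit 5598)) (x (nat_lit 5616)) (x (nat_lit 5670)) (x (nat_lit 5834)) (x (nat_lit 5836))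
    (x (nat_lit 5838)) (x (nat_lit 5842)) (x (nat_lit 5844)) (x (nat_lit 5850)) (x (nat_lit 5860))
    (x (nat_lit 5862)) (x (nat_lit 5868)) (x (nat_lit 5886)) (x (nat_lit 5914)) (x (nat_lit 5916))
    (x (nat_lit 5922)) (x (nat_lit 5940)) (x (nat_lit 5994)) (x (nat_lit 6076)) (x (nat_lit 6078))
    (x (nat_lit 6084)) (x (nat_lit 6102)) (x (nat_lit 6156)) (x (nat_lit 6318)) (x (nat_lit 6578))
    (x (nat_lit 6584)) (x (nat_lit 6586)) (x (nat_lit 6596)) (x (nat_lit 6602)) (x (nat_lit 6604))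
    (x (nat_lit 6608)) (x (nat_lit 6610)) (x (nat_lit 6612)) (x (nat_lit 6620)) (x (nat_lit 6622))
    (x (nat_lit 6626)) (x (nat_lit 6628)) (x (nat_lit 6630)) (x (nat_lit 6634)) (x (nat_lit 6636))
    (x (nat_lit 6650)) (x (nat_lit 6656)) (x (nat_lit 6658)) (x (nat_lit 6662)) (x (nat_lit 6664))
    (x (nat_lit 6666)) (x (nat_lit 6674)) (x (nat_lit 6676)) (x (nat_lit 6680)) (x (nat_lit 6682))
    (x (nat_lit 6684)) (x (nat_lit 6688)) (x (nat_lit 6690)) (x (nat_lit 6698)) (x (nat_lit 6700))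
    (x (nat_lit 6702)) (x (nat_lit 6706)) (x (nat_lit 6708)) (x (nat_lit 6714)) (x (nat_lit 6728))
    (x (nat_lit 6730)) (x (nat_lit 6734)) (x (nat_lit 6736)) (x (nat_lit 6738)) (x (nat_lit 6742))
    (x (nat_lit 6744)) (x (nat_lit 6752)) (x (nat_lit 6754)) (x (nat_lit 6756)) (x (nat_lit 6760))
    (x (nat_lit 6762)) (x (nat_lit 6768)) (x (nat_lit 6778)) (x (nat_lit 6780)) (x (nat_lit 6786))
    (x (nat_lit 6812)) (x (nat_lit 6818)) (x (nat_lit 6820)) (x (nat_lit 6824)) (x (nat_lit 6826))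
    (x (nat_lit 6828)) (x (nat_lit 6836)) (x (nat_lit 6838)) (x (nat_lit 6842)) (x (nat_lit 6844))
    (x (nat_lit 6846)) (x (nat_lit 6850)) (x (nat_lit 6852)) (x (nat_lit 6860)) (x (nat_lit 6862))
    (x (nat_lit 6864)) (x (nat_lit 6868)) (x (nat_lit 6870)) (x (nat_lit 6876)) (x (nat_lit 6890))
    (x (nat_lit 6892)) (x (nat_lit 6896)) (x (nat_lit 6898)) (x (nat_lit 6900)) (x (nat_lit 6904))
    (x (nat_lit 6906)) (x (nat_lit 6914)) (x (nat_lit 6916)) (x (nat_lit 6918)) (x (nat_lit 6922))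
    (x (nat_lit 6924)) (x (nat_lit 6930)) (x (nat_lit 6940)) (x (nat_lit 6942)) (x (nat_lit 6948))
    (x (nat_lit 6968)) (x (nat_lit 6970)) (x (nat_lit 6972)) (x (nat_lit 6976)) (x (nat_lit 6978))
    (x (nat_lit 6984)) (x (nat_lit 6994)) (x (nat_lit 6996)) (x (nat_lit 7002)) (x (nat_lit 7020))
    (x (nat_lit 7052)) (x (nat_lit 7054)) (x (nat_lit 7058)) (x (nat_lit 7060)) (x (nat_lit 7062))
    (x (nat_lit 7066)) (x (nat_lit 7068)) (x (nat_lit 7076)) (x (nat_lit 7078)) (x (nat_lit 7080))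
    (x (nat_lit 7084)) (x (nat_lit 7086)) (x (nat_lit 7092)) (x (nat_lit 7102)) (x (nat_lit 7104))
    (x (nat_lit 7110)) (x (nat_lit 7130)) (x (nat_lit 7132)) (x (nat_lit 7134)) (x (nat_lit 7138))
    (x (nat_lit 7140)) (x (nat_lit 7146)) (x (nat_lit 7156)) (x (nat_lit 7158)) (x (nat_lit 7164))
    (x (nat_lit 7182)) (x (nat_lit 7210)) (x (nat_lit 7212)) (x (nat_lit 7218)) (x (nat_lit 7236))
    (x (nat_lit 7298)) (x (nat_lit 7304)) (x (nat_lit 7306)) (x (nat_lit 7310)) (x (nat_lit 7312))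
    (x (nat_lit 7314)) (x (nat_lit 7322)) (x (nat_lit 7324)) (x (nat_lit 7328)) (x (nat_lit 7330))
    (x (nat_lit 7332)) (x (nat_lit 7336)) (x (nat_lit 7338)) (x (nat_lit 7346)) (x (nat_lit 7348))
    (x (nat_lit 7350)) (x (nat_lit 7354)) (x (nat_lit 7356)) (x (nat_lit 7362)) (x (nat_lit 7376))
    (x (nat_lit 7378)) (x (nat_lit 7382)) (x (nat_lit 7384)) (x (nat_lit 7386)) (x (nat_lit 7390))
    (x (nat_lit 7392)) (x (nat_lit 7400)) (x (nat_lit 7402)) (x (nat_lit 7404)) (x (nat_lit 7408))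
    (x (nat_lit 7410)) (x (nat_lit 7416)) (x (nat_lit 7426)) (x (nat_lit 7428)) (x (nat_lit 7434))
    (x (nat_lit 7454)) (x (nat_lit 7456)) (x (nat_lit 7458)) (x (nat_lit 7462)) (x (nat_lit 7464))
    (x (nat_lit 7470)) (x (nat_lit 7480)) (x (nat_lit 7482)) (x (nat_lit 7488)) (x (nat_lit 7506))
    (x (nat_lit 7538)) (x (nat_lit 7540)) (x (nat_lit 7544)) (x (nat_lit 7546)) (x (nat_lit 7548))
    (x (nat_lit 7552)) (x (nat_lit 7554)) (x (nat_lit 7562)) (x (nat_lit 7564)) (x (nat_lit 7566))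
    (x (nat_lit 7570)) (x (nat_lit 7572)) (x (nat_lit 7578)) (x (nat_lit 7588)) (x (nat_lit 7590))
    (x (nat_lit 7596)) (x (nat_lit 7616)) (x (nat_lit 7618)) (x (nat_lit 7620)) (x (nat_lit 7624))
    (x (nat_lit 7626)) (x (nat_lit 7632)) (x (nat_lit 7642)) (x (nat_lit 7644)) (x (nat_lit 7650))
    (x (nat_lit 7668)) (x (nat_lit 7696)) (x (nat_lit 7698)) (x (nat_lit 7704)) (x (nat_lit 7722))
    (x (nat_lit 7778)) (x (nat_lit 7780)) (x (nat_lit 7782)) (x (nat_lit 7786)) (x (nat_lit 7788))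
    (x (nat_lit 7794)) (x (nat_lit 7804)) (x (nat_lit 7806)) (x (nat_lit 7812)) (x (nat_lit 7830))
    (x (nat_lit 7858)) (x (nat_lit 7860)) (x (nat_lit 7866)) (x (nat_lit 7884)) (x (nat_lit 7938))
    (x (nat_lit 8024)) (x (nat_lit 8026)) (x (nat_lit 8030)) (x (nat_lit 8032)) (x (nat_lit 8034))
    (x (nat_lit 8038)) (x (nat_lit 8040)) (x (nat_lit 8048)) (x (nat_lit 8050)) (x (nat_lit 8052))
    (x (nat_lit 8056)) (x (nat_lit 8058)) (x (nat_lit 8064)) (x (nat_lit 8074)) (x (nat_lit 8076))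
    (x (nat_lit 8082)) (x (nat_lit 8102)) (x (nat_lit 8104)) (x (nat_lit 8106)) (x (nat_lit 8110))
    (x (nat_lit 8112)) (x (nat_lit 8118)) (x (nat_lit 8128)) (x (nat_lit 8130)) (x (nat_lit 8136))
    (x (nat_lit 8154)) (x (nat_lit 8182)) (x (nat_lit 8184)) (x (nat_lit 8190)) (x (nat_lit 8208))
    (x (nat_lit 8264)) (x (nat_lit 8266)) (x (nat_lit 8268)) (x (nat_lit 8272)) (x (nat_lit 8274))
    (x (nat_lit 8280)) (x (nat_lit 8290)) (x (nat_lit 8292)) (x (nat_lit 8298)) (x (nat_lit 8316))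
    (x (nat_lit 8344)) (x (nat_lit 8346)) (x (nat_lit 8352)) (x (nat_lit 8370)) (x (nat_lit 8424))
    (x (nat_lit 8506)) (x (nat_lit 8508)) (x (nat_lit 8514)) (x (nat_lit 8532)) (x (nat_lit 8586))
    (x (nat_lit 8756)) (x (nat_lit 8762)) (x (nat_lit 8764)) (x (nat_lit 8768)) (x (nat_lit 8770))
    (x (nat_lit 8772)) (x (nat_lit 8780)) (x (nat_lit 8782)) (x (nat_lit 8786)) (x (nat_lit 8788))
    (x (nat_lit 8790)) (x (nat_lit 8794)) (x (nat_lit 8796)) (x (nat_lit 8804)) (x (nat_lit 8806))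
    (x (nat_lit 8808)) (x (nat_lit 8812)) (x (nat_lit 8814)) (x (nat_lit 8820)) (x (nat_lit 8834))
    (x (nat_lit 8836)) (x (nat_lit 8840)) (x (nat_lit 8842)) (x (nat_lit 8844)) (x (nat_lit 8848))
    (x (nat_lit 8850)) (x (nat_lit 8858)) (x (nat_lit 8860)) (x (nat_lit 8862)) (x (nat_lit 8866))
    (x (nat_lit 8868)) (x (nat_lit 8874)) (x (nat_lit 8884)) (x (nat_lit 8886)) (x (nat_lit 8892))
    (x (nat_lit 8912)) (x (nat_lit 8914)) (x (nat_lit 8916)) (x (nat_lit 8920)) (x (nat_lit 8922))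
    (x (nat_lit 8928)) (x (nat_lit 8938)) (x (nat_lit 8940)) (x (nat_lit 8946)) (x (nat_lit 8964))
    (x (nat_lit 8996)) (x (nat_lit 8998)) (x (nat_lit 9002)) (x (nat_lit 9004)) (x (nat_lit 9006))
    (x (nat_lit 9010)) (x (nat_lit 9012)) (x (nat_lit 9020)) (x (nat_lit 9022)) (x (nat_lit 9024))
    (x (nat_lit 9028)) (x (nat_lit 9030)) (x (nat_lit 9036)) (x (nat_lit 9046)) (x (nat_lit 9048))
    (x (nat_lit 9054)) (x (nat_lit 9074)) (x (nat_lit 9076)) (x (nat_lit 9078)) (x (nat_lit 9082))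
    (x (nat_lit 9084)) (x (nat_lit 9090)) (x (nat_lit 9100)) (x (nat_lit 9102)) (x (nat_lit 9108))
    (x (nat_lit 9126)) (x (nat_lit 9154)) (x (nat_lit 9156)) (x (nat_lit 9162)) (x (nat_lit 9180))
    (x (nat_lit 9236)) (x (nat_lit 9238)) (x (nat_lit 9240)) (x (nat_lit 9244)) (x (nat_lit 9246))
    (x (nat_lit 9252)) (x (nat_lit 9262)) (x (nat_lit 9264)) (x (nat_lit 9270)) (x (nat_lit 9288))
    (x (nat_lit 9316)) (x (nat_lit 9318)) (x (nat_lit 9324)) (x (nat_lit 9342)) (x (nat_lit 9396))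
    (x (nat_lit 9482)) (x (nat_lit 9484)) (x (nat_lit 9488)) (x (nat_lit 9490)) (x (nat_lit 9492))
    (x (nat_lit 9496)) (x (nat_lit 9498)) (x (nat_lit 9506)) (x (nat_lit 9508)) (x (nat_lit 9510))
    (x (nat_lit 9514)) (x (nat_lit 9516)) (x (nat_lit 9522)) (x (nat_lit 9532)) (x (nat_lit 9534))
    (x (nat_lit 9540)) (x (nat_lit 9560)) (x (nat_lit 9562)) (x (nat_lit 9564)) (x (nat_lit 9568))
    (x (nat_lit 9570)) (x (nat_lit 9576)) (x (nat_lit 9586)) (x (nat_lit 9588)) (x (nat_lit 9594))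
    (x (nat_lit 9612)) (x (nat_lit 9640)) (x (nat_lit 9642)) (x (nat_lit 9648)) (x (nat_lit 9666))
    (x (nat_lit 9722)) (x (nat_lit 9724)) (x (nat_lit 9726)) (x (nat_lit 9730)) (x (nat_lit 9732))
    (x (nat_lit 9738)) (x (nat_lit 9748)) (x (nat_lit 9750)) (x (nat_lit 9756)) (x (nat_lit 9774))
    (x (nat_lit 9802)) (x (nat_lit 9804)) (x (nat_lit 9810)) (x (nat_lit 9828)) (x (nat_lit 9882))
    (x (nat_lit 9964)) (x (nat_lit 9966)) (x (nat_lit 9972)) (x (nat_lit 9990)) (x (nat_lit 10044))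
    (x (nat_lit 10208)) (x (nat_lit 10210)) (x (nat_lit 10212)) (x (nat_lit 10216))
    (x (nat_lit 10218)) (x (nat_lit 10224)) (x (nat_lit 10234)) (x (nat_lit 10236))
    (x (nat_lit 10242)) (x (nat_lit 10260)) (x (nat_lit 10288)) (x (nat_lit 10290))
    (x (nat_lit 10296)) (x (nat_lit 10314)) (x (nat_lit 10368)) (x (nat_lit 10450))
    (x (nat_lit 10452)) (x (nat_lit 10458)) (x (nat_lit 10476)) (x (nat_lit 10530))
    (x (nat_lit 10692)) (x (nat_lit 10940)) (x (nat_lit 10942)) (x (nat_lit 10946))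
    (x (nat_lit 10948)) (x (nat_lit 10950)) (x (nat_lit 10954)) (x (nat_lit 10956))
    (x (nat_lit 10964)) (x (nat_lit 10966)) (x (nat_lit 10968)) (x (nat_lit 10972))
    (x (nat_lit 10974)) (x (nat_lit 10980)) (x (nat_lit 10990)) (x (nat_lit 10992))
    (x (nat_lit 10998)) (x (nat_lit 11018)) (x (nat_lit 11020)) (x (nat_lit 11022))
    (x (nat_lit 11026)) (x (nat_lit 11028)) (x (nat_lit 11034)) (x (nat_lit 11044))
    (x (nat_lit 11046)) (x (nat_lit 11052)) (x (nat_lit 11070)) (x (nat_lit 11098))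
    (x (nat_lit 11100)) (x (nat_lit 11106)) (x (nat_lit 11124)) (x (nat_lit 11180))
    (x (nat_lit 11182)) (x (nat_lit 11184)) (x (nat_lit 11188)) (x (nat_lit 11190))
    (x (nat_lit 11196)) (x (nat_lit 11206)) (x (nat_lit 11208)) (x (nat_lit 11214))
    (x (nat_lit 11232)) (x (nat_lit 11260)) (x (nat_lit 11262)) (x (nat_lit 11268))
    (x (nat_lit 11286)) (x (nat_lit 11340)) (x (nat_lit 11422)) (x (nat_lit 11424))
    (x (nat_lit 11430)) (x (nat_lit 11448)) (x (nat_lit 11502)) (x (nat_lit 11666))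
    (x (nat_lit 11668)) (x (nat_lit 11670)) (x (nat_lit 11674)) (x (nat_lit 11676))
    (x (nat_lit 11682)) (x (nat_lit 11692)) (x (nat_lit 11694)) (x (nat_lit 11700))
    (x (nat_lit 11718)) (x (nat_lit 11746)) (x (nat_lit 11748)) (x (nat_lit 11754))
    (x (nat_lit 11772)) (x (nat_lit 11826)) (x (nat_lit 11908)) (x (nat_lit 11910))
    (x (nat_lit 11916)) (x (nat_lit 11934)) (x (nat_lit 11988)) (x (nat_lit 12150))
    (x (nat_lit 12394)) (x (nat_lit 12396)) (x (nat_lit 12402)) (x (nat_lit 12420))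
    (x (nat_lit 12474)) (x (nat_lit 12636)) (x (nat_lit 13130)) (x (nat_lit 13136))
    (x (nat_lit 13138)) (x (nat_lit 13142)) (x (nat_lit 13144)) (x (nat_lit 13146))
    (x (nat_lit 13154)) (x (nat_lit 13156)) (x (nat_lit 13160)) (x (nat_lit 13162))
    (x (nat_lit 13164)) (x (nat_lit 13168)) (x (nat_lit 13170)) (x (nat_lit 13178))
    (x (nat_lit 13180)) (x (nat_lit 13182)) (x (nat_lit 13186)) (x (nat_lit 13188))
    (x (nat_lit 13194)) (x (nat_lit 13208)) (x (nat_lit 13210)) (x (nat_lit 13214))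
    (x (nat_lit 13216)) (x (nat_lit 13218)) (x (nat_lit 13222)) (x (nat_lit 13224))
    (x (nat_lit 13232)) (x (nat_lit 13234)) (x (nat_lit 13236)) (x (nat_lit 13240))
    (x (nat_lit 13242)) (x (nat_lit 13248)) (x (nat_lit 13258)) (x (nat_lit 13260))
    (x (nat_lit 13266)) (x (nat_lit 13286)) (x (nat_lit 13288)) (x (nat_lit 13290))
    (x (nat_lit 13294)) (x (nat_lit 13296)) (x (nat_lit 13302)) (x (nat_lit 13312))
    (x (nat_lit 13314)) (x (nat_lit 13320)) (x (nat_lit 13338)) (x (nat_lit 13370))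
    (x (nat_lit 13372)) (x (nat_lit 13376)) (x (nat_lit 13378)) (x (nat_lit 13380))
    (x (nat_lit 13384)) (x (nat_lit 13386)) (x (nat_lit 13394)) (x (nat_lit 13396))
    (x (nat_lit 13398)) (x (nat_lit 13402)) (x (nat_lit 13404)) (x (nat_lit 13410))
    (x (nat_lit 13420)) (x (nat_lit 13422)) (x (nat_lit 13428)) (x (nat_lit 13448))
    (x (nat_lit 13450)) (x (nat_lit 13452)) (x (nat_lit 13456)) (x (nat_lit 13458))
    (x (nat_lit 13464)) (x (nat_lit 13474)) (x (nat_lit 13476)) (x (nat_lit 13482))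
    (x (nat_lit 13500)) (x (nat_lit 13528)) (x (nat_lit 13530)) (x (nat_lit 13536))
    (x (nat_lit 13554)) (x (nat_lit 13610)) (x (nat_lit 13612)) (x (nat_lit 13614))
    (x (nat_lit 13618)) (x (nat_lit 13620)) (x (nat_lit 13626)) (x (nat_lit 13636))
    (x (nat_lit 13638)) (x (nat_lit 13644)) (x (nat_lit 13662)) (x (nat_lit 13690))
    (x (nat_lit 13692)) (x (nat_lit 13698)) (x (nat_lit 13716)) (x (nat_lit 13770))
    (x (nat_lit 13856)) (x (nat_lit 13858)) (x (nat_lit 13862)) (x (nat_lit 13864))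
    (x (nat_lit 13866)) (x (nat_lit 13870)) (x (nat_lit 13872)) (x (nat_lit 13880))
    (x (nat_lit 13882)) (x (nat_lit 13884)) (x (nat_lit 13888)) (x (nat_lit 13890))
    (x (nat_lit 13896)) (x (nat_lit 13906)) (x (nat_lit 13908)) (x (nat_lit 13914))
    (x (nat_lit 13934)) (x (nat_lit 13936)) (x (nat_lit 13938)) (x (nat_lit 13942))
    (x (nat_lit 13944)) (x (nat_lit 13950)) (x (nat_lit 13960)) (x (nat_lit 13962))
    (x (nat_lit 13968)) (x (nat_lit 13986)) (x (nat_lit 14014)) (x (nat_lit 14016))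
    (x (nat_lit 14022)) (x (nat_lit 14040)) (x (nat_lit 14096)) (x (nat_lit 14098))
    (x (nat_lit 14100)) (x (nat_lit 14104)) (x (nat_lit 14106)) (x (nat_lit 14112))
    (x (nat_lit 14122)) (x (nat_lit 14124)) (x (nat_lit 14130)) (x (nat_lit 14148))
    (x (nat_lit 14176)) (x (nat_lit 14178)) (x (nat_lit 14184)) (x (nat_lit 14202))
    (x (nat_lit 14256)) (x (nat_lit 14338)) (x (nat_lit 14340)) (x (nat_lit 14346))
    (x (nat_lit 14364)) (x (nat_lit 14418)) (x (nat_lit 14582)) (x (nat_lit 14584))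
    (x (nat_lit 14586)) (x (nat_lit 14590)) (x (nat_lit 14592)) (x (nat_lit 14598))
    (x (nat_lit 14608)) (x (nat_lit 14610)) (x (nat_lit 14616)) (x (nat_lit 14634))
    (x (nat_lit 14662)) (x (nat_lit 14664)) (x (nat_lit 14670)) (x (nat_lit 14688))
    (x (nat_lit 14742)) (x (nat_lit 14824)) (x (nat_lit 14826)) (x (nat_lit 14832))
    (x (nat_lit 14850)) (x (nat_lit 14904)) (x (nat_lit 15066)) (x (nat_lit 15314))
    (x (nat_lit 15316)) (x (nat_lit 15320)) (x (nat_lit 15322)) (x (nat_lit 15324))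
    (x (nat_lit 15328)) (x (nat_lit 15330)) (x (nat_lit 15338)) (x (nat_lit 15340))
    (x (nat_lit 15342)) (x (nat_lit 15346)) (x (nat_lit 15348)) (x (nat_lit 15354))
    (x (nat_lit 15364)) (x (nat_lit 15366)) (x (nat_lit 15372)) (x (nat_lit 15392))
    (x (nat_lit 15394)) (x (nat_lit 15396)) (x (nat_lit 15400)) (x (nat_lit 15402))
    (x (nat_lit 15408)) (x (nat_lit 15418)) (x (nat_lit 15420)) (x (nat_lit 15426))
    (x (nat_lit 15444)) (x (nat_lit 15472)) (x (nat_lit 15474)) (x (nat_lit 15480))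
    (x (nat_lit 15498)) (x (nat_lit 15554)) (x (nat_lit 15556)) (x (nat_lit 15558))
    (x (nat_lit 15562)) (x (nat_lit 15564)) (x (nat_lit 15570)) (x (nat_lit 15580))
    (x (nat_lit 15582)) (x (nat_lit 15588)) (x (nat_lit 15606)) (x (nat_lit 15634))
    (x (nat_lit 15636)) (x (nat_lit 15642)) (x (nat_lit 15660)) (x (nat_lit 15714))
    (x (nat_lit 15796)) (x (nat_lit 15798)) (x (nat_lit 15804)) (x (nat_lit 15822))
    (x (nat_lit 15876)) (x (nat_lit 16040)) (x (nat_lit 16042)) (x (nat_lit 16044))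
    (x (nat_lit 16048)) (x (nat_lit 16050)) (x (nat_lit 16056)) (x (nat_lit 16066))
    (x (nat_lit 16068)) (x (nat_lit 16074)) (x (nat_lit 16092)) (x (nat_lit 16120))
    (x (nat_lit 16122)) (x (nat_lit 16128)) (x (nat_lit 16146)) (x (nat_lit 16200))
    (x (nat_lit 16282)) (x (nat_lit 16284)) (x (nat_lit 16290)) (x (nat_lit 16308))
    (x (nat_lit 16362)) (x (nat_lit 16524)) (x (nat_lit 16768)) (x (nat_lit 16770))
    (x (nat_lit 16776)) (x (nat_lit 16794)) (x (nat_lit 16848)) (x (nat_lit 17010))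
    (x (nat_lit 17498)) (x (nat_lit 17500)) (x (nat_lit 17502)) (x (nat_lit 17506))
    (x (nat_lit 17508)) (x (nat_lit 17514)) (x (nat_lit 17524)) (x (nat_lit 17526))
    (x (nat_lit 17532)) (x (nat_lit 17550)) (x (nat_lit 17578)) (x (nat_lit 17580))
    (x (nat_lit 17586)) (x (nat_lit 17604)) (x (nat_lit 17658)) (x (nat_lit 17740))
    (x (nat_lit 17742)) (x (nat_lit 17748)) (x (nat_lit 17766)) (x (nat_lit 17820))
    (x (nat_lit 17982)) (x (nat_lit 18226)) (x (nat_lit 18228)) (x (nat_lit 18234))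
    (x (nat_lit 18252)) (x (nat_lit 18306)) (x (nat_lit 18468)) (x (nat_lit 18954))
    (x (nat_lit 19700)) (x (nat_lit 19706)) (x (nat_lit 19708)) (x (nat_lit 19718))
    (x (nat_lit 19724)) (x (nat_lit 19726)) (x (nat_lit 19730)) (x (nat_lit 19732))
    (x (nat_lit 19734)) (x (nat_lit 19742)) (x (nat_lit 19744)) (x (nat_lit 19748))
    (x (nat_lit 19750)) (x (nat_lit 19752)) (x (nat_lit 19756)) (x (nat_lit 19758))
    (x (nat_lit 19772)) (x (nat_lit 19778)) (x (nat_lit 19780)) (x (nat_lit 19784))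
    (x (nat_lit 19786)) (x (nat_lit 19788)) (x (nat_lit 19796)) (x (nat_lit 19798))
    (x (nat_lit 19802)) (x (nat_lit 19804)) (x (nat_lit 19806)) (x (nat_lit 19810))
    (x (nat_lit 19812)) (x (nat_lit 19820)) (x (nat_lit 19822)) (x (nat_lit 19824))
    (x (nat_lit 19828)) (x (nat_lit 19830)) (x (nat_lit 19836)) (x (nat_lit 19850))
    (x (nat_lit 19852)) (x (nat_lit 19856)) (x (nat_lit 19858)) (x (nat_lit 19860))
    (x (nat_lit 19864)) (x (nat_lit 19866)) (x (nat_lit 19874)) (x (nat_lit 19876))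
    (x (nat_lit 19878)) (x (nat_lit 19882)) (x (nat_lit 19884)) (x (nat_lit 19890))
    (x (nat_lit 19900)) (x (nat_lit 19902)) (x (nat_lit 19908)) (x (nat_lit 19934))
    (x (nat_lit 19940)) (x (nat_lit 19942)) (x (nat_lit 19946)) (x (nat_lit 19948))
    (x (nat_lit 19950)) (x (nat_lit 19958)) (x (nat_lit 19960)) (x (nat_lit 19964))
    (x (nat_lit 19966)) (x (nat_lit 19968)) (x (nat_lit 19972)) (x (nat_lit 19974))
    (x (nat_lit 19982)) (x (nat_lit 19984)) (x (nat_lit 19986)) (x (nat_lit 19990))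
    (x (nat_lit 19992)) (x (nat_lit 19998)) (x (nat_lit 20012)) (x (nat_lit 20014))
    (x (nat_lit 20018)) (x (nat_lit 20020)) (x (nat_lit 20022)) (x (nat_lit 20026))
    (x (nat_lit 20028)) (x (nat_lit 20036)) (x (nat_lit 20038)) (x (nat_lit 20040))
    (x (nat_lit 20044)) (x (nat_lit 20046)) (x (nat_lit 20052)) (x (nat_lit 20062))
    (x (nat_lit 20064)) (x (nat_lit 20070)) (x (nat_lit 20090)) (x (nat_lit 20092))
    (x (nat_lit 20094)) (x (nat_lit 20098)) (x (nat_lit 20100)) (x (nat_lit 20106))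
    (x (nat_lit 20116)) (x (nat_lit 20118)) (x (nat_lit 20124)) (x (nat_lit 20142))
    (x (nat_lit 20174)) (x (nat_lit 20176)) (x (nat_lit 20180)) (x (nat_lit 20182))
    (x (nat_lit 20184)) (x (nat_lit 20188)) (x (nat_lit 20190)) (x (nat_lit 20198))
    (x (nat_lit 20200)) (x (nat_lit 20202)) (x (nat_lit 20206)) (x (nat_lit 20208))
    (x (nat_lit 20214)) (x (nat_lit 20224)) (x (nat_lit 20226)) (x (nat_lit 20232))
    (x (nat_lit 20252)) (x (nat_lit 20254)) (x (nat_lit 20256)) (x (nat_lit 20260))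
    (x (nat_lit 20262)) (x (nat_lit 20268)) (x (nat_lit 20278)) (x (nat_lit 20280))
    (x (nat_lit 20286)) (x (nat_lit 20304)) (x (nat_lit 20332)) (x (nat_lit 20334))
    (x (nat_lit 20340)) (x (nat_lit 20358)) (x (nat_lit 20420)) (x (nat_lit 20426))
    (x (nat_lit 20428)) (x (nat_lit 20432)) (x (nat_lit 20434)) (x (nat_lit 20436))
    (x (nat_lit 20444)) (x (nat_lit 20446)) (x (nat_lit 20450)) (x (nat_lit 20452))
    (x (nat_lit 20454)) (x (nat_lit 20458)) (x (nat_lit 20460)) (x (nat_lit 20468))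
    (x (nat_lit 20470)) (x (nat_lit 20472)) (x (nat_lit 20476)) (x (nat_lit 20478))
    (x (nat_lit 20484)) (x (nat_lit 20498)) (x (nat_lit 20500)) (x (nat_lit 20504))
    (x (nat_lit 20506)) (x (nat_lit 20508)) (x (nat_lit 20512)) (x (nat_lit 20514))
    (x (nat_lit 20522)) (x (nat_lit 20524)) (x (nat_lit 20526)) (x (nat_lit 20530))
    (x (nat_lit 20532)) (x (nat_lit 20538)) (x (nat_lit 20548)) (x (nat_lit 20550))
    (x (nat_lit 20556)) (x (nat_lit 20576)) (x (nat_lit 20578)) (x (nat_lit 20580))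
    (x (nat_lit 20584)) (x (nat_lit 20586)) (x (nat_lit 20592)) (x (nat_lit 20602))
    (x (nat_lit 20604)) (x (nat_lit 20610)) (x (nat_lit 20628)) (x (nat_lit 20660))
    (x (nat_lit 20662)) (x (nat_lit 20666)) (x (nat_lit 20668)) (x (nat_lit 20670))
    (x (nat_lit 20674)) (x (nat_lit 20676)) (x (nat_lit 20684)) (x (nat_lit 20686))
    (x (nat_lit 20688)) (x (nat_lit 20692)) (x (nat_lit 20694)) (x (nat_lit 20700))
    (x (nat_lit 20710)) (x (nat_lit 20712)) (x (nat_lit 20718)) (x (nat_lit 20738))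
    (x (nat_lit 20740)) (x (nat_lit 20742)) (x (nat_lit 20746)) (x (nat_lit 20748))
    (x (nat_lit 20754)) (x (nat_lit 20764)) (x (nat_lit 20766)) (x (nat_lit 20772))
    (x (nat_lit 20790)) (x (nat_lit 20818)) (x (nat_lit 20820)) (x (nat_lit 20826))
    (x (nat_lit 20844)) (x (nat_lit 20900)) (x (nat_lit 20902)) (x (nat_lit 20904))
    (x (nat_lit 20908)) (x (nat_lit 20910)) (x (nat_lit 20916)) (x (nat_lit 20926))
    (x (nat_lit 20928)) (x (nat_lit 20934)) (x (nat_lit 20952)) (x (nat_lit 20980))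
    (x (nat_lit 20982)) (x (nat_lit 20988)) (x (nat_lit 21006)) (x (nat_lit 21060))
    (x (nat_lit 21146)) (x (nat_lit 21148)) (x (nat_lit 21152)) (x (nat_lit 21154))
    (x (nat_lit 21156)) (x (nat_lit 21160)) (x (nat_lit 21162)) (x (nat_lit 21170))
    (x (nat_lit 21172)) (x (nat_lit 21174)) (x (nat_lit 21178)) (x (nat_lit 21180))
    (x (nat_lit 21186)) (x (nat_lit 21196)) (x (nat_lit 21198)) (x (nat_lit 21204))
    (x (nat_lit 21224)) (x (nat_lit 21226)) (x (nat_lit 21228)) (x (nat_lit 21232))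
    (x (nat_lit 21234)) (x (nat_lit 21240)) (x (nat_lit 21250)) (x (nat_lit 21252))
    (x (nat_lit 21258)) (x (nat_lit 21276)) (x (nat_lit 21304)) (x (nat_lit 21306))
    (x (nat_lit 21312)) (x (nat_lit 21330)) (x (nat_lit 21386)) (x (nat_lit 21388))
    (x (nat_lit 21390)) (x (nat_lit 21394)) (x (nat_lit 21396)) (x (nat_lit 21402))
    (x (nat_lit 21412)) (x (nat_lit 21414)) (x (nat_lit 21420)) (x (nat_lit 21438))
    (x (nat_lit 21466)) (x (nat_lit 21468)) (x (nat_lit 21474)) (x (nat_lit 21492))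
    (x (nat_lit 21546)) (x (nat_lit 21628)) (x (nat_lit 21630)) (x (nat_lit 21636))
    (x (nat_lit 21654)) (x (nat_lit 21708)) (x (nat_lit 21878)) (x (nat_lit 21884))
    (x (nat_lit 21886)) (x (nat_lit 21890)) (x (nat_lit 21892)) (x (nat_lit 21894))
    (x (nat_lit 21902)) (x (nat_lit 21904)) (x (nat_lit 21908)) (x (nat_lit 21910))
    (x (nat_lit 21912)) (x (nat_lit 21916)) (x (nat_lit 21918)) (x (nat_lit 21926))
    (x (nat_lit 21928)) (x (nat_lit 21930)) (x (nat_lit 21934)) (x (nat_lit 21936))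
    (x (nat_lit 21942)) (x (nat_lit 21956)) (x (nat_lit 21958)) (x (nat_lit 21962))
    (x (nat_lit 21964)) (x (nat_lit 21966)) (x (nat_lit 21970)) (x (nat_lit 21972))
    (x (nat_lit 21980)) (x (nat_lit 21982)) (x (nat_lit 21984)) (x (nat_lit 21988))
    (x (nat_lit 21990)) (x (nat_lit 21996)) (x (nat_lit 22006)) (x (nat_lit 22008))
    (x (nat_lit 22014)) (x (nat_lit 22034)) (x (nat_lit 22036)) (x (nat_lit 22038))
    (x (nat_lit 22042)) (x (nat_lit 22044)) (x (nat_lit 22050)) (x (nat_lit 22060))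
    (x (nat_lit 22062)) (x (nat_lit 22068)) (x (nat_lit 22086)) (x (nat_lit 22118))
    (x (nat_lit 22120)) (x (nat_lit 22124)) (x (nat_lit 22126)) (x (nat_lit 22128))
    (x (nat_lit 22132)) (x (nat_lit 22134)) (x (nat_lit 22142)) (x (nat_lit 22144))
    (x (nat_lit 22146)) (x (nat_lit 22150)) (x (nat_lit 22152)) (x (nat_lit 22158))
    (x (nat_lit 22168)) (x (nat_lit 22170)) (x (nat_lit 22176)) (x (nat_lit 22196))
    (x (nat_lit 22198)) (x (nat_lit 22200)) (x (nat_lit 22204)) (x (nat_lit 22206))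
    (x (nat_lit 22212)) (x (nat_lit 22222)) (x (nat_lit 22224)) (x (nat_lit 22230))
    (x (nat_lit 22248)) (x (nat_lit 22276)) (x (nat_lit 22278)) (x (nat_lit 22284))
    (x (nat_lit 22302)) (x (nat_lit 22358)) (x (nat_lit 22360)) (x (nat_lit 22362))
    (x (nat_lit 22366)) (x (nat_lit 22368)) (x (nat_lit 22374)) (x (nat_lit 22384))
    (x (nat_lit 22386)) (x (nat_lit 22392)) (x (nat_lit 22410)) (x (nat_lit 22438))
    (x (nat_lit 22440)) (x (nat_lit 22446)) (x (nat_lit 22464)) (x (nat_lit 22518))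
    (x (nat_lit 22604)) (x (nat_lit 22606)) (x (nat_lit 22610)) (x (nat_lit 22612))
    (x (nat_lit 22614)) (x (nat_lit 22618)) (x (nat_lit 22620)) (x (nat_lit 22628))
    (x (nat_lit 22630)) (x (nat_lit 22632)) (x (nat_lit 22636)) (x (nat_lit 22638))
    (x (nat_lit 22644)) (x (nat_lit 22654)) (x (nat_lit 22656)) (x (nat_lit 22662))
    (x (nat_lit 22682)) (x (nat_lit 22684)) (x (nat_lit 22686)) (x (nat_lit 22690))
    (x (nat_lit 22692)) (x (nat_lit 22698)) (x (nat_lit 22708)) (x (nat_lit 22710))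
    (x (nat_lit 22716)) (x (nat_lit 22734)) (x (nat_lit 22762)) (x (nat_lit 22764))
    (x (nat_lit 22770)) (x (nat_lit 22788)) (x (nat_lit 22844)) (x (nat_lit 22846))
    (x (nat_lit 22848)) (x (nat_lit 22852)) (x (nat_lit 22854)) (x (nat_lit 22860))
    (x (nat_lit 22870)) (x (nat_lit 22872)) (x (nat_lit 22878)) (x (nat_lit 22896))
    (x (nat_lit 22924)) (x (nat_lit 22926)) (x (nat_lit 22932)) (x (nat_lit 22950))
    (x (nat_lit 23004)) (x (nat_lit 23086)) (x (nat_lit 23088)) (x (nat_lit 23094))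
    (x (nat_lit 23112)) (x (nat_lit 23166)) (x (nat_lit 23330)) (x (nat_lit 23332))
    (x (nat_lit 23334)) (x (nat_lit 23338)) (x (nat_lit 23340)) (x (nat_lit 23346))
    (x (nat_lit 23356)) (x (nat_lit 23358)) (x (nat_lit 23364)) (x (nat_lit 23382))
    (x (nat_lit 23410)) (x (nat_lit 23412)) (x (nat_lit 23418)) (x (nat_lit 23436))
    (x (nat_lit 23490)) (x (nat_lit 23572)) (x (nat_lit 23574)) (x (nat_lit 23580))
    (x (nat_lit 23598)) (x (nat_lit 23652)) (x (nat_lit 23814)) (x (nat_lit 24062))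
    (x (nat_lit 24064)) (x (nat_lit 24068)) (x (nat_lit 24070)) (x (nat_lit 24072))
    (x (nat_lit 24076)) (x (nat_lit 24078)) (x (nat_lit 24086)) (x (nat_lit 24088))
    (x (nat_lit 24090)) (x (nat_lit 24094)) (x (nat_lit 24096)) (x (nat_lit 24102))
    (x (nat_lit 24112)) (x (nat_lit 24114)) (x (nat_lit 24120)) (x (nat_lit 24140))
    (x (nat_lit 24142)) (x (nat_lit 24144)) (x (nat_lit 24148)) (x (nat_lit 24150))
    (x (nat_lit 24156)) (x (nat_lit 24166)) (x (nat_lit 24168)) (x (nat_lit 24174))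
    (x (nat_lit 24192)) (x (nat_lit 24220)) (x (nat_lit 24222)) (x (nat_lit 24228))
    (x (nat_lit 24246)) (x (nat_lit 24302)) (x (nat_lit 24304)) (x (nat_lit 24306))
    (x (nat_lit 24310)) (x (nat_lit 24312)) (x (nat_lit 24318)) (x (nat_lit 24328))
    (x (nat_lit 24330)) (x (nat_lit 24336)) (x (nat_lit 24354)) (x (nat_lit 24382))
    (x (nat_lit 24384)) (x (nat_lit 24390)) (x (nat_lit 24408)) (x (nat_lit 24462))
    (x (nat_lit 24544)) (x (nat_lit 24546)) (x (nat_lit 24552)) (x (nat_lit 24570))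
    (x (nat_lit 24624)) (x (nat_lit 24788)) (x (nat_lit 24790)) (x (nat_lit 24792))
    (x (nat_lit 24796)) (x (nat_lit 24798)) (x (nat_lit 24804)) (x (nat_lit 24814))
    (x (nat_lit 24816)) (x (nat_lit 24822)) (x (nat_lit 24840)) (x (nat_lit 24868))
    (x (nat_lit 24870)) (x (nat_lit 24876)) (x (nat_lit 24894)) (x (nat_lit 24948))
    (x (nat_lit 25030)) (x (nat_lit 25032)) (x (nat_lit 25038)) (x (nat_lit 25056))
    (x (nat_lit 25110)) (x (nat_lit 25272)) (x (nat_lit 25516)) (x (nat_lit 25518))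
    (x (nat_lit 25524)) (x (nat_lit 25542)) (x (nat_lit 25596)) (x (nat_lit 25758))
    (x (nat_lit 26252)) (x (nat_lit 26258)) (x (nat_lit 26260)) (x (nat_lit 26264))
    (x (nat_lit 26266)) (x (nat_lit 26268)) (x (nat_lit 26276)) (x (nat_lit 26278))
    (x (nat_lit 26282)) (x (nat_lit 26284)) (x (nat_lit 26286)) (x (nat_lit 26290))
    (x (nat_lit 26292)) (x (nat_lit 26300)) (x (nat_lit 26302)) (x (nat_lit 26304))
    (x (nat_lit 26308)) (x (nat_lit 26310)) (x (nat_lit 26316)) (x (nat_lit 26330))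
    (x (nat_lit 26332)) (x (nat_lit 26336)) (x (nat_lit 26338)) (x (nat_lit 26340))
    (x (nat_lit 26344)) (x (nat_lit 26346)) (x (nat_lit 26354)) (x (nat_lit 26356))
    (x (nat_lit 26358)) (x (nat_lit 26362)) (x (nat_lit 26364)) (x (nat_lit 26370))
    (x (nat_lit 26380)) (x (nat_lit 26382)) (x (nat_lit 26388)) (x (nat_lit 26408))
    (x (nat_lit 26410)) (x (nat_lit 26412)) (x (nat_lit 26416)) (x (nat_lit 26418))
    (x (nat_lit 26424)) (x (nat_lit 26434)) (x (nat_lit 26436)) (x (nat_lit 26442))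
    (x (nat_lit 26460)) (x (nat_lit 26492)) (x (nat_lit 26494)) (x (nat_lit 26498))
    (x (nat_lit 26500)) (x (nat_lit 26502)) (x (nat_lit 26506)) (x (nat_lit 26508))
    (x (nat_lit 26516)) (x (nat_lit 26518)) (x (nat_lit 26520)) (x (nat_lit 26524))
    (x (nat_lit 26526)) (x (nat_lit 26532)) (x (nat_lit 26542)) (x (nat_lit 26544))
    (x (nat_lit 26550)) (x (nat_lit 26570)) (x (nat_lit 26572)) (x (nat_lit 26574))
    (x (nat_lit 26578)) (x (nat_lit 26580)) (x (nat_lit 26586)) (x (nat_lit 26596))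
    (x (nat_lit 26598)) (x (nat_lit 26604)) (x (nat_lit 26622)) (x (nat_lit 26650))
    (x (nat_lit 26652)) (x (nat_lit 26658)) (x (nat_lit 26676)) (x (nat_lit 26732))
    (x (nat_lit 26734)) (x (nat_lit 26736)) (x (nat_lit 26740)) (x (nat_lit 26742))
    (x (nat_lit 26748)) (x (nat_lit 26758)) (x (nat_lit 26760)) (x (nat_lit 26766))
    (x (nat_lit 26784)) (x (nat_lit 26812)) (x (nat_lit 26814)) (x (nat_lit 26820))
    (x (nat_lit 26838)) (x (nat_lit 26892)) (x (nat_lit 26978)) (x (nat_lit 26980))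
    (x (nat_lit 26984)) (x (nat_lit 26986)) (x (nat_lit 26988)) (x (nat_lit 26992))
    (x (nat_lit 26994)) (x (nat_lit 27002)) (x (nat_lit 27004)) (x (nat_lit 27006))
    (x (nat_lit 27010)) (x (nat_lit 27012)) (x (nat_lit 27018)) (x (nat_lit 27028))
    (x (nat_lit 27030)) (x (nat_lit 27036)) (x (nat_lit 27056)) (x (nat_lit 27058))
    (x (nat_lit 27060)) (x (nat_lit 27064)) (x (nat_lit 27066)) (x (nat_lit 27072))
    (x (nat_lit 27082)) (x (nat_lit 27084)) (x (nat_lit 27090)) (x (nat_lit 27108))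
    (x (nat_lit 27136)) (x (nat_lit 27138)) (x (nat_lit 27144)) (x (nat_lit 27162))
    (x (nat_lit 27218)) (x (nat_lit 27220)) (x (nat_lit 27222)) (x (nat_lit 27226))
    (x (nat_lit 27228)) (x (nat_lit 27234)) (x (nat_lit 27244)) (x (nat_lit 27246))
    (x (nat_lit 27252)) (x (nat_lit 27270)) (x (nat_lit 27298)) (x (nat_lit 27300))
    (x (nat_lit 27306)) (x (nat_lit 27324)) (x (nat_lit 27378)) (x (nat_lit 27460))
    (x (nat_lit 27462)) (x (nat_lit 27468)) (x (nat_lit 27486)) (x (nat_lit 27540))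
    (x (nat_lit 27704)) (x (nat_lit 27706)) (x (nat_lit 27708)) (x (nat_lit 27712))
    (x (nat_lit 27714)) (x (nat_lit 27720)) (x (nat_lit 27730)) (x (nat_lit 27732))
    (x (nat_lit 27738)) (x (nat_lit 27756)) (x (nat_lit 27784)) (x (nat_lit 27786))
    (x (nat_lit 27792)) (x (nat_lit 27810)) (x (nat_lit 27864)) (x (nat_lit 27946))
    (x (nat_lit 27948)) (x (nat_lit 27954)) (x (nat_lit 27972)) (x (nat_lit 28026))
    (x (nat_lit 28188)) (x (nat_lit 28436)) (x (nat_lit 28438)) (x (nat_lit 28442))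
    (x (nat_lit 28444)) (x (nat_lit 28446)) (x (nat_lit 28450)) (x (nat_lit 28452))
    (x (nat_lit 28460)) (x (nat_lit 28462)) (x (nat_lit 28464)) (x (nat_lit 28468))
    (x (nat_lit 28470)) (x (nat_lit 28476)) (x (nat_lit 28486)) (x (nat_lit 28488))
    (x (nat_lit 28494)) (x (nat_lit 28514)) (x (nat_lit 28516)) (x (nat_lit 28518))
    (x (nat_lit 28522)) (x (nat_lit 28524)) (x (nat_lit 28530)) (x (nat_lit 28540))
    (x (nat_lit 28542)) (x (nat_lit 28548)) (x (nat_lit 28566)) (x (nat_lit 28594))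
    (x (nat_lit 28596)) (x (nat_lit 28602)) (x (nat_lit 28620)) (x (nat_lit 28676))
    (x (nat_lit 28678)) (x (nat_lit 28680)) (x (nat_lit 28684)) (x (nat_lit 28686))
    (x (nat_lit 28692)) (x (nat_lit 28702)) (x (nat_lit 28704)) (x (nat_lit 28710))
    (x (nat_lit 28728)) (x (nat_lit 28756)) (x (nat_lit 28758)) (x (nat_lit 28764))
    (x (nat_lit 28782)) (x (nat_lit 28836)) (x (nat_lit 28918)) (x (nat_lit 28920))
    (x (nat_lit 28926)) (x (nat_lit 28944)) (x (nat_lit 28998)) (x (nat_lit 29162))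
    (x (nat_lit 29164)) (x (nat_lit 29166)) (x (nat_lit 29170)) (x (nat_lit 29172))
    (x (nat_lit 29178)) (x (nat_lit 29188)) (x (nat_lit 29190)) (x (nat_lit 29196))
    (x (nat_lit 29214)) (x (nat_lit 29242)) (x (nat_lit 29244)) (x (nat_lit 29250))
    (x (nat_lit 29268)) (x (nat_lit 29322)) (x (nat_lit 29404)) (x (nat_lit 29406))
    (x (nat_lit 29412)) (x (nat_lit 29430)) (x (nat_lit 29484)) (x (nat_lit 29646))
    (x (nat_lit 29890)) (x (nat_lit 29892)) (x (nat_lit 29898)) (x (nat_lit 29916))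
    (x (nat_lit 29970)) (x (nat_lit 30132)) (x (nat_lit 30620)) (x (nat_lit 30622))
    (x (nat_lit 30624)) (x (nat_lit 30628)) (x (nat_lit 30630)) (x (nat_lit 30636))
    (x (nat_lit 30646)) (x (nat_lit 30648)) (x (nat_lit 30654)) (x (nat_lit 30672))
    (x (nat_lit 30700)) (x (nat_lit 30702)) (x (nat_lit 30708)) (x (nat_lit 30726))
    (x (nat_lit 30780)) (x (nat_lit 30862)) (x (nat_lit 30864)) (x (nat_lit 30870))
    (x (nat_lit 30888)) (x (nat_lit 30942)) (x (nat_lit 31104)) (x (nat_lit 31348))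
    (x (nat_lit 31350)) (x (nat_lit 31356)) (x (nat_lit 31374)) (x (nat_lit 31428))
    (x (nat_lit 31590)) (x (nat_lit 32076)) (x (nat_lit 32810)) (x (nat_lit 32812))
    (x (nat_lit 32816)) (x (nat_lit 32818)) (x (nat_lit 32820)) (x (nat_lit 32824))
    (x (nat_lit 32826)) (x (nat_lit 32834)) (x (nat_lit 32836)) (x (nat_lit 32838))
    (x (nat_lit 32842)) (x (nat_lit 32844)) (x (nat_lit 32850)) (x (nat_lit 32860))
    (x (nat_lit 32862)) (x (nat_lit 32868)) (x (nat_lit 32888)) (x (nat_lit 32890))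
    (x (nat_lit 32892)) (x (nat_lit 32896)) (x (nat_lit 32898)) (x (nat_lit 32904))
    (x (nat_lit 32914)) (x (nat_lit 32916)) (x (nat_lit 32922)) (x (nat_lit 32940))
    (x (nat_lit 32968)) (x (nat_lit 32970)) (x (nat_lit 32976)) (x (nat_lit 32994))
    (x (nat_lit 33050)) (x (nat_lit 33052)) (x (nat_lit 33054)) (x (nat_lit 33058))
    (x (nat_lit 33060)) (x (nat_lit 33066)) (x (nat_lit 33076)) (x (nat_lit 33078))
    (x (nat_lit 33084)) (x (nat_lit 33102)) (x (nat_lit 33130)) (x (nat_lit 33132))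
    (x (nat_lit 33138)) (x (nat_lit 33156)) (x (nat_lit 33210)) (x (nat_lit 33292))
    (x (nat_lit 33294)) (x (nat_lit 33300)) (x (nat_lit 33318)) (x (nat_lit 33372))
    (x (nat_lit 33536)) (x (nat_lit 33538)) (x (nat_lit 33540)) (x (nat_lit 33544))
    (x (nat_lit 33546)) (x (nat_lit 33552)) (x (nat_lit 33562)) (x (nat_lit 33564))
    (x (nat_lit 33570)) (x (nat_lit 33588)) (x (nat_lit 33616)) (x (nat_lit 33618))
    (x (nat_lit 33624)) (x (nat_lit 33642)) (x (nat_lit 33696)) (x (nat_lit 33778))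
    (x (nat_lit 33780)) (x (nat_lit 33786)) (x (nat_lit 33804)) (x (nat_lit 33858))
    (x (nat_lit 34020)) (x (nat_lit 34264)) (x (nat_lit 34266)) (x (nat_lit 34272))
    (x (nat_lit 34290)) (x (nat_lit 34344)) (x (nat_lit 34506)) (x (nat_lit 34994))
    (x (nat_lit 34996)) (x (nat_lit 34998)) (x (nat_lit 35002)) (x (nat_lit 35004))
    (x (nat_lit 35010)) (x (nat_lit 35020)) (x (nat_lit 35022)) (x (nat_lit 35028))
    (x (nat_lit 35046)) (x (nat_lit 35074)) (x (nat_lit 35076)) (x (nat_lit 35082))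
    (x (nat_lit 35100)) (x (nat_lit 35154)) (x (nat_lit 35236)) (x (nat_lit 35238))
    (x (nat_lit 35244)) (x (nat_lit 35262)) (x (nat_lit 35316)) (x (nat_lit 35478))
    (x (nat_lit 35722)) (x (nat_lit 35724)) (x (nat_lit 35730)) (x (nat_lit 35748))
    (x (nat_lit 35802)) (x (nat_lit 35964)) (x (nat_lit 36450)) (x (nat_lit 37180))
    (x (nat_lit 37182)) (x (nat_lit 37188)) (x (nat_lit 37206)) (x (nat_lit 37260))
    (x (nat_lit 37422)) (x (nat_lit 37908)) (x (nat_lit 39374)) (x (nat_lit 39380))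
    (x (nat_lit 39382)) (x (nat_lit 39386)) (x (nat_lit 39388)) (x (nat_lit 39390))
    (x (nat_lit 39398)) (x (nat_lit 39400)) (x (nat_lit 39404)) (x (nat_lit 39406))
    (x (nat_lit 39408)) (x (nat_lit 39412)) (x (nat_lit 39414)) (x (nat_lit 39422))
    (x (nat_lit 39424)) (x (nat_lit 39426)) (x (nat_lit 39430)) (x (nat_lit 39432))
    (x (nat_lit 39438)) (x (nat_lit 39452)) (x (nat_lit 39454)) (x (nat_lit 39458))
    (x (nat_lit 39460)) (x (nat_lit 39462)) (x (nat_lit 39466)) (x (nat_lit 39468))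
    (x (nat_lit 39476)) (x (nat_lit 39478)) (x (nat_lit 39480)) (x (nat_lit 39484))
    (x (nat_lit 39486)) (x (nat_lit 39492)) (x (nat_lit 39502)) (x (nat_lit 39504))
    (x (nat_lit 39510)) (x (nat_lit 39530)) (x (nat_lit 39532)) (x (nat_lit 39534))
    (x (nat_lit 39538)) (x (nat_lit 39540)) (x (nat_lit 39546)) (x (nat_lit 39556))
    (x (nat_lit 39558)) (x (nat_lit 39564)) (x (nat_lit 39582)) (x (nat_lit 39614))
    (x (nat_lit 39616)) (x (nat_lit 39620)) (x (nat_lit 39622)) (x (nat_lit 39624))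
    (x (nat_lit 39628)) (x (nat_lit 39630)) (x (nat_lit 39638)) (x (nat_lit 39640))
    (x (nat_lit 39642)) (x (nat_lit 39646)) (x (nat_lit 39648)) (x (nat_lit 39654))
    (x (nat_lit 39664)) (x (nat_lit 39666)) (x (nat_lit 39672)) (x (nat_lit 39692))
    (x (nat_lit 39694)) (x (nat_lit 39696)) (x (nat_lit 39700)) (x (nat_lit 39702))
    (x (nat_lit 39708)) (x (nat_lit 39718)) (x (nat_lit 39720)) (x (nat_lit 39726))
    (x (nat_lit 39744)) (x (nat_lit 39772)) (x (nat_lit 39774)) (x (nat_lit 39780))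
    (x (nat_lit 39798)) (x (nat_lit 39854)) (x (nat_lit 39856)) (x (nat_lit 39858))
    (x (nat_lit 39862)) (x (nat_lit 39864)) (x (nat_lit 39870)) (x (nat_lit 39880))
    (x (nat_lit 39882)) (x (nat_lit 39888)) (x (nat_lit 39906)) (x (nat_lit 39934))
    (x (nat_lit 39936)) (x (nat_lit 39942)) (x (nat_lit 39960)) (x (nat_lit 40014))
    (x (nat_lit 40100)) (x (nat_lit 40102)) (x (nat_lit 40106)) (x (nat_lit 40108))
    (x (nat_lit 40110)) (x (nat_lit 40114)) (x (nat_lit 40116)) (x (nat_lit 40124))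
    (x (nat_lit 40126)) (x (nat_lit 40128)) (x (nat_lit 40132)) (x (nat_lit 40134))
    (x (nat_lit 40140)) (x (nat_lit 40150)) (x (nat_lit 40152)) (x (nat_lit 40158))
    (x (nat_lit 40178)) (x (nat_lit 40180)) (x (nat_lit 40182)) (x (nat_lit 40186))
    (x (nat_lit 40188)) (x (nat_lit 40194)) (x (nat_lit 40204)) (x (nat_lit 40206))
    (x (nat_lit 40212)) (x (nat_lit 40230)) (x (nat_lit 40258)) (x (nat_lit 40260))
    (x (nat_lit 40266)) (x (nat_lit 40284)) (x (nat_lit 40340)) (x (nat_lit 40342))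
    (x (nat_lit 40344)) (x (nat_lit 40348)) (x (nat_lit 40350)) (x (nat_lit 40356))
    (x (nat_lit 40366)) (x (nat_lit 40368)) (x (nat_lit 40374)) (x (nat_lit 40392))
    (x (nat_lit 40420)) (x (nat_lit 40422)) (x (nat_lit 40428)) (x (nat_lit 40446))
    (x (nat_lit 40500)) (x (nat_lit 40582)) (x (nat_lit 40584)) (x (nat_lit 40590))
    (x (nat_lit 40608)) (x (nat_lit 40662)) (x (nat_lit 40826)) (x (nat_lit 40828))
    (x (nat_lit 40830)) (x (nat_lit 40834)) (x (nat_lit 40836)) (x (nat_lit 40842))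
    (x (nat_lit 40852)) (x (nat_lit 40854)) (x (nat_lit 40860)) (x (nat_lit 40878))
    (x (nat_lit 40906)) (x (nat_lit 40908)) (x (nat_lit 40914)) (x (nat_lit 40932))
    (x (nat_lit 40986)) (x (nat_lit 41068)) (x (nat_lit 41070)) (x (nat_lit 41076))
    (x (nat_lit 41094)) (x (nat_lit 41148)) (x (nat_lit 41310)) (x (nat_lit 41558))
    (x (nat_lit 41560)) (x (nat_lit 41564)) (x (nat_lit 41566)) (x (nat_lit 41568))
    (x (nat_lit 41572)) (x (nat_lit 41574)) (x (nat_lit 41582)) (x (nat_lit 41584))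
    (x (nat_lit 41586)) (x (nat_lit 41590)) (x (nat_lit 41592)) (x (nat_lit 41598))
    (x (nat_lit 41608)) (x (nat_lit 41610)) (x (nat_lit 41616)) (x (nat_lit 41636))
    (x (nat_lit 41638)) (x (nat_lit 41640)) (x (nat_lit 41644)) (x (nat_lit 41646))
    (x (nat_lit 41652)) (x (nat_lit 41662)) (x (nat_lit 41664)) (x (nat_lit 41670))
    (x (nat_lit 41688)) (x (nat_lit 41716)) (x (nat_lit 41718)) (x (nat_lit 41724))
    (x (nat_lit 41742)) (x (nat_lit 41798)) (x (nat_lit 41800)) (x (nat_lit 41802))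
    (x (nat_lit 41806)) (x (nat_lit 41808)) (x (nat_lit 41814)) (x (nat_lit 41824))
    (x (nat_lit 41826)) (x (nat_lit 41832)) (x (nat_lit 41850)) (x (nat_lit 41878))
    (x (nat_lit 41880)) (x (nat_lit 41886)) (x (nat_lit 41904)) (x (nat_lit 41958))
    (x (nat_lit 42040)) (x (nat_lit 42042)) (x (nat_lit 42048)) (x (nat_lit 42066))
    (x (nat_lit 42120)) (x (nat_lit 42284)) (x (nat_lit 42286)) (x (nat_lit 42288))
    (x (nat_lit 42292)) (x (nat_lit 42294)) (x (nat_lit 42300)) (x (nat_lit 42310))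
    (x (nat_lit 42312)) (x (nat_lit 42318)) (x (nat_lit 42336)) (x (nat_lit 42364))
    (x (nat_lit 42366)) (x (nat_lit 42372)) (x (nat_lit 42390)) (x (nat_lit 42444))
    (x (nat_lit 42526)) (x (nat_lit 42528)) (x (nat_lit 42534)) (x (nat_lit 42552))
    (x (nat_lit 42606)) (x (nat_lit 42768)) (x (nat_lit 43012)) (x (nat_lit 43014))
    (x (nat_lit 43020)) (x (nat_lit 43038)) (x (nat_lit 43092)) (x (nat_lit 43254))
    (x (nat_lit 43742)) (x (nat_lit 43744)) (x (nat_lit 43746)) (x (nat_lit 43750))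
    (x (nat_lit 43752)) (x (nat_lit 43758)) (x (nat_lit 43768)) (x (nat_lit 43770))
    (x (nat_lit 43776)) (x (nat_lit 43794)) (x (nat_lit 43822)) (x (nat_lit 43824))
    (x (nat_lit 43830)) (x (nat_lit 43848)) (x (nat_lit 43902)) (x (nat_lit 43984))
    (x (nat_lit 43986)) (x (nat_lit 43992)) (x (nat_lit 44010)) (x (nat_lit 44064))
    (x (nat_lit 44226)) (x (nat_lit 44470)) (x (nat_lit 44472)) (x (nat_lit 44478))
    (x (nat_lit 44496)) (x (nat_lit 44550)) (x (nat_lit 44712)) (x (nat_lit 45198))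
    (x (nat_lit 45932)) (x (nat_lit 45934)) (x (nat_lit 45938)) (x (nat_lit 45940))
    (x (nat_lit 45942)) (x (nat_lit 45946)) (x (nat_lit 45948)) (x (nat_lit 45956))
    (x (nat_lit 45958)) (x (nat_lit 45960)) (x (nat_lit 45964)) (x (nat_lit 45966))
    (x (nat_lit 45972)) (x (nat_lit 45982)) (x (nat_lit 45984)) (x (nat_lit 45990))
    (x (nat_lit 46010)) (x (nat_lit 46012)) (x (nat_lit 46014)) (x (nat_lit 46018))
    (x (nat_lit 46020)) (x (nat_lit 46026)) (x (nat_lit 46036)) (x (nat_lit 46038))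
    (x (nat_lit 46044)) (x (nat_lit 46062)) (x (nat_lit 46090)) (x (nat_lit 46092))
    (x (nat_lit 46098)) (x (nat_lit 46116)) (x (nat_lit 46172)) (x (nat_lit 46174))
    (x (nat_lit 46176)) (x (nat_lit 46180)) (x (nat_lit 46182)) (x (nat_lit 46188))
    (x (nat_lit 46198)) (x (nat_lit 46200)) (x (nat_lit 46206)) (x (nat_lit 46224))
    (x (nat_lit 46252)) (x (nat_lit 46254)) (x (nat_lit 46260)) (x (nat_lit 46278))
    (x (nat_lit 46332)) (x (nat_lit 46414)) (x (nat_lit 46416)) (x (nat_lit 46422))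
    (x (nat_lit 46440)) (x (nat_lit 46494)) (x (nat_lit 46658)) (x (nat_lit 46660))
    (x (nat_lit 46662)) (x (nat_lit 46666)) (x (nat_lit 46668)) (x (nat_lit 46674))
    (x (nat_lit 46684)) (x (nat_lit 46686)) (x (nat_lit 46692)) (x (nat_lit 46710))
    (x (nat_lit 46738)) (x (nat_lit 46740)) (x (nat_lit 46746)) (x (nat_lit 46764))
    (x (nat_lit 46818)) (x (nat_lit 46900)) (x (nat_lit 46902)) (x (nat_lit 46908))
    (x (nat_lit 46926)) (x (nat_lit 46980)) (x (nat_lit 47142)) (x (nat_lit 47386))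
    (x (nat_lit 47388)) (x (nat_lit 47394)) (x (nat_lit 47412)) (x (nat_lit 47466))
    (x (nat_lit 47628)) (x (nat_lit 48116)) (x (nat_lit 48118)) (x (nat_lit 48120))
    (x (nat_lit 48124)) (x (nat_lit 48126)) (x (nat_lit 48132)) (x (nat_lit 48142))
    (x (nat_lit 48144)) (x (nat_lit 48150)) (x (nat_lit 48168)) (x (nat_lit 48196))
    (x (nat_lit 48198)) (x (nat_lit 48204)) (x (nat_lit 48222)) (x (nat_lit 48276))
    (x (nat_lit 48358)) (x (nat_lit 48360)) (x (nat_lit 48366)) (x (nat_lit 48384))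
    (x (nat_lit 48438)) (x (nat_lit 48600)) (x (nat_lit 48844)) (x (nat_lit 48846))
    (x (nat_lit 48852)) (x (nat_lit 48870)) (x (nat_lit 48924)) (x (nat_lit 49086))
    (x (nat_lit 49572)) (x (nat_lit 50302)) (x (nat_lit 50304)) (x (nat_lit 50310))
    (x (nat_lit 50328)) (x (nat_lit 50382)) (x (nat_lit 50544)) (x (nat_lit 51030))
    (x (nat_lit 52490)) (x (nat_lit 52492)) (x (nat_lit 52494)) (x (nat_lit 52498))
    (x (nat_lit 52500)) (x (nat_lit 52506)) (x (nat_lit 52516)) (x (nat_lit 52518))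
    (x (nat_lit 52524)) (x (nat_lit 52542)) (x (nat_lit 52570)) (x (nat_lit 52572))
    (x (nat_lit 52578)) (x (nat_lit 52596)) (x (nat_lit 52650)) (x (nat_lit 52732))
    (x (nat_lit 52734)) (x (nat_lit 52740)) (x (nat_lit 52758)) (x (nat_lit 52812))
    (x (nat_lit 52974)) (x (nat_lit 53218)) (x (nat_lit 53220)) (x (nat_lit 53226))
    (x (nat_lit 53244)) (x (nat_lit 53298)) (x (nat_lit 53460)) (x (nat_lit 53946))
    (x (nat_lit 54676)) (x (nat_lit 54678)) (x (nat_lit 54684)) (x (nat_lit 54702))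
    (x (nat_lit 54756)) (x (nat_lit 54918)) (x (nat_lit 55404)) (x (nat_lit 56862))

theorem ap_eq (x : Nat → Nat) (k : FnLL cds) : apLL (fun t => x t.cd) cds k = ap x k :=
  Eq.refl (ap x k)

theorem codes_ok : beqL (codes cds) (secL 10 6 0 []) = true := by decide +kernel

noncomputable def fin (f : Nat → Nat) (v1 : Nat) (
    x26 x44 x50 x52 x62 x68 x70 x74 x76 x78 x98 x104 x106 x116 x122 x124 x128 x130 x132 x140 x142
    x146 x148 x150 x154 x156 x170 x176 x178 x182 x184 x186 x194 x196 x200 x202 x204 x208 x210 x218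
    x220 x222 x226 x228 x234 x260 x266 x268 x278 x284 x286 x290 x292 x294 x302 x304 x308 x310 x312
    x316 x318 x332 x338 x340 x344 x346 x348 x356 x358 x362 x364 x366 x370 x372 x380 x382 x384 x388
    x390 x396 x410 x412 x416 x418 x420 x424 x426 x434 x436 x438 x442 x444 x450 x460 x462 x468 x494
    x500 x502 x506 x508 x510 x518 x520 x524 x526 x528 x532 x534 x542 x544 x546 x550 x552 x558 x572
    x574 x578 x580 x582 x586 x588 x596 x598 x600 x604 x606 x612 x622 x624 x630 x650 x652 x654 x658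
    x660 x666 x676 x678 x684 x702 x746 x752 x754 x764 x770 x772 x776 x778 x780 x788 x790 x794 x796
    x798 x802 x804 x818 x824 x826 x830 x832 x834 x842 x844 x848 x850 x852 x856 x858 x866 x868 x870
    x874 x876 x882 x896 x898 x902 x904 x906 x910 x912 x920 x922 x924 x928 x930 x936 x946 x948 x954
    x980 x986 x988 x992 x994 x996 x1004 x1006 x1010 x1012 x1014 x1018 x1020 x1028 x1030 x1032 x1036
    x1038 x1044 x1058 x1060 x1064 x1066 x1068 x1072 x1074 x1082 x1084 x1086 x1090 x1092 x1098 x1108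
    x1110 x1116 x1136 x1138 x1140 x1144 x1146 x1152 x1162 x1164 x1170 x1188 x1220 x1222 x1226 x1228
    x1230 x1234 x1236 x1244 x1246 x1248 x1252 x1254 x1260 x1270 x1272 x1278 x1298 x1300 x1302 x1306
    x1308 x1314 x1324 x1326 x1332 x1350 x1378 x1380 x1386 x1404 x1466 x1472 x1474 x1478 x1480 x1482
    x1490 x1492 x1496 x1498 x1500 x1504 x1506 x1514 x1516 x1518 x1522 x1524 x1530 x1544 x1546 x1550
    x1552 x1554 x1558 x1560 x1568 x1570 x1572 x1576 x1578 x1584 x1594 x1596 x1602 x1622 x1624 x1626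
    x1630 x1632 x1638 x1648 x1650 x1656 x1674 x1706 x1708 x1712 x1714 x1716 x1720 x1722 x1730 x1732
    x1734 x1738 x1740 x1746 x1756 x1758 x1764 x1784 x1786 x1788 x1792 x1794 x1800 x1810 x1812 x1818
    x1836 x1864 x1866 x1872 x1890 x1946 x1948 x1950 x1954 x1956 x1962 x1972 x1974 x1980 x1998 x2026
    x2028 x2034 x2052 x2106 x2204 x2210 x2212 x2222 x2228 x2230 x2234 x2236 x2238 x2246 x2248 x2252
    x2254 x2256 x2260 x2262 x2276 x2282 x2284 x2288 x2290 x2292 x2300 x2302 x2306 x2308 x2310 x2314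
    x2316 x2324 x2326 x2328 x2332 x2334 x2340 x2354 x2356 x2360 x2362 x2364 x2368 x2370 x2378 x2380
    x2382 x2386 x2388 x2394 x2404 x2406 x2412 x2438 x2444 x2446 x2450 x2452 x2454 x2462 x2464 x2468
    x2470 x2472 x2476 x2478 x2486 x2488 x2490 x2494 x2496 x2502 x2516 x2518 x2522 x2524 x2526 x2530
    x2532 x2540 x2542 x2544 x2548 x2550 x2556 x2566 x2568 x2574 x2594 x2596 x2598 x2602 x2604 x2610
    x2620 x2622 x2628 x2646 x2678 x2680 x2684 x2686 x2688 x2692 x2694 x2702 x2704 x2706 x2710 x2712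
    x2718 x2728 x2730 x2736 x2756 x2758 x2760 x2764 x2766 x2772 x2782 x2784 x2790 x2808 x2836 x2838
    x2844 x2862 x2924 x2930 x2932 x2936 x2938 x2940 x2948 x2950 x2954 x2956 x2958 x2962 x2964 x2972
    x2974 x2976 x2980 x2982 x2988 x3002 x3004 x3008 x3010 x3012 x3016 x3018 x3026 x3028 x3030 x3034
    x3036 x3042 x3052 x3054 x3060 x3080 x3082 x3084 x3088 x3090 x3096 x3106 x3108 x3114 x3132 x3164
    x3166 x3170 x3172 x3174 x3178 x3180 x3188 x3190 x3192 x3196 x3198 x3204 x3214 x3216 x3222 x3242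
    x3244 x3246 x3250 x3252 x3258 x3268 x3270 x3276 x3294 x3322 x3324 x3330 x3348 x3404 x3406 x3408
    x3412 x3414 x3420 x3430 x3432 x3438 x3456 x3484 x3486 x3492 x3510 x3564 x3650 x3652 x3656 x3658
    x3660 x3664 x3666 x3674 x3676 x3678 x3682 x3684 x3690 x3700 x3702 x3708 x3728 x3730 x3732 x3736
    x3738 x3744 x3754 x3756 x3762 x3780 x3808 x3810 x3816 x3834 x3890 x3892 x3894 x3898 x3900 x3906
    x3916 x3918 x3924 x3942 x3970 x3972 x3978 x3996 x4050 x4132 x4134 x4140 x4158 x4212 x4382 x4388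
    x4390 x4394 x4396 x4398 x4406 x4408 x4412 x4414 x4416 x4420 x4422 x4430 x4432 x4434 x4438 x4440
    x4446 x4460 x4462 x4466 x4468 x4470 x4474 x4476 x4484 x4486 x4488 x4492 x4494 x4500 x4510 x4512
    x4518 x4538 x4540 x4542 x4546 x4548 x4554 x4564 x4566 x4572 x4590 x4622 x4624 x4628 x4630 x4632
    x4636 x4638 x4646 x4648 x4650 x4654 x4656 x4662 x4672 x4674 x4680 x4700 x4702 x4704 x4708 x4710
    x4716 x4726 x4728 x4734 x4752 x4780 x4782 x4788 x4806 x4862 x4864 x4866 x4870 x4872 x4878 x4888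
    x4890 x4896 x4914 x4942 x4944 x4950 x4968 x5022 x5108 x5110 x5114 x5116 x5118 x5122 x5124 x5132
    x5134 x5136 x5140 x5142 x5148 x5158 x5160 x5166 x5186 x5188 x5190 x5194 x5196 x5202 x5212 x5214
    x5220 x5238 x5266 x5268 x5274 x5292 x5348 x5350 x5352 x5356 x5358 x5364 x5374 x5376 x5382 x5400
    x5428 x5430 x5436 x5454 x5508 x5590 x5592 x5598 x5616 x5670 x5834 x5836 x5838 x5842 x5844 x5850
    x5860 x5862 x5868 x5886 x5914 x5916 x5922 x5940 x5994 x6076 x6078 x6084 x6102 x6156 x6318 x6578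
    x6584 x6586 x6596 x6602 x6604 x6608 x6610 x6612 x6620 x6622 x6626 x6628 x6630 x6634 x6636 x6650
    x6656 x6658 x6662 x6664 x6666 x6674 x6676 x6680 x6682 x6684 x6688 x6690 x6698 x6700 x6702 x6706
    x6708 x6714 x6728 x6730 x6734 x6736 x6738 x6742 x6744 x6752 x6754 x6756 x6760 x6762 x6768 x6778
    x6780 x6786 x6812 x6818 x6820 x6824 x6826 x6828 x6836 x6838 x6842 x6844 x6846 x6850 x6852 x6860
    x6862 x6864 x6868 x6870 x6876 x6890 x6892 x6896 x6898 x6900 x6904 x6906 x6914 x6916 x6918 x6922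
    x6924 x6930 x6940 x6942 x6948 x6968 x6970 x6972 x6976 x6978 x6984 x6994 x6996 x7002 x7020 x7052
    x7054 x7058 x7060 x7062 x7066 x7068 x7076 x7078 x7080 x7084 x7086 x7092 x7102 x7104 x7110 x7130
    x7132 x7134 x7138 x7140 x7146 x7156 x7158 x7164 x7182 x7210 x7212 x7218 x7236 x7298 x7304 x7306
    x7310 x7312 x7314 x7322 x7324 x7328 x7330 x7332 x7336 x7338 x7346 x7348 x7350 x7354 x7356 x7362
    x7376 x7378 x7382 x7384 x7386 x7390 x7392 x7400 x7402 x7404 x7408 x7410 x7416 x7426 x7428 x7434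
    x7454 x7456 x7458 x7462 x7464 x7470 x7480 x7482 x7488 x7506 x7538 x7540 x7544 x7546 x7548 x7552
    x7554 x7562 x7564 x7566 x7570 x7572 x7578 x7588 x7590 x7596 x7616 x7618 x7620 x7624 x7626 x7632
    x7642 x7644 x7650 x7668 x7696 x7698 x7704 x7722 x7778 x7780 x7782 x7786 x7788 x7794 x7804 x7806
    x7812 x7830 x7858 x7860 x7866 x7884 x7938 x8024 x8026 x8030 x8032 x8034 x8038 x8040 x8048 x8050
    x8052 x8056 x8058 x8064 x8074 x8076 x8082 x8102 x8104 x8106 x8110 x8112 x8118 x8128 x8130 x8136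
    x8154 x8182 x8184 x8190 x8208 x8264 x8266 x8268 x8272 x8274 x8280 x8290 x8292 x8298 x8316 x8344
    x8346 x8352 x8370 x8424 x8506 x8508 x8514 x8532 x8586 x8756 x8762 x8764 x8768 x8770 x8772 x8780
    x8782 x8786 x8788 x8790 x8794 x8796 x8804 x8806 x8808 x8812 x8814 x8820 x8834 x8836 x8840 x8842
    x8844 x8848 x8850 x8858 x8860 x8862 x8866 x8868 x8874 x8884 x8886 x8892 x8912 x8914 x8916 x8920
    x8922 x8928 x8938 x8940 x8946 x8964 x8996 x8998 x9002 x9004 x9006 x9010 x9012 x9020 x9022 x9024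
    x9028 x9030 x9036 x9046 x9048 x9054 x9074 x9076 x9078 x9082 x9084 x9090 x9100 x9102 x9108 x9126
    x9154 x9156 x9162 x9180 x9236 x9238 x9240 x9244 x9246 x9252 x9262 x9264 x9270 x9288 x9316 x9318
    x9324 x9342 x9396 x9482 x9484 x9488 x9490 x9492 x9496 x9498 x9506 x9508 x9510 x9514 x9516 x9522
    x9532 x9534 x9540 x9560 x9562 x9564 x9568 x9570 x9576 x9586 x9588 x9594 x9612 x9640 x9642 x9648
    x9666 x9722 x9724 x9726 x9730 x9732 x9738 x9748 x9750 x9756 x9774 x9802 x9804 x9810 x9828 x9882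
    x9964 x9966 x9972 x9990 x10044 x10208 x10210 x10212 x10216 x10218 x10224 x10234 x10236 x10242
    x10260 x10288 x10290 x10296 x10314 x10368 x10450 x10452 x10458 x10476 x10530 x10692 x10940
    x10942 x10946 x10948 x10950 x10954 x10956 x10964 x10966 x10968 x10972 x10974 x10980 x10990
    x10992 x10998 x11018 x11020 x11022 x11026 x11028 x11034 x11044 x11046 x11052 x11070 x11098
    x11100 x11106 x11124 x11180 x11182 x11184 x11188 x11190 x11196 x11206 x11208 x11214 x11232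
    x11260 x11262 x11268 x11286 x11340 x11422 x11424 x11430 x11448 x11502 x11666 x11668 x11670
    x11674 x11676 x11682 x11692 x11694 x11700 x11718 x11746 x11748 x11754 x11772 x11826 x11908
    x11910 x11916 x11934 x11988 x12150 x12394 x12396 x12402 x12420 x12474 x12636 x13130 x13136
    x13138 x13142 x13144 x13146 x13154 x13156 x13160 x13162 x13164 x13168 x13170 x13178 x13180
    x13182 x13186 x13188 x13194 x13208 x13210 x13214 x13216 x13218 x13222 x13224 x13232 x13234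
    x13236 x13240 x13242 x13248 x13258 x13260 x13266 x13286 x13288 x13290 x13294 x13296 x13302
    x13312 x13314 x13320 x13338 x13370 x13372 x13376 x13378 x13380 x13384 x13386 x13394 x13396
    x13398 x13402 x13404 x13410 x13420 x13422 x13428 x13448 x13450 x13452 x13456 x13458 x13464
    x13474 x13476 x13482 x13500 x13528 x13530 x13536 x13554 x13610 x13612 x13614 x13618 x13620
    x13626 x13636 x13638 x13644 x13662 x13690 x13692 x13698 x13716 x13770 x13856 x13858 x13862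
    x13864 x13866 x13870 x13872 x13880 x13882 x13884 x13888 x13890 x13896 x13906 x13908 x13914
    x13934 x13936 x13938 x13942 x13944 x13950 x13960 x13962 x13968 x13986 x14014 x14016 x14022
    x14040 x14096 x14098 x14100 x14104 x14106 x14112 x14122 x14124 x14130 x14148 x14176 x14178
    x14184 x14202 x14256 x14338 x14340 x14346 x14364 x14418 x14582 x14584 x14586 x14590 x14592
    x14598 x14608 x14610 x14616 x14634 x14662 x14664 x14670 x14688 x14742 x14824 x14826 x14832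
    x14850 x14904 x15066 x15314 x15316 x15320 x15322 x15324 x15328 x15330 x15338 x15340 x15342
    x15346 x15348 x15354 x15364 x15366 x15372 x15392 x15394 x15396 x15400 x15402 x15408 x15418
    x15420 x15426 x15444 x15472 x15474 x15480 x15498 x15554 x15556 x15558 x15562 x15564 x15570
    x15580 x15582 x15588 x15606 x15634 x15636 x15642 x15660 x15714 x15796 x15798 x15804 x15822
    x15876 x16040 x16042 x16044 x16048 x16050 x16056 x16066 x16068 x16074 x16092 x16120 x16122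
    x16128 x16146 x16200 x16282 x16284 x16290 x16308 x16362 x16524 x16768 x16770 x16776 x16794
    x16848 x17010 x17498 x17500 x17502 x17506 x17508 x17514 x17524 x17526 x17532 x17550 x17578
    x17580 x17586 x17604 x17658 x17740 x17742 x17748 x17766 x17820 x17982 x18226 x18228 x18234
    x18252 x18306 x18468 x18954 x19700 x19706 x19708 x19718 x19724 x19726 x19730 x19732 x19734
    x19742 x19744 x19748 x19750 x19752 x19756 x19758 x19772 x19778 x19780 x19784 x19786 x19788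
    x19796 x19798 x19802 x19804 x19806 x19810 x19812 x19820 x19822 x19824 x19828 x19830 x19836
    x19850 x19852 x19856 x19858 x19860 x19864 x19866 x19874 x19876 x19878 x19882 x19884 x19890
    x19900 x19902 x19908 x19934 x19940 x19942 x19946 x19948 x19950 x19958 x19960 x19964 x19966
    x19968 x19972 x19974 x19982 x19984 x19986 x19990 x19992 x19998 x20012 x20014 x20018 x20020
    x20022 x20026 x20028 x20036 x20038 x20040 x20044 x20046 x20052 x20062 x20064 x20070 x20090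
    x20092 x20094 x20098 x20100 x20106 x20116 x20118 x20124 x20142 x20174 x20176 x20180 x20182
    x20184 x20188 x20190 x20198 x20200 x20202 x20206 x20208 x20214 x20224 x20226 x20232 x20252
    x20254 x20256 x20260 x20262 x20268 x20278 x20280 x20286 x20304 x20332 x20334 x20340 x20358
    x20420 x20426 x20428 x20432 x20434 x20436 x20444 x20446 x20450 x20452 x20454 x20458 x20460
    x20468 x20470 x20472 x20476 x20478 x20484 x20498 x20500 x20504 x20506 x20508 x20512 x20514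
    x20522 x20524 x20526 x20530 x20532 x20538 x20548 x20550 x20556 x20576 x20578 x20580 x20584
    x20586 x20592 x20602 x20604 x20610 x20628 x20660 x20662 x20666 x20668 x20670 x20674 x20676
    x20684 x20686 x20688 x20692 x20694 x20700 x20710 x20712 x20718 x20738 x20740 x20742 x20746
    x20748 x20754 x20764 x20766 x20772 x20790 x20818 x20820 x20826 x20844 x20900 x20902 x20904
    x20908 x20910 x20916 x20926 x20928 x20934 x20952 x20980 x20982 x20988 x21006 x21060 x21146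
    x21148 x21152 x21154 x21156 x21160 x21162 x21170 x21172 x21174 x21178 x21180 x21186 x21196
    x21198 x21204 x21224 x21226 x21228 x21232 x21234 x21240 x21250 x21252 x21258 x21276 x21304
    x21306 x21312 x21330 x21386 x21388 x21390 x21394 x21396 x21402 x21412 x21414 x21420 x21438
    x21466 x21468 x21474 x21492 x21546 x21628 x21630 x21636 x21654 x21708 x21878 x21884 x21886
    x21890 x21892 x21894 x21902 x21904 x21908 x21910 x21912 x21916 x21918 x21926 x21928 x21930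
    x21934 x21936 x21942 x21956 x21958 x21962 x21964 x21966 x21970 x21972 x21980 x21982 x21984
    x21988 x21990 x21996 x22006 x22008 x22014 x22034 x22036 x22038 x22042 x22044 x22050 x22060
    x22062 x22068 x22086 x22118 x22120 x22124 x22126 x22128 x22132 x22134 x22142 x22144 x22146
    x22150 x22152 x22158 x22168 x22170 x22176 x22196 x22198 x22200 x22204 x22206 x22212 x22222
    x22224 x22230 x22248 x22276 x22278 x22284 x22302 x22358 x22360 x22362 x22366 x22368 x22374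
    x22384 x22386 x22392 x22410 x22438 x22440 x22446 x22464 x22518 x22604 x22606 x22610 x22612
    x22614 x22618 x22620 x22628 x22630 x22632 x22636 x22638 x22644 x22654 x22656 x22662 x22682
    x22684 x22686 x22690 x22692 x22698 x22708 x22710 x22716 x22734 x22762 x22764 x22770 x22788
    x22844 x22846 x22848 x22852 x22854 x22860 x22870 x22872 x22878 x22896 x22924 x22926 x22932
    x22950 x23004 x23086 x23088 x23094 x23112 x23166 x23330 x23332 x23334 x23338 x23340 x23346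
    x23356 x23358 x23364 x23382 x23410 x23412 x23418 x23436 x23490 x23572 x23574 x23580 x23598
    x23652 x23814 x24062 x24064 x24068 x24070 x24072 x24076 x24078 x24086 x24088 x24090 x24094
    x24096 x24102 x24112 x24114 x24120 x24140 x24142 x24144 x24148 x24150 x24156 x24166 x24168
    x24174 x24192 x24220 x24222 x24228 x24246 x24302 x24304 x24306 x24310 x24312 x24318 x24328
    x24330 x24336 x24354 x24382 x24384 x24390 x24408 x24462 x24544 x24546 x24552 x24570 x24624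
    x24788 x24790 x24792 x24796 x24798 x24804 x24814 x24816 x24822 x24840 x24868 x24870 x24876
    x24894 x24948 x25030 x25032 x25038 x25056 x25110 x25272 x25516 x25518 x25524 x25542 x25596
    x25758 x26252 x26258 x26260 x26264 x26266 x26268 x26276 x26278 x26282 x26284 x26286 x26290
    x26292 x26300 x26302 x26304 x26308 x26310 x26316 x26330 x26332 x26336 x26338 x26340 x26344
    x26346 x26354 x26356 x26358 x26362 x26364 x26370 x26380 x26382 x26388 x26408 x26410 x26412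
    x26416 x26418 x26424 x26434 x26436 x26442 x26460 x26492 x26494 x26498 x26500 x26502 x26506
    x26508 x26516 x26518 x26520 x26524 x26526 x26532 x26542 x26544 x26550 x26570 x26572 x26574
    x26578 x26580 x26586 x26596 x26598 x26604 x26622 x26650 x26652 x26658 x26676 x26732 x26734
    x26736 x26740 x26742 x26748 x26758 x26760 x26766 x26784 x26812 x26814 x26820 x26838 x26892
    x26978 x26980 x26984 x26986 x26988 x26992 x26994 x27002 x27004 x27006 x27010 x27012 x27018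
    x27028 x27030 x27036 x27056 x27058 x27060 x27064 x27066 x27072 x27082 x27084 x27090 x27108
    x27136 x27138 x27144 x27162 x27218 x27220 x27222 x27226 x27228 x27234 x27244 x27246 x27252
    x27270 x27298 x27300 x27306 x27324 x27378 x27460 x27462 x27468 x27486 x27540 x27704 x27706
    x27708 x27712 x27714 x27720 x27730 x27732 x27738 x27756 x27784 x27786 x27792 x27810 x27864
    x27946 x27948 x27954 x27972 x28026 x28188 x28436 x28438 x28442 x28444 x28446 x28450 x28452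
    x28460 x28462 x28464 x28468 x28470 x28476 x28486 x28488 x28494 x28514 x28516 x28518 x28522
    x28524 x28530 x28540 x28542 x28548 x28566 x28594 x28596 x28602 x28620 x28676 x28678 x28680
    x28684 x28686 x28692 x28702 x28704 x28710 x28728 x28756 x28758 x28764 x28782 x28836 x28918
    x28920 x28926 x28944 x28998 x29162 x29164 x29166 x29170 x29172 x29178 x29188 x29190 x29196
    x29214 x29242 x29244 x29250 x29268 x29322 x29404 x29406 x29412 x29430 x29484 x29646 x29890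
    x29892 x29898 x29916 x29970 x30132 x30620 x30622 x30624 x30628 x30630 x30636 x30646 x30648
    x30654 x30672 x30700 x30702 x30708 x30726 x30780 x30862 x30864 x30870 x30888 x30942 x31104
    x31348 x31350 x31356 x31374 x31428 x31590 x32076 x32810 x32812 x32816 x32818 x32820 x32824
    x32826 x32834 x32836 x32838 x32842 x32844 x32850 x32860 x32862 x32868 x32888 x32890 x32892
    x32896 x32898 x32904 x32914 x32916 x32922 x32940 x32968 x32970 x32976 x32994 x33050 x33052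
    x33054 x33058 x33060 x33066 x33076 x33078 x33084 x33102 x33130 x33132 x33138 x33156 x33210
    x33292 x33294 x33300 x33318 x33372 x33536 x33538 x33540 x33544 x33546 x33552 x33562 x33564
    x33570 x33588 x33616 x33618 x33624 x33642 x33696 x33778 x33780 x33786 x33804 x33858 x34020
    x34264 x34266 x34272 x34290 x34344 x34506 x34994 x34996 x34998 x35002 x35004 x35010 x35020
    x35022 x35028 x35046 x35074 x35076 x35082 x35100 x35154 x35236 x35238 x35244 x35262 x35316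
    x35478 x35722 x35724 x35730 x35748 x35802 x35964 x36450 x37180 x37182 x37188 x37206 x37260
    x37422 x37908 x39374 x39380 x39382 x39386 x39388 x39390 x39398 x39400 x39404 x39406 x39408
    x39412 x39414 x39422 x39424 x39426 x39430 x39432 x39438 x39452 x39454 x39458 x39460 x39462
    x39466 x39468 x39476 x39478 x39480 x39484 x39486 x39492 x39502 x39504 x39510 x39530 x39532
    x39534 x39538 x39540 x39546 x39556 x39558 x39564 x39582 x39614 x39616 x39620 x39622 x39624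
    x39628 x39630 x39638 x39640 x39642 x39646 x39648 x39654 x39664 x39666 x39672 x39692 x39694
    x39696 x39700 x39702 x39708 x39718 x39720 x39726 x39744 x39772 x39774 x39780 x39798 x39854
    x39856 x39858 x39862 x39864 x39870 x39880 x39882 x39888 x39906 x39934 x39936 x39942 x39960
    x40014 x40100 x40102 x40106 x40108 x40110 x40114 x40116 x40124 x40126 x40128 x40132 x40134
    x40140 x40150 x40152 x40158 x40178 x40180 x40182 x40186 x40188 x40194 x40204 x40206 x40212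
    x40230 x40258 x40260 x40266 x40284 x40340 x40342 x40344 x40348 x40350 x40356 x40366 x40368
    x40374 x40392 x40420 x40422 x40428 x40446 x40500 x40582 x40584 x40590 x40608 x40662 x40826
    x40828 x40830 x40834 x40836 x40842 x40852 x40854 x40860 x40878 x40906 x40908 x40914 x40932
    x40986 x41068 x41070 x41076 x41094 x41148 x41310 x41558 x41560 x41564 x41566 x41568 x41572
    x41574 x41582 x41584 x41586 x41590 x41592 x41598 x41608 x41610 x41616 x41636 x41638 x41640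
    x41644 x41646 x41652 x41662 x41664 x41670 x41688 x41716 x41718 x41724 x41742 x41798 x41800
    x41802 x41806 x41808 x41814 x41824 x41826 x41832 x41850 x41878 x41880 x41886 x41904 x41958
    x42040 x42042 x42048 x42066 x42120 x42284 x42286 x42288 x42292 x42294 x42300 x42310 x42312
    x42318 x42336 x42364 x42366 x42372 x42390 x42444 x42526 x42528 x42534 x42552 x42606 x42768
    x43012 x43014 x43020 x43038 x43092 x43254 x43742 x43744 x43746 x43750 x43752 x43758 x43768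
    x43770 x43776 x43794 x43822 x43824 x43830 x43848 x43902 x43984 x43986 x43992 x44010 x44064
    x44226 x44470 x44472 x44478 x44496 x44550 x44712 x45198 x45932 x45934 x45938 x45940 x45942
    x45946 x45948 x45956 x45958 x45960 x45964 x45966 x45972 x45982 x45984 x45990 x46010 x46012
    x46014 x46018 x46020 x46026 x46036 x46038 x46044 x46062 x46090 x46092 x46098 x46116 x46172
    x46174 x46176 x46180 x46182 x46188 x46198 x46200 x46206 x46224 x46252 x46254 x46260 x46278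
    x46332 x46414 x46416 x46422 x46440 x46494 x46658 x46660 x46662 x46666 x46668 x46674 x46684
    x46686 x46692 x46710 x46738 x46740 x46746 x46764 x46818 x46900 x46902 x46908 x46926 x46980
    x47142 x47386 x47388 x47394 x47412 x47466 x47628 x48116 x48118 x48120 x48124 x48126 x48132
    x48142 x48144 x48150 x48168 x48196 x48198 x48204 x48222 x48276 x48358 x48360 x48366 x48384
    x48438 x48600 x48844 x48846 x48852 x48870 x48924 x49086 x49572 x50302 x50304 x50310 x50328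
    x50382 x50544 x51030 x52490 x52492 x52494 x52498 x52500 x52506 x52516 x52518 x52524 x52542
    x52570 x52572 x52578 x52596 x52650 x52732 x52734 x52740 x52758 x52812 x52974 x53218 x53220
    x53226 x53244 x53298 x53460 x53946 x54676 x54678 x54684 x54702 x54756 x54918 x55404 x56862 : Nat) : Bool :=
  Nat.beq
    (Nat.add (Nat.add (f x26) (Nat.add (f x44) (Nat.add (f x50) (Nat.add (f x52) (Nat.add (f x62)
    (Nat.add (f x68) (Nat.add (f x70) (Nat.add (f x74) (Nat.add (f x76) (Nat.add (f x78) (Nat.add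
    (f x98) (Nat.add (f x104) (Nat.add (f x106) (Nat.add (f x116) (Nat.add (f x122) (Nat.add
    (f x124) (Nat.add (f x128) (Nat.add (f x130) (Nat.add (f x132) (Nat.add (f x140) (Nat.add
    (f x142) (Nat.add (f x146) (Nat.add (f x148) (Nat.add (f x150) (Nat.add (f x154) (Nat.add
    (f x156) (Nat.add (f x170) (Nat.add (f x176) (Nat.add (f x178) (Nat.add (f x182) (Nat.add
    (f x184) (Nat.add (f x186) (Nat.add (f x194) (Nat.add (f x196) (Nat.add (f x200) (Nat.add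
    (f x202) (Nat.add (f x204) (Nat.add (f x208) (Nat.add (f x210) (Nat.add (f x218) (Nat.add
    (f x220) (Nat.add (f x222) (Nat.add (f x226) (Nat.add (f x228) (Nat.add (f x234) (Nat.add
    (f x260) (Nat.add (f x266) (Nat.add (f x268) (Nat.add (f x278) (Nat.add (f x284) (Nat.add
    (f x286) (Nat.add (f x290) (Nat.add (f x292) (Nat.add (f x294) (Nat.add (f x302) (Nat.add
    (f x304) (Nat.add (f x308) (Nat.add (f x310) (Nat.add (f x312) (Nat.add (f x316)
    0)))))))))))))))))))))))))))))))))))))))))))))))))))))))))))) (Nat.add (Nat.add (f x318)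
    (Nat.add (f x332) (Nat.add (f x338) (Nat.add (f x340) (Nat.add (f x344) (Nat.add (f x346)
    (Nat.add (f x348) (Nat.add (f x356) (Nat.add (f x358) (Nat.add (f x362) (Nat.add (f x364)
    (Nat.add (f x366) (Nat.add (f x370) (Nat.add (f x372) (Nat.add (f x380) (Nat.add (f x382)
    (Nat.add (f x384) (Nat.add (f x388) (Nat.add (f x390) (Nat.add (f x396) (Nat.add (f x410)
    (Nat.add (f x412) (Nat.add (f x416) (Nat.add (f x418) (Nat.add (f x420) (Nat.add (f x424)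
    (Nat.add (f x426) (Nat.add (f x434) (Nat.add (f x436) (Nat.add (f x438) (Nat.add (f x442)
    (Nat.add (f x444) (Nat.add (f x450) (Nat.add (f x460) (Nat.add (f x462) (Nat.add (f x468)
    (Nat.add (f x494) (Nat.add (f x500) (Nat.add (f x502) (Nat.add (f x506) (Nat.add (f x508)
    (Nat.add (f x510) (Nat.add (f x518) (Nat.add (f x520) (Nat.add (f x524) (Nat.add (f x526)
    (Nat.add (f x528) (Nat.add (f x532) (Nat.add (f x534) (Nat.add (f x542) (Nat.add (f x544)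
    (Nat.add (f x546) (Nat.add (f x550) (Nat.add (f x552) (Nat.add (f x558) (Nat.add (f x572)
    (Nat.add (f x574) (Nat.add (f x578) (Nat.add (f x580) (Nat.add (f x582)
    0)))))))))))))))))))))))))))))))))))))))))))))))))))))))))))) (Nat.add (Nat.add (f x586)
    (Nat.add (f x588) (Nat.add (f x596) (Nat.add (f x598) (Nat.add (f x600) (Nat.add (f x604)
    (Nat.add (f x606) (Nat.add (f x612) (Nat.add (f x622) (Nat.add (f x624) (Nat.add (f x630)
    (Nat.add (f x650) (Nat.add (f x652) (Nat.add (f x654) (Nat.add (f x658) (Nat.add (f x660)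
    (Nat.add (f x666) (Nat.add (f x676) (Nat.add (f x678) (Nat.add (f x684) (Nat.add (f x702)
    (Nat.add (f x746) (Nat.add (f x752) (Nat.add (f x754) (Nat.add (f x764) (Nat.add (f x770)
    (Nat.add (f x772) (Nat.add (f x776) (Nat.add (f x778) (Nat.add (f x780) (Nat.add (f x788)
    (Nat.add (f x790) (Nat.add (f x794) (Nat.add (f x796) (Nat.add (f x798) (Nat.add (f x802)
    (Nat.add (f x804) (Nat.add (f x818) (Nat.add (f x824) (Nat.add (f x826) (Nat.add (f x830)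
    (Nat.add (f x832) (Nat.add (f x834) (Nat.add (f x842) (Nat.add (f x844) (Nat.add (f x848)
    (Nat.add (f x850) (Nat.add (f x852) (Nat.add (f x856) (Nat.add (f x858) (Nat.add (f x866)
    (Nat.add (f x868) (Nat.add (f x870) (Nat.add (f x874) (Nat.add (f x876) (Nat.add (f x882)
    (Nat.add (f x896) (Nat.add (f x898) (Nat.add (f x902) (Nat.add (f x904)
    0)))))))))))))))))))))))))))))))))))))))))))))))))))))))))))) (Nat.add (Nat.add (f x906)
    (Nat.add (f x910) (Nat.add (f x912) (Nat.add (f x920) (Nat.add (f x922) (Nat.add (f x924)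
    (Nat.add (f x928) (Nat.add (f x930) (Nat.add (f x936) (Nat.add (f x946) (Nat.add (f x948)
    (Nat.add (f x954) (Nat.add (f x980) (Nat.add (f x986) (Nat.add (f x988) (Nat.add (f x992)
    (Nat.add (f x994) (Nat.add (f x996) (Nat.add (f x1004) (Nat.add (f x1006) (Nat.add (f x1010)
    (Nat.add (f x1012) (Nat.add (f x1014) (Nat.add (f x1018) (Nat.add (f x1020) (Nat.add (f x1028)
    (Nat.add (f x1030) (Nat.add (f x1032) (Nat.add (f x1036) (Nat.add (f x1038) (Nat.add (f x1044)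
    (Nat.add (f x1058) (Nat.add (f x1060) (Nat.add (f x1064) (Nat.add (f x1066) (Nat.add (f x1068)
    (Nat.add (f x1072) (Nat.add (f x1074) (Nat.add (f x1082) (Nat.add (f x1084) (Nat.add (f x1086)
    (Nat.add (f x1090) (Nat.add (f x1092) (Nat.add (f x1098) (Nat.add (f x1108) (Nat.add (f x1110)
    (Nat.add (f x1116) (Nat.add (f x1136) (Nat.add (f x1138) (Nat.add (f x1140) (Nat.add (f x1144)
    (Nat.add (f x1146) (Nat.add (f x1152) (Nat.add (f x1162) (Nat.add (f x1164) (Nat.add (f x1170)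
    (Nat.add (f x1188) (Nat.add (f x1220) (Nat.add (f x1222) (Nat.add (f x1226)
    0)))))))))))))))))))))))))))))))))))))))))))))))))))))))))))) (Nat.add (Nat.add (f x1228)
    (Nat.add (f x1230) (Nat.add (f x1234) (Nat.add (f x1236) (Nat.add (f x1244) (Nat.add (f x1246)
    (Nat.add (f x1248) (Nat.add (f x1252) (Nat.add (f x1254) (Nat.add (f x1260) (Nat.add (f x1270)
    (Nat.add (f x1272) (Nat.add (f x1278) (Nat.add (f x1298) (Nat.add (f x1300) (Nat.add (f x1302)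
    (Nat.add (f x1306) (Nat.add (f x1308) (Nat.add (f x1314) (Nat.add (f x1324) (Nat.add (f x1326)
    (Nat.add (f x1332) (Nat.add (f x1350) (Nat.add (f x1378) (Nat.add (f x1380) (Nat.add (f x1386)
    (Nat.add (f x1404) (Nat.add (f x1466) (Nat.add (f x1472) (Nat.add (f x1474) (Nat.add (f x1478)
    (Nat.add (f x1480) (Nat.add (f x1482) (Nat.add (f x1490) (Nat.add (f x1492) (Nat.add (f x1496)
    (Nat.add (f x1498) (Nat.add (f x1500) (Nat.add (f x1504) (Nat.add (f x1506) (Nat.add (f x1514)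
    (Nat.add (f x1516) (Nat.add (f x1518) (Nat.add (f x1522) (Nat.add (f x1524) (Nat.add (f x1530)
    (Nat.add (f x1544) (Nat.add (f x1546) (Nat.add (f x1550) (Nat.add (f x1552) (Nat.add (f x1554)
    (Nat.add (f x1558) (Nat.add (f x1560) (Nat.add (f x1568) (Nat.add (f x1570) (Nat.add (f x1572)
    (Nat.add (f x1576) (Nat.add (f x1578) (Nat.add (f x1584) (Nat.add (f x1594)
    0)))))))))))))))))))))))))))))))))))))))))))))))))))))))))))) (Nat.add (Nat.add (f x1596)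
    (Nat.add (f x1602) (Nat.add (f x1622) (Nat.add (f x1624) (Nat.add (f x1626) (Nat.add (f x1630)
    (Nat.add (f x1632) (Nat.add (f x1638) (Nat.add (f x1648) (Nat.add (f x1650) (Nat.add (f x1656)
    (Nat.add (f x1674) (Nat.add (f x1706) (Nat.add (f x1708) (Nat.add (f x1712) (Nat.add (f x1714)
    (Nat.add (f x1716) (Nat.add (f x1720) (Nat.add (f x1722) (Nat.add (f x1730) (Nat.add (f x1732)
    (Nat.add (f x1734) (Nat.add (f x1738) (Nat.add (f x1740) (Nat.add (f x1746) (Nat.add (f x1756)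
    (Nat.add (f x1758) (Nat.add (f x1764) (Nat.add (f x1784) (Nat.add (f x1786) (Nat.add (f x1788)
    (Nat.add (f x1792) (Nat.add (f x1794) (Nat.add (f x1800) (Nat.add (f x1810) (Nat.add (f x1812)
    (Nat.add (f x1818) (Nat.add (f x1836) (Nat.add (f x1864) (Nat.add (f x1866) (Nat.add (f x1872)
    (Nat.add (f x1890) (Nat.add (f x1946) (Nat.add (f x1948) (Nat.add (f x1950) (Nat.add (f x1954)
    (Nat.add (f x1956) (Nat.add (f x1962) (Nat.add (f x1972) (Nat.add (f x1974) (Nat.add (f x1980)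
    (Nat.add (f x1998) (Nat.add (f x2026) (Nat.add (f x2028) (Nat.add (f x2034) (Nat.add (f x2052)
    (Nat.add (f x2106) (Nat.add (f x2204) (Nat.add (f x2210) (Nat.add (f x2212)
    0)))))))))))))))))))))))))))))))))))))))))))))))))))))))))))) (Nat.add (Nat.add (f x2222)
    (Nat.add (f x2228) (Nat.add (f x2230) (Nat.add (f x2234) (Nat.add (f x2236) (Nat.add (f x2238)
    (Nat.add (f x2246) (Nat.add (f x2248) (Nat.add (f x2252) (Nat.add (f x2254) (Nat.add (f x2256)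
    (Nat.add (f x2260) (Nat.add (f x2262) (Nat.add (f x2276) (Nat.add (f x2282) (Nat.add (f x2284)
    (Nat.add (f x2288) (Nat.add (f x2290) (Nat.add (f x2292) (Nat.add (f x2300) (Nat.add (f x2302)
    (Nat.add (f x2306) (Nat.add (f x2308) (Nat.add (f x2310) (Nat.add (f x2314) (Nat.add (f x2316)
    (Nat.add (f x2324) (Nat.add (f x2326) (Nat.add (f x2328) (Nat.add (f x2332) (Nat.add (f x2334)
    (Nat.add (f x2340) (Nat.add (f x2354) (Nat.add (f x2356) (Nat.add (f x2360) (Nat.add (f x2362)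
    (Nat.add (f x2364) (Nat.add (f x2368) (Nat.add (f x2370) (Nat.add (f x2378) (Nat.add (f x2380)
    (Nat.add (f x2382) (Nat.add (f x2386) (Nat.add (f x2388) (Nat.add (f x2394) (Nat.add (f x2404)
    (Nat.add (f x2406) (Nat.add (f x2412) (Nat.add (f x2438) (Nat.add (f x2444) (Nat.add (f x2446)
    (Nat.add (f x2450) (Nat.add (f x2452) (Nat.add (f x2454) (Nat.add (f x2462) (Nat.add (f x2464)
    (Nat.add (f x2468) (Nat.add (f x2470) (Nat.add (f x2472) (Nat.add (f x2476)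
    0)))))))))))))))))))))))))))))))))))))))))))))))))))))))))))) (Nat.add (Nat.add (f x2478)
    (Nat.add (f x2486) (Nat.add (f x2488) (Nat.add (f x2490) (Nat.add (f x2494) (Nat.add (f x2496)
    (Nat.add (f x2502) (Nat.add (f x2516) (Nat.add (f x2518) (Nat.add (f x2522) (Nat.add (f x2524)
    (Nat.add (f x2526) (Nat.add (f x2530) (Nat.add (f x2532) (Nat.add (f x2540) (Nat.add (f x2542)
    (Nat.add (f x2544) (Nat.add (f x2548) (Nat.add (f x2550) (Nat.add (f x2556) (Nat.add (f x2566)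
    (Nat.add (f x2568) (Nat.add (f x2574) (Nat.add (f x2594) (Nat.add (f x2596) (Nat.add (f x2598)
    (Nat.add (f x2602) (Nat.add (f x2604) (Nat.add (f x2610) (Nat.add (f x2620) (Nat.add (f x2622)
    (Nat.add (f x2628) (Nat.add (f x2646) (Nat.add (f x2678) (Nat.add (f x2680) (Nat.add (f x2684)
    (Nat.add (f x2686) (Nat.add (f x2688) (Nat.add (f x2692) (Nat.add (f x2694) (Nat.add (f x2702)
    (Nat.add (f x2704) (Nat.add (f x2706) (Nat.add (f x2710) (Nat.add (f x2712) (Nat.add (f x2718)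
    (Nat.add (f x2728) (Nat.add (f x2730) (Nat.add (f x2736) (Nat.add (f x2756) (Nat.add (f x2758)
    (Nat.add (f x2760) (Nat.add (f x2764) (Nat.add (f x2766) (Nat.add (f x2772) (Nat.add (f x2782)
    (Nat.add (f x2784) (Nat.add (f x2790) (Nat.add (f x2808) (Nat.add (f x2836)
    0)))))))))))))))))))))))))))))))))))))))))))))))))))))))))))) (Nat.add (Nat.add (f x2838)
    (Nat.add (f x2844) (Nat.add (f x2862) (Nat.add (f x2924) (Nat.add (f x2930) (Nat.add (f x2932)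
    (Nat.add (f x2936) (Nat.add (f x2938) (Nat.add (f x2940) (Nat.add (f x2948) (Nat.add (f x2950)
    (Nat.add (f x2954) (Nat.add (f x2956) (Nat.add (f x2958) (Nat.add (f x2962) (Nat.add (f x2964)
    (Nat.add (f x2972) (Nat.add (f x2974) (Nat.add (f x2976) (Nat.add (f x2980) (Nat.add (f x2982)
    (Nat.add (f x2988) (Nat.add (f x3002) (Nat.add (f x3004) (Nat.add (f x3008) (Nat.add (f x3010)
    (Nat.add (f x3012) (Nat.add (f x3016) (Nat.add (f x3018) (Nat.add (f x3026) (Nat.add (f x3028)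
    (Nat.add (f x3030) (Nat.add (f x3034) (Nat.add (f x3036) (Nat.add (f x3042) (Nat.add (f x3052)
    (Nat.add (f x3054) (Nat.add (f x3060) (Nat.add (f x3080) (Nat.add (f x3082) (Nat.add (f x3084)
    (Nat.add (f x3088) (Nat.add (f x3090) (Nat.add (f x3096) (Nat.add (f x3106) (Nat.add (f x3108)
    (Nat.add (f x3114) (Nat.add (f x3132) (Nat.add (f x3164) (Nat.add (f x3166) (Nat.add (f x3170)
    (Nat.add (f x3172) (Nat.add (f x3174) (Nat.add (f x3178) (Nat.add (f x3180) (Nat.add (f x3188)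
    (Nat.add (f x3190) (Nat.add (f x3192) (Nat.add (f x3196) (Nat.add (f x3198)
    0)))))))))))))))))))))))))))))))))))))))))))))))))))))))))))) (Nat.add (Nat.add (f x3204)
    (Nat.add (f x3214) (Nat.add (f x3216) (Nat.add (f x3222) (Nat.add (f x3242) (Nat.add (f x3244)
    (Nat.add (f x3246) (Nat.add (f x3250) (Nat.add (f x3252) (Nat.add (f x3258) (Nat.add (f x3268)
    (Nat.add (f x3270) (Nat.add (f x3276) (Nat.add (f x3294) (Nat.add (f x3322) (Nat.add (f x3324)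
    (Nat.add (f x3330) (Nat.add (f x3348) (Nat.add (f x3404) (Nat.add (f x3406) (Nat.add (f x3408)
    (Nat.add (f x3412) (Nat.add (f x3414) (Nat.add (f x3420) (Nat.add (f x3430) (Nat.add (f x3432)
    (Nat.add (f x3438) (Nat.add (f x3456) (Nat.add (f x3484) (Nat.add (f x3486) (Nat.add (f x3492)
    (Nat.add (f x3510) (Nat.add (f x3564) (Nat.add (f x3650) (Nat.add (f x3652) (Nat.add (f x3656)
    (Nat.add (f x3658) (Nat.add (f x3660) (Nat.add (f x3664) (Nat.add (f x3666) (Nat.add (f x3674)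
    (Nat.add (f x3676) (Nat.add (f x3678) (Nat.add (f x3682) (Nat.add (f x3684) (Nat.add (f x3690)
    (Nat.add (f x3700) (Nat.add (f x3702) (Nat.add (f x3708) (Nat.add (f x3728) (Nat.add (f x3730)
    (Nat.add (f x3732) (Nat.add (f x3736) (Nat.add (f x3738) (Nat.add (f x3744) (Nat.add (f x3754)
    (Nat.add (f x3756) (Nat.add (f x3762) (Nat.add (f x3780) (Nat.add (f x3808)
    0)))))))))))))))))))))))))))))))))))))))))))))))))))))))))))) (Nat.add (Nat.add (f x3810)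
    (Nat.add (f x3816) (Nat.add (f x3834) (Nat.add (f x3890) (Nat.add (f x3892) (Nat.add (f x3894)
    (Nat.add (f x3898) (Nat.add (f x3900) (Nat.add (f x3906) (Nat.add (f x3916) (Nat.add (f x3918)
    (Nat.add (f x3924) (Nat.add (f x3942) (Nat.add (f x3970) (Nat.add (f x3972) (Nat.add (f x3978)
    (Nat.add (f x3996) (Nat.add (f x4050) (Nat.add (f x4132) (Nat.add (f x4134) (Nat.add (f x4140)
    (Nat.add (f x4158) (Nat.add (f x4212) (Nat.add (f x4382) (Nat.add (f x4388) (Nat.add (f x4390)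
    (Nat.add (f x4394) (Nat.add (f x4396) (Nat.add (f x4398) (Nat.add (f x4406) (Nat.add (f x4408)
    (Nat.add (f x4412) (Nat.add (f x4414) (Nat.add (f x4416) (Nat.add (f x4420) (Nat.add (f x4422)
    (Nat.add (f x4430) (Nat.add (f x4432) (Nat.add (f x4434) (Nat.add (f x4438) (Nat.add (f x4440)
    (Nat.add (f x4446) (Nat.add (f x4460) (Nat.add (f x4462) (Nat.add (f x4466) (Nat.add (f x4468)
    (Nat.add (f x4470) (Nat.add (f x4474) (Nat.add (f x4476) (Nat.add (f x4484) (Nat.add (f x4486)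
    (Nat.add (f x4488) (Nat.add (f x4492) (Nat.add (f x4494) (Nat.add (f x4500) (Nat.add (f x4510)
    (Nat.add (f x4512) (Nat.add (f x4518) (Nat.add (f x4538) (Nat.add (f x4540)
    0)))))))))))))))))))))))))))))))))))))))))))))))))))))))))))) (Nat.add (Nat.add (f x4542)
    (Nat.add (f x4546) (Nat.add (f x4548) (Nat.add (f x4554) (Nat.add (f x4564) (Nat.add (f x4566)
    (Nat.add (f x4572) (Nat.add (f x4590) (Nat.add (f x4622) (Nat.add (f x4624) (Nat.add (f x4628)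
    (Nat.add (f x4630) (Nat.add (f x4632) (Nat.add (f x4636) (Nat.add (f x4638) (Nat.add (f x4646)
    (Nat.add (f x4648) (Nat.add (f x4650) (Nat.add (f x4654) (Nat.add (f x4656) (Nat.add (f x4662)
    (Nat.add (f x4672) (Nat.add (f x4674) (Nat.add (f x4680) (Nat.add (f x4700) (Nat.add (f x4702)
    (Nat.add (f x4704) (Nat.add (f x4708) (Nat.add (f x4710) (Nat.add (f x4716) (Nat.add (f x4726)
    (Nat.add (f x4728) (Nat.add (f x4734) (Nat.add (f x4752) (Nat.add (f x4780) (Nat.add (f x4782)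
    (Nat.add (f x4788) (Nat.add (f x4806) (Nat.add (f x4862) (Nat.add (f x4864) (Nat.add (f x4866)
    (Nat.add (f x4870) (Nat.add (f x4872) (Nat.add (f x4878) (Nat.add (f x4888) (Nat.add (f x4890)
    (Nat.add (f x4896) (Nat.add (f x4914) (Nat.add (f x4942) (Nat.add (f x4944) (Nat.add (f x4950)
    (Nat.add (f x4968) (Nat.add (f x5022) (Nat.add (f x5108) (Nat.add (f x5110) (Nat.add (f x5114)
    (Nat.add (f x5116) (Nat.add (f x5118) (Nat.add (f x5122) (Nat.add (f x5124)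
    0)))))))))))))))))))))))))))))))))))))))))))))))))))))))))))) (Nat.add (Nat.add (f x5132)
    (Nat.add (f x5134) (Nat.add (f x5136) (Nat.add (f x5140) (Nat.add (f x5142) (Nat.add (f x5148)
    (Nat.add (f x5158) (Nat.add (f x5160) (Nat.add (f x5166) (Nat.add (f x5186) (Nat.add (f x5188)
    (Nat.add (f x5190) (Nat.add (f x5194) (Nat.add (f x5196) (Nat.add (f x5202) (Nat.add (f x5212)
    (Nat.add (f x5214) (Nat.add (f x5220) (Nat.add (f x5238) (Nat.add (f x5266) (Nat.add (f x5268)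
    (Nat.add (f x5274) (Nat.add (f x5292) (Nat.add (f x5348) (Nat.add (f x5350) (Nat.add (f x5352)
    (Nat.add (f x5356) (Nat.add (f x5358) (Nat.add (f x5364) (Nat.add (f x5374) (Nat.add (f x5376)
    (Nat.add (f x5382) (Nat.add (f x5400) (Nat.add (f x5428) (Nat.add (f x5430) (Nat.add (f x5436)
    (Nat.add (f x5454) (Nat.add (f x5508) (Nat.add (f x5590) (Nat.add (f x5592) (Nat.add (f x5598)
    (Nat.add (f x5616) (Nat.add (f x5670) (Nat.add (f x5834) (Nat.add (f x5836) (Nat.add (f x5838)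
    (Nat.add (f x5842) (Nat.add (f x5844) (Nat.add (f x5850) (Nat.add (f x5860) (Nat.add (f x5862)
    (Nat.add (f x5868) (Nat.add (f x5886) (Nat.add (f x5914) (Nat.add (f x5916) (Nat.add (f x5922)
    (Nat.add (f x5940) (Nat.add (f x5994) (Nat.add (f x6076) (Nat.add (f x6078)
    0)))))))))))))))))))))))))))))))))))))))))))))))))))))))))))) (Nat.add (Nat.add (f x6084)
    (Nat.add (f x6102) (Nat.add (f x6156) (Nat.add (f x6318) (Nat.add (f x6578) (Nat.add (f x6584)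
    (Nat.add (f x6586) (Nat.add (f x6596) (Nat.add (f x6602) (Nat.add (f x6604) (Nat.add (f x6608)
    (Nat.add (f x6610) (Nat.add (f x6612) (Nat.add (f x6620) (Nat.add (f x6622) (Nat.add (f x6626)
    (Nat.add (f x6628) (Nat.add (f x6630) (Nat.add (f x6634) (Nat.add (f x6636) (Nat.add (f x6650)
    (Nat.add (f x6656) (Nat.add (f x6658) (Nat.add (f x6662) (Nat.add (f x6664) (Nat.add (f x6666)
    (Nat.add (f x6674) (Nat.add (f x6676) (Nat.add (f x6680) (Nat.add (f x6682) (Nat.add (f x6684)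
    (Nat.add (f x6688) (Nat.add (f x6690) (Nat.add (f x6698) (Nat.add (f x6700) (Nat.add (f x6702)
    (Nat.add (f x6706) (Nat.add (f x6708) (Nat.add (f x6714) (Nat.add (f x6728) (Nat.add (f x6730)
    (Nat.add (f x6734) (Nat.add (f x6736) (Nat.add (f x6738) (Nat.add (f x6742) (Nat.add (f x6744)
    (Nat.add (f x6752) (Nat.add (f x6754) (Nat.add (f x6756) (Nat.add (f x6760) (Nat.add (f x6762)
    (Nat.add (f x6768) (Nat.add (f x6778) (Nat.add (f x6780) (Nat.add (f x6786) (Nat.add (f x6812)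
    (Nat.add (f x6818) (Nat.add (f x6820) (Nat.add (f x6824) (Nat.add (f x6826)
    0)))))))))))))))))))))))))))))))))))))))))))))))))))))))))))) (Nat.add (Nat.add (f x6828)
    (Nat.add (f x6836) (Nat.add (f x6838) (Nat.add (f x6842) (Nat.add (f x6844) (Nat.add (f x6846)
    (Nat.add (f x6850) (Nat.add (f x6852) (Nat.add (f x6860) (Nat.add (f x6862) (Nat.add (f x6864)
    (Nat.add (f x6868) (Nat.add (f x6870) (Nat.add (f x6876) (Nat.add (f x6890) (Nat.add (f x6892)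
    (Nat.add (f x6896) (Nat.add (f x6898) (Nat.add (f x6900) (Nat.add (f x6904) (Nat.add (f x6906)
    (Nat.add (f x6914) (Nat.add (f x6916) (Nat.add (f x6918) (Nat.add (f x6922) (Nat.add (f x6924)
    (Nat.add (f x6930) (Nat.add (f x6940) (Nat.add (f x6942) (Nat.add (f x6948) (Nat.add (f x6968)
    (Nat.add (f x6970) (Nat.add (f x6972) (Nat.add (f x6976) (Nat.add (f x6978) (Nat.add (f x6984)
    (Nat.add (f x6994) (Nat.add (f x6996) (Nat.add (f x7002) (Nat.add (f x7020) (Nat.add (f x7052)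
    (Nat.add (f x7054) (Nat.add (f x7058) (Nat.add (f x7060) (Nat.add (f x7062) (Nat.add (f x7066)
    (Nat.add (f x7068) (Nat.add (f x7076) (Nat.add (f x7078) (Nat.add (f x7080) (Nat.add (f x7084)
    (Nat.add (f x7086) (Nat.add (f x7092) (Nat.add (f x7102) (Nat.add (f x7104) (Nat.add (f x7110)
    (Nat.add (f x7130) (Nat.add (f x7132) (Nat.add (f x7134) (Nat.add (f x7138)
    0)))))))))))))))))))))))))))))))))))))))))))))))))))))))))))) (Nat.add (Nat.add (f x7140)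
    (Nat.add (f x7146) (Nat.add (f x7156) (Nat.add (f x7158) (Nat.add (f x7164) (Nat.add (f x7182)
    (Nat.add (f x7210) (Nat.add (f x7212) (Nat.add (f x7218) (Nat.add (f x7236) (Nat.add (f x7298)
    (Nat.add (f x7304) (Nat.add (f x7306) (Nat.add (f x7310) (Nat.add (f x7312) (Nat.add (f x7314)
    (Nat.add (f x7322) (Nat.add (f x7324) (Nat.add (f x7328) (Nat.add (f x7330) (Nat.add (f x7332)
    (Nat.add (f x7336) (Nat.add (f x7338) (Nat.add (f x7346) (Nat.add (f x7348) (Nat.add (f x7350)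
    (Nat.add (f x7354) (Nat.add (f x7356) (Nat.add (f x7362) (Nat.add (f x7376) (Nat.add (f x7378)
    (Nat.add (f x7382) (Nat.add (f x7384) (Nat.add (f x7386) (Nat.add (f x7390) (Nat.add (f x7392)
    (Nat.add (f x7400) (Nat.add (f x7402) (Nat.add (f x7404) (Nat.add (f x7408) (Nat.add (f x7410)
    (Nat.add (f x7416) (Nat.add (f x7426) (Nat.add (f x7428) (Nat.add (f x7434) (Nat.add (f x7454)
    (Nat.add (f x7456) (Nat.add (f x7458) (Nat.add (f x7462) (Nat.add (f x7464) (Nat.add (f x7470)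
    (Nat.add (f x7480) (Nat.add (f x7482) (Nat.add (f x7488) (Nat.add (f x7506) (Nat.add (f x7538)
    (Nat.add (f x7540) (Nat.add (f x7544) (Nat.add (f x7546) (Nat.add (f x7548)
    0)))))))))))))))))))))))))))))))))))))))))))))))))))))))))))) (Nat.add (Nat.add (f x7552)
    (Nat.add (f x7554) (Nat.add (f x7562) (Nat.add (f x7564) (Nat.add (f x7566) (Nat.add (f x7570)
    (Nat.add (f x7572) (Nat.add (f x7578) (Nat.add (f x7588) (Nat.add (f x7590) (Nat.add (f x7596)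
    (Nat.add (f x7616) (Nat.add (f x7618) (Nat.add (f x7620) (Nat.add (f x7624) (Nat.add (f x7626)
    (Nat.add (f x7632) (Nat.add (f x7642) (Nat.add (f x7644) (Nat.add (f x7650) (Nat.add (f x7668)
    (Nat.add (f x7696) (Nat.add (f x7698) (Nat.add (f x7704) (Nat.add (f x7722) (Nat.add (f x7778)
    (Nat.add (f x7780) (Nat.add (f x7782) (Nat.add (f x7786) (Nat.add (f x7788) (Nat.add (f x7794)
    (Nat.add (f x7804) (Nat.add (f x7806) (Nat.add (f x7812) (Nat.add (f x7830) (Nat.add (f x7858)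
    (Nat.add (f x7860) (Nat.add (f x7866) (Nat.add (f x7884) (Nat.add (f x7938) (Nat.add (f x8024)
    (Nat.add (f x8026) (Nat.add (f x8030) (Nat.add (f x8032) (Nat.add (f x8034) (Nat.add (f x8038)
    (Nat.add (f x8040) (Nat.add (f x8048) (Nat.add (f x8050) (Nat.add (f x8052) (Nat.add (f x8056)
    (Nat.add (f x8058) (Nat.add (f x8064) (Nat.add (f x8074) (Nat.add (f x8076) (Nat.add (f x8082)
    (Nat.add (f x8102) (Nat.add (f x8104) (Nat.add (f x8106) (Nat.add (f x8110)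
    0)))))))))))))))))))))))))))))))))))))))))))))))))))))))))))) (Nat.add (Nat.add (f x8112)
    (Nat.add (f x8118) (Nat.add (f x8128) (Nat.add (f x8130) (Nat.add (f x8136) (Nat.add (f x8154)
    (Nat.add (f x8182) (Nat.add (f x8184) (Nat.add (f x8190) (Nat.add (f x8208) (Nat.add (f x8264)
    (Nat.add (f x8266) (Nat.add (f x8268) (Nat.add (f x8272) (Nat.add (f x8274) (Nat.add (f x8280)
    (Nat.add (f x8290) (Nat.add (f x8292) (Nat.add (f x8298) (Nat.add (f x8316) (Nat.add (f x8344)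
    (Nat.add (f x8346) (Nat.add (f x8352) (Nat.add (f x8370) (Nat.add (f x8424) (Nat.add (f x8506)
    (Nat.add (f x8508) (Nat.add (f x8514) (Nat.add (f x8532) (Nat.add (f x8586) (Nat.add (f x8756)
    (Nat.add (f x8762) (Nat.add (f x8764) (Nat.add (f x8768) (Nat.add (f x8770) (Nat.add (f x8772)
    (Nat.add (f x8780) (Nat.add (f x8782) (Nat.add (f x8786) (Nat.add (f x8788) (Nat.add (f x8790)
    (Nat.add (f x8794) (Nat.add (f x8796) (Nat.add (f x8804) (Nat.add (f x8806) (Nat.add (f x8808)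
    (Nat.add (f x8812) (Nat.add (f x8814) (Nat.add (f x8820) (Nat.add (f x8834) (Nat.add (f x8836)
    (Nat.add (f x8840) (Nat.add (f x8842) (Nat.add (f x8844) (Nat.add (f x8848) (Nat.add (f x8850)
    (Nat.add (f x8858) (Nat.add (f x8860) (Nat.add (f x8862) (Nat.add (f x8866)
    0)))))))))))))))))))))))))))))))))))))))))))))))))))))))))))) (Nat.add (Nat.add (f x8868)
    (Nat.add (f x8874) (Nat.add (f x8884) (Nat.add (f x8886) (Nat.add (f x8892) (Nat.add (f x8912)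
    (Nat.add (f x8914) (Nat.add (f x8916) (Nat.add (f x8920) (Nat.add (f x8922) (Nat.add (f x8928)
    (Nat.add (f x8938) (Nat.add (f x8940) (Nat.add (f x8946) (Nat.add (f x8964) (Nat.add (f x8996)
    (Nat.add (f x8998) (Nat.add (f x9002) (Nat.add (f x9004) (Nat.add (f x9006) (Nat.add (f x9010)
    (Nat.add (f x9012) (Nat.add (f x9020) (Nat.add (f x9022) (Nat.add (f x9024) (Nat.add (f x9028)
    (Nat.add (f x9030) (Nat.add (f x9036) (Nat.add (f x9046) (Nat.add (f x9048) (Nat.add (f x9054)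
    (Nat.add (f x9074) (Nat.add (f x9076) (Nat.add (f x9078) (Nat.add (f x9082) (Nat.add (f x9084)
    (Nat.add (f x9090) (Nat.add (f x9100) (Nat.add (f x9102) (Nat.add (f x9108) (Nat.add (f x9126)
    (Nat.add (f x9154) (Nat.add (f x9156) (Nat.add (f x9162) (Nat.add (f x9180) (Nat.add (f x9236)
    (Nat.add (f x9238) (Nat.add (f x9240) (Nat.add (f x9244) (Nat.add (f x9246) (Nat.add (f x9252)
    (Nat.add (f x9262) (Nat.add (f x9264) (Nat.add (f x9270) (Nat.add (f x9288) (Nat.add (f x9316)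
    (Nat.add (f x9318) (Nat.add (f x9324) (Nat.add (f x9342) (Nat.add (f x9396)
    0)))))))))))))))))))))))))))))))))))))))))))))))))))))))))))) (Nat.add (Nat.add (f x9482)
    (Nat.add (f x9484) (Nat.add (f x9488) (Nat.add (f x9490) (Nat.add (f x9492) (Nat.add (f x9496)
    (Nat.add (f x9498) (Nat.add (f x9506) (Nat.add (f x9508) (Nat.add (f x9510) (Nat.add (f x9514)
    (Nat.add (f x9516) (Nat.add (f x9522) (Nat.add (f x9532) (Nat.add (f x9534) (Nat.add (f x9540)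
    (Nat.add (f x9560) (Nat.add (f x9562) (Nat.add (f x9564) (Nat.add (f x9568) (Nat.add (f x9570)
    (Nat.add (f x9576) (Nat.add (f x9586) (Nat.add (f x9588) (Nat.add (f x9594) (Nat.add (f x9612)
    (Nat.add (f x9640) (Nat.add (f x9642) (Nat.add (f x9648) (Nat.add (f x9666) (Nat.add (f x9722)
    (Nat.add (f x9724) (Nat.add (f x9726) (Nat.add (f x9730) (Nat.add (f x9732) (Nat.add (f x9738)
    (Nat.add (f x9748) (Nat.add (f x9750) (Nat.add (f x9756) (Nat.add (f x9774) (Nat.add (f x9802)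
    (Nat.add (f x9804) (Nat.add (f x9810) (Nat.add (f x9828) (Nat.add (f x9882) (Nat.add (f x9964)
    (Nat.add (f x9966) (Nat.add (f x9972) (Nat.add (f x9990) (Nat.add (f x10044) (Nat.add
    (f x10208) (Nat.add (f x10210) (Nat.add (f x10212) (Nat.add (f x10216) (Nat.add (f x10218)
    (Nat.add (f x10224) (Nat.add (f x10234) (Nat.add (f x10236) (Nat.add (f x10242) (Nat.add
    (f x10260) 0)))))))))))))))))))))))))))))))))))))))))))))))))))))))))))) (Nat.add (Nat.add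
    (f x10288) (Nat.add (f x10290) (Nat.add (f x10296) (Nat.add (f x10314) (Nat.add (f x10368)
    (Nat.add (f x10450) (Nat.add (f x10452) (Nat.add (f x10458) (Nat.add (f x10476) (Nat.add
    (f x10530) (Nat.add (f x10692) (Nat.add (f x10940) (Nat.add (f x10942) (Nat.add (f x10946)
    (Nat.add (f x10948) (Nat.add (f x10950) (Nat.add (f x10954) (Nat.add (f x10956) (Nat.add
    (f x10964) (Nat.add (f x10966) (Nat.add (f x10968) (Nat.add (f x10972) (Nat.add (f x10974)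
    (Nat.add (f x10980) (Nat.add (f x10990) (Nat.add (f x10992) (Nat.add (f x10998) (Nat.add
    (f x11018) (Nat.add (f x11020) (Nat.add (f x11022) (Nat.add (f x11026) (Nat.add (f x11028)
    (Nat.add (f x11034) (Nat.add (f x11044) (Nat.add (f x11046) (Nat.add (f x11052) (Nat.add
    (f x11070) (Nat.add (f x11098) (Nat.add (f x11100) (Nat.add (f x11106) (Nat.add (f x11124)
    (Nat.add (f x11180) (Nat.add (f x11182) (Nat.add (f x11184) (Nat.add (f x11188) (Nat.add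
    (f x11190) (Nat.add (f x11196) (Nat.add (f x11206) (Nat.add (f x11208) (Nat.add (f x11214)
    (Nat.add (f x11232) (Nat.add (f x11260) (Nat.add (f x11262) (Nat.add (f x11268) (Nat.add
    (f x11286) (Nat.add (f x11340) (Nat.add (f x11422) (Nat.add (f x11424) (Nat.add (f x11430)
    (Nat.add (f x11448) 0)))))))))))))))))))))))))))))))))))))))))))))))))))))))))))) (Nat.add
    (Nat.add (f x11502) (Nat.add (f x11666) (Nat.add (f x11668) (Nat.add (f x11670) (Nat.add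
    (f x11674) (Nat.add (f x11676) (Nat.add (f x11682) (Nat.add (f x11692) (Nat.add (f x11694)
    (Nat.add (f x11700) (Nat.add (f x11718) (Nat.add (f x11746) (Nat.add (f x11748) (Nat.add
    (f x11754) (Nat.add (f x11772) (Nat.add (f x11826) (Nat.add (f x11908) (Nat.add (f x11910)
    (Nat.add (f x11916) (Nat.add (f x11934) (Nat.add (f x11988) (Nat.add (f x12150) (Nat.add
    (f x12394) (Nat.add (f x12396) (Nat.add (f x12402) (Nat.add (f x12420) (Nat.add (f x12474)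
    (Nat.add (f x12636) (Nat.add (f x13130) (Nat.add (f x13136) (Nat.add (f x13138) (Nat.add
    (f x13142) (Nat.add (f x13144) (Nat.add (f x13146) (Nat.add (f x13154) (Nat.add (f x13156)
    (Nat.add (f x13160) (Nat.add (f x13162) (Nat.add (f x13164) (Nat.add (f x13168) (Nat.add
    (f x13170) (Nat.add (f x13178) (Nat.add (f x13180) (Nat.add (f x13182) (Nat.add (f x13186)
    (Nat.add (f x13188) (Nat.add (f x13194) (Nat.add (f x13208) (Nat.add (f x13210) (Nat.add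
    (f x13214) (Nat.add (f x13216) (Nat.add (f x13218) (Nat.add (f x13222) (Nat.add (f x13224)
    (Nat.add (f x13232) (Nat.add (f x13234) (Nat.add (f x13236) (Nat.add (f x13240) (Nat.add
    (f x13242) (Nat.add (f x13248) 0))))))))))))))))))))))))))))))))))))))))))))))))))))))))))))
    (Nat.add (Nat.add (f x13258) (Nat.add (f x13260) (Nat.add (f x13266) (Nat.add (f x13286)
    (Nat.add (f x13288) (Nat.add (f x13290) (Nat.add (f x13294) (Nat.add (f x13296) (Nat.add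
    (f x13302) (Nat.add (f x13312) (Nat.add (f x13314) (Nat.add (f x13320) (Nat.add (f x13338)
    (Nat.add (f x13370) (Nat.add (f x13372) (Nat.add (f x13376) (Nat.add (f x13378) (Nat.add
    (f x13380) (Nat.add (f x13384) (Nat.add (f x13386) (Nat.add (f x13394) (Nat.add (f x13396)
    (Nat.add (f x13398) (Nat.add (f x13402) (Nat.add (f x13404) (Nat.add (f x13410) (Nat.add
    (f x13420) (Nat.add (f x13422) (Nat.add (f x13428) (Nat.add (f x13448) (Nat.add (f x13450)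
    (Nat.add (f x13452) (Nat.add (f x13456) (Nat.add (f x13458) (Nat.add (f x13464) (Nat.add
    (f x13474) (Nat.add (f x13476) (Nat.add (f x13482) (Nat.add (f x13500) (Nat.add (f x13528)
    (Nat.add (f x13530) (Nat.add (f x13536) (Nat.add (f x13554) (Nat.add (f x13610) (Nat.add
    (f x13612) (Nat.add (f x13614) (Nat.add (f x13618) (Nat.add (f x13620) (Nat.add (f x13626)
    (Nat.add (f x13636) (Nat.add (f x13638) (Nat.add (f x13644) (Nat.add (f x13662) (Nat.add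
    (f x13690) (Nat.add (f x13692) (Nat.add (f x13698) (Nat.add (f x13716) (Nat.add (f x13770)
    (Nat.add (f x13856) (Nat.add (f x13858)
    0)))))))))))))))))))))))))))))))))))))))))))))))))))))))))))) (Nat.add (Nat.add (f x13862)
    (Nat.add (f x13864) (Nat.add (f x13866) (Nat.add (f x13870) (Nat.add (f x13872) (Nat.add
    (f x13880) (Nat.add (f x13882) (Nat.add (f x13884) (Nat.add (f x13888) (Nat.add (f x13890)
    (Nat.add (f x13896) (Nat.add (f x13906) (Nat.add (f x13908) (Nat.add (f x13914) (Nat.add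
    (f x13934) (Nat.add (f x13936) (Nat.add (f x13938) (Nat.add (f x13942) (Nat.add (f x13944)
    (Nat.add (f x13950) (Nat.add (f x13960) (Nat.add (f x13962) (Nat.add (f x13968) (Nat.add
    (f x13986) (Nat.add (f x14014) (Nat.add (f x14016) (Nat.add (f x14022) (Nat.add (f x14040)
    (Nat.add (f x14096) (Nat.add (f x14098) (Nat.add (f x14100) (Nat.add (f x14104) (Nat.add
    (f x14106) (Nat.add (f x14112) (Nat.add (f x14122) (Nat.add (f x14124) (Nat.add (f x14130)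
    (Nat.add (f x14148) (Nat.add (f x14176) (Nat.add (f x14178) (Nat.add (f x14184) (Nat.add
    (f x14202) (Nat.add (f x14256) (Nat.add (f x14338) (Nat.add (f x14340) (Nat.add (f x14346)
    (Nat.add (f x14364) (Nat.add (f x14418) (Nat.add (f x14582) (Nat.add (f x14584) (Nat.add
    (f x14586) (Nat.add (f x14590) (Nat.add (f x14592) (Nat.add (f x14598) (Nat.add (f x14608)
    (Nat.add (f x14610) (Nat.add (f x14616) (Nat.add (f x14634) (Nat.add (f x14662) (Nat.add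
    (f x14664) 0)))))))))))))))))))))))))))))))))))))))))))))))))))))))))))) (Nat.add (Nat.add
    (f x14670) (Nat.add (f x14688) (Nat.add (f x14742) (Nat.add (f x14824) (Nat.add (f x14826)
    (Nat.add (f x14832) (Nat.add (f x14850) (Nat.add (f x14904) (Nat.add (f x15066) (Nat.add
    (f x15314) (Nat.add (f x15316) (Nat.add (f x15320) (Nat.add (f x15322) (Nat.add (f x15324)
    (Nat.add (f x15328) (Nat.add (f x15330) (Nat.add (f x15338) (Nat.add (f x15340) (Nat.add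
    (f x15342) (Nat.add (f x15346) (Nat.add (f x15348) (Nat.add (f x15354) (Nat.add (f x15364)
    (Nat.add (f x15366) (Nat.add (f x15372) (Nat.add (f x15392) (Nat.add (f x15394) (Nat.add
    (f x15396) (Nat.add (f x15400) (Nat.add (f x15402) (Nat.add (f x15408) (Nat.add (f x15418)
    (Nat.add (f x15420) (Nat.add (f x15426) (Nat.add (f x15444) (Nat.add (f x15472) (Nat.add
    (f x15474) (Nat.add (f x15480) (Nat.add (f x15498) (Nat.add (f x15554) (Nat.add (f x15556)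
    (Nat.add (f x15558) (Nat.add (f x15562) (Nat.add (f x15564) (Nat.add (f x15570) (Nat.add
    (f x15580) (Nat.add (f x15582) (Nat.add (f x15588) (Nat.add (f x15606) (Nat.add (f x15634)
    (Nat.add (f x15636) (Nat.add (f x15642) (Nat.add (f x15660) (Nat.add (f x15714) (Nat.add
    (f x15796) (Nat.add (f x15798) (Nat.add (f x15804) (Nat.add (f x15822) (Nat.add (f x15876)
    (Nat.add (f x16040) 0)))))))))))))))))))))))))))))))))))))))))))))))))))))))))))) (Nat.add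
    (Nat.add (f x16042) (Nat.add (f x16044) (Nat.add (f x16048) (Nat.add (f x16050) (Nat.add
    (f x16056) (Nat.add (f x16066) (Nat.add (f x16068) (Nat.add (f x16074) (Nat.add (f x16092)
    (Nat.add (f x16120) (Nat.add (f x16122) (Nat.add (f x16128) (Nat.add (f x16146) (Nat.add
    (f x16200) (Nat.add (f x16282) (Nat.add (f x16284) (Nat.add (f x16290) (Nat.add (f x16308)
    (Nat.add (f x16362) (Nat.add (f x16524) (Nat.add (f x16768) (Nat.add (f x16770) (Nat.add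
    (f x16776) (Nat.add (f x16794) (Nat.add (f x16848) (Nat.add (f x17010) (Nat.add (f x17498)
    (Nat.add (f x17500) (Nat.add (f x17502) (Nat.add (f x17506) (Nat.add (f x17508) (Nat.add
    (f x17514) (Nat.add (f x17524) (Nat.add (f x17526) (Nat.add (f x17532) (Nat.add (f x17550)
    (Nat.add (f x17578) (Nat.add (f x17580) (Nat.add (f x17586) (Nat.add (f x17604) (Nat.add
    (f x17658) (Nat.add (f x17740) (Nat.add (f x17742) (Nat.add (f x17748) (Nat.add (f x17766)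
    (Nat.add (f x17820) (Nat.add (f x17982) (Nat.add (f x18226) (Nat.add (f x18228) (Nat.add
    (f x18234) (Nat.add (f x18252) (Nat.add (f x18306) (Nat.add (f x18468) (Nat.add (f x18954)
    (Nat.add (f x19700) (Nat.add (f x19706) (Nat.add (f x19708) (Nat.add (f x19718) (Nat.add
    (f x19724) (Nat.add (f x19726) 0))))))))))))))))))))))))))))))))))))))))))))))))))))))))))))
    (Nat.add (Nat.add (f x19730) (Nat.add (f x19732) (Nat.add (f x19734) (Nat.add (f x19742)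
    (Nat.add (f x19744) (Nat.add (f x19748) (Nat.add (f x19750) (Nat.add (f x19752) (Nat.add
    (f x19756) (Nat.add (f x19758) (Nat.add (f x19772) (Nat.add (f x19778) (Nat.add (f x19780)
    (Nat.add (f x19784) (Nat.add (f x19786) (Nat.add (f x19788) (Nat.add (f x19796) (Nat.add
    (f x19798) (Nat.add (f x19802) (Nat.add (f x19804) (Nat.add (f x19806) (Nat.add (f x19810)
    (Nat.add (f x19812) (Nat.add (f x19820) (Nat.add (f x19822) (Nat.add (f x19824) (Nat.add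
    (f x19828) (Nat.add (f x19830) (Nat.add (f x19836) (Nat.add (f x19850) (Nat.add (f x19852)
    (Nat.add (f x19856) (Nat.add (f x19858) (Nat.add (f x19860) (Nat.add (f x19864) (Nat.add
    (f x19866) (Nat.add (f x19874) (Nat.add (f x19876) (Nat.add (f x19878) (Nat.add (f x19882)
    (Nat.add (f x19884) (Nat.add (f x19890) (Nat.add (f x19900) (Nat.add (f x19902) (Nat.add
    (f x19908) (Nat.add (f x19934) (Nat.add (f x19940) (Nat.add (f x19942) (Nat.add (f x19946)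
    (Nat.add (f x19948) (Nat.add (f x19950) (Nat.add (f x19958) (Nat.add (f x19960) (Nat.add
    (f x19964) (Nat.add (f x19966) (Nat.add (f x19968) (Nat.add (f x19972) (Nat.add (f x19974)
    (Nat.add (f x19982) (Nat.add (f x19984)
    0)))))))))))))))))))))))))))))))))))))))))))))))))))))))))))) (Nat.add (Nat.add (f x19986)
    (Nat.add (f x19990) (Nat.add (f x19992) (Nat.add (f x19998) (Nat.add (f x20012) (Nat.add
    (f x20014) (Nat.add (f x20018) (Nat.add (f x20020) (Nat.add (f x20022) (Nat.add (f x20026)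
    (Nat.add (f x20028) (Nat.add (f x20036) (Nat.add (f x20038) (Nat.add (f x20040) (Nat.add
    (f x20044) (Nat.add (f x20046) (Nat.add (f x20052) (Nat.add (f x20062) (Nat.add (f x20064)
    (Nat.add (f x20070) (Nat.add (f x20090) (Nat.add (f x20092) (Nat.add (f x20094) (Nat.add
    (f x20098) (Nat.add (f x20100) (Nat.add (f x20106) (Nat.add (f x20116) (Nat.add (f x20118)
    (Nat.add (f x20124) (Nat.add (f x20142) (Nat.add (f x20174) (Nat.add (f x20176) (Nat.add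
    (f x20180) (Nat.add (f x20182) (Nat.add (f x20184) (Nat.add (f x20188) (Nat.add (f x20190)
    (Nat.add (f x20198) (Nat.add (f x20200) (Nat.add (f x20202) (Nat.add (f x20206) (Nat.add
    (f x20208) (Nat.add (f x20214) (Nat.add (f x20224) (Nat.add (f x20226) (Nat.add (f x20232)
    (Nat.add (f x20252) (Nat.add (f x20254) (Nat.add (f x20256) (Nat.add (f x20260) (Nat.add
    (f x20262) (Nat.add (f x20268) (Nat.add (f x20278) (Nat.add (f x20280) (Nat.add (f x20286)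
    (Nat.add (f x20304) (Nat.add (f x20332) (Nat.add (f x20334) (Nat.add (f x20340) (Nat.add
    (f x20358) 0)))))))))))))))))))))))))))))))))))))))))))))))))))))))))))) (Nat.add (Nat.add
    (f x20420) (Nat.add (f x20426) (Nat.add (f x20428) (Nat.add (f x20432) (Nat.add (f x20434)
    (Nat.add (f x20436) (Nat.add (f x20444) (Nat.add (f x20446) (Nat.add (f x20450) (Nat.add
    (f x20452) (Nat.add (f x20454) (Nat.add (f x20458) (Nat.add (f x20460) (Nat.add (f x20468)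
    (Nat.add (f x20470) (Nat.add (f x20472) (Nat.add (f x20476) (Nat.add (f x20478) (Nat.add
    (f x20484) (Nat.add (f x20498) (Nat.add (f x20500) (Nat.add (f x20504) (Nat.add (f x20506)
    (Nat.add (f x20508) (Nat.add (f x20512) (Nat.add (f x20514) (Nat.add (f x20522) (Nat.add
    (f x20524) (Nat.add (f x20526) (Nat.add (f x20530) (Nat.add (f x20532) (Nat.add (f x20538)
    (Nat.add (f x20548) (Nat.add (f x20550) (Nat.add (f x20556) (Nat.add (f x20576) (Nat.add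
    (f x20578) (Nat.add (f x20580) (Nat.add (f x20584) (Nat.add (f x20586) (Nat.add (f x20592)
    (Nat.add (f x20602) (Nat.add (f x20604) (Nat.add (f x20610) (Nat.add (f x20628) (Nat.add
    (f x20660) (Nat.add (f x20662) (Nat.add (f x20666) (Nat.add (f x20668) (Nat.add (f x20670)
    (Nat.add (f x20674) (Nat.add (f x20676) (Nat.add (f x20684) (Nat.add (f x20686) (Nat.add
    (f x20688) (Nat.add (f x20692) (Nat.add (f x20694) (Nat.add (f x20700) (Nat.add (f x20710)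
    (Nat.add (f x20712) 0)))))))))))))))))))))))))))))))))))))))))))))))))))))))))))) (Nat.add
    (Nat.add (f x20718) (Nat.add (f x20738) (Nat.add (f x20740) (Nat.add (f x20742) (Nat.add
    (f x20746) (Nat.add (f x20748) (Nat.add (f x20754) (Nat.add (f x20764) (Nat.add (f x20766)
    (Nat.add (f x20772) (Nat.add (f x20790) (Nat.add (f x20818) (Nat.add (f x20820) (Nat.add
    (f x20826) (Nat.add (f x20844) (Nat.add (f x20900) (Nat.add (f x20902) (Nat.add (f x20904)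
    (Nat.add (f x20908) (Nat.add (f x20910) (Nat.add (f x20916) (Nat.add (f x20926) (Nat.add
    (f x20928) (Nat.add (f x20934) (Nat.add (f x20952) (Nat.add (f x20980) (Nat.add (f x20982)
    (Nat.add (f x20988) (Nat.add (f x21006) (Nat.add (f x21060) (Nat.add (f x21146) (Nat.add
    (f x21148) (Nat.add (f x21152) (Nat.add (f x21154) (Nat.add (f x21156) (Nat.add (f x21160)
    (Nat.add (f x21162) (Nat.add (f x21170) (Nat.add (f x21172) (Nat.add (f x21174) (Nat.add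
    (f x21178) (Nat.add (f x21180) (Nat.add (f x21186) (Nat.add (f x21196) (Nat.add (f x21198)
    (Nat.add (f x21204) (Nat.add (f x21224) (Nat.add (f x21226) (Nat.add (f x21228) (Nat.add
    (f x21232) (Nat.add (f x21234) (Nat.add (f x21240) (Nat.add (f x21250) (Nat.add (f x21252)
    (Nat.add (f x21258) (Nat.add (f x21276) (Nat.add (f x21304) (Nat.add (f x21306) (Nat.add
    (f x21312) (Nat.add (f x21330) 0))))))))))))))))))))))))))))))))))))))))))))))))))))))))))))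
    (Nat.add (Nat.add (f x21386) (Nat.add (f x21388) (Nat.add (f x21390) (Nat.add (f x21394)
    (Nat.add (f x21396) (Nat.add (f x21402) (Nat.add (f x21412) (Nat.add (f x21414) (Nat.add
    (f x21420) (Nat.add (f x21438) (Nat.add (f x21466) (Nat.add (f x21468) (Nat.add (f x21474)
    (Nat.add (f x21492) (Nat.add (f x21546) (Nat.add (f x21628) (Nat.add (f x21630) (Nat.add
    (f x21636) (Nat.add (f x21654) (Nat.add (f x21708) (Nat.add (f x21878) (Nat.add (f x21884)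
    (Nat.add (f x21886) (Nat.add (f x21890) (Nat.add (f x21892) (Nat.add (f x21894) (Nat.add
    (f x21902) (Nat.add (f x21904) (Nat.add (f x21908) (Nat.add (f x21910) (Nat.add (f x21912)
    (Nat.add (f x21916) (Nat.add (f x21918) (Nat.add (f x21926) (Nat.add (f x21928) (Nat.add
    (f x21930) (Nat.add (f x21934) (Nat.add (f x21936) (Nat.add (f x21942) (Nat.add (f x21956)
    (Nat.add (f x21958) (Nat.add (f x21962) (Nat.add (f x21964) (Nat.add (f x21966) (Nat.add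
    (f x21970) (Nat.add (f x21972) (Nat.add (f x21980) (Nat.add (f x21982) (Nat.add (f x21984)
    (Nat.add (f x21988) (Nat.add (f x21990) (Nat.add (f x21996) (Nat.add (f x22006) (Nat.add
    (f x22008) (Nat.add (f x22014) (Nat.add (f x22034) (Nat.add (f x22036) (Nat.add (f x22038)
    (Nat.add (f x22042) (Nat.add (f x22044)
    0)))))))))))))))))))))))))))))))))))))))))))))))))))))))))))) (Nat.add (Nat.add (f x22050)
    (Nat.add (f x22060) (Nat.add (f x22062) (Nat.add (f x22068) (Nat.add (f x22086) (Nat.add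
    (f x22118) (Nat.add (f x22120) (Nat.add (f x22124) (Nat.add (f x22126) (Nat.add (f x22128)
    (Nat.add (f x22132) (Nat.add (f x22134) (Nat.add (f x22142) (Nat.add (f x22144) (Nat.add
    (f x22146) (Nat.add (f x22150) (Nat.add (f x22152) (Nat.add (f x22158) (Nat.add (f x22168)
    (Nat.add (f x22170) (Nat.add (f x22176) (Nat.add (f x22196) (Nat.add (f x22198) (Nat.add
    (f x22200) (Nat.add (f x22204) (Nat.add (f x22206) (Nat.add (f x22212) (Nat.add (f x22222)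
    (Nat.add (f x22224) (Nat.add (f x22230) (Nat.add (f x22248) (Nat.add (f x22276) (Nat.add
    (f x22278) (Nat.add (f x22284) (Nat.add (f x22302) (Nat.add (f x22358) (Nat.add (f x22360)
    (Nat.add (f x22362) (Nat.add (f x22366) (Nat.add (f x22368) (Nat.add (f x22374) (Nat.add
    (f x22384) (Nat.add (f x22386) (Nat.add (f x22392) (Nat.add (f x22410) (Nat.add (f x22438)
    (Nat.add (f x22440) (Nat.add (f x22446) (Nat.add (f x22464) (Nat.add (f x22518) (Nat.add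
    (f x22604) (Nat.add (f x22606) (Nat.add (f x22610) (Nat.add (f x22612) (Nat.add (f x22614)
    (Nat.add (f x22618) (Nat.add (f x22620) (Nat.add (f x22628) (Nat.add (f x22630) (Nat.add
    (f x22632) 0)))))))))))))))))))))))))))))))))))))))))))))))))))))))))))) (Nat.add (Nat.add
    (f x22636) (Nat.add (f x22638) (Nat.add (f x22644) (Nat.add (f x22654) (Nat.add (f x22656)
    (Nat.add (f x22662) (Nat.add (f x22682) (Nat.add (f x22684) (Nat.add (f x22686) (Nat.add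
    (f x22690) (Nat.add (f x22692) (Nat.add (f x22698) (Nat.add (f x22708) (Nat.add (f x22710)
    (Nat.add (f x22716) (Nat.add (f x22734) (Nat.add (f x22762) (Nat.add (f x22764) (Nat.add
    (f x22770) (Nat.add (f x22788) (Nat.add (f x22844) (Nat.add (f x22846) (Nat.add (f x22848)
    (Nat.add (f x22852) (Nat.add (f x22854) (Nat.add (f x22860) (Nat.add (f x22870) (Nat.add
    (f x22872) (Nat.add (f x22878) (Nat.add (f x22896) (Nat.add (f x22924) (Nat.add (f x22926)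
    (Nat.add (f x22932) (Nat.add (f x22950) (Nat.add (f x23004) (Nat.add (f x23086) (Nat.add
    (f x23088) (Nat.add (f x23094) (Nat.add (f x23112) (Nat.add (f x23166) (Nat.add (f x23330)
    (Nat.add (f x23332) (Nat.add (f x23334) (Nat.add (f x23338) (Nat.add (f x23340) (Nat.add
    (f x23346) (Nat.add (f x23356) (Nat.add (f x23358) (Nat.add (f x23364) (Nat.add (f x23382)
    (Nat.add (f x23410) (Nat.add (f x23412) (Nat.add (f x23418) (Nat.add (f x23436) (Nat.add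
    (f x23490) (Nat.add (f x23572) (Nat.add (f x23574) (Nat.add (f x23580) (Nat.add (f x23598)
    (Nat.add (f x23652) 0)))))))))))))))))))))))))))))))))))))))))))))))))))))))))))) (Nat.add
    (Nat.add (f x23814) (Nat.add (f x24062) (Nat.add (f x24064) (Nat.add (f x24068) (Nat.add
    (f x24070) (Nat.add (f x24072) (Nat.add (f x24076) (Nat.add (f x24078) (Nat.add (f x24086)
    (Nat.add (f x24088) (Nat.add (f x24090) (Nat.add (f x24094) (Nat.add (f x24096) (Nat.add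
    (f x24102) (Nat.add (f x24112) (Nat.add (f x24114) (Nat.add (f x24120) (Nat.add (f x24140)
    (Nat.add (f x24142) (Nat.add (f x24144) (Nat.add (f x24148) (Nat.add (f x24150) (Nat.add
    (f x24156) (Nat.add (f x24166) (Nat.add (f x24168) (Nat.add (f x24174) (Nat.add (f x24192)
    (Nat.add (f x24220) (Nat.add (f x24222) (Nat.add (f x24228) (Nat.add (f x24246) (Nat.add
    (f x24302) (Nat.add (f x24304) (Nat.add (f x24306) (Nat.add (f x24310) (Nat.add (f x24312)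
    (Nat.add (f x24318) (Nat.add (f x24328) (Nat.add (f x24330) (Nat.add (f x24336) (Nat.add
    (f x24354) (Nat.add (f x24382) (Nat.add (f x24384) (Nat.add (f x24390) (Nat.add (f x24408)
    (Nat.add (f x24462) (Nat.add (f x24544) (Nat.add (f x24546) (Nat.add (f x24552) (Nat.add
    (f x24570) (Nat.add (f x24624) (Nat.add (f x24788) (Nat.add (f x24790) (Nat.add (f x24792)
    (Nat.add (f x24796) (Nat.add (f x24798) (Nat.add (f x24804) (Nat.add (f x24814) (Nat.add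
    (f x24816) (Nat.add (f x24822) 0))))))))))))))))))))))))))))))))))))))))))))))))))))))))))))
    (Nat.add (Nat.add (f x24840) (Nat.add (f x24868) (Nat.add (f x24870) (Nat.add (f x24876)
    (Nat.add (f x24894) (Nat.add (f x24948) (Nat.add (f x25030) (Nat.add (f x25032) (Nat.add
    (f x25038) (Nat.add (f x25056) (Nat.add (f x25110) (Nat.add (f x25272) (Nat.add (f x25516)
    (Nat.add (f x25518) (Nat.add (f x25524) (Nat.add (f x25542) (Nat.add (f x25596) (Nat.add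
    (f x25758) (Nat.add (f x26252) (Nat.add (f x26258) (Nat.add (f x26260) (Nat.add (f x26264)
    (Nat.add (f x26266) (Nat.add (f x26268) (Nat.add (f x26276) (Nat.add (f x26278) (Nat.add
    (f x26282) (Nat.add (f x26284) (Nat.add (f x26286) (Nat.add (f x26290) (Nat.add (f x26292)
    (Nat.add (f x26300) (Nat.add (f x26302) (Nat.add (f x26304) (Nat.add (f x26308) (Nat.add
    (f x26310) (Nat.add (f x26316) (Nat.add (f x26330) (Nat.add (f x26332) (Nat.add (f x26336)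
    (Nat.add (f x26338) (Nat.add (f x26340) (Nat.add (f x26344) (Nat.add (f x26346) (Nat.add
    (f x26354) (Nat.add (f x26356) (Nat.add (f x26358) (Nat.add (f x26362) (Nat.add (f x26364)
    (Nat.add (f x26370) (Nat.add (f x26380) (Nat.add (f x26382) (Nat.add (f x26388) (Nat.add
    (f x26408) (Nat.add (f x26410) (Nat.add (f x26412) (Nat.add (f x26416) (Nat.add (f x26418)
    (Nat.add (f x26424) (Nat.add (f x26434)
    0)))))))))))))))))))))))))))))))))))))))))))))))))))))))))))) (Nat.add (Nat.add (f x26436)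
    (Nat.add (f x26442) (Nat.add (f x26460) (Nat.add (f x26492) (Nat.add (f x26494) (Nat.add
    (f x26498) (Nat.add (f x26500) (Nat.add (f x26502) (Nat.add (f x26506) (Nat.add (f x26508)
    (Nat.add (f x26516) (Nat.add (f x26518) (Nat.add (f x26520) (Nat.add (f x26524) (Nat.add
    (f x26526) (Nat.add (f x26532) (Nat.add (f x26542) (Nat.add (f x26544) (Nat.add (f x26550)
    (Nat.add (f x26570) (Nat.add (f x26572) (Nat.add (f x26574) (Nat.add (f x26578) (Nat.add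
    (f x26580) (Nat.add (f x26586) (Nat.add (f x26596) (Nat.add (f x26598) (Nat.add (f x26604)
    (Nat.add (f x26622) (Nat.add (f x26650) (Nat.add (f x26652) (Nat.add (f x26658) (Nat.add
    (f x26676) (Nat.add (f x26732) (Nat.add (f x26734) (Nat.add (f x26736) (Nat.add (f x26740)
    (Nat.add (f x26742) (Nat.add (f x26748) (Nat.add (f x26758) (Nat.add (f x26760) (Nat.add
    (f x26766) (Nat.add (f x26784) (Nat.add (f x26812) (Nat.add (f x26814) (Nat.add (f x26820)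
    (Nat.add (f x26838) (Nat.add (f x26892) (Nat.add (f x26978) (Nat.add (f x26980) (Nat.add
    (f x26984) (Nat.add (f x26986) (Nat.add (f x26988) (Nat.add (f x26992) (Nat.add (f x26994)
    (Nat.add (f x27002) (Nat.add (f x27004) (Nat.add (f x27006) (Nat.add (f x27010) (Nat.add
    (f x27012) 0)))))))))))))))))))))))))))))))))))))))))))))))))))))))))))) (Nat.add (Nat.add
    (f x27018) (Nat.add (f x27028) (Nat.add (f x27030) (Nat.add (f x27036) (Nat.add (f x27056)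
    (Nat.add (f x27058) (Nat.add (f x27060) (Nat.add (f x27064) (Nat.add (f x27066) (Nat.add
    (f x27072) (Nat.add (f x27082) (Nat.add (f x27084) (Nat.add (f x27090) (Nat.add (f x27108)
    (Nat.add (f x27136) (Nat.add (f x27138) (Nat.add (f x27144) (Nat.add (f x27162) (Nat.add
    (f x27218) (Nat.add (f x27220) (Nat.add (f x27222) (Nat.add (f x27226) (Nat.add (f x27228)
    (Nat.add (f x27234) (Nat.add (f x27244) (Nat.add (f x27246) (Nat.add (f x27252) (Nat.add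
    (f x27270) (Nat.add (f x27298) (Nat.add (f x27300) (Nat.add (f x27306) (Nat.add (f x27324)
    (Nat.add (f x27378) (Nat.add (f x27460) (Nat.add (f x27462) (Nat.add (f x27468) (Nat.add
    (f x27486) (Nat.add (f x27540) (Nat.add (f x27704) (Nat.add (f x27706) (Nat.add (f x27708)
    (Nat.add (f x27712) (Nat.add (f x27714) (Nat.add (f x27720) (Nat.add (f x27730) (Nat.add
    (f x27732) (Nat.add (f x27738) (Nat.add (f x27756) (Nat.add (f x27784) (Nat.add (f x27786)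
    (Nat.add (f x27792) (Nat.add (f x27810) (Nat.add (f x27864) (Nat.add (f x27946) (Nat.add
    (f x27948) (Nat.add (f x27954) (Nat.add (f x27972) (Nat.add (f x28026) (Nat.add (f x28188)
    (Nat.add (f x28436) 0)))))))))))))))))))))))))))))))))))))))))))))))))))))))))))) (Nat.add
    (Nat.add (f x28438) (Nat.add (f x28442) (Nat.add (f x28444) (Nat.add (f x28446) (Nat.add
    (f x28450) (Nat.add (f x28452) (Nat.add (f x28460) (Nat.add (f x28462) (Nat.add (f x28464)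
    (Nat.add (f x28468) (Nat.add (f x28470) (Nat.add (f x28476) (Nat.add (f x28486) (Nat.add
    (f x28488) (Nat.add (f x28494) (Nat.add (f x28514) (Nat.add (f x28516) (Nat.add (f x28518)
    (Nat.add (f x28522) (Nat.add (f x28524) (Nat.add (f x28530) (Nat.add (f x28540) (Nat.add
    (f x28542) (Nat.add (f x28548) (Nat.add (f x28566) (Nat.add (f x28594) (Nat.add (f x28596)
    (Nat.add (f x28602) (Nat.add (f x28620) (Nat.add (f x28676) (Nat.add (f x28678) (Nat.add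
    (f x28680) (Nat.add (f x28684) (Nat.add (f x28686) (Nat.add (f x28692) (Nat.add (f x28702)
    (Nat.add (f x28704) (Nat.add (f x28710) (Nat.add (f x28728) (Nat.add (f x28756) (Nat.add
    (f x28758) (Nat.add (f x28764) (Nat.add (f x28782) (Nat.add (f x28836) (Nat.add (f x28918)
    (Nat.add (f x28920) (Nat.add (f x28926) (Nat.add (f x28944) (Nat.add (f x28998) (Nat.add
    (f x29162) (Nat.add (f x29164) (Nat.add (f x29166) (Nat.add (f x29170) (Nat.add (f x29172)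
    (Nat.add (f x29178) (Nat.add (f x29188) (Nat.add (f x29190) (Nat.add (f x29196) (Nat.add
    (f x29214) (Nat.add (f x29242) 0))))))))))))))))))))))))))))))))))))))))))))))))))))))))))))
    (Nat.add (Nat.add (f x29244) (Nat.add (f x29250) (Nat.add (f x29268) (Nat.add (f x29322)
    (Nat.add (f x29404) (Nat.add (f x29406) (Nat.add (f x29412) (Nat.add (f x29430) (Nat.add
    (f x29484) (Nat.add (f x29646) (Nat.add (f x29890) (Nat.add (f x29892) (Nat.add (f x29898)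
    (Nat.add (f x29916) (Nat.add (f x29970) (Nat.add (f x30132) (Nat.add (f x30620) (Nat.add
    (f x30622) (Nat.add (f x30624) (Nat.add (f x30628) (Nat.add (f x30630) (Nat.add (f x30636)
    (Nat.add (f x30646) (Nat.add (f x30648) (Nat.add (f x30654) (Nat.add (f x30672) (Nat.add
    (f x30700) (Nat.add (f x30702) (Nat.add (f x30708) (Nat.add (f x30726) (Nat.add (f x30780)
    (Nat.add (f x30862) (Nat.add (f x30864) (Nat.add (f x30870) (Nat.add (f x30888) (Nat.add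
    (f x30942) (Nat.add (f x31104) (Nat.add (f x31348) (Nat.add (f x31350) (Nat.add (f x31356)
    (Nat.add (f x31374) (Nat.add (f x31428) (Nat.add (f x31590) (Nat.add (f x32076) (Nat.add
    (f x32810) (Nat.add (f x32812) (Nat.add (f x32816) (Nat.add (f x32818) (Nat.add (f x32820)
    (Nat.add (f x32824) (Nat.add (f x32826) (Nat.add (f x32834) (Nat.add (f x32836) (Nat.add
    (f x32838) (Nat.add (f x32842) (Nat.add (f x32844) (Nat.add (f x32850) (Nat.add (f x32860)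
    (Nat.add (f x32862) (Nat.add (f x32868)
    0)))))))))))))))))))))))))))))))))))))))))))))))))))))))))))) (Nat.add (Nat.add (f x32888)
    (Nat.add (f x32890) (Nat.add (f x32892) (Nat.add (f x32896) (Nat.add (f x32898) (Nat.add
    (f x32904) (Nat.add (f x32914) (Nat.add (f x32916) (Nat.add (f x32922) (Nat.add (f x32940)
    (Nat.add (f x32968) (Nat.add (f x32970) (Nat.add (f x32976) (Nat.add (f x32994) (Nat.add
    (f x33050) (Nat.add (f x33052) (Nat.add (f x33054) (Nat.add (f x33058) (Nat.add (f x33060)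
    (Nat.add (f x33066) (Nat.add (f x33076) (Nat.add (f x33078) (Nat.add (f x33084) (Nat.add
    (f x33102) (Nat.add (f x33130) (Nat.add (f x33132) (Nat.add (f x33138) (Nat.add (f x33156)
    (Nat.add (f x33210) (Nat.add (f x33292) (Nat.add (f x33294) (Nat.add (f x33300) (Nat.add
    (f x33318) (Nat.add (f x33372) (Nat.add (f x33536) (Nat.add (f x33538) (Nat.add (f x33540)
    (Nat.add (f x33544) (Nat.add (f x33546) (Nat.add (f x33552) (Nat.add (f x33562) (Nat.add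
    (f x33564) (Nat.add (f x33570) (Nat.add (f x33588) (Nat.add (f x33616) (Nat.add (f x33618)
    (Nat.add (f x33624) (Nat.add (f x33642) (Nat.add (f x33696) (Nat.add (f x33778) (Nat.add
    (f x33780) (Nat.add (f x33786) (Nat.add (f x33804) (Nat.add (f x33858) (Nat.add (f x34020)
    (Nat.add (f x34264) (Nat.add (f x34266) (Nat.add (f x34272) (Nat.add (f x34290) (Nat.add
    (f x34344) 0)))))))))))))))))))))))))))))))))))))))))))))))))))))))))))) (Nat.add (Nat.add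
    (f x34506) (Nat.add (f x34994) (Nat.add (f x34996) (Nat.add (f x34998) (Nat.add (f x35002)
    (Nat.add (f x35004) (Nat.add (f x35010) (Nat.add (f x35020) (Nat.add (f x35022) (Nat.add
    (f x35028) (Nat.add (f x35046) (Nat.add (f x35074) (Nat.add (f x35076) (Nat.add (f x35082)
    (Nat.add (f x35100) (Nat.add (f x35154) (Nat.add (f x35236) (Nat.add (f x35238) (Nat.add
    (f x35244) (Nat.add (f x35262) (Nat.add (f x35316) (Nat.add (f x35478) (Nat.add (f x35722)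
    (Nat.add (f x35724) (Nat.add (f x35730) (Nat.add (f x35748) (Nat.add (f x35802) (Nat.add
    (f x35964) (Nat.add (f x36450) (Nat.add (f x37180) (Nat.add (f x37182) (Nat.add (f x37188)
    (Nat.add (f x37206) (Nat.add (f x37260) (Nat.add (f x37422) (Nat.add (f x37908) (Nat.add
    (f x39374) (Nat.add (f x39380) (Nat.add (f x39382) (Nat.add (f x39386) (Nat.add (f x39388)
    (Nat.add (f x39390) (Nat.add (f x39398) (Nat.add (f x39400) (Nat.add (f x39404) (Nat.add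
    (f x39406) (Nat.add (f x39408) (Nat.add (f x39412) (Nat.add (f x39414) (Nat.add (f x39422)
    (Nat.add (f x39424) (Nat.add (f x39426) (Nat.add (f x39430) (Nat.add (f x39432) (Nat.add
    (f x39438) (Nat.add (f x39452) (Nat.add (f x39454) (Nat.add (f x39458) (Nat.add (f x39460)
    (Nat.add (f x39462) 0)))))))))))))))))))))))))))))))))))))))))))))))))))))))))))) (Nat.add
    (Nat.add (f x39466) (Nat.add (f x39468) (Nat.add (f x39476) (Nat.add (f x39478) (Nat.add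
    (f x39480) (Nat.add (f x39484) (Nat.add (f x39486) (Nat.add (f x39492) (Nat.add (f x39502)
    (Nat.add (f x39504) (Nat.add (f x39510) (Nat.add (f x39530) (Nat.add (f x39532) (Nat.add
    (f x39534) (Nat.add (f x39538) (Nat.add (f x39540) (Nat.add (f x39546) (Nat.add (f x39556)
    (Nat.add (f x39558) (Nat.add (f x39564) (Nat.add (f x39582) (Nat.add (f x39614) (Nat.add
    (f x39616) (Nat.add (f x39620) (Nat.add (f x39622) (Nat.add (f x39624) (Nat.add (f x39628)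
    (Nat.add (f x39630) (Nat.add (f x39638) (Nat.add (f x39640) (Nat.add (f x39642) (Nat.add
    (f x39646) (Nat.add (f x39648) (Nat.add (f x39654) (Nat.add (f x39664) (Nat.add (f x39666)
    (Nat.add (f x39672) (Nat.add (f x39692) (Nat.add (f x39694) (Nat.add (f x39696) (Nat.add
    (f x39700) (Nat.add (f x39702) (Nat.add (f x39708) (Nat.add (f x39718) (Nat.add (f x39720)
    (Nat.add (f x39726) (Nat.add (f x39744) (Nat.add (f x39772) (Nat.add (f x39774) (Nat.add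
    (f x39780) (Nat.add (f x39798) (Nat.add (f x39854) (Nat.add (f x39856) (Nat.add (f x39858)
    (Nat.add (f x39862) (Nat.add (f x39864) (Nat.add (f x39870) (Nat.add (f x39880) (Nat.add
    (f x39882) (Nat.add (f x39888) 0))))))))))))))))))))))))))))))))))))))))))))))))))))))))))))
    (Nat.add (Nat.add (f x39906) (Nat.add (f x39934) (Nat.add (f x39936) (Nat.add (f x39942)
    (Nat.add (f x39960) (Nat.add (f x40014) (Nat.add (f x40100) (Nat.add (f x40102) (Nat.add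
    (f x40106) (Nat.add (f x40108) (Nat.add (f x40110) (Nat.add (f x40114) (Nat.add (f x40116)
    (Nat.add (f x40124) (Nat.add (f x40126) (Nat.add (f x40128) (Nat.add (f x40132) (Nat.add
    (f x40134) (Nat.add (f x40140) (Nat.add (f x40150) (Nat.add (f x40152) (Nat.add (f x40158)
    (Nat.add (f x40178) (Nat.add (f x40180) (Nat.add (f x40182) (Nat.add (f x40186) (Nat.add
    (f x40188) (Nat.add (f x40194) (Nat.add (f x40204) (Nat.add (f x40206) (Nat.add (f x40212)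
    (Nat.add (f x40230) (Nat.add (f x40258) (Nat.add (f x40260) (Nat.add (f x40266) (Nat.add
    (f x40284) (Nat.add (f x40340) (Nat.add (f x40342) (Nat.add (f x40344) (Nat.add (f x40348)
    (Nat.add (f x40350) (Nat.add (f x40356) (Nat.add (f x40366) (Nat.add (f x40368) (Nat.add
    (f x40374) (Nat.add (f x40392) (Nat.add (f x40420) (Nat.add (f x40422) (Nat.add (f x40428)
    (Nat.add (f x40446) (Nat.add (f x40500) (Nat.add (f x40582) (Nat.add (f x40584) (Nat.add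
    (f x40590) (Nat.add (f x40608) (Nat.add (f x40662) (Nat.add (f x40826) (Nat.add (f x40828)
    (Nat.add (f x40830) (Nat.add (f x40834)
    0)))))))))))))))))))))))))))))))))))))))))))))))))))))))))))) (Nat.add (Nat.add (f x40836)
    (Nat.add (f x40842) (Nat.add (f x40852) (Nat.add (f x40854) (Nat.add (f x40860) (Nat.add
    (f x40878) (Nat.add (f x40906) (Nat.add (f x40908) (Nat.add (f x40914) (Nat.add (f x40932)
    (Nat.add (f x40986) (Nat.add (f x41068) (Nat.add (f x41070) (Nat.add (f x41076) (Nat.add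
    (f x41094) (Nat.add (f x41148) (Nat.add (f x41310) (Nat.add (f x41558) (Nat.add (f x41560)
    (Nat.add (f x41564) (Nat.add (f x41566) (Nat.add (f x41568) (Nat.add (f x41572) (Nat.add
    (f x41574) (Nat.add (f x41582) (Nat.add (f x41584) (Nat.add (f x41586) (Nat.add (f x41590)
    (Nat.add (f x41592) (Nat.add (f x41598) (Nat.add (f x41608) (Nat.add (f x41610) (Nat.add
    (f x41616) (Nat.add (f x41636) (Nat.add (f x41638) (Nat.add (f x41640) (Nat.add (f x41644)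
    (Nat.add (f x41646) (Nat.add (f x41652) (Nat.add (f x41662) (Nat.add (f x41664) (Nat.add
    (f x41670) (Nat.add (f x41688) (Nat.add (f x41716) (Nat.add (f x41718) (Nat.add (f x41724)
    (Nat.add (f x41742) (Nat.add (f x41798) (Nat.add (f x41800) (Nat.add (f x41802) (Nat.add
    (f x41806) (Nat.add (f x41808) (Nat.add (f x41814) (Nat.add (f x41824) (Nat.add (f x41826)
    (Nat.add (f x41832) (Nat.add (f x41850) (Nat.add (f x41878) (Nat.add (f x41880) (Nat.add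
    (f x41886) 0)))))))))))))))))))))))))))))))))))))))))))))))))))))))))))) (Nat.add (Nat.add
    (f x41904) (Nat.add (f x41958) (Nat.add (f x42040) (Nat.add (f x42042) (Nat.add (f x42048)
    (Nat.add (f x42066) (Nat.add (f x42120) (Nat.add (f x42284) (Nat.add (f x42286) (Nat.add
    (f x42288) (Nat.add (f x42292) (Nat.add (f x42294) (Nat.add (f x42300) (Nat.add (f x42310)
    (Nat.add (f x42312) (Nat.add (f x42318) (Nat.add (f x42336) (Nat.add (f x42364) (Nat.add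
    (f x42366) (Nat.add (f x42372) (Nat.add (f x42390) (Nat.add (f x42444) (Nat.add (f x42526)
    (Nat.add (f x42528) (Nat.add (f x42534) (Nat.add (f x42552) (Nat.add (f x42606) (Nat.add
    (f x42768) (Nat.add (f x43012) (Nat.add (f x43014) (Nat.add (f x43020) (Nat.add (f x43038)
    (Nat.add (f x43092) (Nat.add (f x43254) (Nat.add (f x43742) (Nat.add (f x43744) (Nat.add
    (f x43746) (Nat.add (f x43750) (Nat.add (f x43752) (Nat.add (f x43758) (Nat.add (f x43768)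
    (Nat.add (f x43770) (Nat.add (f x43776) (Nat.add (f x43794) (Nat.add (f x43822) (Nat.add
    (f x43824) (Nat.add (f x43830) (Nat.add (f x43848) (Nat.add (f x43902) (Nat.add (f x43984)
    (Nat.add (f x43986) (Nat.add (f x43992) (Nat.add (f x44010) (Nat.add (f x44064) (Nat.add
    (f x44226) (Nat.add (f x44470) (Nat.add (f x44472) (Nat.add (f x44478) (Nat.add (f x44496)
    (Nat.add (f x44550) 0)))))))))))))))))))))))))))))))))))))))))))))))))))))))))))) (Nat.add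
    (Nat.add (f x44712) (Nat.add (f x45198) (Nat.add (f x45932) (Nat.add (f x45934) (Nat.add
    (f x45938) (Nat.add (f x45940) (Nat.add (f x45942) (Nat.add (f x45946) (Nat.add (f x45948)
    (Nat.add (f x45956) (Nat.add (f x45958) (Nat.add (f x45960) (Nat.add (f x45964) (Nat.add
    (f x45966) (Nat.add (f x45972) (Nat.add (f x45982) (Nat.add (f x45984) (Nat.add (f x45990)
    (Nat.add (f x46010) (Nat.add (f x46012) (Nat.add (f x46014) (Nat.add (f x46018) (Nat.add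
    (f x46020) (Nat.add (f x46026) (Nat.add (f x46036) (Nat.add (f x46038) (Nat.add (f x46044)
    (Nat.add (f x46062) (Nat.add (f x46090) (Nat.add (f x46092) (Nat.add (f x46098) (Nat.add
    (f x46116) (Nat.add (f x46172) (Nat.add (f x46174) (Nat.add (f x46176) (Nat.add (f x46180)
    (Nat.add (f x46182) (Nat.add (f x46188) (Nat.add (f x46198) (Nat.add (f x46200) (Nat.add
    (f x46206) (Nat.add (f x46224) (Nat.add (f x46252) (Nat.add (f x46254) (Nat.add (f x46260)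
    (Nat.add (f x46278) (Nat.add (f x46332) (Nat.add (f x46414) (Nat.add (f x46416) (Nat.add
    (f x46422) (Nat.add (f x46440) (Nat.add (f x46494) (Nat.add (f x46658) (Nat.add (f x46660)
    (Nat.add (f x46662) (Nat.add (f x46666) (Nat.add (f x46668) (Nat.add (f x46674) (Nat.add
    (f x46684) (Nat.add (f x46686) 0))))))))))))))))))))))))))))))))))))))))))))))))))))))))))))
    (Nat.add (Nat.add (f x46692) (Nat.add (f x46710) (Nat.add (f x46738) (Nat.add (f x46740)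
    (Nat.add (f x46746) (Nat.add (f x46764) (Nat.add (f x46818) (Nat.add (f x46900) (Nat.add
    (f x46902) (Nat.add (f x46908) (Nat.add (f x46926) (Nat.add (f x46980) (Nat.add (f x47142)
    (Nat.add (f x47386) (Nat.add (f x47388) (Nat.add (f x47394) (Nat.add (f x47412) (Nat.add
    (f x47466) (Nat.add (f x47628) (Nat.add (f x48116) (Nat.add (f x48118) (Nat.add (f x48120)
    (Nat.add (f x48124) (Nat.add (f x48126) (Nat.add (f x48132) (Nat.add (f x48142) (Nat.add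
    (f x48144) (Nat.add (f x48150) (Nat.add (f x48168) (Nat.add (f x48196) (Nat.add (f x48198)
    (Nat.add (f x48204) (Nat.add (f x48222) (Nat.add (f x48276) (Nat.add (f x48358) (Nat.add
    (f x48360) (Nat.add (f x48366) (Nat.add (f x48384) (Nat.add (f x48438) (Nat.add (f x48600)
    (Nat.add (f x48844) (Nat.add (f x48846) (Nat.add (f x48852) (Nat.add (f x48870) (Nat.add
    (f x48924) (Nat.add (f x49086) (Nat.add (f x49572) (Nat.add (f x50302) (Nat.add (f x50304)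
    (Nat.add (f x50310) (Nat.add (f x50328) (Nat.add (f x50382) (Nat.add (f x50544) (Nat.add
    (f x51030) (Nat.add (f x52490) (Nat.add (f x52492) (Nat.add (f x52494) (Nat.add (f x52498)
    (Nat.add (f x52500) (Nat.add (f x52506)
    0)))))))))))))))))))))))))))))))))))))))))))))))))))))))))))) (Nat.add (Nat.add (f x52516)
    (Nat.add (f x52518) (Nat.add (f x52524) (Nat.add (f x52542) (Nat.add (f x52570) (Nat.add
    (f x52572) (Nat.add (f x52578) (Nat.add (f x52596) (Nat.add (f x52650) (Nat.add (f x52732)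
    (Nat.add (f x52734) (Nat.add (f x52740) (Nat.add (f x52758) (Nat.add (f x52812) (Nat.add
    (f x52974) (Nat.add (f x53218) (Nat.add (f x53220) (Nat.add (f x53226) (Nat.add (f x53244)
    (Nat.add (f x53298) (Nat.add (f x53460) (Nat.add (f x53946) (Nat.add (f x54676) (Nat.add
    (f x54678) (Nat.add (f x54684) (Nat.add (f x54702) (Nat.add (f x54756) (Nat.add (f x54918)
    (Nat.add (f x55404) (Nat.add (f x56862) 0))))))))))))))))))))))))))))))
    0)))))))))))))))))))))))))))))))))))))))))))))))) v1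

theorem fin_eq0 (f : Nat → Nat) (v1 : Nat) (x : Nat → Nat) :
    apLL (fun t => x t.cd) cds (fin f v1) = Nat.beq (sum2 (fun t => f (x t.cd)) cds) v1 :=
  Eq.refl (apLL (fun t => x t.cd) cds (fin f v1))

theorem fin_eq (f : Nat → Nat) (v1 : Nat) (x : Nat → Nat) :
    ap x (fin f v1) = Nat.beq (sumL (fun s => f (x s)) (secL 10 6 0 [])) v1 :=
  ((ap_eq x (fin f v1)).symm.trans (fin_eq0 f v1 x)).trans
    (congrArg (fun z => Nat.beq z v1) (sum2_eq cds _ codes_ok (fun s => f (x s))))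

def ch0 : List (Nat × Nat) :=
    [(26,20), (44,40), (50,40), (52,20), (62,40), (68,20), (98,40), (104,40), (106,40), (116,40),
    (122,40), (124,40), (128,40), (130,20), (140,40), (142,20), (146,40), (170,40), (176,40),
    (182,20), (194,20), (260,40), (266,40), (268,40), (278,40), (284,40), (286,40), (290,40),
    (292,40), (302,40), (304,40), (308,40), (310,40), (316,20), (332,40), (338,40), (340,40),
    (344,40), (346,40), (356,40), (358,40), (362,40), (364,20), (380,40), (410,40), (412,20),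
    (416,40), (434,40), (494,40), (500,40), (506,40), (518,40), (524,20), (572,20), (746,40),
    (752,20), (764,40), (770,40), (772,40), (776,40), (778,40), (788,40), (790,40), (794,40),
    (796,40), (802,40), (818,40), (824,40), (826,40), (830,40), (832,40), (842,40), (844,40),
    (848,40), (850,40), (856,40), (866,40), (868,40), (874,20), (896,40), (898,40), (902,40)]

def sqA0 (X M
    u0 u1 u2 u3 u4 u5 u6 u7 u8 u9 u10 u11 u12 u13 u14 u15 u16 u17 u18 u19 u20 u21 u22 u23 u24 u25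
    u26 u27 u28 u29 u30 u31 u32 u33 u34 u35 u36 u37 u38 u39 u40 u41 u42 u43 u44 u45 u46 u47 u48 u49
    u50 u51 u52 u53 u54 u55 u56 u57 u58 u59 u60 u61 u62 u63 u64 u65 u66 u67 u68 u69 u70 u71 u72 u73
    u74 u75 u76 u77 u78 u79 u80 u81 : Nat) : Nat :=
    (Nat.add (Nat.mul (Nat.mul (Nat.land u0 M) (Nat.sub X (Nat.land u0 M))) 20)
    (Nat.add (Nat.mul (Nat.mul (Nat.land u1 M) (Nat.sub X (Nat.land u1 M))) 40)
    (Nat.add (Nat.mul (Nat.mul (Nat.land u2 M) (Nat.sub X (Nat.land u2 M))) 40)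
    (Nat.add (Nat.mul (Nat.mul (Nat.land u3 M) (Nat.sub X (Nat.land u3 M))) 20)
    (Nat.add (Nat.mul (Nat.mul (Nat.land u4 M) (Nat.sub X (Nat.land u4 M))) 40)
    (Nat.add (Nat.mul (Nat.mul (Nat.land u5 M) (Nat.sub X (Nat.land u5 M))) 20)
    (Nat.add (Nat.mul (Nat.mul (Nat.land u6 M) (Nat.sub X (Nat.land u6 M))) 40)
    (Nat.add (Nat.mul (Nat.mul (Nat.land u7 M) (Nat.sub X (Nat.land u7 M))) 40)
    (Nat.add (Nat.mul (Nat.mul (Nat.land u8 M) (Nat.sub X (Nat.land u8 M))) 40)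
    (Nat.add (Nat.mul (Nat.mul (Nat.land u9 M) (Nat.sub X (Nat.land u9 M))) 40)
    (Nat.add (Nat.mul (Nat.mul (Nat.land u10 M) (Nat.sub X (Nat.land u10 M))) 40)
    (Nat.add (Nat.mul (Nat.mul (Nat.land u11 M) (Nat.sub X (Nat.land u11 M))) 40)
    (Nat.add (Nat.mul (Nat.mul (Nat.land u12 M) (Nat.sub X (Nat.land u12 M))) 40)
    (Nat.add (Nat.mul (Nat.mul (Nat.land u13 M) (Nat.sub X (Nat.land u13 M))) 20)
    (Nat.add (Nat.mul (Nat.mul (Nat.land u14 M) (Nat.sub X (Nat.land u14 M))) 40)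
    (Nat.add (Nat.mul (Nat.mul (Nat.land u15 M) (Nat.sub X (Nat.land u15 M))) 20)
    (Nat.add (Nat.mul (Nat.mul (Nat.land u16 M) (Nat.sub X (Nat.land u16 M))) 40)
    (Nat.add (Nat.mul (Nat.mul (Nat.land u17 M) (Nat.sub X (Nat.land u17 M))) 40)
    (Nat.add (Nat.mul (Nat.mul (Nat.land u18 M) (Nat.sub X (Nat.land u18 M))) 40)
    (Nat.add (Nat.mul (Nat.mul (Nat.land u19 M) (Nat.sub X (Nat.land u19 M))) 20)
    (Nat.add (Nat.mul (Nat.mul (Nat.land u20 M) (Nat.sub X (Nat.land u20 M))) 20)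
    (Nat.add (Nat.mul (Nat.mul (Nat.land u21 M) (Nat.sub X (Nat.land u21 M))) 40)
    (Nat.add (Nat.mul (Nat.mul (Nat.land u22 M) (Nat.sub X (Nat.land u22 M))) 40)
    (Nat.add (Nat.mul (Nat.mul (Nat.land u23 M) (Nat.sub X (Nat.land u23 M))) 40)
    (Nat.add (Nat.mul (Nat.mul (Nat.land u24 M) (Nat.sub X (Nat.land u24 M))) 40)
    (Nat.add (Nat.mul (Nat.mul (Nat.land u25 M) (Nat.sub X (Nat.land u25 M))) 40)
    (Nat.add (Nat.mul (Nat.mul (Nat.land u26 M) (Nat.sub X (Nat.land u26 M))) 40)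
    (Nat.add (Nat.mul (Nat.mul (Nat.land u27 M) (Nat.sub X (Nat.land u27 M))) 40)
    (Nat.add (Nat.mul (Nat.mul (Nat.land u28 M) (Nat.sub X (Nat.land u28 M))) 40)
    (Nat.add (Nat.mul (Nat.mul (Nat.land u29 M) (Nat.sub X (Nat.land u29 M))) 40)
    (Nat.add (Nat.mul (Nat.mul (Nat.land u30 M) (Nat.sub X (Nat.land u30 M))) 40)
    (Nat.add (Nat.mul (Nat.mul (Nat.land u31 M) (Nat.sub X (Nat.land u31 M))) 40)
    (Nat.add (Nat.mul (Nat.mul (Nat.land u32 M) (Nat.sub X (Nat.land u32 M))) 40)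
    (Nat.add (Nat.mul (Nat.mul (Nat.land u33 M) (Nat.sub X (Nat.land u33 M))) 20)
    (Nat.add (Nat.mul (Nat.mul (Nat.land u34 M) (Nat.sub X (Nat.land u34 M))) 40)
    (Nat.add (Nat.mul (Nat.mul (Nat.land u35 M) (Nat.sub X (Nat.land u35 M))) 40)
    (Nat.add (Nat.mul (Nat.mul (Nat.land u36 M) (Nat.sub X (Nat.land u36 M))) 40)
    (Nat.add (Nat.mul (Nat.mul (Nat.land u37 M) (Nat.sub X (Nat.land u37 M))) 40)
    (Nat.add (Nat.mul (Nat.mul (Nat.land u38 M) (Nat.sub X (Nat.land u38 M))) 40)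
    (Nat.add (Nat.mul (Nat.mul (Nat.land u39 M) (Nat.sub X (Nat.land u39 M))) 40)
    (Nat.add (Nat.mul (Nat.mul (Nat.land u40 M) (Nat.sub X (Nat.land u40 M))) 40)
    (Nat.add (Nat.mul (Nat.mul (Nat.land u41 M) (Nat.sub X (Nat.land u41 M))) 40)
    (Nat.add (Nat.mul (Nat.mul (Nat.land u42 M) (Nat.sub X (Nat.land u42 M))) 20)
    (Nat.add (Nat.mul (Nat.mul (Nat.land u43 M) (Nat.sub X (Nat.land u43 M))) 40)
    (Nat.add (Nat.mul (Nat.mul (Nat.land u44 M) (Nat.sub X (Nat.land u44 M))) 40)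
    (Nat.add (Nat.mul (Nat.mul (Nat.land u45 M) (Nat.sub X (Nat.land u45 M))) 20)
    (Nat.add (Nat.mul (Nat.mul (Nat.land u46 M) (Nat.sub X (Nat.land u46 M))) 40)
    (Nat.add (Nat.mul (Nat.mul (Nat.land u47 M) (Nat.sub X (Nat.land u47 M))) 40)
    (Nat.add (Nat.mul (Nat.mul (Nat.land u48 M) (Nat.sub X (Nat.land u48 M))) 40)
    (Nat.add (Nat.mul (Nat.mul (Nat.land u49 M) (Nat.sub X (Nat.land u49 M))) 40)
    (Nat.add (Nat.mul (Nat.mul (Nat.land u50 M) (Nat.sub X (Nat.land u50 M))) 40)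
    (Nat.add (Nat.mul (Nat.mul (Nat.land u51 M) (Nat.sub X (Nat.land u51 M))) 40)
    (Nat.add (Nat.mul (Nat.mul (Nat.land u52 M) (Nat.sub X (Nat.land u52 M))) 20)
    (Nat.add (Nat.mul (Nat.mul (Nat.land u53 M) (Nat.sub X (Nat.land u53 M))) 20)
    (Nat.add (Nat.mul (Nat.mul (Nat.land u54 M) (Nat.sub X (Nat.land u54 M))) 40)
    (Nat.add (Nat.mul (Nat.mul (Nat.land u55 M) (Nat.sub X (Nat.land u55 M))) 20)
    (Nat.add (Nat.mul (Nat.mul (Nat.land u56 M) (Nat.sub X (Nat.land u56 M))) 40)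
    (Nat.add (Nat.mul (Nat.mul (Nat.land u57 M) (Nat.sub X (Nat.land u57 M))) 40)
    (Nat.add (Nat.mul (Nat.mul (Nat.land u58 M) (Nat.sub X (Nat.land u58 M))) 40)
    (Nat.add (Nat.mul (Nat.mul (Nat.land u59 M) (Nat.sub X (Nat.land u59 M))) 40)
    (Nat.add (Nat.mul (Nat.mul (Nat.land u60 M) (Nat.sub X (Nat.land u60 M))) 40)
    (Nat.add (Nat.mul (Nat.mul (Nat.land u61 M) (Nat.sub X (Nat.land u61 M))) 40)
    (Nat.add (Nat.mul (Nat.mul (Nat.land u62 M) (Nat.sub X (Nat.land u62 M))) 40)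
    (Nat.add (Nat.mul (Nat.mul (Nat.land u63 M) (Nat.sub X (Nat.land u63 M))) 40)
    (Nat.add (Nat.mul (Nat.mul (Nat.land u64 M) (Nat.sub X (Nat.land u64 M))) 40)
    (Nat.add (Nat.mul (Nat.mul (Nat.land u65 M) (Nat.sub X (Nat.land u65 M))) 40)
    (Nat.add (Nat.mul (Nat.mul (Nat.land u66 M) (Nat.sub X (Nat.land u66 M))) 40)
    (Nat.add (Nat.mul (Nat.mul (Nat.land u67 M) (Nat.sub X (Nat.land u67 M))) 40)
    (Nat.add (Nat.mul (Nat.mul (Nat.land u68 M) (Nat.sub X (Nat.land u68 M))) 40)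
    (Nat.add (Nat.mul (Nat.mul (Nat.land u69 M) (Nat.sub X (Nat.land u69 M))) 40)
    (Nat.add (Nat.mul (Nat.mul (Nat.land u70 M) (Nat.sub X (Nat.land u70 M))) 40)
    (Nat.add (Nat.mul (Nat.mul (Nat.land u71 M) (Nat.sub X (Nat.land u71 M))) 40)
    (Nat.add (Nat.mul (Nat.mul (Nat.land u72 M) (Nat.sub X (Nat.land u72 M))) 40)
    (Nat.add (Nat.mul (Nat.mul (Nat.land u73 M) (Nat.sub X (Nat.land u73 M))) 40)
    (Nat.add (Nat.mul (Nat.mul (Nat.land u74 M) (Nat.sub X (Nat.land u74 M))) 40)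
    (Nat.add (Nat.mul (Nat.mul (Nat.land u75 M) (Nat.sub X (Nat.land u75 M))) 40)
    (Nat.add (Nat.mul (Nat.mul (Nat.land u76 M) (Nat.sub X (Nat.land u76 M))) 40)
    (Nat.add (Nat.mul (Nat.mul (Nat.land u77 M) (Nat.sub X (Nat.land u77 M))) 40)
    (Nat.add (Nat.mul (Nat.mul (Nat.land u78 M) (Nat.sub X (Nat.land u78 M))) 20)
    (Nat.add (Nat.mul (Nat.mul (Nat.land u79 M) (Nat.sub X (Nat.land u79 M))) 40)
    (Nat.add (Nat.mul (Nat.mul (Nat.land u80 M) (Nat.sub X (Nat.land u80 M))) 40)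
    (Nat.add (Nat.mul (Nat.mul (Nat.land u81 M) (Nat.sub X (Nat.land u81 M))) 40)
    0))))))))))))))))))))))))))))))))))))))))))))))))))))))))))))))))))))))))))))))))))

def sqB0 (z0 z1 z2 z3 z4 z5 z6 z7 z8 z9 z10 z11 z12 z13 : Nat) : Nat :=
  sqA0 (Nat.shiftLeft 1 164) (Nat.sub (Nat.shiftLeft 1 164) 1)
    z0
    (Nat.shiftRight z0 164)
    (Nat.shiftRight (Nat.shiftRight z0 164) 164)
    (Nat.shiftRight (Nat.shiftRight (Nat.shiftRight z0 164) 164) 164)
    (Nat.shiftRight (Nat.shiftRight (Nat.shiftRight (Nat.shiftRight z0 164) 164) 164) 164)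
    (Nat.shiftRight (Nat.shiftRight (Nat.shiftRight (Nat.shiftRight (Nat.shiftRight z0 164) 164) 164) 164) 164)
    z1
    (Nat.shiftRight z1 164)
    (Nat.shiftRight (Nat.shiftRight z1 164) 164)
    (Nat.shiftRight (Nat.shiftRight (Nat.shiftRight z1 164) 164) 164)
    (Nat.shiftRight (Nat.shiftRight (Nat.shiftRight (Nat.shiftRight z1 164) 164) 164) 164)
    (Nat.shiftRight (Nat.shiftRight (Nat.shiftRight (Nat.shiftRight (Nat.shiftRight z1 164) 164) 164) 164) 164)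
    z2
    (Nat.shiftRight z2 164)
    (Nat.shiftRight (Nat.shiftRight z2 164) 164)
    (Nat.shiftRight (Nat.shiftRight (Nat.shiftRight z2 164) 164) 164)
    (Nat.shiftRight (Nat.shiftRight (Nat.shiftRight (Nat.shiftRight z2 164) 164) 164) 164)
    (Nat.shiftRight (Nat.shiftRight (Nat.shiftRight (Nat.shiftRight (Nat.shiftRight z2 164) 164) 164) 164) 164)
    z3
    (Nat.shiftRight z3 164)
    (Nat.shiftRight (Nat.shiftRight z3 164) 164)
    (Nat.shiftRight (Nat.shiftRight (Nat.shiftRight z3 164) 164) 164)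
    (Nat.shiftRight (Nat.shiftRight (Nat.shiftRight (Nat.shiftRight z3 164) 164) 164) 164)
    (Nat.shiftRight (Nat.shiftRight (Nat.shiftRight (Nat.shiftRight (Nat.shiftRight z3 164) 164) 164) 164) 164)
    z4
    (Nat.shiftRight z4 164)
    (Nat.shiftRight (Nat.shiftRight z4 164) 164)
    (Nat.shiftRight (Nat.shiftRight (Nat.shiftRight z4 164) 164) 164)
    (Nat.shiftRight (Nat.shiftRight (Nat.shiftRight (Nat.shiftRight z4 164) 164) 164) 164)
    (Nat.shiftRight (Nat.shiftRight (Nat.shiftRight (Nat.shiftRight (Nat.shiftRight z4 164) 164) 164) 164) 164)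
    z5
    (Nat.shiftRight z5 164)
    (Nat.shiftRight (Nat.shiftRight z5 164) 164)
    (Nat.shiftRight (Nat.shiftRight (Nat.shiftRight z5 164) 164) 164)
    (Nat.shiftRight (Nat.shiftRight (Nat.shiftRight (Nat.shiftRight z5 164) 164) 164) 164)
    (Nat.shiftRight (Nat.shiftRight (Nat.shiftRight (Nat.shiftRight (Nat.shiftRight z5 164) 164) 164) 164) 164)
    z6
    (Nat.shiftRight z6 164)
    (Nat.shiftRight (Nat.shiftRight z6 164) 164)
    (Nat.shiftRight (Nat.shiftRight (Nat.shiftRight z6 164) 164) 164)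
    (Nat.shiftRight (Nat.shiftRight (Nat.shiftRight (Nat.shiftRight z6 164) 164) 164) 164)
    (Nat.shiftRight (Nat.shiftRight (Nat.shiftRight (Nat.shiftRight (Nat.shiftRight z6 164) 164) 164) 164) 164)
    z7
    (Nat.shiftRight z7 164)
    (Nat.shiftRight (Nat.shiftRight z7 164) 164)
    (Nat.shiftRight (Nat.shiftRight (Nat.shiftRight z7 164) 164) 164)
    (Nat.shiftRight (Nat.shiftRight (Nat.shiftRight (Nat.shiftRight z7 164) 164) 164) 164)
    (Nat.shiftRight (Nat.shiftRight (Nat.shiftRight (Nat.shiftRight (Nat.shiftRight z7 164) 164) 164) 164) 164)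
    z8
    (Nat.shiftRight z8 164)
    (Nat.shiftRight (Nat.shiftRight z8 164) 164)
    (Nat.shiftRight (Nat.shiftRight (Nat.shiftRight z8 164) 164) 164)
    (Nat.shiftRight (Nat.shiftRight (Nat.shiftRight (Nat.shiftRight z8 164) 164) 164) 164)
    (Nat.shiftRight (Nat.shiftRight (Nat.shiftRight (Nat.shiftRight (Nat.shiftRight z8 164) 164) 164) 164) 164)
    z9
    (Nat.shiftRight z9 164)
    (Nat.shiftRight (Nat.shiftRight z9 164) 164)
    (Nat.shiftRight (Nat.shiftRight (Nat.shiftRight z9 164) 164) 164)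
    (Nat.shiftRight (Nat.shiftRight (Nat.shiftRight (Nat.shiftRight z9 164) 164) 164) 164)
    (Nat.shiftRight (Nat.shiftRight (Nat.shiftRight (Nat.shiftRight (Nat.shiftRight z9 164) 164) 164) 164) 164)
    z10
    (Nat.shiftRight z10 164)
    (Nat.shiftRight (Nat.shiftRight z10 164) 164)
    (Nat.shiftRight (Nat.shiftRight (Nat.shiftRight z10 164) 164) 164)
    (Nat.shiftRight (Nat.shiftRight (Nat.shiftRight (Nat.shiftRight z10 164) 164) 164) 164)
    (Nat.shiftRight (Nat.shiftRight (Nat.shiftRight (Nat.shiftRight (Nat.shiftRight z10 164) 164) 164) 164) 164)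
    z11
    (Nat.shiftRight z11 164)
    (Nat.shiftRight (Nat.shiftRight z11 164) 164)
    (Nat.shiftRight (Nat.shiftRight (Nat.shiftRight z11 164) 164) 164)
    (Nat.shiftRight (Nat.shiftRight (Nat.shiftRight (Nat.shiftRight z11 164) 164) 164) 164)
    (Nat.shiftRight (Nat.shiftRight (Nat.shiftRight (Nat.shiftRight (Nat.shiftRight z11 164) 164) 164) 164) 164)
    z12
    (Nat.shiftRight z12 164)
    (Nat.shiftRight (Nat.shiftRight z12 164) 164)
    (Nat.shiftRight (Nat.shiftRight (Nat.shiftRight z12 164) 164) 164)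
    (Nat.shiftRight (Nat.shiftRight (Nat.shiftRight (Nat.shiftRight z12 164) 164) 164) 164)
    (Nat.shiftRight (Nat.shiftRight (Nat.shiftRight (Nat.shiftRight (Nat.shiftRight z12 164) 164) 164) 164) 164)
    z13
    (Nat.shiftRight z13 164)
    (Nat.shiftRight (Nat.shiftRight z13 164) 164)
    (Nat.shiftRight (Nat.shiftRight (Nat.shiftRight z13 164) 164) 164)

def sqC0 (u : Nat) : Nat :=
  sqB0
    u
    (sh6 164 u)
    (sh6 164 (sh6 164 u))
    (sh6 164 (sh6 164 (sh6 164 u)))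
    (sh6 164 (sh6 164 (sh6 164 (sh6 164 u))))
    (sh6 164 (sh6 164 (sh6 164 (sh6 164 (sh6 164 u)))))
    (sh6 164 (sh6 164 (sh6 164 (sh6 164 (sh6 164 (sh6 164 u))))))
    (sh6 164 (sh6 164 (sh6 164 (sh6 164 (sh6 164 (sh6 164 (sh6 164 u)))))))
    (sh6 164 (sh6 164 (sh6 164 (sh6 164 (sh6 164 (sh6 164 (sh6 164 (sh6 164 u))))))))
    (sh6 164 (sh6 164 (sh6 164 (sh6 164 (sh6 164 (sh6 164 (sh6 164 (sh6 164 (sh6 164 u)))))))))
    (sh6 164 (sh6 164 (sh6 164 (sh6 164 (sh6 164 (sh6 164 (sh6 164 (sh6 164 (sh6 164 (sh6 164 u))))))))))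
    (sh6 164 (sh6 164 (sh6 164 (sh6 164 (sh6 164 (sh6 164 (sh6 164 (sh6 164 (sh6 164 (sh6 164 (sh6 164 u)))))))))))
    (sh6 164 (sh6 164 (sh6 164 (sh6 164 (sh6 164 (sh6 164 (sh6 164 (sh6 164 (sh6 164 (sh6 164 (sh6 164 (sh6 164 u))))))))))))
    (sh6 164 (sh6 164 (sh6 164 (sh6 164 (sh6 164 (sh6 164 (sh6 164 (sh6 164 (sh6 164 (sh6 164 (sh6 164 (sh6 164 (sh6 164 u)))))))))))))

noncomputable def sq0 (v : Nat) : Nat := sqC0 (Nat.add v (offs 164 (Nat.shiftLeft 1 (Nat.sub 164 1)) ch0))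

theorem sq_eq0 : sq0 = sqF 164 ch0 := Eq.refl sq0

theorem side_ok0 : sideOK 10 164 mask cf10 ch0 = true := by decide +kernel

def ch1 : List (Nat × Nat) :=
    [(904,40), (910,20), (920,40), (922,40), (980,20), (986,40), (988,40), (992,40), (994,40),
    (1004,40), (1006,40), (1010,40), (1012,40), (1028,40), (1030,20), (1058,40), (1060,40),
    (1064,40), (1066,20), (1082,40), (1136,40), (1220,20), (1222,20), (1226,40), (1244,40),
    (1298,20), (1478,20), (1490,40), (1496,40), (1514,20), (1544,40), (1550,20), (2276,20),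
    (2282,40), (2284,40), (2288,40), (2290,40), (2300,40), (2302,40), (2306,40), (2308,20),
    (2324,40), (2354,40), (2360,20), (2444,40), (2446,20), (2450,20), (2462,40), (2464,40),
    (2468,40), (2470,40), (2476,40), (2486,40), (2488,40), (2494,40), (2516,40), (2518,40),
    (2522,40), (2524,40), (2530,40), (2540,40), (2542,40), (2548,20), (2596,40), (2684,20),
    (2686,40), (2692,20), (2702,20), (2704,40), (2758,40), (2954,40), (2956,20), (2972,20),
    (3008,40), (3010,40), (3026,20), (3028,20), (3172,10), (7382,20), (7384,20), (7402,20),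
    (7564,10)]

def sqA1 (X M
    u0 u1 u2 u3 u4 u5 u6 u7 u8 u9 u10 u11 u12 u13 u14 u15 u16 u17 u18 u19 u20 u21 u22 u23 u24 u25
    u26 u27 u28 u29 u30 u31 u32 u33 u34 u35 u36 u37 u38 u39 u40 u41 u42 u43 u44 u45 u46 u47 u48 u49
    u50 u51 u52 u53 u54 u55 u56 u57 u58 u59 u60 u61 u62 u63 u64 u65 u66 u67 u68 u69 u70 u71 u72 u73
    u74 u75 u76 u77 u78 u79 u80 u81 : Nat) : Nat :=
    (Nat.add (Nat.mul (Nat.mul (Nat.land u0 M) (Nat.sub X (Nat.land u0 M))) 40)
    (Nat.add (Nat.mul (Nat.mul (Nat.land u1 M) (Nat.sub X (Nat.land u1 M))) 20)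
    (Nat.add (Nat.mul (Nat.mul (Nat.land u2 M) (Nat.sub X (Nat.land u2 M))) 40)
    (Nat.add (Nat.mul (Nat.mul (Nat.land u3 M) (Nat.sub X (Nat.land u3 M))) 40)
    (Nat.add (Nat.mul (Nat.mul (Nat.land u4 M) (Nat.sub X (Nat.land u4 M))) 20)
    (Nat.add (Nat.mul (Nat.mul (Nat.land u5 M) (Nat.sub X (Nat.land u5 M))) 40)
    (Nat.add (Nat.mul (Nat.mul (Nat.land u6 M) (Nat.sub X (Nat.land u6 M))) 40)
    (Nat.add (Nat.mul (Nat.mul (Nat.land u7 M) (Nat.sub X (Nat.land u7 M))) 40)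
    (Nat.add (Nat.mul (Nat.mul (Nat.land u8 M) (Nat.sub X (Nat.land u8 M))) 40)
    (Nat.add (Nat.mul (Nat.mul (Nat.land u9 M) (Nat.sub X (Nat.land u9 M))) 40)
    (Nat.add (Nat.mul (Nat.mul (Nat.land u10 M) (Nat.sub X (Nat.land u10 M))) 40)
    (Nat.add (Nat.mul (Nat.mul (Nat.land u11 M) (Nat.sub X (Nat.land u11 M))) 40)
    (Nat.add (Nat.mul (Nat.mul (Nat.land u12 M) (Nat.sub X (Nat.land u12 M))) 40)
    (Nat.add (Nat.mul (Nat.mul (Nat.land u13 M) (Nat.sub X (Nat.land u13 M))) 40)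
    (Nat.add (Nat.mul (Nat.mul (Nat.land u14 M) (Nat.sub X (Nat.land u14 M))) 20)
    (Nat.add (Nat.mul (Nat.mul (Nat.land u15 M) (Nat.sub X (Nat.land u15 M))) 40)
    (Nat.add (Nat.mul (Nat.mul (Nat.land u16 M) (Nat.sub X (Nat.land u16 M))) 40)
    (Nat.add (Nat.mul (Nat.mul (Nat.land u17 M) (Nat.sub X (Nat.land u17 M))) 40)
    (Nat.add (Nat.mul (Nat.mul (Nat.land u18 M) (Nat.sub X (Nat.land u18 M))) 20)
    (Nat.add (Nat.mul (Nat.mul (Nat.land u19 M) (Nat.sub X (Nat.land u19 M))) 40)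
    (Nat.add (Nat.mul (Nat.mul (Nat.land u20 M) (Nat.sub X (Nat.land u20 M))) 40)
    (Nat.add (Nat.mul (Nat.mul (Nat.land u21 M) (Nat.sub X (Nat.land u21 M))) 20)
    (Nat.add (Nat.mul (Nat.mul (Nat.land u22 M) (Nat.sub X (Nat.land u22 M))) 20)
    (Nat.add (Nat.mul (Nat.mul (Nat.land u23 M) (Nat.sub X (Nat.land u23 M))) 40)
    (Nat.add (Nat.mul (Nat.mul (Nat.land u24 M) (Nat.sub X (Nat.land u24 M))) 40)
    (Nat.add (Nat.mul (Nat.mul (Nat.land u25 M) (Nat.sub X (Nat.land u25 M))) 20)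
    (Nat.add (Nat.mul (Nat.mul (Nat.land u26 M) (Nat.sub X (Nat.land u26 M))) 20)
    (Nat.add (Nat.mul (Nat.mul (Nat.land u27 M) (Nat.sub X (Nat.land u27 M))) 40)
    (Nat.add (Nat.mul (Nat.mul (Nat.land u28 M) (Nat.sub X (Nat.land u28 M))) 40)
    (Nat.add (Nat.mul (Nat.mul (Nat.land u29 M) (Nat.sub X (Nat.land u29 M))) 20)
    (Nat.add (Nat.mul (Nat.mul (Nat.land u30 M) (Nat.sub X (Nat.land u30 M))) 40)
    (Nat.add (Nat.mul (Nat.mul (Nat.land u31 M) (Nat.sub X (Nat.land u31 M))) 20)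
    (Nat.add (Nat.mul (Nat.mul (Nat.land u32 M) (Nat.sub X (Nat.land u32 M))) 20)
    (Nat.add (Nat.mul (Nat.mul (Nat.land u33 M) (Nat.sub X (Nat.land u33 M))) 40)
    (Nat.add (Nat.mul (Nat.mul (Nat.land u34 M) (Nat.sub X (Nat.land u34 M))) 40)
    (Nat.add (Nat.mul (Nat.mul (Nat.land u35 M) (Nat.sub X (Nat.land u35 M))) 40)
    (Nat.add (Nat.mul (Nat.mul (Nat.land u36 M) (Nat.sub X (Nat.land u36 M))) 40)
    (Nat.add (Nat.mul (Nat.mul (Nat.land u37 M) (Nat.sub X (Nat.land u37 M))) 40)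
    (Nat.add (Nat.mul (Nat.mul (Nat.land u38 M) (Nat.sub X (Nat.land u38 M))) 40)
    (Nat.add (Nat.mul (Nat.mul (Nat.land u39 M) (Nat.sub X (Nat.land u39 M))) 40)
    (Nat.add (Nat.mul (Nat.mul (Nat.land u40 M) (Nat.sub X (Nat.land u40 M))) 20)
    (Nat.add (Nat.mul (Nat.mul (Nat.land u41 M) (Nat.sub X (Nat.land u41 M))) 40)
    (Nat.add (Nat.mul (Nat.mul (Nat.land u42 M) (Nat.sub X (Nat.land u42 M))) 40)
    (Nat.add (Nat.mul (Nat.mul (Nat.land u43 M) (Nat.sub X (Nat.land u43 M))) 20)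
    (Nat.add (Nat.mul (Nat.mul (Nat.land u44 M) (Nat.sub X (Nat.land u44 M))) 40)
    (Nat.add (Nat.mul (Nat.mul (Nat.land u45 M) (Nat.sub X (Nat.land u45 M))) 20)
    (Nat.add (Nat.mul (Nat.mul (Nat.land u46 M) (Nat.sub X (Nat.land u46 M))) 20)
    (Nat.add (Nat.mul (Nat.mul (Nat.land u47 M) (Nat.sub X (Nat.land u47 M))) 40)
    (Nat.add (Nat.mul (Nat.mul (Nat.land u48 M) (Nat.sub X (Nat.land u48 M))) 40)
    (Nat.add (Nat.mul (Nat.mul (Nat.land u49 M) (Nat.sub X (Nat.land u49 M))) 40)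
    (Nat.add (Nat.mul (Nat.mul (Nat.land u50 M) (Nat.sub X (Nat.land u50 M))) 40)
    (Nat.add (Nat.mul (Nat.mul (Nat.land u51 M) (Nat.sub X (Nat.land u51 M))) 40)
    (Nat.add (Nat.mul (Nat.mul (Nat.land u52 M) (Nat.sub X (Nat.land u52 M))) 40)
    (Nat.add (Nat.mul (Nat.mul (Nat.land u53 M) (Nat.sub X (Nat.land u53 M))) 40)
    (Nat.add (Nat.mul (Nat.mul (Nat.land u54 M) (Nat.sub X (Nat.land u54 M))) 40)
    (Nat.add (Nat.mul (Nat.mul (Nat.land u55 M) (Nat.sub X (Nat.land u55 M))) 40)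
    (Nat.add (Nat.mul (Nat.mul (Nat.land u56 M) (Nat.sub X (Nat.land u56 M))) 40)
    (Nat.add (Nat.mul (Nat.mul (Nat.land u57 M) (Nat.sub X (Nat.land u57 M))) 40)
    (Nat.add (Nat.mul (Nat.mul (Nat.land u58 M) (Nat.sub X (Nat.land u58 M))) 40)
    (Nat.add (Nat.mul (Nat.mul (Nat.land u59 M) (Nat.sub X (Nat.land u59 M))) 40)
    (Nat.add (Nat.mul (Nat.mul (Nat.land u60 M) (Nat.sub X (Nat.land u60 M))) 40)
    (Nat.add (Nat.mul (Nat.mul (Nat.land u61 M) (Nat.sub X (Nat.land u61 M))) 40)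
    (Nat.add (Nat.mul (Nat.mul (Nat.land u62 M) (Nat.sub X (Nat.land u62 M))) 20)
    (Nat.add (Nat.mul (Nat.mul (Nat.land u63 M) (Nat.sub X (Nat.land u63 M))) 40)
    (Nat.add (Nat.mul (Nat.mul (Nat.land u64 M) (Nat.sub X (Nat.land u64 M))) 20)
    (Nat.add (Nat.mul (Nat.mul (Nat.land u65 M) (Nat.sub X (Nat.land u65 M))) 40)
    (Nat.add (Nat.mul (Nat.mul (Nat.land u66 M) (Nat.sub X (Nat.land u66 M))) 20)
    (Nat.add (Nat.mul (Nat.mul (Nat.land u67 M) (Nat.sub X (Nat.land u67 M))) 20)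
    (Nat.add (Nat.mul (Nat.mul (Nat.land u68 M) (Nat.sub X (Nat.land u68 M))) 40)
    (Nat.add (Nat.mul (Nat.mul (Nat.land u69 M) (Nat.sub X (Nat.land u69 M))) 40)
    (Nat.add (Nat.mul (Nat.mul (Nat.land u70 M) (Nat.sub X (Nat.land u70 M))) 40)
    (Nat.add (Nat.mul (Nat.mul (Nat.land u71 M) (Nat.sub X (Nat.land u71 M))) 20)
    (Nat.add (Nat.mul (Nat.mul (Nat.land u72 M) (Nat.sub X (Nat.land u72 M))) 20)
    (Nat.add (Nat.mul (Nat.mul (Nat.land u73 M) (Nat.sub X (Nat.land u73 M))) 40)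
    (Nat.add (Nat.mul (Nat.mul (Nat.land u74 M) (Nat.sub X (Nat.land u74 M))) 40)
    (Nat.add (Nat.mul (Nat.mul (Nat.land u75 M) (Nat.sub X (Nat.land u75 M))) 20)
    (Nat.add (Nat.mul (Nat.mul (Nat.land u76 M) (Nat.sub X (Nat.land u76 M))) 20)
    (Nat.add (Nat.mul (Nat.mul (Nat.land u77 M) (Nat.sub X (Nat.land u77 M))) 10)
    (Nat.add (Nat.mul (Nat.mul (Nat.land u78 M) (Nat.sub X (Nat.land u78 M))) 20)
    (Nat.add (Nat.mul (Nat.mul (Nat.land u79 M) (Nat.sub X (Nat.land u79 M))) 20)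
    (Nat.add (Nat.mul (Nat.mul (Nat.land u80 M) (Nat.sub X (Nat.land u80 M))) 20)
    (Nat.add (Nat.mul (Nat.mul (Nat.land u81 M) (Nat.sub X (Nat.land u81 M))) 10)
    0))))))))))))))))))))))))))))))))))))))))))))))))))))))))))))))))))))))))))))))))))

def sqB1 (z0 z1 z2 z3 z4 z5 z6 z7 z8 z9 z10 z11 z12 z13 : Nat) : Nat :=
  sqA1 (Nat.shiftLeft 1 164) (Nat.sub (Nat.shiftLeft 1 164) 1)
    z0
    (Nat.shiftRight z0 164)
    (Nat.shiftRight (Nat.shiftRight z0 164) 164)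
    (Nat.shiftRight (Nat.shiftRight (Nat.shiftRight z0 164) 164) 164)
    (Nat.shiftRight (Nat.shiftRight (Nat.shiftRight (Nat.shiftRight z0 164) 164) 164) 164)
    (Nat.shiftRight (Nat.shiftRight (Nat.shiftRight (Nat.shiftRight (Nat.shiftRight z0 164) 164) 164) 164) 164)
    z1
    (Nat.shiftRight z1 164)
    (Nat.shiftRight (Nat.shiftRight z1 164) 164)
    (Nat.shiftRight (Nat.shiftRight (Nat.shiftRight z1 164) 164) 164)
    (Nat.shiftRight (Nat.shiftRight (Nat.shiftRight (Nat.shiftRight z1 164) 164) 164) 164)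
    (Nat.shiftRight (Nat.shiftRight (Nat.shiftRight (Nat.shiftRight (Nat.shiftRight z1 164) 164) 164) 164) 164)
    z2
    (Nat.shiftRight z2 164)
    (Nat.shiftRight (Nat.shiftRight z2 164) 164)
    (Nat.shiftRight (Nat.shiftRight (Nat.shiftRight z2 164) 164) 164)
    (Nat.shiftRight (Nat.shiftRight (Nat.shiftRight (Nat.shiftRight z2 164) 164) 164) 164)
    (Nat.shiftRight (Nat.shiftRight (Nat.shiftRight (Nat.shiftRight (Nat.shiftRight z2 164) 164) 164) 164) 164)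
    z3
    (Nat.shiftRight z3 164)
    (Nat.shiftRight (Nat.shiftRight z3 164) 164)
    (Nat.shiftRight (Nat.shiftRight (Nat.shiftRight z3 164) 164) 164)
    (Nat.shiftRight (Nat.shiftRight (Nat.shiftRight (Nat.shiftRight z3 164) 164) 164) 164)
    (Nat.shiftRight (Nat.shiftRight (Nat.shiftRight (Nat.shiftRight (Nat.shiftRight z3 164) 164) 164) 164) 164)
    z4
    (Nat.shiftRight z4 164)
    (Nat.shiftRight (Nat.shiftRight z4 164) 164)
    (Nat.shiftRight (Nat.shiftRight (Nat.shiftRight z4 164) 164) 164)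
    (Nat.shiftRight (Nat.shiftRight (Nat.shiftRight (Nat.shiftRight z4 164) 164) 164) 164)
    (Nat.shiftRight (Nat.shiftRight (Nat.shiftRight (Nat.shiftRight (Nat.shiftRight z4 164) 164) 164) 164) 164)
    z5
    (Nat.shiftRight z5 164)
    (Nat.shiftRight (Nat.shiftRight z5 164) 164)
    (Nat.shiftRight (Nat.shiftRight (Nat.shiftRight z5 164) 164) 164)
    (Nat.shiftRight (Nat.shiftRight (Nat.shiftRight (Nat.shiftRight z5 164) 164) 164) 164)
    (Nat.shiftRight (Nat.shiftRight (Nat.shiftRight (Nat.shiftRight (Nat.shiftRight z5 164) 164) 164) 164) 164)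
    z6
    (Nat.shiftRight z6 164)
    (Nat.shiftRight (Nat.shiftRight z6 164) 164)
    (Nat.shiftRight (Nat.shiftRight (Nat.shiftRight z6 164) 164) 164)
    (Nat.shiftRight (Nat.shiftRight (Nat.shiftRight (Nat.shiftRight z6 164) 164) 164) 164)
    (Nat.shiftRight (Nat.shiftRight (Nat.shiftRight (Nat.shiftRight (Nat.shiftRight z6 164) 164) 164) 164) 164)
    z7
    (Nat.shiftRight z7 164)
    (Nat.shiftRight (Nat.shiftRight z7 164) 164)
    (Nat.shiftRight (Nat.shiftRight (Nat.shiftRight z7 164) 164) 164)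
    (Nat.shiftRight (Nat.shiftRight (Nat.shiftRight (Nat.shiftRight z7 164) 164) 164) 164)
    (Nat.shiftRight (Nat.shiftRight (Nat.shiftRight (Nat.shiftRight (Nat.shiftRight z7 164) 164) 164) 164) 164)
    z8
    (Nat.shiftRight z8 164)
    (Nat.shiftRight (Nat.shiftRight z8 164) 164)
    (Nat.shiftRight (Nat.shiftRight (Nat.shiftRight z8 164) 164) 164)
    (Nat.shiftRight (Nat.shiftRight (Nat.shiftRight (Nat.shiftRight z8 164) 164) 164) 164)
    (Nat.shiftRight (Nat.shiftRight (Nat.shiftRight (Nat.shiftRight (Nat.shiftRight z8 164) 164) 164) 164) 164)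
    z9
    (Nat.shiftRight z9 164)
    (Nat.shiftRight (Nat.shiftRight z9 164) 164)
    (Nat.shiftRight (Nat.shiftRight (Nat.shiftRight z9 164) 164) 164)
    (Nat.shiftRight (Nat.shiftRight (Nat.shiftRight (Nat.shiftRight z9 164) 164) 164) 164)
    (Nat.shiftRight (Nat.shiftRight (Nat.shiftRight (Nat.shiftRight (Nat.shiftRight z9 164) 164) 164) 164) 164)
    z10
    (Nat.shiftRight z10 164)
    (Nat.shiftRight (Nat.shiftRight z10 164) 164)
    (Nat.shiftRight (Nat.shiftRight (Nat.shiftRight z10 164) 164) 164)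
    (Nat.shiftRight (Nat.shiftRight (Nat.shiftRight (Nat.shiftRight z10 164) 164) 164) 164)
    (Nat.shiftRight (Nat.shiftRight (Nat.shiftRight (Nat.shiftRight (Nat.shiftRight z10 164) 164) 164) 164) 164)
    z11
    (Nat.shiftRight z11 164)
    (Nat.shiftRight (Nat.shiftRight z11 164) 164)
    (Nat.shiftRight (Nat.shiftRight (Nat.shiftRight z11 164) 164) 164)
    (Nat.shiftRight (Nat.shiftRight (Nat.shiftRight (Nat.shiftRight z11 164) 164) 164) 164)
    (Nat.shiftRight (Nat.shiftRight (Nat.shiftRight (Nat.shiftRight (Nat.shiftRight z11 164) 164) 164) 164) 164)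
    z12
    (Nat.shiftRight z12 164)
    (Nat.shiftRight (Nat.shiftRight z12 164) 164)
    (Nat.shiftRight (Nat.shiftRight (Nat.shiftRight z12 164) 164) 164)
    (Nat.shiftRight (Nat.shiftRight (Nat.shiftRight (Nat.shiftRight z12 164) 164) 164) 164)
    (Nat.shiftRight (Nat.shiftRight (Nat.shiftRight (Nat.shiftRight (Nat.shiftRight z12 164) 164) 164) 164) 164)
    z13
    (Nat.shiftRight z13 164)
    (Nat.shiftRight (Nat.shiftRight z13 164) 164)
    (Nat.shiftRight (Nat.shiftRight (Nat.shiftRight z13 164) 164) 164)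

def sqC1 (u : Nat) : Nat :=
  sqB1
    u
    (sh6 164 u)
    (sh6 164 (sh6 164 u))
    (sh6 164 (sh6 164 (sh6 164 u)))
    (sh6 164 (sh6 164 (sh6 164 (sh6 164 u))))
    (sh6 164 (sh6 164 (sh6 164 (sh6 164 (sh6 164 u)))))
    (sh6 164 (sh6 164 (sh6 164 (sh6 164 (sh6 164 (sh6 164 u))))))
    (sh6 164 (sh6 164 (sh6 164 (sh6 164 (sh6 164 (sh6 164 (sh6 164 u)))))))
    (sh6 164 (sh6 164 (sh6 164 (sh6 164 (sh6 164 (sh6 164 (sh6 164 (sh6 164 u))))))))
    (sh6 164 (sh6 164 (sh6 164 (sh6 164 (sh6 164 (sh6 164 (sh6 164 (sh6 164 (sh6 164 u)))))))))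
    (sh6 164 (sh6 164 (sh6 164 (sh6 164 (sh6 164 (sh6 164 (sh6 164 (sh6 164 (sh6 164 (sh6 164 u))))))))))
    (sh6 164 (sh6 164 (sh6 164 (sh6 164 (sh6 164 (sh6 164 (sh6 164 (sh6 164 (sh6 164 (sh6 164 (sh6 164 u)))))))))))
    (sh6 164 (sh6 164 (sh6 164 (sh6 164 (sh6 164 (sh6 164 (sh6 164 (sh6 164 (sh6 164 (sh6 164 (sh6 164 (sh6 164 u))))))))))))
    (sh6 164 (sh6 164 (sh6 164 (sh6 164 (sh6 164 (sh6 164 (sh6 164 (sh6 164 (sh6 164 (sh6 164 (sh6 164 (sh6 164 (sh6 164 u)))))))))))))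

noncomputable def sq1 (v : Nat) : Nat := sqC1 (Nat.add v (offs 164 (Nat.shiftLeft 1 (Nat.sub 164 1)) ch1))

theorem sq_eq1 : sq1 = sqF 164 ch1 := Eq.refl sq1

theorem side_ok1 : sideOK 10 164 mask cf10 ch1 = true := by decide +kernel

theorem cover : beqP (repL 10 6) (ch0 ++ (ch1 ++ [])) = true := by decide +kernel

theorem len_ok : (secL 10 6 0 []).length = 2850 := by decide +kernel

theorem wt_ok : (List.map Prod.snd (ch0 ++ (ch1 ++ []))).sum = 5700 := by decide +kernel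

end Vale.Agent.P348.A10_6
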