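import Vale.Agent.P348.KCore2
import Vale.Agent.P348.Poly

set_option maxRecDepth 1000000
set_option maxHeartbeats 0
set_option linter.all false

namespace Vale.Agent.P348.A9_7

def mask : Nat := nat_lit 988453239491281996827113219918981670157695341313098927169753965867869814287650197811877563035619365041748323516952066093769323854909158250974822518698217538378104538182420006032308458274671609817238426569627716577450570351458611976271173972973831501048163770016804490554372890061547069247380652564418385353553547412712273367664418651214515231222737219677996219957379691997680216731964095401754955256681299103769381917915690127495275597290546876449768740399195959349301054786258136127818339893684814822324166940551780296353572777882680501494268067689019045967615903790982149380285020971490513762340093032055061143195113808905717932538295678155002474097627389589080956530482501530836281742162105103210338842559363532248013851784745820419722315536341015313877473102298175265215152131611125928244776356324012008522562706737761090717002030342910750120524717095051875239805890108487208102529601830907106508153146983428631111430883903655497166813918092746654640506929152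

def KK : Type :=
    Nat → Nat → Nat → Nat → Nat → Nat → Nat → Nat → Nat → Nat → Nat → Nat → Nat → Nat → Nat → Nat →
    Nat → Nat → Nat → Nat → Nat → Nat → Nat → Nat → Nat → Nat → Nat → Nat → Nat → Nat → Nat → Nat →
    Nat → Nat → Nat → Nat → Nat → Nat → Nat → Nat → Nat → Nat → Nat → Nat → Nat → Nat → Nat → Nat →
    Nat → Nat → Nat → Nat → Nat → Nat → Nat → Nat → Nat → Nat → Nat → Nat → Nat → Nat → Nat → Nat →
    Nat → Nat → Nat → Nat → Nat → Nat → Nat → Nat → Nat → Nat → Nat → Nat → Nat → Nat → Nat → Nat →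
    Nat → Nat → Nat → Nat → Nat → Nat → Nat → Nat → Nat → Nat → Nat → Nat → Nat → Nat → Nat → Nat →
    Nat → Nat → Nat → Nat → Nat → Nat → Nat → Nat → Nat → Nat → Nat → Nat → Nat → Nat → Nat → Nat →
    Nat → Nat → Nat → Nat → Nat → Nat → Nat → Nat → Nat → Nat → Nat → Nat → Nat → Nat → Nat → Nat →
    Nat → Nat → Nat → Nat → Nat → Nat → Nat → Nat → Nat → Nat → Nat → Nat → Nat → Nat → Nat → Nat →
    Nat → Nat → Nat → Nat → Nat → Nat → Nat → Nat → Nat → Nat → Nat → Nat → Nat → Nat → Nat → Nat →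
    Nat → Nat → Nat → Nat → Nat → Nat → Nat → Nat → Nat → Nat → Nat → Nat → Nat → Nat → Nat → Nat →
    Nat → Nat → Nat → Nat → Nat → Nat → Nat → Nat → Nat → Nat → Nat → Nat → Nat → Nat → Nat → Nat →
    Nat → Nat → Nat → Nat → Nat → Nat → Nat → Nat → Nat → Nat → Nat → Nat → Nat → Nat → Nat → Nat →
    Nat → Nat → Nat → Nat → Nat → Nat → Nat → Nat → Nat → Nat → Nat → Nat → Nat → Nat → Nat → Nat →
    Nat → Nat → Nat → Nat → Nat → Nat → Nat → Nat → Nat → Nat → Nat → Nat → Nat → Nat → Nat → Nat →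
    Nat → Nat → Nat → Nat → Nat → Nat → Nat → Nat → Nat → Nat → Nat → Nat → Nat → Nat → Nat → Nat →
    Nat → Nat → Nat → Nat → Nat → Nat → Nat → Nat → Nat → Nat → Nat → Nat → Nat → Nat → Nat → Nat →
    Nat → Nat → Nat → Nat → Nat → Nat → Nat → Nat → Nat → Nat → Nat → Nat → Nat → Nat → Nat → Nat →
    Nat → Nat → Nat → Nat → Nat → Nat → Nat → Nat → Nat → Nat → Nat → Nat → Nat → Nat → Nat → Nat →
    Nat → Nat → Nat → Nat → Nat → Nat → Nat → Nat → Nat → Nat → Nat → Nat → Nat → Nat → Nat → Nat →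
    Nat → Nat → Nat → Nat → Nat → Nat → Nat → Nat → Nat → Nat → Nat → Nat → Nat → Nat → Nat → Nat →
    Nat → Nat → Nat → Nat → Nat → Nat → Nat → Nat → Nat → Nat → Nat → Nat → Nat → Nat → Nat → Nat →
    Nat → Nat → Nat → Nat → Nat → Nat → Nat → Nat → Nat → Nat → Nat → Nat → Nat → Nat → Nat → Nat →
    Nat → Nat → Nat → Nat → Nat → Nat → Nat → Nat → Nat → Nat → Nat → Nat → Nat → Nat → Nat → Nat →
    Nat → Nat → Nat → Nat → Nat → Nat → Nat → Nat → Nat → Nat → Nat → Nat → Nat → Nat → Nat → Nat →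
    Nat → Nat → Nat → Nat → Nat → Nat → Nat → Nat → Nat → Nat → Nat → Nat → Nat → Nat → Nat → Nat →
    Nat → Nat → Nat → Nat → Nat → Nat → Nat → Nat → Nat → Nat → Nat → Nat → Nat → Nat → Nat → Nat →
    Nat → Nat → Nat → Nat → Nat → Nat → Nat → Nat → Nat → Nat → Nat → Nat → Nat → Nat → Nat → Nat →
    Nat → Nat → Nat → Nat → Nat → Nat → Nat → Nat → Nat → Nat → Nat → Nat → Nat → Nat → Nat → Nat →
    Nat → Nat → Nat → Nat → Nat → Nat → Nat → Nat → Nat → Nat → Nat → Nat → Nat → Nat → Nat → Nat →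
    Nat → Nat → Nat → Nat → Nat → Nat → Nat → Nat → Nat → Nat → Nat → Nat → Nat → Nat → Nat → Nat →
    Nat → Nat → Nat → Nat → Nat → Nat → Nat → Nat → Nat → Nat → Nat → Nat → Nat → Nat → Nat → Nat →
    Nat → Nat → Nat → Nat → Nat → Nat → Nat → Nat → Nat → Nat → Nat → Nat → Nat → Nat → Nat → Nat →
    Nat → Nat → Nat → Nat → Nat → Nat → Nat → Nat → Nat → Nat → Nat → Nat → Nat → Nat → Nat → Nat →
    Nat → Nat → Nat → Nat → Nat → Nat → Nat → Nat → Nat → Nat → Nat → Nat → Nat → Nat → Nat → Nat →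
    Nat → Nat → Nat → Nat → Nat → Nat → Nat → Nat → Nat → Nat → Nat → Nat → Nat → Nat → Nat → Nat →
    Nat → Nat → Nat → Nat → Nat → Nat → Nat → Nat → Nat → Nat → Nat → Nat → Nat → Nat → Nat → Nat →
    Nat → Nat → Nat → Nat → Nat → Nat → Nat → Nat → Nat → Nat → Nat → Nat → Nat → Nat → Nat → Nat →
    Nat → Nat → Nat → Nat → Nat → Nat → Nat → Nat → Nat → Nat → Nat → Nat → Nat → Nat → Nat → Nat →
    Nat → Nat → Nat → Nat → Nat → Nat → Nat → Nat → Nat → Nat → Nat → Nat → Nat → Nat → Nat → Nat →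
    Nat → Nat → Nat → Nat → Nat → Nat → Nat → Nat → Nat → Nat → Nat → Nat → Nat → Nat → Nat → Nat →
    Nat → Nat → Nat → Nat → Nat → Nat → Nat → Nat → Nat → Nat → Nat → Nat → Nat → Nat → Nat → Nat →
    Nat → Nat → Nat → Nat → Nat → Nat → Nat → Nat → Nat → Nat → Nat → Nat → Nat → Nat → Nat → Nat →
    Nat → Nat → Nat → Nat → Nat → Nat → Nat → Nat → Nat → Nat → Nat → Nat → Nat → Nat → Nat → Nat →
    Nat → Nat → Nat → Nat → Nat → Nat → Nat → Nat → Nat → Nat → Nat → Nat → Nat → Nat → Nat → Nat →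
    Nat → Nat → Nat → Nat → Nat → Nat → Nat → Nat → Nat → Nat → Nat → Nat → Nat → Nat → Nat → Nat →
    Nat → Nat → Nat → Nat → Nat → Nat → Nat → Nat → Nat → Nat → Nat → Nat → Nat → Nat → Nat → Nat →
    Nat → Nat → Nat → Nat → Nat → Nat → Nat → Nat → Nat → Nat → Nat → Nat → Nat → Nat → Nat → Nat →
    Nat → Nat → Nat → Nat → Nat → Nat → Nat → Nat → Nat → Nat → Nat → Nat → Nat → Nat → Nat → Nat →
    Nat → Nat → Nat → Nat → Nat → Nat → Nat → Nat → Nat → Nat → Nat → Nat → Nat → Nat → Nat → Nat →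
    Nat → Nat → Nat → Nat → Nat → Nat → Nat → Nat → Nat → Nat → Nat → Nat → Nat → Nat → Nat → Nat →
    Nat → Nat → Nat → Nat → Nat → Nat → Nat → Nat → Nat → Nat → Nat → Nat → Nat → Nat → Nat → Nat →
    Nat → Nat → Nat → Nat → Nat → Nat → Nat → Nat → Nat → Nat → Nat → Nat → Nat → Nat → Nat → Nat →
    Nat → Nat → Nat → Nat → Nat → Nat → Nat → Nat → Nat → Nat → Nat → Nat → Nat → Nat → Nat → Nat →
    Nat → Nat → Nat → Nat → Nat → Nat → Nat → Nat → Nat → Nat → Nat → Nat → Nat → Nat → Nat → Nat →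
    Nat → Nat → Nat → Nat → Nat → Nat → Nat → Nat → Nat → Nat → Nat → Nat → Nat → Nat → Nat → Nat →
    Nat → Nat → Nat → Nat → Nat → Nat → Nat → Nat → Nat → Nat → Nat → Nat → Nat → Nat → Nat → Nat →
    Nat → Nat → Nat → Nat → Nat → Nat → Nat → Nat → Nat → Nat → Nat → Nat → Nat → Nat → Nat → Nat →
    Nat → Nat → Nat → Nat → Nat → Nat → Nat → Nat → Nat → Nat → Nat → Nat → Nat → Nat → Nat → Nat →
    Nat → Nat → Nat → Nat → Nat → Nat → Nat → Nat → Nat → Nat → Nat → Nat → Nat → Nat → Nat → Nat →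
    Nat → Nat → Nat → Nat → Nat → Nat → Nat → Nat → Nat → Nat → Nat → Nat → Nat → Nat → Nat → Nat →
    Nat → Nat → Nat → Nat → Nat → Nat → Nat → Nat → Nat → Nat → Nat → Nat → Nat → Nat → Nat → Nat →
    Nat → Nat → Nat → Nat → Nat → Nat → Nat → Nat → Nat → Nat → Nat → Nat → Nat → Nat → Nat → Nat →
    Nat → Nat → Nat → Nat → Nat → Nat → Nat → Nat → Nat → Nat → Nat → Nat → Nat → Nat → Nat → Nat →
    Nat → Nat → Nat → Nat → Nat → Nat → Nat → Nat → Nat → Nat → Nat → Nat → Nat → Nat → Nat → Nat →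
    Nat → Nat → Nat → Nat → Nat → Nat → Nat → Nat → Nat → Nat → Nat → Nat → Nat → Nat → Nat → Nat →
    Nat → Nat → Nat → Nat → Nat → Nat → Nat → Nat → Nat → Nat → Nat → Nat → Nat → Nat → Nat → Nat →
    Nat → Nat → Nat → Nat → Nat → Nat → Nat → Nat → Nat → Nat → Nat → Nat → Nat → Nat → Nat → Nat →
    Nat → Nat → Nat → Nat → Nat → Nat → Nat → Nat → Nat → Nat → Nat → Nat → Nat → Nat → Nat → Nat →
    Nat → Nat → Nat → Nat → Nat → Nat → Nat → Nat → Nat → Nat → Nat → Nat → Nat → Nat → Nat → Nat →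
    Nat → Nat → Nat → Nat → Nat → Nat → Nat → Nat → Nat → Nat → Nat → Nat → Nat → Nat → Nat → Nat →
    Nat → Nat → Nat → Nat → Nat → Nat → Nat → Nat → Nat → Nat → Nat → Nat → Nat → Nat → Nat → Nat →
    Nat → Nat → Nat → Nat → Nat → Nat → Nat → Nat → Nat → Nat → Nat → Nat → Nat → Nat → Nat → Nat →
    Nat → Nat → Nat → Nat → Nat → Nat → Nat → Nat → Nat → Nat → Nat → Nat → Nat → Nat → Nat → Nat →
    Nat → Nat → Nat → Nat → Nat → Nat → Nat → Nat → Nat → Nat → Nat → Nat → Nat → Nat → Nat → Nat →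
    Nat → Nat → Nat → Nat → Nat → Nat → Nat → Nat → Nat → Nat → Nat → Nat → Nat → Nat → Nat → Nat →
    Nat → Nat → Nat → Nat → Nat → Nat → Nat → Nat → Nat → Nat → Nat → Nat → Nat → Nat → Nat → Nat →
    Nat → Nat → Nat → Nat → Nat → Nat → Nat → Nat → Nat → Nat → Nat → Nat → Nat → Nat → Nat → Nat →
    Nat → Nat → Nat → Nat → Nat → Nat → Nat → Nat → Nat → Nat → Nat → Nat → Nat → Nat → Nat → Nat →
    Nat → Nat → Nat → Nat → Nat → Nat → Nat → Nat → Nat → Nat → Nat → Nat → Nat → Nat → Nat → Nat →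
    Nat → Nat → Nat → Nat → Nat → Nat → Nat → Nat → Nat → Nat → Nat → Nat → Nat → Nat → Nat → Nat →
    Nat → Nat → Nat → Nat → Nat → Nat → Nat → Nat → Nat → Nat → Nat → Nat → Nat → Nat → Nat → Nat →
    Nat → Nat → Nat → Nat → Nat → Nat → Nat → Nat → Nat → Nat → Nat → Nat → Nat → Nat → Nat → Nat →
    Nat → Nat → Nat → Nat → Nat → Nat → Nat → Nat → Nat → Nat → Nat → Nat → Nat → Nat → Nat → Nat →
    Nat → Nat → Nat → Nat → Nat → Nat → Nat → Nat → Nat → Nat → Nat → Nat → Nat → Nat → Nat → Nat →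
    Nat → Nat → Nat → Nat → Nat → Nat → Nat → Nat → Nat → Nat → Nat → Nat → Nat → Nat → Nat → Nat →
    Nat → Nat → Nat → Nat → Nat → Nat → Nat → Nat → Nat → Nat → Nat → Nat → Nat → Nat → Nat → Nat →
    Nat → Nat → Nat → Nat → Nat → Nat → Nat → Nat → Nat → Nat → Nat → Nat → Nat → Nat → Nat → Nat →
    Nat → Nat → Nat → Nat → Nat → Nat → Nat → Nat → Nat → Nat → Nat → Nat → Nat → Nat → Nat → Nat →
    Nat → Nat → Nat → Nat → Nat → Nat → Nat → Nat → Nat → Nat → Nat → Nat → Nat → Nat → Nat → Nat →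
    Nat → Nat → Nat → Nat → Nat → Nat → Nat → Nat → Nat → Nat → Nat → Nat → Nat → Nat → Nat → Nat →
    Nat → Nat → Nat → Nat → Nat → Nat → Nat → Nat → Nat → Nat → Nat → Nat → Nat → Nat → Nat → Nat →
    Nat → Nat → Nat → Nat → Nat → Nat → Nat → Nat → Nat → Nat → Nat → Nat → Nat → Nat → Nat → Nat →
    Nat → Nat → Nat → Nat → Nat → Nat → Nat → Nat → Nat → Nat → Nat → Nat → Nat → Nat → Nat → Nat →
    Nat → Nat → Nat → Nat → Nat → Nat → Nat → Nat → Nat → Nat → Nat → Nat → Nat → Nat → Nat → Nat →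
    Nat → Nat → Nat → Nat → Nat → Nat → Nat → Nat → Nat → Nat → Nat → Nat → Nat → Nat → Nat → Nat →
    Nat → Nat → Nat → Nat → Nat → Nat → Nat → Nat → Nat → Nat → Nat → Nat → Nat → Nat → Nat → Nat →
    Nat → Nat → Nat → Nat → Nat → Nat → Nat → Nat → Nat → Nat → Nat → Nat → Nat → Nat → Nat → Nat →
    Nat → Nat → Nat → Nat → Nat → Nat → Nat → Nat → Nat → Nat → Nat → Nat → Nat → Nat → Nat → Nat →
    Nat → Nat → Nat → Nat → Nat → Nat → Nat → Nat → Nat → Nat → Nat → Nat → Nat → Nat → Nat → Nat →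
    Nat → Nat → Nat → Nat → Nat → Nat → Nat → Nat → Nat → Nat → Nat → Nat → Nat → Nat → Nat → Nat →
    Nat → Nat → Nat → Nat → Nat → Nat → Nat → Nat → Nat → Nat → Nat → Nat → Nat → Nat → Nat → Nat →
    Nat → Nat → Nat → Nat → Nat → Nat → Nat → Nat → Nat → Nat → Nat → Nat → Nat → Nat → Nat → Nat →
    Nat → Nat → Nat → Nat → Nat → Nat → Nat → Nat → Nat → Nat → Nat → Nat → Nat → Nat → Nat → Nat →
    Nat → Nat → Nat → Nat → Nat → Nat → Nat → Nat → Nat → Nat → Nat → Nat → Nat → Nat → Nat → Nat →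
    Nat → Nat → Nat → Nat → Nat → Nat → Nat → Nat → Nat → Nat → Nat → Nat → Nat → Nat → Nat → Nat →
    Nat → Nat → Nat → Nat → Nat → Nat → Nat → Nat → Nat → Nat → Nat → Nat → Nat → Nat → Nat → Nat →
    Nat → Nat → Nat → Nat → Nat → Nat → Nat → Nat → Nat → Nat → Nat → Nat → Nat → Nat → Nat → Nat →
    Nat → Nat → Nat → Nat → Nat → Nat → Nat → Nat → Nat → Nat → Nat → Nat → Nat → Nat → Nat → Nat →
    Nat → Nat → Nat → Nat → Nat → Nat → Nat → Nat → Nat → Nat → Nat → Nat → Nat → Nat → Nat → Nat →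
    Nat → Nat → Nat → Nat → Nat → Nat → Nat → Nat → Nat → Nat → Nat → Nat → Nat → Nat → Nat → Nat →
    Nat → Nat → Nat → Nat → Nat → Nat → Nat → Nat → Nat → Nat → Nat → Nat → Nat → Nat → Nat → Nat →
    Nat → Nat → Nat → Nat → Nat → Nat → Nat → Nat → Nat → Nat → Nat → Nat → Nat → Nat → Nat → Nat →
    Nat → Nat → Nat → Nat → Nat → Nat → Nat → Nat → Nat → Nat → Nat → Nat → Nat → Nat → Nat → Nat →
    Nat → Nat → Nat → Nat → Nat → Nat → Nat → Nat → Nat → Nat → Nat → Nat → Nat → Nat → Nat → Nat →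
    Nat → Nat → Nat → Nat → Nat → Nat → Nat → Nat → Nat → Nat → Nat → Nat → Nat → Nat → Nat → Nat →
    Nat → Nat → Nat → Nat → Nat → Nat → Nat → Nat → Nat → Nat → Nat → Nat → Nat → Nat → Nat → Nat →
    Nat → Nat → Nat → Nat → Nat → Nat → Nat → Nat → Nat → Nat → Nat → Nat → Nat → Nat → Nat → Nat →
    Nat → Nat → Nat → Nat → Nat → Nat → Nat → Nat → Nat → Nat → Nat → Nat → Nat → Nat → Nat → Nat →
    Nat → Nat → Nat → Nat → Nat → Nat → Nat → Nat → Nat → Nat → Nat → Nat → Nat → Nat → Nat → Nat →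
    Nat → Nat → Nat → Nat → Nat → Nat → Nat → Nat → Nat → Nat → Nat → Nat → Nat → Nat → Nat → Nat →
    Nat → Nat → Nat → Nat → Nat → Nat → Nat → Nat → Nat → Nat → Nat → Nat → Nat → Nat → Nat → Nat →
    Nat → Nat → Nat → Nat → Nat → Nat → Nat → Nat → Nat → Nat → Nat → Nat → Nat → Nat → Nat → Nat →
    Nat → Nat → Nat → Nat → Nat → Nat → Nat → Nat → Nat → Nat → Nat → Nat → Nat → Nat → Nat → Nat →
    Nat → Nat → Nat → Nat → Nat → Nat → Nat → Nat → Nat → Nat → Nat → Nat → Nat → Nat → Nat → Nat →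
    Nat → Nat → Nat → Nat → Nat → Nat → Nat → Nat → Nat → Nat → Nat → Nat → Nat → Nat → Nat → Nat →
    Nat → Nat → Nat → Nat → Nat → Nat → Nat → Nat → Nat → Nat → Nat → Nat → Nat → Nat → Nat → Nat →
    Nat → Nat → Nat → Nat → Nat → Nat → Nat → Nat → Nat → Nat → Nat → Nat → Nat → Nat → Nat → Nat →
    Nat → Nat → Nat → Nat → Nat → Nat → Nat → Nat → Nat → Nat → Nat → Nat → Nat → Nat → Nat → Nat →
    Nat → Nat → Nat → Nat → Nat → Nat → Nat → Nat → Nat → Nat → Nat → Nat → Nat → Nat → Nat → Nat →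
    Nat → Nat → Nat → Nat → Nat → Nat → Nat → Nat → Nat → Nat → Nat → Nat → Nat → Nat → Nat → Nat →
    Nat → Nat → Nat → Nat → Nat → Nat → Nat → Nat → Nat → Nat → Nat → Nat → Nat → Nat → Nat → Nat →
    Nat → Nat → Nat → Nat → Nat → Nat → Nat → Nat → Nat → Nat → Nat → Nat → Nat → Nat → Nat → Nat →
    Nat → Nat → Nat → Nat → Nat → Nat → Nat → Nat → Nat → Nat → Nat → Nat → Nat → Nat → Nat → Nat →
    Nat → Nat → Nat → Nat → Nat → Nat → Nat → Nat → Nat → Nat → Nat → Nat → Nat → Nat → Nat → Nat →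
    Nat → Nat → Nat → Nat → Nat → Nat → Nat → Nat → Nat → Nat → Nat → Nat → Nat → Nat → Nat → Nat →
    Nat → Nat → Nat → Nat → Nat → Nat → Nat → Nat → Nat → Nat → Nat → Nat → Nat → Nat → Nat → Nat →
    Nat → Nat → Nat → Nat → Nat → Nat → Nat → Nat → Nat → Nat → Nat → Nat → Nat → Nat → Nat → Nat →
    Nat → Nat → Nat → Nat → Nat → Nat → Nat → Nat → Nat → Nat → Nat → Nat → Nat → Nat → Nat → Nat →
    Nat → Nat → Nat → Nat → Nat → Nat → Nat → Nat → Nat → Nat → Nat → Nat → Nat → Nat → Nat → Nat →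
    Nat → Nat → Nat → Nat → Nat → Nat → Nat → Nat → Nat → Nat → Nat → Nat → Nat → Nat → Nat → Nat →
    Nat → Nat → Nat → Nat → Nat → Nat → Nat → Nat → Nat → Nat → Nat → Nat → Nat → Nat → Nat → Nat →
    Nat → Nat → Nat → Nat → Nat → Nat → Nat → Nat → Nat → Nat → Nat → Nat → Nat → Nat → Nat → Nat →
    Nat → Nat → Nat → Nat → Nat → Nat → Nat → Nat → Nat → Nat → Nat → Nat → Nat → Nat → Nat → Nat →
    Bool

noncomputable def cd0 : List Spec :=
  [Spec.mk (nat_lit 53) (nat_lit 0) [] (nat_lit 0) [] false,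
   Spec.mk (nat_lit 71) (nat_lit 0) [] (nat_lit 0) [] false,
   Spec.mk (nat_lit 77) (nat_lit 0) [] (nat_lit 0) [] false,
   Spec.mk (nat_lit 79) (nat_lit 0) [] (nat_lit 0) [] false,
   Spec.mk (nat_lit 107) (nat_lit 0) [] (nat_lit 0) [] false,
   Spec.mk (nat_lit 125) (nat_lit 0) [] (nat_lit 0) [] false,
   Spec.mk (nat_lit 131) (nat_lit 0) [] (nat_lit 0) [] false,
   Spec.mk (nat_lit 133) (nat_lit 0) [] (nat_lit 0) [] false,
   Spec.mk (nat_lit 143) (nat_lit 0) [] (nat_lit 0) [] false,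
   Spec.mk (nat_lit 149) (nat_lit 0) [] (nat_lit 0) [] false,
   Spec.mk (nat_lit 151) (nat_lit 0) [] (nat_lit 0) [] false,
   Spec.mk (nat_lit 155) (nat_lit 0) [] (nat_lit 0) [] false,
   Spec.mk (nat_lit 157) (nat_lit 0) [] (nat_lit 0) [] false,
   Spec.mk (nat_lit 159) (nat_lit 0) [] (nat_lit 0) [] false,
   Spec.mk (nat_lit 179) (nat_lit 0) [] (nat_lit 0) [] false,
   Spec.mk (nat_lit 185) (nat_lit 0) [] (nat_lit 0) [] false,
   Spec.mk (nat_lit 187) (nat_lit 0) [] (nat_lit 0) [] false,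
   Spec.mk (nat_lit 197) (nat_lit 0) [] (nat_lit 0) [] false,
   Spec.mk (nat_lit 203) (nat_lit 0) [] (nat_lit 0) [] false,
   Spec.mk (nat_lit 205) (nat_lit 0) [] (nat_lit 0) [] false,
   Spec.mk (nat_lit 209) (nat_lit 0) [] (nat_lit 0) [] false,
   Spec.mk (nat_lit 211) (nat_lit 0) [] (nat_lit 0) [] false,
   Spec.mk (nat_lit 213) (nat_lit 0) [] (nat_lit 0) [] false,
   Spec.mk (nat_lit 221) (nat_lit 0) [] (nat_lit 0) [] false,
   Spec.mk (nat_lit 223) (nat_lit 0) [] (nat_lit 0) [] false,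
   Spec.mk (nat_lit 227) (nat_lit 0) [] (nat_lit 0) [] false,
   Spec.mk (nat_lit 229) (nat_lit 0) [] (nat_lit 0) [] false,
   Spec.mk (nat_lit 231) (nat_lit 0) [] (nat_lit 0) [] false,
   Spec.mk (nat_lit 235) (nat_lit 0) [] (nat_lit 0) [] false,
   Spec.mk (nat_lit 237) (nat_lit 0) [] (nat_lit 0) [] false,
   Spec.mk (nat_lit 269) (nat_lit 0) [] (nat_lit 0) [] false,
   Spec.mk (nat_lit 287) (nat_lit 0) [] (nat_lit 0) [] false,
   Spec.mk (nat_lit 293) (nat_lit 0) [] (nat_lit 0) [] false,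
   Spec.mk (nat_lit 295) (nat_lit 0) [] (nat_lit 0) [] false,
   Spec.mk (nat_lit 305) (nat_lit 0) [] (nat_lit 0) [] false,
   Spec.mk (nat_lit 311) (nat_lit 0) [] (nat_lit 0) [] false,
   Spec.mk (nat_lit 313) (nat_lit 0) [] (nat_lit 0) [] false,
   Spec.mk (nat_lit 317) (nat_lit 0) [] (nat_lit 0) [] false,
   Spec.mk (nat_lit 319) (nat_lit 0) [] (nat_lit 0) [] false,
   Spec.mk (nat_lit 321) (nat_lit 0) [] (nat_lit 0) [] false,
   Spec.mk (nat_lit 341) (nat_lit 0) [] (nat_lit 0) [] false,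
   Spec.mk (nat_lit 347) (nat_lit 0) [] (nat_lit 0) [] false,
   Spec.mk (nat_lit 349) (nat_lit 0) [] (nat_lit 0) [] false,
   Spec.mk (nat_lit 359) (nat_lit 0) [] (nat_lit 0) [] false,
   Spec.mk (nat_lit 365) (nat_lit 0) [] (nat_lit 0) [] false,
   Spec.mk (nat_lit 367) (nat_lit 0) [] (nat_lit 0) [] false,
   Spec.mk (nat_lit 371) (nat_lit 0) [] (nat_lit 0) [] false,
   Spec.mk (nat_lit 373) (nat_lit 0) [] (nat_lit 0) [] false,
   Spec.mk (nat_lit 375) (nat_lit 0) [] (nat_lit 0) [] false,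
   Spec.mk (nat_lit 383) (nat_lit 0) [] (nat_lit 0) [] false,
   Spec.mk (nat_lit 385) (nat_lit 0) [] (nat_lit 0) [] false,
   Spec.mk (nat_lit 389) (nat_lit 0) [] (nat_lit 0) [] false,
   Spec.mk (nat_lit 391) (nat_lit 0) [] (nat_lit 0) [] false,
   Spec.mk (nat_lit 393) (nat_lit 0) [] (nat_lit 0) [] false,
   Spec.mk (nat_lit 397) (nat_lit 0) [] (nat_lit 0) [] false,
   Spec.mk (nat_lit 399) (nat_lit 0) [] (nat_lit 0) [] false,
   Spec.mk (nat_lit 413) (nat_lit 0) [] (nat_lit 0) [] false,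
   Spec.mk (nat_lit 419) (nat_lit 0) [] (nat_lit 0) [] false,
   Spec.mk (nat_lit 421) (nat_lit 0) [] (nat_lit 0) [] false,
   Spec.mk (nat_lit 425) (nat_lit 0) [] (nat_lit 0) [] false]

noncomputable def cd1 : List Spec :=
  [Spec.mk (nat_lit 427) (nat_lit 0) [] (nat_lit 0) [] false,
   Spec.mk (nat_lit 429) (nat_lit 0) [] (nat_lit 0) [] false,
   Spec.mk (nat_lit 437) (nat_lit 0) [] (nat_lit 0) [] false,
   Spec.mk (nat_lit 439) (nat_lit 0) [] (nat_lit 0) [] false,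
   Spec.mk (nat_lit 443) (nat_lit 0) [] (nat_lit 0) [] false,
   Spec.mk (nat_lit 445) (nat_lit 0) [] (nat_lit 0) [] false,
   Spec.mk (nat_lit 447) (nat_lit 0) [] (nat_lit 0) [] false,
   Spec.mk (nat_lit 451) (nat_lit 0) [] (nat_lit 0) [] false,
   Spec.mk (nat_lit 453) (nat_lit 0) [] (nat_lit 0) [] false,
   Spec.mk (nat_lit 461) (nat_lit 0) [] (nat_lit 0) [] false,
   Spec.mk (nat_lit 463) (nat_lit 0) [] (nat_lit 0) [] false,
   Spec.mk (nat_lit 465) (nat_lit 0) [] (nat_lit 0) [] false,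
   Spec.mk (nat_lit 469) (nat_lit 0) [] (nat_lit 0) [] false,
   Spec.mk (nat_lit 471) (nat_lit 0) [] (nat_lit 0) [] false,
   Spec.mk (nat_lit 477) (nat_lit 0) [] (nat_lit 0) [] false,
   Spec.mk (nat_lit 503) (nat_lit 0) [] (nat_lit 0) [] false,
   Spec.mk (nat_lit 509) (nat_lit 0) [] (nat_lit 0) [] false,
   Spec.mk (nat_lit 511) (nat_lit 0) [] (nat_lit 0) [] false,
   Spec.mk (nat_lit 521) (nat_lit 0) [] (nat_lit 0) [] false,
   Spec.mk (nat_lit 527) (nat_lit 0) [] (nat_lit 0) [] false,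
   Spec.mk (nat_lit 529) (nat_lit 0) [] (nat_lit 0) [] false,
   Spec.mk (nat_lit 533) (nat_lit 0) [] (nat_lit 0) [] false,
   Spec.mk (nat_lit 535) (nat_lit 0) [] (nat_lit 0) [] false,
   Spec.mk (nat_lit 537) (nat_lit 0) [] (nat_lit 0) [] false,
   Spec.mk (nat_lit 545) (nat_lit 0) [] (nat_lit 0) [] false,
   Spec.mk (nat_lit 547) (nat_lit 0) [] (nat_lit 0) [] false,
   Spec.mk (nat_lit 551) (nat_lit 0) [] (nat_lit 0) [] false,
   Spec.mk (nat_lit 553) (nat_lit 0) [] (nat_lit 0) [] false,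
   Spec.mk (nat_lit 555) (nat_lit 0) [] (nat_lit 0) [] false,
   Spec.mk (nat_lit 559) (nat_lit 0) [] (nat_lit 0) [] false,
   Spec.mk (nat_lit 561) (nat_lit 0) [] (nat_lit 0) [] false,
   Spec.mk (nat_lit 575) (nat_lit 0) [] (nat_lit 0) [] false,
   Spec.mk (nat_lit 581) (nat_lit 0) [] (nat_lit 0) [] false,
   Spec.mk (nat_lit 583) (nat_lit 0) [] (nat_lit 0) [] false,
   Spec.mk (nat_lit 587) (nat_lit 0) [] (nat_lit 0) [] false,
   Spec.mk (nat_lit 589) (nat_lit 0) [] (nat_lit 0) [] false,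
   Spec.mk (nat_lit 591) (nat_lit 0) [] (nat_lit 0) [] false,
   Spec.mk (nat_lit 599) (nat_lit 0) [] (nat_lit 0) [] false,
   Spec.mk (nat_lit 601) (nat_lit 0) [] (nat_lit 0) [] false,
   Spec.mk (nat_lit 605) (nat_lit 0) [] (nat_lit 0) [] false,
   Spec.mk (nat_lit 607) (nat_lit 0) [] (nat_lit 0) [] false,
   Spec.mk (nat_lit 609) (nat_lit 0) [] (nat_lit 0) [] false,
   Spec.mk (nat_lit 613) (nat_lit 0) [] (nat_lit 0) [] false,
   Spec.mk (nat_lit 615) (nat_lit 0) [] (nat_lit 0) [] false,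
   Spec.mk (nat_lit 623) (nat_lit 0) [] (nat_lit 0) [] false,
   Spec.mk (nat_lit 625) (nat_lit 0) [] (nat_lit 0) [] false,
   Spec.mk (nat_lit 627) (nat_lit 0) [] (nat_lit 0) [] false,
   Spec.mk (nat_lit 631) (nat_lit 0) [] (nat_lit 0) [] false,
   Spec.mk (nat_lit 633) (nat_lit 0) [] (nat_lit 0) [] false,
   Spec.mk (nat_lit 639) (nat_lit 0) [] (nat_lit 0) [] false,
   Spec.mk (nat_lit 653) (nat_lit 0) [] (nat_lit 0) [] false,
   Spec.mk (nat_lit 655) (nat_lit 0) [] (nat_lit 0) [] false,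
   Spec.mk (nat_lit 659) (nat_lit 0) [] (nat_lit 0) [] false,
   Spec.mk (nat_lit 661) (nat_lit 0) [] (nat_lit 0) [] false,
   Spec.mk (nat_lit 663) (nat_lit 0) [] (nat_lit 0) [] false,
   Spec.mk (nat_lit 667) (nat_lit 0) [] (nat_lit 0) [] false,
   Spec.mk (nat_lit 669) (nat_lit 0) [] (nat_lit 0) [] false,
   Spec.mk (nat_lit 677) (nat_lit 0) [] (nat_lit 0) [] false,
   Spec.mk (nat_lit 679) (nat_lit 0) [] (nat_lit 0) [] false,
   Spec.mk (nat_lit 681) (nat_lit 0) [] (nat_lit 0) [] false]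

noncomputable def cd2 : List Spec :=
  [Spec.mk (nat_lit 685) (nat_lit 0) [] (nat_lit 0) [] false,
   Spec.mk (nat_lit 687) (nat_lit 0) [] (nat_lit 0) [] false,
   Spec.mk (nat_lit 693) (nat_lit 0) [] (nat_lit 0) [] false,
   Spec.mk (nat_lit 703) (nat_lit 0) [] (nat_lit 0) [] false,
   Spec.mk (nat_lit 705) (nat_lit 0) [] (nat_lit 0) [] false,
   Spec.mk (nat_lit 711) (nat_lit 0) [] (nat_lit 0) [] false,
   Spec.mk (nat_lit 755) (nat_lit 0) [] (nat_lit 0) [] false,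
   Spec.mk (nat_lit 773) (nat_lit 0) [] (nat_lit 0) [] false,
   Spec.mk (nat_lit 779) (nat_lit 0) [] (nat_lit 0) [] false,
   Spec.mk (nat_lit 781) (nat_lit 0) [] (nat_lit 0) [] false,
   Spec.mk (nat_lit 791) (nat_lit 0) [] (nat_lit 0) [] false,
   Spec.mk (nat_lit 797) (nat_lit 0) [] (nat_lit 0) [] false,
   Spec.mk (nat_lit 799) (nat_lit 0) [] (nat_lit 0) [] false,
   Spec.mk (nat_lit 803) (nat_lit 0) [] (nat_lit 0) [] false,
   Spec.mk (nat_lit 805) (nat_lit 0) [] (nat_lit 0) [] false,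
   Spec.mk (nat_lit 807) (nat_lit 0) [] (nat_lit 0) [] false,
   Spec.mk (nat_lit 827) (nat_lit 0) [] (nat_lit 0) [] false,
   Spec.mk (nat_lit 833) (nat_lit 0) [] (nat_lit 0) [] false,
   Spec.mk (nat_lit 835) (nat_lit 0) [] (nat_lit 0) [] false,
   Spec.mk (nat_lit 845) (nat_lit 0) [] (nat_lit 0) [] false,
   Spec.mk (nat_lit 851) (nat_lit 0) [] (nat_lit 0) [] false,
   Spec.mk (nat_lit 853) (nat_lit 0) [] (nat_lit 0) [] false,
   Spec.mk (nat_lit 857) (nat_lit 0) [] (nat_lit 0) [] false,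
   Spec.mk (nat_lit 859) (nat_lit 0) [] (nat_lit 0) [] false,
   Spec.mk (nat_lit 861) (nat_lit 0) [] (nat_lit 0) [] false,
   Spec.mk (nat_lit 869) (nat_lit 0) [] (nat_lit 0) [] false,
   Spec.mk (nat_lit 871) (nat_lit 0) [] (nat_lit 0) [] false,
   Spec.mk (nat_lit 875) (nat_lit 0) [] (nat_lit 0) [] false,
   Spec.mk (nat_lit 877) (nat_lit 0) [] (nat_lit 0) [] false,
   Spec.mk (nat_lit 879) (nat_lit 0) [] (nat_lit 0) [] false,
   Spec.mk (nat_lit 883) (nat_lit 0) [] (nat_lit 0) [] false,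
   Spec.mk (nat_lit 885) (nat_lit 0) [] (nat_lit 0) [] false,
   Spec.mk (nat_lit 899) (nat_lit 0) [] (nat_lit 0) [] false,
   Spec.mk (nat_lit 905) (nat_lit 0) [] (nat_lit 0) [] false,
   Spec.mk (nat_lit 907) (nat_lit 0) [] (nat_lit 0) [] false,
   Spec.mk (nat_lit 911) (nat_lit 0) [] (nat_lit 0) [] false,
   Spec.mk (nat_lit 913) (nat_lit 0) [] (nat_lit 0) [] false,
   Spec.mk (nat_lit 915) (nat_lit 0) [] (nat_lit 0) [] false,
   Spec.mk (nat_lit 923) (nat_lit 0) [] (nat_lit 0) [] false,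
   Spec.mk (nat_lit 925) (nat_lit 0) [] (nat_lit 0) [] false,
   Spec.mk (nat_lit 929) (nat_lit 0) [] (nat_lit 0) [] false,
   Spec.mk (nat_lit 931) (nat_lit 0) [] (nat_lit 0) [] false,
   Spec.mk (nat_lit 933) (nat_lit 0) [] (nat_lit 0) [] false,
   Spec.mk (nat_lit 937) (nat_lit 0) [] (nat_lit 0) [] false,
   Spec.mk (nat_lit 939) (nat_lit 0) [] (nat_lit 0) [] false,
   Spec.mk (nat_lit 947) (nat_lit 0) [] (nat_lit 0) [] false,
   Spec.mk (nat_lit 949) (nat_lit 0) [] (nat_lit 0) [] false,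
   Spec.mk (nat_lit 951) (nat_lit 0) [] (nat_lit 0) [] false,
   Spec.mk (nat_lit 955) (nat_lit 0) [] (nat_lit 0) [] false,
   Spec.mk (nat_lit 957) (nat_lit 0) [] (nat_lit 0) [] false,
   Spec.mk (nat_lit 963) (nat_lit 0) [] (nat_lit 0) [] false,
   Spec.mk (nat_lit 989) (nat_lit 0) [] (nat_lit 0) [] false,
   Spec.mk (nat_lit 995) (nat_lit 0) [] (nat_lit 0) [] false,
   Spec.mk (nat_lit 997) (nat_lit 0) [] (nat_lit 0) [] false,
   Spec.mk (nat_lit 1007) (nat_lit 0) [] (nat_lit 0) [] false,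
   Spec.mk (nat_lit 1013) (nat_lit 0) [] (nat_lit 0) [] false,
   Spec.mk (nat_lit 1015) (nat_lit 0) [] (nat_lit 0) [] false,
   Spec.mk (nat_lit 1019) (nat_lit 0) [] (nat_lit 0) [] false,
   Spec.mk (nat_lit 1021) (nat_lit 0) [] (nat_lit 0) [] false,
   Spec.mk (nat_lit 1023) (nat_lit 0) [] (nat_lit 0) [] false]

noncomputable def cd3 : List Spec :=
  [Spec.mk (nat_lit 1031) (nat_lit 0) [] (nat_lit 0) [] false,
   Spec.mk (nat_lit 1033) (nat_lit 0) [] (nat_lit 0) [] false,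
   Spec.mk (nat_lit 1037) (nat_lit 0) [] (nat_lit 0) [] false,
   Spec.mk (nat_lit 1039) (nat_lit 0) [] (nat_lit 0) [] false,
   Spec.mk (nat_lit 1041) (nat_lit 0) [] (nat_lit 0) [] false,
   Spec.mk (nat_lit 1045) (nat_lit 0) [] (nat_lit 0) [] false,
   Spec.mk (nat_lit 1047) (nat_lit 0) [] (nat_lit 0) [] false,
   Spec.mk (nat_lit 1061) (nat_lit 0) [] (nat_lit 0) [] false,
   Spec.mk (nat_lit 1067) (nat_lit 0) [] (nat_lit 0) [] false,
   Spec.mk (nat_lit 1069) (nat_lit 0) [] (nat_lit 0) [] false,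
   Spec.mk (nat_lit 1073) (nat_lit 0) [] (nat_lit 0) [] false,
   Spec.mk (nat_lit 1075) (nat_lit 0) [] (nat_lit 0) [] false,
   Spec.mk (nat_lit 1077) (nat_lit 0) [] (nat_lit 0) [] false,
   Spec.mk (nat_lit 1085) (nat_lit 0) [] (nat_lit 0) [] false,
   Spec.mk (nat_lit 1087) (nat_lit 0) [] (nat_lit 0) [] false,
   Spec.mk (nat_lit 1091) (nat_lit 0) [] (nat_lit 0) [] false,
   Spec.mk (nat_lit 1093) (nat_lit 0) [] (nat_lit 0) [] false,
   Spec.mk (nat_lit 1095) (nat_lit 0) [] (nat_lit 0) [] false,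
   Spec.mk (nat_lit 1099) (nat_lit 0) [] (nat_lit 0) [] false,
   Spec.mk (nat_lit 1101) (nat_lit 0) [] (nat_lit 0) [] false,
   Spec.mk (nat_lit 1109) (nat_lit 0) [] (nat_lit 0) [] false,
   Spec.mk (nat_lit 1111) (nat_lit 0) [] (nat_lit 0) [] false,
   Spec.mk (nat_lit 1113) (nat_lit 0) [] (nat_lit 0) [] false,
   Spec.mk (nat_lit 1117) (nat_lit 0) [] (nat_lit 0) [] false,
   Spec.mk (nat_lit 1119) (nat_lit 0) [] (nat_lit 0) [] false,
   Spec.mk (nat_lit 1125) (nat_lit 0) [] (nat_lit 0) [] false,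
   Spec.mk (nat_lit 1139) (nat_lit 0) [] (nat_lit 0) [] false,
   Spec.mk (nat_lit 1141) (nat_lit 0) [] (nat_lit 0) [] false,
   Spec.mk (nat_lit 1145) (nat_lit 0) [] (nat_lit 0) [] false,
   Spec.mk (nat_lit 1147) (nat_lit 0) [] (nat_lit 0) [] false,
   Spec.mk (nat_lit 1149) (nat_lit 0) [] (nat_lit 0) [] false,
   Spec.mk (nat_lit 1153) (nat_lit 0) [] (nat_lit 0) [] false,
   Spec.mk (nat_lit 1155) (nat_lit 0) [] (nat_lit 0) [] false,
   Spec.mk (nat_lit 1163) (nat_lit 0) [] (nat_lit 0) [] false,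
   Spec.mk (nat_lit 1165) (nat_lit 0) [] (nat_lit 0) [] false,
   Spec.mk (nat_lit 1167) (nat_lit 0) [] (nat_lit 0) [] false,
   Spec.mk (nat_lit 1171) (nat_lit 0) [] (nat_lit 0) [] false,
   Spec.mk (nat_lit 1173) (nat_lit 0) [] (nat_lit 0) [] false,
   Spec.mk (nat_lit 1179) (nat_lit 0) [] (nat_lit 0) [] false,
   Spec.mk (nat_lit 1189) (nat_lit 0) [] (nat_lit 0) [] false,
   Spec.mk (nat_lit 1191) (nat_lit 0) [] (nat_lit 0) [] false,
   Spec.mk (nat_lit 1197) (nat_lit 0) [] (nat_lit 0) [] false,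
   Spec.mk (nat_lit 1223) (nat_lit 0) [] (nat_lit 0) [] false,
   Spec.mk (nat_lit 1229) (nat_lit 0) [] (nat_lit 0) [] false,
   Spec.mk (nat_lit 1231) (nat_lit 0) [] (nat_lit 0) [] false,
   Spec.mk (nat_lit 1235) (nat_lit 0) [] (nat_lit 0) [] false,
   Spec.mk (nat_lit 1237) (nat_lit 0) [] (nat_lit 0) [] false,
   Spec.mk (nat_lit 1239) (nat_lit 0) [] (nat_lit 0) [] false,
   Spec.mk (nat_lit 1247) (nat_lit 0) [] (nat_lit 0) [] false,
   Spec.mk (nat_lit 1249) (nat_lit 0) [] (nat_lit 0) [] false,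
   Spec.mk (nat_lit 1253) (nat_lit 0) [] (nat_lit 0) [] false,
   Spec.mk (nat_lit 1255) (nat_lit 0) [] (nat_lit 0) [] false,
   Spec.mk (nat_lit 1257) (nat_lit 0) [] (nat_lit 0) [] false,
   Spec.mk (nat_lit 1261) (nat_lit 0) [] (nat_lit 0) [] false,
   Spec.mk (nat_lit 1263) (nat_lit 0) [] (nat_lit 0) [] false,
   Spec.mk (nat_lit 1271) (nat_lit 0) [] (nat_lit 0) [] false,
   Spec.mk (nat_lit 1273) (nat_lit 0) [] (nat_lit 0) [] false,
   Spec.mk (nat_lit 1275) (nat_lit 0) [] (nat_lit 0) [] false,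
   Spec.mk (nat_lit 1279) (nat_lit 0) [] (nat_lit 0) [] false,
   Spec.mk (nat_lit 1281) (nat_lit 0) [] (nat_lit 0) [] false]

noncomputable def cd4 : List Spec :=
  [Spec.mk (nat_lit 1287) (nat_lit 0) [] (nat_lit 0) [] false,
   Spec.mk (nat_lit 1301) (nat_lit 0) [] (nat_lit 0) [] false,
   Spec.mk (nat_lit 1303) (nat_lit 0) [] (nat_lit 0) [] false,
   Spec.mk (nat_lit 1307) (nat_lit 0) [] (nat_lit 0) [] false,
   Spec.mk (nat_lit 1309) (nat_lit 0) [] (nat_lit 0) [] false,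
   Spec.mk (nat_lit 1311) (nat_lit 0) [] (nat_lit 0) [] false,
   Spec.mk (nat_lit 1315) (nat_lit 0) [] (nat_lit 0) [] false,
   Spec.mk (nat_lit 1317) (nat_lit 0) [] (nat_lit 0) [] false,
   Spec.mk (nat_lit 1325) (nat_lit 0) [] (nat_lit 0) [] false,
   Spec.mk (nat_lit 1327) (nat_lit 0) [] (nat_lit 0) [] false,
   Spec.mk (nat_lit 1329) (nat_lit 0) [] (nat_lit 0) [] false,
   Spec.mk (nat_lit 1333) (nat_lit 0) [] (nat_lit 0) [] false,
   Spec.mk (nat_lit 1335) (nat_lit 0) [] (nat_lit 0) [] false,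
   Spec.mk (nat_lit 1341) (nat_lit 0) [] (nat_lit 0) [] false,
   Spec.mk (nat_lit 1351) (nat_lit 0) [] (nat_lit 0) [] false,
   Spec.mk (nat_lit 1353) (nat_lit 0) [] (nat_lit 0) [] false,
   Spec.mk (nat_lit 1359) (nat_lit 0) [] (nat_lit 0) [] false,
   Spec.mk (nat_lit 1379) (nat_lit 0) [] (nat_lit 0) [] false,
   Spec.mk (nat_lit 1381) (nat_lit 0) [] (nat_lit 0) [] false,
   Spec.mk (nat_lit 1383) (nat_lit 0) [] (nat_lit 0) [] false,
   Spec.mk (nat_lit 1387) (nat_lit 0) [] (nat_lit 0) [] false,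
   Spec.mk (nat_lit 1389) (nat_lit 0) [] (nat_lit 0) [] false,
   Spec.mk (nat_lit 1395) (nat_lit 0) [] (nat_lit 0) [] false,
   Spec.mk (nat_lit 1405) (nat_lit 0) [] (nat_lit 0) [] false,
   Spec.mk (nat_lit 1407) (nat_lit 0) [] (nat_lit 0) [] false,
   Spec.mk (nat_lit 1413) (nat_lit 0) [] (nat_lit 0) [] false,
   Spec.mk (nat_lit 1431) (nat_lit 0) [] (nat_lit 0) [] false,
   Spec.mk (nat_lit 1475) (nat_lit 0) [] (nat_lit 0) [] false,
   Spec.mk (nat_lit 1481) (nat_lit 0) [] (nat_lit 0) [] false,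
   Spec.mk (nat_lit 1483) (nat_lit 0) [] (nat_lit 0) [] false,
   Spec.mk (nat_lit 1493) (nat_lit 0) [] (nat_lit 0) [] false,
   Spec.mk (nat_lit 1499) (nat_lit 0) [] (nat_lit 0) [] false,
   Spec.mk (nat_lit 1501) (nat_lit 0) [] (nat_lit 0) [] false,
   Spec.mk (nat_lit 1505) (nat_lit 0) [] (nat_lit 0) [] false,
   Spec.mk (nat_lit 1507) (nat_lit 0) [] (nat_lit 0) [] false,
   Spec.mk (nat_lit 1509) (nat_lit 0) [] (nat_lit 0) [] false,
   Spec.mk (nat_lit 1517) (nat_lit 0) [] (nat_lit 0) [] false,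
   Spec.mk (nat_lit 1519) (nat_lit 0) [] (nat_lit 0) [] false,
   Spec.mk (nat_lit 1523) (nat_lit 0) [] (nat_lit 0) [] false,
   Spec.mk (nat_lit 1525) (nat_lit 0) [] (nat_lit 0) [] false,
   Spec.mk (nat_lit 1527) (nat_lit 0) [] (nat_lit 0) [] false,
   Spec.mk (nat_lit 1531) (nat_lit 0) [] (nat_lit 0) [] false,
   Spec.mk (nat_lit 1533) (nat_lit 0) [] (nat_lit 0) [] false,
   Spec.mk (nat_lit 1547) (nat_lit 0) [] (nat_lit 0) [] false,
   Spec.mk (nat_lit 1553) (nat_lit 0) [] (nat_lit 0) [] false,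
   Spec.mk (nat_lit 1555) (nat_lit 0) [] (nat_lit 0) [] false,
   Spec.mk (nat_lit 1559) (nat_lit 0) [] (nat_lit 0) [] false,
   Spec.mk (nat_lit 1561) (nat_lit 0) [] (nat_lit 0) [] false,
   Spec.mk (nat_lit 1563) (nat_lit 0) [] (nat_lit 0) [] false,
   Spec.mk (nat_lit 1571) (nat_lit 0) [] (nat_lit 0) [] false,
   Spec.mk (nat_lit 1573) (nat_lit 0) [] (nat_lit 0) [] false,
   Spec.mk (nat_lit 1577) (nat_lit 0) [] (nat_lit 0) [] false,
   Spec.mk (nat_lit 1579) (nat_lit 0) [] (nat_lit 0) [] false,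
   Spec.mk (nat_lit 1581) (nat_lit 0) [] (nat_lit 0) [] false,
   Spec.mk (nat_lit 1585) (nat_lit 0) [] (nat_lit 0) [] false,
   Spec.mk (nat_lit 1587) (nat_lit 0) [] (nat_lit 0) [] false,
   Spec.mk (nat_lit 1595) (nat_lit 0) [] (nat_lit 0) [] false,
   Spec.mk (nat_lit 1597) (nat_lit 0) [] (nat_lit 0) [] false,
   Spec.mk (nat_lit 1599) (nat_lit 0) [] (nat_lit 0) [] false,
   Spec.mk (nat_lit 1603) (nat_lit 0) [] (nat_lit 0) [] false]

noncomputable def cd5 : List Spec :=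
  [Spec.mk (nat_lit 1605) (nat_lit 0) [] (nat_lit 0) [] false,
   Spec.mk (nat_lit 1611) (nat_lit 0) [] (nat_lit 0) [] false,
   Spec.mk (nat_lit 1625) (nat_lit 0) [] (nat_lit 0) [] false,
   Spec.mk (nat_lit 1627) (nat_lit 0) [] (nat_lit 0) [] false,
   Spec.mk (nat_lit 1631) (nat_lit 0) [] (nat_lit 0) [] false,
   Spec.mk (nat_lit 1633) (nat_lit 0) [] (nat_lit 0) [] false,
   Spec.mk (nat_lit 1635) (nat_lit 0) [] (nat_lit 0) [] false,
   Spec.mk (nat_lit 1639) (nat_lit 0) [] (nat_lit 0) [] false,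
   Spec.mk (nat_lit 1641) (nat_lit 0) [] (nat_lit 0) [] false,
   Spec.mk (nat_lit 1649) (nat_lit 0) [] (nat_lit 0) [] false,
   Spec.mk (nat_lit 1651) (nat_lit 0) [] (nat_lit 0) [] false,
   Spec.mk (nat_lit 1653) (nat_lit 0) [] (nat_lit 0) [] false,
   Spec.mk (nat_lit 1657) (nat_lit 0) [] (nat_lit 0) [] false,
   Spec.mk (nat_lit 1659) (nat_lit 0) [] (nat_lit 0) [] false,
   Spec.mk (nat_lit 1665) (nat_lit 0) [] (nat_lit 0) [] false,
   Spec.mk (nat_lit 1675) (nat_lit 0) [] (nat_lit 0) [] false,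
   Spec.mk (nat_lit 1677) (nat_lit 0) [] (nat_lit 0) [] false,
   Spec.mk (nat_lit 1683) (nat_lit 0) [] (nat_lit 0) [] false,
   Spec.mk (nat_lit 1709) (nat_lit 0) [] (nat_lit 0) [] false,
   Spec.mk (nat_lit 1715) (nat_lit 0) [] (nat_lit 0) [] false,
   Spec.mk (nat_lit 1717) (nat_lit 0) [] (nat_lit 0) [] false,
   Spec.mk (nat_lit 1721) (nat_lit 0) [] (nat_lit 0) [] false,
   Spec.mk (nat_lit 1723) (nat_lit 0) [] (nat_lit 0) [] false,
   Spec.mk (nat_lit 1725) (nat_lit 0) [] (nat_lit 0) [] false,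
   Spec.mk (nat_lit 1733) (nat_lit 0) [] (nat_lit 0) [] false,
   Spec.mk (nat_lit 1735) (nat_lit 0) [] (nat_lit 0) [] false,
   Spec.mk (nat_lit 1739) (nat_lit 0) [] (nat_lit 0) [] false,
   Spec.mk (nat_lit 1741) (nat_lit 0) [] (nat_lit 0) [] false,
   Spec.mk (nat_lit 1743) (nat_lit 0) [] (nat_lit 0) [] false,
   Spec.mk (nat_lit 1747) (nat_lit 0) [] (nat_lit 0) [] false,
   Spec.mk (nat_lit 1749) (nat_lit 0) [] (nat_lit 0) [] false,
   Spec.mk (nat_lit 1757) (nat_lit 0) [] (nat_lit 0) [] false,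
   Spec.mk (nat_lit 1759) (nat_lit 0) [] (nat_lit 0) [] false,
   Spec.mk (nat_lit 1761) (nat_lit 0) [] (nat_lit 0) [] false,
   Spec.mk (nat_lit 1765) (nat_lit 0) [] (nat_lit 0) [] false,
   Spec.mk (nat_lit 1767) (nat_lit 0) [] (nat_lit 0) [] false,
   Spec.mk (nat_lit 1773) (nat_lit 0) [] (nat_lit 0) [] false,
   Spec.mk (nat_lit 1787) (nat_lit 0) [] (nat_lit 0) [] false,
   Spec.mk (nat_lit 1789) (nat_lit 0) [] (nat_lit 0) [] false,
   Spec.mk (nat_lit 1793) (nat_lit 0) [] (nat_lit 0) [] false,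
   Spec.mk (nat_lit 1795) (nat_lit 0) [] (nat_lit 0) [] false,
   Spec.mk (nat_lit 1797) (nat_lit 0) [] (nat_lit 0) [] false,
   Spec.mk (nat_lit 1801) (nat_lit 0) [] (nat_lit 0) [] false,
   Spec.mk (nat_lit 1803) (nat_lit 0) [] (nat_lit 0) [] false,
   Spec.mk (nat_lit 1811) (nat_lit 0) [] (nat_lit 0) [] false,
   Spec.mk (nat_lit 1813) (nat_lit 0) [] (nat_lit 0) [] false,
   Spec.mk (nat_lit 1815) (nat_lit 0) [] (nat_lit 0) [] false,
   Spec.mk (nat_lit 1819) (nat_lit 0) [] (nat_lit 0) [] false,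
   Spec.mk (nat_lit 1821) (nat_lit 0) [] (nat_lit 0) [] false,
   Spec.mk (nat_lit 1827) (nat_lit 0) [] (nat_lit 0) [] false,
   Spec.mk (nat_lit 1837) (nat_lit 0) [] (nat_lit 0) [] false,
   Spec.mk (nat_lit 1839) (nat_lit 0) [] (nat_lit 0) [] false,
   Spec.mk (nat_lit 1845) (nat_lit 0) [] (nat_lit 0) [] false,
   Spec.mk (nat_lit 1865) (nat_lit 0) [] (nat_lit 0) [] false,
   Spec.mk (nat_lit 1867) (nat_lit 0) [] (nat_lit 0) [] false,
   Spec.mk (nat_lit 1869) (nat_lit 0) [] (nat_lit 0) [] false,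
   Spec.mk (nat_lit 1873) (nat_lit 0) [] (nat_lit 0) [] false,
   Spec.mk (nat_lit 1875) (nat_lit 0) [] (nat_lit 0) [] false,
   Spec.mk (nat_lit 1881) (nat_lit 0) [] (nat_lit 0) [] false,
   Spec.mk (nat_lit 1891) (nat_lit 0) [] (nat_lit 0) [] false]

noncomputable def cd6 : List Spec :=
  [Spec.mk (nat_lit 1893) (nat_lit 0) [] (nat_lit 0) [] false,
   Spec.mk (nat_lit 1899) (nat_lit 0) [] (nat_lit 0) [] false,
   Spec.mk (nat_lit 1917) (nat_lit 0) [] (nat_lit 0) [] false,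
   Spec.mk (nat_lit 1949) (nat_lit 0) [] (nat_lit 0) [] false,
   Spec.mk (nat_lit 1951) (nat_lit 0) [] (nat_lit 0) [] false,
   Spec.mk (nat_lit 1955) (nat_lit 0) [] (nat_lit 0) [] false,
   Spec.mk (nat_lit 1957) (nat_lit 0) [] (nat_lit 0) [] false,
   Spec.mk (nat_lit 1959) (nat_lit 0) [] (nat_lit 0) [] false,
   Spec.mk (nat_lit 1963) (nat_lit 0) [] (nat_lit 0) [] false,
   Spec.mk (nat_lit 1965) (nat_lit 0) [] (nat_lit 0) [] false,
   Spec.mk (nat_lit 1973) (nat_lit 0) [] (nat_lit 0) [] false,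
   Spec.mk (nat_lit 1975) (nat_lit 0) [] (nat_lit 0) [] false,
   Spec.mk (nat_lit 1977) (nat_lit 0) [] (nat_lit 0) [] false,
   Spec.mk (nat_lit 1981) (nat_lit 0) [] (nat_lit 0) [] false,
   Spec.mk (nat_lit 1983) (nat_lit 0) [] (nat_lit 0) [] false,
   Spec.mk (nat_lit 1989) (nat_lit 0) [] (nat_lit 0) [] false,
   Spec.mk (nat_lit 1999) (nat_lit 0) [] (nat_lit 0) [] false,
   Spec.mk (nat_lit 2001) (nat_lit 0) [] (nat_lit 0) [] false,
   Spec.mk (nat_lit 2007) (nat_lit 0) [] (nat_lit 0) [] false,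
   Spec.mk (nat_lit 2027) (nat_lit 0) [] (nat_lit 0) [] false,
   Spec.mk (nat_lit 2029) (nat_lit 0) [] (nat_lit 0) [] false,
   Spec.mk (nat_lit 2031) (nat_lit 0) [] (nat_lit 0) [] false,
   Spec.mk (nat_lit 2035) (nat_lit 0) [] (nat_lit 0) [] false,
   Spec.mk (nat_lit 2037) (nat_lit 0) [] (nat_lit 0) [] false,
   Spec.mk (nat_lit 2043) (nat_lit 0) [] (nat_lit 0) [] false,
   Spec.mk (nat_lit 2053) (nat_lit 0) [] (nat_lit 0) [] false,
   Spec.mk (nat_lit 2055) (nat_lit 0) [] (nat_lit 0) [] false,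
   Spec.mk (nat_lit 2061) (nat_lit 0) [] (nat_lit 0) [] false,
   Spec.mk (nat_lit 2079) (nat_lit 0) [] (nat_lit 0) [] false,
   Spec.mk (nat_lit 2107) (nat_lit 0) [] (nat_lit 0) [] false,
   Spec.mk (nat_lit 2109) (nat_lit 0) [] (nat_lit 0) [] false,
   Spec.mk (nat_lit 2115) (nat_lit 0) [] (nat_lit 0) [] false,
   Spec.mk (nat_lit 2133) (nat_lit 0) [] (nat_lit 0) [] false,
   Spec.mk (nat_lit 2213) (nat_lit 0) [] (nat_lit 0) [] false,
   Spec.mk (nat_lit 2231) (nat_lit 0) [] (nat_lit 0) [] false,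
   Spec.mk (nat_lit 2237) (nat_lit 0) [] (nat_lit 0) [] false,
   Spec.mk (nat_lit 2239) (nat_lit 0) [] (nat_lit 0) [] false,
   Spec.mk (nat_lit 2249) (nat_lit 0) [] (nat_lit 0) [] false,
   Spec.mk (nat_lit 2255) (nat_lit 0) [] (nat_lit 0) [] false,
   Spec.mk (nat_lit 2257) (nat_lit 0) [] (nat_lit 0) [] false,
   Spec.mk (nat_lit 2261) (nat_lit 0) [] (nat_lit 0) [] false,
   Spec.mk (nat_lit 2263) (nat_lit 0) [] (nat_lit 0) [] false,
   Spec.mk (nat_lit 2265) (nat_lit 0) [] (nat_lit 0) [] false,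
   Spec.mk (nat_lit 2285) (nat_lit 0) [] (nat_lit 0) [] false,
   Spec.mk (nat_lit 2291) (nat_lit 0) [] (nat_lit 0) [] false,
   Spec.mk (nat_lit 2293) (nat_lit 0) [] (nat_lit 0) [] false,
   Spec.mk (nat_lit 2303) (nat_lit 0) [] (nat_lit 0) [] false,
   Spec.mk (nat_lit 2309) (nat_lit 0) [] (nat_lit 0) [] false,
   Spec.mk (nat_lit 2311) (nat_lit 0) [] (nat_lit 0) [] false,
   Spec.mk (nat_lit 2315) (nat_lit 0) [] (nat_lit 0) [] false,
   Spec.mk (nat_lit 2317) (nat_lit 0) [] (nat_lit 0) [] false,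
   Spec.mk (nat_lit 2319) (nat_lit 0) [] (nat_lit 0) [] false,
   Spec.mk (nat_lit 2327) (nat_lit 0) [] (nat_lit 0) [] false,
   Spec.mk (nat_lit 2329) (nat_lit 0) [] (nat_lit 0) [] false,
   Spec.mk (nat_lit 2333) (nat_lit 0) [] (nat_lit 0) [] false,
   Spec.mk (nat_lit 2335) (nat_lit 0) [] (nat_lit 0) [] false,
   Spec.mk (nat_lit 2337) (nat_lit 0) [] (nat_lit 0) [] false,
   Spec.mk (nat_lit 2341) (nat_lit 0) [] (nat_lit 0) [] false,
   Spec.mk (nat_lit 2343) (nat_lit 0) [] (nat_lit 0) [] false,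
   Spec.mk (nat_lit 2357) (nat_lit 0) [] (nat_lit 0) [] false]

noncomputable def cd7 : List Spec :=
  [Spec.mk (nat_lit 2363) (nat_lit 0) [] (nat_lit 0) [] false,
   Spec.mk (nat_lit 2365) (nat_lit 0) [] (nat_lit 0) [] false,
   Spec.mk (nat_lit 2369) (nat_lit 0) [] (nat_lit 0) [] false,
   Spec.mk (nat_lit 2371) (nat_lit 0) [] (nat_lit 0) [] false,
   Spec.mk (nat_lit 2373) (nat_lit 0) [] (nat_lit 0) [] false,
   Spec.mk (nat_lit 2381) (nat_lit 0) [] (nat_lit 0) [] false,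
   Spec.mk (nat_lit 2383) (nat_lit 0) [] (nat_lit 0) [] false,
   Spec.mk (nat_lit 2387) (nat_lit 0) [] (nat_lit 0) [] false,
   Spec.mk (nat_lit 2389) (nat_lit 0) [] (nat_lit 0) [] false,
   Spec.mk (nat_lit 2391) (nat_lit 0) [] (nat_lit 0) [] false,
   Spec.mk (nat_lit 2395) (nat_lit 0) [] (nat_lit 0) [] false,
   Spec.mk (nat_lit 2397) (nat_lit 0) [] (nat_lit 0) [] false,
   Spec.mk (nat_lit 2405) (nat_lit 0) [] (nat_lit 0) [] false,
   Spec.mk (nat_lit 2407) (nat_lit 0) [] (nat_lit 0) [] false,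
   Spec.mk (nat_lit 2409) (nat_lit 0) [] (nat_lit 0) [] false,
   Spec.mk (nat_lit 2413) (nat_lit 0) [] (nat_lit 0) [] false,
   Spec.mk (nat_lit 2415) (nat_lit 0) [] (nat_lit 0) [] false,
   Spec.mk (nat_lit 2421) (nat_lit 0) [] (nat_lit 0) [] false,
   Spec.mk (nat_lit 2447) (nat_lit 0) [] (nat_lit 0) [] false,
   Spec.mk (nat_lit 2453) (nat_lit 0) [] (nat_lit 0) [] false,
   Spec.mk (nat_lit 2455) (nat_lit 0) [] (nat_lit 0) [] false,
   Spec.mk (nat_lit 2465) (nat_lit 0) [] (nat_lit 0) [] false,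
   Spec.mk (nat_lit 2471) (nat_lit 0) [] (nat_lit 0) [] false,
   Spec.mk (nat_lit 2473) (nat_lit 0) [] (nat_lit 0) [] false,
   Spec.mk (nat_lit 2477) (nat_lit 0) [] (nat_lit 0) [] false,
   Spec.mk (nat_lit 2479) (nat_lit 0) [] (nat_lit 0) [] false,
   Spec.mk (nat_lit 2481) (nat_lit 0) [] (nat_lit 0) [] false,
   Spec.mk (nat_lit 2489) (nat_lit 0) [] (nat_lit 0) [] false,
   Spec.mk (nat_lit 2491) (nat_lit 0) [] (nat_lit 0) [] false,
   Spec.mk (nat_lit 2495) (nat_lit 0) [] (nat_lit 0) [] false,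
   Spec.mk (nat_lit 2497) (nat_lit 0) [] (nat_lit 0) [] false,
   Spec.mk (nat_lit 2499) (nat_lit 0) [] (nat_lit 0) [] false,
   Spec.mk (nat_lit 2503) (nat_lit 0) [] (nat_lit 0) [] false,
   Spec.mk (nat_lit 2505) (nat_lit 0) [] (nat_lit 0) [] false,
   Spec.mk (nat_lit 2519) (nat_lit 0) [] (nat_lit 0) [] false,
   Spec.mk (nat_lit 2525) (nat_lit 0) [] (nat_lit 0) [] false,
   Spec.mk (nat_lit 2527) (nat_lit 0) [] (nat_lit 0) [] false,
   Spec.mk (nat_lit 2531) (nat_lit 0) [] (nat_lit 0) [] false,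
   Spec.mk (nat_lit 2533) (nat_lit 0) [] (nat_lit 0) [] false,
   Spec.mk (nat_lit 2535) (nat_lit 0) [] (nat_lit 0) [] false,
   Spec.mk (nat_lit 2543) (nat_lit 0) [] (nat_lit 0) [] false,
   Spec.mk (nat_lit 2545) (nat_lit 0) [] (nat_lit 0) [] false,
   Spec.mk (nat_lit 2549) (nat_lit 0) [] (nat_lit 0) [] false,
   Spec.mk (nat_lit 2551) (nat_lit 0) [] (nat_lit 0) [] false,
   Spec.mk (nat_lit 2553) (nat_lit 0) [] (nat_lit 0) [] false,
   Spec.mk (nat_lit 2557) (nat_lit 0) [] (nat_lit 0) [] false,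
   Spec.mk (nat_lit 2559) (nat_lit 0) [] (nat_lit 0) [] false,
   Spec.mk (nat_lit 2567) (nat_lit 0) [] (nat_lit 0) [] false,
   Spec.mk (nat_lit 2569) (nat_lit 0) [] (nat_lit 0) [] false,
   Spec.mk (nat_lit 2571) (nat_lit 0) [] (nat_lit 0) [] false,
   Spec.mk (nat_lit 2575) (nat_lit 0) [] (nat_lit 0) [] false,
   Spec.mk (nat_lit 2577) (nat_lit 0) [] (nat_lit 0) [] false,
   Spec.mk (nat_lit 2583) (nat_lit 0) [] (nat_lit 0) [] false,
   Spec.mk (nat_lit 2597) (nat_lit 0) [] (nat_lit 0) [] false,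
   Spec.mk (nat_lit 2599) (nat_lit 0) [] (nat_lit 0) [] false,
   Spec.mk (nat_lit 2603) (nat_lit 0) [] (nat_lit 0) [] false,
   Spec.mk (nat_lit 2605) (nat_lit 0) [] (nat_lit 0) [] false,
   Spec.mk (nat_lit 2607) (nat_lit 0) [] (nat_lit 0) [] false,
   Spec.mk (nat_lit 2611) (nat_lit 0) [] (nat_lit 0) [] false,
   Spec.mk (nat_lit 2613) (nat_lit 0) [] (nat_lit 0) [] false]

noncomputable def cd8 : List Spec :=
  [Spec.mk (nat_lit 2621) (nat_lit 0) [] (nat_lit 0) [] false,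
   Spec.mk (nat_lit 2623) (nat_lit 0) [] (nat_lit 0) [] false,
   Spec.mk (nat_lit 2625) (nat_lit 0) [] (nat_lit 0) [] false,
   Spec.mk (nat_lit 2629) (nat_lit 0) [] (nat_lit 0) [] false,
   Spec.mk (nat_lit 2631) (nat_lit 0) [] (nat_lit 0) [] false,
   Spec.mk (nat_lit 2637) (nat_lit 0) [] (nat_lit 0) [] false,
   Spec.mk (nat_lit 2647) (nat_lit 0) [] (nat_lit 0) [] false,
   Spec.mk (nat_lit 2649) (nat_lit 0) [] (nat_lit 0) [] false,
   Spec.mk (nat_lit 2655) (nat_lit 0) [] (nat_lit 0) [] false,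
   Spec.mk (nat_lit 2681) (nat_lit 0) [] (nat_lit 0) [] false,
   Spec.mk (nat_lit 2687) (nat_lit 0) [] (nat_lit 0) [] false,
   Spec.mk (nat_lit 2689) (nat_lit 0) [] (nat_lit 0) [] false,
   Spec.mk (nat_lit 2693) (nat_lit 0) [] (nat_lit 0) [] false,
   Spec.mk (nat_lit 2695) (nat_lit 0) [] (nat_lit 0) [] false,
   Spec.mk (nat_lit 2697) (nat_lit 0) [] (nat_lit 0) [] false,
   Spec.mk (nat_lit 2705) (nat_lit 0) [] (nat_lit 0) [] false,
   Spec.mk (nat_lit 2707) (nat_lit 0) [] (nat_lit 0) [] false,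
   Spec.mk (nat_lit 2711) (nat_lit 0) [] (nat_lit 0) [] false,
   Spec.mk (nat_lit 2713) (nat_lit 0) [] (nat_lit 0) [] false,
   Spec.mk (nat_lit 2715) (nat_lit 0) [] (nat_lit 0) [] false,
   Spec.mk (nat_lit 2719) (nat_lit 0) [] (nat_lit 0) [] false,
   Spec.mk (nat_lit 2721) (nat_lit 0) [] (nat_lit 0) [] false,
   Spec.mk (nat_lit 2729) (nat_lit 0) [] (nat_lit 0) [] false,
   Spec.mk (nat_lit 2731) (nat_lit 0) [] (nat_lit 0) [] false,
   Spec.mk (nat_lit 2733) (nat_lit 0) [] (nat_lit 0) [] false,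
   Spec.mk (nat_lit 2737) (nat_lit 0) [] (nat_lit 0) [] false,
   Spec.mk (nat_lit 2739) (nat_lit 0) [] (nat_lit 0) [] false,
   Spec.mk (nat_lit 2745) (nat_lit 0) [] (nat_lit 0) [] false,
   Spec.mk (nat_lit 2759) (nat_lit 0) [] (nat_lit 0) [] false,
   Spec.mk (nat_lit 2761) (nat_lit 0) [] (nat_lit 0) [] false,
   Spec.mk (nat_lit 2765) (nat_lit 0) [] (nat_lit 0) [] false,
   Spec.mk (nat_lit 2767) (nat_lit 0) [] (nat_lit 0) [] false,
   Spec.mk (nat_lit 2769) (nat_lit 0) [] (nat_lit 0) [] false,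
   Spec.mk (nat_lit 2773) (nat_lit 0) [] (nat_lit 0) [] false,
   Spec.mk (nat_lit 2775) (nat_lit 0) [] (nat_lit 0) [] false,
   Spec.mk (nat_lit 2783) (nat_lit 0) [] (nat_lit 0) [] false,
   Spec.mk (nat_lit 2785) (nat_lit 0) [] (nat_lit 0) [] false,
   Spec.mk (nat_lit 2787) (nat_lit 0) [] (nat_lit 0) [] false,
   Spec.mk (nat_lit 2791) (nat_lit 0) [] (nat_lit 0) [] false,
   Spec.mk (nat_lit 2793) (nat_lit 0) [] (nat_lit 0) [] false,
   Spec.mk (nat_lit 2799) (nat_lit 0) [] (nat_lit 0) [] false,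
   Spec.mk (nat_lit 2809) (nat_lit 0) [] (nat_lit 0) [] false,
   Spec.mk (nat_lit 2811) (nat_lit 0) [] (nat_lit 0) [] false,
   Spec.mk (nat_lit 2817) (nat_lit 0) [] (nat_lit 0) [] false,
   Spec.mk (nat_lit 2837) (nat_lit 0) [] (nat_lit 0) [] false,
   Spec.mk (nat_lit 2839) (nat_lit 0) [] (nat_lit 0) [] false,
   Spec.mk (nat_lit 2841) (nat_lit 0) [] (nat_lit 0) [] false,
   Spec.mk (nat_lit 2845) (nat_lit 0) [] (nat_lit 0) [] false,
   Spec.mk (nat_lit 2847) (nat_lit 0) [] (nat_lit 0) [] false,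
   Spec.mk (nat_lit 2853) (nat_lit 0) [] (nat_lit 0) [] false,
   Spec.mk (nat_lit 2863) (nat_lit 0) [] (nat_lit 0) [] false,
   Spec.mk (nat_lit 2865) (nat_lit 0) [] (nat_lit 0) [] false,
   Spec.mk (nat_lit 2871) (nat_lit 0) [] (nat_lit 0) [] false,
   Spec.mk (nat_lit 2889) (nat_lit 0) [] (nat_lit 0) [] false,
   Spec.mk (nat_lit 2933) (nat_lit 0) [] (nat_lit 0) [] false,
   Spec.mk (nat_lit 2939) (nat_lit 0) [] (nat_lit 0) [] false,
   Spec.mk (nat_lit 2941) (nat_lit 0) [] (nat_lit 0) [] false,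
   Spec.mk (nat_lit 2951) (nat_lit 0) [] (nat_lit 0) [] false,
   Spec.mk (nat_lit 2957) (nat_lit 0) [] (nat_lit 0) [] false,
   Spec.mk (nat_lit 2959) (nat_lit 0) [] (nat_lit 0) [] false]

noncomputable def cd9 : List Spec :=
  [Spec.mk (nat_lit 2963) (nat_lit 0) [] (nat_lit 0) [] false,
   Spec.mk (nat_lit 2965) (nat_lit 0) [] (nat_lit 0) [] false,
   Spec.mk (nat_lit 2967) (nat_lit 0) [] (nat_lit 0) [] false,
   Spec.mk (nat_lit 2975) (nat_lit 0) [] (nat_lit 0) [] false,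
   Spec.mk (nat_lit 2977) (nat_lit 0) [] (nat_lit 0) [] false,
   Spec.mk (nat_lit 2981) (nat_lit 0) [] (nat_lit 0) [] false,
   Spec.mk (nat_lit 2983) (nat_lit 0) [] (nat_lit 0) [] false,
   Spec.mk (nat_lit 2985) (nat_lit 0) [] (nat_lit 0) [] false,
   Spec.mk (nat_lit 2989) (nat_lit 0) [] (nat_lit 0) [] false,
   Spec.mk (nat_lit 2991) (nat_lit 0) [] (nat_lit 0) [] false,
   Spec.mk (nat_lit 3005) (nat_lit 0) [] (nat_lit 0) [] false,
   Spec.mk (nat_lit 3011) (nat_lit 0) [] (nat_lit 0) [] false,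
   Spec.mk (nat_lit 3013) (nat_lit 0) [] (nat_lit 0) [] false,
   Spec.mk (nat_lit 3017) (nat_lit 0) [] (nat_lit 0) [] false,
   Spec.mk (nat_lit 3019) (nat_lit 0) [] (nat_lit 0) [] false,
   Spec.mk (nat_lit 3021) (nat_lit 0) [] (nat_lit 0) [] false,
   Spec.mk (nat_lit 3029) (nat_lit 0) [] (nat_lit 0) [] false,
   Spec.mk (nat_lit 3031) (nat_lit 0) [] (nat_lit 0) [] false,
   Spec.mk (nat_lit 3035) (nat_lit 0) [] (nat_lit 0) [] false,
   Spec.mk (nat_lit 3037) (nat_lit 0) [] (nat_lit 0) [] false,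
   Spec.mk (nat_lit 3039) (nat_lit 0) [] (nat_lit 0) [] false,
   Spec.mk (nat_lit 3043) (nat_lit 0) [] (nat_lit 0) [] false,
   Spec.mk (nat_lit 3045) (nat_lit 0) [] (nat_lit 0) [] false,
   Spec.mk (nat_lit 3053) (nat_lit 0) [] (nat_lit 0) [] false,
   Spec.mk (nat_lit 3055) (nat_lit 0) [] (nat_lit 0) [] false,
   Spec.mk (nat_lit 3057) (nat_lit 0) [] (nat_lit 0) [] false,
   Spec.mk (nat_lit 3061) (nat_lit 0) [] (nat_lit 0) [] false,
   Spec.mk (nat_lit 3063) (nat_lit 0) [] (nat_lit 0) [] false,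
   Spec.mk (nat_lit 3069) (nat_lit 0) [] (nat_lit 0) [] false,
   Spec.mk (nat_lit 3083) (nat_lit 0) [] (nat_lit 0) [] false,
   Spec.mk (nat_lit 3085) (nat_lit 0) [] (nat_lit 0) [] false,
   Spec.mk (nat_lit 3089) (nat_lit 0) [] (nat_lit 0) [] false,
   Spec.mk (nat_lit 3091) (nat_lit 0) [] (nat_lit 0) [] false,
   Spec.mk (nat_lit 3093) (nat_lit 0) [] (nat_lit 0) [] false,
   Spec.mk (nat_lit 3097) (nat_lit 0) [] (nat_lit 0) [] false,
   Spec.mk (nat_lit 3099) (nat_lit 0) [] (nat_lit 0) [] false,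
   Spec.mk (nat_lit 3107) (nat_lit 0) [] (nat_lit 0) [] false,
   Spec.mk (nat_lit 3109) (nat_lit 0) [] (nat_lit 0) [] false,
   Spec.mk (nat_lit 3111) (nat_lit 0) [] (nat_lit 0) [] false,
   Spec.mk (nat_lit 3115) (nat_lit 0) [] (nat_lit 0) [] false,
   Spec.mk (nat_lit 3117) (nat_lit 0) [] (nat_lit 0) [] false,
   Spec.mk (nat_lit 3123) (nat_lit 0) [] (nat_lit 0) [] false,
   Spec.mk (nat_lit 3133) (nat_lit 0) [] (nat_lit 0) [] false,
   Spec.mk (nat_lit 3135) (nat_lit 0) [] (nat_lit 0) [] false,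
   Spec.mk (nat_lit 3141) (nat_lit 0) [] (nat_lit 0) [] false,
   Spec.mk (nat_lit 3167) (nat_lit 0) [] (nat_lit 0) [] false,
   Spec.mk (nat_lit 3173) (nat_lit 0) [] (nat_lit 0) [] false,
   Spec.mk (nat_lit 3175) (nat_lit 0) [] (nat_lit 0) [] false,
   Spec.mk (nat_lit 3179) (nat_lit 0) [] (nat_lit 0) [] false,
   Spec.mk (nat_lit 3181) (nat_lit 0) [] (nat_lit 0) [] false,
   Spec.mk (nat_lit 3183) (nat_lit 0) [] (nat_lit 0) [] false,
   Spec.mk (nat_lit 3191) (nat_lit 0) [] (nat_lit 0) [] false,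
   Spec.mk (nat_lit 3193) (nat_lit 0) [] (nat_lit 0) [] false,
   Spec.mk (nat_lit 3197) (nat_lit 0) [] (nat_lit 0) [] false,
   Spec.mk (nat_lit 3199) (nat_lit 0) [] (nat_lit 0) [] false,
   Spec.mk (nat_lit 3201) (nat_lit 0) [] (nat_lit 0) [] false,
   Spec.mk (nat_lit 3205) (nat_lit 0) [] (nat_lit 0) [] false,
   Spec.mk (nat_lit 3207) (nat_lit 0) [] (nat_lit 0) [] false,
   Spec.mk (nat_lit 3215) (nat_lit 0) [] (nat_lit 0) [] false,
   Spec.mk (nat_lit 3217) (nat_lit 0) [] (nat_lit 0) [] false]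

noncomputable def cd10 : List Spec :=
  [Spec.mk (nat_lit 3219) (nat_lit 0) [] (nat_lit 0) [] false,
   Spec.mk (nat_lit 3223) (nat_lit 0) [] (nat_lit 0) [] false,
   Spec.mk (nat_lit 3225) (nat_lit 0) [] (nat_lit 0) [] false,
   Spec.mk (nat_lit 3231) (nat_lit 0) [] (nat_lit 0) [] false,
   Spec.mk (nat_lit 3245) (nat_lit 0) [] (nat_lit 0) [] false,
   Spec.mk (nat_lit 3247) (nat_lit 0) [] (nat_lit 0) [] false,
   Spec.mk (nat_lit 3251) (nat_lit 0) [] (nat_lit 0) [] false,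
   Spec.mk (nat_lit 3253) (nat_lit 0) [] (nat_lit 0) [] false,
   Spec.mk (nat_lit 3255) (nat_lit 0) [] (nat_lit 0) [] false,
   Spec.mk (nat_lit 3259) (nat_lit 0) [] (nat_lit 0) [] false,
   Spec.mk (nat_lit 3261) (nat_lit 0) [] (nat_lit 0) [] false,
   Spec.mk (nat_lit 3269) (nat_lit 0) [] (nat_lit 0) [] false,
   Spec.mk (nat_lit 3271) (nat_lit 0) [] (nat_lit 0) [] false,
   Spec.mk (nat_lit 3273) (nat_lit 0) [] (nat_lit 0) [] false,
   Spec.mk (nat_lit 3277) (nat_lit 0) [] (nat_lit 0) [] false,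
   Spec.mk (nat_lit 3279) (nat_lit 0) [] (nat_lit 0) [] false,
   Spec.mk (nat_lit 3285) (nat_lit 0) [] (nat_lit 0) [] false,
   Spec.mk (nat_lit 3295) (nat_lit 0) [] (nat_lit 0) [] false,
   Spec.mk (nat_lit 3297) (nat_lit 0) [] (nat_lit 0) [] false,
   Spec.mk (nat_lit 3303) (nat_lit 0) [] (nat_lit 0) [] false,
   Spec.mk (nat_lit 3323) (nat_lit 0) [] (nat_lit 0) [] false,
   Spec.mk (nat_lit 3325) (nat_lit 0) [] (nat_lit 0) [] false,
   Spec.mk (nat_lit 3327) (nat_lit 0) [] (nat_lit 0) [] false,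
   Spec.mk (nat_lit 3331) (nat_lit 0) [] (nat_lit 0) [] false,
   Spec.mk (nat_lit 3333) (nat_lit 0) [] (nat_lit 0) [] false,
   Spec.mk (nat_lit 3339) (nat_lit 0) [] (nat_lit 0) [] false,
   Spec.mk (nat_lit 3349) (nat_lit 0) [] (nat_lit 0) [] false,
   Spec.mk (nat_lit 3351) (nat_lit 0) [] (nat_lit 0) [] false,
   Spec.mk (nat_lit 3357) (nat_lit 0) [] (nat_lit 0) [] false,
   Spec.mk (nat_lit 3375) (nat_lit 0) [] (nat_lit 0) [] false,
   Spec.mk (nat_lit 3407) (nat_lit 0) [] (nat_lit 0) [] false,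
   Spec.mk (nat_lit 3409) (nat_lit 0) [] (nat_lit 0) [] false,
   Spec.mk (nat_lit 3413) (nat_lit 0) [] (nat_lit 0) [] false,
   Spec.mk (nat_lit 3415) (nat_lit 0) [] (nat_lit 0) [] false,
   Spec.mk (nat_lit 3417) (nat_lit 0) [] (nat_lit 0) [] false,
   Spec.mk (nat_lit 3421) (nat_lit 0) [] (nat_lit 0) [] false,
   Spec.mk (nat_lit 3423) (nat_lit 0) [] (nat_lit 0) [] false,
   Spec.mk (nat_lit 3431) (nat_lit 0) [] (nat_lit 0) [] false,
   Spec.mk (nat_lit 3433) (nat_lit 0) [] (nat_lit 0) [] false,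
   Spec.mk (nat_lit 3435) (nat_lit 0) [] (nat_lit 0) [] false,
   Spec.mk (nat_lit 3439) (nat_lit 0) [] (nat_lit 0) [] false,
   Spec.mk (nat_lit 3441) (nat_lit 0) [] (nat_lit 0) [] false,
   Spec.mk (nat_lit 3447) (nat_lit 0) [] (nat_lit 0) [] false,
   Spec.mk (nat_lit 3457) (nat_lit 0) [] (nat_lit 0) [] false,
   Spec.mk (nat_lit 3459) (nat_lit 0) [] (nat_lit 0) [] false,
   Spec.mk (nat_lit 3465) (nat_lit 0) [] (nat_lit 0) [] false,
   Spec.mk (nat_lit 3485) (nat_lit 0) [] (nat_lit 0) [] false,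
   Spec.mk (nat_lit 3487) (nat_lit 0) [] (nat_lit 0) [] false,
   Spec.mk (nat_lit 3489) (nat_lit 0) [] (nat_lit 0) [] false,
   Spec.mk (nat_lit 3493) (nat_lit 0) [] (nat_lit 0) [] false,
   Spec.mk (nat_lit 3495) (nat_lit 0) [] (nat_lit 0) [] false,
   Spec.mk (nat_lit 3501) (nat_lit 0) [] (nat_lit 0) [] false,
   Spec.mk (nat_lit 3511) (nat_lit 0) [] (nat_lit 0) [] false,
   Spec.mk (nat_lit 3513) (nat_lit 0) [] (nat_lit 0) [] false,
   Spec.mk (nat_lit 3519) (nat_lit 0) [] (nat_lit 0) [] false,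
   Spec.mk (nat_lit 3537) (nat_lit 0) [] (nat_lit 0) [] false,
   Spec.mk (nat_lit 3565) (nat_lit 0) [] (nat_lit 0) [] false,
   Spec.mk (nat_lit 3567) (nat_lit 0) [] (nat_lit 0) [] false,
   Spec.mk (nat_lit 3573) (nat_lit 0) [] (nat_lit 0) [] false,
   Spec.mk (nat_lit 3591) (nat_lit 0) [] (nat_lit 0) [] false]

noncomputable def cd11 : List Spec :=
  [Spec.mk (nat_lit 3653) (nat_lit 0) [] (nat_lit 0) [] false,
   Spec.mk (nat_lit 3659) (nat_lit 0) [] (nat_lit 0) [] false,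
   Spec.mk (nat_lit 3661) (nat_lit 0) [] (nat_lit 0) [] false,
   Spec.mk (nat_lit 3665) (nat_lit 0) [] (nat_lit 0) [] false,
   Spec.mk (nat_lit 3667) (nat_lit 0) [] (nat_lit 0) [] false,
   Spec.mk (nat_lit 3669) (nat_lit 0) [] (nat_lit 0) [] false,
   Spec.mk (nat_lit 3677) (nat_lit 0) [] (nat_lit 0) [] false,
   Spec.mk (nat_lit 3679) (nat_lit 0) [] (nat_lit 0) [] false,
   Spec.mk (nat_lit 3683) (nat_lit 0) [] (nat_lit 0) [] false,
   Spec.mk (nat_lit 3685) (nat_lit 0) [] (nat_lit 0) [] false,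
   Spec.mk (nat_lit 3687) (nat_lit 0) [] (nat_lit 0) [] false,
   Spec.mk (nat_lit 3691) (nat_lit 0) [] (nat_lit 0) [] false,
   Spec.mk (nat_lit 3693) (nat_lit 0) [] (nat_lit 0) [] false,
   Spec.mk (nat_lit 3701) (nat_lit 0) [] (nat_lit 0) [] false,
   Spec.mk (nat_lit 3703) (nat_lit 0) [] (nat_lit 0) [] false,
   Spec.mk (nat_lit 3705) (nat_lit 0) [] (nat_lit 0) [] false,
   Spec.mk (nat_lit 3709) (nat_lit 0) [] (nat_lit 0) [] false,
   Spec.mk (nat_lit 3711) (nat_lit 0) [] (nat_lit 0) [] false,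
   Spec.mk (nat_lit 3717) (nat_lit 0) [] (nat_lit 0) [] false,
   Spec.mk (nat_lit 3731) (nat_lit 0) [] (nat_lit 0) [] false,
   Spec.mk (nat_lit 3733) (nat_lit 0) [] (nat_lit 0) [] false,
   Spec.mk (nat_lit 3737) (nat_lit 0) [] (nat_lit 0) [] false,
   Spec.mk (nat_lit 3739) (nat_lit 0) [] (nat_lit 0) [] false,
   Spec.mk (nat_lit 3741) (nat_lit 0) [] (nat_lit 0) [] false,
   Spec.mk (nat_lit 3745) (nat_lit 0) [] (nat_lit 0) [] false,
   Spec.mk (nat_lit 3747) (nat_lit 0) [] (nat_lit 0) [] false,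
   Spec.mk (nat_lit 3755) (nat_lit 0) [] (nat_lit 0) [] false,
   Spec.mk (nat_lit 3757) (nat_lit 0) [] (nat_lit 0) [] false,
   Spec.mk (nat_lit 3759) (nat_lit 0) [] (nat_lit 0) [] false,
   Spec.mk (nat_lit 3763) (nat_lit 0) [] (nat_lit 0) [] false,
   Spec.mk (nat_lit 3765) (nat_lit 0) [] (nat_lit 0) [] false,
   Spec.mk (nat_lit 3771) (nat_lit 0) [] (nat_lit 0) [] false,
   Spec.mk (nat_lit 3781) (nat_lit 0) [] (nat_lit 0) [] false,
   Spec.mk (nat_lit 3783) (nat_lit 0) [] (nat_lit 0) [] false,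
   Spec.mk (nat_lit 3789) (nat_lit 0) [] (nat_lit 0) [] false,
   Spec.mk (nat_lit 3809) (nat_lit 0) [] (nat_lit 0) [] false,
   Spec.mk (nat_lit 3811) (nat_lit 0) [] (nat_lit 0) [] false,
   Spec.mk (nat_lit 3813) (nat_lit 0) [] (nat_lit 0) [] false,
   Spec.mk (nat_lit 3817) (nat_lit 0) [] (nat_lit 0) [] false,
   Spec.mk (nat_lit 3819) (nat_lit 0) [] (nat_lit 0) [] false,
   Spec.mk (nat_lit 3825) (nat_lit 0) [] (nat_lit 0) [] false,
   Spec.mk (nat_lit 3835) (nat_lit 0) [] (nat_lit 0) [] false,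
   Spec.mk (nat_lit 3837) (nat_lit 0) [] (nat_lit 0) [] false,
   Spec.mk (nat_lit 3843) (nat_lit 0) [] (nat_lit 0) [] false,
   Spec.mk (nat_lit 3861) (nat_lit 0) [] (nat_lit 0) [] false,
   Spec.mk (nat_lit 3893) (nat_lit 0) [] (nat_lit 0) [] false,
   Spec.mk (nat_lit 3895) (nat_lit 0) [] (nat_lit 0) [] false,
   Spec.mk (nat_lit 3899) (nat_lit 0) [] (nat_lit 0) [] false,
   Spec.mk (nat_lit 3901) (nat_lit 0) [] (nat_lit 0) [] false,
   Spec.mk (nat_lit 3903) (nat_lit 0) [] (nat_lit 0) [] false,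
   Spec.mk (nat_lit 3907) (nat_lit 0) [] (nat_lit 0) [] false,
   Spec.mk (nat_lit 3909) (nat_lit 0) [] (nat_lit 0) [] false,
   Spec.mk (nat_lit 3917) (nat_lit 0) [] (nat_lit 0) [] false,
   Spec.mk (nat_lit 3919) (nat_lit 0) [] (nat_lit 0) [] false,
   Spec.mk (nat_lit 3921) (nat_lit 0) [] (nat_lit 0) [] false,
   Spec.mk (nat_lit 3925) (nat_lit 0) [] (nat_lit 0) [] false,
   Spec.mk (nat_lit 3927) (nat_lit 0) [] (nat_lit 0) [] false,
   Spec.mk (nat_lit 3933) (nat_lit 0) [] (nat_lit 0) [] false,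
   Spec.mk (nat_lit 3943) (nat_lit 0) [] (nat_lit 0) [] false,
   Spec.mk (nat_lit 3945) (nat_lit 0) [] (nat_lit 0) [] false]

noncomputable def cd12 : List Spec :=
  [Spec.mk (nat_lit 3951) (nat_lit 0) [] (nat_lit 0) [] false,
   Spec.mk (nat_lit 3971) (nat_lit 0) [] (nat_lit 0) [] false,
   Spec.mk (nat_lit 3973) (nat_lit 0) [] (nat_lit 0) [] false,
   Spec.mk (nat_lit 3975) (nat_lit 0) [] (nat_lit 0) [] false,
   Spec.mk (nat_lit 3979) (nat_lit 0) [] (nat_lit 0) [] false,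
   Spec.mk (nat_lit 3981) (nat_lit 0) [] (nat_lit 0) [] false,
   Spec.mk (nat_lit 3987) (nat_lit 0) [] (nat_lit 0) [] false,
   Spec.mk (nat_lit 3997) (nat_lit 0) [] (nat_lit 0) [] false,
   Spec.mk (nat_lit 3999) (nat_lit 0) [] (nat_lit 0) [] false,
   Spec.mk (nat_lit 4005) (nat_lit 0) [] (nat_lit 0) [] false,
   Spec.mk (nat_lit 4023) (nat_lit 0) [] (nat_lit 0) [] false,
   Spec.mk (nat_lit 4051) (nat_lit 0) [] (nat_lit 0) [] false,
   Spec.mk (nat_lit 4053) (nat_lit 0) [] (nat_lit 0) [] false,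
   Spec.mk (nat_lit 4059) (nat_lit 0) [] (nat_lit 0) [] false,
   Spec.mk (nat_lit 4077) (nat_lit 0) [] (nat_lit 0) [] false,
   Spec.mk (nat_lit 4133) (nat_lit 0) [] (nat_lit 0) [] false,
   Spec.mk (nat_lit 4135) (nat_lit 0) [] (nat_lit 0) [] false,
   Spec.mk (nat_lit 4137) (nat_lit 0) [] (nat_lit 0) [] false,
   Spec.mk (nat_lit 4141) (nat_lit 0) [] (nat_lit 0) [] false,
   Spec.mk (nat_lit 4143) (nat_lit 0) [] (nat_lit 0) [] false,
   Spec.mk (nat_lit 4149) (nat_lit 0) [] (nat_lit 0) [] false,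
   Spec.mk (nat_lit 4159) (nat_lit 0) [] (nat_lit 0) [] false,
   Spec.mk (nat_lit 4161) (nat_lit 0) [] (nat_lit 0) [] false,
   Spec.mk (nat_lit 4167) (nat_lit 0) [] (nat_lit 0) [] false,
   Spec.mk (nat_lit 4185) (nat_lit 0) [] (nat_lit 0) [] false,
   Spec.mk (nat_lit 4213) (nat_lit 0) [] (nat_lit 0) [] false,
   Spec.mk (nat_lit 4215) (nat_lit 0) [] (nat_lit 0) [] false,
   Spec.mk (nat_lit 4221) (nat_lit 0) [] (nat_lit 0) [] false,
   Spec.mk (nat_lit 4239) (nat_lit 0) [] (nat_lit 0) [] false,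
   Spec.mk (nat_lit 4293) (nat_lit 0) [] (nat_lit 0) [] false,
   Spec.mk (nat_lit 4391) (nat_lit 0) [] (nat_lit 0) [] false,
   Spec.mk (nat_lit 4397) (nat_lit 0) [] (nat_lit 0) [] false,
   Spec.mk (nat_lit 4399) (nat_lit 0) [] (nat_lit 0) [] false,
   Spec.mk (nat_lit 4409) (nat_lit 0) [] (nat_lit 0) [] false,
   Spec.mk (nat_lit 4415) (nat_lit 0) [] (nat_lit 0) [] false,
   Spec.mk (nat_lit 4417) (nat_lit 0) [] (nat_lit 0) [] false,
   Spec.mk (nat_lit 4421) (nat_lit 0) [] (nat_lit 0) [] false,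
   Spec.mk (nat_lit 4423) (nat_lit 0) [] (nat_lit 0) [] false,
   Spec.mk (nat_lit 4425) (nat_lit 0) [] (nat_lit 0) [] false,
   Spec.mk (nat_lit 4433) (nat_lit 0) [] (nat_lit 0) [] false,
   Spec.mk (nat_lit 4435) (nat_lit 0) [] (nat_lit 0) [] false,
   Spec.mk (nat_lit 4439) (nat_lit 0) [] (nat_lit 0) [] false,
   Spec.mk (nat_lit 4441) (nat_lit 0) [] (nat_lit 0) [] false,
   Spec.mk (nat_lit 4443) (nat_lit 0) [] (nat_lit 0) [] false,
   Spec.mk (nat_lit 4447) (nat_lit 0) [] (nat_lit 0) [] false,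
   Spec.mk (nat_lit 4449) (nat_lit 0) [] (nat_lit 0) [] false,
   Spec.mk (nat_lit 4463) (nat_lit 0) [] (nat_lit 0) [] false,
   Spec.mk (nat_lit 4469) (nat_lit 0) [] (nat_lit 0) [] false,
   Spec.mk (nat_lit 4471) (nat_lit 0) [] (nat_lit 0) [] false,
   Spec.mk (nat_lit 4475) (nat_lit 0) [] (nat_lit 0) [] false,
   Spec.mk (nat_lit 4477) (nat_lit 0) [] (nat_lit 0) [] false,
   Spec.mk (nat_lit 4479) (nat_lit 0) [] (nat_lit 0) [] false,
   Spec.mk (nat_lit 4487) (nat_lit 0) [] (nat_lit 0) [] false,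
   Spec.mk (nat_lit 4489) (nat_lit 0) [] (nat_lit 0) [] false,
   Spec.mk (nat_lit 4493) (nat_lit 0) [] (nat_lit 0) [] false,
   Spec.mk (nat_lit 4495) (nat_lit 0) [] (nat_lit 0) [] false,
   Spec.mk (nat_lit 4497) (nat_lit 0) [] (nat_lit 0) [] false,
   Spec.mk (nat_lit 4501) (nat_lit 0) [] (nat_lit 0) [] false,
   Spec.mk (nat_lit 4503) (nat_lit 0) [] (nat_lit 0) [] false,
   Spec.mk (nat_lit 4511) (nat_lit 0) [] (nat_lit 0) [] false]

noncomputable def cd13 : List Spec :=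
  [Spec.mk (nat_lit 4513) (nat_lit 0) [] (nat_lit 0) [] false,
   Spec.mk (nat_lit 4515) (nat_lit 0) [] (nat_lit 0) [] false,
   Spec.mk (nat_lit 4519) (nat_lit 0) [] (nat_lit 0) [] false,
   Spec.mk (nat_lit 4521) (nat_lit 0) [] (nat_lit 0) [] false,
   Spec.mk (nat_lit 4527) (nat_lit 0) [] (nat_lit 0) [] false,
   Spec.mk (nat_lit 4541) (nat_lit 0) [] (nat_lit 0) [] false,
   Spec.mk (nat_lit 4543) (nat_lit 0) [] (nat_lit 0) [] false,
   Spec.mk (nat_lit 4547) (nat_lit 0) [] (nat_lit 0) [] false,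
   Spec.mk (nat_lit 4549) (nat_lit 0) [] (nat_lit 0) [] false,
   Spec.mk (nat_lit 4551) (nat_lit 0) [] (nat_lit 0) [] false,
   Spec.mk (nat_lit 4555) (nat_lit 0) [] (nat_lit 0) [] false,
   Spec.mk (nat_lit 4557) (nat_lit 0) [] (nat_lit 0) [] false,
   Spec.mk (nat_lit 4565) (nat_lit 0) [] (nat_lit 0) [] false,
   Spec.mk (nat_lit 4567) (nat_lit 0) [] (nat_lit 0) [] false,
   Spec.mk (nat_lit 4569) (nat_lit 0) [] (nat_lit 0) [] false,
   Spec.mk (nat_lit 4573) (nat_lit 0) [] (nat_lit 0) [] false,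
   Spec.mk (nat_lit 4575) (nat_lit 0) [] (nat_lit 0) [] false,
   Spec.mk (nat_lit 4581) (nat_lit 0) [] (nat_lit 0) [] false,
   Spec.mk (nat_lit 4591) (nat_lit 0) [] (nat_lit 0) [] false,
   Spec.mk (nat_lit 4593) (nat_lit 0) [] (nat_lit 0) [] false,
   Spec.mk (nat_lit 4599) (nat_lit 0) [] (nat_lit 0) [] false,
   Spec.mk (nat_lit 4625) (nat_lit 0) [] (nat_lit 0) [] false,
   Spec.mk (nat_lit 4631) (nat_lit 0) [] (nat_lit 0) [] false,
   Spec.mk (nat_lit 4633) (nat_lit 0) [] (nat_lit 0) [] false,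
   Spec.mk (nat_lit 4637) (nat_lit 0) [] (nat_lit 0) [] false,
   Spec.mk (nat_lit 4639) (nat_lit 0) [] (nat_lit 0) [] false,
   Spec.mk (nat_lit 4641) (nat_lit 0) [] (nat_lit 0) [] false,
   Spec.mk (nat_lit 4649) (nat_lit 0) [] (nat_lit 0) [] false,
   Spec.mk (nat_lit 4651) (nat_lit 0) [] (nat_lit 0) [] false,
   Spec.mk (nat_lit 4655) (nat_lit 0) [] (nat_lit 0) [] false,
   Spec.mk (nat_lit 4657) (nat_lit 0) [] (nat_lit 0) [] false,
   Spec.mk (nat_lit 4659) (nat_lit 0) [] (nat_lit 0) [] false,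
   Spec.mk (nat_lit 4663) (nat_lit 0) [] (nat_lit 0) [] false,
   Spec.mk (nat_lit 4665) (nat_lit 0) [] (nat_lit 0) [] false,
   Spec.mk (nat_lit 4673) (nat_lit 0) [] (nat_lit 0) [] false,
   Spec.mk (nat_lit 4675) (nat_lit 0) [] (nat_lit 0) [] false,
   Spec.mk (nat_lit 4677) (nat_lit 0) [] (nat_lit 0) [] false,
   Spec.mk (nat_lit 4681) (nat_lit 0) [] (nat_lit 0) [] false,
   Spec.mk (nat_lit 4683) (nat_lit 0) [] (nat_lit 0) [] false,
   Spec.mk (nat_lit 4689) (nat_lit 0) [] (nat_lit 0) [] false,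
   Spec.mk (nat_lit 4703) (nat_lit 0) [] (nat_lit 0) [] false,
   Spec.mk (nat_lit 4705) (nat_lit 0) [] (nat_lit 0) [] false,
   Spec.mk (nat_lit 4709) (nat_lit 0) [] (nat_lit 0) [] false,
   Spec.mk (nat_lit 4711) (nat_lit 0) [] (nat_lit 0) [] false,
   Spec.mk (nat_lit 4713) (nat_lit 0) [] (nat_lit 0) [] false,
   Spec.mk (nat_lit 4717) (nat_lit 0) [] (nat_lit 0) [] false,
   Spec.mk (nat_lit 4719) (nat_lit 0) [] (nat_lit 0) [] false,
   Spec.mk (nat_lit 4727) (nat_lit 0) [] (nat_lit 0) [] false,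
   Spec.mk (nat_lit 4729) (nat_lit 0) [] (nat_lit 0) [] false,
   Spec.mk (nat_lit 4731) (nat_lit 0) [] (nat_lit 0) [] false,
   Spec.mk (nat_lit 4735) (nat_lit 0) [] (nat_lit 0) [] false,
   Spec.mk (nat_lit 4737) (nat_lit 0) [] (nat_lit 0) [] false,
   Spec.mk (nat_lit 4743) (nat_lit 0) [] (nat_lit 0) [] false,
   Spec.mk (nat_lit 4753) (nat_lit 0) [] (nat_lit 0) [] false,
   Spec.mk (nat_lit 4755) (nat_lit 0) [] (nat_lit 0) [] false,
   Spec.mk (nat_lit 4761) (nat_lit 0) [] (nat_lit 0) [] false,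
   Spec.mk (nat_lit 4781) (nat_lit 0) [] (nat_lit 0) [] false,
   Spec.mk (nat_lit 4783) (nat_lit 0) [] (nat_lit 0) [] false,
   Spec.mk (nat_lit 4785) (nat_lit 0) [] (nat_lit 0) [] false,
   Spec.mk (nat_lit 4789) (nat_lit 0) [] (nat_lit 0) [] false]

noncomputable def cd14 : List Spec :=
  [Spec.mk (nat_lit 4791) (nat_lit 0) [] (nat_lit 0) [] false,
   Spec.mk (nat_lit 4797) (nat_lit 0) [] (nat_lit 0) [] false,
   Spec.mk (nat_lit 4807) (nat_lit 0) [] (nat_lit 0) [] false,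
   Spec.mk (nat_lit 4809) (nat_lit 0) [] (nat_lit 0) [] false,
   Spec.mk (nat_lit 4815) (nat_lit 0) [] (nat_lit 0) [] false,
   Spec.mk (nat_lit 4833) (nat_lit 0) [] (nat_lit 0) [] false,
   Spec.mk (nat_lit 4865) (nat_lit 0) [] (nat_lit 0) [] false,
   Spec.mk (nat_lit 4867) (nat_lit 0) [] (nat_lit 0) [] false,
   Spec.mk (nat_lit 4871) (nat_lit 0) [] (nat_lit 0) [] false,
   Spec.mk (nat_lit 4873) (nat_lit 0) [] (nat_lit 0) [] false,
   Spec.mk (nat_lit 4875) (nat_lit 0) [] (nat_lit 0) [] false,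
   Spec.mk (nat_lit 4879) (nat_lit 0) [] (nat_lit 0) [] false,
   Spec.mk (nat_lit 4881) (nat_lit 0) [] (nat_lit 0) [] false,
   Spec.mk (nat_lit 4889) (nat_lit 0) [] (nat_lit 0) [] false,
   Spec.mk (nat_lit 4891) (nat_lit 0) [] (nat_lit 0) [] false,
   Spec.mk (nat_lit 4893) (nat_lit 0) [] (nat_lit 0) [] false,
   Spec.mk (nat_lit 4897) (nat_lit 0) [] (nat_lit 0) [] false,
   Spec.mk (nat_lit 4899) (nat_lit 0) [] (nat_lit 0) [] false,
   Spec.mk (nat_lit 4905) (nat_lit 0) [] (nat_lit 0) [] false,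
   Spec.mk (nat_lit 4915) (nat_lit 0) [] (nat_lit 0) [] false,
   Spec.mk (nat_lit 4917) (nat_lit 0) [] (nat_lit 0) [] false,
   Spec.mk (nat_lit 4923) (nat_lit 0) [] (nat_lit 0) [] false,
   Spec.mk (nat_lit 4943) (nat_lit 0) [] (nat_lit 0) [] false,
   Spec.mk (nat_lit 4945) (nat_lit 0) [] (nat_lit 0) [] false,
   Spec.mk (nat_lit 4947) (nat_lit 0) [] (nat_lit 0) [] false,
   Spec.mk (nat_lit 4951) (nat_lit 0) [] (nat_lit 0) [] false,
   Spec.mk (nat_lit 4953) (nat_lit 0) [] (nat_lit 0) [] false,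
   Spec.mk (nat_lit 4959) (nat_lit 0) [] (nat_lit 0) [] false,
   Spec.mk (nat_lit 4969) (nat_lit 0) [] (nat_lit 0) [] false,
   Spec.mk (nat_lit 4971) (nat_lit 0) [] (nat_lit 0) [] false,
   Spec.mk (nat_lit 4977) (nat_lit 0) [] (nat_lit 0) [] false,
   Spec.mk (nat_lit 4995) (nat_lit 0) [] (nat_lit 0) [] false,
   Spec.mk (nat_lit 5023) (nat_lit 0) [] (nat_lit 0) [] false,
   Spec.mk (nat_lit 5025) (nat_lit 0) [] (nat_lit 0) [] false,
   Spec.mk (nat_lit 5031) (nat_lit 0) [] (nat_lit 0) [] false,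
   Spec.mk (nat_lit 5049) (nat_lit 0) [] (nat_lit 0) [] false,
   Spec.mk (nat_lit 5111) (nat_lit 0) [] (nat_lit 0) [] false,
   Spec.mk (nat_lit 5117) (nat_lit 0) [] (nat_lit 0) [] false,
   Spec.mk (nat_lit 5119) (nat_lit 0) [] (nat_lit 0) [] false,
   Spec.mk (nat_lit 5123) (nat_lit 0) [] (nat_lit 0) [] false,
   Spec.mk (nat_lit 5125) (nat_lit 0) [] (nat_lit 0) [] false,
   Spec.mk (nat_lit 5127) (nat_lit 0) [] (nat_lit 0) [] false,
   Spec.mk (nat_lit 5135) (nat_lit 0) [] (nat_lit 0) [] false,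
   Spec.mk (nat_lit 5137) (nat_lit 0) [] (nat_lit 0) [] false,
   Spec.mk (nat_lit 5141) (nat_lit 0) [] (nat_lit 0) [] false,
   Spec.mk (nat_lit 5143) (nat_lit 0) [] (nat_lit 0) [] false,
   Spec.mk (nat_lit 5145) (nat_lit 0) [] (nat_lit 0) [] false,
   Spec.mk (nat_lit 5149) (nat_lit 0) [] (nat_lit 0) [] false,
   Spec.mk (nat_lit 5151) (nat_lit 0) [] (nat_lit 0) [] false,
   Spec.mk (nat_lit 5159) (nat_lit 0) [] (nat_lit 0) [] false,
   Spec.mk (nat_lit 5161) (nat_lit 0) [] (nat_lit 0) [] false,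
   Spec.mk (nat_lit 5163) (nat_lit 0) [] (nat_lit 0) [] false,
   Spec.mk (nat_lit 5167) (nat_lit 0) [] (nat_lit 0) [] false,
   Spec.mk (nat_lit 5169) (nat_lit 0) [] (nat_lit 0) [] false,
   Spec.mk (nat_lit 5175) (nat_lit 0) [] (nat_lit 0) [] false,
   Spec.mk (nat_lit 5189) (nat_lit 0) [] (nat_lit 0) [] false,
   Spec.mk (nat_lit 5191) (nat_lit 0) [] (nat_lit 0) [] false,
   Spec.mk (nat_lit 5195) (nat_lit 0) [] (nat_lit 0) [] false,
   Spec.mk (nat_lit 5197) (nat_lit 0) [] (nat_lit 0) [] false,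
   Spec.mk (nat_lit 5199) (nat_lit 0) [] (nat_lit 0) [] false]

noncomputable def cd15 : List Spec :=
  [Spec.mk (nat_lit 5203) (nat_lit 0) [] (nat_lit 0) [] false,
   Spec.mk (nat_lit 5205) (nat_lit 0) [] (nat_lit 0) [] false,
   Spec.mk (nat_lit 5213) (nat_lit 0) [] (nat_lit 0) [] false,
   Spec.mk (nat_lit 5215) (nat_lit 0) [] (nat_lit 0) [] false,
   Spec.mk (nat_lit 5217) (nat_lit 0) [] (nat_lit 0) [] false,
   Spec.mk (nat_lit 5221) (nat_lit 0) [] (nat_lit 0) [] false,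
   Spec.mk (nat_lit 5223) (nat_lit 0) [] (nat_lit 0) [] false,
   Spec.mk (nat_lit 5229) (nat_lit 0) [] (nat_lit 0) [] false,
   Spec.mk (nat_lit 5239) (nat_lit 0) [] (nat_lit 0) [] false,
   Spec.mk (nat_lit 5241) (nat_lit 0) [] (nat_lit 0) [] false,
   Spec.mk (nat_lit 5247) (nat_lit 0) [] (nat_lit 0) [] false,
   Spec.mk (nat_lit 5267) (nat_lit 0) [] (nat_lit 0) [] false,
   Spec.mk (nat_lit 5269) (nat_lit 0) [] (nat_lit 0) [] false,
   Spec.mk (nat_lit 5271) (nat_lit 0) [] (nat_lit 0) [] false,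
   Spec.mk (nat_lit 5275) (nat_lit 0) [] (nat_lit 0) [] false,
   Spec.mk (nat_lit 5277) (nat_lit 0) [] (nat_lit 0) [] false,
   Spec.mk (nat_lit 5283) (nat_lit 0) [] (nat_lit 0) [] false,
   Spec.mk (nat_lit 5293) (nat_lit 0) [] (nat_lit 0) [] false,
   Spec.mk (nat_lit 5295) (nat_lit 0) [] (nat_lit 0) [] false,
   Spec.mk (nat_lit 5301) (nat_lit 0) [] (nat_lit 0) [] false,
   Spec.mk (nat_lit 5319) (nat_lit 0) [] (nat_lit 0) [] false,
   Spec.mk (nat_lit 5351) (nat_lit 0) [] (nat_lit 0) [] false,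
   Spec.mk (nat_lit 5353) (nat_lit 0) [] (nat_lit 0) [] false,
   Spec.mk (nat_lit 5357) (nat_lit 0) [] (nat_lit 0) [] false,
   Spec.mk (nat_lit 5359) (nat_lit 0) [] (nat_lit 0) [] false,
   Spec.mk (nat_lit 5361) (nat_lit 0) [] (nat_lit 0) [] false,
   Spec.mk (nat_lit 5365) (nat_lit 0) [] (nat_lit 0) [] false,
   Spec.mk (nat_lit 5367) (nat_lit 0) [] (nat_lit 0) [] false,
   Spec.mk (nat_lit 5375) (nat_lit 0) [] (nat_lit 0) [] false,
   Spec.mk (nat_lit 5377) (nat_lit 0) [] (nat_lit 0) [] false,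
   Spec.mk (nat_lit 5379) (nat_lit 0) [] (nat_lit 0) [] false,
   Spec.mk (nat_lit 5383) (nat_lit 0) [] (nat_lit 0) [] false,
   Spec.mk (nat_lit 5385) (nat_lit 0) [] (nat_lit 0) [] false,
   Spec.mk (nat_lit 5391) (nat_lit 0) [] (nat_lit 0) [] false,
   Spec.mk (nat_lit 5401) (nat_lit 0) [] (nat_lit 0) [] false,
   Spec.mk (nat_lit 5403) (nat_lit 0) [] (nat_lit 0) [] false,
   Spec.mk (nat_lit 5409) (nat_lit 0) [] (nat_lit 0) [] false,
   Spec.mk (nat_lit 5429) (nat_lit 0) [] (nat_lit 0) [] false,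
   Spec.mk (nat_lit 5431) (nat_lit 0) [] (nat_lit 0) [] false,
   Spec.mk (nat_lit 5433) (nat_lit 0) [] (nat_lit 0) [] false,
   Spec.mk (nat_lit 5437) (nat_lit 0) [] (nat_lit 0) [] false,
   Spec.mk (nat_lit 5439) (nat_lit 0) [] (nat_lit 0) [] false,
   Spec.mk (nat_lit 5445) (nat_lit 0) [] (nat_lit 0) [] false,
   Spec.mk (nat_lit 5455) (nat_lit 0) [] (nat_lit 0) [] false,
   Spec.mk (nat_lit 5457) (nat_lit 0) [] (nat_lit 0) [] false,
   Spec.mk (nat_lit 5463) (nat_lit 0) [] (nat_lit 0) [] false,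
   Spec.mk (nat_lit 5481) (nat_lit 0) [] (nat_lit 0) [] false,
   Spec.mk (nat_lit 5509) (nat_lit 0) [] (nat_lit 0) [] false,
   Spec.mk (nat_lit 5511) (nat_lit 0) [] (nat_lit 0) [] false,
   Spec.mk (nat_lit 5517) (nat_lit 0) [] (nat_lit 0) [] false,
   Spec.mk (nat_lit 5535) (nat_lit 0) [] (nat_lit 0) [] false,
   Spec.mk (nat_lit 5591) (nat_lit 0) [] (nat_lit 0) [] false,
   Spec.mk (nat_lit 5593) (nat_lit 0) [] (nat_lit 0) [] false,
   Spec.mk (nat_lit 5595) (nat_lit 0) [] (nat_lit 0) [] false,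
   Spec.mk (nat_lit 5599) (nat_lit 0) [] (nat_lit 0) [] false,
   Spec.mk (nat_lit 5601) (nat_lit 0) [] (nat_lit 0) [] false,
   Spec.mk (nat_lit 5607) (nat_lit 0) [] (nat_lit 0) [] false,
   Spec.mk (nat_lit 5617) (nat_lit 0) [] (nat_lit 0) [] false,
   Spec.mk (nat_lit 5619) (nat_lit 0) [] (nat_lit 0) [] false,
   Spec.mk (nat_lit 5625) (nat_lit 0) [] (nat_lit 0) [] false]

noncomputable def cd16 : List Spec :=
  [Spec.mk (nat_lit 5643) (nat_lit 0) [] (nat_lit 0) [] false,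
   Spec.mk (nat_lit 5671) (nat_lit 0) [] (nat_lit 0) [] false,
   Spec.mk (nat_lit 5673) (nat_lit 0) [] (nat_lit 0) [] false,
   Spec.mk (nat_lit 5679) (nat_lit 0) [] (nat_lit 0) [] false,
   Spec.mk (nat_lit 5697) (nat_lit 0) [] (nat_lit 0) [] false,
   Spec.mk (nat_lit 5751) (nat_lit 0) [] (nat_lit 0) [] false,
   Spec.mk (nat_lit 5837) (nat_lit 0) [] (nat_lit 0) [] false,
   Spec.mk (nat_lit 5839) (nat_lit 0) [] (nat_lit 0) [] false,
   Spec.mk (nat_lit 5843) (nat_lit 0) [] (nat_lit 0) [] false,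
   Spec.mk (nat_lit 5845) (nat_lit 0) [] (nat_lit 0) [] false,
   Spec.mk (nat_lit 5847) (nat_lit 0) [] (nat_lit 0) [] false,
   Spec.mk (nat_lit 5851) (nat_lit 0) [] (nat_lit 0) [] false,
   Spec.mk (nat_lit 5853) (nat_lit 0) [] (nat_lit 0) [] false,
   Spec.mk (nat_lit 5861) (nat_lit 0) [] (nat_lit 0) [] false,
   Spec.mk (nat_lit 5863) (nat_lit 0) [] (nat_lit 0) [] false,
   Spec.mk (nat_lit 5865) (nat_lit 0) [] (nat_lit 0) [] false,
   Spec.mk (nat_lit 5869) (nat_lit 0) [] (nat_lit 0) [] false,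
   Spec.mk (nat_lit 5871) (nat_lit 0) [] (nat_lit 0) [] false,
   Spec.mk (nat_lit 5877) (nat_lit 0) [] (nat_lit 0) [] false,
   Spec.mk (nat_lit 5887) (nat_lit 0) [] (nat_lit 0) [] false,
   Spec.mk (nat_lit 5889) (nat_lit 0) [] (nat_lit 0) [] false,
   Spec.mk (nat_lit 5895) (nat_lit 0) [] (nat_lit 0) [] false,
   Spec.mk (nat_lit 5915) (nat_lit 0) [] (nat_lit 0) [] false,
   Spec.mk (nat_lit 5917) (nat_lit 0) [] (nat_lit 0) [] false,
   Spec.mk (nat_lit 5919) (nat_lit 0) [] (nat_lit 0) [] false,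
   Spec.mk (nat_lit 5923) (nat_lit 0) [] (nat_lit 0) [] false,
   Spec.mk (nat_lit 5925) (nat_lit 0) [] (nat_lit 0) [] false,
   Spec.mk (nat_lit 5931) (nat_lit 0) [] (nat_lit 0) [] false,
   Spec.mk (nat_lit 5941) (nat_lit 0) [] (nat_lit 0) [] false,
   Spec.mk (nat_lit 5943) (nat_lit 0) [] (nat_lit 0) [] false,
   Spec.mk (nat_lit 5949) (nat_lit 0) [] (nat_lit 0) [] false,
   Spec.mk (nat_lit 5967) (nat_lit 0) [] (nat_lit 0) [] false,
   Spec.mk (nat_lit 5995) (nat_lit 0) [] (nat_lit 0) [] false,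
   Spec.mk (nat_lit 5997) (nat_lit 0) [] (nat_lit 0) [] false,
   Spec.mk (nat_lit 6003) (nat_lit 0) [] (nat_lit 0) [] false,
   Spec.mk (nat_lit 6021) (nat_lit 0) [] (nat_lit 0) [] false,
   Spec.mk (nat_lit 6077) (nat_lit 0) [] (nat_lit 0) [] false,
   Spec.mk (nat_lit 6079) (nat_lit 0) [] (nat_lit 0) [] false,
   Spec.mk (nat_lit 6081) (nat_lit 0) [] (nat_lit 0) [] false,
   Spec.mk (nat_lit 6085) (nat_lit 0) [] (nat_lit 0) [] false,
   Spec.mk (nat_lit 6087) (nat_lit 0) [] (nat_lit 0) [] false,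
   Spec.mk (nat_lit 6093) (nat_lit 0) [] (nat_lit 0) [] false,
   Spec.mk (nat_lit 6103) (nat_lit 0) [] (nat_lit 0) [] false,
   Spec.mk (nat_lit 6105) (nat_lit 0) [] (nat_lit 0) [] false,
   Spec.mk (nat_lit 6111) (nat_lit 0) [] (nat_lit 0) [] false,
   Spec.mk (nat_lit 6129) (nat_lit 0) [] (nat_lit 0) [] false,
   Spec.mk (nat_lit 6157) (nat_lit 0) [] (nat_lit 0) [] false,
   Spec.mk (nat_lit 6159) (nat_lit 0) [] (nat_lit 0) [] false,
   Spec.mk (nat_lit 6165) (nat_lit 0) [] (nat_lit 0) [] false,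
   Spec.mk (nat_lit 6183) (nat_lit 0) [] (nat_lit 0) [] false,
   Spec.mk (nat_lit 6237) (nat_lit 0) [] (nat_lit 0) [] false,
   Spec.mk (nat_lit 6319) (nat_lit 0) [] (nat_lit 0) [] false,
   Spec.mk (nat_lit 6321) (nat_lit 0) [] (nat_lit 0) [] false,
   Spec.mk (nat_lit 6327) (nat_lit 0) [] (nat_lit 0) [] false,
   Spec.mk (nat_lit 6345) (nat_lit 0) [] (nat_lit 0) [] false,
   Spec.mk (nat_lit 6399) (nat_lit 0) [] (nat_lit 0) [] false,
   Spec.mk (nat_lit 6587) (nat_lit 0) [] (nat_lit 0) [] false,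
   Spec.mk (nat_lit 6605) (nat_lit 0) [] (nat_lit 0) [] false,
   Spec.mk (nat_lit 6611) (nat_lit 0) [] (nat_lit 0) [] false,
   Spec.mk (nat_lit 6613) (nat_lit 0) [] (nat_lit 0) [] false]

noncomputable def cd17 : List Spec :=
  [Spec.mk (nat_lit 6623) (nat_lit 0) [] (nat_lit 0) [] false,
   Spec.mk (nat_lit 6629) (nat_lit 0) [] (nat_lit 0) [] false,
   Spec.mk (nat_lit 6631) (nat_lit 0) [] (nat_lit 0) [] false,
   Spec.mk (nat_lit 6635) (nat_lit 0) [] (nat_lit 0) [] false,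
   Spec.mk (nat_lit 6637) (nat_lit 0) [] (nat_lit 0) [] false,
   Spec.mk (nat_lit 6639) (nat_lit 0) [] (nat_lit 0) [] false,
   Spec.mk (nat_lit 6659) (nat_lit 0) [] (nat_lit 0) [] false,
   Spec.mk (nat_lit 6665) (nat_lit 0) [] (nat_lit 0) [] false,
   Spec.mk (nat_lit 6667) (nat_lit 0) [] (nat_lit 0) [] false,
   Spec.mk (nat_lit 6677) (nat_lit 0) [] (nat_lit 0) [] false,
   Spec.mk (nat_lit 6683) (nat_lit 0) [] (nat_lit 0) [] false,
   Spec.mk (nat_lit 6685) (nat_lit 0) [] (nat_lit 0) [] false,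
   Spec.mk (nat_lit 6689) (nat_lit 0) [] (nat_lit 0) [] false,
   Spec.mk (nat_lit 6691) (nat_lit 0) [] (nat_lit 0) [] false,
   Spec.mk (nat_lit 6693) (nat_lit 0) [] (nat_lit 0) [] false,
   Spec.mk (nat_lit 6701) (nat_lit 0) [] (nat_lit 0) [] false,
   Spec.mk (nat_lit 6703) (nat_lit 0) [] (nat_lit 0) [] false,
   Spec.mk (nat_lit 6707) (nat_lit 0) [] (nat_lit 0) [] false,
   Spec.mk (nat_lit 6709) (nat_lit 0) [] (nat_lit 0) [] false,
   Spec.mk (nat_lit 6711) (nat_lit 0) [] (nat_lit 0) [] false,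
   Spec.mk (nat_lit 6715) (nat_lit 0) [] (nat_lit 0) [] false,
   Spec.mk (nat_lit 6717) (nat_lit 0) [] (nat_lit 0) [] false,
   Spec.mk (nat_lit 6731) (nat_lit 0) [] (nat_lit 0) [] false,
   Spec.mk (nat_lit 6737) (nat_lit 0) [] (nat_lit 0) [] false,
   Spec.mk (nat_lit 6739) (nat_lit 0) [] (nat_lit 0) [] false,
   Spec.mk (nat_lit 6743) (nat_lit 0) [] (nat_lit 0) [] false,
   Spec.mk (nat_lit 6745) (nat_lit 0) [] (nat_lit 0) [] false,
   Spec.mk (nat_lit 6747) (nat_lit 0) [] (nat_lit 0) [] false,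
   Spec.mk (nat_lit 6755) (nat_lit 0) [] (nat_lit 0) [] false,
   Spec.mk (nat_lit 6757) (nat_lit 0) [] (nat_lit 0) [] false,
   Spec.mk (nat_lit 6761) (nat_lit 0) [] (nat_lit 0) [] false,
   Spec.mk (nat_lit 6763) (nat_lit 0) [] (nat_lit 0) [] false,
   Spec.mk (nat_lit 6765) (nat_lit 0) [] (nat_lit 0) [] false,
   Spec.mk (nat_lit 6769) (nat_lit 0) [] (nat_lit 0) [] false,
   Spec.mk (nat_lit 6771) (nat_lit 0) [] (nat_lit 0) [] false,
   Spec.mk (nat_lit 6779) (nat_lit 0) [] (nat_lit 0) [] false,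
   Spec.mk (nat_lit 6781) (nat_lit 0) [] (nat_lit 0) [] false,
   Spec.mk (nat_lit 6783) (nat_lit 0) [] (nat_lit 0) [] false,
   Spec.mk (nat_lit 6787) (nat_lit 0) [] (nat_lit 0) [] false,
   Spec.mk (nat_lit 6789) (nat_lit 0) [] (nat_lit 0) [] false,
   Spec.mk (nat_lit 6795) (nat_lit 0) [] (nat_lit 0) [] false,
   Spec.mk (nat_lit 6821) (nat_lit 0) [] (nat_lit 0) [] false,
   Spec.mk (nat_lit 6827) (nat_lit 0) [] (nat_lit 0) [] false,
   Spec.mk (nat_lit 6829) (nat_lit 0) [] (nat_lit 0) [] false,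
   Spec.mk (nat_lit 6839) (nat_lit 0) [] (nat_lit 0) [] false,
   Spec.mk (nat_lit 6845) (nat_lit 0) [] (nat_lit 0) [] false,
   Spec.mk (nat_lit 6847) (nat_lit 0) [] (nat_lit 0) [] false,
   Spec.mk (nat_lit 6851) (nat_lit 0) [] (nat_lit 0) [] false,
   Spec.mk (nat_lit 6853) (nat_lit 0) [] (nat_lit 0) [] false,
   Spec.mk (nat_lit 6855) (nat_lit 0) [] (nat_lit 0) [] false,
   Spec.mk (nat_lit 6863) (nat_lit 0) [] (nat_lit 0) [] false,
   Spec.mk (nat_lit 6865) (nat_lit 0) [] (nat_lit 0) [] false,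
   Spec.mk (nat_lit 6869) (nat_lit 0) [] (nat_lit 0) [] false,
   Spec.mk (nat_lit 6871) (nat_lit 0) [] (nat_lit 0) [] false,
   Spec.mk (nat_lit 6873) (nat_lit 0) [] (nat_lit 0) [] false,
   Spec.mk (nat_lit 6877) (nat_lit 0) [] (nat_lit 0) [] false,
   Spec.mk (nat_lit 6879) (nat_lit 0) [] (nat_lit 0) [] false,
   Spec.mk (nat_lit 6893) (nat_lit 0) [] (nat_lit 0) [] false,
   Spec.mk (nat_lit 6899) (nat_lit 0) [] (nat_lit 0) [] false,
   Spec.mk (nat_lit 6901) (nat_lit 0) [] (nat_lit 0) [] false]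

noncomputable def cd18 : List Spec :=
  [Spec.mk (nat_lit 6905) (nat_lit 0) [] (nat_lit 0) [] false,
   Spec.mk (nat_lit 6907) (nat_lit 0) [] (nat_lit 0) [] false,
   Spec.mk (nat_lit 6909) (nat_lit 0) [] (nat_lit 0) [] false,
   Spec.mk (nat_lit 6917) (nat_lit 0) [] (nat_lit 0) [] false,
   Spec.mk (nat_lit 6919) (nat_lit 0) [] (nat_lit 0) [] false,
   Spec.mk (nat_lit 6923) (nat_lit 0) [] (nat_lit 0) [] false,
   Spec.mk (nat_lit 6925) (nat_lit 0) [] (nat_lit 0) [] false,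
   Spec.mk (nat_lit 6927) (nat_lit 0) [] (nat_lit 0) [] false,
   Spec.mk (nat_lit 6931) (nat_lit 0) [] (nat_lit 0) [] false,
   Spec.mk (nat_lit 6933) (nat_lit 0) [] (nat_lit 0) [] false,
   Spec.mk (nat_lit 6941) (nat_lit 0) [] (nat_lit 0) [] false,
   Spec.mk (nat_lit 6943) (nat_lit 0) [] (nat_lit 0) [] false,
   Spec.mk (nat_lit 6945) (nat_lit 0) [] (nat_lit 0) [] false,
   Spec.mk (nat_lit 6949) (nat_lit 0) [] (nat_lit 0) [] false,
   Spec.mk (nat_lit 6951) (nat_lit 0) [] (nat_lit 0) [] false,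
   Spec.mk (nat_lit 6957) (nat_lit 0) [] (nat_lit 0) [] false,
   Spec.mk (nat_lit 6971) (nat_lit 0) [] (nat_lit 0) [] false,
   Spec.mk (nat_lit 6973) (nat_lit 0) [] (nat_lit 0) [] false,
   Spec.mk (nat_lit 6977) (nat_lit 0) [] (nat_lit 0) [] false,
   Spec.mk (nat_lit 6979) (nat_lit 0) [] (nat_lit 0) [] false,
   Spec.mk (nat_lit 6981) (nat_lit 0) [] (nat_lit 0) [] false,
   Spec.mk (nat_lit 6985) (nat_lit 0) [] (nat_lit 0) [] false,
   Spec.mk (nat_lit 6987) (nat_lit 0) [] (nat_lit 0) [] false,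
   Spec.mk (nat_lit 6995) (nat_lit 0) [] (nat_lit 0) [] false,
   Spec.mk (nat_lit 6997) (nat_lit 0) [] (nat_lit 0) [] false,
   Spec.mk (nat_lit 6999) (nat_lit 0) [] (nat_lit 0) [] false,
   Spec.mk (nat_lit 7003) (nat_lit 0) [] (nat_lit 0) [] false,
   Spec.mk (nat_lit 7005) (nat_lit 0) [] (nat_lit 0) [] false,
   Spec.mk (nat_lit 7011) (nat_lit 0) [] (nat_lit 0) [] false,
   Spec.mk (nat_lit 7021) (nat_lit 0) [] (nat_lit 0) [] false,
   Spec.mk (nat_lit 7023) (nat_lit 0) [] (nat_lit 0) [] false,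
   Spec.mk (nat_lit 7029) (nat_lit 0) [] (nat_lit 0) [] false,
   Spec.mk (nat_lit 7055) (nat_lit 0) [] (nat_lit 0) [] false,
   Spec.mk (nat_lit 7061) (nat_lit 0) [] (nat_lit 0) [] false,
   Spec.mk (nat_lit 7063) (nat_lit 0) [] (nat_lit 0) [] false,
   Spec.mk (nat_lit 7067) (nat_lit 0) [] (nat_lit 0) [] false,
   Spec.mk (nat_lit 7069) (nat_lit 0) [] (nat_lit 0) [] false,
   Spec.mk (nat_lit 7071) (nat_lit 0) [] (nat_lit 0) [] false,
   Spec.mk (nat_lit 7079) (nat_lit 0) [] (nat_lit 0) [] false,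
   Spec.mk (nat_lit 7081) (nat_lit 0) [] (nat_lit 0) [] false,
   Spec.mk (nat_lit 7085) (nat_lit 0) [] (nat_lit 0) [] false,
   Spec.mk (nat_lit 7087) (nat_lit 0) [] (nat_lit 0) [] false,
   Spec.mk (nat_lit 7089) (nat_lit 0) [] (nat_lit 0) [] false,
   Spec.mk (nat_lit 7093) (nat_lit 0) [] (nat_lit 0) [] false,
   Spec.mk (nat_lit 7095) (nat_lit 0) [] (nat_lit 0) [] false,
   Spec.mk (nat_lit 7103) (nat_lit 0) [] (nat_lit 0) [] false,
   Spec.mk (nat_lit 7105) (nat_lit 0) [] (nat_lit 0) [] false,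
   Spec.mk (nat_lit 7107) (nat_lit 0) [] (nat_lit 0) [] false,
   Spec.mk (nat_lit 7111) (nat_lit 0) [] (nat_lit 0) [] false,
   Spec.mk (nat_lit 7113) (nat_lit 0) [] (nat_lit 0) [] false,
   Spec.mk (nat_lit 7119) (nat_lit 0) [] (nat_lit 0) [] false,
   Spec.mk (nat_lit 7133) (nat_lit 0) [] (nat_lit 0) [] false,
   Spec.mk (nat_lit 7135) (nat_lit 0) [] (nat_lit 0) [] false,
   Spec.mk (nat_lit 7139) (nat_lit 0) [] (nat_lit 0) [] false,
   Spec.mk (nat_lit 7141) (nat_lit 0) [] (nat_lit 0) [] false,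
   Spec.mk (nat_lit 7143) (nat_lit 0) [] (nat_lit 0) [] false,
   Spec.mk (nat_lit 7147) (nat_lit 0) [] (nat_lit 0) [] false,
   Spec.mk (nat_lit 7149) (nat_lit 0) [] (nat_lit 0) [] false,
   Spec.mk (nat_lit 7157) (nat_lit 0) [] (nat_lit 0) [] false,
   Spec.mk (nat_lit 7159) (nat_lit 0) [] (nat_lit 0) [] false]

noncomputable def cd19 : List Spec :=
  [Spec.mk (nat_lit 7161) (nat_lit 0) [] (nat_lit 0) [] false,
   Spec.mk (nat_lit 7165) (nat_lit 0) [] (nat_lit 0) [] false,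
   Spec.mk (nat_lit 7167) (nat_lit 0) [] (nat_lit 0) [] false,
   Spec.mk (nat_lit 7173) (nat_lit 0) [] (nat_lit 0) [] false,
   Spec.mk (nat_lit 7183) (nat_lit 0) [] (nat_lit 0) [] false,
   Spec.mk (nat_lit 7185) (nat_lit 0) [] (nat_lit 0) [] false,
   Spec.mk (nat_lit 7191) (nat_lit 0) [] (nat_lit 0) [] false,
   Spec.mk (nat_lit 7211) (nat_lit 0) [] (nat_lit 0) [] false,
   Spec.mk (nat_lit 7213) (nat_lit 0) [] (nat_lit 0) [] false,
   Spec.mk (nat_lit 7215) (nat_lit 0) [] (nat_lit 0) [] false,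
   Spec.mk (nat_lit 7219) (nat_lit 0) [] (nat_lit 0) [] false,
   Spec.mk (nat_lit 7221) (nat_lit 0) [] (nat_lit 0) [] false,
   Spec.mk (nat_lit 7227) (nat_lit 0) [] (nat_lit 0) [] false,
   Spec.mk (nat_lit 7237) (nat_lit 0) [] (nat_lit 0) [] false,
   Spec.mk (nat_lit 7239) (nat_lit 0) [] (nat_lit 0) [] false,
   Spec.mk (nat_lit 7245) (nat_lit 0) [] (nat_lit 0) [] false,
   Spec.mk (nat_lit 7263) (nat_lit 0) [] (nat_lit 0) [] false,
   Spec.mk (nat_lit 7307) (nat_lit 0) [] (nat_lit 0) [] false,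
   Spec.mk (nat_lit 7313) (nat_lit 0) [] (nat_lit 0) [] false,
   Spec.mk (nat_lit 7315) (nat_lit 0) [] (nat_lit 0) [] false,
   Spec.mk (nat_lit 7325) (nat_lit 0) [] (nat_lit 0) [] false,
   Spec.mk (nat_lit 7331) (nat_lit 0) [] (nat_lit 0) [] false,
   Spec.mk (nat_lit 7333) (nat_lit 0) [] (nat_lit 0) [] false,
   Spec.mk (nat_lit 7337) (nat_lit 0) [] (nat_lit 0) [] false,
   Spec.mk (nat_lit 7339) (nat_lit 0) [] (nat_lit 0) [] false,
   Spec.mk (nat_lit 7341) (nat_lit 0) [] (nat_lit 0) [] false,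
   Spec.mk (nat_lit 7349) (nat_lit 0) [] (nat_lit 0) [] false,
   Spec.mk (nat_lit 7351) (nat_lit 0) [] (nat_lit 0) [] false,
   Spec.mk (nat_lit 7355) (nat_lit 0) [] (nat_lit 0) [] false,
   Spec.mk (nat_lit 7357) (nat_lit 0) [] (nat_lit 0) [] false,
   Spec.mk (nat_lit 7359) (nat_lit 0) [] (nat_lit 0) [] false,
   Spec.mk (nat_lit 7363) (nat_lit 0) [] (nat_lit 0) [] false,
   Spec.mk (nat_lit 7365) (nat_lit 0) [] (nat_lit 0) [] false,
   Spec.mk (nat_lit 7379) (nat_lit 0) [] (nat_lit 0) [] false,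
   Spec.mk (nat_lit 7385) (nat_lit 0) [] (nat_lit 0) [] false,
   Spec.mk (nat_lit 7387) (nat_lit 0) [] (nat_lit 0) [] false,
   Spec.mk (nat_lit 7391) (nat_lit 0) [] (nat_lit 0) [] false,
   Spec.mk (nat_lit 7393) (nat_lit 0) [] (nat_lit 0) [] false,
   Spec.mk (nat_lit 7395) (nat_lit 0) [] (nat_lit 0) [] false,
   Spec.mk (nat_lit 7403) (nat_lit 0) [] (nat_lit 0) [] false,
   Spec.mk (nat_lit 7405) (nat_lit 0) [] (nat_lit 0) [] false,
   Spec.mk (nat_lit 7409) (nat_lit 0) [] (nat_lit 0) [] false,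
   Spec.mk (nat_lit 7411) (nat_lit 0) [] (nat_lit 0) [] false,
   Spec.mk (nat_lit 7413) (nat_lit 0) [] (nat_lit 0) [] false,
   Spec.mk (nat_lit 7417) (nat_lit 0) [] (nat_lit 0) [] false,
   Spec.mk (nat_lit 7419) (nat_lit 0) [] (nat_lit 0) [] false,
   Spec.mk (nat_lit 7427) (nat_lit 0) [] (nat_lit 0) [] false,
   Spec.mk (nat_lit 7429) (nat_lit 0) [] (nat_lit 0) [] false,
   Spec.mk (nat_lit 7431) (nat_lit 0) [] (nat_lit 0) [] false,
   Spec.mk (nat_lit 7435) (nat_lit 0) [] (nat_lit 0) [] false,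
   Spec.mk (nat_lit 7437) (nat_lit 0) [] (nat_lit 0) [] false,
   Spec.mk (nat_lit 7443) (nat_lit 0) [] (nat_lit 0) [] false,
   Spec.mk (nat_lit 7457) (nat_lit 0) [] (nat_lit 0) [] false,
   Spec.mk (nat_lit 7459) (nat_lit 0) [] (nat_lit 0) [] false,
   Spec.mk (nat_lit 7463) (nat_lit 0) [] (nat_lit 0) [] false,
   Spec.mk (nat_lit 7465) (nat_lit 0) [] (nat_lit 0) [] false,
   Spec.mk (nat_lit 7467) (nat_lit 0) [] (nat_lit 0) [] false,
   Spec.mk (nat_lit 7471) (nat_lit 0) [] (nat_lit 0) [] false,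
   Spec.mk (nat_lit 7473) (nat_lit 0) [] (nat_lit 0) [] false,
   Spec.mk (nat_lit 7481) (nat_lit 0) [] (nat_lit 0) [] false]

noncomputable def cd20 : List Spec :=
  [Spec.mk (nat_lit 7483) (nat_lit 0) [] (nat_lit 0) [] false,
   Spec.mk (nat_lit 7485) (nat_lit 0) [] (nat_lit 0) [] false,
   Spec.mk (nat_lit 7489) (nat_lit 0) [] (nat_lit 0) [] false,
   Spec.mk (nat_lit 7491) (nat_lit 0) [] (nat_lit 0) [] false,
   Spec.mk (nat_lit 7497) (nat_lit 0) [] (nat_lit 0) [] false,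
   Spec.mk (nat_lit 7507) (nat_lit 0) [] (nat_lit 0) [] false,
   Spec.mk (nat_lit 7509) (nat_lit 0) [] (nat_lit 0) [] false,
   Spec.mk (nat_lit 7515) (nat_lit 0) [] (nat_lit 0) [] false,
   Spec.mk (nat_lit 7541) (nat_lit 0) [] (nat_lit 0) [] false,
   Spec.mk (nat_lit 7547) (nat_lit 0) [] (nat_lit 0) [] false,
   Spec.mk (nat_lit 7549) (nat_lit 0) [] (nat_lit 0) [] false,
   Spec.mk (nat_lit 7553) (nat_lit 0) [] (nat_lit 0) [] false,
   Spec.mk (nat_lit 7555) (nat_lit 0) [] (nat_lit 0) [] false,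
   Spec.mk (nat_lit 7557) (nat_lit 0) [] (nat_lit 0) [] false,
   Spec.mk (nat_lit 7565) (nat_lit 0) [] (nat_lit 0) [] false,
   Spec.mk (nat_lit 7567) (nat_lit 0) [] (nat_lit 0) [] false,
   Spec.mk (nat_lit 7571) (nat_lit 0) [] (nat_lit 0) [] false,
   Spec.mk (nat_lit 7573) (nat_lit 0) [] (nat_lit 0) [] false,
   Spec.mk (nat_lit 7575) (nat_lit 0) [] (nat_lit 0) [] false,
   Spec.mk (nat_lit 7579) (nat_lit 0) [] (nat_lit 0) [] false,
   Spec.mk (nat_lit 7581) (nat_lit 0) [] (nat_lit 0) [] false,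
   Spec.mk (nat_lit 7589) (nat_lit 0) [] (nat_lit 0) [] false,
   Spec.mk (nat_lit 7591) (nat_lit 0) [] (nat_lit 0) [] false,
   Spec.mk (nat_lit 7593) (nat_lit 0) [] (nat_lit 0) [] false,
   Spec.mk (nat_lit 7597) (nat_lit 0) [] (nat_lit 0) [] false,
   Spec.mk (nat_lit 7599) (nat_lit 0) [] (nat_lit 0) [] false,
   Spec.mk (nat_lit 7605) (nat_lit 0) [] (nat_lit 0) [] false,
   Spec.mk (nat_lit 7619) (nat_lit 0) [] (nat_lit 0) [] false,
   Spec.mk (nat_lit 7621) (nat_lit 0) [] (nat_lit 0) [] false,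
   Spec.mk (nat_lit 7625) (nat_lit 0) [] (nat_lit 0) [] false,
   Spec.mk (nat_lit 7627) (nat_lit 0) [] (nat_lit 0) [] false,
   Spec.mk (nat_lit 7629) (nat_lit 0) [] (nat_lit 0) [] false,
   Spec.mk (nat_lit 7633) (nat_lit 0) [] (nat_lit 0) [] false,
   Spec.mk (nat_lit 7635) (nat_lit 0) [] (nat_lit 0) [] false,
   Spec.mk (nat_lit 7643) (nat_lit 0) [] (nat_lit 0) [] false,
   Spec.mk (nat_lit 7645) (nat_lit 0) [] (nat_lit 0) [] false,
   Spec.mk (nat_lit 7647) (nat_lit 0) [] (nat_lit 0) [] false,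
   Spec.mk (nat_lit 7651) (nat_lit 0) [] (nat_lit 0) [] false,
   Spec.mk (nat_lit 7653) (nat_lit 0) [] (nat_lit 0) [] false,
   Spec.mk (nat_lit 7659) (nat_lit 0) [] (nat_lit 0) [] false,
   Spec.mk (nat_lit 7669) (nat_lit 0) [] (nat_lit 0) [] false,
   Spec.mk (nat_lit 7671) (nat_lit 0) [] (nat_lit 0) [] false,
   Spec.mk (nat_lit 7677) (nat_lit 0) [] (nat_lit 0) [] false,
   Spec.mk (nat_lit 7697) (nat_lit 0) [] (nat_lit 0) [] false,
   Spec.mk (nat_lit 7699) (nat_lit 0) [] (nat_lit 0) [] false,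
   Spec.mk (nat_lit 7701) (nat_lit 0) [] (nat_lit 0) [] false,
   Spec.mk (nat_lit 7705) (nat_lit 0) [] (nat_lit 0) [] false,
   Spec.mk (nat_lit 7707) (nat_lit 0) [] (nat_lit 0) [] false,
   Spec.mk (nat_lit 7713) (nat_lit 0) [] (nat_lit 0) [] false,
   Spec.mk (nat_lit 7723) (nat_lit 0) [] (nat_lit 0) [] false,
   Spec.mk (nat_lit 7725) (nat_lit 0) [] (nat_lit 0) [] false,
   Spec.mk (nat_lit 7731) (nat_lit 0) [] (nat_lit 0) [] false,
   Spec.mk (nat_lit 7749) (nat_lit 0) [] (nat_lit 0) [] false,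
   Spec.mk (nat_lit 7781) (nat_lit 0) [] (nat_lit 0) [] false,
   Spec.mk (nat_lit 7783) (nat_lit 0) [] (nat_lit 0) [] false,
   Spec.mk (nat_lit 7787) (nat_lit 0) [] (nat_lit 0) [] false,
   Spec.mk (nat_lit 7789) (nat_lit 0) [] (nat_lit 0) [] false,
   Spec.mk (nat_lit 7791) (nat_lit 0) [] (nat_lit 0) [] false,
   Spec.mk (nat_lit 7795) (nat_lit 0) [] (nat_lit 0) [] false,
   Spec.mk (nat_lit 7797) (nat_lit 0) [] (nat_lit 0) [] false]

noncomputable def cd21 : List Spec :=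
  [Spec.mk (nat_lit 7805) (nat_lit 0) [] (nat_lit 0) [] false,
   Spec.mk (nat_lit 7807) (nat_lit 0) [] (nat_lit 0) [] false,
   Spec.mk (nat_lit 7809) (nat_lit 0) [] (nat_lit 0) [] false,
   Spec.mk (nat_lit 7813) (nat_lit 0) [] (nat_lit 0) [] false,
   Spec.mk (nat_lit 7815) (nat_lit 0) [] (nat_lit 0) [] false,
   Spec.mk (nat_lit 7821) (nat_lit 0) [] (nat_lit 0) [] false,
   Spec.mk (nat_lit 7831) (nat_lit 0) [] (nat_lit 0) [] false,
   Spec.mk (nat_lit 7833) (nat_lit 0) [] (nat_lit 0) [] false,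
   Spec.mk (nat_lit 7839) (nat_lit 0) [] (nat_lit 0) [] false,
   Spec.mk (nat_lit 7859) (nat_lit 0) [] (nat_lit 0) [] false,
   Spec.mk (nat_lit 7861) (nat_lit 0) [] (nat_lit 0) [] false,
   Spec.mk (nat_lit 7863) (nat_lit 0) [] (nat_lit 0) [] false,
   Spec.mk (nat_lit 7867) (nat_lit 0) [] (nat_lit 0) [] false,
   Spec.mk (nat_lit 7869) (nat_lit 0) [] (nat_lit 0) [] false,
   Spec.mk (nat_lit 7875) (nat_lit 0) [] (nat_lit 0) [] false,
   Spec.mk (nat_lit 7885) (nat_lit 0) [] (nat_lit 0) [] false,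
   Spec.mk (nat_lit 7887) (nat_lit 0) [] (nat_lit 0) [] false,
   Spec.mk (nat_lit 7893) (nat_lit 0) [] (nat_lit 0) [] false,
   Spec.mk (nat_lit 7911) (nat_lit 0) [] (nat_lit 0) [] false,
   Spec.mk (nat_lit 7939) (nat_lit 0) [] (nat_lit 0) [] false,
   Spec.mk (nat_lit 7941) (nat_lit 0) [] (nat_lit 0) [] false,
   Spec.mk (nat_lit 7947) (nat_lit 0) [] (nat_lit 0) [] false,
   Spec.mk (nat_lit 7965) (nat_lit 0) [] (nat_lit 0) [] false,
   Spec.mk (nat_lit 8027) (nat_lit 0) [] (nat_lit 0) [] false,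
   Spec.mk (nat_lit 8033) (nat_lit 0) [] (nat_lit 0) [] false,
   Spec.mk (nat_lit 8035) (nat_lit 0) [] (nat_lit 0) [] false,
   Spec.mk (nat_lit 8039) (nat_lit 0) [] (nat_lit 0) [] false,
   Spec.mk (nat_lit 8041) (nat_lit 0) [] (nat_lit 0) [] false,
   Spec.mk (nat_lit 8043) (nat_lit 0) [] (nat_lit 0) [] false,
   Spec.mk (nat_lit 8051) (nat_lit 0) [] (nat_lit 0) [] false,
   Spec.mk (nat_lit 8053) (nat_lit 0) [] (nat_lit 0) [] false,
   Spec.mk (nat_lit 8057) (nat_lit 0) [] (nat_lit 0) [] false,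
   Spec.mk (nat_lit 8059) (nat_lit 0) [] (nat_lit 0) [] false,
   Spec.mk (nat_lit 8061) (nat_lit 0) [] (nat_lit 0) [] false,
   Spec.mk (nat_lit 8065) (nat_lit 0) [] (nat_lit 0) [] false,
   Spec.mk (nat_lit 8067) (nat_lit 0) [] (nat_lit 0) [] false,
   Spec.mk (nat_lit 8075) (nat_lit 0) [] (nat_lit 0) [] false,
   Spec.mk (nat_lit 8077) (nat_lit 0) [] (nat_lit 0) [] false,
   Spec.mk (nat_lit 8079) (nat_lit 0) [] (nat_lit 0) [] false,
   Spec.mk (nat_lit 8083) (nat_lit 0) [] (nat_lit 0) [] false,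
   Spec.mk (nat_lit 8085) (nat_lit 0) [] (nat_lit 0) [] false,
   Spec.mk (nat_lit 8091) (nat_lit 0) [] (nat_lit 0) [] false,
   Spec.mk (nat_lit 8105) (nat_lit 0) [] (nat_lit 0) [] false,
   Spec.mk (nat_lit 8107) (nat_lit 0) [] (nat_lit 0) [] false,
   Spec.mk (nat_lit 8111) (nat_lit 0) [] (nat_lit 0) [] false,
   Spec.mk (nat_lit 8113) (nat_lit 0) [] (nat_lit 0) [] false,
   Spec.mk (nat_lit 8115) (nat_lit 0) [] (nat_lit 0) [] false,
   Spec.mk (nat_lit 8119) (nat_lit 0) [] (nat_lit 0) [] false,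
   Spec.mk (nat_lit 8121) (nat_lit 0) [] (nat_lit 0) [] false,
   Spec.mk (nat_lit 8129) (nat_lit 0) [] (nat_lit 0) [] false,
   Spec.mk (nat_lit 8131) (nat_lit 0) [] (nat_lit 0) [] false,
   Spec.mk (nat_lit 8133) (nat_lit 0) [] (nat_lit 0) [] false,
   Spec.mk (nat_lit 8137) (nat_lit 0) [] (nat_lit 0) [] false,
   Spec.mk (nat_lit 8139) (nat_lit 0) [] (nat_lit 0) [] false,
   Spec.mk (nat_lit 8145) (nat_lit 0) [] (nat_lit 0) [] false,
   Spec.mk (nat_lit 8155) (nat_lit 0) [] (nat_lit 0) [] false,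
   Spec.mk (nat_lit 8157) (nat_lit 0) [] (nat_lit 0) [] false,
   Spec.mk (nat_lit 8163) (nat_lit 0) [] (nat_lit 0) [] false,
   Spec.mk (nat_lit 8183) (nat_lit 0) [] (nat_lit 0) [] false,
   Spec.mk (nat_lit 8185) (nat_lit 0) [] (nat_lit 0) [] false]

noncomputable def cd22 : List Spec :=
  [Spec.mk (nat_lit 8187) (nat_lit 0) [] (nat_lit 0) [] false,
   Spec.mk (nat_lit 8191) (nat_lit 0) [] (nat_lit 0) [] false,
   Spec.mk (nat_lit 8193) (nat_lit 0) [] (nat_lit 0) [] false,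
   Spec.mk (nat_lit 8199) (nat_lit 0) [] (nat_lit 0) [] false,
   Spec.mk (nat_lit 8209) (nat_lit 0) [] (nat_lit 0) [] false,
   Spec.mk (nat_lit 8211) (nat_lit 0) [] (nat_lit 0) [] false,
   Spec.mk (nat_lit 8217) (nat_lit 0) [] (nat_lit 0) [] false,
   Spec.mk (nat_lit 8235) (nat_lit 0) [] (nat_lit 0) [] false,
   Spec.mk (nat_lit 8267) (nat_lit 0) [] (nat_lit 0) [] false,
   Spec.mk (nat_lit 8269) (nat_lit 0) [] (nat_lit 0) [] false,
   Spec.mk (nat_lit 8273) (nat_lit 0) [] (nat_lit 0) [] false,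
   Spec.mk (nat_lit 8275) (nat_lit 0) [] (nat_lit 0) [] false,
   Spec.mk (nat_lit 8277) (nat_lit 0) [] (nat_lit 0) [] false,
   Spec.mk (nat_lit 8281) (nat_lit 0) [] (nat_lit 0) [] false,
   Spec.mk (nat_lit 8283) (nat_lit 0) [] (nat_lit 0) [] false,
   Spec.mk (nat_lit 8291) (nat_lit 0) [] (nat_lit 0) [] false,
   Spec.mk (nat_lit 8293) (nat_lit 0) [] (nat_lit 0) [] false,
   Spec.mk (nat_lit 8295) (nat_lit 0) [] (nat_lit 0) [] false,
   Spec.mk (nat_lit 8299) (nat_lit 0) [] (nat_lit 0) [] false,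
   Spec.mk (nat_lit 8301) (nat_lit 0) [] (nat_lit 0) [] false,
   Spec.mk (nat_lit 8307) (nat_lit 0) [] (nat_lit 0) [] false,
   Spec.mk (nat_lit 8317) (nat_lit 0) [] (nat_lit 0) [] false,
   Spec.mk (nat_lit 8319) (nat_lit 0) [] (nat_lit 0) [] false,
   Spec.mk (nat_lit 8325) (nat_lit 0) [] (nat_lit 0) [] false,
   Spec.mk (nat_lit 8345) (nat_lit 0) [] (nat_lit 0) [] false,
   Spec.mk (nat_lit 8347) (nat_lit 0) [] (nat_lit 0) [] false,
   Spec.mk (nat_lit 8349) (nat_lit 0) [] (nat_lit 0) [] false,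
   Spec.mk (nat_lit 8353) (nat_lit 0) [] (nat_lit 0) [] false,
   Spec.mk (nat_lit 8355) (nat_lit 0) [] (nat_lit 0) [] false,
   Spec.mk (nat_lit 8361) (nat_lit 0) [] (nat_lit 0) [] false,
   Spec.mk (nat_lit 8371) (nat_lit 0) [] (nat_lit 0) [] false,
   Spec.mk (nat_lit 8373) (nat_lit 0) [] (nat_lit 0) [] false,
   Spec.mk (nat_lit 8379) (nat_lit 0) [] (nat_lit 0) [] false,
   Spec.mk (nat_lit 8397) (nat_lit 0) [] (nat_lit 0) [] false,
   Spec.mk (nat_lit 8425) (nat_lit 0) [] (nat_lit 0) [] false,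
   Spec.mk (nat_lit 8427) (nat_lit 0) [] (nat_lit 0) [] false,
   Spec.mk (nat_lit 8433) (nat_lit 0) [] (nat_lit 0) [] false,
   Spec.mk (nat_lit 8451) (nat_lit 0) [] (nat_lit 0) [] false,
   Spec.mk (nat_lit 8507) (nat_lit 0) [] (nat_lit 0) [] false,
   Spec.mk (nat_lit 8509) (nat_lit 0) [] (nat_lit 0) [] false,
   Spec.mk (nat_lit 8511) (nat_lit 0) [] (nat_lit 0) [] false,
   Spec.mk (nat_lit 8515) (nat_lit 0) [] (nat_lit 0) [] false,
   Spec.mk (nat_lit 8517) (nat_lit 0) [] (nat_lit 0) [] false,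
   Spec.mk (nat_lit 8523) (nat_lit 0) [] (nat_lit 0) [] false,
   Spec.mk (nat_lit 8533) (nat_lit 0) [] (nat_lit 0) [] false,
   Spec.mk (nat_lit 8535) (nat_lit 0) [] (nat_lit 0) [] false,
   Spec.mk (nat_lit 8541) (nat_lit 0) [] (nat_lit 0) [] false,
   Spec.mk (nat_lit 8559) (nat_lit 0) [] (nat_lit 0) [] false,
   Spec.mk (nat_lit 8587) (nat_lit 0) [] (nat_lit 0) [] false,
   Spec.mk (nat_lit 8589) (nat_lit 0) [] (nat_lit 0) [] false,
   Spec.mk (nat_lit 8595) (nat_lit 0) [] (nat_lit 0) [] false,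
   Spec.mk (nat_lit 8613) (nat_lit 0) [] (nat_lit 0) [] false,
   Spec.mk (nat_lit 8667) (nat_lit 0) [] (nat_lit 0) [] false,
   Spec.mk (nat_lit 8765) (nat_lit 0) [] (nat_lit 0) [] false,
   Spec.mk (nat_lit 8771) (nat_lit 0) [] (nat_lit 0) [] false,
   Spec.mk (nat_lit 8773) (nat_lit 0) [] (nat_lit 0) [] false,
   Spec.mk (nat_lit 8783) (nat_lit 0) [] (nat_lit 0) [] false,
   Spec.mk (nat_lit 8789) (nat_lit 0) [] (nat_lit 0) [] false,
   Spec.mk (nat_lit 8791) (nat_lit 0) [] (nat_lit 0) [] false,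
   Spec.mk (nat_lit 8795) (nat_lit 0) [] (nat_lit 0) [] false]

noncomputable def cd23 : List Spec :=
  [Spec.mk (nat_lit 8797) (nat_lit 0) [] (nat_lit 0) [] false,
   Spec.mk (nat_lit 8799) (nat_lit 0) [] (nat_lit 0) [] false,
   Spec.mk (nat_lit 8807) (nat_lit 0) [] (nat_lit 0) [] false,
   Spec.mk (nat_lit 8809) (nat_lit 0) [] (nat_lit 0) [] false,
   Spec.mk (nat_lit 8813) (nat_lit 0) [] (nat_lit 0) [] false,
   Spec.mk (nat_lit 8815) (nat_lit 0) [] (nat_lit 0) [] false,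
   Spec.mk (nat_lit 8817) (nat_lit 0) [] (nat_lit 0) [] false,
   Spec.mk (nat_lit 8821) (nat_lit 0) [] (nat_lit 0) [] false,
   Spec.mk (nat_lit 8823) (nat_lit 0) [] (nat_lit 0) [] false,
   Spec.mk (nat_lit 8837) (nat_lit 0) [] (nat_lit 0) [] false,
   Spec.mk (nat_lit 8843) (nat_lit 0) [] (nat_lit 0) [] false,
   Spec.mk (nat_lit 8845) (nat_lit 0) [] (nat_lit 0) [] false,
   Spec.mk (nat_lit 8849) (nat_lit 0) [] (nat_lit 0) [] false,
   Spec.mk (nat_lit 8851) (nat_lit 0) [] (nat_lit 0) [] false,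
   Spec.mk (nat_lit 8853) (nat_lit 0) [] (nat_lit 0) [] false,
   Spec.mk (nat_lit 8861) (nat_lit 0) [] (nat_lit 0) [] false,
   Spec.mk (nat_lit 8863) (nat_lit 0) [] (nat_lit 0) [] false,
   Spec.mk (nat_lit 8867) (nat_lit 0) [] (nat_lit 0) [] false,
   Spec.mk (nat_lit 8869) (nat_lit 0) [] (nat_lit 0) [] false,
   Spec.mk (nat_lit 8871) (nat_lit 0) [] (nat_lit 0) [] false,
   Spec.mk (nat_lit 8875) (nat_lit 0) [] (nat_lit 0) [] false,
   Spec.mk (nat_lit 8877) (nat_lit 0) [] (nat_lit 0) [] false,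
   Spec.mk (nat_lit 8885) (nat_lit 0) [] (nat_lit 0) [] false,
   Spec.mk (nat_lit 8887) (nat_lit 0) [] (nat_lit 0) [] false,
   Spec.mk (nat_lit 8889) (nat_lit 0) [] (nat_lit 0) [] false,
   Spec.mk (nat_lit 8893) (nat_lit 0) [] (nat_lit 0) [] false,
   Spec.mk (nat_lit 8895) (nat_lit 0) [] (nat_lit 0) [] false,
   Spec.mk (nat_lit 8901) (nat_lit 0) [] (nat_lit 0) [] false,
   Spec.mk (nat_lit 8915) (nat_lit 0) [] (nat_lit 0) [] false,
   Spec.mk (nat_lit 8917) (nat_lit 0) [] (nat_lit 0) [] false,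
   Spec.mk (nat_lit 8921) (nat_lit 0) [] (nat_lit 0) [] false,
   Spec.mk (nat_lit 8923) (nat_lit 0) [] (nat_lit 0) [] false,
   Spec.mk (nat_lit 8925) (nat_lit 0) [] (nat_lit 0) [] false,
   Spec.mk (nat_lit 8929) (nat_lit 0) [] (nat_lit 0) [] false,
   Spec.mk (nat_lit 8931) (nat_lit 0) [] (nat_lit 0) [] false,
   Spec.mk (nat_lit 8939) (nat_lit 0) [] (nat_lit 0) [] false,
   Spec.mk (nat_lit 8941) (nat_lit 0) [] (nat_lit 0) [] false,
   Spec.mk (nat_lit 8943) (nat_lit 0) [] (nat_lit 0) [] false,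
   Spec.mk (nat_lit 8947) (nat_lit 0) [] (nat_lit 0) [] false,
   Spec.mk (nat_lit 8949) (nat_lit 0) [] (nat_lit 0) [] false,
   Spec.mk (nat_lit 8955) (nat_lit 0) [] (nat_lit 0) [] false,
   Spec.mk (nat_lit 8965) (nat_lit 0) [] (nat_lit 0) [] false,
   Spec.mk (nat_lit 8967) (nat_lit 0) [] (nat_lit 0) [] false,
   Spec.mk (nat_lit 8973) (nat_lit 0) [] (nat_lit 0) [] false,
   Spec.mk (nat_lit 8999) (nat_lit 0) [] (nat_lit 0) [] false,
   Spec.mk (nat_lit 9005) (nat_lit 0) [] (nat_lit 0) [] false,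
   Spec.mk (nat_lit 9007) (nat_lit 0) [] (nat_lit 0) [] false,
   Spec.mk (nat_lit 9011) (nat_lit 0) [] (nat_lit 0) [] false,
   Spec.mk (nat_lit 9013) (nat_lit 0) [] (nat_lit 0) [] false,
   Spec.mk (nat_lit 9015) (nat_lit 0) [] (nat_lit 0) [] false,
   Spec.mk (nat_lit 9023) (nat_lit 0) [] (nat_lit 0) [] false,
   Spec.mk (nat_lit 9025) (nat_lit 0) [] (nat_lit 0) [] false,
   Spec.mk (nat_lit 9029) (nat_lit 0) [] (nat_lit 0) [] false,
   Spec.mk (nat_lit 9031) (nat_lit 0) [] (nat_lit 0) [] false,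
   Spec.mk (nat_lit 9033) (nat_lit 0) [] (nat_lit 0) [] false,
   Spec.mk (nat_lit 9037) (nat_lit 0) [] (nat_lit 0) [] false,
   Spec.mk (nat_lit 9039) (nat_lit 0) [] (nat_lit 0) [] false,
   Spec.mk (nat_lit 9047) (nat_lit 0) [] (nat_lit 0) [] false,
   Spec.mk (nat_lit 9049) (nat_lit 0) [] (nat_lit 0) [] false,
   Spec.mk (nat_lit 9051) (nat_lit 0) [] (nat_lit 0) [] false]

noncomputable def cd24 : List Spec :=
  [Spec.mk (nat_lit 9055) (nat_lit 0) [] (nat_lit 0) [] false,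
   Spec.mk (nat_lit 9057) (nat_lit 0) [] (nat_lit 0) [] false,
   Spec.mk (nat_lit 9063) (nat_lit 0) [] (nat_lit 0) [] false,
   Spec.mk (nat_lit 9077) (nat_lit 0) [] (nat_lit 0) [] false,
   Spec.mk (nat_lit 9079) (nat_lit 0) [] (nat_lit 0) [] false,
   Spec.mk (nat_lit 9083) (nat_lit 0) [] (nat_lit 0) [] false,
   Spec.mk (nat_lit 9085) (nat_lit 0) [] (nat_lit 0) [] false,
   Spec.mk (nat_lit 9087) (nat_lit 0) [] (nat_lit 0) [] false,
   Spec.mk (nat_lit 9091) (nat_lit 0) [] (nat_lit 0) [] false,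
   Spec.mk (nat_lit 9093) (nat_lit 0) [] (nat_lit 0) [] false,
   Spec.mk (nat_lit 9101) (nat_lit 0) [] (nat_lit 0) [] false,
   Spec.mk (nat_lit 9103) (nat_lit 0) [] (nat_lit 0) [] false,
   Spec.mk (nat_lit 9105) (nat_lit 0) [] (nat_lit 0) [] false,
   Spec.mk (nat_lit 9109) (nat_lit 0) [] (nat_lit 0) [] false,
   Spec.mk (nat_lit 9111) (nat_lit 0) [] (nat_lit 0) [] false,
   Spec.mk (nat_lit 9117) (nat_lit 0) [] (nat_lit 0) [] false,
   Spec.mk (nat_lit 9127) (nat_lit 0) [] (nat_lit 0) [] false,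
   Spec.mk (nat_lit 9129) (nat_lit 0) [] (nat_lit 0) [] false,
   Spec.mk (nat_lit 9135) (nat_lit 0) [] (nat_lit 0) [] false,
   Spec.mk (nat_lit 9155) (nat_lit 0) [] (nat_lit 0) [] false,
   Spec.mk (nat_lit 9157) (nat_lit 0) [] (nat_lit 0) [] false,
   Spec.mk (nat_lit 9159) (nat_lit 0) [] (nat_lit 0) [] false,
   Spec.mk (nat_lit 9163) (nat_lit 0) [] (nat_lit 0) [] false,
   Spec.mk (nat_lit 9165) (nat_lit 0) [] (nat_lit 0) [] false,
   Spec.mk (nat_lit 9171) (nat_lit 0) [] (nat_lit 0) [] false,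
   Spec.mk (nat_lit 9181) (nat_lit 0) [] (nat_lit 0) [] false,
   Spec.mk (nat_lit 9183) (nat_lit 0) [] (nat_lit 0) [] false,
   Spec.mk (nat_lit 9189) (nat_lit 0) [] (nat_lit 0) [] false,
   Spec.mk (nat_lit 9207) (nat_lit 0) [] (nat_lit 0) [] false,
   Spec.mk (nat_lit 9239) (nat_lit 0) [] (nat_lit 0) [] false,
   Spec.mk (nat_lit 9241) (nat_lit 0) [] (nat_lit 0) [] false,
   Spec.mk (nat_lit 9245) (nat_lit 0) [] (nat_lit 0) [] false,
   Spec.mk (nat_lit 9247) (nat_lit 0) [] (nat_lit 0) [] false,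
   Spec.mk (nat_lit 9249) (nat_lit 0) [] (nat_lit 0) [] false,
   Spec.mk (nat_lit 9253) (nat_lit 0) [] (nat_lit 0) [] false,
   Spec.mk (nat_lit 9255) (nat_lit 0) [] (nat_lit 0) [] false,
   Spec.mk (nat_lit 9263) (nat_lit 0) [] (nat_lit 0) [] false,
   Spec.mk (nat_lit 9265) (nat_lit 0) [] (nat_lit 0) [] false,
   Spec.mk (nat_lit 9267) (nat_lit 0) [] (nat_lit 0) [] false,
   Spec.mk (nat_lit 9271) (nat_lit 0) [] (nat_lit 0) [] false,
   Spec.mk (nat_lit 9273) (nat_lit 0) [] (nat_lit 0) [] false,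
   Spec.mk (nat_lit 9279) (nat_lit 0) [] (nat_lit 0) [] false,
   Spec.mk (nat_lit 9289) (nat_lit 0) [] (nat_lit 0) [] false,
   Spec.mk (nat_lit 9291) (nat_lit 0) [] (nat_lit 0) [] false,
   Spec.mk (nat_lit 9297) (nat_lit 0) [] (nat_lit 0) [] false,
   Spec.mk (nat_lit 9317) (nat_lit 0) [] (nat_lit 0) [] false,
   Spec.mk (nat_lit 9319) (nat_lit 0) [] (nat_lit 0) [] false,
   Spec.mk (nat_lit 9321) (nat_lit 0) [] (nat_lit 0) [] false,
   Spec.mk (nat_lit 9325) (nat_lit 0) [] (nat_lit 0) [] false,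
   Spec.mk (nat_lit 9327) (nat_lit 0) [] (nat_lit 0) [] false,
   Spec.mk (nat_lit 9333) (nat_lit 0) [] (nat_lit 0) [] false,
   Spec.mk (nat_lit 9343) (nat_lit 0) [] (nat_lit 0) [] false,
   Spec.mk (nat_lit 9345) (nat_lit 0) [] (nat_lit 0) [] false,
   Spec.mk (nat_lit 9351) (nat_lit 0) [] (nat_lit 0) [] false,
   Spec.mk (nat_lit 9369) (nat_lit 0) [] (nat_lit 0) [] false,
   Spec.mk (nat_lit 9397) (nat_lit 0) [] (nat_lit 0) [] false,
   Spec.mk (nat_lit 9399) (nat_lit 0) [] (nat_lit 0) [] false,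
   Spec.mk (nat_lit 9405) (nat_lit 0) [] (nat_lit 0) [] false,
   Spec.mk (nat_lit 9423) (nat_lit 0) [] (nat_lit 0) [] false,
   Spec.mk (nat_lit 9485) (nat_lit 0) [] (nat_lit 0) [] false]

noncomputable def cd25 : List Spec :=
  [Spec.mk (nat_lit 9491) (nat_lit 0) [] (nat_lit 0) [] false,
   Spec.mk (nat_lit 9493) (nat_lit 0) [] (nat_lit 0) [] false,
   Spec.mk (nat_lit 9497) (nat_lit 0) [] (nat_lit 0) [] false,
   Spec.mk (nat_lit 9499) (nat_lit 0) [] (nat_lit 0) [] false,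
   Spec.mk (nat_lit 9501) (nat_lit 0) [] (nat_lit 0) [] false,
   Spec.mk (nat_lit 9509) (nat_lit 0) [] (nat_lit 0) [] false,
   Spec.mk (nat_lit 9511) (nat_lit 0) [] (nat_lit 0) [] false,
   Spec.mk (nat_lit 9515) (nat_lit 0) [] (nat_lit 0) [] false,
   Spec.mk (nat_lit 9517) (nat_lit 0) [] (nat_lit 0) [] false,
   Spec.mk (nat_lit 9519) (nat_lit 0) [] (nat_lit 0) [] false,
   Spec.mk (nat_lit 9523) (nat_lit 0) [] (nat_lit 0) [] false,
   Spec.mk (nat_lit 9525) (nat_lit 0) [] (nat_lit 0) [] false,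
   Spec.mk (nat_lit 9533) (nat_lit 0) [] (nat_lit 0) [] false,
   Spec.mk (nat_lit 9535) (nat_lit 0) [] (nat_lit 0) [] false,
   Spec.mk (nat_lit 9537) (nat_lit 0) [] (nat_lit 0) [] false,
   Spec.mk (nat_lit 9541) (nat_lit 0) [] (nat_lit 0) [] false,
   Spec.mk (nat_lit 9543) (nat_lit 0) [] (nat_lit 0) [] false,
   Spec.mk (nat_lit 9549) (nat_lit 0) [] (nat_lit 0) [] false,
   Spec.mk (nat_lit 9563) (nat_lit 0) [] (nat_lit 0) [] false,
   Spec.mk (nat_lit 9565) (nat_lit 0) [] (nat_lit 0) [] false,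
   Spec.mk (nat_lit 9569) (nat_lit 0) [] (nat_lit 0) [] false,
   Spec.mk (nat_lit 9571) (nat_lit 0) [] (nat_lit 0) [] false,
   Spec.mk (nat_lit 9573) (nat_lit 0) [] (nat_lit 0) [] false,
   Spec.mk (nat_lit 9577) (nat_lit 0) [] (nat_lit 0) [] false,
   Spec.mk (nat_lit 9579) (nat_lit 0) [] (nat_lit 0) [] false,
   Spec.mk (nat_lit 9587) (nat_lit 0) [] (nat_lit 0) [] false,
   Spec.mk (nat_lit 9589) (nat_lit 0) [] (nat_lit 0) [] false,
   Spec.mk (nat_lit 9591) (nat_lit 0) [] (nat_lit 0) [] false,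
   Spec.mk (nat_lit 9595) (nat_lit 0) [] (nat_lit 0) [] false,
   Spec.mk (nat_lit 9597) (nat_lit 0) [] (nat_lit 0) [] false,
   Spec.mk (nat_lit 9603) (nat_lit 0) [] (nat_lit 0) [] false,
   Spec.mk (nat_lit 9613) (nat_lit 0) [] (nat_lit 0) [] false,
   Spec.mk (nat_lit 9615) (nat_lit 0) [] (nat_lit 0) [] false,
   Spec.mk (nat_lit 9621) (nat_lit 0) [] (nat_lit 0) [] false,
   Spec.mk (nat_lit 9641) (nat_lit 0) [] (nat_lit 0) [] false,
   Spec.mk (nat_lit 9643) (nat_lit 0) [] (nat_lit 0) [] false,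
   Spec.mk (nat_lit 9645) (nat_lit 0) [] (nat_lit 0) [] false,
   Spec.mk (nat_lit 9649) (nat_lit 0) [] (nat_lit 0) [] false,
   Spec.mk (nat_lit 9651) (nat_lit 0) [] (nat_lit 0) [] false,
   Spec.mk (nat_lit 9657) (nat_lit 0) [] (nat_lit 0) [] false,
   Spec.mk (nat_lit 9667) (nat_lit 0) [] (nat_lit 0) [] false,
   Spec.mk (nat_lit 9669) (nat_lit 0) [] (nat_lit 0) [] false,
   Spec.mk (nat_lit 9675) (nat_lit 0) [] (nat_lit 0) [] false,
   Spec.mk (nat_lit 9693) (nat_lit 0) [] (nat_lit 0) [] false,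
   Spec.mk (nat_lit 9725) (nat_lit 0) [] (nat_lit 0) [] false,
   Spec.mk (nat_lit 9727) (nat_lit 0) [] (nat_lit 0) [] false,
   Spec.mk (nat_lit 9731) (nat_lit 0) [] (nat_lit 0) [] false,
   Spec.mk (nat_lit 9733) (nat_lit 0) [] (nat_lit 0) [] false,
   Spec.mk (nat_lit 9735) (nat_lit 0) [] (nat_lit 0) [] false,
   Spec.mk (nat_lit 9739) (nat_lit 0) [] (nat_lit 0) [] false,
   Spec.mk (nat_lit 9741) (nat_lit 0) [] (nat_lit 0) [] false,
   Spec.mk (nat_lit 9749) (nat_lit 0) [] (nat_lit 0) [] false,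
   Spec.mk (nat_lit 9751) (nat_lit 0) [] (nat_lit 0) [] false,
   Spec.mk (nat_lit 9753) (nat_lit 0) [] (nat_lit 0) [] false,
   Spec.mk (nat_lit 9757) (nat_lit 0) [] (nat_lit 0) [] false,
   Spec.mk (nat_lit 9759) (nat_lit 0) [] (nat_lit 0) [] false,
   Spec.mk (nat_lit 9765) (nat_lit 0) [] (nat_lit 0) [] false,
   Spec.mk (nat_lit 9775) (nat_lit 0) [] (nat_lit 0) [] false,
   Spec.mk (nat_lit 9777) (nat_lit 0) [] (nat_lit 0) [] false,
   Spec.mk (nat_lit 9783) (nat_lit 0) [] (nat_lit 0) [] false]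

noncomputable def cd26 : List Spec :=
  [Spec.mk (nat_lit 9803) (nat_lit 0) [] (nat_lit 0) [] false,
   Spec.mk (nat_lit 9805) (nat_lit 0) [] (nat_lit 0) [] false,
   Spec.mk (nat_lit 9807) (nat_lit 0) [] (nat_lit 0) [] false,
   Spec.mk (nat_lit 9811) (nat_lit 0) [] (nat_lit 0) [] false,
   Spec.mk (nat_lit 9813) (nat_lit 0) [] (nat_lit 0) [] false,
   Spec.mk (nat_lit 9819) (nat_lit 0) [] (nat_lit 0) [] false,
   Spec.mk (nat_lit 9829) (nat_lit 0) [] (nat_lit 0) [] false,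
   Spec.mk (nat_lit 9831) (nat_lit 0) [] (nat_lit 0) [] false,
   Spec.mk (nat_lit 9837) (nat_lit 0) [] (nat_lit 0) [] false,
   Spec.mk (nat_lit 9855) (nat_lit 0) [] (nat_lit 0) [] false,
   Spec.mk (nat_lit 9883) (nat_lit 0) [] (nat_lit 0) [] false,
   Spec.mk (nat_lit 9885) (nat_lit 0) [] (nat_lit 0) [] false,
   Spec.mk (nat_lit 9891) (nat_lit 0) [] (nat_lit 0) [] false,
   Spec.mk (nat_lit 9909) (nat_lit 0) [] (nat_lit 0) [] false,
   Spec.mk (nat_lit 9965) (nat_lit 0) [] (nat_lit 0) [] false,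
   Spec.mk (nat_lit 9967) (nat_lit 0) [] (nat_lit 0) [] false,
   Spec.mk (nat_lit 9969) (nat_lit 0) [] (nat_lit 0) [] false,
   Spec.mk (nat_lit 9973) (nat_lit 0) [] (nat_lit 0) [] false,
   Spec.mk (nat_lit 9975) (nat_lit 0) [] (nat_lit 0) [] false,
   Spec.mk (nat_lit 9981) (nat_lit 0) [] (nat_lit 0) [] false,
   Spec.mk (nat_lit 9991) (nat_lit 0) [] (nat_lit 0) [] false,
   Spec.mk (nat_lit 9993) (nat_lit 0) [] (nat_lit 0) [] false,
   Spec.mk (nat_lit 9999) (nat_lit 0) [] (nat_lit 0) [] false,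
   Spec.mk (nat_lit 10017) (nat_lit 0) [] (nat_lit 0) [] false,
   Spec.mk (nat_lit 10045) (nat_lit 0) [] (nat_lit 0) [] false,
   Spec.mk (nat_lit 10047) (nat_lit 0) [] (nat_lit 0) [] false,
   Spec.mk (nat_lit 10053) (nat_lit 0) [] (nat_lit 0) [] false,
   Spec.mk (nat_lit 10071) (nat_lit 0) [] (nat_lit 0) [] false,
   Spec.mk (nat_lit 10125) (nat_lit 0) [] (nat_lit 0) [] false,
   Spec.mk (nat_lit 10211) (nat_lit 0) [] (nat_lit 0) [] false,
   Spec.mk (nat_lit 10213) (nat_lit 0) [] (nat_lit 0) [] false,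
   Spec.mk (nat_lit 10217) (nat_lit 0) [] (nat_lit 0) [] false,
   Spec.mk (nat_lit 10219) (nat_lit 0) [] (nat_lit 0) [] false,
   Spec.mk (nat_lit 10221) (nat_lit 0) [] (nat_lit 0) [] false,
   Spec.mk (nat_lit 10225) (nat_lit 0) [] (nat_lit 0) [] false,
   Spec.mk (nat_lit 10227) (nat_lit 0) [] (nat_lit 0) [] false,
   Spec.mk (nat_lit 10235) (nat_lit 0) [] (nat_lit 0) [] false,
   Spec.mk (nat_lit 10237) (nat_lit 0) [] (nat_lit 0) [] false,
   Spec.mk (nat_lit 10239) (nat_lit 0) [] (nat_lit 0) [] false,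
   Spec.mk (nat_lit 10243) (nat_lit 0) [] (nat_lit 0) [] false,
   Spec.mk (nat_lit 10245) (nat_lit 0) [] (nat_lit 0) [] false,
   Spec.mk (nat_lit 10251) (nat_lit 0) [] (nat_lit 0) [] false,
   Spec.mk (nat_lit 10261) (nat_lit 0) [] (nat_lit 0) [] false,
   Spec.mk (nat_lit 10263) (nat_lit 0) [] (nat_lit 0) [] false,
   Spec.mk (nat_lit 10269) (nat_lit 0) [] (nat_lit 0) [] false,
   Spec.mk (nat_lit 10289) (nat_lit 0) [] (nat_lit 0) [] false,
   Spec.mk (nat_lit 10291) (nat_lit 0) [] (nat_lit 0) [] false,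
   Spec.mk (nat_lit 10293) (nat_lit 0) [] (nat_lit 0) [] false,
   Spec.mk (nat_lit 10297) (nat_lit 0) [] (nat_lit 0) [] false,
   Spec.mk (nat_lit 10299) (nat_lit 0) [] (nat_lit 0) [] false,
   Spec.mk (nat_lit 10305) (nat_lit 0) [] (nat_lit 0) [] false,
   Spec.mk (nat_lit 10315) (nat_lit 0) [] (nat_lit 0) [] false,
   Spec.mk (nat_lit 10317) (nat_lit 0) [] (nat_lit 0) [] false,
   Spec.mk (nat_lit 10323) (nat_lit 0) [] (nat_lit 0) [] false,
   Spec.mk (nat_lit 10341) (nat_lit 0) [] (nat_lit 0) [] false,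
   Spec.mk (nat_lit 10369) (nat_lit 0) [] (nat_lit 0) [] false,
   Spec.mk (nat_lit 10371) (nat_lit 0) [] (nat_lit 0) [] false,
   Spec.mk (nat_lit 10377) (nat_lit 0) [] (nat_lit 0) [] false,
   Spec.mk (nat_lit 10395) (nat_lit 0) [] (nat_lit 0) [] false,
   Spec.mk (nat_lit 10451) (nat_lit 0) [] (nat_lit 0) [] false]

noncomputable def cd27 : List Spec :=
  [Spec.mk (nat_lit 10453) (nat_lit 0) [] (nat_lit 0) [] false,
   Spec.mk (nat_lit 10455) (nat_lit 0) [] (nat_lit 0) [] false,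
   Spec.mk (nat_lit 10459) (nat_lit 0) [] (nat_lit 0) [] false,
   Spec.mk (nat_lit 10461) (nat_lit 0) [] (nat_lit 0) [] false,
   Spec.mk (nat_lit 10467) (nat_lit 0) [] (nat_lit 0) [] false,
   Spec.mk (nat_lit 10477) (nat_lit 0) [] (nat_lit 0) [] false,
   Spec.mk (nat_lit 10479) (nat_lit 0) [] (nat_lit 0) [] false,
   Spec.mk (nat_lit 10485) (nat_lit 0) [] (nat_lit 0) [] false,
   Spec.mk (nat_lit 10503) (nat_lit 0) [] (nat_lit 0) [] false,
   Spec.mk (nat_lit 10531) (nat_lit 0) [] (nat_lit 0) [] false,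
   Spec.mk (nat_lit 10533) (nat_lit 0) [] (nat_lit 0) [] false,
   Spec.mk (nat_lit 10539) (nat_lit 0) [] (nat_lit 0) [] false,
   Spec.mk (nat_lit 10557) (nat_lit 0) [] (nat_lit 0) [] false,
   Spec.mk (nat_lit 10611) (nat_lit 0) [] (nat_lit 0) [] false,
   Spec.mk (nat_lit 10693) (nat_lit 0) [] (nat_lit 0) [] false,
   Spec.mk (nat_lit 10695) (nat_lit 0) [] (nat_lit 0) [] false,
   Spec.mk (nat_lit 10701) (nat_lit 0) [] (nat_lit 0) [] false,
   Spec.mk (nat_lit 10719) (nat_lit 0) [] (nat_lit 0) [] false,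
   Spec.mk (nat_lit 10773) (nat_lit 0) [] (nat_lit 0) [] false,
   Spec.mk (nat_lit 10943) (nat_lit 0) [] (nat_lit 0) [] false,
   Spec.mk (nat_lit 10949) (nat_lit 0) [] (nat_lit 0) [] false,
   Spec.mk (nat_lit 10951) (nat_lit 0) [] (nat_lit 0) [] false,
   Spec.mk (nat_lit 10955) (nat_lit 0) [] (nat_lit 0) [] false,
   Spec.mk (nat_lit 10957) (nat_lit 0) [] (nat_lit 0) [] false,
   Spec.mk (nat_lit 10959) (nat_lit 0) [] (nat_lit 0) [] false,
   Spec.mk (nat_lit 10967) (nat_lit 0) [] (nat_lit 0) [] false,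
   Spec.mk (nat_lit 10969) (nat_lit 0) [] (nat_lit 0) [] false,
   Spec.mk (nat_lit 10973) (nat_lit 0) [] (nat_lit 0) [] false,
   Spec.mk (nat_lit 10975) (nat_lit 0) [] (nat_lit 0) [] false,
   Spec.mk (nat_lit 10977) (nat_lit 0) [] (nat_lit 0) [] false,
   Spec.mk (nat_lit 10981) (nat_lit 0) [] (nat_lit 0) [] false,
   Spec.mk (nat_lit 10983) (nat_lit 0) [] (nat_lit 0) [] false,
   Spec.mk (nat_lit 10991) (nat_lit 0) [] (nat_lit 0) [] false,
   Spec.mk (nat_lit 10993) (nat_lit 0) [] (nat_lit 0) [] false,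
   Spec.mk (nat_lit 10995) (nat_lit 0) [] (nat_lit 0) [] false,
   Spec.mk (nat_lit 10999) (nat_lit 0) [] (nat_lit 0) [] false,
   Spec.mk (nat_lit 11001) (nat_lit 0) [] (nat_lit 0) [] false,
   Spec.mk (nat_lit 11007) (nat_lit 0) [] (nat_lit 0) [] false,
   Spec.mk (nat_lit 11021) (nat_lit 0) [] (nat_lit 0) [] false,
   Spec.mk (nat_lit 11023) (nat_lit 0) [] (nat_lit 0) [] false,
   Spec.mk (nat_lit 11027) (nat_lit 0) [] (nat_lit 0) [] false,
   Spec.mk (nat_lit 11029) (nat_lit 0) [] (nat_lit 0) [] false,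
   Spec.mk (nat_lit 11031) (nat_lit 0) [] (nat_lit 0) [] false,
   Spec.mk (nat_lit 11035) (nat_lit 0) [] (nat_lit 0) [] false,
   Spec.mk (nat_lit 11037) (nat_lit 0) [] (nat_lit 0) [] false,
   Spec.mk (nat_lit 11045) (nat_lit 0) [] (nat_lit 0) [] false,
   Spec.mk (nat_lit 11047) (nat_lit 0) [] (nat_lit 0) [] false,
   Spec.mk (nat_lit 11049) (nat_lit 0) [] (nat_lit 0) [] false,
   Spec.mk (nat_lit 11053) (nat_lit 0) [] (nat_lit 0) [] false,
   Spec.mk (nat_lit 11055) (nat_lit 0) [] (nat_lit 0) [] false,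
   Spec.mk (nat_lit 11061) (nat_lit 0) [] (nat_lit 0) [] false,
   Spec.mk (nat_lit 11071) (nat_lit 0) [] (nat_lit 0) [] false,
   Spec.mk (nat_lit 11073) (nat_lit 0) [] (nat_lit 0) [] false,
   Spec.mk (nat_lit 11079) (nat_lit 0) [] (nat_lit 0) [] false,
   Spec.mk (nat_lit 11099) (nat_lit 0) [] (nat_lit 0) [] false,
   Spec.mk (nat_lit 11101) (nat_lit 0) [] (nat_lit 0) [] false,
   Spec.mk (nat_lit 11103) (nat_lit 0) [] (nat_lit 0) [] false,
   Spec.mk (nat_lit 11107) (nat_lit 0) [] (nat_lit 0) [] false,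
   Spec.mk (nat_lit 11109) (nat_lit 0) [] (nat_lit 0) [] false,
   Spec.mk (nat_lit 11115) (nat_lit 0) [] (nat_lit 0) [] false]

noncomputable def cd28 : List Spec :=
  [Spec.mk (nat_lit 11125) (nat_lit 0) [] (nat_lit 0) [] false,
   Spec.mk (nat_lit 11127) (nat_lit 0) [] (nat_lit 0) [] false,
   Spec.mk (nat_lit 11133) (nat_lit 0) [] (nat_lit 0) [] false,
   Spec.mk (nat_lit 11151) (nat_lit 0) [] (nat_lit 0) [] false,
   Spec.mk (nat_lit 11183) (nat_lit 0) [] (nat_lit 0) [] false,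
   Spec.mk (nat_lit 11185) (nat_lit 0) [] (nat_lit 0) [] false,
   Spec.mk (nat_lit 11189) (nat_lit 0) [] (nat_lit 0) [] false,
   Spec.mk (nat_lit 11191) (nat_lit 0) [] (nat_lit 0) [] false,
   Spec.mk (nat_lit 11193) (nat_lit 0) [] (nat_lit 0) [] false,
   Spec.mk (nat_lit 11197) (nat_lit 0) [] (nat_lit 0) [] false,
   Spec.mk (nat_lit 11199) (nat_lit 0) [] (nat_lit 0) [] false,
   Spec.mk (nat_lit 11207) (nat_lit 0) [] (nat_lit 0) [] false,
   Spec.mk (nat_lit 11209) (nat_lit 0) [] (nat_lit 0) [] false,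
   Spec.mk (nat_lit 11211) (nat_lit 0) [] (nat_lit 0) [] false,
   Spec.mk (nat_lit 11215) (nat_lit 0) [] (nat_lit 0) [] false,
   Spec.mk (nat_lit 11217) (nat_lit 0) [] (nat_lit 0) [] false,
   Spec.mk (nat_lit 11223) (nat_lit 0) [] (nat_lit 0) [] false,
   Spec.mk (nat_lit 11233) (nat_lit 0) [] (nat_lit 0) [] false,
   Spec.mk (nat_lit 11235) (nat_lit 0) [] (nat_lit 0) [] false,
   Spec.mk (nat_lit 11241) (nat_lit 0) [] (nat_lit 0) [] false,
   Spec.mk (nat_lit 11261) (nat_lit 0) [] (nat_lit 0) [] false,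
   Spec.mk (nat_lit 11263) (nat_lit 0) [] (nat_lit 0) [] false,
   Spec.mk (nat_lit 11265) (nat_lit 0) [] (nat_lit 0) [] false,
   Spec.mk (nat_lit 11269) (nat_lit 0) [] (nat_lit 0) [] false,
   Spec.mk (nat_lit 11271) (nat_lit 0) [] (nat_lit 0) [] false,
   Spec.mk (nat_lit 11277) (nat_lit 0) [] (nat_lit 0) [] false,
   Spec.mk (nat_lit 11287) (nat_lit 0) [] (nat_lit 0) [] false,
   Spec.mk (nat_lit 11289) (nat_lit 0) [] (nat_lit 0) [] false,
   Spec.mk (nat_lit 11295) (nat_lit 0) [] (nat_lit 0) [] false,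
   Spec.mk (nat_lit 11313) (nat_lit 0) [] (nat_lit 0) [] false,
   Spec.mk (nat_lit 11341) (nat_lit 0) [] (nat_lit 0) [] false,
   Spec.mk (nat_lit 11343) (nat_lit 0) [] (nat_lit 0) [] false,
   Spec.mk (nat_lit 11349) (nat_lit 0) [] (nat_lit 0) [] false,
   Spec.mk (nat_lit 11367) (nat_lit 0) [] (nat_lit 0) [] false,
   Spec.mk (nat_lit 11423) (nat_lit 0) [] (nat_lit 0) [] false,
   Spec.mk (nat_lit 11425) (nat_lit 0) [] (nat_lit 0) [] false,
   Spec.mk (nat_lit 11427) (nat_lit 0) [] (nat_lit 0) [] false,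
   Spec.mk (nat_lit 11431) (nat_lit 0) [] (nat_lit 0) [] false,
   Spec.mk (nat_lit 11433) (nat_lit 0) [] (nat_lit 0) [] false,
   Spec.mk (nat_lit 11439) (nat_lit 0) [] (nat_lit 0) [] false,
   Spec.mk (nat_lit 11449) (nat_lit 0) [] (nat_lit 0) [] false,
   Spec.mk (nat_lit 11451) (nat_lit 0) [] (nat_lit 0) [] false,
   Spec.mk (nat_lit 11457) (nat_lit 0) [] (nat_lit 0) [] false,
   Spec.mk (nat_lit 11475) (nat_lit 0) [] (nat_lit 0) [] false,
   Spec.mk (nat_lit 11503) (nat_lit 0) [] (nat_lit 0) [] false,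
   Spec.mk (nat_lit 11505) (nat_lit 0) [] (nat_lit 0) [] false,
   Spec.mk (nat_lit 11511) (nat_lit 0) [] (nat_lit 0) [] false,
   Spec.mk (nat_lit 11529) (nat_lit 0) [] (nat_lit 0) [] false,
   Spec.mk (nat_lit 11583) (nat_lit 0) [] (nat_lit 0) [] false,
   Spec.mk (nat_lit 11669) (nat_lit 0) [] (nat_lit 0) [] false,
   Spec.mk (nat_lit 11671) (nat_lit 0) [] (nat_lit 0) [] false,
   Spec.mk (nat_lit 11675) (nat_lit 0) [] (nat_lit 0) [] false,
   Spec.mk (nat_lit 11677) (nat_lit 0) [] (nat_lit 0) [] false,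
   Spec.mk (nat_lit 11679) (nat_lit 0) [] (nat_lit 0) [] false,
   Spec.mk (nat_lit 11683) (nat_lit 0) [] (nat_lit 0) [] false,
   Spec.mk (nat_lit 11685) (nat_lit 0) [] (nat_lit 0) [] false,
   Spec.mk (nat_lit 11693) (nat_lit 0) [] (nat_lit 0) [] false,
   Spec.mk (nat_lit 11695) (nat_lit 0) [] (nat_lit 0) [] false,
   Spec.mk (nat_lit 11697) (nat_lit 0) [] (nat_lit 0) [] false,
   Spec.mk (nat_lit 11701) (nat_lit 0) [] (nat_lit 0) [] false]

noncomputable def cd29 : List Spec :=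
  [Spec.mk (nat_lit 11703) (nat_lit 0) [] (nat_lit 0) [] false,
   Spec.mk (nat_lit 11709) (nat_lit 0) [] (nat_lit 0) [] false,
   Spec.mk (nat_lit 11719) (nat_lit 0) [] (nat_lit 0) [] false,
   Spec.mk (nat_lit 11721) (nat_lit 0) [] (nat_lit 0) [] false,
   Spec.mk (nat_lit 11727) (nat_lit 0) [] (nat_lit 0) [] false,
   Spec.mk (nat_lit 11747) (nat_lit 0) [] (nat_lit 0) [] false,
   Spec.mk (nat_lit 11749) (nat_lit 0) [] (nat_lit 0) [] false,
   Spec.mk (nat_lit 11751) (nat_lit 0) [] (nat_lit 0) [] false,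
   Spec.mk (nat_lit 11755) (nat_lit 0) [] (nat_lit 0) [] false,
   Spec.mk (nat_lit 11757) (nat_lit 0) [] (nat_lit 0) [] false,
   Spec.mk (nat_lit 11763) (nat_lit 0) [] (nat_lit 0) [] false,
   Spec.mk (nat_lit 11773) (nat_lit 0) [] (nat_lit 0) [] false,
   Spec.mk (nat_lit 11775) (nat_lit 0) [] (nat_lit 0) [] false,
   Spec.mk (nat_lit 11781) (nat_lit 0) [] (nat_lit 0) [] false,
   Spec.mk (nat_lit 11799) (nat_lit 0) [] (nat_lit 0) [] false,
   Spec.mk (nat_lit 11827) (nat_lit 0) [] (nat_lit 0) [] false,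
   Spec.mk (nat_lit 11829) (nat_lit 0) [] (nat_lit 0) [] false,
   Spec.mk (nat_lit 11835) (nat_lit 0) [] (nat_lit 0) [] false,
   Spec.mk (nat_lit 11853) (nat_lit 0) [] (nat_lit 0) [] false,
   Spec.mk (nat_lit 11909) (nat_lit 0) [] (nat_lit 0) [] false,
   Spec.mk (nat_lit 11911) (nat_lit 0) [] (nat_lit 0) [] false,
   Spec.mk (nat_lit 11913) (nat_lit 0) [] (nat_lit 0) [] false,
   Spec.mk (nat_lit 11917) (nat_lit 0) [] (nat_lit 0) [] false,
   Spec.mk (nat_lit 11919) (nat_lit 0) [] (nat_lit 0) [] false,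
   Spec.mk (nat_lit 11925) (nat_lit 0) [] (nat_lit 0) [] false,
   Spec.mk (nat_lit 11935) (nat_lit 0) [] (nat_lit 0) [] false,
   Spec.mk (nat_lit 11937) (nat_lit 0) [] (nat_lit 0) [] false,
   Spec.mk (nat_lit 11943) (nat_lit 0) [] (nat_lit 0) [] false,
   Spec.mk (nat_lit 11961) (nat_lit 0) [] (nat_lit 0) [] false,
   Spec.mk (nat_lit 11989) (nat_lit 0) [] (nat_lit 0) [] false,
   Spec.mk (nat_lit 11991) (nat_lit 0) [] (nat_lit 0) [] false,
   Spec.mk (nat_lit 11997) (nat_lit 0) [] (nat_lit 0) [] false,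
   Spec.mk (nat_lit 12015) (nat_lit 0) [] (nat_lit 0) [] false,
   Spec.mk (nat_lit 12069) (nat_lit 0) [] (nat_lit 0) [] false,
   Spec.mk (nat_lit 12151) (nat_lit 0) [] (nat_lit 0) [] false,
   Spec.mk (nat_lit 12153) (nat_lit 0) [] (nat_lit 0) [] false,
   Spec.mk (nat_lit 12159) (nat_lit 0) [] (nat_lit 0) [] false,
   Spec.mk (nat_lit 12177) (nat_lit 0) [] (nat_lit 0) [] false,
   Spec.mk (nat_lit 12231) (nat_lit 0) [] (nat_lit 0) [] false,
   Spec.mk (nat_lit 12395) (nat_lit 0) [] (nat_lit 0) [] false,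
   Spec.mk (nat_lit 12397) (nat_lit 0) [] (nat_lit 0) [] false,
   Spec.mk (nat_lit 12399) (nat_lit 0) [] (nat_lit 0) [] false,
   Spec.mk (nat_lit 12403) (nat_lit 0) [] (nat_lit 0) [] false,
   Spec.mk (nat_lit 12405) (nat_lit 0) [] (nat_lit 0) [] false,
   Spec.mk (nat_lit 12411) (nat_lit 0) [] (nat_lit 0) [] false,
   Spec.mk (nat_lit 12421) (nat_lit 0) [] (nat_lit 0) [] false,
   Spec.mk (nat_lit 12423) (nat_lit 0) [] (nat_lit 0) [] false,
   Spec.mk (nat_lit 12429) (nat_lit 0) [] (nat_lit 0) [] false,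
   Spec.mk (nat_lit 12447) (nat_lit 0) [] (nat_lit 0) [] false,
   Spec.mk (nat_lit 12475) (nat_lit 0) [] (nat_lit 0) [] false,
   Spec.mk (nat_lit 12477) (nat_lit 0) [] (nat_lit 0) [] false,
   Spec.mk (nat_lit 12483) (nat_lit 0) [] (nat_lit 0) [] false,
   Spec.mk (nat_lit 12501) (nat_lit 0) [] (nat_lit 0) [] false,
   Spec.mk (nat_lit 12555) (nat_lit 0) [] (nat_lit 0) [] false,
   Spec.mk (nat_lit 12637) (nat_lit 0) [] (nat_lit 0) [] false,
   Spec.mk (nat_lit 12639) (nat_lit 0) [] (nat_lit 0) [] false,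
   Spec.mk (nat_lit 12645) (nat_lit 0) [] (nat_lit 0) [] false,
   Spec.mk (nat_lit 12663) (nat_lit 0) [] (nat_lit 0) [] false,
   Spec.mk (nat_lit 12717) (nat_lit 0) [] (nat_lit 0) [] false,
   Spec.mk (nat_lit 12879) (nat_lit 0) [] (nat_lit 0) [] false]

noncomputable def cd30 : List Spec :=
  [Spec.mk (nat_lit 13139) (nat_lit 0) [] (nat_lit 0) [] false,
   Spec.mk (nat_lit 13145) (nat_lit 0) [] (nat_lit 0) [] false,
   Spec.mk (nat_lit 13147) (nat_lit 0) [] (nat_lit 0) [] false,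
   Spec.mk (nat_lit 13157) (nat_lit 0) [] (nat_lit 0) [] false,
   Spec.mk (nat_lit 13163) (nat_lit 0) [] (nat_lit 0) [] false,
   Spec.mk (nat_lit 13165) (nat_lit 0) [] (nat_lit 0) [] false,
   Spec.mk (nat_lit 13169) (nat_lit 0) [] (nat_lit 0) [] false,
   Spec.mk (nat_lit 13171) (nat_lit 0) [] (nat_lit 0) [] false,
   Spec.mk (nat_lit 13173) (nat_lit 0) [] (nat_lit 0) [] false,
   Spec.mk (nat_lit 13181) (nat_lit 0) [] (nat_lit 0) [] false,
   Spec.mk (nat_lit 13183) (nat_lit 0) [] (nat_lit 0) [] false,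
   Spec.mk (nat_lit 13187) (nat_lit 0) [] (nat_lit 0) [] false,
   Spec.mk (nat_lit 13189) (nat_lit 0) [] (nat_lit 0) [] false,
   Spec.mk (nat_lit 13191) (nat_lit 0) [] (nat_lit 0) [] false,
   Spec.mk (nat_lit 13195) (nat_lit 0) [] (nat_lit 0) [] false,
   Spec.mk (nat_lit 13197) (nat_lit 0) [] (nat_lit 0) [] false,
   Spec.mk (nat_lit 13211) (nat_lit 0) [] (nat_lit 0) [] false,
   Spec.mk (nat_lit 13217) (nat_lit 0) [] (nat_lit 0) [] false,
   Spec.mk (nat_lit 13219) (nat_lit 0) [] (nat_lit 0) [] false,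
   Spec.mk (nat_lit 13223) (nat_lit 0) [] (nat_lit 0) [] false,
   Spec.mk (nat_lit 13225) (nat_lit 0) [] (nat_lit 0) [] false,
   Spec.mk (nat_lit 13227) (nat_lit 0) [] (nat_lit 0) [] false,
   Spec.mk (nat_lit 13235) (nat_lit 0) [] (nat_lit 0) [] false,
   Spec.mk (nat_lit 13237) (nat_lit 0) [] (nat_lit 0) [] false,
   Spec.mk (nat_lit 13241) (nat_lit 0) [] (nat_lit 0) [] false,
   Spec.mk (nat_lit 13243) (nat_lit 0) [] (nat_lit 0) [] false,
   Spec.mk (nat_lit 13245) (nat_lit 0) [] (nat_lit 0) [] false,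
   Spec.mk (nat_lit 13249) (nat_lit 0) [] (nat_lit 0) [] false,
   Spec.mk (nat_lit 13251) (nat_lit 0) [] (nat_lit 0) [] false,
   Spec.mk (nat_lit 13259) (nat_lit 0) [] (nat_lit 0) [] false,
   Spec.mk (nat_lit 13261) (nat_lit 0) [] (nat_lit 0) [] false,
   Spec.mk (nat_lit 13263) (nat_lit 0) [] (nat_lit 0) [] false,
   Spec.mk (nat_lit 13267) (nat_lit 0) [] (nat_lit 0) [] false,
   Spec.mk (nat_lit 13269) (nat_lit 0) [] (nat_lit 0) [] false,
   Spec.mk (nat_lit 13275) (nat_lit 0) [] (nat_lit 0) [] false,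
   Spec.mk (nat_lit 13289) (nat_lit 0) [] (nat_lit 0) [] false,
   Spec.mk (nat_lit 13291) (nat_lit 0) [] (nat_lit 0) [] false,
   Spec.mk (nat_lit 13295) (nat_lit 0) [] (nat_lit 0) [] false,
   Spec.mk (nat_lit 13297) (nat_lit 0) [] (nat_lit 0) [] false,
   Spec.mk (nat_lit 13299) (nat_lit 0) [] (nat_lit 0) [] false,
   Spec.mk (nat_lit 13303) (nat_lit 0) [] (nat_lit 0) [] false,
   Spec.mk (nat_lit 13305) (nat_lit 0) [] (nat_lit 0) [] false,
   Spec.mk (nat_lit 13313) (nat_lit 0) [] (nat_lit 0) [] false,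
   Spec.mk (nat_lit 13315) (nat_lit 0) [] (nat_lit 0) [] false,
   Spec.mk (nat_lit 13317) (nat_lit 0) [] (nat_lit 0) [] false,
   Spec.mk (nat_lit 13321) (nat_lit 0) [] (nat_lit 0) [] false,
   Spec.mk (nat_lit 13323) (nat_lit 0) [] (nat_lit 0) [] false,
   Spec.mk (nat_lit 13329) (nat_lit 0) [] (nat_lit 0) [] false,
   Spec.mk (nat_lit 13339) (nat_lit 0) [] (nat_lit 0) [] false,
   Spec.mk (nat_lit 13341) (nat_lit 0) [] (nat_lit 0) [] false,
   Spec.mk (nat_lit 13347) (nat_lit 0) [] (nat_lit 0) [] false,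
   Spec.mk (nat_lit 13373) (nat_lit 0) [] (nat_lit 0) [] false,
   Spec.mk (nat_lit 13379) (nat_lit 0) [] (nat_lit 0) [] false,
   Spec.mk (nat_lit 13381) (nat_lit 0) [] (nat_lit 0) [] false,
   Spec.mk (nat_lit 13385) (nat_lit 0) [] (nat_lit 0) [] false,
   Spec.mk (nat_lit 13387) (nat_lit 0) [] (nat_lit 0) [] false,
   Spec.mk (nat_lit 13389) (nat_lit 0) [] (nat_lit 0) [] false,
   Spec.mk (nat_lit 13397) (nat_lit 0) [] (nat_lit 0) [] false,
   Spec.mk (nat_lit 13399) (nat_lit 0) [] (nat_lit 0) [] false,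
   Spec.mk (nat_lit 13403) (nat_lit 0) [] (nat_lit 0) [] false]

noncomputable def cd31 : List Spec :=
  [Spec.mk (nat_lit 13405) (nat_lit 0) [] (nat_lit 0) [] false,
   Spec.mk (nat_lit 13407) (nat_lit 0) [] (nat_lit 0) [] false,
   Spec.mk (nat_lit 13411) (nat_lit 0) [] (nat_lit 0) [] false,
   Spec.mk (nat_lit 13413) (nat_lit 0) [] (nat_lit 0) [] false,
   Spec.mk (nat_lit 13421) (nat_lit 0) [] (nat_lit 0) [] false,
   Spec.mk (nat_lit 13423) (nat_lit 0) [] (nat_lit 0) [] false,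
   Spec.mk (nat_lit 13425) (nat_lit 0) [] (nat_lit 0) [] false,
   Spec.mk (nat_lit 13429) (nat_lit 0) [] (nat_lit 0) [] false,
   Spec.mk (nat_lit 13431) (nat_lit 0) [] (nat_lit 0) [] false,
   Spec.mk (nat_lit 13437) (nat_lit 0) [] (nat_lit 0) [] false,
   Spec.mk (nat_lit 13451) (nat_lit 0) [] (nat_lit 0) [] false,
   Spec.mk (nat_lit 13453) (nat_lit 0) [] (nat_lit 0) [] false,
   Spec.mk (nat_lit 13457) (nat_lit 0) [] (nat_lit 0) [] false,
   Spec.mk (nat_lit 13459) (nat_lit 0) [] (nat_lit 0) [] false,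
   Spec.mk (nat_lit 13461) (nat_lit 0) [] (nat_lit 0) [] false,
   Spec.mk (nat_lit 13465) (nat_lit 0) [] (nat_lit 0) [] false,
   Spec.mk (nat_lit 13467) (nat_lit 0) [] (nat_lit 0) [] false,
   Spec.mk (nat_lit 13475) (nat_lit 0) [] (nat_lit 0) [] false,
   Spec.mk (nat_lit 13477) (nat_lit 0) [] (nat_lit 0) [] false,
   Spec.mk (nat_lit 13479) (nat_lit 0) [] (nat_lit 0) [] false,
   Spec.mk (nat_lit 13483) (nat_lit 0) [] (nat_lit 0) [] false,
   Spec.mk (nat_lit 13485) (nat_lit 0) [] (nat_lit 0) [] false,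
   Spec.mk (nat_lit 13491) (nat_lit 0) [] (nat_lit 0) [] false,
   Spec.mk (nat_lit 13501) (nat_lit 0) [] (nat_lit 0) [] false,
   Spec.mk (nat_lit 13503) (nat_lit 0) [] (nat_lit 0) [] false,
   Spec.mk (nat_lit 13509) (nat_lit 0) [] (nat_lit 0) [] false,
   Spec.mk (nat_lit 13529) (nat_lit 0) [] (nat_lit 0) [] false,
   Spec.mk (nat_lit 13531) (nat_lit 0) [] (nat_lit 0) [] false,
   Spec.mk (nat_lit 13533) (nat_lit 0) [] (nat_lit 0) [] false,
   Spec.mk (nat_lit 13537) (nat_lit 0) [] (nat_lit 0) [] false,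
   Spec.mk (nat_lit 13539) (nat_lit 0) [] (nat_lit 0) [] false,
   Spec.mk (nat_lit 13545) (nat_lit 0) [] (nat_lit 0) [] false,
   Spec.mk (nat_lit 13555) (nat_lit 0) [] (nat_lit 0) [] false,
   Spec.mk (nat_lit 13557) (nat_lit 0) [] (nat_lit 0) [] false,
   Spec.mk (nat_lit 13563) (nat_lit 0) [] (nat_lit 0) [] false,
   Spec.mk (nat_lit 13581) (nat_lit 0) [] (nat_lit 0) [] false,
   Spec.mk (nat_lit 13613) (nat_lit 0) [] (nat_lit 0) [] false,
   Spec.mk (nat_lit 13615) (nat_lit 0) [] (nat_lit 0) [] false,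
   Spec.mk (nat_lit 13619) (nat_lit 0) [] (nat_lit 0) [] false,
   Spec.mk (nat_lit 13621) (nat_lit 0) [] (nat_lit 0) [] false,
   Spec.mk (nat_lit 13623) (nat_lit 0) [] (nat_lit 0) [] false,
   Spec.mk (nat_lit 13627) (nat_lit 0) [] (nat_lit 0) [] false,
   Spec.mk (nat_lit 13629) (nat_lit 0) [] (nat_lit 0) [] false,
   Spec.mk (nat_lit 13637) (nat_lit 0) [] (nat_lit 0) [] false,
   Spec.mk (nat_lit 13639) (nat_lit 0) [] (nat_lit 0) [] false,
   Spec.mk (nat_lit 13641) (nat_lit 0) [] (nat_lit 0) [] false,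
   Spec.mk (nat_lit 13645) (nat_lit 0) [] (nat_lit 0) [] false,
   Spec.mk (nat_lit 13647) (nat_lit 0) [] (nat_lit 0) [] false,
   Spec.mk (nat_lit 13653) (nat_lit 0) [] (nat_lit 0) [] false,
   Spec.mk (nat_lit 13663) (nat_lit 0) [] (nat_lit 0) [] false,
   Spec.mk (nat_lit 13665) (nat_lit 0) [] (nat_lit 0) [] false,
   Spec.mk (nat_lit 13671) (nat_lit 0) [] (nat_lit 0) [] false,
   Spec.mk (nat_lit 13691) (nat_lit 0) [] (nat_lit 0) [] false,
   Spec.mk (nat_lit 13693) (nat_lit 0) [] (nat_lit 0) [] false,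
   Spec.mk (nat_lit 13695) (nat_lit 0) [] (nat_lit 0) [] false,
   Spec.mk (nat_lit 13699) (nat_lit 0) [] (nat_lit 0) [] false,
   Spec.mk (nat_lit 13701) (nat_lit 0) [] (nat_lit 0) [] false,
   Spec.mk (nat_lit 13707) (nat_lit 0) [] (nat_lit 0) [] false,
   Spec.mk (nat_lit 13717) (nat_lit 0) [] (nat_lit 0) [] false,
   Spec.mk (nat_lit 13719) (nat_lit 0) [] (nat_lit 0) [] false]

noncomputable def cd32 : List Spec :=
  [Spec.mk (nat_lit 13725) (nat_lit 0) [] (nat_lit 0) [] false,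
   Spec.mk (nat_lit 13743) (nat_lit 0) [] (nat_lit 0) [] false,
   Spec.mk (nat_lit 13771) (nat_lit 0) [] (nat_lit 0) [] false,
   Spec.mk (nat_lit 13773) (nat_lit 0) [] (nat_lit 0) [] false,
   Spec.mk (nat_lit 13779) (nat_lit 0) [] (nat_lit 0) [] false,
   Spec.mk (nat_lit 13797) (nat_lit 0) [] (nat_lit 0) [] false,
   Spec.mk (nat_lit 13859) (nat_lit 0) [] (nat_lit 0) [] false,
   Spec.mk (nat_lit 13865) (nat_lit 0) [] (nat_lit 0) [] false,
   Spec.mk (nat_lit 13867) (nat_lit 0) [] (nat_lit 0) [] false,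
   Spec.mk (nat_lit 13871) (nat_lit 0) [] (nat_lit 0) [] false,
   Spec.mk (nat_lit 13873) (nat_lit 0) [] (nat_lit 0) [] false,
   Spec.mk (nat_lit 13875) (nat_lit 0) [] (nat_lit 0) [] false,
   Spec.mk (nat_lit 13883) (nat_lit 0) [] (nat_lit 0) [] false,
   Spec.mk (nat_lit 13885) (nat_lit 0) [] (nat_lit 0) [] false,
   Spec.mk (nat_lit 13889) (nat_lit 0) [] (nat_lit 0) [] false,
   Spec.mk (nat_lit 13891) (nat_lit 0) [] (nat_lit 0) [] false,
   Spec.mk (nat_lit 13893) (nat_lit 0) [] (nat_lit 0) [] false,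
   Spec.mk (nat_lit 13897) (nat_lit 0) [] (nat_lit 0) [] false,
   Spec.mk (nat_lit 13899) (nat_lit 0) [] (nat_lit 0) [] false,
   Spec.mk (nat_lit 13907) (nat_lit 0) [] (nat_lit 0) [] false,
   Spec.mk (nat_lit 13909) (nat_lit 0) [] (nat_lit 0) [] false,
   Spec.mk (nat_lit 13911) (nat_lit 0) [] (nat_lit 0) [] false,
   Spec.mk (nat_lit 13915) (nat_lit 0) [] (nat_lit 0) [] false,
   Spec.mk (nat_lit 13917) (nat_lit 0) [] (nat_lit 0) [] false,
   Spec.mk (nat_lit 13923) (nat_lit 0) [] (nat_lit 0) [] false,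
   Spec.mk (nat_lit 13937) (nat_lit 0) [] (nat_lit 0) [] false,
   Spec.mk (nat_lit 13939) (nat_lit 0) [] (nat_lit 0) [] false,
   Spec.mk (nat_lit 13943) (nat_lit 0) [] (nat_lit 0) [] false,
   Spec.mk (nat_lit 13945) (nat_lit 0) [] (nat_lit 0) [] false,
   Spec.mk (nat_lit 13947) (nat_lit 0) [] (nat_lit 0) [] false,
   Spec.mk (nat_lit 13951) (nat_lit 0) [] (nat_lit 0) [] false,
   Spec.mk (nat_lit 13953) (nat_lit 0) [] (nat_lit 0) [] false,
   Spec.mk (nat_lit 13961) (nat_lit 0) [] (nat_lit 0) [] false,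
   Spec.mk (nat_lit 13963) (nat_lit 0) [] (nat_lit 0) [] false,
   Spec.mk (nat_lit 13965) (nat_lit 0) [] (nat_lit 0) [] false,
   Spec.mk (nat_lit 13969) (nat_lit 0) [] (nat_lit 0) [] false,
   Spec.mk (nat_lit 13971) (nat_lit 0) [] (nat_lit 0) [] false,
   Spec.mk (nat_lit 13977) (nat_lit 0) [] (nat_lit 0) [] false,
   Spec.mk (nat_lit 13987) (nat_lit 0) [] (nat_lit 0) [] false,
   Spec.mk (nat_lit 13989) (nat_lit 0) [] (nat_lit 0) [] false,
   Spec.mk (nat_lit 13995) (nat_lit 0) [] (nat_lit 0) [] false,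
   Spec.mk (nat_lit 14015) (nat_lit 0) [] (nat_lit 0) [] false,
   Spec.mk (nat_lit 14017) (nat_lit 0) [] (nat_lit 0) [] false,
   Spec.mk (nat_lit 14019) (nat_lit 0) [] (nat_lit 0) [] false,
   Spec.mk (nat_lit 14023) (nat_lit 0) [] (nat_lit 0) [] false,
   Spec.mk (nat_lit 14025) (nat_lit 0) [] (nat_lit 0) [] false,
   Spec.mk (nat_lit 14031) (nat_lit 0) [] (nat_lit 0) [] false,
   Spec.mk (nat_lit 14041) (nat_lit 0) [] (nat_lit 0) [] false,
   Spec.mk (nat_lit 14043) (nat_lit 0) [] (nat_lit 0) [] false,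
   Spec.mk (nat_lit 14049) (nat_lit 0) [] (nat_lit 0) [] false,
   Spec.mk (nat_lit 14067) (nat_lit 0) [] (nat_lit 0) [] false,
   Spec.mk (nat_lit 14099) (nat_lit 0) [] (nat_lit 0) [] false,
   Spec.mk (nat_lit 14101) (nat_lit 0) [] (nat_lit 0) [] false,
   Spec.mk (nat_lit 14105) (nat_lit 0) [] (nat_lit 0) [] false,
   Spec.mk (nat_lit 14107) (nat_lit 0) [] (nat_lit 0) [] false,
   Spec.mk (nat_lit 14109) (nat_lit 0) [] (nat_lit 0) [] false,
   Spec.mk (nat_lit 14113) (nat_lit 0) [] (nat_lit 0) [] false,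
   Spec.mk (nat_lit 14115) (nat_lit 0) [] (nat_lit 0) [] false,
   Spec.mk (nat_lit 14123) (nat_lit 0) [] (nat_lit 0) [] false,
   Spec.mk (nat_lit 14125) (nat_lit 0) [] (nat_lit 0) [] false]

noncomputable def cd33 : List Spec :=
  [Spec.mk (nat_lit 14127) (nat_lit 0) [] (nat_lit 0) [] false,
   Spec.mk (nat_lit 14131) (nat_lit 0) [] (nat_lit 0) [] false,
   Spec.mk (nat_lit 14133) (nat_lit 0) [] (nat_lit 0) [] false,
   Spec.mk (nat_lit 14139) (nat_lit 0) [] (nat_lit 0) [] false,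
   Spec.mk (nat_lit 14149) (nat_lit 0) [] (nat_lit 0) [] false,
   Spec.mk (nat_lit 14151) (nat_lit 0) [] (nat_lit 0) [] false,
   Spec.mk (nat_lit 14157) (nat_lit 0) [] (nat_lit 0) [] false,
   Spec.mk (nat_lit 14177) (nat_lit 0) [] (nat_lit 0) [] false,
   Spec.mk (nat_lit 14179) (nat_lit 0) [] (nat_lit 0) [] false,
   Spec.mk (nat_lit 14181) (nat_lit 0) [] (nat_lit 0) [] false,
   Spec.mk (nat_lit 14185) (nat_lit 0) [] (nat_lit 0) [] false,
   Spec.mk (nat_lit 14187) (nat_lit 0) [] (nat_lit 0) [] false,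
   Spec.mk (nat_lit 14193) (nat_lit 0) [] (nat_lit 0) [] false,
   Spec.mk (nat_lit 14203) (nat_lit 0) [] (nat_lit 0) [] false,
   Spec.mk (nat_lit 14205) (nat_lit 0) [] (nat_lit 0) [] false,
   Spec.mk (nat_lit 14211) (nat_lit 0) [] (nat_lit 0) [] false,
   Spec.mk (nat_lit 14229) (nat_lit 0) [] (nat_lit 0) [] false,
   Spec.mk (nat_lit 14257) (nat_lit 0) [] (nat_lit 0) [] false,
   Spec.mk (nat_lit 14259) (nat_lit 0) [] (nat_lit 0) [] false,
   Spec.mk (nat_lit 14265) (nat_lit 0) [] (nat_lit 0) [] false,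
   Spec.mk (nat_lit 14283) (nat_lit 0) [] (nat_lit 0) [] false,
   Spec.mk (nat_lit 14339) (nat_lit 0) [] (nat_lit 0) [] false,
   Spec.mk (nat_lit 14341) (nat_lit 0) [] (nat_lit 0) [] false,
   Spec.mk (nat_lit 14343) (nat_lit 0) [] (nat_lit 0) [] false,
   Spec.mk (nat_lit 14347) (nat_lit 0) [] (nat_lit 0) [] false,
   Spec.mk (nat_lit 14349) (nat_lit 0) [] (nat_lit 0) [] false,
   Spec.mk (nat_lit 14355) (nat_lit 0) [] (nat_lit 0) [] false,
   Spec.mk (nat_lit 14365) (nat_lit 0) [] (nat_lit 0) [] false,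
   Spec.mk (nat_lit 14367) (nat_lit 0) [] (nat_lit 0) [] false,
   Spec.mk (nat_lit 14373) (nat_lit 0) [] (nat_lit 0) [] false,
   Spec.mk (nat_lit 14391) (nat_lit 0) [] (nat_lit 0) [] false,
   Spec.mk (nat_lit 14419) (nat_lit 0) [] (nat_lit 0) [] false,
   Spec.mk (nat_lit 14421) (nat_lit 0) [] (nat_lit 0) [] false,
   Spec.mk (nat_lit 14427) (nat_lit 0) [] (nat_lit 0) [] false,
   Spec.mk (nat_lit 14445) (nat_lit 0) [] (nat_lit 0) [] false,
   Spec.mk (nat_lit 14499) (nat_lit 0) [] (nat_lit 0) [] false,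
   Spec.mk (nat_lit 14585) (nat_lit 0) [] (nat_lit 0) [] false,
   Spec.mk (nat_lit 14587) (nat_lit 0) [] (nat_lit 0) [] false,
   Spec.mk (nat_lit 14591) (nat_lit 0) [] (nat_lit 0) [] false,
   Spec.mk (nat_lit 14593) (nat_lit 0) [] (nat_lit 0) [] false,
   Spec.mk (nat_lit 14595) (nat_lit 0) [] (nat_lit 0) [] false,
   Spec.mk (nat_lit 14599) (nat_lit 0) [] (nat_lit 0) [] false,
   Spec.mk (nat_lit 14601) (nat_lit 0) [] (nat_lit 0) [] false,
   Spec.mk (nat_lit 14609) (nat_lit 0) [] (nat_lit 0) [] false,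
   Spec.mk (nat_lit 14611) (nat_lit 0) [] (nat_lit 0) [] false,
   Spec.mk (nat_lit 14613) (nat_lit 0) [] (nat_lit 0) [] false,
   Spec.mk (nat_lit 14617) (nat_lit 0) [] (nat_lit 0) [] false,
   Spec.mk (nat_lit 14619) (nat_lit 0) [] (nat_lit 0) [] false,
   Spec.mk (nat_lit 14625) (nat_lit 0) [] (nat_lit 0) [] false,
   Spec.mk (nat_lit 14635) (nat_lit 0) [] (nat_lit 0) [] false,
   Spec.mk (nat_lit 14637) (nat_lit 0) [] (nat_lit 0) [] false,
   Spec.mk (nat_lit 14643) (nat_lit 0) [] (nat_lit 0) [] false,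
   Spec.mk (nat_lit 14663) (nat_lit 0) [] (nat_lit 0) [] false,
   Spec.mk (nat_lit 14665) (nat_lit 0) [] (nat_lit 0) [] false,
   Spec.mk (nat_lit 14667) (nat_lit 0) [] (nat_lit 0) [] false,
   Spec.mk (nat_lit 14671) (nat_lit 0) [] (nat_lit 0) [] false,
   Spec.mk (nat_lit 14673) (nat_lit 0) [] (nat_lit 0) [] false,
   Spec.mk (nat_lit 14679) (nat_lit 0) [] (nat_lit 0) [] false,
   Spec.mk (nat_lit 14689) (nat_lit 0) [] (nat_lit 0) [] false,
   Spec.mk (nat_lit 14691) (nat_lit 0) [] (nat_lit 0) [] false]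

noncomputable def cd34 : List Spec :=
  [Spec.mk (nat_lit 14697) (nat_lit 0) [] (nat_lit 0) [] false,
   Spec.mk (nat_lit 14715) (nat_lit 0) [] (nat_lit 0) [] false,
   Spec.mk (nat_lit 14743) (nat_lit 0) [] (nat_lit 0) [] false,
   Spec.mk (nat_lit 14745) (nat_lit 0) [] (nat_lit 0) [] false,
   Spec.mk (nat_lit 14751) (nat_lit 0) [] (nat_lit 0) [] false,
   Spec.mk (nat_lit 14769) (nat_lit 0) [] (nat_lit 0) [] false,
   Spec.mk (nat_lit 14825) (nat_lit 0) [] (nat_lit 0) [] false,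
   Spec.mk (nat_lit 14827) (nat_lit 0) [] (nat_lit 0) [] false,
   Spec.mk (nat_lit 14829) (nat_lit 0) [] (nat_lit 0) [] false,
   Spec.mk (nat_lit 14833) (nat_lit 0) [] (nat_lit 0) [] false,
   Spec.mk (nat_lit 14835) (nat_lit 0) [] (nat_lit 0) [] false,
   Spec.mk (nat_lit 14841) (nat_lit 0) [] (nat_lit 0) [] false,
   Spec.mk (nat_lit 14851) (nat_lit 0) [] (nat_lit 0) [] false,
   Spec.mk (nat_lit 14853) (nat_lit 0) [] (nat_lit 0) [] false,
   Spec.mk (nat_lit 14859) (nat_lit 0) [] (nat_lit 0) [] false,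
   Spec.mk (nat_lit 14877) (nat_lit 0) [] (nat_lit 0) [] false,
   Spec.mk (nat_lit 14905) (nat_lit 0) [] (nat_lit 0) [] false,
   Spec.mk (nat_lit 14907) (nat_lit 0) [] (nat_lit 0) [] false,
   Spec.mk (nat_lit 14913) (nat_lit 0) [] (nat_lit 0) [] false,
   Spec.mk (nat_lit 14931) (nat_lit 0) [] (nat_lit 0) [] false,
   Spec.mk (nat_lit 14985) (nat_lit 0) [] (nat_lit 0) [] false,
   Spec.mk (nat_lit 15067) (nat_lit 0) [] (nat_lit 0) [] false,
   Spec.mk (nat_lit 15069) (nat_lit 0) [] (nat_lit 0) [] false,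
   Spec.mk (nat_lit 15075) (nat_lit 0) [] (nat_lit 0) [] false,
   Spec.mk (nat_lit 15093) (nat_lit 0) [] (nat_lit 0) [] false,
   Spec.mk (nat_lit 15147) (nat_lit 0) [] (nat_lit 0) [] false,
   Spec.mk (nat_lit 15317) (nat_lit 0) [] (nat_lit 0) [] false,
   Spec.mk (nat_lit 15323) (nat_lit 0) [] (nat_lit 0) [] false,
   Spec.mk (nat_lit 15325) (nat_lit 0) [] (nat_lit 0) [] false,
   Spec.mk (nat_lit 15329) (nat_lit 0) [] (nat_lit 0) [] false,
   Spec.mk (nat_lit 15331) (nat_lit 0) [] (nat_lit 0) [] false,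
   Spec.mk (nat_lit 15333) (nat_lit 0) [] (nat_lit 0) [] false,
   Spec.mk (nat_lit 15341) (nat_lit 0) [] (nat_lit 0) [] false,
   Spec.mk (nat_lit 15343) (nat_lit 0) [] (nat_lit 0) [] false,
   Spec.mk (nat_lit 15347) (nat_lit 0) [] (nat_lit 0) [] false,
   Spec.mk (nat_lit 15349) (nat_lit 0) [] (nat_lit 0) [] false,
   Spec.mk (nat_lit 15351) (nat_lit 0) [] (nat_lit 0) [] false,
   Spec.mk (nat_lit 15355) (nat_lit 0) [] (nat_lit 0) [] false,
   Spec.mk (nat_lit 15357) (nat_lit 0) [] (nat_lit 0) [] false,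
   Spec.mk (nat_lit 15365) (nat_lit 0) [] (nat_lit 0) [] false,
   Spec.mk (nat_lit 15367) (nat_lit 0) [] (nat_lit 0) [] false,
   Spec.mk (nat_lit 15369) (nat_lit 0) [] (nat_lit 0) [] false,
   Spec.mk (nat_lit 15373) (nat_lit 0) [] (nat_lit 0) [] false,
   Spec.mk (nat_lit 15375) (nat_lit 0) [] (nat_lit 0) [] false,
   Spec.mk (nat_lit 15381) (nat_lit 0) [] (nat_lit 0) [] false,
   Spec.mk (nat_lit 15395) (nat_lit 0) [] (nat_lit 0) [] false,
   Spec.mk (nat_lit 15397) (nat_lit 0) [] (nat_lit 0) [] false,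
   Spec.mk (nat_lit 15401) (nat_lit 0) [] (nat_lit 0) [] false,
   Spec.mk (nat_lit 15403) (nat_lit 0) [] (nat_lit 0) [] false,
   Spec.mk (nat_lit 15405) (nat_lit 0) [] (nat_lit 0) [] false,
   Spec.mk (nat_lit 15409) (nat_lit 0) [] (nat_lit 0) [] false,
   Spec.mk (nat_lit 15411) (nat_lit 0) [] (nat_lit 0) [] false,
   Spec.mk (nat_lit 15419) (nat_lit 0) [] (nat_lit 0) [] false,
   Spec.mk (nat_lit 15421) (nat_lit 0) [] (nat_lit 0) [] false,
   Spec.mk (nat_lit 15423) (nat_lit 0) [] (nat_lit 0) [] false,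
   Spec.mk (nat_lit 15427) (nat_lit 0) [] (nat_lit 0) [] false,
   Spec.mk (nat_lit 15429) (nat_lit 0) [] (nat_lit 0) [] false,
   Spec.mk (nat_lit 15435) (nat_lit 0) [] (nat_lit 0) [] false,
   Spec.mk (nat_lit 15445) (nat_lit 0) [] (nat_lit 0) [] false,
   Spec.mk (nat_lit 15447) (nat_lit 0) [] (nat_lit 0) [] false]

noncomputable def cd35 : List Spec :=
  [Spec.mk (nat_lit 15453) (nat_lit 0) [] (nat_lit 0) [] false,
   Spec.mk (nat_lit 15473) (nat_lit 0) [] (nat_lit 0) [] false,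
   Spec.mk (nat_lit 15475) (nat_lit 0) [] (nat_lit 0) [] false,
   Spec.mk (nat_lit 15477) (nat_lit 0) [] (nat_lit 0) [] false,
   Spec.mk (nat_lit 15481) (nat_lit 0) [] (nat_lit 0) [] false,
   Spec.mk (nat_lit 15483) (nat_lit 0) [] (nat_lit 0) [] false,
   Spec.mk (nat_lit 15489) (nat_lit 0) [] (nat_lit 0) [] false,
   Spec.mk (nat_lit 15499) (nat_lit 0) [] (nat_lit 0) [] false,
   Spec.mk (nat_lit 15501) (nat_lit 0) [] (nat_lit 0) [] false,
   Spec.mk (nat_lit 15507) (nat_lit 0) [] (nat_lit 0) [] false,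
   Spec.mk (nat_lit 15525) (nat_lit 0) [] (nat_lit 0) [] false,
   Spec.mk (nat_lit 15557) (nat_lit 0) [] (nat_lit 0) [] false,
   Spec.mk (nat_lit 15559) (nat_lit 0) [] (nat_lit 0) [] false,
   Spec.mk (nat_lit 15563) (nat_lit 0) [] (nat_lit 0) [] false,
   Spec.mk (nat_lit 15565) (nat_lit 0) [] (nat_lit 0) [] false,
   Spec.mk (nat_lit 15567) (nat_lit 0) [] (nat_lit 0) [] false,
   Spec.mk (nat_lit 15571) (nat_lit 0) [] (nat_lit 0) [] false,
   Spec.mk (nat_lit 15573) (nat_lit 0) [] (nat_lit 0) [] false,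
   Spec.mk (nat_lit 15581) (nat_lit 0) [] (nat_lit 0) [] false,
   Spec.mk (nat_lit 15583) (nat_lit 0) [] (nat_lit 0) [] false,
   Spec.mk (nat_lit 15585) (nat_lit 0) [] (nat_lit 0) [] false,
   Spec.mk (nat_lit 15589) (nat_lit 0) [] (nat_lit 0) [] false,
   Spec.mk (nat_lit 15591) (nat_lit 0) [] (nat_lit 0) [] false,
   Spec.mk (nat_lit 15597) (nat_lit 0) [] (nat_lit 0) [] false,
   Spec.mk (nat_lit 15607) (nat_lit 0) [] (nat_lit 0) [] false,
   Spec.mk (nat_lit 15609) (nat_lit 0) [] (nat_lit 0) [] false,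
   Spec.mk (nat_lit 15615) (nat_lit 0) [] (nat_lit 0) [] false,
   Spec.mk (nat_lit 15635) (nat_lit 0) [] (nat_lit 0) [] false,
   Spec.mk (nat_lit 15637) (nat_lit 0) [] (nat_lit 0) [] false,
   Spec.mk (nat_lit 15639) (nat_lit 0) [] (nat_lit 0) [] false,
   Spec.mk (nat_lit 15643) (nat_lit 0) [] (nat_lit 0) [] false,
   Spec.mk (nat_lit 15645) (nat_lit 0) [] (nat_lit 0) [] false,
   Spec.mk (nat_lit 15651) (nat_lit 0) [] (nat_lit 0) [] false,
   Spec.mk (nat_lit 15661) (nat_lit 0) [] (nat_lit 0) [] false,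
   Spec.mk (nat_lit 15663) (nat_lit 0) [] (nat_lit 0) [] false,
   Spec.mk (nat_lit 15669) (nat_lit 0) [] (nat_lit 0) [] false,
   Spec.mk (nat_lit 15687) (nat_lit 0) [] (nat_lit 0) [] false,
   Spec.mk (nat_lit 15715) (nat_lit 0) [] (nat_lit 0) [] false,
   Spec.mk (nat_lit 15717) (nat_lit 0) [] (nat_lit 0) [] false,
   Spec.mk (nat_lit 15723) (nat_lit 0) [] (nat_lit 0) [] false,
   Spec.mk (nat_lit 15741) (nat_lit 0) [] (nat_lit 0) [] false,
   Spec.mk (nat_lit 15797) (nat_lit 0) [] (nat_lit 0) [] false,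
   Spec.mk (nat_lit 15799) (nat_lit 0) [] (nat_lit 0) [] false,
   Spec.mk (nat_lit 15801) (nat_lit 0) [] (nat_lit 0) [] false,
   Spec.mk (nat_lit 15805) (nat_lit 0) [] (nat_lit 0) [] false,
   Spec.mk (nat_lit 15807) (nat_lit 0) [] (nat_lit 0) [] false,
   Spec.mk (nat_lit 15813) (nat_lit 0) [] (nat_lit 0) [] false,
   Spec.mk (nat_lit 15823) (nat_lit 0) [] (nat_lit 0) [] false,
   Spec.mk (nat_lit 15825) (nat_lit 0) [] (nat_lit 0) [] false,
   Spec.mk (nat_lit 15831) (nat_lit 0) [] (nat_lit 0) [] false,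
   Spec.mk (nat_lit 15849) (nat_lit 0) [] (nat_lit 0) [] false,
   Spec.mk (nat_lit 15877) (nat_lit 0) [] (nat_lit 0) [] false,
   Spec.mk (nat_lit 15879) (nat_lit 0) [] (nat_lit 0) [] false,
   Spec.mk (nat_lit 15885) (nat_lit 0) [] (nat_lit 0) [] false,
   Spec.mk (nat_lit 15903) (nat_lit 0) [] (nat_lit 0) [] false,
   Spec.mk (nat_lit 15957) (nat_lit 0) [] (nat_lit 0) [] false,
   Spec.mk (nat_lit 16043) (nat_lit 0) [] (nat_lit 0) [] false,
   Spec.mk (nat_lit 16045) (nat_lit 0) [] (nat_lit 0) [] false,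
   Spec.mk (nat_lit 16049) (nat_lit 0) [] (nat_lit 0) [] false,
   Spec.mk (nat_lit 16051) (nat_lit 0) [] (nat_lit 0) [] false]

noncomputable def cd36 : List Spec :=
  [Spec.mk (nat_lit 16053) (nat_lit 0) [] (nat_lit 0) [] false,
   Spec.mk (nat_lit 16057) (nat_lit 0) [] (nat_lit 0) [] false,
   Spec.mk (nat_lit 16059) (nat_lit 0) [] (nat_lit 0) [] false,
   Spec.mk (nat_lit 16067) (nat_lit 0) [] (nat_lit 0) [] false,
   Spec.mk (nat_lit 16069) (nat_lit 0) [] (nat_lit 0) [] false,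
   Spec.mk (nat_lit 16071) (nat_lit 0) [] (nat_lit 0) [] false,
   Spec.mk (nat_lit 16075) (nat_lit 0) [] (nat_lit 0) [] false,
   Spec.mk (nat_lit 16077) (nat_lit 0) [] (nat_lit 0) [] false,
   Spec.mk (nat_lit 16083) (nat_lit 0) [] (nat_lit 0) [] false,
   Spec.mk (nat_lit 16093) (nat_lit 0) [] (nat_lit 0) [] false,
   Spec.mk (nat_lit 16095) (nat_lit 0) [] (nat_lit 0) [] false,
   Spec.mk (nat_lit 16101) (nat_lit 0) [] (nat_lit 0) [] false,
   Spec.mk (nat_lit 16121) (nat_lit 0) [] (nat_lit 0) [] false,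
   Spec.mk (nat_lit 16123) (nat_lit 0) [] (nat_lit 0) [] false,
   Spec.mk (nat_lit 16125) (nat_lit 0) [] (nat_lit 0) [] false,
   Spec.mk (nat_lit 16129) (nat_lit 0) [] (nat_lit 0) [] false,
   Spec.mk (nat_lit 16131) (nat_lit 0) [] (nat_lit 0) [] false,
   Spec.mk (nat_lit 16137) (nat_lit 0) [] (nat_lit 0) [] false,
   Spec.mk (nat_lit 16147) (nat_lit 0) [] (nat_lit 0) [] false,
   Spec.mk (nat_lit 16149) (nat_lit 0) [] (nat_lit 0) [] false,
   Spec.mk (nat_lit 16155) (nat_lit 0) [] (nat_lit 0) [] false,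
   Spec.mk (nat_lit 16173) (nat_lit 0) [] (nat_lit 0) [] false,
   Spec.mk (nat_lit 16201) (nat_lit 0) [] (nat_lit 0) [] false,
   Spec.mk (nat_lit 16203) (nat_lit 0) [] (nat_lit 0) [] false,
   Spec.mk (nat_lit 16209) (nat_lit 0) [] (nat_lit 0) [] false,
   Spec.mk (nat_lit 16227) (nat_lit 0) [] (nat_lit 0) [] false,
   Spec.mk (nat_lit 16283) (nat_lit 0) [] (nat_lit 0) [] false,
   Spec.mk (nat_lit 16285) (nat_lit 0) [] (nat_lit 0) [] false,
   Spec.mk (nat_lit 16287) (nat_lit 0) [] (nat_lit 0) [] false,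
   Spec.mk (nat_lit 16291) (nat_lit 0) [] (nat_lit 0) [] false,
   Spec.mk (nat_lit 16293) (nat_lit 0) [] (nat_lit 0) [] false,
   Spec.mk (nat_lit 16299) (nat_lit 0) [] (nat_lit 0) [] false,
   Spec.mk (nat_lit 16309) (nat_lit 0) [] (nat_lit 0) [] false,
   Spec.mk (nat_lit 16311) (nat_lit 0) [] (nat_lit 0) [] false,
   Spec.mk (nat_lit 16317) (nat_lit 0) [] (nat_lit 0) [] false,
   Spec.mk (nat_lit 16335) (nat_lit 0) [] (nat_lit 0) [] false,
   Spec.mk (nat_lit 16363) (nat_lit 0) [] (nat_lit 0) [] false,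
   Spec.mk (nat_lit 16365) (nat_lit 0) [] (nat_lit 0) [] false,
   Spec.mk (nat_lit 16371) (nat_lit 0) [] (nat_lit 0) [] false,
   Spec.mk (nat_lit 16389) (nat_lit 0) [] (nat_lit 0) [] false,
   Spec.mk (nat_lit 16443) (nat_lit 0) [] (nat_lit 0) [] false,
   Spec.mk (nat_lit 16525) (nat_lit 0) [] (nat_lit 0) [] false,
   Spec.mk (nat_lit 16527) (nat_lit 0) [] (nat_lit 0) [] false,
   Spec.mk (nat_lit 16533) (nat_lit 0) [] (nat_lit 0) [] false,
   Spec.mk (nat_lit 16551) (nat_lit 0) [] (nat_lit 0) [] false,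
   Spec.mk (nat_lit 16605) (nat_lit 0) [] (nat_lit 0) [] false,
   Spec.mk (nat_lit 16769) (nat_lit 0) [] (nat_lit 0) [] false,
   Spec.mk (nat_lit 16771) (nat_lit 0) [] (nat_lit 0) [] false,
   Spec.mk (nat_lit 16773) (nat_lit 0) [] (nat_lit 0) [] false,
   Spec.mk (nat_lit 16777) (nat_lit 0) [] (nat_lit 0) [] false,
   Spec.mk (nat_lit 16779) (nat_lit 0) [] (nat_lit 0) [] false,
   Spec.mk (nat_lit 16785) (nat_lit 0) [] (nat_lit 0) [] false,
   Spec.mk (nat_lit 16795) (nat_lit 0) [] (nat_lit 0) [] false,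
   Spec.mk (nat_lit 16797) (nat_lit 0) [] (nat_lit 0) [] false,
   Spec.mk (nat_lit 16803) (nat_lit 0) [] (nat_lit 0) [] false,
   Spec.mk (nat_lit 16821) (nat_lit 0) [] (nat_lit 0) [] false,
   Spec.mk (nat_lit 16849) (nat_lit 0) [] (nat_lit 0) [] false,
   Spec.mk (nat_lit 16851) (nat_lit 0) [] (nat_lit 0) [] false,
   Spec.mk (nat_lit 16857) (nat_lit 0) [] (nat_lit 0) [] false,
   Spec.mk (nat_lit 16875) (nat_lit 0) [] (nat_lit 0) [] false]

noncomputable def cd37 : List Spec :=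
  [Spec.mk (nat_lit 16929) (nat_lit 0) [] (nat_lit 0) [] false,
   Spec.mk (nat_lit 17011) (nat_lit 0) [] (nat_lit 0) [] false,
   Spec.mk (nat_lit 17013) (nat_lit 0) [] (nat_lit 0) [] false,
   Spec.mk (nat_lit 17019) (nat_lit 0) [] (nat_lit 0) [] false,
   Spec.mk (nat_lit 17037) (nat_lit 0) [] (nat_lit 0) [] false,
   Spec.mk (nat_lit 17091) (nat_lit 0) [] (nat_lit 0) [] false,
   Spec.mk (nat_lit 17253) (nat_lit 0) [] (nat_lit 0) [] false,
   Spec.mk (nat_lit 17501) (nat_lit 0) [] (nat_lit 0) [] false,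
   Spec.mk (nat_lit 17503) (nat_lit 0) [] (nat_lit 0) [] false,
   Spec.mk (nat_lit 17507) (nat_lit 0) [] (nat_lit 0) [] false,
   Spec.mk (nat_lit 17509) (nat_lit 0) [] (nat_lit 0) [] false,
   Spec.mk (nat_lit 17511) (nat_lit 0) [] (nat_lit 0) [] false,
   Spec.mk (nat_lit 17515) (nat_lit 0) [] (nat_lit 0) [] false,
   Spec.mk (nat_lit 17517) (nat_lit 0) [] (nat_lit 0) [] false,
   Spec.mk (nat_lit 17525) (nat_lit 0) [] (nat_lit 0) [] false,
   Spec.mk (nat_lit 17527) (nat_lit 0) [] (nat_lit 0) [] false,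
   Spec.mk (nat_lit 17529) (nat_lit 0) [] (nat_lit 0) [] false,
   Spec.mk (nat_lit 17533) (nat_lit 0) [] (nat_lit 0) [] false,
   Spec.mk (nat_lit 17535) (nat_lit 0) [] (nat_lit 0) [] false,
   Spec.mk (nat_lit 17541) (nat_lit 0) [] (nat_lit 0) [] false,
   Spec.mk (nat_lit 17551) (nat_lit 0) [] (nat_lit 0) [] false,
   Spec.mk (nat_lit 17553) (nat_lit 0) [] (nat_lit 0) [] false,
   Spec.mk (nat_lit 17559) (nat_lit 0) [] (nat_lit 0) [] false,
   Spec.mk (nat_lit 17579) (nat_lit 0) [] (nat_lit 0) [] false,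
   Spec.mk (nat_lit 17581) (nat_lit 0) [] (nat_lit 0) [] false,
   Spec.mk (nat_lit 17583) (nat_lit 0) [] (nat_lit 0) [] false,
   Spec.mk (nat_lit 17587) (nat_lit 0) [] (nat_lit 0) [] false,
   Spec.mk (nat_lit 17589) (nat_lit 0) [] (nat_lit 0) [] false,
   Spec.mk (nat_lit 17595) (nat_lit 0) [] (nat_lit 0) [] false,
   Spec.mk (nat_lit 17605) (nat_lit 0) [] (nat_lit 0) [] false,
   Spec.mk (nat_lit 17607) (nat_lit 0) [] (nat_lit 0) [] false,
   Spec.mk (nat_lit 17613) (nat_lit 0) [] (nat_lit 0) [] false,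
   Spec.mk (nat_lit 17631) (nat_lit 0) [] (nat_lit 0) [] false,
   Spec.mk (nat_lit 17659) (nat_lit 0) [] (nat_lit 0) [] false,
   Spec.mk (nat_lit 17661) (nat_lit 0) [] (nat_lit 0) [] false,
   Spec.mk (nat_lit 17667) (nat_lit 0) [] (nat_lit 0) [] false,
   Spec.mk (nat_lit 17685) (nat_lit 0) [] (nat_lit 0) [] false,
   Spec.mk (nat_lit 17741) (nat_lit 0) [] (nat_lit 0) [] false,
   Spec.mk (nat_lit 17743) (nat_lit 0) [] (nat_lit 0) [] false,
   Spec.mk (nat_lit 17745) (nat_lit 0) [] (nat_lit 0) [] false,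
   Spec.mk (nat_lit 17749) (nat_lit 0) [] (nat_lit 0) [] false,
   Spec.mk (nat_lit 17751) (nat_lit 0) [] (nat_lit 0) [] false,
   Spec.mk (nat_lit 17757) (nat_lit 0) [] (nat_lit 0) [] false,
   Spec.mk (nat_lit 17767) (nat_lit 0) [] (nat_lit 0) [] false,
   Spec.mk (nat_lit 17769) (nat_lit 0) [] (nat_lit 0) [] false,
   Spec.mk (nat_lit 17775) (nat_lit 0) [] (nat_lit 0) [] false,
   Spec.mk (nat_lit 17793) (nat_lit 0) [] (nat_lit 0) [] false,
   Spec.mk (nat_lit 17821) (nat_lit 0) [] (nat_lit 0) [] false,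
   Spec.mk (nat_lit 17823) (nat_lit 0) [] (nat_lit 0) [] false,
   Spec.mk (nat_lit 17829) (nat_lit 0) [] (nat_lit 0) [] false,
   Spec.mk (nat_lit 17847) (nat_lit 0) [] (nat_lit 0) [] false,
   Spec.mk (nat_lit 17901) (nat_lit 0) [] (nat_lit 0) [] false,
   Spec.mk (nat_lit 17983) (nat_lit 0) [] (nat_lit 0) [] false,
   Spec.mk (nat_lit 17985) (nat_lit 0) [] (nat_lit 0) [] false,
   Spec.mk (nat_lit 17991) (nat_lit 0) [] (nat_lit 0) [] false,
   Spec.mk (nat_lit 18009) (nat_lit 0) [] (nat_lit 0) [] false,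
   Spec.mk (nat_lit 18063) (nat_lit 0) [] (nat_lit 0) [] false,
   Spec.mk (nat_lit 18227) (nat_lit 0) [] (nat_lit 0) [] false,
   Spec.mk (nat_lit 18229) (nat_lit 0) [] (nat_lit 0) [] false,
   Spec.mk (nat_lit 18231) (nat_lit 0) [] (nat_lit 0) [] false]

noncomputable def cd38 : List Spec :=
  [Spec.mk (nat_lit 18235) (nat_lit 0) [] (nat_lit 0) [] false,
   Spec.mk (nat_lit 18237) (nat_lit 0) [] (nat_lit 0) [] false,
   Spec.mk (nat_lit 18243) (nat_lit 0) [] (nat_lit 0) [] false,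
   Spec.mk (nat_lit 18253) (nat_lit 0) [] (nat_lit 0) [] false,
   Spec.mk (nat_lit 18255) (nat_lit 0) [] (nat_lit 0) [] false,
   Spec.mk (nat_lit 18261) (nat_lit 0) [] (nat_lit 0) [] false,
   Spec.mk (nat_lit 18279) (nat_lit 0) [] (nat_lit 0) [] false,
   Spec.mk (nat_lit 18307) (nat_lit 0) [] (nat_lit 0) [] false,
   Spec.mk (nat_lit 18309) (nat_lit 0) [] (nat_lit 0) [] false,
   Spec.mk (nat_lit 18315) (nat_lit 0) [] (nat_lit 0) [] false,
   Spec.mk (nat_lit 18333) (nat_lit 0) [] (nat_lit 0) [] false,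
   Spec.mk (nat_lit 18387) (nat_lit 0) [] (nat_lit 0) [] false,
   Spec.mk (nat_lit 18469) (nat_lit 0) [] (nat_lit 0) [] false,
   Spec.mk (nat_lit 18471) (nat_lit 0) [] (nat_lit 0) [] false,
   Spec.mk (nat_lit 18477) (nat_lit 0) [] (nat_lit 0) [] false,
   Spec.mk (nat_lit 18495) (nat_lit 0) [] (nat_lit 0) [] false,
   Spec.mk (nat_lit 18549) (nat_lit 0) [] (nat_lit 0) [] false,
   Spec.mk (nat_lit 18711) (nat_lit 0) [] (nat_lit 0) [] false,
   Spec.mk (nat_lit 18955) (nat_lit 0) [] (nat_lit 0) [] false,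
   Spec.mk (nat_lit 18957) (nat_lit 0) [] (nat_lit 0) [] false,
   Spec.mk (nat_lit 18963) (nat_lit 0) [] (nat_lit 0) [] false,
   Spec.mk (nat_lit 18981) (nat_lit 0) [] (nat_lit 0) [] false,
   Spec.mk (nat_lit 19035) (nat_lit 0) [] (nat_lit 0) [] false,
   Spec.mk (nat_lit 19197) (nat_lit 0) [] (nat_lit 0) [] false]

noncomputable def cds : List (List Spec) :=
    cd0 :: cd1 :: cd2 :: cd3 :: cd4 :: cd5 :: cd6 :: cd7 :: cd8 :: cd9 :: cd10 :: cd11 :: cd12 ::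
    cd13 :: cd14 :: cd15 :: cd16 :: cd17 :: cd18 :: cd19 :: cd20 :: cd21 :: cd22 :: cd23 :: cd24 ::
    cd25 :: cd26 :: cd27 :: cd28 :: cd29 :: cd30 :: cd31 :: cd32 :: cd33 :: cd34 :: cd35 :: cd36 ::
    cd37 :: cd38 :: []

noncomputable def ap (x : Nat → Nat) (k :
    Nat → Nat → Nat → Nat → Nat → Nat → Nat → Nat → Nat → Nat → Nat → Nat → Nat → Nat → Nat → Nat →
    Nat → Nat → Nat → Nat → Nat → Nat → Nat → Nat → Nat → Nat → Nat → Nat → Nat → Nat → Nat → Nat →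
    Nat → Nat → Nat → Nat → Nat → Nat → Nat → Nat → Nat → Nat → Nat → Nat → Nat → Nat → Nat → Nat →
    Nat → Nat → Nat → Nat → Nat → Nat → Nat → Nat → Nat → Nat → Nat → Nat → Nat → Nat → Nat → Nat →
    Nat → Nat → Nat → Nat → Nat → Nat → Nat → Nat → Nat → Nat → Nat → Nat → Nat → Nat → Nat → Nat →
    Nat → Nat → Nat → Nat → Nat → Nat → Nat → Nat → Nat → Nat → Nat → Nat → Nat → Nat → Nat → Nat →
    Nat → Nat → Nat → Nat → Nat → Nat → Nat → Nat → Nat → Nat → Nat → Nat → Nat → Nat → Nat → Nat →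
    Nat → Nat → Nat → Nat → Nat → Nat → Nat → Nat → Nat → Nat → Nat → Nat → Nat → Nat → Nat → Nat →
    Nat → Nat → Nat → Nat → Nat → Nat → Nat → Nat → Nat → Nat → Nat → Nat → Nat → Nat → Nat → Nat →
    Nat → Nat → Nat → Nat → Nat → Nat → Nat → Nat → Nat → Nat → Nat → Nat → Nat → Nat → Nat → Nat →
    Nat → Nat → Nat → Nat → Nat → Nat → Nat → Nat → Nat → Nat → Nat → Nat → Nat → Nat → Nat → Nat →
    Nat → Nat → Nat → Nat → Nat → Nat → Nat → Nat → Nat → Nat → Nat → Nat → Nat → Nat → Nat → Nat →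
    Nat → Nat → Nat → Nat → Nat → Nat → Nat → Nat → Nat → Nat → Nat → Nat → Nat → Nat → Nat → Nat →
    Nat → Nat → Nat → Nat → Nat → Nat → Nat → Nat → Nat → Nat → Nat → Nat → Nat → Nat → Nat → Nat →
    Nat → Nat → Nat → Nat → Nat → Nat → Nat → Nat → Nat → Nat → Nat → Nat → Nat → Nat → Nat → Nat →
    Nat → Nat → Nat → Nat → Nat → Nat → Nat → Nat → Nat → Nat → Nat → Nat → Nat → Nat → Nat → Nat →
    Nat → Nat → Nat → Nat → Nat → Nat → Nat → Nat → Nat → Nat → Nat → Nat → Nat → Nat → Nat → Nat →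
    Nat → Nat → Nat → Nat → Nat → Nat → Nat → Nat → Nat → Nat → Nat → Nat → Nat → Nat → Nat → Nat →
    Nat → Nat → Nat → Nat → Nat → Nat → Nat → Nat → Nat → Nat → Nat → Nat → Nat → Nat → Nat → Nat →
    Nat → Nat → Nat → Nat → Nat → Nat → Nat → Nat → Nat → Nat → Nat → Nat → Nat → Nat → Nat → Nat →
    Nat → Nat → Nat → Nat → Nat → Nat → Nat → Nat → Nat → Nat → Nat → Nat → Nat → Nat → Nat → Nat →
    Nat → Nat → Nat → Nat → Nat → Nat → Nat → Nat → Nat → Nat → Nat → Nat → Nat → Nat → Nat → Nat →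
    Nat → Nat → Nat → Nat → Nat → Nat → Nat → Nat → Nat → Nat → Nat → Nat → Nat → Nat → Nat → Nat →
    Nat → Nat → Nat → Nat → Nat → Nat → Nat → Nat → Nat → Nat → Nat → Nat → Nat → Nat → Nat → Nat →
    Nat → Nat → Nat → Nat → Nat → Nat → Nat → Nat → Nat → Nat → Nat → Nat → Nat → Nat → Nat → Nat →
    Nat → Nat → Nat → Nat → Nat → Nat → Nat → Nat → Nat → Nat → Nat → Nat → Nat → Nat → Nat → Nat →
    Nat → Nat → Nat → Nat → Nat → Nat → Nat → Nat → Nat → Nat → Nat → Nat → Nat → Nat → Nat → Nat →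
    Nat → Nat → Nat → Nat → Nat → Nat → Nat → Nat → Nat → Nat → Nat → Nat → Nat → Nat → Nat → Nat →
    Nat → Nat → Nat → Nat → Nat → Nat → Nat → Nat → Nat → Nat → Nat → Nat → Nat → Nat → Nat → Nat →
    Nat → Nat → Nat → Nat → Nat → Nat → Nat → Nat → Nat → Nat → Nat → Nat → Nat → Nat → Nat → Nat →
    Nat → Nat → Nat → Nat → Nat → Nat → Nat → Nat → Nat → Nat → Nat → Nat → Nat → Nat → Nat → Nat →
    Nat → Nat → Nat → Nat → Nat → Nat → Nat → Nat → Nat → Nat → Nat → Nat → Nat → Nat → Nat → Nat →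
    Nat → Nat → Nat → Nat → Nat → Nat → Nat → Nat → Nat → Nat → Nat → Nat → Nat → Nat → Nat → Nat →
    Nat → Nat → Nat → Nat → Nat → Nat → Nat → Nat → Nat → Nat → Nat → Nat → Nat → Nat → Nat → Nat →
    Nat → Nat → Nat → Nat → Nat → Nat → Nat → Nat → Nat → Nat → Nat → Nat → Nat → Nat → Nat → Nat →
    Nat → Nat → Nat → Nat → Nat → Nat → Nat → Nat → Nat → Nat → Nat → Nat → Nat → Nat → Nat → Nat →
    Nat → Nat → Nat → Nat → Nat → Nat → Nat → Nat → Nat → Nat → Nat → Nat → Nat → Nat → Nat → Nat →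
    Nat → Nat → Nat → Nat → Nat → Nat → Nat → Nat → Nat → Nat → Nat → Nat → Nat → Nat → Nat → Nat →
    Nat → Nat → Nat → Nat → Nat → Nat → Nat → Nat → Nat → Nat → Nat → Nat → Nat → Nat → Nat → Nat →
    Nat → Nat → Nat → Nat → Nat → Nat → Nat → Nat → Nat → Nat → Nat → Nat → Nat → Nat → Nat → Nat →
    Nat → Nat → Nat → Nat → Nat → Nat → Nat → Nat → Nat → Nat → Nat → Nat → Nat → Nat → Nat → Nat →
    Nat → Nat → Nat → Nat → Nat → Nat → Nat → Nat → Nat → Nat → Nat → Nat → Nat → Nat → Nat → Nat →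
    Nat → Nat → Nat → Nat → Nat → Nat → Nat → Nat → Nat → Nat → Nat → Nat → Nat → Nat → Nat → Nat →
    Nat → Nat → Nat → Nat → Nat → Nat → Nat → Nat → Nat → Nat → Nat → Nat → Nat → Nat → Nat → Nat →
    Nat → Nat → Nat → Nat → Nat → Nat → Nat → Nat → Nat → Nat → Nat → Nat → Nat → Nat → Nat → Nat →
    Nat → Nat → Nat → Nat → Nat → Nat → Nat → Nat → Nat → Nat → Nat → Nat → Nat → Nat → Nat → Nat →
    Nat → Nat → Nat → Nat → Nat → Nat → Nat → Nat → Nat → Nat → Nat → Nat → Nat → Nat → Nat → Nat →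
    Nat → Nat → Nat → Nat → Nat → Nat → Nat → Nat → Nat → Nat → Nat → Nat → Nat → Nat → Nat → Nat →
    Nat → Nat → Nat → Nat → Nat → Nat → Nat → Nat → Nat → Nat → Nat → Nat → Nat → Nat → Nat → Nat →
    Nat → Nat → Nat → Nat → Nat → Nat → Nat → Nat → Nat → Nat → Nat → Nat → Nat → Nat → Nat → Nat →
    Nat → Nat → Nat → Nat → Nat → Nat → Nat → Nat → Nat → Nat → Nat → Nat → Nat → Nat → Nat → Nat →
    Nat → Nat → Nat → Nat → Nat → Nat → Nat → Nat → Nat → Nat → Nat → Nat → Nat → Nat → Nat → Nat →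
    Nat → Nat → Nat → Nat → Nat → Nat → Nat → Nat → Nat → Nat → Nat → Nat → Nat → Nat → Nat → Nat →
    Nat → Nat → Nat → Nat → Nat → Nat → Nat → Nat → Nat → Nat → Nat → Nat → Nat → Nat → Nat → Nat →
    Nat → Nat → Nat → Nat → Nat → Nat → Nat → Nat → Nat → Nat → Nat → Nat → Nat → Nat → Nat → Nat →
    Nat → Nat → Nat → Nat → Nat → Nat → Nat → Nat → Nat → Nat → Nat → Nat → Nat → Nat → Nat → Nat →
    Nat → Nat → Nat → Nat → Nat → Nat → Nat → Nat → Nat → Nat → Nat → Nat → Nat → Nat → Nat → Nat →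
    Nat → Nat → Nat → Nat → Nat → Nat → Nat → Nat → Nat → Nat → Nat → Nat → Nat → Nat → Nat → Nat →
    Nat → Nat → Nat → Nat → Nat → Nat → Nat → Nat → Nat → Nat → Nat → Nat → Nat → Nat → Nat → Nat →
    Nat → Nat → Nat → Nat → Nat → Nat → Nat → Nat → Nat → Nat → Nat → Nat → Nat → Nat → Nat → Nat →
    Nat → Nat → Nat → Nat → Nat → Nat → Nat → Nat → Nat → Nat → Nat → Nat → Nat → Nat → Nat → Nat →
    Nat → Nat → Nat → Nat → Nat → Nat → Nat → Nat → Nat → Nat → Nat → Nat → Nat → Nat → Nat → Nat →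
    Nat → Nat → Nat → Nat → Nat → Nat → Nat → Nat → Nat → Nat → Nat → Nat → Nat → Nat → Nat → Nat →
    Nat → Nat → Nat → Nat → Nat → Nat → Nat → Nat → Nat → Nat → Nat → Nat → Nat → Nat → Nat → Nat →
    Nat → Nat → Nat → Nat → Nat → Nat → Nat → Nat → Nat → Nat → Nat → Nat → Nat → Nat → Nat → Nat →
    Nat → Nat → Nat → Nat → Nat → Nat → Nat → Nat → Nat → Nat → Nat → Nat → Nat → Nat → Nat → Nat →
    Nat → Nat → Nat → Nat → Nat → Nat → Nat → Nat → Nat → Nat → Nat → Nat → Nat → Nat → Nat → Nat →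
    Nat → Nat → Nat → Nat → Nat → Nat → Nat → Nat → Nat → Nat → Nat → Nat → Nat → Nat → Nat → Nat →
    Nat → Nat → Nat → Nat → Nat → Nat → Nat → Nat → Nat → Nat → Nat → Nat → Nat → Nat → Nat → Nat →
    Nat → Nat → Nat → Nat → Nat → Nat → Nat → Nat → Nat → Nat → Nat → Nat → Nat → Nat → Nat → Nat →
    Nat → Nat → Nat → Nat → Nat → Nat → Nat → Nat → Nat → Nat → Nat → Nat → Nat → Nat → Nat → Nat →
    Nat → Nat → Nat → Nat → Nat → Nat → Nat → Nat → Nat → Nat → Nat → Nat → Nat → Nat → Nat → Nat →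
    Nat → Nat → Nat → Nat → Nat → Nat → Nat → Nat → Nat → Nat → Nat → Nat → Nat → Nat → Nat → Nat →
    Nat → Nat → Nat → Nat → Nat → Nat → Nat → Nat → Nat → Nat → Nat → Nat → Nat → Nat → Nat → Nat →
    Nat → Nat → Nat → Nat → Nat → Nat → Nat → Nat → Nat → Nat → Nat → Nat → Nat → Nat → Nat → Nat →
    Nat → Nat → Nat → Nat → Nat → Nat → Nat → Nat → Nat → Nat → Nat → Nat → Nat → Nat → Nat → Nat →
    Nat → Nat → Nat → Nat → Nat → Nat → Nat → Nat → Nat → Nat → Nat → Nat → Nat → Nat → Nat → Nat →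
    Nat → Nat → Nat → Nat → Nat → Nat → Nat → Nat → Nat → Nat → Nat → Nat → Nat → Nat → Nat → Nat →
    Nat → Nat → Nat → Nat → Nat → Nat → Nat → Nat → Nat → Nat → Nat → Nat → Nat → Nat → Nat → Nat →
    Nat → Nat → Nat → Nat → Nat → Nat → Nat → Nat → Nat → Nat → Nat → Nat → Nat → Nat → Nat → Nat →
    Nat → Nat → Nat → Nat → Nat → Nat → Nat → Nat → Nat → Nat → Nat → Nat → Nat → Nat → Nat → Nat →
    Nat → Nat → Nat → Nat → Nat → Nat → Nat → Nat → Nat → Nat → Nat → Nat → Nat → Nat → Nat → Nat →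
    Nat → Nat → Nat → Nat → Nat → Nat → Nat → Nat → Nat → Nat → Nat → Nat → Nat → Nat → Nat → Nat →
    Nat → Nat → Nat → Nat → Nat → Nat → Nat → Nat → Nat → Nat → Nat → Nat → Nat → Nat → Nat → Nat →
    Nat → Nat → Nat → Nat → Nat → Nat → Nat → Nat → Nat → Nat → Nat → Nat → Nat → Nat → Nat → Nat →
    Nat → Nat → Nat → Nat → Nat → Nat → Nat → Nat → Nat → Nat → Nat → Nat → Nat → Nat → Nat → Nat →
    Nat → Nat → Nat → Nat → Nat → Nat → Nat → Nat → Nat → Nat → Nat → Nat → Nat → Nat → Nat → Nat →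
    Nat → Nat → Nat → Nat → Nat → Nat → Nat → Nat → Nat → Nat → Nat → Nat → Nat → Nat → Nat → Nat →
    Nat → Nat → Nat → Nat → Nat → Nat → Nat → Nat → Nat → Nat → Nat → Nat → Nat → Nat → Nat → Nat →
    Nat → Nat → Nat → Nat → Nat → Nat → Nat → Nat → Nat → Nat → Nat → Nat → Nat → Nat → Nat → Nat →
    Nat → Nat → Nat → Nat → Nat → Nat → Nat → Nat → Nat → Nat → Nat → Nat → Nat → Nat → Nat → Nat →
    Nat → Nat → Nat → Nat → Nat → Nat → Nat → Nat → Nat → Nat → Nat → Nat → Nat → Nat → Nat → Nat →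
    Nat → Nat → Nat → Nat → Nat → Nat → Nat → Nat → Nat → Nat → Nat → Nat → Nat → Nat → Nat → Nat →
    Nat → Nat → Nat → Nat → Nat → Nat → Nat → Nat → Nat → Nat → Nat → Nat → Nat → Nat → Nat → Nat →
    Nat → Nat → Nat → Nat → Nat → Nat → Nat → Nat → Nat → Nat → Nat → Nat → Nat → Nat → Nat → Nat →
    Nat → Nat → Nat → Nat → Nat → Nat → Nat → Nat → Nat → Nat → Nat → Nat → Nat → Nat → Nat → Nat →
    Nat → Nat → Nat → Nat → Nat → Nat → Nat → Nat → Nat → Nat → Nat → Nat → Nat → Nat → Nat → Nat →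
    Nat → Nat → Nat → Nat → Nat → Nat → Nat → Nat → Nat → Nat → Nat → Nat → Nat → Nat → Nat → Nat →
    Nat → Nat → Nat → Nat → Nat → Nat → Nat → Nat → Nat → Nat → Nat → Nat → Nat → Nat → Nat → Nat →
    Nat → Nat → Nat → Nat → Nat → Nat → Nat → Nat → Nat → Nat → Nat → Nat → Nat → Nat → Nat → Nat →
    Nat → Nat → Nat → Nat → Nat → Nat → Nat → Nat → Nat → Nat → Nat → Nat → Nat → Nat → Nat → Nat →
    Nat → Nat → Nat → Nat → Nat → Nat → Nat → Nat → Nat → Nat → Nat → Nat → Nat → Nat → Nat → Nat →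
    Nat → Nat → Nat → Nat → Nat → Nat → Nat → Nat → Nat → Nat → Nat → Nat → Nat → Nat → Nat → Nat →
    Nat → Nat → Nat → Nat → Nat → Nat → Nat → Nat → Nat → Nat → Nat → Nat → Nat → Nat → Nat → Nat →
    Nat → Nat → Nat → Nat → Nat → Nat → Nat → Nat → Nat → Nat → Nat → Nat → Nat → Nat → Nat → Nat →
    Nat → Nat → Nat → Nat → Nat → Nat → Nat → Nat → Nat → Nat → Nat → Nat → Nat → Nat → Nat → Nat →
    Nat → Nat → Nat → Nat → Nat → Nat → Nat → Nat → Nat → Nat → Nat → Nat → Nat → Nat → Nat → Nat →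
    Nat → Nat → Nat → Nat → Nat → Nat → Nat → Nat → Nat → Nat → Nat → Nat → Nat → Nat → Nat → Nat →
    Nat → Nat → Nat → Nat → Nat → Nat → Nat → Nat → Nat → Nat → Nat → Nat → Nat → Nat → Nat → Nat →
    Nat → Nat → Nat → Nat → Nat → Nat → Nat → Nat → Nat → Nat → Nat → Nat → Nat → Nat → Nat → Nat →
    Nat → Nat → Nat → Nat → Nat → Nat → Nat → Nat → Nat → Nat → Nat → Nat → Nat → Nat → Nat → Nat →
    Nat → Nat → Nat → Nat → Nat → Nat → Nat → Nat → Nat → Nat → Nat → Nat → Nat → Nat → Nat → Nat →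
    Nat → Nat → Nat → Nat → Nat → Nat → Nat → Nat → Nat → Nat → Nat → Nat → Nat → Nat → Nat → Nat →
    Nat → Nat → Nat → Nat → Nat → Nat → Nat → Nat → Nat → Nat → Nat → Nat → Nat → Nat → Nat → Nat →
    Nat → Nat → Nat → Nat → Nat → Nat → Nat → Nat → Nat → Nat → Nat → Nat → Nat → Nat → Nat → Nat →
    Nat → Nat → Nat → Nat → Nat → Nat → Nat → Nat → Nat → Nat → Nat → Nat → Nat → Nat → Nat → Nat →
    Nat → Nat → Nat → Nat → Nat → Nat → Nat → Nat → Nat → Nat → Nat → Nat → Nat → Nat → Nat → Nat →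
    Nat → Nat → Nat → Nat → Nat → Nat → Nat → Nat → Nat → Nat → Nat → Nat → Nat → Nat → Nat → Nat →
    Nat → Nat → Nat → Nat → Nat → Nat → Nat → Nat → Nat → Nat → Nat → Nat → Nat → Nat → Nat → Nat →
    Nat → Nat → Nat → Nat → Nat → Nat → Nat → Nat → Nat → Nat → Nat → Nat → Nat → Nat → Nat → Nat →
    Nat → Nat → Nat → Nat → Nat → Nat → Nat → Nat → Nat → Nat → Nat → Nat → Nat → Nat → Nat → Nat →
    Nat → Nat → Nat → Nat → Nat → Nat → Nat → Nat → Nat → Nat → Nat → Nat → Nat → Nat → Nat → Nat →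
    Nat → Nat → Nat → Nat → Nat → Nat → Nat → Nat → Nat → Nat → Nat → Nat → Nat → Nat → Nat → Nat →
    Nat → Nat → Nat → Nat → Nat → Nat → Nat → Nat → Nat → Nat → Nat → Nat → Nat → Nat → Nat → Nat →
    Nat → Nat → Nat → Nat → Nat → Nat → Nat → Nat → Nat → Nat → Nat → Nat → Nat → Nat → Nat → Nat →
    Nat → Nat → Nat → Nat → Nat → Nat → Nat → Nat → Nat → Nat → Nat → Nat → Nat → Nat → Nat → Nat →
    Nat → Nat → Nat → Nat → Nat → Nat → Nat → Nat → Nat → Nat → Nat → Nat → Nat → Nat → Nat → Nat →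
    Nat → Nat → Nat → Nat → Nat → Nat → Nat → Nat → Nat → Nat → Nat → Nat → Nat → Nat → Nat → Nat →
    Nat → Nat → Nat → Nat → Nat → Nat → Nat → Nat → Nat → Nat → Nat → Nat → Nat → Nat → Nat → Nat →
    Nat → Nat → Nat → Nat → Nat → Nat → Nat → Nat → Nat → Nat → Nat → Nat → Nat → Nat → Nat → Nat →
    Nat → Nat → Nat → Nat → Nat → Nat → Nat → Nat → Nat → Nat → Nat → Nat → Nat → Nat → Nat → Nat →
    Nat → Nat → Nat → Nat → Nat → Nat → Nat → Nat → Nat → Nat → Nat → Nat → Nat → Nat → Nat → Nat →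
    Nat → Nat → Nat → Nat → Nat → Nat → Nat → Nat → Nat → Nat → Nat → Nat → Nat → Nat → Nat → Nat →
    Nat → Nat → Nat → Nat → Nat → Nat → Nat → Nat → Nat → Nat → Nat → Nat → Nat → Nat → Nat → Nat →
    Nat → Nat → Nat → Nat → Nat → Nat → Nat → Nat → Nat → Nat → Nat → Nat → Nat → Nat → Nat → Nat →
    Nat → Nat → Nat → Nat → Nat → Nat → Nat → Nat → Nat → Nat → Nat → Nat → Nat → Nat → Nat → Nat →
    Nat → Nat → Nat → Nat → Nat → Nat → Nat → Nat → Nat → Nat → Nat → Nat → Nat → Nat → Nat → Nat →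
    Nat → Nat → Nat → Nat → Nat → Nat → Nat → Nat → Nat → Nat → Nat → Nat → Nat → Nat → Nat → Nat →
    Nat → Nat → Nat → Nat → Nat → Nat → Nat → Nat → Nat → Nat → Nat → Nat → Nat → Nat → Nat → Nat →
    Nat → Nat → Nat → Nat → Nat → Nat → Nat → Nat → Nat → Nat → Nat → Nat → Nat → Nat → Nat → Nat →
    Nat → Nat → Nat → Nat → Nat → Nat → Nat → Nat → Nat → Nat → Nat → Nat → Nat → Nat → Nat → Nat →
    Nat → Nat → Nat → Nat → Nat → Nat → Nat → Nat → Nat → Nat → Nat → Nat → Nat → Nat → Nat → Nat →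
    Nat → Nat → Nat → Nat → Nat → Nat → Nat → Nat → Nat → Nat → Nat → Nat → Nat → Nat → Nat → Nat →
    Nat → Nat → Nat → Nat → Nat → Nat → Nat → Nat → Nat → Nat → Nat → Nat → Nat → Nat → Nat → Nat →
    Bool) : Bool :=
  k
    (x (nat_lit 53)) (x (nat_lit 71)) (x (nat_lit 77)) (x (nat_lit 79)) (x (nat_lit 107))
    (x (nat_lit 125)) (x (nat_lit 131)) (x (nat_lit 133)) (x (nat_lit 143)) (x (nat_lit 149))
    (x (nat_lit 151)) (x (nat_lit 155)) (x (nat_lit 157)) (x (nat_lit 159)) (x (nat_lit 179))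
    (x (nat_lit 185)) (x (nat_lit 187)) (x (nat_lit 197)) (x (nat_lit 203)) (x (nat_lit 205))
    (x (nat_lit 209)) (x (nat_lit 211)) (x (nat_lit 213)) (x (nat_lit 221)) (x (nat_lit 223))
    (x (nat_lit 227)) (x (nat_lit 229)) (x (nat_lit 231)) (x (nat_lit 235)) (x (nat_lit 237))
    (x (nat_lit 269)) (x (nat_lit 287)) (x (nat_lit 293)) (x (nat_lit 295)) (x (nat_lit 305))
    (x (nat_lit 311)) (x (nat_lit 313)) (x (nat_lit 317)) (x (nat_lit 319)) (x (nat_lit 321))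
    (x (nat_lit 341)) (x (nat_lit 347)) (x (nat_lit 349)) (x (nat_lit 359)) (x (nat_lit 365))
    (x (nat_lit 367)) (x (nat_lit 371)) (x (nat_lit 373)) (x (nat_lit 375)) (x (nat_lit 383))
    (x (nat_lit 385)) (x (nat_lit 389)) (x (nat_lit 391)) (x (nat_lit 393)) (x (nat_lit 397))
    (x (nat_lit 399)) (x (nat_lit 413)) (x (nat_lit 419)) (x (nat_lit 421)) (x (nat_lit 425))
    (x (nat_lit 427)) (x (nat_lit 429)) (x (nat_lit 437)) (x (nat_lit 439)) (x (nat_lit 443))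
    (x (nat_lit 445)) (x (nat_lit 447)) (x (nat_lit 451)) (x (nat_lit 453)) (x (nat_lit 461))
    (x (nat_lit 463)) (x (nat_lit 465)) (x (nat_lit 469)) (x (nat_lit 471)) (x (nat_lit 477))
    (x (nat_lit 503)) (x (nat_lit 509)) (x (nat_lit 511)) (x (nat_lit 521)) (x (nat_lit 527))
    (x (nat_lit 529)) (x (nat_lit 533)) (x (nat_lit 535)) (x (nat_lit 537)) (x (nat_lit 545))
    (x (nat_lit 547)) (x (nat_lit 551)) (x (nat_lit 553)) (x (nat_lit 555)) (x (nat_lit 559))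
    (x (nat_lit 561)) (x (nat_lit 575)) (x (nat_lit 581)) (x (nat_lit 583)) (x (nat_lit 587))
    (x (nat_lit 589)) (x (nat_lit 591)) (x (nat_lit 599)) (x (nat_lit 601)) (x (nat_lit 605))
    (x (nat_lit 607)) (x (nat_lit 609)) (x (nat_lit 613)) (x (nat_lit 615)) (x (nat_lit 623))
    (x (nat_lit 625)) (x (nat_lit 627)) (x (nat_lit 631)) (x (nat_lit 633)) (x (nat_lit 639))
    (x (nat_lit 653)) (x (nat_lit 655)) (x (nat_lit 659)) (x (nat_lit 661)) (x (nat_lit 663))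
    (x (nat_lit 667)) (x (nat_lit 669)) (x (nat_lit 677)) (x (nat_lit 679)) (x (nat_lit 681))
    (x (nat_lit 685)) (x (nat_lit 687)) (x (nat_lit 693)) (x (nat_lit 703)) (x (nat_lit 705))
    (x (nat_lit 711)) (x (nat_lit 755)) (x (nat_lit 773)) (x (nat_lit 779)) (x (nat_lit 781))
    (x (nat_lit 791)) (x (nat_lit 797)) (x (nat_lit 799)) (x (nat_lit 803)) (x (nat_lit 805))
    (x (nat_lit 807)) (x (nat_lit 827)) (x (nat_lit 833)) (x (nat_lit 835)) (x (nat_lit 845))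
    (x (nat_lit 851)) (x (nat_lit 853)) (x (nat_lit 857)) (x (nat_lit 859)) (x (nat_lit 861))
    (x (nat_lit 869)) (x (nat_lit 871)) (x (nat_lit 875)) (x (nat_lit 877)) (x (nat_lit 879))
    (x (nat_lit 883)) (x (nat_lit 885)) (x (nat_lit 899)) (x (nat_lit 905)) (x (nat_lit 907))
    (x (nat_lit 911)) (x (nat_lit 913)) (x (nat_lit 915)) (x (nat_lit 923)) (x (nat_lit 925))
    (x (nat_lit 929)) (x (nat_lit 931)) (x (nat_lit 933)) (x (nat_lit 937)) (x (nat_lit 939))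
    (x (nat_lit 947)) (x (nat_lit 949)) (x (nat_lit 951)) (x (nat_lit 955)) (x (nat_lit 957))
    (x (nat_lit 963)) (x (nat_lit 989)) (x (nat_lit 995)) (x (nat_lit 997)) (x (nat_lit 1007))
    (x (nat_lit 1013)) (x (nat_lit 1015)) (x (nat_lit 1019)) (x (nat_lit 1021)) (x (nat_lit 1023))
    (x (nat_lit 1031)) (x (nat_lit 1033)) (x (nat_lit 1037)) (x (nat_lit 1039)) (x (nat_lit 1041))
    (x (nat_lit 1045)) (x (nat_lit 1047)) (x (nat_lit 1061)) (x (nat_lit 1067)) (x (nat_lit 1069))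
    (x (nat_lit 1073)) (x (nat_lit 1075)) (x (nat_lit 1077)) (x (nat_lit 1085)) (x (nat_lit 1087))
    (x (nat_lit 1091)) (x (nat_lit 1093)) (x (nat_lit 1095)) (x (nat_lit 1099)) (x (nat_lit 1101))
    (x (nat_lit 1109)) (x (nat_lit 1111)) (x (nat_lit 1113)) (x (nat_lit 1117)) (x (nat_lit 1119))
    (x (nat_lit 1125)) (x (nat_lit 1139)) (x (nat_lit 1141)) (x (nat_lit 1145)) (x (nat_lit 1147))
    (x (nat_lit 1149)) (x (nat_lit 1153)) (x (nat_lit 1155)) (x (nat_lit 1163)) (x (nat_lit 1165))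
    (x (nat_lit 1167)) (x (nat_lit 1171)) (x (nat_lit 1173)) (x (nat_lit 1179)) (x (nat_lit 1189))
    (x (nat_lit 1191)) (x (nat_lit 1197)) (x (nat_lit 1223)) (x (nat_lit 1229)) (x (nat_lit 1231))
    (x (nat_lit 1235)) (x (nat_lit 1237)) (x (nat_lit 1239)) (x (nat_lit 1247)) (x (nat_lit 1249))
    (x (nat_lit 1253)) (x (nat_lit 1255)) (x (nat_lit 1257)) (x (nat_lit 1261)) (x (nat_lit 1263))
    (x (nat_lit 1271)) (x (nat_lit 1273)) (x (nat_lit 1275)) (x (nat_lit 1279)) (x (nat_lit 1281))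
    (x (nat_lit 1287)) (x (nat_lit 1301)) (x (nat_lit 1303)) (x (nat_lit 1307)) (x (nat_lit 1309))
    (x (nat_lit 1311)) (x (nat_lit 1315)) (x (nat_lit 1317)) (x (nat_lit 1325)) (x (nat_lit 1327))
    (x (nat_lit 1329)) (x (nat_lit 1333)) (x (nat_lit 1335)) (x (nat_lit 1341)) (x (nat_lit 1351))
    (x (nat_lit 1353)) (x (nat_lit 1359)) (x (nat_lit 1379)) (x (nat_lit 1381)) (x (nat_lit 1383))
    (x (nat_lit 1387)) (x (nat_lit 1389)) (x (nat_lit 1395)) (x (nat_lit 1405)) (x (nat_lit 1407))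
    (x (nat_lit 1413)) (x (nat_lit 1431)) (x (nat_lit 1475)) (x (nat_lit 1481)) (x (nat_lit 1483))
    (x (nat_lit 1493)) (x (nat_lit 1499)) (x (nat_lit 1501)) (x (nat_lit 1505)) (x (nat_lit 1507))
    (x (nat_lit 1509)) (x (nat_lit 1517)) (x (nat_lit 1519)) (x (nat_lit 1523)) (x (nat_lit 1525))
    (x (nat_lit 1527)) (x (nat_lit 1531)) (x (nat_lit 1533)) (x (nat_lit 1547)) (x (nat_lit 1553))
    (x (nat_lit 1555)) (x (nat_lit 1559)) (x (nat_lit 1561)) (x (nat_lit 1563)) (x (nat_lit 1571))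
    (x (nat_lit 1573)) (x (nat_lit 1577)) (x (nat_lit 1579)) (x (nat_lit 1581)) (x (nat_lit 1585))
    (x (nat_lit 1587)) (x (nat_lit 1595)) (x (nat_lit 1597)) (x (nat_lit 1599)) (x (nat_lit 1603))
    (x (nat_lit 1605)) (x (nat_lit 1611)) (x (nat_lit 1625)) (x (nat_lit 1627)) (x (nat_lit 1631))
    (x (nat_lit 1633)) (x (nat_lit 1635)) (x (nat_lit 1639)) (x (nat_lit 1641)) (x (nat_lit 1649))
    (x (nat_lit 1651)) (x (nat_lit 1653)) (x (nat_lit 1657)) (x (nat_lit 1659)) (x (nat_lit 1665))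
    (x (nat_lit 1675)) (x (nat_lit 1677)) (x (nat_lit 1683)) (x (nat_lit 1709)) (x (nat_lit 1715))
    (x (nat_lit 1717)) (x (nat_lit 1721)) (x (nat_lit 1723)) (x (nat_lit 1725)) (x (nat_lit 1733))
    (x (nat_lit 1735)) (x (nat_lit 1739)) (x (nat_lit 1741)) (x (nat_lit 1743)) (x (nat_lit 1747))
    (x (nat_lit 1749)) (x (nat_lit 1757)) (x (nat_lit 1759)) (x (nat_lit 1761)) (x (nat_lit 1765))
    (x (nat_lit 1767)) (x (nat_lit 1773)) (x (nat_lit 1787)) (x (nat_lit 1789)) (x (nat_lit 1793))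
    (x (nat_lit 1795)) (x (nat_lit 1797)) (x (nat_lit 1801)) (x (nat_lit 1803)) (x (nat_lit 1811))
    (x (nat_lit 1813)) (x (nat_lit 1815)) (x (nat_lit 1819)) (x (nat_lit 1821)) (x (nat_lit 1827))
    (x (nat_lit 1837)) (x (nat_lit 1839)) (x (nat_lit 1845)) (x (nat_lit 1865)) (x (nat_lit 1867))
    (x (nat_lit 1869)) (x (nat_lit 1873)) (x (nat_lit 1875)) (x (nat_lit 1881)) (x (nat_lit 1891))
    (x (nat_lit 1893)) (x (nat_lit 1899)) (x (nat_lit 1917)) (x (nat_lit 1949)) (x (nat_lit 1951))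
    (x (nat_lit 1955)) (x (nat_lit 1957)) (x (nat_lit 1959)) (x (nat_lit 1963)) (x (nat_lit 1965))
    (x (nat_lit 1973)) (x (nat_lit 1975)) (x (nat_lit 1977)) (x (nat_lit 1981)) (x (nat_lit 1983))
    (x (nat_lit 1989)) (x (nat_lit 1999)) (x (nat_lit 2001)) (x (nat_lit 2007)) (x (nat_lit 2027))
    (x (nat_lit 2029)) (x (nat_lit 2031)) (x (nat_lit 2035)) (x (nat_lit 2037)) (x (nat_lit 2043))
    (x (nat_lit 2053)) (x (nat_lit 2055)) (x (nat_lit 2061)) (x (nat_lit 2079)) (x (nat_lit 2107))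
    (x (nat_lit 2109)) (x (nat_lit 2115)) (x (nat_lit 2133)) (x (nat_lit 2213)) (x (nat_lit 2231))
    (x (nat_lit 2237)) (x (nat_lit 2239)) (x (nat_lit 2249)) (x (nat_lit 2255)) (x (nat_lit 2257))
    (x (nat_lit 2261)) (x (nat_lit 2263)) (x (nat_lit 2265)) (x (nat_lit 2285)) (x (nat_lit 2291))
    (x (nat_lit 2293)) (x (nat_lit 2303)) (x (nat_lit 2309)) (x (nat_lit 2311)) (x (nat_lit 2315))
    (x (nat_lit 2317)) (x (nat_lit 2319)) (x (nat_lit 2327)) (x (nat_lit 2329)) (x (nat_lit 2333))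
    (x (nat_lit 2335)) (x (nat_lit 2337)) (x (nat_lit 2341)) (x (nat_lit 2343)) (x (nat_lit 2357))
    (x (nat_lit 2363)) (x (nat_lit 2365)) (x (nat_lit 2369)) (x (nat_lit 2371)) (x (nat_lit 2373))
    (x (nat_lit 2381)) (x (nat_lit 2383)) (x (nat_lit 2387)) (x (nat_lit 2389)) (x (nat_lit 2391))
    (x (nat_lit 2395)) (x (nat_lit 2397)) (x (nat_lit 2405)) (x (nat_lit 2407)) (x (nat_lit 2409))
    (x (nat_lit 2413)) (x (nat_lit 2415)) (x (nat_lit 2421)) (x (nat_lit 2447)) (x (nat_lit 2453))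
    (x (nat_lit 2455)) (x (nat_lit 2465)) (x (nat_lit 2471)) (x (nat_lit 2473)) (x (nat_lit 2477))
    (x (nat_lit 2479)) (x (nat_lit 2481)) (x (nat_lit 2489)) (x (nat_lit 2491)) (x (nat_lit 2495))
    (x (nat_lit 2497)) (x (nat_lit 2499)) (x (nat_lit 2503)) (x (nat_lit 2505)) (x (nat_lit 2519))
    (x (nat_lit 2525)) (x (nat_lit 2527)) (x (nat_lit 2531)) (x (nat_lit 2533)) (x (nat_lit 2535))
    (x (nat_lit 2543)) (x (nat_lit 2545)) (x (nat_lit 2549)) (x (nat_lit 2551)) (x (nat_lit 2553))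
    (x (nat_lit 2557)) (x (nat_lit 2559)) (x (nat_lit 2567)) (x (nat_lit 2569)) (x (nat_lit 2571))
    (x (nat_lit 2575)) (x (nat_lit 2577)) (x (nat_lit 2583)) (x (nat_lit 2597)) (x (nat_lit 2599))
    (x (nat_lit 2603)) (x (nat_lit 2605)) (x (nat_lit 2607)) (x (nat_lit 2611)) (x (nat_lit 2613))
    (x (nat_lit 2621)) (x (nat_lit 2623)) (x (nat_lit 2625)) (x (nat_lit 2629)) (x (nat_lit 2631))
    (x (nat_lit 2637)) (x (nat_lit 2647)) (x (nat_lit 2649)) (x (nat_lit 2655)) (x (nat_lit 2681))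
    (x (nat_lit 2687)) (x (nat_lit 2689)) (x (nat_lit 2693)) (x (nat_lit 2695)) (x (nat_lit 2697))
    (x (nat_lit 2705)) (x (nat_lit 2707)) (x (nat_lit 2711)) (x (nat_lit 2713)) (x (nat_lit 2715))
    (x (nat_lit 2719)) (x (nat_lit 2721)) (x (nat_lit 2729)) (x (nat_lit 2731)) (x (nat_lit 2733))
    (x (nat_lit 2737)) (x (nat_lit 2739)) (x (nat_lit 2745)) (x (nat_lit 2759)) (x (nat_lit 2761))
    (x (nat_lit 2765)) (x (nat_lit 2767)) (x (nat_lit 2769)) (x (nat_lit 2773)) (x (nat_lit 2775))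
    (x (nat_lit 2783)) (x (nat_lit 2785)) (x (nat_lit 2787)) (x (nat_lit 2791)) (x (nat_lit 2793))
    (x (nat_lit 2799)) (x (nat_lit 2809)) (x (nat_lit 2811)) (x (nat_lit 2817)) (x (nat_lit 2837))
    (x (nat_lit 2839)) (x (nat_lit 2841)) (x (nat_lit 2845)) (x (nat_lit 2847)) (x (nat_lit 2853))
    (x (nat_lit 2863)) (x (nat_lit 2865)) (x (nat_lit 2871)) (x (nat_lit 2889)) (x (nat_lit 2933))
    (x (nat_lit 2939)) (x (nat_lit 2941)) (x (nat_lit 2951)) (x (nat_lit 2957)) (x (nat_lit 2959))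
    (x (nat_lit 2963)) (x (nat_lit 2965)) (x (nat_lit 2967)) (x (nat_lit 2975)) (x (nat_lit 2977))
    (x (nat_lit 2981)) (x (nat_lit 2983)) (x (nat_lit 2985)) (x (nat_lit 2989)) (x (nat_lit 2991))
    (x (nat_lit 3005)) (x (nat_lit 3011)) (x (nat_lit 3013)) (x (nat_lit 3017)) (x (nat_lit 3019))
    (x (nat_lit 3021)) (x (nat_lit 3029)) (x (nat_lit 3031)) (x (nat_lit 3035)) (x (nat_lit 3037))
    (x (nat_lit 3039)) (x (nat_lit 3043)) (x (nat_lit 3045)) (x (nat_lit 3053)) (x (nat_lit 3055))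
    (x (nat_lit 3057)) (x (nat_lit 3061)) (x (nat_lit 3063)) (x (nat_lit 3069)) (x (nat_lit 3083))
    (x (nat_lit 3085)) (x (nat_lit 3089)) (x (nat_lit 3091)) (x (nat_lit 3093)) (x (nat_lit 3097))
    (x (nat_lit 3099)) (x (nat_lit 3107)) (x (nat_lit 3109)) (x (nat_lit 3111)) (x (nat_lit 3115))
    (x (nat_lit 3117)) (x (nat_lit 3123)) (x (nat_lit 3133)) (x (nat_lit 3135)) (x (nat_lit 3141))
    (x (nat_lit 3167)) (x (nat_lit 3173)) (x (nat_lit 3175)) (x (nat_lit 3179)) (x (nat_lit 3181))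
    (x (nat_lit 3183)) (x (nat_lit 3191)) (x (nat_lit 3193)) (x (nat_lit 3197)) (x (nat_lit 3199))
    (x (nat_lit 3201)) (x (nat_lit 3205)) (x (nat_lit 3207)) (x (nat_lit 3215)) (x (nat_lit 3217))
    (x (nat_lit 3219)) (x (nat_lit 3223)) (x (nat_lit 3225)) (x (nat_lit 3231)) (x (nat_lit 3245))
    (x (nat_lit 3247)) (x (nat_lit 3251)) (x (nat_lit 3253)) (x (nat_lit 3255)) (x (nat_lit 3259))
    (x (nat_lit 3261)) (x (nat_lit 3269)) (x (nat_lit 3271)) (x (nat_lit 3273)) (x (nat_lit 3277))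
    (x (nat_lit 3279)) (x (nat_lit 3285)) (x (nat_lit 3295)) (x (nat_lit 3297)) (x (nat_lit 3303))
    (x (nat_lit 3323)) (x (nat_lit 3325)) (x (nat_lit 3327)) (x (nat_lit 3331)) (x (nat_lit 3333))
    (x (nat_lit 3339)) (x (nat_lit 3349)) (x (nat_lit 3351)) (x (nat_lit 3357)) (x (nat_lit 3375))
    (x (nat_lit 3407)) (x (nat_lit 3409)) (x (nat_lit 3413)) (x (nat_lit 3415)) (x (nat_lit 3417))
    (x (nat_lit 3421)) (x (nat_lit 3423)) (x (nat_lit 3431)) (x (nat_lit 3433)) (x (nat_lit 3435))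
    (x (nat_lit 3439)) (x (nat_lit 3441)) (x (nat_lit 3447)) (x (nat_lit 3457)) (x (nat_lit 3459))
    (x (nat_lit 3465)) (x (nat_lit 3485)) (x (nat_lit 3487)) (x (nat_lit 3489)) (x (nat_lit 3493))
    (x (nat_lit 3495)) (x (nat_lit 3501)) (x (nat_lit 3511)) (x (nat_lit 3513)) (x (nat_lit 3519))
    (x (nat_lit 3537)) (x (nat_lit 3565)) (x (nat_lit 3567)) (x (nat_lit 3573)) (x (nat_lit 3591))
    (x (nat_lit 3653)) (x (nat_lit 3659)) (x (nat_lit 3661)) (x (nat_lit 3665)) (x (nat_lit 3667))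
    (x (nat_lit 3669)) (x (nat_lit 3677)) (x (nat_lit 3679)) (x (nat_lit 3683)) (x (nat_lit 3685))
    (x (nat_lit 3687)) (x (nat_lit 3691)) (x (nat_lit 3693)) (x (nat_lit 3701)) (x (nat_lit 3703))
    (x (nat_lit 3705)) (x (nat_lit 3709)) (x (nat_lit 3711)) (x (nat_lit 3717)) (x (nat_lit 3731))
    (x (nat_lit 3733)) (x (nat_lit 3737)) (x (nat_lit 3739)) (x (nat_lit 3741)) (x (nat_lit 3745))
    (x (nat_lit 3747)) (x (nat_lit 3755)) (x (nat_lit 3757)) (x (nat_lit 3759)) (x (nat_lit 3763))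
    (x (nat_lit 3765)) (x (nat_lit 3771)) (x (nat_lit 3781)) (x (nat_lit 3783)) (x (nat_lit 3789))
    (x (nat_lit 3809)) (x (nat_lit 3811)) (x (nat_lit 3813)) (x (nat_lit 3817)) (x (nat_lit 3819))
    (x (nat_lit 3825)) (x (nat_lit 3835)) (x (nat_lit 3837)) (x (nat_lit 3843)) (x (nat_lit 3861))
    (x (nat_lit 3893)) (x (nat_lit 3895)) (x (nat_lit 3899)) (x (nat_lit 3901)) (x (nat_lit 3903))
    (x (nat_lit 3907)) (x (nat_lit 3909)) (x (nat_lit 3917)) (x (nat_lit 3919)) (x (nat_lit 3921))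
    (x (nat_lit 3925)) (x (nat_lit 3927)) (x (nat_lit 3933)) (x (nat_lit 3943)) (x (nat_lit 3945))
    (x (nat_lit 3951)) (x (nat_lit 3971)) (x (nat_lit 3973)) (x (nat_lit 3975)) (x (nat_lit 3979))
    (x (nat_lit 3981)) (x (nat_lit 3987)) (x (nat_lit 3997)) (x (nat_lit 3999)) (x (nat_lit 4005))
    (x (nat_lit 4023)) (x (nat_lit 4051)) (x (nat_lit 4053)) (x (nat_lit 4059)) (x (nat_lit 4077))
    (x (nat_lit 4133)) (x (nat_lit 4135)) (x (nat_lit 4137)) (x (nat_lit 4141)) (x (nat_lit 4143))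
    (x (nat_lit 4149)) (x (nat_lit 4159)) (x (nat_lit 4161)) (x (nat_lit 4167)) (x (nat_lit 4185))
    (x (nat_lit 4213)) (x (nat_lit 4215)) (x (nat_lit 4221)) (x (nat_lit 4239)) (x (nat_lit 4293))
    (x (nat_lit 4391)) (x (nat_lit 4397)) (x (nat_lit 4399)) (x (nat_lit 4409)) (x (nat_lit 4415))
    (x (nat_lit 4417)) (x (nat_lit 4421)) (x (nat_lit 4423)) (x (nat_lit 4425)) (x (nat_lit 4433))
    (x (nat_lit 4435)) (x (nat_lit 4439)) (x (nat_lit 4441)) (x (nat_lit 4443)) (x (nat_lit 4447))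
    (x (nat_lit 4449)) (x (nat_lit 4463)) (x (nat_lit 4469)) (x (nat_lit 4471)) (x (nat_lit 4475))
    (x (nat_lit 4477)) (x (nat_lit 4479)) (x (nat_lit 4487)) (x (nat_lit 4489)) (x (nat_lit 4493))
    (x (nat_lit 4495)) (x (nat_lit 4497)) (x (nat_lit 4501)) (x (nat_lit 4503)) (x (nat_lit 4511))
    (x (nat_lit 4513)) (x (nat_lit 4515)) (x (nat_lit 4519)) (x (nat_lit 4521)) (x (nat_lit 4527))
    (x (nat_lit 4541)) (x (nat_lit 4543)) (x (nat_lit 4547)) (x (nat_lit 4549)) (x (nat_lit 4551))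
    (x (nat_lit 4555)) (x (nat_lit 4557)) (x (nat_lit 4565)) (x (nat_lit 4567)) (x (nat_lit 4569))
    (x (nat_lit 4573)) (x (nat_lit 4575)) (x (nat_lit 4581)) (x (nat_lit 4591)) (x (nat_lit 4593))
    (x (nat_lit 4599)) (x (nat_lit 4625)) (x (nat_lit 4631)) (x (nat_lit 4633)) (x (nat_lit 4637))
    (x (nat_lit 4639)) (x (nat_lit 4641)) (x (nat_lit 4649)) (x (nat_lit 4651)) (x (nat_lit 4655))
    (x (nat_lit 4657)) (x (nat_lit 4659)) (x (nat_lit 4663)) (x (nat_lit 4665)) (x (nat_lit 4673))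
    (x (nat_lit 4675)) (x (nat_lit 4677)) (x (nat_lit 4681)) (x (nat_lit 4683)) (x (nat_lit 4689))
    (x (nat_lit 4703)) (x (nat_lit 4705)) (x (nat_lit 4709)) (x (nat_lit 4711)) (x (nat_lit 4713))
    (x (nat_lit 4717)) (x (nat_lit 4719)) (x (nat_lit 4727)) (x (nat_lit 4729)) (x (nat_lit 4731))
    (x (nat_lit 4735)) (x (nat_lit 4737)) (x (nat_lit 4743)) (x (nat_lit 4753)) (x (nat_lit 4755))
    (x (nat_lit 4761)) (x (nat_lit 4781)) (x (nat_lit 4783)) (x (nat_lit 4785)) (x (nat_lit 4789))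
    (x (nat_lit 4791)) (x (nat_lit 4797)) (x (nat_lit 4807)) (x (nat_lit 4809)) (x (nat_lit 4815))
    (x (nat_lit 4833)) (x (nat_lit 4865)) (x (nat_lit 4867)) (x (nat_lit 4871)) (x (nat_lit 4873))
    (x (nat_lit 4875)) (x (nat_lit 4879)) (x (nat_lit 4881)) (x (nat_lit 4889)) (x (nat_lit 4891))
    (x (nat_lit 4893)) (x (nat_lit 4897)) (x (nat_lit 4899)) (x (nat_lit 4905)) (x (nat_lit 4915))
    (x (nat_lit 4917)) (x (nat_lit 4923)) (x (nat_lit 4943)) (x (nat_lit 4945)) (x (nat_lit 4947))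
    (x (nat_lit 4951)) (x (nat_lit 4953)) (x (nat_lit 4959)) (x (nat_lit 4969)) (x (nat_lit 4971))
    (x (nat_lit 4977)) (x (nat_lit 4995)) (x (nat_lit 5023)) (x (nat_lit 5025)) (x (nat_lit 5031))
    (x (nat_lit 5049)) (x (nat_lit 5111)) (x (nat_lit 5117)) (x (nat_lit 5119)) (x (nat_lit 5123))
    (x (nat_lit 5125)) (x (nat_lit 5127)) (x (nat_lit 5135)) (x (nat_lit 5137)) (x (nat_lit 5141))
    (x (nat_lit 5143)) (x (nat_lit 5145)) (x (nat_lit 5149)) (x (nat_lit 5151)) (x (nat_lit 5159))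
    (x (nat_lit 5161)) (x (nat_lit 5163)) (x (nat_lit 5167)) (x (nat_lit 5169)) (x (nat_lit 5175))
    (x (nat_lit 5189)) (x (nat_lit 5191)) (x (nat_lit 5195)) (x (nat_lit 5197)) (x (nat_lit 5199))
    (x (nat_lit 5203)) (x (nat_lit 5205)) (x (nat_lit 5213)) (x (nat_lit 5215)) (x (nat_lit 5217))
    (x (nat_lit 5221)) (x (nat_lit 5223)) (x (nat_lit 5229)) (x (nat_lit 5239)) (x (nat_lit 5241))
    (x (nat_lit 5247)) (x (nat_lit 5267)) (x (nat_lit 5269)) (x (nat_lit 5271)) (x (nat_lit 5275))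
    (x (nat_lit 5277)) (x (nat_lit 5283)) (x (nat_lit 5293)) (x (nat_lit 5295)) (x (nat_lit 5301))
    (x (nat_lit 5319)) (x (nat_lit 5351)) (x (nat_lit 5353)) (x (nat_lit 5357)) (x (nat_lit 5359))
    (x (nat_lit 5361)) (x (nat_lit 5365)) (x (nat_lit 5367)) (x (nat_lit 5375)) (x (nat_lit 5377))
    (x (nat_lit 5379)) (x (nat_lit 5383)) (x (nat_lit 5385)) (x (nat_lit 5391)) (x (nat_lit 5401))
    (x (nat_lit 5403)) (x (nat_lit 5409)) (x (nat_lit 5429)) (x (nat_lit 5431)) (x (nat_lit 5433))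
    (x (nat_lit 5437)) (x (nat_lit 5439)) (x (nat_lit 5445)) (x (nat_lit 5455)) (x (nat_lit 5457))
    (x (nat_lit 5463)) (x (nat_lit 5481)) (x (nat_lit 5509)) (x (nat_lit 5511)) (x (nat_lit 5517))
    (x (nat_lit 5535)) (x (nat_lit 5591)) (x (nat_lit 5593)) (x (nat_lit 5595)) (x (nat_lit 5599))
    (x (nat_lit 5601)) (x (nat_lit 5607)) (x (nat_lit 5617)) (x (nat_lit 5619)) (x (nat_lit 5625))
    (x (nat_lit 5643)) (x (nat_lit 5671)) (x (nat_lit 5673)) (x (nat_lit 5679)) (x (nat_lit 5697))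
    (x (nat_lit 5751)) (x (nat_lit 5837)) (x (nat_lit 5839)) (x (nat_lit 5843)) (x (nat_lit 5845))
    (x (nat_lit 5847)) (x (nat_lit 5851)) (x (nat_lit 5853)) (x (nat_lit 5861)) (x (nat_lit 5863))
    (x (nat_lit 5865)) (x (nat_lit 5869)) (x (nat_lit 5871)) (x (nat_lit 5877)) (x (nat_lit 5887))
    (x (nat_lit 5889)) (x (nat_lit 5895)) (x (nat_lit 5915)) (x (nat_lit 5917)) (x (nat_lit 5919))
    (x (nat_lit 5923)) (x (nat_lit 5925)) (x (nat_lit 5931)) (x (nat_lit 5941)) (x (nat_lit 5943))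
    (x (nat_lit 5949)) (x (nat_lit 5967)) (x (nat_lit 5995)) (x (nat_lit 5997)) (x (nat_lit 6003))
    (x (nat_lit 6021)) (x (nat_lit 6077)) (x (nat_lit 6079)) (x (nat_lit 6081)) (x (nat_lit 6085))
    (x (nat_lit 6087)) (x (nat_lit 6093)) (x (nat_lit 6103)) (x (nat_lit 6105)) (x (nat_lit 6111))
    (x (nat_lit 6129)) (x (nat_lit 6157)) (x (nat_lit 6159)) (x (nat_lit 6165)) (x (nat_lit 6183))
    (x (nat_lit 6237)) (x (nat_lit 6319)) (x (nat_lit 6321)) (x (nat_lit 6327)) (x (nat_lit 6345))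
    (x (nat_lit 6399)) (x (nat_lit 6587)) (x (nat_lit 6605)) (x (nat_lit 6611)) (x (nat_lit 6613))
    (x (nat_lit 6623)) (x (nat_lit 6629)) (x (nat_lit 6631)) (x (nat_lit 6635)) (x (nat_lit 6637))
    (x (nat_lit 6639)) (x (nat_lit 6659)) (x (nat_lit 6665)) (x (nat_lit 6667)) (x (nat_lit 6677))
    (x (nat_lit 6683)) (x (nat_lit 6685)) (x (nat_lit 6689)) (x (nat_lit 6691)) (x (nat_lit 6693))
    (x (nat_lit 6701)) (x (nat_lit 6703)) (x (nat_lit 6707)) (x (nat_lit 6709)) (x (nat_lit 6711))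
    (x (nat_lit 6715)) (x (nat_lit 6717)) (x (nat_lit 6731)) (x (nat_lit 6737)) (x (nat_lit 6739))
    (x (nat_lit 6743)) (x (nat_lit 6745)) (x (nat_lit 6747)) (x (nat_lit 6755)) (x (nat_lit 6757))
    (x (nat_lit 6761)) (x (nat_lit 6763)) (x (nat_lit 6765)) (x (nat_lit 6769)) (x (nat_lit 6771))
    (x (nat_lit 6779)) (x (nat_lit 6781)) (x (nat_lit 6783)) (x (nat_lit 6787)) (x (nat_lit 6789))
    (x (nat_lit 6795)) (x (nat_lit 6821)) (x (nat_lit 6827)) (x (nat_lit 6829)) (x (nat_lit 6839))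
    (x (nat_lit 6845)) (x (nat_lit 6847)) (x (nat_lit 6851)) (x (nat_lit 6853)) (x (nat_lit 6855))
    (x (nat_lit 6863)) (x (nat_lit 6865)) (x (nat_lit 6869)) (x (nat_lit 6871)) (x (nat_lit 6873))
    (x (nat_lit 6877)) (x (nat_lit 6879)) (x (nat_lit 6893)) (x (nat_lit 6899)) (x (nat_lit 6901))
    (x (nat_lit 6905)) (x (nat_lit 6907)) (x (nat_lit 6909)) (x (nat_lit 6917)) (x (nat_lit 6919))
    (x (nat_lit 6923)) (x (nat_lit 6925)) (x (nat_lit 6927)) (x (nat_lit 6931)) (x (nat_lit 6933))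
    (x (nat_lit 6941)) (x (nat_lit 6943)) (x (nat_lit 6945)) (x (nat_lit 6949)) (x (nat_lit 6951))
    (x (nat_lit 6957)) (x (nat_lit 6971)) (x (nat_lit 6973)) (x (nat_lit 6977)) (x (nat_lit 6979))
    (x (nat_lit 6981)) (x (nat_lit 6985)) (x (nat_lit 6987)) (x (nat_lit 6995)) (x (nat_lit 6997))
    (x (nat_lit 6999)) (x (nat_lit 7003)) (x (nat_lit 7005)) (x (nat_lit 7011)) (x (nat_lit 7021))
    (x (nat_lit 7023)) (x (nat_lit 7029)) (x (nat_lit 7055)) (x (nat_lit 7061)) (x (nat_lit 7063))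
    (x (nat_lit 7067)) (x (nat_lit 7069)) (x (nat_lit 7071)) (x (nat_lit 7079)) (x (nat_lit 7081))
    (x (nat_lit 7085)) (x (nat_lit 7087)) (x (nat_lit 7089)) (x (nat_lit 7093)) (x (nat_lit 7095))
    (x (nat_lit 7103)) (x (nat_lit 7105)) (x (nat_lit 7107)) (x (nat_lit 7111)) (x (nat_lit 7113))
    (x (nat_lit 7119)) (x (nat_lit 7133)) (x (nat_lit 7135)) (x (nat_lit 7139)) (x (nat_lit 7141))
    (x (nat_lit 7143)) (x (nat_lit 7147)) (x (nat_lit 7149)) (x (nat_lit 7157)) (x (nat_lit 7159))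
    (x (nat_lit 7161)) (x (nat_lit 7165)) (x (nat_lit 7167)) (x (nat_lit 7173)) (x (nat_lit 7183))
    (x (nat_lit 7185)) (x (nat_lit 7191)) (x (nat_lit 7211)) (x (nat_lit 7213)) (x (nat_lit 7215))
    (x (nat_lit 7219)) (x (nat_lit 7221)) (x (nat_lit 7227)) (x (nat_lit 7237)) (x (nat_lit 7239))
    (x (nat_lit 7245)) (x (nat_lit 7263)) (x (nat_lit 7307)) (x (nat_lit 7313)) (x (nat_lit 7315))
    (x (nat_lit 7325)) (x (nat_lit 7331)) (x (nat_lit 7333)) (x (nat_lit 7337)) (x (nat_lit 7339))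
    (x (nat_lit 7341)) (x (nat_lit 7349)) (x (nat_lit 7351)) (x (nat_lit 7355)) (x (nat_lit 7357))
    (x (nat_lit 7359)) (x (nat_lit 7363)) (x (nat_lit 7365)) (x (nat_lit 7379)) (x (nat_lit 7385))
    (x (nat_lit 7387)) (x (nat_lit 7391)) (x (nat_lit 7393)) (x (nat_lit 7395)) (x (nat_lit 7403))
    (x (nat_lit 7405)) (x (nat_lit 7409)) (x (nat_lit 7411)) (x (nat_lit 7413)) (x (nat_lit 7417))
    (x (nat_lit 7419)) (x (nat_lit 7427)) (x (nat_lit 7429)) (x (nat_lit 7431)) (x (nat_lit 7435))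
    (x (nat_lit 7437)) (x (nat_lit 7443)) (x (nat_lit 7457)) (x (nat_lit 7459)) (x (nat_lit 7463))
    (x (nat_lit 7465)) (x (nat_lit 7467)) (x (nat_lit 7471)) (x (nat_lit 7473)) (x (nat_lit 7481))
    (x (nat_lit 7483)) (x (nat_lit 7485)) (x (nat_lit 7489)) (x (nat_lit 7491)) (x (nat_lit 7497))
    (x (nat_lit 7507)) (x (nat_lit 7509)) (x (nat_lit 7515)) (x (nat_lit 7541)) (x (nat_lit 7547))
    (x (nat_lit 7549)) (x (nat_lit 7553)) (x (nat_lit 7555)) (x (nat_lit 7557)) (x (nat_lit 7565))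
    (x (nat_lit 7567)) (x (nat_lit 7571)) (x (nat_lit 7573)) (x (nat_lit 7575)) (x (nat_lit 7579))
    (x (nat_lit 7581)) (x (nat_lit 7589)) (x (nat_lit 7591)) (x (nat_lit 7593)) (x (nat_lit 7597))
    (x (nat_lit 7599)) (x (nat_lit 7605)) (x (nat_lit 7619)) (x (nat_lit 7621)) (x (nat_lit 7625))
    (x (nat_lit 7627)) (x (nat_lit 7629)) (x (nat_lit 7633)) (x (nat_lit 7635)) (x (nat_lit 7643))
    (x (nat_lit 7645)) (x (nat_lit 7647)) (x (nat_lit 7651)) (x (nat_lit 7653)) (x (nat_lit 7659))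
    (x (nat_lit 7669)) (x (nat_lit 7671)) (x (nat_lit 7677)) (x (nat_lit 7697)) (x (nat_lit 7699))
    (x (nat_lit 7701)) (x (nat_lit 7705)) (x (nat_lit 7707)) (x (nat_lit 7713)) (x (nat_lit 7723))
    (x (nat_lit 7725)) (x (nat_lit 7731)) (x (nat_lit 7749)) (x (nat_lit 7781)) (x (nat_lit 7783))
    (x (nat_lit 7787)) (x (nat_lit 7789)) (x (nat_lit 7791)) (x (nat_lit 7795)) (x (nat_lit 7797))
    (x (nat_lit 7805)) (x (nat_lit 7807)) (x (nat_lit 7809)) (x (nat_lit 7813)) (x (nat_lit 7815))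
    (x (nat_lit 7821)) (x (nat_lit 7831)) (x (nat_lit 7833)) (x (nat_lit 7839)) (x (nat_lit 7859))
    (x (nat_lit 7861)) (x (nat_lit 7863)) (x (nat_lit 7867)) (x (nat_lit 7869)) (x (nat_lit 7875))
    (x (nat_lit 7885)) (x (nat_lit 7887)) (x (nat_lit 7893)) (x (nat_lit 7911)) (x (nat_lit 7939))
    (x (nat_lit 7941)) (x (nat_lit 7947)) (x (nat_lit 7965)) (x (nat_lit 8027)) (x (nat_lit 8033))
    (x (nat_lit 8035)) (x (nat_lit 8039)) (x (nat_lit 8041)) (x (nat_lit 8043)) (x (nat_lit 8051))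
    (x (nat_lit 8053)) (x (nat_lit 8057)) (x (nat_lit 8059)) (x (nat_lit 8061)) (x (nat_lit 8065))
    (x (nat_lit 8067)) (x (nat_lit 8075)) (x (nat_lit 8077)) (x (nat_lit 8079)) (x (nat_lit 8083))
    (x (nat_lit 8085)) (x (nat_lit 8091)) (x (nat_lit 8105)) (x (nat_lit 8107)) (x (nat_lit 8111))
    (x (nat_lit 8113)) (x (nat_lit 8115)) (x (nat_lit 8119)) (x (nat_lit 8121)) (x (nat_lit 8129))
    (x (nat_lit 8131)) (x (nat_lit 8133)) (x (nat_lit 8137)) (x (nat_lit 8139)) (x (nat_lit 8145))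
    (x (nat_lit 8155)) (x (nat_lit 8157)) (x (nat_lit 8163)) (x (nat_lit 8183)) (x (nat_lit 8185))
    (x (nat_lit 8187)) (x (nat_lit 8191)) (x (nat_lit 8193)) (x (nat_lit 8199)) (x (nat_lit 8209))
    (x (nat_lit 8211)) (x (nat_lit 8217)) (x (nat_lit 8235)) (x (nat_lit 8267)) (x (nat_lit 8269))
    (x (nat_lit 8273)) (x (nat_lit 8275)) (x (nat_lit 8277)) (x (nat_lit 8281)) (x (nat_lit 8283))
    (x (nat_lit 8291)) (x (nat_lit 8293)) (x (nat_lit 8295)) (x (nat_lit 8299)) (x (nat_lit 8301))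
    (x (nat_lit 8307)) (x (nat_lit 8317)) (x (nat_lit 8319)) (x (nat_lit 8325)) (x (nat_lit 8345))
    (x (nat_lit 8347)) (x (nat_lit 8349)) (x (nat_lit 8353)) (x (nat_lit 8355)) (x (nat_lit 8361))
    (x (nat_lit 8371)) (x (nat_lit 8373)) (x (nat_lit 8379)) (x (nat_lit 8397)) (x (nat_lit 8425))
    (x (nat_lit 8427)) (x (nat_lit 8433)) (x (nat_lit 8451)) (x (nat_lit 8507)) (x (nat_lit 8509))
    (x (nat_lit 8511)) (x (nat_lit 8515)) (x (nat_lit 8517)) (x (nat_lit 8523)) (x (nat_lit 8533))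
    (x (nat_lit 8535)) (x (nat_lit 8541)) (x (nat_lit 8559)) (x (nat_lit 8587)) (x (nat_lit 8589))
    (x (nat_lit 8595)) (x (nat_lit 8613)) (x (nat_lit 8667)) (x (nat_lit 8765)) (x (nat_lit 8771))
    (x (nat_lit 8773)) (x (nat_lit 8783)) (x (nat_lit 8789)) (x (nat_lit 8791)) (x (nat_lit 8795))
    (x (nat_lit 8797)) (x (nat_lit 8799)) (x (nat_lit 8807)) (x (nat_lit 8809)) (x (nat_lit 8813))
    (x (nat_lit 8815)) (x (nat_lit 8817)) (x (nat_lit 8821)) (x (nat_lit 8823)) (x (nat_lit 8837))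
    (x (nat_lit 8843)) (x (nat_lit 8845)) (x (nat_lit 8849)) (x (nat_lit 8851)) (x (nat_lit 8853))
    (x (nat_lit 8861)) (x (nat_lit 8863)) (x (nat_lit 8867)) (x (nat_lit 8869)) (x (nat_lit 8871))
    (x (nat_lit 8875)) (x (nat_lit 8877)) (x (nat_lit 8885)) (x (nat_lit 8887)) (x (nat_lit 8889))
    (x (nat_lit 8893)) (x (nat_lit 8895)) (x (nat_lit 8901)) (x (nat_lit 8915)) (x (nat_lit 8917))
    (x (nat_lit 8921)) (x (nat_lit 8923)) (x (nat_lit 8925)) (x (nat_lit 8929)) (x (nat_lit 8931))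
    (x (nat_lit 8939)) (x (nat_lit 8941)) (x (nat_lit 8943)) (x (nat_lit 8947)) (x (nat_lit 8949))
    (x (nat_lit 8955)) (x (nat_lit 8965)) (x (nat_lit 8967)) (x (nat_lit 8973)) (x (nat_lit 8999))
    (x (nat_lit 9005)) (x (nat_lit 9007)) (x (nat_lit 9011)) (x (nat_lit 9013)) (x (nat_lit 9015))
    (x (nat_lit 9023)) (x (nat_lit 9025)) (x (nat_lit 9029)) (x (nat_lit 9031)) (x (nat_lit 9033))
    (x (nat_lit 9037)) (x (nat_lit 9039)) (x (nat_lit 9047)) (x (nat_lit 9049)) (x (nat_lit 9051))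
    (x (nat_lit 9055)) (x (nat_lit 9057)) (x (nat_lit 9063)) (x (nat_lit 9077)) (x (nat_lit 9079))
    (x (nat_lit 9083)) (x (nat_lit 9085)) (x (nat_lit 9087)) (x (nat_lit 9091)) (x (nat_lit 9093))
    (x (nat_lit 9101)) (x (nat_lit 9103)) (x (nat_lit 9105)) (x (nat_lit 9109)) (x (nat_lit 9111))
    (x (nat_lit 9117)) (x (nat_lit 9127)) (x (nat_lit 9129)) (x (nat_lit 9135)) (x (nat_lit 9155))
    (x (nat_lit 9157)) (x (nat_lit 9159)) (x (nat_lit 9163)) (x (nat_lit 9165)) (x (nat_lit 9171))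
    (x (nat_lit 9181)) (x (nat_lit 9183)) (x (nat_lit 9189)) (x (nat_lit 9207)) (x (nat_lit 9239))
    (x (nat_lit 9241)) (x (nat_lit 9245)) (x (nat_lit 9247)) (x (nat_lit 9249)) (x (nat_lit 9253))
    (x (nat_lit 9255)) (x (nat_lit 9263)) (x (nat_lit 9265)) (x (nat_lit 9267)) (x (nat_lit 9271))
    (x (nat_lit 9273)) (x (nat_lit 9279)) (x (nat_lit 9289)) (x (nat_lit 9291)) (x (nat_lit 9297))
    (x (nat_lit 9317)) (x (nat_lit 9319)) (x (nat_lit 9321)) (x (nat_lit 9325)) (x (nat_lit 9327))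
    (x (nat_lit 9333)) (x (nat_lit 9343)) (x (nat_lit 9345)) (x (nat_lit 9351)) (x (nat_lit 9369))
    (x (nat_lit 9397)) (x (nat_lit 9399)) (x (nat_lit 9405)) (x (nat_lit 9423)) (x (nat_lit 9485))
    (x (nat_lit 9491)) (x (nat_lit 9493)) (x (nat_lit 9497)) (x (nat_lit 9499)) (x (nat_lit 9501))
    (x (nat_lit 9509)) (x (nat_lit 9511)) (x (nat_lit 9515)) (x (nat_lit 9517)) (x (nat_lit 9519))
    (x (nat_lit 9523)) (x (nat_lit 9525)) (x (nat_lit 9533)) (x (nat_lit 9535)) (x (nat_lit 9537))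
    (x (nat_lit 9541)) (x (nat_lit 9543)) (x (nat_lit 9549)) (x (nat_lit 9563)) (x (nat_lit 9565))
    (x (nat_lit 9569)) (x (nat_lit 9571)) (x (nat_lit 9573)) (x (nat_lit 9577)) (x (nat_lit 9579))
    (x (nat_lit 9587)) (x (nat_lit 9589)) (x (nat_lit 9591)) (x (nat_lit 9595)) (x (nat_lit 9597))
    (x (nat_lit 9603)) (x (nat_lit 9613)) (x (nat_lit 9615)) (x (nat_lit 9621)) (x (nat_lit 9641))
    (x (nat_lit 9643)) (x (nat_lit 9645)) (x (nat_lit 9649)) (x (nat_lit 9651)) (x (nat_lit 9657))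
    (x (nat_lit 9667)) (x (nat_lit 9669)) (x (nat_lit 9675)) (x (nat_lit 9693)) (x (nat_lit 9725))
    (x (nat_lit 9727)) (x (nat_lit 9731)) (x (nat_lit 9733)) (x (nat_lit 9735)) (x (nat_lit 9739))
    (x (nat_lit 9741)) (x (nat_lit 9749)) (x (nat_lit 9751)) (x (nat_lit 9753)) (x (nat_lit 9757))
    (x (nat_lit 9759)) (x (nat_lit 9765)) (x (nat_lit 9775)) (x (nat_lit 9777)) (x (nat_lit 9783))
    (x (nat_lit 9803)) (x (nat_lit 9805)) (x (nat_lit 9807)) (x (nat_lit 9811)) (x (nat_lit 9813))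
    (x (nat_lit 9819)) (x (nat_lit 9829)) (x (nat_lit 9831)) (x (nat_lit 9837)) (x (nat_lit 9855))
    (x (nat_lit 9883)) (x (nat_lit 9885)) (x (nat_lit 9891)) (x (nat_lit 9909)) (x (nat_lit 9965))
    (x (nat_lit 9967)) (x (nat_lit 9969)) (x (nat_lit 9973)) (x (nat_lit 9975)) (x (nat_lit 9981))
    (x (nat_lit 9991)) (x (nat_lit 9993)) (x (nat_lit 9999)) (x (nat_lit 10017))
    (x (nat_lit 10045)) (x (nat_lit 10047)) (x (nat_lit 10053)) (x (nat_lit 10071))
    (x (nat_lit 10125)) (x (nat_lit 10211)) (x (nat_lit 10213)) (x (nat_lit 10217))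
    (x (nat_lit 10219)) (x (nat_lit 10221)) (x (nat_lit 10225)) (x (nat_lit 10227))
    (x (nat_lit 10235)) (x (nat_lit 10237)) (x (nat_lit 10239)) (x (nat_lit 10243))
    (x (nat_lit 10245)) (x (nat_lit 10251)) (x (nat_lit 10261)) (x (nat_lit 10263))
    (x (nat_lit 10269)) (x (nat_lit 10289)) (x (nat_lit 10291)) (x (nat_lit 10293))
    (x (nat_lit 10297)) (x (nat_lit 10299)) (x (nat_lit 10305)) (x (nat_lit 10315))
    (x (nat_lit 10317)) (x (nat_lit 10323)) (x (nat_lit 10341)) (x (nat_lit 10369))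
    (x (nat_lit 10371)) (x (nat_lit 10377)) (x (nat_lit 10395)) (x (nat_lit 10451))
    (x (nat_lit 10453)) (x (nat_lit 10455)) (x (nat_lit 10459)) (x (nat_lit 10461))
    (x (nat_lit 10467)) (x (nat_lit 10477)) (x (nat_lit 10479)) (x (nat_lit 10485))
    (x (nat_lit 10503)) (x (nat_lit 10531)) (x (nat_lit 10533)) (x (nat_lit 10539))
    (x (nat_lit 10557)) (x (nat_lit 10611)) (x (nat_lit 10693)) (x (nat_lit 10695))
    (x (nat_lit 10701)) (x (nat_lit 10719)) (x (nat_lit 10773)) (x (nat_lit 10943))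
    (x (nat_lit 10949)) (x (nat_lit 10951)) (x (nat_lit 10955)) (x (nat_lit 10957))
    (x (nat_lit 10959)) (x (nat_lit 10967)) (x (nat_lit 10969)) (x (nat_lit 10973))
    (x (nat_lit 10975)) (x (nat_lit 10977)) (x (nat_lit 10981)) (x (nat_lit 10983))
    (x (nat_lit 10991)) (x (nat_lit 10993)) (x (nat_lit 10995)) (x (nat_lit 10999))
    (x (nat_lit 11001)) (x (nat_lit 11007)) (x (nat_lit 11021)) (x (nat_lit 11023))
    (x (nat_lit 11027)) (x (nat_lit 11029)) (x (nat_lit 11031)) (x (nat_lit 11035))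
    (x (nat_lit 11037)) (x (nat_lit 11045)) (x (nat_lit 11047)) (x (nat_lit 11049))
    (x (nat_lit 11053)) (x (nat_lit 11055)) (x (nat_lit 11061)) (x (nat_lit 11071))
    (x (nat_lit 11073)) (x (nat_lit 11079)) (x (nat_lit 11099)) (x (nat_lit 11101))
    (x (nat_lit 11103)) (x (nat_lit 11107)) (x (nat_lit 11109)) (x (nat_lit 11115))
    (x (nat_lit 11125)) (x (nat_lit 11127)) (x (nat_lit 11133)) (x (nat_lit 11151))
    (x (nat_lit 11183)) (x (nat_lit 11185)) (x (nat_lit 11189)) (x (nat_lit 11191))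
    (x (nat_lit 11193)) (x (nat_lit 11197)) (x (nat_lit 11199)) (x (nat_lit 11207))
    (x (nat_lit 11209)) (x (nat_lit 11211)) (x (nat_lit 11215)) (x (nat_lit 11217))
    (x (nat_lit 11223)) (x (nat_lit 11233)) (x (nat_lit 11235)) (x (nat_lit 11241))
    (x (nat_lit 11261)) (x (nat_lit 11263)) (x (nat_lit 11265)) (x (nat_lit 11269))
    (x (nat_lit 11271)) (x (nat_lit 11277)) (x (nat_lit 11287)) (x (nat_lit 11289))
    (x (nat_lit 11295)) (x (nat_lit 11313)) (x (nat_lit 11341)) (x (nat_lit 11343))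
    (x (nat_lit 11349)) (x (nat_lit 11367)) (x (nat_lit 11423)) (x (nat_lit 11425))
    (x (nat_lit 11427)) (x (nat_lit 11431)) (x (nat_lit 11433)) (x (nat_lit 11439))
    (x (nat_lit 11449)) (x (nat_lit 11451)) (x (nat_lit 11457)) (x (nat_lit 11475))
    (x (nat_lit 11503)) (x (nat_lit 11505)) (x (nat_lit 11511)) (x (nat_lit 11529))
    (x (nat_lit 11583)) (x (nat_lit 11669)) (x (nat_lit 11671)) (x (nat_lit 11675))
    (x (nat_lit 11677)) (x (nat_lit 11679)) (x (nat_lit 11683)) (x (nat_lit 11685))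
    (x (nat_lit 11693)) (x (nat_lit 11695)) (x (nat_lit 11697)) (x (nat_lit 11701))
    (x (nat_lit 11703)) (x (nat_lit 11709)) (x (nat_lit 11719)) (x (nat_lit 11721))
    (x (nat_lit 11727)) (x (nat_lit 11747)) (x (nat_lit 11749)) (x (nat_lit 11751))
    (x (nat_lit 11755)) (x (nat_lit 11757)) (x (nat_lit 11763)) (x (nat_lit 11773))
    (x (nat_lit 11775)) (x (nat_lit 11781)) (x (nat_lit 11799)) (x (nat_lit 11827))
    (x (nat_lit 11829)) (x (nat_lit 11835)) (x (nat_lit 11853)) (x (nat_lit 11909))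
    (x (nat_lit 11911)) (x (nat_lit 11913)) (x (nat_lit 11917)) (x (nat_lit 11919))
    (x (nat_lit 11925)) (x (nat_lit 11935)) (x (nat_lit 11937)) (x (nat_lit 11943))
    (x (nat_lit 11961)) (x (nat_lit 11989)) (x (nat_lit 11991)) (x (nat_lit 11997))
    (x (nat_lit 12015)) (x (nat_lit 12069)) (x (nat_lit 12151)) (x (nat_lit 12153))
    (x (nat_lit 12159)) (x (nat_lit 12177)) (x (nat_lit 12231)) (x (nat_lit 12395))
    (x (nat_lit 12397)) (x (nat_lit 12399)) (x (nat_lit 12403)) (x (nat_lit 12405))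
    (x (nat_lit 12411)) (x (nat_lit 12421)) (x (nat_lit 12423)) (x (nat_lit 12429))
    (x (nat_lit 12447)) (x (nat_lit 12475)) (x (nat_lit 12477)) (x (nat_lit 12483))
    (x (nat_lit 12501)) (x (nat_lit 12555)) (x (nat_lit 12637)) (x (nat_lit 12639))
    (x (nat_lit 12645)) (x (nat_lit 12663)) (x (nat_lit 12717)) (x (nat_lit 12879))
    (x (nat_lit 13139)) (x (nat_lit 13145)) (x (nat_lit 13147)) (x (nat_lit 13157))
    (x (nat_lit 13163)) (x (nat_lit 13165)) (x (nat_lit 13169)) (x (nat_lit 13171))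
    (x (nat_lit 13173)) (x (nat_lit 13181)) (x (nat_lit 13183)) (x (nat_lit 13187))
    (x (nat_lit 13189)) (x (nat_lit 13191)) (x (nat_lit 13195)) (x (nat_lit 13197))
    (x (nat_lit 13211)) (x (nat_lit 13217)) (x (nat_lit 13219)) (x (nat_lit 13223))
    (x (nat_lit 13225)) (x (nat_lit 13227)) (x (nat_lit 13235)) (x (nat_lit 13237))
    (x (nat_lit 13241)) (x (nat_lit 13243)) (x (nat_lit 13245)) (x (nat_lit 13249))
    (x (nat_lit 13251)) (x (nat_lit 13259)) (x (nat_lit 13261)) (x (nat_lit 13263))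
    (x (nat_lit 13267)) (x (nat_lit 13269)) (x (nat_lit 13275)) (x (nat_lit 13289))
    (x (nat_lit 13291)) (x (nat_lit 13295)) (x (nat_lit 13297)) (x (nat_lit 13299))
    (x (nat_lit 13303)) (x (nat_lit 13305)) (x (nat_lit 13313)) (x (nat_lit 13315))
    (x (nat_lit 13317)) (x (nat_lit 13321)) (x (nat_lit 13323)) (x (nat_lit 13329))
    (x (nat_lit 13339)) (x (nat_lit 13341)) (x (nat_lit 13347)) (x (nat_lit 13373))
    (x (nat_lit 13379)) (x (nat_lit 13381)) (x (nat_lit 13385)) (x (nat_lit 13387))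
    (x (nat_lit 13389)) (x (nat_lit 13397)) (x (nat_lit 13399)) (x (nat_lit 13403))
    (x (nat_lit 13405)) (x (nat_lit 13407)) (x (nat_lit 13411)) (x (nat_lit 13413))
    (x (nat_lit 13421)) (x (nat_lit 13423)) (x (nat_lit 13425)) (x (nat_lit 13429))
    (x (nat_lit 13431)) (x (nat_lit 13437)) (x (nat_lit 13451)) (x (nat_lit 13453))
    (x (nat_lit 13457)) (x (nat_lit 13459)) (x (nat_lit 13461)) (x (nat_lit 13465))
    (x (nat_lit 13467)) (x (nat_lit 13475)) (x (nat_lit 13477)) (x (nat_lit 13479))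
    (x (nat_lit 13483)) (x (nat_lit 13485)) (x (nat_lit 13491)) (x (nat_lit 13501))
    (x (nat_lit 13503)) (x (nat_lit 13509)) (x (nat_lit 13529)) (x (nat_lit 13531))
    (x (nat_lit 13533)) (x (nat_lit 13537)) (x (nat_lit 13539)) (x (nat_lit 13545))
    (x (nat_lit 13555)) (x (nat_lit 13557)) (x (nat_lit 13563)) (x (nat_lit 13581))
    (x (nat_lit 13613)) (x (nat_lit 13615)) (x (nat_lit 13619)) (x (nat_lit 13621))
    (x (nat_lit 13623)) (x (nat_lit 13627)) (x (nat_lit 13629)) (x (nat_lit 13637))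
    (x (nat_lit 13639)) (x (nat_lit 13641)) (x (nat_lit 13645)) (x (nat_lit 13647))
    (x (nat_lit 13653)) (x (nat_lit 13663)) (x (nat_lit 13665)) (x (nat_lit 13671))
    (x (nat_lit 13691)) (x (nat_lit 13693)) (x (nat_lit 13695)) (x (nat_lit 13699))
    (x (nat_lit 13701)) (x (nat_lit 13707)) (x (nat_lit 13717)) (x (nat_lit 13719))
    (x (nat_lit 13725)) (x (nat_lit 13743)) (x (nat_lit 13771)) (x (nat_lit 13773))
    (x (nat_lit 13779)) (x (nat_lit 13797)) (x (nat_lit 13859)) (x (nat_lit 13865))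
    (x (nat_lit 13867)) (x (nat_lit 13871)) (x (nat_lit 13873)) (x (nat_lit 13875))
    (x (nat_lit 13883)) (x (nat_lit 13885)) (x (nat_lit 13889)) (x (nat_lit 13891))
    (x (nat_lit 13893)) (x (nat_lit 13897)) (x (nat_lit 13899)) (x (nat_lit 13907))
    (x (nat_lit 13909)) (x (nat_lit 13911)) (x (nat_lit 13915)) (x (nat_lit 13917))
    (x (nat_lit 13923)) (x (nat_lit 13937)) (x (nat_lit 13939)) (x (nat_lit 13943))
    (x (nat_lit 13945)) (x (nat_lit 13947)) (x (nat_lit 13951)) (x (nat_lit 13953))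
    (x (nat_lit 13961)) (x (nat_lit 13963)) (x (nat_lit 13965)) (x (nat_lit 13969))
    (x (nat_lit 13971)) (x (nat_lit 13977)) (x (nat_lit 13987)) (x (nat_lit 13989))
    (x (nat_lit 13995)) (x (nat_lit 14015)) (x (nat_lit 14017)) (x (nat_lit 14019))
    (x (nat_lit 14023)) (x (nat_lit 14025)) (x (nat_lit 14031)) (x (nat_lit 14041))
    (x (nat_lit 14043)) (x (nat_lit 14049)) (x (nat_lit 14067)) (x (nat_lit 14099))
    (x (nat_lit 14101)) (x (nat_lit 14105)) (x (nat_lit 14107)) (x (nat_lit 14109))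
    (x (nat_lit 14113)) (x (nat_lit 14115)) (x (nat_lit 14123)) (x (nat_lit 14125))
    (x (nat_lit 14127)) (x (nat_lit 14131)) (x (nat_lit 14133)) (x (nat_lit 14139))
    (x (nat_lit 14149)) (x (nat_lit 14151)) (x (nat_lit 14157)) (x (nat_lit 14177))
    (x (nat_lit 14179)) (x (nat_lit 14181)) (x (nat_lit 14185)) (x (nat_lit 14187))
    (x (nat_lit 14193)) (x (nat_lit 14203)) (x (nat_lit 14205)) (x (nat_lit 14211))
    (x (nat_lit 14229)) (x (nat_lit 14257)) (x (nat_lit 14259)) (x (nat_lit 14265))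
    (x (nat_lit 14283)) (x (nat_lit 14339)) (x (nat_lit 14341)) (x (nat_lit 14343))
    (x (nat_lit 14347)) (x (nat_lit 14349)) (x (nat_lit 14355)) (x (nat_lit 14365))
    (x (nat_lit 14367)) (x (nat_lit 14373)) (x (nat_lit 14391)) (x (nat_lit 14419))
    (x (nat_lit 14421)) (x (nat_lit 14427)) (x (nat_lit 14445)) (x (nat_lit 14499))
    (x (nat_lit 14585)) (x (nat_lit 14587)) (x (nat_lit 14591)) (x (nat_lit 14593))
    (x (nat_lit 14595)) (x (nat_lit 14599)) (x (nat_lit 14601)) (x (nat_lit 14609))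
    (x (nat_lit 14611)) (x (nat_lit 14613)) (x (nat_lit 14617)) (x (nat_lit 14619))
    (x (nat_lit 14625)) (x (nat_lit 14635)) (x (nat_lit 14637)) (x (nat_lit 14643))
    (x (nat_lit 14663)) (x (nat_lit 14665)) (x (nat_lit 14667)) (x (nat_lit 14671))
    (x (nat_lit 14673)) (x (nat_lit 14679)) (x (nat_lit 14689)) (x (nat_lit 14691))
    (x (nat_lit 14697)) (x (nat_lit 14715)) (x (nat_lit 14743)) (x (nat_lit 14745))
    (x (nat_lit 14751)) (x (nat_lit 14769)) (x (nat_lit 14825)) (x (nat_lit 14827))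
    (x (nat_lit 14829)) (x (nat_lit 14833)) (x (nat_lit 14835)) (x (nat_lit 14841))
    (x (nat_lit 14851)) (x (nat_lit 14853)) (x (nat_lit 14859)) (x (nat_lit 14877))
    (x (nat_lit 14905)) (x (nat_lit 14907)) (x (nat_lit 14913)) (x (nat_lit 14931))
    (x (nat_lit 14985)) (x (nat_lit 15067)) (x (nat_lit 15069)) (x (nat_lit 15075))
    (x (nat_lit 15093)) (x (nat_lit 15147)) (x (nat_lit 15317)) (x (nat_lit 15323))
    (x (nat_lit 15325)) (x (nat_lit 15329)) (x (nat_lit 15331)) (x (nat_lit 15333))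
    (x (nat_lit 15341)) (x (nat_lit 15343)) (x (nat_lit 15347)) (x (nat_lit 15349))
    (x (nat_lit 15351)) (x (nat_lit 15355)) (x (nat_lit 15357)) (x (nat_lit 15365))
    (x (nat_lit 15367)) (x (nat_lit 15369)) (x (nat_lit 15373)) (x (nat_lit 15375))
    (x (nat_lit 15381)) (x (nat_lit 15395)) (x (nat_lit 15397)) (x (nat_lit 15401))
    (x (nat_lit 15403)) (x (nat_lit 15405)) (x (nat_lit 15409)) (x (nat_lit 15411))
    (x (nat_lit 15419)) (x (nat_lit 15421)) (x (nat_lit 15423)) (x (nat_lit 15427))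
    (x (nat_lit 15429)) (x (nat_lit 15435)) (x (nat_lit 15445)) (x (nat_lit 15447))
    (x (nat_lit 15453)) (x (nat_lit 15473)) (x (nat_lit 15475)) (x (nat_lit 15477))
    (x (nat_lit 15481)) (x (nat_lit 15483)) (x (nat_lit 15489)) (x (nat_lit 15499))
    (x (nat_lit 15501)) (x (nat_lit 15507)) (x (nat_lit 15525)) (x (nat_lit 15557))
    (x (nat_lit 15559)) (x (nat_lit 15563)) (x (nat_lit 15565)) (x (nat_lit 15567))
    (x (nat_lit 15571)) (x (nat_lit 15573)) (x (nat_lit 15581)) (x (nat_lit 15583))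
    (x (nat_lit 15585)) (x (nat_lit 15589)) (x (nat_lit 15591)) (x (nat_lit 15597))
    (x (nat_lit 15607)) (x (nat_lit 15609)) (x (nat_lit 15615)) (x (nat_lit 15635))
    (x (nat_lit 15637)) (x (nat_lit 15639)) (x (nat_lit 15643)) (x (nat_lit 15645))
    (x (nat_lit 15651)) (x (nat_lit 15661)) (x (nat_lit 15663)) (x (nat_lit 15669))
    (x (nat_lit 15687)) (x (nat_lit 15715)) (x (nat_lit 15717)) (x (nat_lit 15723))
    (x (nat_lit 15741)) (x (nat_lit 15797)) (x (nat_lit 15799)) (x (nat_lit 15801))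
    (x (nat_lit 15805)) (x (nat_lit 15807)) (x (nat_lit 15813)) (x (nat_lit 15823))
    (x (nat_lit 15825)) (x (nat_lit 15831)) (x (nat_lit 15849)) (x (nat_lit 15877))
    (x (nat_lit 15879)) (x (nat_lit 15885)) (x (nat_lit 15903)) (x (nat_lit 15957))
    (x (nat_lit 16043)) (x (nat_lit 16045)) (x (nat_lit 16049)) (x (nat_lit 16051))
    (x (nat_lit 16053)) (x (nat_lit 16057)) (x (nat_lit 16059)) (x (nat_lit 16067))
    (x (nat_lit 16069)) (x (nat_lit 16071)) (x (nat_lit 16075)) (x (nat_lit 16077))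
    (x (nat_lit 16083)) (x (nat_lit 16093)) (x (nat_lit 16095)) (x (nat_lit 16101))
    (x (nat_lit 16121)) (x (nat_lit 16123)) (x (nat_lit 16125)) (x (nat_lit 16129))
    (x (nat_lit 16131)) (x (nat_lit 16137)) (x (nat_lit 16147)) (x (nat_lit 16149))
    (x (nat_lit 16155)) (x (nat_lit 16173)) (x (nat_lit 16201)) (x (nat_lit 16203))
    (x (nat_lit 16209)) (x (nat_lit 16227)) (x (nat_lit 16283)) (x (nat_lit 16285))
    (x (nat_lit 16287)) (x (nat_lit 16291)) (x (nat_lit 16293)) (x (nat_lit 16299))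
    (x (nat_lit 16309)) (x (nat_lit 16311)) (x (nat_lit 16317)) (x (nat_lit 16335))
    (x (nat_lit 16363)) (x (nat_lit 16365)) (x (nat_lit 16371)) (x (nat_lit 16389))
    (x (nat_lit 16443)) (x (nat_lit 16525)) (x (nat_lit 16527)) (x (nat_lit 16533))
    (x (nat_lit 16551)) (x (nat_lit 16605)) (x (nat_lit 16769)) (x (nat_lit 16771))
    (x (nat_lit 16773)) (x (nat_lit 16777)) (x (nat_lit 16779)) (x (nat_lit 16785))
    (x (nat_lit 16795)) (x (nat_lit 16797)) (x (nat_lit 16803)) (x (nat_lit 16821))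
    (x (nat_lit 16849)) (x (nat_lit 16851)) (x (nat_lit 16857)) (x (nat_lit 16875))
    (x (nat_lit 16929)) (x (nat_lit 17011)) (x (nat_lit 17013)) (x (nat_lit 17019))
    (x (nat_lit 17037)) (x (nat_lit 17091)) (x (nat_lit 17253)) (x (nat_lit 17501))
    (x (nat_lit 17503)) (x (nat_lit 17507)) (x (nat_lit 17509)) (x (nat_lit 17511))
    (x (nat_lit 17515)) (x (nat_lit 17517)) (x (nat_lit 17525)) (x (nat_lit 17527))
    (x (nat_lit 17529)) (x (nat_lit 17533)) (x (nat_lit 17535)) (x (nat_lit 17541))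
    (x (nat_lit 17551)) (x (nat_lit 17553)) (x (nat_lit 17559)) (x (nat_lit 17579))
    (x (nat_lit 17581)) (x (nat_lit 17583)) (x (nat_lit 17587)) (x (nat_lit 17589))
    (x (nat_lit 17595)) (x (nat_lit 17605)) (x (nat_lit 17607)) (x (nat_lit 17613))
    (x (nat_lit 17631)) (x (nat_lit 17659)) (x (nat_lit 17661)) (x (nat_lit 17667))
    (x (nat_lit 17685)) (x (nat_lit 17741)) (x (nat_lit 17743)) (x (nat_lit 17745))
    (x (nat_lit 17749)) (x (nat_lit 17751)) (x (nat_lit 17757)) (x (nat_lit 17767))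
    (x (nat_lit 17769)) (x (nat_lit 17775)) (x (nat_lit 17793)) (x (nat_lit 17821))
    (x (nat_lit 17823)) (x (nat_lit 17829)) (x (nat_lit 17847)) (x (nat_lit 17901))
    (x (nat_lit 17983)) (x (nat_lit 17985)) (x (nat_lit 17991)) (x (nat_lit 18009))
    (x (nat_lit 18063)) (x (nat_lit 18227)) (x (nat_lit 18229)) (x (nat_lit 18231))
    (x (nat_lit 18235)) (x (nat_lit 18237)) (x (nat_lit 18243)) (x (nat_lit 18253))
    (x (nat_lit 18255)) (x (nat_lit 18261)) (x (nat_lit 18279)) (x (nat_lit 18307))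
    (x (nat_lit 18309)) (x (nat_lit 18315)) (x (nat_lit 18333)) (x (nat_lit 18387))
    (x (nat_lit 18469)) (x (nat_lit 18471)) (x (nat_lit 18477)) (x (nat_lit 18495))
    (x (nat_lit 18549)) (x (nat_lit 18711)) (x (nat_lit 18955)) (x (nat_lit 18957))
    (x (nat_lit 18963)) (x (nat_lit 18981)) (x (nat_lit 19035)) (x (nat_lit 19197))

theorem ap_eq (x : Nat → Nat) (k : FnLL cds) : apLL (fun t => x t.cd) cds k = ap x k :=
  Eq.refl (ap x k)

theorem codes_ok : beqL (codes cds) (secL 9 7 0 []) = true := by decide +kernel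

noncomputable def fin (f : Nat → Nat) (v1 : Nat) (
    x53 x71 x77 x79 x107 x125 x131 x133 x143 x149 x151 x155 x157 x159 x179 x185 x187 x197 x203 x205
    x209 x211 x213 x221 x223 x227 x229 x231 x235 x237 x269 x287 x293 x295 x305 x311 x313 x317 x319
    x321 x341 x347 x349 x359 x365 x367 x371 x373 x375 x383 x385 x389 x391 x393 x397 x399 x413 x419
    x421 x425 x427 x429 x437 x439 x443 x445 x447 x451 x453 x461 x463 x465 x469 x471 x477 x503 x509
    x511 x521 x527 x529 x533 x535 x537 x545 x547 x551 x553 x555 x559 x561 x575 x581 x583 x587 x589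
    x591 x599 x601 x605 x607 x609 x613 x615 x623 x625 x627 x631 x633 x639 x653 x655 x659 x661 x663
    x667 x669 x677 x679 x681 x685 x687 x693 x703 x705 x711 x755 x773 x779 x781 x791 x797 x799 x803
    x805 x807 x827 x833 x835 x845 x851 x853 x857 x859 x861 x869 x871 x875 x877 x879 x883 x885 x899
    x905 x907 x911 x913 x915 x923 x925 x929 x931 x933 x937 x939 x947 x949 x951 x955 x957 x963 x989
    x995 x997 x1007 x1013 x1015 x1019 x1021 x1023 x1031 x1033 x1037 x1039 x1041 x1045 x1047 x1061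
    x1067 x1069 x1073 x1075 x1077 x1085 x1087 x1091 x1093 x1095 x1099 x1101 x1109 x1111 x1113 x1117
    x1119 x1125 x1139 x1141 x1145 x1147 x1149 x1153 x1155 x1163 x1165 x1167 x1171 x1173 x1179 x1189
    x1191 x1197 x1223 x1229 x1231 x1235 x1237 x1239 x1247 x1249 x1253 x1255 x1257 x1261 x1263 x1271
    x1273 x1275 x1279 x1281 x1287 x1301 x1303 x1307 x1309 x1311 x1315 x1317 x1325 x1327 x1329 x1333
    x1335 x1341 x1351 x1353 x1359 x1379 x1381 x1383 x1387 x1389 x1395 x1405 x1407 x1413 x1431 x1475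
    x1481 x1483 x1493 x1499 x1501 x1505 x1507 x1509 x1517 x1519 x1523 x1525 x1527 x1531 x1533 x1547
    x1553 x1555 x1559 x1561 x1563 x1571 x1573 x1577 x1579 x1581 x1585 x1587 x1595 x1597 x1599 x1603
    x1605 x1611 x1625 x1627 x1631 x1633 x1635 x1639 x1641 x1649 x1651 x1653 x1657 x1659 x1665 x1675
    x1677 x1683 x1709 x1715 x1717 x1721 x1723 x1725 x1733 x1735 x1739 x1741 x1743 x1747 x1749 x1757
    x1759 x1761 x1765 x1767 x1773 x1787 x1789 x1793 x1795 x1797 x1801 x1803 x1811 x1813 x1815 x1819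
    x1821 x1827 x1837 x1839 x1845 x1865 x1867 x1869 x1873 x1875 x1881 x1891 x1893 x1899 x1917 x1949
    x1951 x1955 x1957 x1959 x1963 x1965 x1973 x1975 x1977 x1981 x1983 x1989 x1999 x2001 x2007 x2027
    x2029 x2031 x2035 x2037 x2043 x2053 x2055 x2061 x2079 x2107 x2109 x2115 x2133 x2213 x2231 x2237
    x2239 x2249 x2255 x2257 x2261 x2263 x2265 x2285 x2291 x2293 x2303 x2309 x2311 x2315 x2317 x2319
    x2327 x2329 x2333 x2335 x2337 x2341 x2343 x2357 x2363 x2365 x2369 x2371 x2373 x2381 x2383 x2387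
    x2389 x2391 x2395 x2397 x2405 x2407 x2409 x2413 x2415 x2421 x2447 x2453 x2455 x2465 x2471 x2473
    x2477 x2479 x2481 x2489 x2491 x2495 x2497 x2499 x2503 x2505 x2519 x2525 x2527 x2531 x2533 x2535
    x2543 x2545 x2549 x2551 x2553 x2557 x2559 x2567 x2569 x2571 x2575 x2577 x2583 x2597 x2599 x2603
    x2605 x2607 x2611 x2613 x2621 x2623 x2625 x2629 x2631 x2637 x2647 x2649 x2655 x2681 x2687 x2689
    x2693 x2695 x2697 x2705 x2707 x2711 x2713 x2715 x2719 x2721 x2729 x2731 x2733 x2737 x2739 x2745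
    x2759 x2761 x2765 x2767 x2769 x2773 x2775 x2783 x2785 x2787 x2791 x2793 x2799 x2809 x2811 x2817
    x2837 x2839 x2841 x2845 x2847 x2853 x2863 x2865 x2871 x2889 x2933 x2939 x2941 x2951 x2957 x2959
    x2963 x2965 x2967 x2975 x2977 x2981 x2983 x2985 x2989 x2991 x3005 x3011 x3013 x3017 x3019 x3021
    x3029 x3031 x3035 x3037 x3039 x3043 x3045 x3053 x3055 x3057 x3061 x3063 x3069 x3083 x3085 x3089
    x3091 x3093 x3097 x3099 x3107 x3109 x3111 x3115 x3117 x3123 x3133 x3135 x3141 x3167 x3173 x3175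
    x3179 x3181 x3183 x3191 x3193 x3197 x3199 x3201 x3205 x3207 x3215 x3217 x3219 x3223 x3225 x3231
    x3245 x3247 x3251 x3253 x3255 x3259 x3261 x3269 x3271 x3273 x3277 x3279 x3285 x3295 x3297 x3303
    x3323 x3325 x3327 x3331 x3333 x3339 x3349 x3351 x3357 x3375 x3407 x3409 x3413 x3415 x3417 x3421
    x3423 x3431 x3433 x3435 x3439 x3441 x3447 x3457 x3459 x3465 x3485 x3487 x3489 x3493 x3495 x3501
    x3511 x3513 x3519 x3537 x3565 x3567 x3573 x3591 x3653 x3659 x3661 x3665 x3667 x3669 x3677 x3679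
    x3683 x3685 x3687 x3691 x3693 x3701 x3703 x3705 x3709 x3711 x3717 x3731 x3733 x3737 x3739 x3741
    x3745 x3747 x3755 x3757 x3759 x3763 x3765 x3771 x3781 x3783 x3789 x3809 x3811 x3813 x3817 x3819
    x3825 x3835 x3837 x3843 x3861 x3893 x3895 x3899 x3901 x3903 x3907 x3909 x3917 x3919 x3921 x3925
    x3927 x3933 x3943 x3945 x3951 x3971 x3973 x3975 x3979 x3981 x3987 x3997 x3999 x4005 x4023 x4051
    x4053 x4059 x4077 x4133 x4135 x4137 x4141 x4143 x4149 x4159 x4161 x4167 x4185 x4213 x4215 x4221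
    x4239 x4293 x4391 x4397 x4399 x4409 x4415 x4417 x4421 x4423 x4425 x4433 x4435 x4439 x4441 x4443
    x4447 x4449 x4463 x4469 x4471 x4475 x4477 x4479 x4487 x4489 x4493 x4495 x4497 x4501 x4503 x4511
    x4513 x4515 x4519 x4521 x4527 x4541 x4543 x4547 x4549 x4551 x4555 x4557 x4565 x4567 x4569 x4573
    x4575 x4581 x4591 x4593 x4599 x4625 x4631 x4633 x4637 x4639 x4641 x4649 x4651 x4655 x4657 x4659
    x4663 x4665 x4673 x4675 x4677 x4681 x4683 x4689 x4703 x4705 x4709 x4711 x4713 x4717 x4719 x4727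
    x4729 x4731 x4735 x4737 x4743 x4753 x4755 x4761 x4781 x4783 x4785 x4789 x4791 x4797 x4807 x4809
    x4815 x4833 x4865 x4867 x4871 x4873 x4875 x4879 x4881 x4889 x4891 x4893 x4897 x4899 x4905 x4915
    x4917 x4923 x4943 x4945 x4947 x4951 x4953 x4959 x4969 x4971 x4977 x4995 x5023 x5025 x5031 x5049
    x5111 x5117 x5119 x5123 x5125 x5127 x5135 x5137 x5141 x5143 x5145 x5149 x5151 x5159 x5161 x5163
    x5167 x5169 x5175 x5189 x5191 x5195 x5197 x5199 x5203 x5205 x5213 x5215 x5217 x5221 x5223 x5229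
    x5239 x5241 x5247 x5267 x5269 x5271 x5275 x5277 x5283 x5293 x5295 x5301 x5319 x5351 x5353 x5357
    x5359 x5361 x5365 x5367 x5375 x5377 x5379 x5383 x5385 x5391 x5401 x5403 x5409 x5429 x5431 x5433
    x5437 x5439 x5445 x5455 x5457 x5463 x5481 x5509 x5511 x5517 x5535 x5591 x5593 x5595 x5599 x5601
    x5607 x5617 x5619 x5625 x5643 x5671 x5673 x5679 x5697 x5751 x5837 x5839 x5843 x5845 x5847 x5851
    x5853 x5861 x5863 x5865 x5869 x5871 x5877 x5887 x5889 x5895 x5915 x5917 x5919 x5923 x5925 x5931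
    x5941 x5943 x5949 x5967 x5995 x5997 x6003 x6021 x6077 x6079 x6081 x6085 x6087 x6093 x6103 x6105
    x6111 x6129 x6157 x6159 x6165 x6183 x6237 x6319 x6321 x6327 x6345 x6399 x6587 x6605 x6611 x6613
    x6623 x6629 x6631 x6635 x6637 x6639 x6659 x6665 x6667 x6677 x6683 x6685 x6689 x6691 x6693 x6701
    x6703 x6707 x6709 x6711 x6715 x6717 x6731 x6737 x6739 x6743 x6745 x6747 x6755 x6757 x6761 x6763
    x6765 x6769 x6771 x6779 x6781 x6783 x6787 x6789 x6795 x6821 x6827 x6829 x6839 x6845 x6847 x6851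
    x6853 x6855 x6863 x6865 x6869 x6871 x6873 x6877 x6879 x6893 x6899 x6901 x6905 x6907 x6909 x6917
    x6919 x6923 x6925 x6927 x6931 x6933 x6941 x6943 x6945 x6949 x6951 x6957 x6971 x6973 x6977 x6979
    x6981 x6985 x6987 x6995 x6997 x6999 x7003 x7005 x7011 x7021 x7023 x7029 x7055 x7061 x7063 x7067
    x7069 x7071 x7079 x7081 x7085 x7087 x7089 x7093 x7095 x7103 x7105 x7107 x7111 x7113 x7119 x7133
    x7135 x7139 x7141 x7143 x7147 x7149 x7157 x7159 x7161 x7165 x7167 x7173 x7183 x7185 x7191 x7211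
    x7213 x7215 x7219 x7221 x7227 x7237 x7239 x7245 x7263 x7307 x7313 x7315 x7325 x7331 x7333 x7337
    x7339 x7341 x7349 x7351 x7355 x7357 x7359 x7363 x7365 x7379 x7385 x7387 x7391 x7393 x7395 x7403
    x7405 x7409 x7411 x7413 x7417 x7419 x7427 x7429 x7431 x7435 x7437 x7443 x7457 x7459 x7463 x7465
    x7467 x7471 x7473 x7481 x7483 x7485 x7489 x7491 x7497 x7507 x7509 x7515 x7541 x7547 x7549 x7553
    x7555 x7557 x7565 x7567 x7571 x7573 x7575 x7579 x7581 x7589 x7591 x7593 x7597 x7599 x7605 x7619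
    x7621 x7625 x7627 x7629 x7633 x7635 x7643 x7645 x7647 x7651 x7653 x7659 x7669 x7671 x7677 x7697
    x7699 x7701 x7705 x7707 x7713 x7723 x7725 x7731 x7749 x7781 x7783 x7787 x7789 x7791 x7795 x7797
    x7805 x7807 x7809 x7813 x7815 x7821 x7831 x7833 x7839 x7859 x7861 x7863 x7867 x7869 x7875 x7885
    x7887 x7893 x7911 x7939 x7941 x7947 x7965 x8027 x8033 x8035 x8039 x8041 x8043 x8051 x8053 x8057
    x8059 x8061 x8065 x8067 x8075 x8077 x8079 x8083 x8085 x8091 x8105 x8107 x8111 x8113 x8115 x8119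
    x8121 x8129 x8131 x8133 x8137 x8139 x8145 x8155 x8157 x8163 x8183 x8185 x8187 x8191 x8193 x8199
    x8209 x8211 x8217 x8235 x8267 x8269 x8273 x8275 x8277 x8281 x8283 x8291 x8293 x8295 x8299 x8301
    x8307 x8317 x8319 x8325 x8345 x8347 x8349 x8353 x8355 x8361 x8371 x8373 x8379 x8397 x8425 x8427
    x8433 x8451 x8507 x8509 x8511 x8515 x8517 x8523 x8533 x8535 x8541 x8559 x8587 x8589 x8595 x8613
    x8667 x8765 x8771 x8773 x8783 x8789 x8791 x8795 x8797 x8799 x8807 x8809 x8813 x8815 x8817 x8821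
    x8823 x8837 x8843 x8845 x8849 x8851 x8853 x8861 x8863 x8867 x8869 x8871 x8875 x8877 x8885 x8887
    x8889 x8893 x8895 x8901 x8915 x8917 x8921 x8923 x8925 x8929 x8931 x8939 x8941 x8943 x8947 x8949
    x8955 x8965 x8967 x8973 x8999 x9005 x9007 x9011 x9013 x9015 x9023 x9025 x9029 x9031 x9033 x9037
    x9039 x9047 x9049 x9051 x9055 x9057 x9063 x9077 x9079 x9083 x9085 x9087 x9091 x9093 x9101 x9103
    x9105 x9109 x9111 x9117 x9127 x9129 x9135 x9155 x9157 x9159 x9163 x9165 x9171 x9181 x9183 x9189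
    x9207 x9239 x9241 x9245 x9247 x9249 x9253 x9255 x9263 x9265 x9267 x9271 x9273 x9279 x9289 x9291
    x9297 x9317 x9319 x9321 x9325 x9327 x9333 x9343 x9345 x9351 x9369 x9397 x9399 x9405 x9423 x9485
    x9491 x9493 x9497 x9499 x9501 x9509 x9511 x9515 x9517 x9519 x9523 x9525 x9533 x9535 x9537 x9541
    x9543 x9549 x9563 x9565 x9569 x9571 x9573 x9577 x9579 x9587 x9589 x9591 x9595 x9597 x9603 x9613
    x9615 x9621 x9641 x9643 x9645 x9649 x9651 x9657 x9667 x9669 x9675 x9693 x9725 x9727 x9731 x9733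
    x9735 x9739 x9741 x9749 x9751 x9753 x9757 x9759 x9765 x9775 x9777 x9783 x9803 x9805 x9807 x9811
    x9813 x9819 x9829 x9831 x9837 x9855 x9883 x9885 x9891 x9909 x9965 x9967 x9969 x9973 x9975 x9981
    x9991 x9993 x9999 x10017 x10045 x10047 x10053 x10071 x10125 x10211 x10213 x10217 x10219 x10221
    x10225 x10227 x10235 x10237 x10239 x10243 x10245 x10251 x10261 x10263 x10269 x10289 x10291
    x10293 x10297 x10299 x10305 x10315 x10317 x10323 x10341 x10369 x10371 x10377 x10395 x10451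
    x10453 x10455 x10459 x10461 x10467 x10477 x10479 x10485 x10503 x10531 x10533 x10539 x10557
    x10611 x10693 x10695 x10701 x10719 x10773 x10943 x10949 x10951 x10955 x10957 x10959 x10967
    x10969 x10973 x10975 x10977 x10981 x10983 x10991 x10993 x10995 x10999 x11001 x11007 x11021
    x11023 x11027 x11029 x11031 x11035 x11037 x11045 x11047 x11049 x11053 x11055 x11061 x11071
    x11073 x11079 x11099 x11101 x11103 x11107 x11109 x11115 x11125 x11127 x11133 x11151 x11183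
    x11185 x11189 x11191 x11193 x11197 x11199 x11207 x11209 x11211 x11215 x11217 x11223 x11233
    x11235 x11241 x11261 x11263 x11265 x11269 x11271 x11277 x11287 x11289 x11295 x11313 x11341
    x11343 x11349 x11367 x11423 x11425 x11427 x11431 x11433 x11439 x11449 x11451 x11457 x11475
    x11503 x11505 x11511 x11529 x11583 x11669 x11671 x11675 x11677 x11679 x11683 x11685 x11693
    x11695 x11697 x11701 x11703 x11709 x11719 x11721 x11727 x11747 x11749 x11751 x11755 x11757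
    x11763 x11773 x11775 x11781 x11799 x11827 x11829 x11835 x11853 x11909 x11911 x11913 x11917
    x11919 x11925 x11935 x11937 x11943 x11961 x11989 x11991 x11997 x12015 x12069 x12151 x12153
    x12159 x12177 x12231 x12395 x12397 x12399 x12403 x12405 x12411 x12421 x12423 x12429 x12447
    x12475 x12477 x12483 x12501 x12555 x12637 x12639 x12645 x12663 x12717 x12879 x13139 x13145
    x13147 x13157 x13163 x13165 x13169 x13171 x13173 x13181 x13183 x13187 x13189 x13191 x13195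
    x13197 x13211 x13217 x13219 x13223 x13225 x13227 x13235 x13237 x13241 x13243 x13245 x13249
    x13251 x13259 x13261 x13263 x13267 x13269 x13275 x13289 x13291 x13295 x13297 x13299 x13303
    x13305 x13313 x13315 x13317 x13321 x13323 x13329 x13339 x13341 x13347 x13373 x13379 x13381
    x13385 x13387 x13389 x13397 x13399 x13403 x13405 x13407 x13411 x13413 x13421 x13423 x13425
    x13429 x13431 x13437 x13451 x13453 x13457 x13459 x13461 x13465 x13467 x13475 x13477 x13479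
    x13483 x13485 x13491 x13501 x13503 x13509 x13529 x13531 x13533 x13537 x13539 x13545 x13555
    x13557 x13563 x13581 x13613 x13615 x13619 x13621 x13623 x13627 x13629 x13637 x13639 x13641
    x13645 x13647 x13653 x13663 x13665 x13671 x13691 x13693 x13695 x13699 x13701 x13707 x13717
    x13719 x13725 x13743 x13771 x13773 x13779 x13797 x13859 x13865 x13867 x13871 x13873 x13875
    x13883 x13885 x13889 x13891 x13893 x13897 x13899 x13907 x13909 x13911 x13915 x13917 x13923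
    x13937 x13939 x13943 x13945 x13947 x13951 x13953 x13961 x13963 x13965 x13969 x13971 x13977
    x13987 x13989 x13995 x14015 x14017 x14019 x14023 x14025 x14031 x14041 x14043 x14049 x14067
    x14099 x14101 x14105 x14107 x14109 x14113 x14115 x14123 x14125 x14127 x14131 x14133 x14139
    x14149 x14151 x14157 x14177 x14179 x14181 x14185 x14187 x14193 x14203 x14205 x14211 x14229
    x14257 x14259 x14265 x14283 x14339 x14341 x14343 x14347 x14349 x14355 x14365 x14367 x14373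
    x14391 x14419 x14421 x14427 x14445 x14499 x14585 x14587 x14591 x14593 x14595 x14599 x14601
    x14609 x14611 x14613 x14617 x14619 x14625 x14635 x14637 x14643 x14663 x14665 x14667 x14671
    x14673 x14679 x14689 x14691 x14697 x14715 x14743 x14745 x14751 x14769 x14825 x14827 x14829
    x14833 x14835 x14841 x14851 x14853 x14859 x14877 x14905 x14907 x14913 x14931 x14985 x15067
    x15069 x15075 x15093 x15147 x15317 x15323 x15325 x15329 x15331 x15333 x15341 x15343 x15347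
    x15349 x15351 x15355 x15357 x15365 x15367 x15369 x15373 x15375 x15381 x15395 x15397 x15401
    x15403 x15405 x15409 x15411 x15419 x15421 x15423 x15427 x15429 x15435 x15445 x15447 x15453
    x15473 x15475 x15477 x15481 x15483 x15489 x15499 x15501 x15507 x15525 x15557 x15559 x15563
    x15565 x15567 x15571 x15573 x15581 x15583 x15585 x15589 x15591 x15597 x15607 x15609 x15615
    x15635 x15637 x15639 x15643 x15645 x15651 x15661 x15663 x15669 x15687 x15715 x15717 x15723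
    x15741 x15797 x15799 x15801 x15805 x15807 x15813 x15823 x15825 x15831 x15849 x15877 x15879
    x15885 x15903 x15957 x16043 x16045 x16049 x16051 x16053 x16057 x16059 x16067 x16069 x16071
    x16075 x16077 x16083 x16093 x16095 x16101 x16121 x16123 x16125 x16129 x16131 x16137 x16147
    x16149 x16155 x16173 x16201 x16203 x16209 x16227 x16283 x16285 x16287 x16291 x16293 x16299
    x16309 x16311 x16317 x16335 x16363 x16365 x16371 x16389 x16443 x16525 x16527 x16533 x16551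
    x16605 x16769 x16771 x16773 x16777 x16779 x16785 x16795 x16797 x16803 x16821 x16849 x16851
    x16857 x16875 x16929 x17011 x17013 x17019 x17037 x17091 x17253 x17501 x17503 x17507 x17509
    x17511 x17515 x17517 x17525 x17527 x17529 x17533 x17535 x17541 x17551 x17553 x17559 x17579
    x17581 x17583 x17587 x17589 x17595 x17605 x17607 x17613 x17631 x17659 x17661 x17667 x17685
    x17741 x17743 x17745 x17749 x17751 x17757 x17767 x17769 x17775 x17793 x17821 x17823 x17829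
    x17847 x17901 x17983 x17985 x17991 x18009 x18063 x18227 x18229 x18231 x18235 x18237 x18243
    x18253 x18255 x18261 x18279 x18307 x18309 x18315 x18333 x18387 x18469 x18471 x18477 x18495
    x18549 x18711 x18955 x18957 x18963 x18981 x19035 x19197 : Nat) : Bool :=
  Nat.beq
    (Nat.add (Nat.add (f x53) (Nat.add (f x71) (Nat.add (f x77) (Nat.add (f x79) (Nat.add (f x107)
    (Nat.add (f x125) (Nat.add (f x131) (Nat.add (f x133) (Nat.add (f x143) (Nat.add (f x149)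
    (Nat.add (f x151) (Nat.add (f x155) (Nat.add (f x157) (Nat.add (f x159) (Nat.add (f x179)
    (Nat.add (f x185) (Nat.add (f x187) (Nat.add (f x197) (Nat.add (f x203) (Nat.add (f x205)
    (Nat.add (f x209) (Nat.add (f x211) (Nat.add (f x213) (Nat.add (f x221) (Nat.add (f x223)
    (Nat.add (f x227) (Nat.add (f x229) (Nat.add (f x231) (Nat.add (f x235) (Nat.add (f x237)
    (Nat.add (f x269) (Nat.add (f x287) (Nat.add (f x293) (Nat.add (f x295) (Nat.add (f x305)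
    (Nat.add (f x311) (Nat.add (f x313) (Nat.add (f x317) (Nat.add (f x319) (Nat.add (f x321)
    (Nat.add (f x341) (Nat.add (f x347) (Nat.add (f x349) (Nat.add (f x359) (Nat.add (f x365)
    (Nat.add (f x367) (Nat.add (f x371) (Nat.add (f x373) (Nat.add (f x375) (Nat.add (f x383)
    (Nat.add (f x385) (Nat.add (f x389) (Nat.add (f x391) (Nat.add (f x393) (Nat.add (f x397)
    (Nat.add (f x399) (Nat.add (f x413) (Nat.add (f x419) (Nat.add (f x421) (Nat.add (f x425)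
    0)))))))))))))))))))))))))))))))))))))))))))))))))))))))))))) (Nat.add (Nat.add (f x427)
    (Nat.add (f x429) (Nat.add (f x437) (Nat.add (f x439) (Nat.add (f x443) (Nat.add (f x445)
    (Nat.add (f x447) (Nat.add (f x451) (Nat.add (f x453) (Nat.add (f x461) (Nat.add (f x463)
    (Nat.add (f x465) (Nat.add (f x469) (Nat.add (f x471) (Nat.add (f x477) (Nat.add (f x503)
    (Nat.add (f x509) (Nat.add (f x511) (Nat.add (f x521) (Nat.add (f x527) (Nat.add (f x529)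
    (Nat.add (f x533) (Nat.add (f x535) (Nat.add (f x537) (Nat.add (f x545) (Nat.add (f x547)
    (Nat.add (f x551) (Nat.add (f x553) (Nat.add (f x555) (Nat.add (f x559) (Nat.add (f x561)
    (Nat.add (f x575) (Nat.add (f x581) (Nat.add (f x583) (Nat.add (f x587) (Nat.add (f x589)
    (Nat.add (f x591) (Nat.add (f x599) (Nat.add (f x601) (Nat.add (f x605) (Nat.add (f x607)
    (Nat.add (f x609) (Nat.add (f x613) (Nat.add (f x615) (Nat.add (f x623) (Nat.add (f x625)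
    (Nat.add (f x627) (Nat.add (f x631) (Nat.add (f x633) (Nat.add (f x639) (Nat.add (f x653)
    (Nat.add (f x655) (Nat.add (f x659) (Nat.add (f x661) (Nat.add (f x663) (Nat.add (f x667)
    (Nat.add (f x669) (Nat.add (f x677) (Nat.add (f x679) (Nat.add (f x681)
    0)))))))))))))))))))))))))))))))))))))))))))))))))))))))))))) (Nat.add (Nat.add (f x685)
    (Nat.add (f x687) (Nat.add (f x693) (Nat.add (f x703) (Nat.add (f x705) (Nat.add (f x711)
    (Nat.add (f x755) (Nat.add (f x773) (Nat.add (f x779) (Nat.add (f x781) (Nat.add (f x791)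
    (Nat.add (f x797) (Nat.add (f x799) (Nat.add (f x803) (Nat.add (f x805) (Nat.add (f x807)
    (Nat.add (f x827) (Nat.add (f x833) (Nat.add (f x835) (Nat.add (f x845) (Nat.add (f x851)
    (Nat.add (f x853) (Nat.add (f x857) (Nat.add (f x859) (Nat.add (f x861) (Nat.add (f x869)
    (Nat.add (f x871) (Nat.add (f x875) (Nat.add (f x877) (Nat.add (f x879) (Nat.add (f x883)
    (Nat.add (f x885) (Nat.add (f x899) (Nat.add (f x905) (Nat.add (f x907) (Nat.add (f x911)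
    (Nat.add (f x913) (Nat.add (f x915) (Nat.add (f x923) (Nat.add (f x925) (Nat.add (f x929)
    (Nat.add (f x931) (Nat.add (f x933) (Nat.add (f x937) (Nat.add (f x939) (Nat.add (f x947)
    (Nat.add (f x949) (Nat.add (f x951) (Nat.add (f x955) (Nat.add (f x957) (Nat.add (f x963)
    (Nat.add (f x989) (Nat.add (f x995) (Nat.add (f x997) (Nat.add (f x1007) (Nat.add (f x1013)
    (Nat.add (f x1015) (Nat.add (f x1019) (Nat.add (f x1021) (Nat.add (f x1023)
    0)))))))))))))))))))))))))))))))))))))))))))))))))))))))))))) (Nat.add (Nat.add (f x1031)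
    (Nat.add (f x1033) (Nat.add (f x1037) (Nat.add (f x1039) (Nat.add (f x1041) (Nat.add (f x1045)
    (Nat.add (f x1047) (Nat.add (f x1061) (Nat.add (f x1067) (Nat.add (f x1069) (Nat.add (f x1073)
    (Nat.add (f x1075) (Nat.add (f x1077) (Nat.add (f x1085) (Nat.add (f x1087) (Nat.add (f x1091)
    (Nat.add (f x1093) (Nat.add (f x1095) (Nat.add (f x1099) (Nat.add (f x1101) (Nat.add (f x1109)
    (Nat.add (f x1111) (Nat.add (f x1113) (Nat.add (f x1117) (Nat.add (f x1119) (Nat.add (f x1125)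
    (Nat.add (f x1139) (Nat.add (f x1141) (Nat.add (f x1145) (Nat.add (f x1147) (Nat.add (f x1149)
    (Nat.add (f x1153) (Nat.add (f x1155) (Nat.add (f x1163) (Nat.add (f x1165) (Nat.add (f x1167)
    (Nat.add (f x1171) (Nat.add (f x1173) (Nat.add (f x1179) (Nat.add (f x1189) (Nat.add (f x1191)
    (Nat.add (f x1197) (Nat.add (f x1223) (Nat.add (f x1229) (Nat.add (f x1231) (Nat.add (f x1235)
    (Nat.add (f x1237) (Nat.add (f x1239) (Nat.add (f x1247) (Nat.add (f x1249) (Nat.add (f x1253)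
    (Nat.add (f x1255) (Nat.add (f x1257) (Nat.add (f x1261) (Nat.add (f x1263) (Nat.add (f x1271)
    (Nat.add (f x1273) (Nat.add (f x1275) (Nat.add (f x1279) (Nat.add (f x1281)
    0)))))))))))))))))))))))))))))))))))))))))))))))))))))))))))) (Nat.add (Nat.add (f x1287)
    (Nat.add (f x1301) (Nat.add (f x1303) (Nat.add (f x1307) (Nat.add (f x1309) (Nat.add (f x1311)
    (Nat.add (f x1315) (Nat.add (f x1317) (Nat.add (f x1325) (Nat.add (f x1327) (Nat.add (f x1329)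
    (Nat.add (f x1333) (Nat.add (f x1335) (Nat.add (f x1341) (Nat.add (f x1351) (Nat.add (f x1353)
    (Nat.add (f x1359) (Nat.add (f x1379) (Nat.add (f x1381) (Nat.add (f x1383) (Nat.add (f x1387)
    (Nat.add (f x1389) (Nat.add (f x1395) (Nat.add (f x1405) (Nat.add (f x1407) (Nat.add (f x1413)
    (Nat.add (f x1431) (Nat.add (f x1475) (Nat.add (f x1481) (Nat.add (f x1483) (Nat.add (f x1493)
    (Nat.add (f x1499) (Nat.add (f x1501) (Nat.add (f x1505) (Nat.add (f x1507) (Nat.add (f x1509)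
    (Nat.add (f x1517) (Nat.add (f x1519) (Nat.add (f x1523) (Nat.add (f x1525) (Nat.add (f x1527)
    (Nat.add (f x1531) (Nat.add (f x1533) (Nat.add (f x1547) (Nat.add (f x1553) (Nat.add (f x1555)
    (Nat.add (f x1559) (Nat.add (f x1561) (Nat.add (f x1563) (Nat.add (f x1571) (Nat.add (f x1573)
    (Nat.add (f x1577) (Nat.add (f x1579) (Nat.add (f x1581) (Nat.add (f x1585) (Nat.add (f x1587)
    (Nat.add (f x1595) (Nat.add (f x1597) (Nat.add (f x1599) (Nat.add (f x1603)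
    0)))))))))))))))))))))))))))))))))))))))))))))))))))))))))))) (Nat.add (Nat.add (f x1605)
    (Nat.add (f x1611) (Nat.add (f x1625) (Nat.add (f x1627) (Nat.add (f x1631) (Nat.add (f x1633)
    (Nat.add (f x1635) (Nat.add (f x1639) (Nat.add (f x1641) (Nat.add (f x1649) (Nat.add (f x1651)
    (Nat.add (f x1653) (Nat.add (f x1657) (Nat.add (f x1659) (Nat.add (f x1665) (Nat.add (f x1675)
    (Nat.add (f x1677) (Nat.add (f x1683) (Nat.add (f x1709) (Nat.add (f x1715) (Nat.add (f x1717)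
    (Nat.add (f x1721) (Nat.add (f x1723) (Nat.add (f x1725) (Nat.add (f x1733) (Nat.add (f x1735)
    (Nat.add (f x1739) (Nat.add (f x1741) (Nat.add (f x1743) (Nat.add (f x1747) (Nat.add (f x1749)
    (Nat.add (f x1757) (Nat.add (f x1759) (Nat.add (f x1761) (Nat.add (f x1765) (Nat.add (f x1767)
    (Nat.add (f x1773) (Nat.add (f x1787) (Nat.add (f x1789) (Nat.add (f x1793) (Nat.add (f x1795)
    (Nat.add (f x1797) (Nat.add (f x1801) (Nat.add (f x1803) (Nat.add (f x1811) (Nat.add (f x1813)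
    (Nat.add (f x1815) (Nat.add (f x1819) (Nat.add (f x1821) (Nat.add (f x1827) (Nat.add (f x1837)
    (Nat.add (f x1839) (Nat.add (f x1845) (Nat.add (f x1865) (Nat.add (f x1867) (Nat.add (f x1869)
    (Nat.add (f x1873) (Nat.add (f x1875) (Nat.add (f x1881) (Nat.add (f x1891)
    0)))))))))))))))))))))))))))))))))))))))))))))))))))))))))))) (Nat.add (Nat.add (f x1893)
    (Nat.add (f x1899) (Nat.add (f x1917) (Nat.add (f x1949) (Nat.add (f x1951) (Nat.add (f x1955)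
    (Nat.add (f x1957) (Nat.add (f x1959) (Nat.add (f x1963) (Nat.add (f x1965) (Nat.add (f x1973)
    (Nat.add (f x1975) (Nat.add (f x1977) (Nat.add (f x1981) (Nat.add (f x1983) (Nat.add (f x1989)
    (Nat.add (f x1999) (Nat.add (f x2001) (Nat.add (f x2007) (Nat.add (f x2027) (Nat.add (f x2029)
    (Nat.add (f x2031) (Nat.add (f x2035) (Nat.add (f x2037) (Nat.add (f x2043) (Nat.add (f x2053)
    (Nat.add (f x2055) (Nat.add (f x2061) (Nat.add (f x2079) (Nat.add (f x2107) (Nat.add (f x2109)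
    (Nat.add (f x2115) (Nat.add (f x2133) (Nat.add (f x2213) (Nat.add (f x2231) (Nat.add (f x2237)
    (Nat.add (f x2239) (Nat.add (f x2249) (Nat.add (f x2255) (Nat.add (f x2257) (Nat.add (f x2261)
    (Nat.add (f x2263) (Nat.add (f x2265) (Nat.add (f x2285) (Nat.add (f x2291) (Nat.add (f x2293)
    (Nat.add (f x2303) (Nat.add (f x2309) (Nat.add (f x2311) (Nat.add (f x2315) (Nat.add (f x2317)
    (Nat.add (f x2319) (Nat.add (f x2327) (Nat.add (f x2329) (Nat.add (f x2333) (Nat.add (f x2335)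
    (Nat.add (f x2337) (Nat.add (f x2341) (Nat.add (f x2343) (Nat.add (f x2357)
    0)))))))))))))))))))))))))))))))))))))))))))))))))))))))))))) (Nat.add (Nat.add (f x2363)
    (Nat.add (f x2365) (Nat.add (f x2369) (Nat.add (f x2371) (Nat.add (f x2373) (Nat.add (f x2381)
    (Nat.add (f x2383) (Nat.add (f x2387) (Nat.add (f x2389) (Nat.add (f x2391) (Nat.add (f x2395)
    (Nat.add (f x2397) (Nat.add (f x2405) (Nat.add (f x2407) (Nat.add (f x2409) (Nat.add (f x2413)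
    (Nat.add (f x2415) (Nat.add (f x2421) (Nat.add (f x2447) (Nat.add (f x2453) (Nat.add (f x2455)
    (Nat.add (f x2465) (Nat.add (f x2471) (Nat.add (f x2473) (Nat.add (f x2477) (Nat.add (f x2479)
    (Nat.add (f x2481) (Nat.add (f x2489) (Nat.add (f x2491) (Nat.add (f x2495) (Nat.add (f x2497)
    (Nat.add (f x2499) (Nat.add (f x2503) (Nat.add (f x2505) (Nat.add (f x2519) (Nat.add (f x2525)
    (Nat.add (f x2527) (Nat.add (f x2531) (Nat.add (f x2533) (Nat.add (f x2535) (Nat.add (f x2543)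
    (Nat.add (f x2545) (Nat.add (f x2549) (Nat.add (f x2551) (Nat.add (f x2553) (Nat.add (f x2557)
    (Nat.add (f x2559) (Nat.add (f x2567) (Nat.add (f x2569) (Nat.add (f x2571) (Nat.add (f x2575)
    (Nat.add (f x2577) (Nat.add (f x2583) (Nat.add (f x2597) (Nat.add (f x2599) (Nat.add (f x2603)
    (Nat.add (f x2605) (Nat.add (f x2607) (Nat.add (f x2611) (Nat.add (f x2613)
    0)))))))))))))))))))))))))))))))))))))))))))))))))))))))))))) (Nat.add (Nat.add (f x2621)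
    (Nat.add (f x2623) (Nat.add (f x2625) (Nat.add (f x2629) (Nat.add (f x2631) (Nat.add (f x2637)
    (Nat.add (f x2647) (Nat.add (f x2649) (Nat.add (f x2655) (Nat.add (f x2681) (Nat.add (f x2687)
    (Nat.add (f x2689) (Nat.add (f x2693) (Nat.add (f x2695) (Nat.add (f x2697) (Nat.add (f x2705)
    (Nat.add (f x2707) (Nat.add (f x2711) (Nat.add (f x2713) (Nat.add (f x2715) (Nat.add (f x2719)
    (Nat.add (f x2721) (Nat.add (f x2729) (Nat.add (f x2731) (Nat.add (f x2733) (Nat.add (f x2737)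
    (Nat.add (f x2739) (Nat.add (f x2745) (Nat.add (f x2759) (Nat.add (f x2761) (Nat.add (f x2765)
    (Nat.add (f x2767) (Nat.add (f x2769) (Nat.add (f x2773) (Nat.add (f x2775) (Nat.add (f x2783)
    (Nat.add (f x2785) (Nat.add (f x2787) (Nat.add (f x2791) (Nat.add (f x2793) (Nat.add (f x2799)
    (Nat.add (f x2809) (Nat.add (f x2811) (Nat.add (f x2817) (Nat.add (f x2837) (Nat.add (f x2839)
    (Nat.add (f x2841) (Nat.add (f x2845) (Nat.add (f x2847) (Nat.add (f x2853) (Nat.add (f x2863)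
    (Nat.add (f x2865) (Nat.add (f x2871) (Nat.add (f x2889) (Nat.add (f x2933) (Nat.add (f x2939)
    (Nat.add (f x2941) (Nat.add (f x2951) (Nat.add (f x2957) (Nat.add (f x2959)
    0)))))))))))))))))))))))))))))))))))))))))))))))))))))))))))) (Nat.add (Nat.add (f x2963)
    (Nat.add (f x2965) (Nat.add (f x2967) (Nat.add (f x2975) (Nat.add (f x2977) (Nat.add (f x2981)
    (Nat.add (f x2983) (Nat.add (f x2985) (Nat.add (f x2989) (Nat.add (f x2991) (Nat.add (f x3005)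
    (Nat.add (f x3011) (Nat.add (f x3013) (Nat.add (f x3017) (Nat.add (f x3019) (Nat.add (f x3021)
    (Nat.add (f x3029) (Nat.add (f x3031) (Nat.add (f x3035) (Nat.add (f x3037) (Nat.add (f x3039)
    (Nat.add (f x3043) (Nat.add (f x3045) (Nat.add (f x3053) (Nat.add (f x3055) (Nat.add (f x3057)
    (Nat.add (f x3061) (Nat.add (f x3063) (Nat.add (f x3069) (Nat.add (f x3083) (Nat.add (f x3085)
    (Nat.add (f x3089) (Nat.add (f x3091) (Nat.add (f x3093) (Nat.add (f x3097) (Nat.add (f x3099)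
    (Nat.add (f x3107) (Nat.add (f x3109) (Nat.add (f x3111) (Nat.add (f x3115) (Nat.add (f x3117)
    (Nat.add (f x3123) (Nat.add (f x3133) (Nat.add (f x3135) (Nat.add (f x3141) (Nat.add (f x3167)
    (Nat.add (f x3173) (Nat.add (f x3175) (Nat.add (f x3179) (Nat.add (f x3181) (Nat.add (f x3183)
    (Nat.add (f x3191) (Nat.add (f x3193) (Nat.add (f x3197) (Nat.add (f x3199) (Nat.add (f x3201)
    (Nat.add (f x3205) (Nat.add (f x3207) (Nat.add (f x3215) (Nat.add (f x3217)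
    0)))))))))))))))))))))))))))))))))))))))))))))))))))))))))))) (Nat.add (Nat.add (f x3219)
    (Nat.add (f x3223) (Nat.add (f x3225) (Nat.add (f x3231) (Nat.add (f x3245) (Nat.add (f x3247)
    (Nat.add (f x3251) (Nat.add (f x3253) (Nat.add (f x3255) (Nat.add (f x3259) (Nat.add (f x3261)
    (Nat.add (f x3269) (Nat.add (f x3271) (Nat.add (f x3273) (Nat.add (f x3277) (Nat.add (f x3279)
    (Nat.add (f x3285) (Nat.add (f x3295) (Nat.add (f x3297) (Nat.add (f x3303) (Nat.add (f x3323)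
    (Nat.add (f x3325) (Nat.add (f x3327) (Nat.add (f x3331) (Nat.add (f x3333) (Nat.add (f x3339)
    (Nat.add (f x3349) (Nat.add (f x3351) (Nat.add (f x3357) (Nat.add (f x3375) (Nat.add (f x3407)
    (Nat.add (f x3409) (Nat.add (f x3413) (Nat.add (f x3415) (Nat.add (f x3417) (Nat.add (f x3421)
    (Nat.add (f x3423) (Nat.add (f x3431) (Nat.add (f x3433) (Nat.add (f x3435) (Nat.add (f x3439)
    (Nat.add (f x3441) (Nat.add (f x3447) (Nat.add (f x3457) (Nat.add (f x3459) (Nat.add (f x3465)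
    (Nat.add (f x3485) (Nat.add (f x3487) (Nat.add (f x3489) (Nat.add (f x3493) (Nat.add (f x3495)
    (Nat.add (f x3501) (Nat.add (f x3511) (Nat.add (f x3513) (Nat.add (f x3519) (Nat.add (f x3537)
    (Nat.add (f x3565) (Nat.add (f x3567) (Nat.add (f x3573) (Nat.add (f x3591)
    0)))))))))))))))))))))))))))))))))))))))))))))))))))))))))))) (Nat.add (Nat.add (f x3653)
    (Nat.add (f x3659) (Nat.add (f x3661) (Nat.add (f x3665) (Nat.add (f x3667) (Nat.add (f x3669)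
    (Nat.add (f x3677) (Nat.add (f x3679) (Nat.add (f x3683) (Nat.add (f x3685) (Nat.add (f x3687)
    (Nat.add (f x3691) (Nat.add (f x3693) (Nat.add (f x3701) (Nat.add (f x3703) (Nat.add (f x3705)
    (Nat.add (f x3709) (Nat.add (f x3711) (Nat.add (f x3717) (Nat.add (f x3731) (Nat.add (f x3733)
    (Nat.add (f x3737) (Nat.add (f x3739) (Nat.add (f x3741) (Nat.add (f x3745) (Nat.add (f x3747)
    (Nat.add (f x3755) (Nat.add (f x3757) (Nat.add (f x3759) (Nat.add (f x3763) (Nat.add (f x3765)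
    (Nat.add (f x3771) (Nat.add (f x3781) (Nat.add (f x3783) (Nat.add (f x3789) (Nat.add (f x3809)
    (Nat.add (f x3811) (Nat.add (f x3813) (Nat.add (f x3817) (Nat.add (f x3819) (Nat.add (f x3825)
    (Nat.add (f x3835) (Nat.add (f x3837) (Nat.add (f x3843) (Nat.add (f x3861) (Nat.add (f x3893)
    (Nat.add (f x3895) (Nat.add (f x3899) (Nat.add (f x3901) (Nat.add (f x3903) (Nat.add (f x3907)
    (Nat.add (f x3909) (Nat.add (f x3917) (Nat.add (f x3919) (Nat.add (f x3921) (Nat.add (f x3925)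
    (Nat.add (f x3927) (Nat.add (f x3933) (Nat.add (f x3943) (Nat.add (f x3945)
    0)))))))))))))))))))))))))))))))))))))))))))))))))))))))))))) (Nat.add (Nat.add (f x3951)
    (Nat.add (f x3971) (Nat.add (f x3973) (Nat.add (f x3975) (Nat.add (f x3979) (Nat.add (f x3981)
    (Nat.add (f x3987) (Nat.add (f x3997) (Nat.add (f x3999) (Nat.add (f x4005) (Nat.add (f x4023)
    (Nat.add (f x4051) (Nat.add (f x4053) (Nat.add (f x4059) (Nat.add (f x4077) (Nat.add (f x4133)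
    (Nat.add (f x4135) (Nat.add (f x4137) (Nat.add (f x4141) (Nat.add (f x4143) (Nat.add (f x4149)
    (Nat.add (f x4159) (Nat.add (f x4161) (Nat.add (f x4167) (Nat.add (f x4185) (Nat.add (f x4213)
    (Nat.add (f x4215) (Nat.add (f x4221) (Nat.add (f x4239) (Nat.add (f x4293) (Nat.add (f x4391)
    (Nat.add (f x4397) (Nat.add (f x4399) (Nat.add (f x4409) (Nat.add (f x4415) (Nat.add (f x4417)
    (Nat.add (f x4421) (Nat.add (f x4423) (Nat.add (f x4425) (Nat.add (f x4433) (Nat.add (f x4435)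
    (Nat.add (f x4439) (Nat.add (f x4441) (Nat.add (f x4443) (Nat.add (f x4447) (Nat.add (f x4449)
    (Nat.add (f x4463) (Nat.add (f x4469) (Nat.add (f x4471) (Nat.add (f x4475) (Nat.add (f x4477)
    (Nat.add (f x4479) (Nat.add (f x4487) (Nat.add (f x4489) (Nat.add (f x4493) (Nat.add (f x4495)
    (Nat.add (f x4497) (Nat.add (f x4501) (Nat.add (f x4503) (Nat.add (f x4511)
    0)))))))))))))))))))))))))))))))))))))))))))))))))))))))))))) (Nat.add (Nat.add (f x4513)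
    (Nat.add (f x4515) (Nat.add (f x4519) (Nat.add (f x4521) (Nat.add (f x4527) (Nat.add (f x4541)
    (Nat.add (f x4543) (Nat.add (f x4547) (Nat.add (f x4549) (Nat.add (f x4551) (Nat.add (f x4555)
    (Nat.add (f x4557) (Nat.add (f x4565) (Nat.add (f x4567) (Nat.add (f x4569) (Nat.add (f x4573)
    (Nat.add (f x4575) (Nat.add (f x4581) (Nat.add (f x4591) (Nat.add (f x4593) (Nat.add (f x4599)
    (Nat.add (f x4625) (Nat.add (f x4631) (Nat.add (f x4633) (Nat.add (f x4637) (Nat.add (f x4639)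
    (Nat.add (f x4641) (Nat.add (f x4649) (Nat.add (f x4651) (Nat.add (f x4655) (Nat.add (f x4657)
    (Nat.add (f x4659) (Nat.add (f x4663) (Nat.add (f x4665) (Nat.add (f x4673) (Nat.add (f x4675)
    (Nat.add (f x4677) (Nat.add (f x4681) (Nat.add (f x4683) (Nat.add (f x4689) (Nat.add (f x4703)
    (Nat.add (f x4705) (Nat.add (f x4709) (Nat.add (f x4711) (Nat.add (f x4713) (Nat.add (f x4717)
    (Nat.add (f x4719) (Nat.add (f x4727) (Nat.add (f x4729) (Nat.add (f x4731) (Nat.add (f x4735)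
    (Nat.add (f x4737) (Nat.add (f x4743) (Nat.add (f x4753) (Nat.add (f x4755) (Nat.add (f x4761)
    (Nat.add (f x4781) (Nat.add (f x4783) (Nat.add (f x4785) (Nat.add (f x4789)
    0)))))))))))))))))))))))))))))))))))))))))))))))))))))))))))) (Nat.add (Nat.add (f x4791)
    (Nat.add (f x4797) (Nat.add (f x4807) (Nat.add (f x4809) (Nat.add (f x4815) (Nat.add (f x4833)
    (Nat.add (f x4865) (Nat.add (f x4867) (Nat.add (f x4871) (Nat.add (f x4873) (Nat.add (f x4875)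
    (Nat.add (f x4879) (Nat.add (f x4881) (Nat.add (f x4889) (Nat.add (f x4891) (Nat.add (f x4893)
    (Nat.add (f x4897) (Nat.add (f x4899) (Nat.add (f x4905) (Nat.add (f x4915) (Nat.add (f x4917)
    (Nat.add (f x4923) (Nat.add (f x4943) (Nat.add (f x4945) (Nat.add (f x4947) (Nat.add (f x4951)
    (Nat.add (f x4953) (Nat.add (f x4959) (Nat.add (f x4969) (Nat.add (f x4971) (Nat.add (f x4977)
    (Nat.add (f x4995) (Nat.add (f x5023) (Nat.add (f x5025) (Nat.add (f x5031) (Nat.add (f x5049)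
    (Nat.add (f x5111) (Nat.add (f x5117) (Nat.add (f x5119) (Nat.add (f x5123) (Nat.add (f x5125)
    (Nat.add (f x5127) (Nat.add (f x5135) (Nat.add (f x5137) (Nat.add (f x5141) (Nat.add (f x5143)
    (Nat.add (f x5145) (Nat.add (f x5149) (Nat.add (f x5151) (Nat.add (f x5159) (Nat.add (f x5161)
    (Nat.add (f x5163) (Nat.add (f x5167) (Nat.add (f x5169) (Nat.add (f x5175) (Nat.add (f x5189)
    (Nat.add (f x5191) (Nat.add (f x5195) (Nat.add (f x5197) (Nat.add (f x5199)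
    0)))))))))))))))))))))))))))))))))))))))))))))))))))))))))))) (Nat.add (Nat.add (f x5203)
    (Nat.add (f x5205) (Nat.add (f x5213) (Nat.add (f x5215) (Nat.add (f x5217) (Nat.add (f x5221)
    (Nat.add (f x5223) (Nat.add (f x5229) (Nat.add (f x5239) (Nat.add (f x5241) (Nat.add (f x5247)
    (Nat.add (f x5267) (Nat.add (f x5269) (Nat.add (f x5271) (Nat.add (f x5275) (Nat.add (f x5277)
    (Nat.add (f x5283) (Nat.add (f x5293) (Nat.add (f x5295) (Nat.add (f x5301) (Nat.add (f x5319)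
    (Nat.add (f x5351) (Nat.add (f x5353) (Nat.add (f x5357) (Nat.add (f x5359) (Nat.add (f x5361)
    (Nat.add (f x5365) (Nat.add (f x5367) (Nat.add (f x5375) (Nat.add (f x5377) (Nat.add (f x5379)
    (Nat.add (f x5383) (Nat.add (f x5385) (Nat.add (f x5391) (Nat.add (f x5401) (Nat.add (f x5403)
    (Nat.add (f x5409) (Nat.add (f x5429) (Nat.add (f x5431) (Nat.add (f x5433) (Nat.add (f x5437)
    (Nat.add (f x5439) (Nat.add (f x5445) (Nat.add (f x5455) (Nat.add (f x5457) (Nat.add (f x5463)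
    (Nat.add (f x5481) (Nat.add (f x5509) (Nat.add (f x5511) (Nat.add (f x5517) (Nat.add (f x5535)
    (Nat.add (f x5591) (Nat.add (f x5593) (Nat.add (f x5595) (Nat.add (f x5599) (Nat.add (f x5601)
    (Nat.add (f x5607) (Nat.add (f x5617) (Nat.add (f x5619) (Nat.add (f x5625)
    0)))))))))))))))))))))))))))))))))))))))))))))))))))))))))))) (Nat.add (Nat.add (f x5643)
    (Nat.add (f x5671) (Nat.add (f x5673) (Nat.add (f x5679) (Nat.add (f x5697) (Nat.add (f x5751)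
    (Nat.add (f x5837) (Nat.add (f x5839) (Nat.add (f x5843) (Nat.add (f x5845) (Nat.add (f x5847)
    (Nat.add (f x5851) (Nat.add (f x5853) (Nat.add (f x5861) (Nat.add (f x5863) (Nat.add (f x5865)
    (Nat.add (f x5869) (Nat.add (f x5871) (Nat.add (f x5877) (Nat.add (f x5887) (Nat.add (f x5889)
    (Nat.add (f x5895) (Nat.add (f x5915) (Nat.add (f x5917) (Nat.add (f x5919) (Nat.add (f x5923)
    (Nat.add (f x5925) (Nat.add (f x5931) (Nat.add (f x5941) (Nat.add (f x5943) (Nat.add (f x5949)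
    (Nat.add (f x5967) (Nat.add (f x5995) (Nat.add (f x5997) (Nat.add (f x6003) (Nat.add (f x6021)
    (Nat.add (f x6077) (Nat.add (f x6079) (Nat.add (f x6081) (Nat.add (f x6085) (Nat.add (f x6087)
    (Nat.add (f x6093) (Nat.add (f x6103) (Nat.add (f x6105) (Nat.add (f x6111) (Nat.add (f x6129)
    (Nat.add (f x6157) (Nat.add (f x6159) (Nat.add (f x6165) (Nat.add (f x6183) (Nat.add (f x6237)
    (Nat.add (f x6319) (Nat.add (f x6321) (Nat.add (f x6327) (Nat.add (f x6345) (Nat.add (f x6399)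
    (Nat.add (f x6587) (Nat.add (f x6605) (Nat.add (f x6611) (Nat.add (f x6613)
    0)))))))))))))))))))))))))))))))))))))))))))))))))))))))))))) (Nat.add (Nat.add (f x6623)
    (Nat.add (f x6629) (Nat.add (f x6631) (Nat.add (f x6635) (Nat.add (f x6637) (Nat.add (f x6639)
    (Nat.add (f x6659) (Nat.add (f x6665) (Nat.add (f x6667) (Nat.add (f x6677) (Nat.add (f x6683)
    (Nat.add (f x6685) (Nat.add (f x6689) (Nat.add (f x6691) (Nat.add (f x6693) (Nat.add (f x6701)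
    (Nat.add (f x6703) (Nat.add (f x6707) (Nat.add (f x6709) (Nat.add (f x6711) (Nat.add (f x6715)
    (Nat.add (f x6717) (Nat.add (f x6731) (Nat.add (f x6737) (Nat.add (f x6739) (Nat.add (f x6743)
    (Nat.add (f x6745) (Nat.add (f x6747) (Nat.add (f x6755) (Nat.add (f x6757) (Nat.add (f x6761)
    (Nat.add (f x6763) (Nat.add (f x6765) (Nat.add (f x6769) (Nat.add (f x6771) (Nat.add (f x6779)
    (Nat.add (f x6781) (Nat.add (f x6783) (Nat.add (f x6787) (Nat.add (f x6789) (Nat.add (f x6795)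
    (Nat.add (f x6821) (Nat.add (f x6827) (Nat.add (f x6829) (Nat.add (f x6839) (Nat.add (f x6845)
    (Nat.add (f x6847) (Nat.add (f x6851) (Nat.add (f x6853) (Nat.add (f x6855) (Nat.add (f x6863)
    (Nat.add (f x6865) (Nat.add (f x6869) (Nat.add (f x6871) (Nat.add (f x6873) (Nat.add (f x6877)
    (Nat.add (f x6879) (Nat.add (f x6893) (Nat.add (f x6899) (Nat.add (f x6901)
    0)))))))))))))))))))))))))))))))))))))))))))))))))))))))))))) (Nat.add (Nat.add (f x6905)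
    (Nat.add (f x6907) (Nat.add (f x6909) (Nat.add (f x6917) (Nat.add (f x6919) (Nat.add (f x6923)
    (Nat.add (f x6925) (Nat.add (f x6927) (Nat.add (f x6931) (Nat.add (f x6933) (Nat.add (f x6941)
    (Nat.add (f x6943) (Nat.add (f x6945) (Nat.add (f x6949) (Nat.add (f x6951) (Nat.add (f x6957)
    (Nat.add (f x6971) (Nat.add (f x6973) (Nat.add (f x6977) (Nat.add (f x6979) (Nat.add (f x6981)
    (Nat.add (f x6985) (Nat.add (f x6987) (Nat.add (f x6995) (Nat.add (f x6997) (Nat.add (f x6999)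
    (Nat.add (f x7003) (Nat.add (f x7005) (Nat.add (f x7011) (Nat.add (f x7021) (Nat.add (f x7023)
    (Nat.add (f x7029) (Nat.add (f x7055) (Nat.add (f x7061) (Nat.add (f x7063) (Nat.add (f x7067)
    (Nat.add (f x7069) (Nat.add (f x7071) (Nat.add (f x7079) (Nat.add (f x7081) (Nat.add (f x7085)
    (Nat.add (f x7087) (Nat.add (f x7089) (Nat.add (f x7093) (Nat.add (f x7095) (Nat.add (f x7103)
    (Nat.add (f x7105) (Nat.add (f x7107) (Nat.add (f x7111) (Nat.add (f x7113) (Nat.add (f x7119)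
    (Nat.add (f x7133) (Nat.add (f x7135) (Nat.add (f x7139) (Nat.add (f x7141) (Nat.add (f x7143)
    (Nat.add (f x7147) (Nat.add (f x7149) (Nat.add (f x7157) (Nat.add (f x7159)
    0)))))))))))))))))))))))))))))))))))))))))))))))))))))))))))) (Nat.add (Nat.add (f x7161)
    (Nat.add (f x7165) (Nat.add (f x7167) (Nat.add (f x7173) (Nat.add (f x7183) (Nat.add (f x7185)
    (Nat.add (f x7191) (Nat.add (f x7211) (Nat.add (f x7213) (Nat.add (f x7215) (Nat.add (f x7219)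
    (Nat.add (f x7221) (Nat.add (f x7227) (Nat.add (f x7237) (Nat.add (f x7239) (Nat.add (f x7245)
    (Nat.add (f x7263) (Nat.add (f x7307) (Nat.add (f x7313) (Nat.add (f x7315) (Nat.add (f x7325)
    (Nat.add (f x7331) (Nat.add (f x7333) (Nat.add (f x7337) (Nat.add (f x7339) (Nat.add (f x7341)
    (Nat.add (f x7349) (Nat.add (f x7351) (Nat.add (f x7355) (Nat.add (f x7357) (Nat.add (f x7359)
    (Nat.add (f x7363) (Nat.add (f x7365) (Nat.add (f x7379) (Nat.add (f x7385) (Nat.add (f x7387)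
    (Nat.add (f x7391) (Nat.add (f x7393) (Nat.add (f x7395) (Nat.add (f x7403) (Nat.add (f x7405)
    (Nat.add (f x7409) (Nat.add (f x7411) (Nat.add (f x7413) (Nat.add (f x7417) (Nat.add (f x7419)
    (Nat.add (f x7427) (Nat.add (f x7429) (Nat.add (f x7431) (Nat.add (f x7435) (Nat.add (f x7437)
    (Nat.add (f x7443) (Nat.add (f x7457) (Nat.add (f x7459) (Nat.add (f x7463) (Nat.add (f x7465)
    (Nat.add (f x7467) (Nat.add (f x7471) (Nat.add (f x7473) (Nat.add (f x7481)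
    0)))))))))))))))))))))))))))))))))))))))))))))))))))))))))))) (Nat.add (Nat.add (f x7483)
    (Nat.add (f x7485) (Nat.add (f x7489) (Nat.add (f x7491) (Nat.add (f x7497) (Nat.add (f x7507)
    (Nat.add (f x7509) (Nat.add (f x7515) (Nat.add (f x7541) (Nat.add (f x7547) (Nat.add (f x7549)
    (Nat.add (f x7553) (Nat.add (f x7555) (Nat.add (f x7557) (Nat.add (f x7565) (Nat.add (f x7567)
    (Nat.add (f x7571) (Nat.add (f x7573) (Nat.add (f x7575) (Nat.add (f x7579) (Nat.add (f x7581)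
    (Nat.add (f x7589) (Nat.add (f x7591) (Nat.add (f x7593) (Nat.add (f x7597) (Nat.add (f x7599)
    (Nat.add (f x7605) (Nat.add (f x7619) (Nat.add (f x7621) (Nat.add (f x7625) (Nat.add (f x7627)
    (Nat.add (f x7629) (Nat.add (f x7633) (Nat.add (f x7635) (Nat.add (f x7643) (Nat.add (f x7645)
    (Nat.add (f x7647) (Nat.add (f x7651) (Nat.add (f x7653) (Nat.add (f x7659) (Nat.add (f x7669)
    (Nat.add (f x7671) (Nat.add (f x7677) (Nat.add (f x7697) (Nat.add (f x7699) (Nat.add (f x7701)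
    (Nat.add (f x7705) (Nat.add (f x7707) (Nat.add (f x7713) (Nat.add (f x7723) (Nat.add (f x7725)
    (Nat.add (f x7731) (Nat.add (f x7749) (Nat.add (f x7781) (Nat.add (f x7783) (Nat.add (f x7787)
    (Nat.add (f x7789) (Nat.add (f x7791) (Nat.add (f x7795) (Nat.add (f x7797)
    0)))))))))))))))))))))))))))))))))))))))))))))))))))))))))))) (Nat.add (Nat.add (f x7805)
    (Nat.add (f x7807) (Nat.add (f x7809) (Nat.add (f x7813) (Nat.add (f x7815) (Nat.add (f x7821)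
    (Nat.add (f x7831) (Nat.add (f x7833) (Nat.add (f x7839) (Nat.add (f x7859) (Nat.add (f x7861)
    (Nat.add (f x7863) (Nat.add (f x7867) (Nat.add (f x7869) (Nat.add (f x7875) (Nat.add (f x7885)
    (Nat.add (f x7887) (Nat.add (f x7893) (Nat.add (f x7911) (Nat.add (f x7939) (Nat.add (f x7941)
    (Nat.add (f x7947) (Nat.add (f x7965) (Nat.add (f x8027) (Nat.add (f x8033) (Nat.add (f x8035)
    (Nat.add (f x8039) (Nat.add (f x8041) (Nat.add (f x8043) (Nat.add (f x8051) (Nat.add (f x8053)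
    (Nat.add (f x8057) (Nat.add (f x8059) (Nat.add (f x8061) (Nat.add (f x8065) (Nat.add (f x8067)
    (Nat.add (f x8075) (Nat.add (f x8077) (Nat.add (f x8079) (Nat.add (f x8083) (Nat.add (f x8085)
    (Nat.add (f x8091) (Nat.add (f x8105) (Nat.add (f x8107) (Nat.add (f x8111) (Nat.add (f x8113)
    (Nat.add (f x8115) (Nat.add (f x8119) (Nat.add (f x8121) (Nat.add (f x8129) (Nat.add (f x8131)
    (Nat.add (f x8133) (Nat.add (f x8137) (Nat.add (f x8139) (Nat.add (f x8145) (Nat.add (f x8155)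
    (Nat.add (f x8157) (Nat.add (f x8163) (Nat.add (f x8183) (Nat.add (f x8185)
    0)))))))))))))))))))))))))))))))))))))))))))))))))))))))))))) (Nat.add (Nat.add (f x8187)
    (Nat.add (f x8191) (Nat.add (f x8193) (Nat.add (f x8199) (Nat.add (f x8209) (Nat.add (f x8211)
    (Nat.add (f x8217) (Nat.add (f x8235) (Nat.add (f x8267) (Nat.add (f x8269) (Nat.add (f x8273)
    (Nat.add (f x8275) (Nat.add (f x8277) (Nat.add (f x8281) (Nat.add (f x8283) (Nat.add (f x8291)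
    (Nat.add (f x8293) (Nat.add (f x8295) (Nat.add (f x8299) (Nat.add (f x8301) (Nat.add (f x8307)
    (Nat.add (f x8317) (Nat.add (f x8319) (Nat.add (f x8325) (Nat.add (f x8345) (Nat.add (f x8347)
    (Nat.add (f x8349) (Nat.add (f x8353) (Nat.add (f x8355) (Nat.add (f x8361) (Nat.add (f x8371)
    (Nat.add (f x8373) (Nat.add (f x8379) (Nat.add (f x8397) (Nat.add (f x8425) (Nat.add (f x8427)
    (Nat.add (f x8433) (Nat.add (f x8451) (Nat.add (f x8507) (Nat.add (f x8509) (Nat.add (f x8511)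
    (Nat.add (f x8515) (Nat.add (f x8517) (Nat.add (f x8523) (Nat.add (f x8533) (Nat.add (f x8535)
    (Nat.add (f x8541) (Nat.add (f x8559) (Nat.add (f x8587) (Nat.add (f x8589) (Nat.add (f x8595)
    (Nat.add (f x8613) (Nat.add (f x8667) (Nat.add (f x8765) (Nat.add (f x8771) (Nat.add (f x8773)
    (Nat.add (f x8783) (Nat.add (f x8789) (Nat.add (f x8791) (Nat.add (f x8795)
    0)))))))))))))))))))))))))))))))))))))))))))))))))))))))))))) (Nat.add (Nat.add (f x8797)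
    (Nat.add (f x8799) (Nat.add (f x8807) (Nat.add (f x8809) (Nat.add (f x8813) (Nat.add (f x8815)
    (Nat.add (f x8817) (Nat.add (f x8821) (Nat.add (f x8823) (Nat.add (f x8837) (Nat.add (f x8843)
    (Nat.add (f x8845) (Nat.add (f x8849) (Nat.add (f x8851) (Nat.add (f x8853) (Nat.add (f x8861)
    (Nat.add (f x8863) (Nat.add (f x8867) (Nat.add (f x8869) (Nat.add (f x8871) (Nat.add (f x8875)
    (Nat.add (f x8877) (Nat.add (f x8885) (Nat.add (f x8887) (Nat.add (f x8889) (Nat.add (f x8893)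
    (Nat.add (f x8895) (Nat.add (f x8901) (Nat.add (f x8915) (Nat.add (f x8917) (Nat.add (f x8921)
    (Nat.add (f x8923) (Nat.add (f x8925) (Nat.add (f x8929) (Nat.add (f x8931) (Nat.add (f x8939)
    (Nat.add (f x8941) (Nat.add (f x8943) (Nat.add (f x8947) (Nat.add (f x8949) (Nat.add (f x8955)
    (Nat.add (f x8965) (Nat.add (f x8967) (Nat.add (f x8973) (Nat.add (f x8999) (Nat.add (f x9005)
    (Nat.add (f x9007) (Nat.add (f x9011) (Nat.add (f x9013) (Nat.add (f x9015) (Nat.add (f x9023)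
    (Nat.add (f x9025) (Nat.add (f x9029) (Nat.add (f x9031) (Nat.add (f x9033) (Nat.add (f x9037)
    (Nat.add (f x9039) (Nat.add (f x9047) (Nat.add (f x9049) (Nat.add (f x9051)
    0)))))))))))))))))))))))))))))))))))))))))))))))))))))))))))) (Nat.add (Nat.add (f x9055)
    (Nat.add (f x9057) (Nat.add (f x9063) (Nat.add (f x9077) (Nat.add (f x9079) (Nat.add (f x9083)
    (Nat.add (f x9085) (Nat.add (f x9087) (Nat.add (f x9091) (Nat.add (f x9093) (Nat.add (f x9101)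
    (Nat.add (f x9103) (Nat.add (f x9105) (Nat.add (f x9109) (Nat.add (f x9111) (Nat.add (f x9117)
    (Nat.add (f x9127) (Nat.add (f x9129) (Nat.add (f x9135) (Nat.add (f x9155) (Nat.add (f x9157)
    (Nat.add (f x9159) (Nat.add (f x9163) (Nat.add (f x9165) (Nat.add (f x9171) (Nat.add (f x9181)
    (Nat.add (f x9183) (Nat.add (f x9189) (Nat.add (f x9207) (Nat.add (f x9239) (Nat.add (f x9241)
    (Nat.add (f x9245) (Nat.add (f x9247) (Nat.add (f x9249) (Nat.add (f x9253) (Nat.add (f x9255)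
    (Nat.add (f x9263) (Nat.add (f x9265) (Nat.add (f x9267) (Nat.add (f x9271) (Nat.add (f x9273)
    (Nat.add (f x9279) (Nat.add (f x9289) (Nat.add (f x9291) (Nat.add (f x9297) (Nat.add (f x9317)
    (Nat.add (f x9319) (Nat.add (f x9321) (Nat.add (f x9325) (Nat.add (f x9327) (Nat.add (f x9333)
    (Nat.add (f x9343) (Nat.add (f x9345) (Nat.add (f x9351) (Nat.add (f x9369) (Nat.add (f x9397)
    (Nat.add (f x9399) (Nat.add (f x9405) (Nat.add (f x9423) (Nat.add (f x9485)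
    0)))))))))))))))))))))))))))))))))))))))))))))))))))))))))))) (Nat.add (Nat.add (f x9491)
    (Nat.add (f x9493) (Nat.add (f x9497) (Nat.add (f x9499) (Nat.add (f x9501) (Nat.add (f x9509)
    (Nat.add (f x9511) (Nat.add (f x9515) (Nat.add (f x9517) (Nat.add (f x9519) (Nat.add (f x9523)
    (Nat.add (f x9525) (Nat.add (f x9533) (Nat.add (f x9535) (Nat.add (f x9537) (Nat.add (f x9541)
    (Nat.add (f x9543) (Nat.add (f x9549) (Nat.add (f x9563) (Nat.add (f x9565) (Nat.add (f x9569)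
    (Nat.add (f x9571) (Nat.add (f x9573) (Nat.add (f x9577) (Nat.add (f x9579) (Nat.add (f x9587)
    (Nat.add (f x9589) (Nat.add (f x9591) (Nat.add (f x9595) (Nat.add (f x9597) (Nat.add (f x9603)
    (Nat.add (f x9613) (Nat.add (f x9615) (Nat.add (f x9621) (Nat.add (f x9641) (Nat.add (f x9643)
    (Nat.add (f x9645) (Nat.add (f x9649) (Nat.add (f x9651) (Nat.add (f x9657) (Nat.add (f x9667)
    (Nat.add (f x9669) (Nat.add (f x9675) (Nat.add (f x9693) (Nat.add (f x9725) (Nat.add (f x9727)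
    (Nat.add (f x9731) (Nat.add (f x9733) (Nat.add (f x9735) (Nat.add (f x9739) (Nat.add (f x9741)
    (Nat.add (f x9749) (Nat.add (f x9751) (Nat.add (f x9753) (Nat.add (f x9757) (Nat.add (f x9759)
    (Nat.add (f x9765) (Nat.add (f x9775) (Nat.add (f x9777) (Nat.add (f x9783)
    0)))))))))))))))))))))))))))))))))))))))))))))))))))))))))))) (Nat.add (Nat.add (f x9803)
    (Nat.add (f x9805) (Nat.add (f x9807) (Nat.add (f x9811) (Nat.add (f x9813) (Nat.add (f x9819)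
    (Nat.add (f x9829) (Nat.add (f x9831) (Nat.add (f x9837) (Nat.add (f x9855) (Nat.add (f x9883)
    (Nat.add (f x9885) (Nat.add (f x9891) (Nat.add (f x9909) (Nat.add (f x9965) (Nat.add (f x9967)
    (Nat.add (f x9969) (Nat.add (f x9973) (Nat.add (f x9975) (Nat.add (f x9981) (Nat.add (f x9991)
    (Nat.add (f x9993) (Nat.add (f x9999) (Nat.add (f x10017) (Nat.add (f x10045) (Nat.add
    (f x10047) (Nat.add (f x10053) (Nat.add (f x10071) (Nat.add (f x10125) (Nat.add (f x10211)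
    (Nat.add (f x10213) (Nat.add (f x10217) (Nat.add (f x10219) (Nat.add (f x10221) (Nat.add
    (f x10225) (Nat.add (f x10227) (Nat.add (f x10235) (Nat.add (f x10237) (Nat.add (f x10239)
    (Nat.add (f x10243) (Nat.add (f x10245) (Nat.add (f x10251) (Nat.add (f x10261) (Nat.add
    (f x10263) (Nat.add (f x10269) (Nat.add (f x10289) (Nat.add (f x10291) (Nat.add (f x10293)
    (Nat.add (f x10297) (Nat.add (f x10299) (Nat.add (f x10305) (Nat.add (f x10315) (Nat.add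
    (f x10317) (Nat.add (f x10323) (Nat.add (f x10341) (Nat.add (f x10369) (Nat.add (f x10371)
    (Nat.add (f x10377) (Nat.add (f x10395) (Nat.add (f x10451)
    0)))))))))))))))))))))))))))))))))))))))))))))))))))))))))))) (Nat.add (Nat.add (f x10453)
    (Nat.add (f x10455) (Nat.add (f x10459) (Nat.add (f x10461) (Nat.add (f x10467) (Nat.add
    (f x10477) (Nat.add (f x10479) (Nat.add (f x10485) (Nat.add (f x10503) (Nat.add (f x10531)
    (Nat.add (f x10533) (Nat.add (f x10539) (Nat.add (f x10557) (Nat.add (f x10611) (Nat.add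
    (f x10693) (Nat.add (f x10695) (Nat.add (f x10701) (Nat.add (f x10719) (Nat.add (f x10773)
    (Nat.add (f x10943) (Nat.add (f x10949) (Nat.add (f x10951) (Nat.add (f x10955) (Nat.add
    (f x10957) (Nat.add (f x10959) (Nat.add (f x10967) (Nat.add (f x10969) (Nat.add (f x10973)
    (Nat.add (f x10975) (Nat.add (f x10977) (Nat.add (f x10981) (Nat.add (f x10983) (Nat.add
    (f x10991) (Nat.add (f x10993) (Nat.add (f x10995) (Nat.add (f x10999) (Nat.add (f x11001)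
    (Nat.add (f x11007) (Nat.add (f x11021) (Nat.add (f x11023) (Nat.add (f x11027) (Nat.add
    (f x11029) (Nat.add (f x11031) (Nat.add (f x11035) (Nat.add (f x11037) (Nat.add (f x11045)
    (Nat.add (f x11047) (Nat.add (f x11049) (Nat.add (f x11053) (Nat.add (f x11055) (Nat.add
    (f x11061) (Nat.add (f x11071) (Nat.add (f x11073) (Nat.add (f x11079) (Nat.add (f x11099)
    (Nat.add (f x11101) (Nat.add (f x11103) (Nat.add (f x11107) (Nat.add (f x11109) (Nat.add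
    (f x11115) 0)))))))))))))))))))))))))))))))))))))))))))))))))))))))))))) (Nat.add (Nat.add
    (f x11125) (Nat.add (f x11127) (Nat.add (f x11133) (Nat.add (f x11151) (Nat.add (f x11183)
    (Nat.add (f x11185) (Nat.add (f x11189) (Nat.add (f x11191) (Nat.add (f x11193) (Nat.add
    (f x11197) (Nat.add (f x11199) (Nat.add (f x11207) (Nat.add (f x11209) (Nat.add (f x11211)
    (Nat.add (f x11215) (Nat.add (f x11217) (Nat.add (f x11223) (Nat.add (f x11233) (Nat.add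
    (f x11235) (Nat.add (f x11241) (Nat.add (f x11261) (Nat.add (f x11263) (Nat.add (f x11265)
    (Nat.add (f x11269) (Nat.add (f x11271) (Nat.add (f x11277) (Nat.add (f x11287) (Nat.add
    (f x11289) (Nat.add (f x11295) (Nat.add (f x11313) (Nat.add (f x11341) (Nat.add (f x11343)
    (Nat.add (f x11349) (Nat.add (f x11367) (Nat.add (f x11423) (Nat.add (f x11425) (Nat.add
    (f x11427) (Nat.add (f x11431) (Nat.add (f x11433) (Nat.add (f x11439) (Nat.add (f x11449)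
    (Nat.add (f x11451) (Nat.add (f x11457) (Nat.add (f x11475) (Nat.add (f x11503) (Nat.add
    (f x11505) (Nat.add (f x11511) (Nat.add (f x11529) (Nat.add (f x11583) (Nat.add (f x11669)
    (Nat.add (f x11671) (Nat.add (f x11675) (Nat.add (f x11677) (Nat.add (f x11679) (Nat.add
    (f x11683) (Nat.add (f x11685) (Nat.add (f x11693) (Nat.add (f x11695) (Nat.add (f x11697)
    (Nat.add (f x11701) 0)))))))))))))))))))))))))))))))))))))))))))))))))))))))))))) (Nat.add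
    (Nat.add (f x11703) (Nat.add (f x11709) (Nat.add (f x11719) (Nat.add (f x11721) (Nat.add
    (f x11727) (Nat.add (f x11747) (Nat.add (f x11749) (Nat.add (f x11751) (Nat.add (f x11755)
    (Nat.add (f x11757) (Nat.add (f x11763) (Nat.add (f x11773) (Nat.add (f x11775) (Nat.add
    (f x11781) (Nat.add (f x11799) (Nat.add (f x11827) (Nat.add (f x11829) (Nat.add (f x11835)
    (Nat.add (f x11853) (Nat.add (f x11909) (Nat.add (f x11911) (Nat.add (f x11913) (Nat.add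
    (f x11917) (Nat.add (f x11919) (Nat.add (f x11925) (Nat.add (f x11935) (Nat.add (f x11937)
    (Nat.add (f x11943) (Nat.add (f x11961) (Nat.add (f x11989) (Nat.add (f x11991) (Nat.add
    (f x11997) (Nat.add (f x12015) (Nat.add (f x12069) (Nat.add (f x12151) (Nat.add (f x12153)
    (Nat.add (f x12159) (Nat.add (f x12177) (Nat.add (f x12231) (Nat.add (f x12395) (Nat.add
    (f x12397) (Nat.add (f x12399) (Nat.add (f x12403) (Nat.add (f x12405) (Nat.add (f x12411)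
    (Nat.add (f x12421) (Nat.add (f x12423) (Nat.add (f x12429) (Nat.add (f x12447) (Nat.add
    (f x12475) (Nat.add (f x12477) (Nat.add (f x12483) (Nat.add (f x12501) (Nat.add (f x12555)
    (Nat.add (f x12637) (Nat.add (f x12639) (Nat.add (f x12645) (Nat.add (f x12663) (Nat.add
    (f x12717) (Nat.add (f x12879) 0))))))))))))))))))))))))))))))))))))))))))))))))))))))))))))
    (Nat.add (Nat.add (f x13139) (Nat.add (f x13145) (Nat.add (f x13147) (Nat.add (f x13157)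
    (Nat.add (f x13163) (Nat.add (f x13165) (Nat.add (f x13169) (Nat.add (f x13171) (Nat.add
    (f x13173) (Nat.add (f x13181) (Nat.add (f x13183) (Nat.add (f x13187) (Nat.add (f x13189)
    (Nat.add (f x13191) (Nat.add (f x13195) (Nat.add (f x13197) (Nat.add (f x13211) (Nat.add
    (f x13217) (Nat.add (f x13219) (Nat.add (f x13223) (Nat.add (f x13225) (Nat.add (f x13227)
    (Nat.add (f x13235) (Nat.add (f x13237) (Nat.add (f x13241) (Nat.add (f x13243) (Nat.add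
    (f x13245) (Nat.add (f x13249) (Nat.add (f x13251) (Nat.add (f x13259) (Nat.add (f x13261)
    (Nat.add (f x13263) (Nat.add (f x13267) (Nat.add (f x13269) (Nat.add (f x13275) (Nat.add
    (f x13289) (Nat.add (f x13291) (Nat.add (f x13295) (Nat.add (f x13297) (Nat.add (f x13299)
    (Nat.add (f x13303) (Nat.add (f x13305) (Nat.add (f x13313) (Nat.add (f x13315) (Nat.add
    (f x13317) (Nat.add (f x13321) (Nat.add (f x13323) (Nat.add (f x13329) (Nat.add (f x13339)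
    (Nat.add (f x13341) (Nat.add (f x13347) (Nat.add (f x13373) (Nat.add (f x13379) (Nat.add
    (f x13381) (Nat.add (f x13385) (Nat.add (f x13387) (Nat.add (f x13389) (Nat.add (f x13397)
    (Nat.add (f x13399) (Nat.add (f x13403)
    0)))))))))))))))))))))))))))))))))))))))))))))))))))))))))))) (Nat.add (Nat.add (f x13405)
    (Nat.add (f x13407) (Nat.add (f x13411) (Nat.add (f x13413) (Nat.add (f x13421) (Nat.add
    (f x13423) (Nat.add (f x13425) (Nat.add (f x13429) (Nat.add (f x13431) (Nat.add (f x13437)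
    (Nat.add (f x13451) (Nat.add (f x13453) (Nat.add (f x13457) (Nat.add (f x13459) (Nat.add
    (f x13461) (Nat.add (f x13465) (Nat.add (f x13467) (Nat.add (f x13475) (Nat.add (f x13477)
    (Nat.add (f x13479) (Nat.add (f x13483) (Nat.add (f x13485) (Nat.add (f x13491) (Nat.add
    (f x13501) (Nat.add (f x13503) (Nat.add (f x13509) (Nat.add (f x13529) (Nat.add (f x13531)
    (Nat.add (f x13533) (Nat.add (f x13537) (Nat.add (f x13539) (Nat.add (f x13545) (Nat.add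
    (f x13555) (Nat.add (f x13557) (Nat.add (f x13563) (Nat.add (f x13581) (Nat.add (f x13613)
    (Nat.add (f x13615) (Nat.add (f x13619) (Nat.add (f x13621) (Nat.add (f x13623) (Nat.add
    (f x13627) (Nat.add (f x13629) (Nat.add (f x13637) (Nat.add (f x13639) (Nat.add (f x13641)
    (Nat.add (f x13645) (Nat.add (f x13647) (Nat.add (f x13653) (Nat.add (f x13663) (Nat.add
    (f x13665) (Nat.add (f x13671) (Nat.add (f x13691) (Nat.add (f x13693) (Nat.add (f x13695)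
    (Nat.add (f x13699) (Nat.add (f x13701) (Nat.add (f x13707) (Nat.add (f x13717) (Nat.add
    (f x13719) 0)))))))))))))))))))))))))))))))))))))))))))))))))))))))))))) (Nat.add (Nat.add
    (f x13725) (Nat.add (f x13743) (Nat.add (f x13771) (Nat.add (f x13773) (Nat.add (f x13779)
    (Nat.add (f x13797) (Nat.add (f x13859) (Nat.add (f x13865) (Nat.add (f x13867) (Nat.add
    (f x13871) (Nat.add (f x13873) (Nat.add (f x13875) (Nat.add (f x13883) (Nat.add (f x13885)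
    (Nat.add (f x13889) (Nat.add (f x13891) (Nat.add (f x13893) (Nat.add (f x13897) (Nat.add
    (f x13899) (Nat.add (f x13907) (Nat.add (f x13909) (Nat.add (f x13911) (Nat.add (f x13915)
    (Nat.add (f x13917) (Nat.add (f x13923) (Nat.add (f x13937) (Nat.add (f x13939) (Nat.add
    (f x13943) (Nat.add (f x13945) (Nat.add (f x13947) (Nat.add (f x13951) (Nat.add (f x13953)
    (Nat.add (f x13961) (Nat.add (f x13963) (Nat.add (f x13965) (Nat.add (f x13969) (Nat.add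
    (f x13971) (Nat.add (f x13977) (Nat.add (f x13987) (Nat.add (f x13989) (Nat.add (f x13995)
    (Nat.add (f x14015) (Nat.add (f x14017) (Nat.add (f x14019) (Nat.add (f x14023) (Nat.add
    (f x14025) (Nat.add (f x14031) (Nat.add (f x14041) (Nat.add (f x14043) (Nat.add (f x14049)
    (Nat.add (f x14067) (Nat.add (f x14099) (Nat.add (f x14101) (Nat.add (f x14105) (Nat.add
    (f x14107) (Nat.add (f x14109) (Nat.add (f x14113) (Nat.add (f x14115) (Nat.add (f x14123)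
    (Nat.add (f x14125) 0)))))))))))))))))))))))))))))))))))))))))))))))))))))))))))) (Nat.add
    (Nat.add (f x14127) (Nat.add (f x14131) (Nat.add (f x14133) (Nat.add (f x14139) (Nat.add
    (f x14149) (Nat.add (f x14151) (Nat.add (f x14157) (Nat.add (f x14177) (Nat.add (f x14179)
    (Nat.add (f x14181) (Nat.add (f x14185) (Nat.add (f x14187) (Nat.add (f x14193) (Nat.add
    (f x14203) (Nat.add (f x14205) (Nat.add (f x14211) (Nat.add (f x14229) (Nat.add (f x14257)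
    (Nat.add (f x14259) (Nat.add (f x14265) (Nat.add (f x14283) (Nat.add (f x14339) (Nat.add
    (f x14341) (Nat.add (f x14343) (Nat.add (f x14347) (Nat.add (f x14349) (Nat.add (f x14355)
    (Nat.add (f x14365) (Nat.add (f x14367) (Nat.add (f x14373) (Nat.add (f x14391) (Nat.add
    (f x14419) (Nat.add (f x14421) (Nat.add (f x14427) (Nat.add (f x14445) (Nat.add (f x14499)
    (Nat.add (f x14585) (Nat.add (f x14587) (Nat.add (f x14591) (Nat.add (f x14593) (Nat.add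
    (f x14595) (Nat.add (f x14599) (Nat.add (f x14601) (Nat.add (f x14609) (Nat.add (f x14611)
    (Nat.add (f x14613) (Nat.add (f x14617) (Nat.add (f x14619) (Nat.add (f x14625) (Nat.add
    (f x14635) (Nat.add (f x14637) (Nat.add (f x14643) (Nat.add (f x14663) (Nat.add (f x14665)
    (Nat.add (f x14667) (Nat.add (f x14671) (Nat.add (f x14673) (Nat.add (f x14679) (Nat.add
    (f x14689) (Nat.add (f x14691) 0))))))))))))))))))))))))))))))))))))))))))))))))))))))))))))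
    (Nat.add (Nat.add (f x14697) (Nat.add (f x14715) (Nat.add (f x14743) (Nat.add (f x14745)
    (Nat.add (f x14751) (Nat.add (f x14769) (Nat.add (f x14825) (Nat.add (f x14827) (Nat.add
    (f x14829) (Nat.add (f x14833) (Nat.add (f x14835) (Nat.add (f x14841) (Nat.add (f x14851)
    (Nat.add (f x14853) (Nat.add (f x14859) (Nat.add (f x14877) (Nat.add (f x14905) (Nat.add
    (f x14907) (Nat.add (f x14913) (Nat.add (f x14931) (Nat.add (f x14985) (Nat.add (f x15067)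
    (Nat.add (f x15069) (Nat.add (f x15075) (Nat.add (f x15093) (Nat.add (f x15147) (Nat.add
    (f x15317) (Nat.add (f x15323) (Nat.add (f x15325) (Nat.add (f x15329) (Nat.add (f x15331)
    (Nat.add (f x15333) (Nat.add (f x15341) (Nat.add (f x15343) (Nat.add (f x15347) (Nat.add
    (f x15349) (Nat.add (f x15351) (Nat.add (f x15355) (Nat.add (f x15357) (Nat.add (f x15365)
    (Nat.add (f x15367) (Nat.add (f x15369) (Nat.add (f x15373) (Nat.add (f x15375) (Nat.add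
    (f x15381) (Nat.add (f x15395) (Nat.add (f x15397) (Nat.add (f x15401) (Nat.add (f x15403)
    (Nat.add (f x15405) (Nat.add (f x15409) (Nat.add (f x15411) (Nat.add (f x15419) (Nat.add
    (f x15421) (Nat.add (f x15423) (Nat.add (f x15427) (Nat.add (f x15429) (Nat.add (f x15435)
    (Nat.add (f x15445) (Nat.add (f x15447)
    0)))))))))))))))))))))))))))))))))))))))))))))))))))))))))))) (Nat.add (Nat.add (f x15453)
    (Nat.add (f x15473) (Nat.add (f x15475) (Nat.add (f x15477) (Nat.add (f x15481) (Nat.add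
    (f x15483) (Nat.add (f x15489) (Nat.add (f x15499) (Nat.add (f x15501) (Nat.add (f x15507)
    (Nat.add (f x15525) (Nat.add (f x15557) (Nat.add (f x15559) (Nat.add (f x15563) (Nat.add
    (f x15565) (Nat.add (f x15567) (Nat.add (f x15571) (Nat.add (f x15573) (Nat.add (f x15581)
    (Nat.add (f x15583) (Nat.add (f x15585) (Nat.add (f x15589) (Nat.add (f x15591) (Nat.add
    (f x15597) (Nat.add (f x15607) (Nat.add (f x15609) (Nat.add (f x15615) (Nat.add (f x15635)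
    (Nat.add (f x15637) (Nat.add (f x15639) (Nat.add (f x15643) (Nat.add (f x15645) (Nat.add
    (f x15651) (Nat.add (f x15661) (Nat.add (f x15663) (Nat.add (f x15669) (Nat.add (f x15687)
    (Nat.add (f x15715) (Nat.add (f x15717) (Nat.add (f x15723) (Nat.add (f x15741) (Nat.add
    (f x15797) (Nat.add (f x15799) (Nat.add (f x15801) (Nat.add (f x15805) (Nat.add (f x15807)
    (Nat.add (f x15813) (Nat.add (f x15823) (Nat.add (f x15825) (Nat.add (f x15831) (Nat.add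
    (f x15849) (Nat.add (f x15877) (Nat.add (f x15879) (Nat.add (f x15885) (Nat.add (f x15903)
    (Nat.add (f x15957) (Nat.add (f x16043) (Nat.add (f x16045) (Nat.add (f x16049) (Nat.add
    (f x16051) 0)))))))))))))))))))))))))))))))))))))))))))))))))))))))))))) (Nat.add (Nat.add
    (f x16053) (Nat.add (f x16057) (Nat.add (f x16059) (Nat.add (f x16067) (Nat.add (f x16069)
    (Nat.add (f x16071) (Nat.add (f x16075) (Nat.add (f x16077) (Nat.add (f x16083) (Nat.add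
    (f x16093) (Nat.add (f x16095) (Nat.add (f x16101) (Nat.add (f x16121) (Nat.add (f x16123)
    (Nat.add (f x16125) (Nat.add (f x16129) (Nat.add (f x16131) (Nat.add (f x16137) (Nat.add
    (f x16147) (Nat.add (f x16149) (Nat.add (f x16155) (Nat.add (f x16173) (Nat.add (f x16201)
    (Nat.add (f x16203) (Nat.add (f x16209) (Nat.add (f x16227) (Nat.add (f x16283) (Nat.add
    (f x16285) (Nat.add (f x16287) (Nat.add (f x16291) (Nat.add (f x16293) (Nat.add (f x16299)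
    (Nat.add (f x16309) (Nat.add (f x16311) (Nat.add (f x16317) (Nat.add (f x16335) (Nat.add
    (f x16363) (Nat.add (f x16365) (Nat.add (f x16371) (Nat.add (f x16389) (Nat.add (f x16443)
    (Nat.add (f x16525) (Nat.add (f x16527) (Nat.add (f x16533) (Nat.add (f x16551) (Nat.add
    (f x16605) (Nat.add (f x16769) (Nat.add (f x16771) (Nat.add (f x16773) (Nat.add (f x16777)
    (Nat.add (f x16779) (Nat.add (f x16785) (Nat.add (f x16795) (Nat.add (f x16797) (Nat.add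
    (f x16803) (Nat.add (f x16821) (Nat.add (f x16849) (Nat.add (f x16851) (Nat.add (f x16857)
    (Nat.add (f x16875) 0)))))))))))))))))))))))))))))))))))))))))))))))))))))))))))) (Nat.add
    (Nat.add (f x16929) (Nat.add (f x17011) (Nat.add (f x17013) (Nat.add (f x17019) (Nat.add
    (f x17037) (Nat.add (f x17091) (Nat.add (f x17253) (Nat.add (f x17501) (Nat.add (f x17503)
    (Nat.add (f x17507) (Nat.add (f x17509) (Nat.add (f x17511) (Nat.add (f x17515) (Nat.add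
    (f x17517) (Nat.add (f x17525) (Nat.add (f x17527) (Nat.add (f x17529) (Nat.add (f x17533)
    (Nat.add (f x17535) (Nat.add (f x17541) (Nat.add (f x17551) (Nat.add (f x17553) (Nat.add
    (f x17559) (Nat.add (f x17579) (Nat.add (f x17581) (Nat.add (f x17583) (Nat.add (f x17587)
    (Nat.add (f x17589) (Nat.add (f x17595) (Nat.add (f x17605) (Nat.add (f x17607) (Nat.add
    (f x17613) (Nat.add (f x17631) (Nat.add (f x17659) (Nat.add (f x17661) (Nat.add (f x17667)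
    (Nat.add (f x17685) (Nat.add (f x17741) (Nat.add (f x17743) (Nat.add (f x17745) (Nat.add
    (f x17749) (Nat.add (f x17751) (Nat.add (f x17757) (Nat.add (f x17767) (Nat.add (f x17769)
    (Nat.add (f x17775) (Nat.add (f x17793) (Nat.add (f x17821) (Nat.add (f x17823) (Nat.add
    (f x17829) (Nat.add (f x17847) (Nat.add (f x17901) (Nat.add (f x17983) (Nat.add (f x17985)
    (Nat.add (f x17991) (Nat.add (f x18009) (Nat.add (f x18063) (Nat.add (f x18227) (Nat.add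
    (f x18229) (Nat.add (f x18231) 0))))))))))))))))))))))))))))))))))))))))))))))))))))))))))))
    (Nat.add (Nat.add (f x18235) (Nat.add (f x18237) (Nat.add (f x18243) (Nat.add (f x18253)
    (Nat.add (f x18255) (Nat.add (f x18261) (Nat.add (f x18279) (Nat.add (f x18307) (Nat.add
    (f x18309) (Nat.add (f x18315) (Nat.add (f x18333) (Nat.add (f x18387) (Nat.add (f x18469)
    (Nat.add (f x18471) (Nat.add (f x18477) (Nat.add (f x18495) (Nat.add (f x18549) (Nat.add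
    (f x18711) (Nat.add (f x18955) (Nat.add (f x18957) (Nat.add (f x18963) (Nat.add (f x18981)
    (Nat.add (f x19035) (Nat.add (f x19197) 0))))))))))))))))))))))))
    0))))))))))))))))))))))))))))))))))))))) v1

theorem fin_eq0 (f : Nat → Nat) (v1 : Nat) (x : Nat → Nat) :
    apLL (fun t => x t.cd) cds (fin f v1) = Nat.beq (sum2 (fun t => f (x t.cd)) cds) v1 :=
  Eq.refl (apLL (fun t => x t.cd) cds (fin f v1))

theorem fin_eq (f : Nat → Nat) (v1 : Nat) (x : Nat → Nat) :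
    ap x (fin f v1) = Nat.beq (sumL (fun s => f (x s)) (secL 9 7 0 [])) v1 :=
  ((ap_eq x (fin f v1)).symm.trans (fin_eq0 f v1 x)).trans
    (congrArg (fun z => Nat.beq z v1) (sum2_eq cds _ codes_ok (fun s => f (x s))))

def ch0 : List (Nat × Nat) :=
    [(53,36), (71,36), (107,36), (125,36), (131,36), (133,36), (143,36), (149,36), (151,18),
    (155,36), (179,36), (185,36), (197,36), (203,18), (269,36), (287,36), (293,36), (295,36),
    (305,36), (311,36), (313,36), (317,36), (319,36), (341,36), (347,36), (349,36), (359,36),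
    (365,36), (367,36), (371,36), (373,36), (383,36), (385,36), (389,36), (413,36), (419,36),
    (421,36), (425,36), (437,36), (443,36), (461,36), (503,36), (509,36), (521,36), (527,36),
    (533,36), (545,36), (575,36), (581,36), (773,36), (779,36), (781,18), (791,36), (797,18),
    (827,36), (833,36), (835,36), (845,36), (851,36), (853,36), (857,36), (859,36), (869,36),
    (871,36), (875,36), (877,36), (883,36), (899,36)]

def sqA0 (X M
    u0 u1 u2 u3 u4 u5 u6 u7 u8 u9 u10 u11 u12 u13 u14 u15 u16 u17 u18 u19 u20 u21 u22 u23 u24 u25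
    u26 u27 u28 u29 u30 u31 u32 u33 u34 u35 u36 u37 u38 u39 u40 u41 u42 u43 u44 u45 u46 u47 u48 u49
    u50 u51 u52 u53 u54 u55 u56 u57 u58 u59 u60 u61 u62 u63 u64 u65 u66 u67 : Nat) : Nat :=
    (Nat.add (Nat.mul (Nat.mul (Nat.land u0 M) (Nat.sub X (Nat.land u0 M))) 36)
    (Nat.add (Nat.mul (Nat.mul (Nat.land u1 M) (Nat.sub X (Nat.land u1 M))) 36)
    (Nat.add (Nat.mul (Nat.mul (Nat.land u2 M) (Nat.sub X (Nat.land u2 M))) 36)
    (Nat.add (Nat.mul (Nat.mul (Nat.land u3 M) (Nat.sub X (Nat.land u3 M))) 36)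
    (Nat.add (Nat.mul (Nat.mul (Nat.land u4 M) (Nat.sub X (Nat.land u4 M))) 36)
    (Nat.add (Nat.mul (Nat.mul (Nat.land u5 M) (Nat.sub X (Nat.land u5 M))) 36)
    (Nat.add (Nat.mul (Nat.mul (Nat.land u6 M) (Nat.sub X (Nat.land u6 M))) 36)
    (Nat.add (Nat.mul (Nat.mul (Nat.land u7 M) (Nat.sub X (Nat.land u7 M))) 36)
    (Nat.add (Nat.mul (Nat.mul (Nat.land u8 M) (Nat.sub X (Nat.land u8 M))) 18)
    (Nat.add (Nat.mul (Nat.mul (Nat.land u9 M) (Nat.sub X (Nat.land u9 M))) 36)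
    (Nat.add (Nat.mul (Nat.mul (Nat.land u10 M) (Nat.sub X (Nat.land u10 M))) 36)
    (Nat.add (Nat.mul (Nat.mul (Nat.land u11 M) (Nat.sub X (Nat.land u11 M))) 36)
    (Nat.add (Nat.mul (Nat.mul (Nat.land u12 M) (Nat.sub X (Nat.land u12 M))) 36)
    (Nat.add (Nat.mul (Nat.mul (Nat.land u13 M) (Nat.sub X (Nat.land u13 M))) 18)
    (Nat.add (Nat.mul (Nat.mul (Nat.land u14 M) (Nat.sub X (Nat.land u14 M))) 36)
    (Nat.add (Nat.mul (Nat.mul (Nat.land u15 M) (Nat.sub X (Nat.land u15 M))) 36)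
    (Nat.add (Nat.mul (Nat.mul (Nat.land u16 M) (Nat.sub X (Nat.land u16 M))) 36)
    (Nat.add (Nat.mul (Nat.mul (Nat.land u17 M) (Nat.sub X (Nat.land u17 M))) 36)
    (Nat.add (Nat.mul (Nat.mul (Nat.land u18 M) (Nat.sub X (Nat.land u18 M))) 36)
    (Nat.add (Nat.mul (Nat.mul (Nat.land u19 M) (Nat.sub X (Nat.land u19 M))) 36)
    (Nat.add (Nat.mul (Nat.mul (Nat.land u20 M) (Nat.sub X (Nat.land u20 M))) 36)
    (Nat.add (Nat.mul (Nat.mul (Nat.land u21 M) (Nat.sub X (Nat.land u21 M))) 36)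
    (Nat.add (Nat.mul (Nat.mul (Nat.land u22 M) (Nat.sub X (Nat.land u22 M))) 36)
    (Nat.add (Nat.mul (Nat.mul (Nat.land u23 M) (Nat.sub X (Nat.land u23 M))) 36)
    (Nat.add (Nat.mul (Nat.mul (Nat.land u24 M) (Nat.sub X (Nat.land u24 M))) 36)
    (Nat.add (Nat.mul (Nat.mul (Nat.land u25 M) (Nat.sub X (Nat.land u25 M))) 36)
    (Nat.add (Nat.mul (Nat.mul (Nat.land u26 M) (Nat.sub X (Nat.land u26 M))) 36)
    (Nat.add (Nat.mul (Nat.mul (Nat.land u27 M) (Nat.sub X (Nat.land u27 M))) 36)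
    (Nat.add (Nat.mul (Nat.mul (Nat.land u28 M) (Nat.sub X (Nat.land u28 M))) 36)
    (Nat.add (Nat.mul (Nat.mul (Nat.land u29 M) (Nat.sub X (Nat.land u29 M))) 36)
    (Nat.add (Nat.mul (Nat.mul (Nat.land u30 M) (Nat.sub X (Nat.land u30 M))) 36)
    (Nat.add (Nat.mul (Nat.mul (Nat.land u31 M) (Nat.sub X (Nat.land u31 M))) 36)
    (Nat.add (Nat.mul (Nat.mul (Nat.land u32 M) (Nat.sub X (Nat.land u32 M))) 36)
    (Nat.add (Nat.mul (Nat.mul (Nat.land u33 M) (Nat.sub X (Nat.land u33 M))) 36)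
    (Nat.add (Nat.mul (Nat.mul (Nat.land u34 M) (Nat.sub X (Nat.land u34 M))) 36)
    (Nat.add (Nat.mul (Nat.mul (Nat.land u35 M) (Nat.sub X (Nat.land u35 M))) 36)
    (Nat.add (Nat.mul (Nat.mul (Nat.land u36 M) (Nat.sub X (Nat.land u36 M))) 36)
    (Nat.add (Nat.mul (Nat.mul (Nat.land u37 M) (Nat.sub X (Nat.land u37 M))) 36)
    (Nat.add (Nat.mul (Nat.mul (Nat.land u38 M) (Nat.sub X (Nat.land u38 M))) 36)
    (Nat.add (Nat.mul (Nat.mul (Nat.land u39 M) (Nat.sub X (Nat.land u39 M))) 36)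
    (Nat.add (Nat.mul (Nat.mul (Nat.land u40 M) (Nat.sub X (Nat.land u40 M))) 36)
    (Nat.add (Nat.mul (Nat.mul (Nat.land u41 M) (Nat.sub X (Nat.land u41 M))) 36)
    (Nat.add (Nat.mul (Nat.mul (Nat.land u42 M) (Nat.sub X (Nat.land u42 M))) 36)
    (Nat.add (Nat.mul (Nat.mul (Nat.land u43 M) (Nat.sub X (Nat.land u43 M))) 36)
    (Nat.add (Nat.mul (Nat.mul (Nat.land u44 M) (Nat.sub X (Nat.land u44 M))) 36)
    (Nat.add (Nat.mul (Nat.mul (Nat.land u45 M) (Nat.sub X (Nat.land u45 M))) 36)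
    (Nat.add (Nat.mul (Nat.mul (Nat.land u46 M) (Nat.sub X (Nat.land u46 M))) 36)
    (Nat.add (Nat.mul (Nat.mul (Nat.land u47 M) (Nat.sub X (Nat.land u47 M))) 36)
    (Nat.add (Nat.mul (Nat.mul (Nat.land u48 M) (Nat.sub X (Nat.land u48 M))) 36)
    (Nat.add (Nat.mul (Nat.mul (Nat.land u49 M) (Nat.sub X (Nat.land u49 M))) 36)
    (Nat.add (Nat.mul (Nat.mul (Nat.land u50 M) (Nat.sub X (Nat.land u50 M))) 36)
    (Nat.add (Nat.mul (Nat.mul (Nat.land u51 M) (Nat.sub X (Nat.land u51 M))) 18)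
    (Nat.add (Nat.mul (Nat.mul (Nat.land u52 M) (Nat.sub X (Nat.land u52 M))) 36)
    (Nat.add (Nat.mul (Nat.mul (Nat.land u53 M) (Nat.sub X (Nat.land u53 M))) 18)
    (Nat.add (Nat.mul (Nat.mul (Nat.land u54 M) (Nat.sub X (Nat.land u54 M))) 36)
    (Nat.add (Nat.mul (Nat.mul (Nat.land u55 M) (Nat.sub X (Nat.land u55 M))) 36)
    (Nat.add (Nat.mul (Nat.mul (Nat.land u56 M) (Nat.sub X (Nat.land u56 M))) 36)
    (Nat.add (Nat.mul (Nat.mul (Nat.land u57 M) (Nat.sub X (Nat.land u57 M))) 36)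
    (Nat.add (Nat.mul (Nat.mul (Nat.land u58 M) (Nat.sub X (Nat.land u58 M))) 36)
    (Nat.add (Nat.mul (Nat.mul (Nat.land u59 M) (Nat.sub X (Nat.land u59 M))) 36)
    (Nat.add (Nat.mul (Nat.mul (Nat.land u60 M) (Nat.sub X (Nat.land u60 M))) 36)
    (Nat.add (Nat.mul (Nat.mul (Nat.land u61 M) (Nat.sub X (Nat.land u61 M))) 36)
    (Nat.add (Nat.mul (Nat.mul (Nat.land u62 M) (Nat.sub X (Nat.land u62 M))) 36)
    (Nat.add (Nat.mul (Nat.mul (Nat.land u63 M) (Nat.sub X (Nat.land u63 M))) 36)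
    (Nat.add (Nat.mul (Nat.mul (Nat.land u64 M) (Nat.sub X (Nat.land u64 M))) 36)
    (Nat.add (Nat.mul (Nat.mul (Nat.land u65 M) (Nat.sub X (Nat.land u65 M))) 36)
    (Nat.add (Nat.mul (Nat.mul (Nat.land u66 M) (Nat.sub X (Nat.land u66 M))) 36)
    (Nat.add (Nat.mul (Nat.mul (Nat.land u67 M) (Nat.sub X (Nat.land u67 M))) 36)
    0))))))))))))))))))))))))))))))))))))))))))))))))))))))))))))))))))))

def sqB0 (z0 z1 z2 z3 z4 z5 z6 z7 z8 z9 z10 z11 : Nat) : Nat :=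
  sqA0 (Nat.shiftLeft 1 146) (Nat.sub (Nat.shiftLeft 1 146) 1)
    z0
    (Nat.shiftRight z0 146)
    (Nat.shiftRight (Nat.shiftRight z0 146) 146)
    (Nat.shiftRight (Nat.shiftRight (Nat.shiftRight z0 146) 146) 146)
    (Nat.shiftRight (Nat.shiftRight (Nat.shiftRight (Nat.shiftRight z0 146) 146) 146) 146)
    (Nat.shiftRight (Nat.shiftRight (Nat.shiftRight (Nat.shiftRight (Nat.shiftRight z0 146) 146) 146) 146) 146)
    z1
    (Nat.shiftRight z1 146)
    (Nat.shiftRight (Nat.shiftRight z1 146) 146)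
    (Nat.shiftRight (Nat.shiftRight (Nat.shiftRight z1 146) 146) 146)
    (Nat.shiftRight (Nat.shiftRight (Nat.shiftRight (Nat.shiftRight z1 146) 146) 146) 146)
    (Nat.shiftRight (Nat.shiftRight (Nat.shiftRight (Nat.shiftRight (Nat.shiftRight z1 146) 146) 146) 146) 146)
    z2
    (Nat.shiftRight z2 146)
    (Nat.shiftRight (Nat.shiftRight z2 146) 146)
    (Nat.shiftRight (Nat.shiftRight (Nat.shiftRight z2 146) 146) 146)
    (Nat.shiftRight (Nat.shiftRight (Nat.shiftRight (Nat.shiftRight z2 146) 146) 146) 146)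
    (Nat.shiftRight (Nat.shiftRight (Nat.shiftRight (Nat.shiftRight (Nat.shiftRight z2 146) 146) 146) 146) 146)
    z3
    (Nat.shiftRight z3 146)
    (Nat.shiftRight (Nat.shiftRight z3 146) 146)
    (Nat.shiftRight (Nat.shiftRight (Nat.shiftRight z3 146) 146) 146)
    (Nat.shiftRight (Nat.shiftRight (Nat.shiftRight (Nat.shiftRight z3 146) 146) 146) 146)
    (Nat.shiftRight (Nat.shiftRight (Nat.shiftRight (Nat.shiftRight (Nat.shiftRight z3 146) 146) 146) 146) 146)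
    z4
    (Nat.shiftRight z4 146)
    (Nat.shiftRight (Nat.shiftRight z4 146) 146)
    (Nat.shiftRight (Nat.shiftRight (Nat.shiftRight z4 146) 146) 146)
    (Nat.shiftRight (Nat.shiftRight (Nat.shiftRight (Nat.shiftRight z4 146) 146) 146) 146)
    (Nat.shiftRight (Nat.shiftRight (Nat.shiftRight (Nat.shiftRight (Nat.shiftRight z4 146) 146) 146) 146) 146)
    z5
    (Nat.shiftRight z5 146)
    (Nat.shiftRight (Nat.shiftRight z5 146) 146)
    (Nat.shiftRight (Nat.shiftRight (Nat.shiftRight z5 146) 146) 146)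
    (Nat.shiftRight (Nat.shiftRight (Nat.shiftRight (Nat.shiftRight z5 146) 146) 146) 146)
    (Nat.shiftRight (Nat.shiftRight (Nat.shiftRight (Nat.shiftRight (Nat.shiftRight z5 146) 146) 146) 146) 146)
    z6
    (Nat.shiftRight z6 146)
    (Nat.shiftRight (Nat.shiftRight z6 146) 146)
    (Nat.shiftRight (Nat.shiftRight (Nat.shiftRight z6 146) 146) 146)
    (Nat.shiftRight (Nat.shiftRight (Nat.shiftRight (Nat.shiftRight z6 146) 146) 146) 146)
    (Nat.shiftRight (Nat.shiftRight (Nat.shiftRight (Nat.shiftRight (Nat.shiftRight z6 146) 146) 146) 146) 146)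
    z7
    (Nat.shiftRight z7 146)
    (Nat.shiftRight (Nat.shiftRight z7 146) 146)
    (Nat.shiftRight (Nat.shiftRight (Nat.shiftRight z7 146) 146) 146)
    (Nat.shiftRight (Nat.shiftRight (Nat.shiftRight (Nat.shiftRight z7 146) 146) 146) 146)
    (Nat.shiftRight (Nat.shiftRight (Nat.shiftRight (Nat.shiftRight (Nat.shiftRight z7 146) 146) 146) 146) 146)
    z8
    (Nat.shiftRight z8 146)
    (Nat.shiftRight (Nat.shiftRight z8 146) 146)
    (Nat.shiftRight (Nat.shiftRight (Nat.shiftRight z8 146) 146) 146)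
    (Nat.shiftRight (Nat.shiftRight (Nat.shiftRight (Nat.shiftRight z8 146) 146) 146) 146)
    (Nat.shiftRight (Nat.shiftRight (Nat.shiftRight (Nat.shiftRight (Nat.shiftRight z8 146) 146) 146) 146) 146)
    z9
    (Nat.shiftRight z9 146)
    (Nat.shiftRight (Nat.shiftRight z9 146) 146)
    (Nat.shiftRight (Nat.shiftRight (Nat.shiftRight z9 146) 146) 146)
    (Nat.shiftRight (Nat.shiftRight (Nat.shiftRight (Nat.shiftRight z9 146) 146) 146) 146)
    (Nat.shiftRight (Nat.shiftRight (Nat.shiftRight (Nat.shiftRight (Nat.shiftRight z9 146) 146) 146) 146) 146)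
    z10
    (Nat.shiftRight z10 146)
    (Nat.shiftRight (Nat.shiftRight z10 146) 146)
    (Nat.shiftRight (Nat.shiftRight (Nat.shiftRight z10 146) 146) 146)
    (Nat.shiftRight (Nat.shiftRight (Nat.shiftRight (Nat.shiftRight z10 146) 146) 146) 146)
    (Nat.shiftRight (Nat.shiftRight (Nat.shiftRight (Nat.shiftRight (Nat.shiftRight z10 146) 146) 146) 146) 146)
    z11
    (Nat.shiftRight z11 146)

def sqC0 (u : Nat) : Nat :=
  sqB0
    u
    (sh6 146 u)
    (sh6 146 (sh6 146 u))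
    (sh6 146 (sh6 146 (sh6 146 u)))
    (sh6 146 (sh6 146 (sh6 146 (sh6 146 u))))
    (sh6 146 (sh6 146 (sh6 146 (sh6 146 (sh6 146 u)))))
    (sh6 146 (sh6 146 (sh6 146 (sh6 146 (sh6 146 (sh6 146 u))))))
    (sh6 146 (sh6 146 (sh6 146 (sh6 146 (sh6 146 (sh6 146 (sh6 146 u)))))))
    (sh6 146 (sh6 146 (sh6 146 (sh6 146 (sh6 146 (sh6 146 (sh6 146 (sh6 146 u))))))))
    (sh6 146 (sh6 146 (sh6 146 (sh6 146 (sh6 146 (sh6 146 (sh6 146 (sh6 146 (sh6 146 u)))))))))
    (sh6 146 (sh6 146 (sh6 146 (sh6 146 (sh6 146 (sh6 146 (sh6 146 (sh6 146 (sh6 146 (sh6 146 u))))))))))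
    (sh6 146 (sh6 146 (sh6 146 (sh6 146 (sh6 146 (sh6 146 (sh6 146 (sh6 146 (sh6 146 (sh6 146 (sh6 146 u)))))))))))

noncomputable def sq0 (v : Nat) : Nat := sqC0 (Nat.add v (offs 146 (Nat.shiftLeft 1 (Nat.sub 146 1)) ch0))

theorem sq_eq0 : sq0 = sqF 146 ch0 := Eq.refl sq0

theorem side_ok0 : sideOK 9 146 mask cf9 ch0 = true := by decide +kernel

def ch1 : List (Nat × Nat) :=
    [(905,36), (907,36), (911,36), (913,36), (923,36), (925,36), (929,36), (931,36), (937,18),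
    (947,36), (949,36), (989,36), (995,18), (1007,36), (1013,36), (1015,36), (1019,36), (1021,36),
    (1031,36), (1033,36), (1037,36), (1039,36), (1061,18), (1067,36), (1069,36), (1073,36),
    (1075,36), (1085,36), (1087,36), (1091,36), (1093,18), (1109,36), (1139,36), (1141,36),
    (1145,36), (1163,36), (1231,36), (1235,36), (1247,36), (1249,18), (1253,36), (1271,36),
    (1307,36), (1517,36), (1553,36), (1559,36), (1571,36), (1577,18), (1733,18), (2465,18),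
    (2471,36), (2473,36), (2477,36), (2489,36), (2525,36), (2527,36), (2531,36), (2533,36),
    (2543,36), (2545,36), (2549,36), (2551,18), (2603,36), (2711,18), (3029,36), (3035,36),
    (3037,18), (3199,18)]

def sqA1 (X M
    u0 u1 u2 u3 u4 u5 u6 u7 u8 u9 u10 u11 u12 u13 u14 u15 u16 u17 u18 u19 u20 u21 u22 u23 u24 u25
    u26 u27 u28 u29 u30 u31 u32 u33 u34 u35 u36 u37 u38 u39 u40 u41 u42 u43 u44 u45 u46 u47 u48 u49
    u50 u51 u52 u53 u54 u55 u56 u57 u58 u59 u60 u61 u62 u63 u64 u65 u66 u67 : Nat) : Nat :=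
    (Nat.add (Nat.mul (Nat.mul (Nat.land u0 M) (Nat.sub X (Nat.land u0 M))) 36)
    (Nat.add (Nat.mul (Nat.mul (Nat.land u1 M) (Nat.sub X (Nat.land u1 M))) 36)
    (Nat.add (Nat.mul (Nat.mul (Nat.land u2 M) (Nat.sub X (Nat.land u2 M))) 36)
    (Nat.add (Nat.mul (Nat.mul (Nat.land u3 M) (Nat.sub X (Nat.land u3 M))) 36)
    (Nat.add (Nat.mul (Nat.mul (Nat.land u4 M) (Nat.sub X (Nat.land u4 M))) 36)
    (Nat.add (Nat.mul (Nat.mul (Nat.land u5 M) (Nat.sub X (Nat.land u5 M))) 36)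
    (Nat.add (Nat.mul (Nat.mul (Nat.land u6 M) (Nat.sub X (Nat.land u6 M))) 36)
    (Nat.add (Nat.mul (Nat.mul (Nat.land u7 M) (Nat.sub X (Nat.land u7 M))) 36)
    (Nat.add (Nat.mul (Nat.mul (Nat.land u8 M) (Nat.sub X (Nat.land u8 M))) 18)
    (Nat.add (Nat.mul (Nat.mul (Nat.land u9 M) (Nat.sub X (Nat.land u9 M))) 36)
    (Nat.add (Nat.mul (Nat.mul (Nat.land u10 M) (Nat.sub X (Nat.land u10 M))) 36)
    (Nat.add (Nat.mul (Nat.mul (Nat.land u11 M) (Nat.sub X (Nat.land u11 M))) 36)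
    (Nat.add (Nat.mul (Nat.mul (Nat.land u12 M) (Nat.sub X (Nat.land u12 M))) 18)
    (Nat.add (Nat.mul (Nat.mul (Nat.land u13 M) (Nat.sub X (Nat.land u13 M))) 36)
    (Nat.add (Nat.mul (Nat.mul (Nat.land u14 M) (Nat.sub X (Nat.land u14 M))) 36)
    (Nat.add (Nat.mul (Nat.mul (Nat.land u15 M) (Nat.sub X (Nat.land u15 M))) 36)
    (Nat.add (Nat.mul (Nat.mul (Nat.land u16 M) (Nat.sub X (Nat.land u16 M))) 36)
    (Nat.add (Nat.mul (Nat.mul (Nat.land u17 M) (Nat.sub X (Nat.land u17 M))) 36)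
    (Nat.add (Nat.mul (Nat.mul (Nat.land u18 M) (Nat.sub X (Nat.land u18 M))) 36)
    (Nat.add (Nat.mul (Nat.mul (Nat.land u19 M) (Nat.sub X (Nat.land u19 M))) 36)
    (Nat.add (Nat.mul (Nat.mul (Nat.land u20 M) (Nat.sub X (Nat.land u20 M))) 36)
    (Nat.add (Nat.mul (Nat.mul (Nat.land u21 M) (Nat.sub X (Nat.land u21 M))) 36)
    (Nat.add (Nat.mul (Nat.mul (Nat.land u22 M) (Nat.sub X (Nat.land u22 M))) 18)
    (Nat.add (Nat.mul (Nat.mul (Nat.land u23 M) (Nat.sub X (Nat.land u23 M))) 36)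
    (Nat.add (Nat.mul (Nat.mul (Nat.land u24 M) (Nat.sub X (Nat.land u24 M))) 36)
    (Nat.add (Nat.mul (Nat.mul (Nat.land u25 M) (Nat.sub X (Nat.land u25 M))) 36)
    (Nat.add (Nat.mul (Nat.mul (Nat.land u26 M) (Nat.sub X (Nat.land u26 M))) 36)
    (Nat.add (Nat.mul (Nat.mul (Nat.land u27 M) (Nat.sub X (Nat.land u27 M))) 36)
    (Nat.add (Nat.mul (Nat.mul (Nat.land u28 M) (Nat.sub X (Nat.land u28 M))) 36)
    (Nat.add (Nat.mul (Nat.mul (Nat.land u29 M) (Nat.sub X (Nat.land u29 M))) 36)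
    (Nat.add (Nat.mul (Nat.mul (Nat.land u30 M) (Nat.sub X (Nat.land u30 M))) 18)
    (Nat.add (Nat.mul (Nat.mul (Nat.land u31 M) (Nat.sub X (Nat.land u31 M))) 36)
    (Nat.add (Nat.mul (Nat.mul (Nat.land u32 M) (Nat.sub X (Nat.land u32 M))) 36)
    (Nat.add (Nat.mul (Nat.mul (Nat.land u33 M) (Nat.sub X (Nat.land u33 M))) 36)
    (Nat.add (Nat.mul (Nat.mul (Nat.land u34 M) (Nat.sub X (Nat.land u34 M))) 36)
    (Nat.add (Nat.mul (Nat.mul (Nat.land u35 M) (Nat.sub X (Nat.land u35 M))) 36)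
    (Nat.add (Nat.mul (Nat.mul (Nat.land u36 M) (Nat.sub X (Nat.land u36 M))) 36)
    (Nat.add (Nat.mul (Nat.mul (Nat.land u37 M) (Nat.sub X (Nat.land u37 M))) 36)
    (Nat.add (Nat.mul (Nat.mul (Nat.land u38 M) (Nat.sub X (Nat.land u38 M))) 36)
    (Nat.add (Nat.mul (Nat.mul (Nat.land u39 M) (Nat.sub X (Nat.land u39 M))) 18)
    (Nat.add (Nat.mul (Nat.mul (Nat.land u40 M) (Nat.sub X (Nat.land u40 M))) 36)
    (Nat.add (Nat.mul (Nat.mul (Nat.land u41 M) (Nat.sub X (Nat.land u41 M))) 36)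
    (Nat.add (Nat.mul (Nat.mul (Nat.land u42 M) (Nat.sub X (Nat.land u42 M))) 36)
    (Nat.add (Nat.mul (Nat.mul (Nat.land u43 M) (Nat.sub X (Nat.land u43 M))) 36)
    (Nat.add (Nat.mul (Nat.mul (Nat.land u44 M) (Nat.sub X (Nat.land u44 M))) 36)
    (Nat.add (Nat.mul (Nat.mul (Nat.land u45 M) (Nat.sub X (Nat.land u45 M))) 36)
    (Nat.add (Nat.mul (Nat.mul (Nat.land u46 M) (Nat.sub X (Nat.land u46 M))) 36)
    (Nat.add (Nat.mul (Nat.mul (Nat.land u47 M) (Nat.sub X (Nat.land u47 M))) 18)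
    (Nat.add (Nat.mul (Nat.mul (Nat.land u48 M) (Nat.sub X (Nat.land u48 M))) 18)
    (Nat.add (Nat.mul (Nat.mul (Nat.land u49 M) (Nat.sub X (Nat.land u49 M))) 18)
    (Nat.add (Nat.mul (Nat.mul (Nat.land u50 M) (Nat.sub X (Nat.land u50 M))) 36)
    (Nat.add (Nat.mul (Nat.mul (Nat.land u51 M) (Nat.sub X (Nat.land u51 M))) 36)
    (Nat.add (Nat.mul (Nat.mul (Nat.land u52 M) (Nat.sub X (Nat.land u52 M))) 36)
    (Nat.add (Nat.mul (Nat.mul (Nat.land u53 M) (Nat.sub X (Nat.land u53 M))) 36)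
    (Nat.add (Nat.mul (Nat.mul (Nat.land u54 M) (Nat.sub X (Nat.land u54 M))) 36)
    (Nat.add (Nat.mul (Nat.mul (Nat.land u55 M) (Nat.sub X (Nat.land u55 M))) 36)
    (Nat.add (Nat.mul (Nat.mul (Nat.land u56 M) (Nat.sub X (Nat.land u56 M))) 36)
    (Nat.add (Nat.mul (Nat.mul (Nat.land u57 M) (Nat.sub X (Nat.land u57 M))) 36)
    (Nat.add (Nat.mul (Nat.mul (Nat.land u58 M) (Nat.sub X (Nat.land u58 M))) 36)
    (Nat.add (Nat.mul (Nat.mul (Nat.land u59 M) (Nat.sub X (Nat.land u59 M))) 36)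
    (Nat.add (Nat.mul (Nat.mul (Nat.land u60 M) (Nat.sub X (Nat.land u60 M))) 36)
    (Nat.add (Nat.mul (Nat.mul (Nat.land u61 M) (Nat.sub X (Nat.land u61 M))) 18)
    (Nat.add (Nat.mul (Nat.mul (Nat.land u62 M) (Nat.sub X (Nat.land u62 M))) 36)
    (Nat.add (Nat.mul (Nat.mul (Nat.land u63 M) (Nat.sub X (Nat.land u63 M))) 18)
    (Nat.add (Nat.mul (Nat.mul (Nat.land u64 M) (Nat.sub X (Nat.land u64 M))) 36)
    (Nat.add (Nat.mul (Nat.mul (Nat.land u65 M) (Nat.sub X (Nat.land u65 M))) 36)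
    (Nat.add (Nat.mul (Nat.mul (Nat.land u66 M) (Nat.sub X (Nat.land u66 M))) 18)
    (Nat.add (Nat.mul (Nat.mul (Nat.land u67 M) (Nat.sub X (Nat.land u67 M))) 18)
    0))))))))))))))))))))))))))))))))))))))))))))))))))))))))))))))))))))

def sqB1 (z0 z1 z2 z3 z4 z5 z6 z7 z8 z9 z10 z11 : Nat) : Nat :=
  sqA1 (Nat.shiftLeft 1 146) (Nat.sub (Nat.shiftLeft 1 146) 1)
    z0
    (Nat.shiftRight z0 146)
    (Nat.shiftRight (Nat.shiftRight z0 146) 146)
    (Nat.shiftRight (Nat.shiftRight (Nat.shiftRight z0 146) 146) 146)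
    (Nat.shiftRight (Nat.shiftRight (Nat.shiftRight (Nat.shiftRight z0 146) 146) 146) 146)
    (Nat.shiftRight (Nat.shiftRight (Nat.shiftRight (Nat.shiftRight (Nat.shiftRight z0 146) 146) 146) 146) 146)
    z1
    (Nat.shiftRight z1 146)
    (Nat.shiftRight (Nat.shiftRight z1 146) 146)
    (Nat.shiftRight (Nat.shiftRight (Nat.shiftRight z1 146) 146) 146)
    (Nat.shiftRight (Nat.shiftRight (Nat.shiftRight (Nat.shiftRight z1 146) 146) 146) 146)
    (Nat.shiftRight (Nat.shiftRight (Nat.shiftRight (Nat.shiftRight (Nat.shiftRight z1 146) 146) 146) 146) 146)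
    z2
    (Nat.shiftRight z2 146)
    (Nat.shiftRight (Nat.shiftRight z2 146) 146)
    (Nat.shiftRight (Nat.shiftRight (Nat.shiftRight z2 146) 146) 146)
    (Nat.shiftRight (Nat.shiftRight (Nat.shiftRight (Nat.shiftRight z2 146) 146) 146) 146)
    (Nat.shiftRight (Nat.shiftRight (Nat.shiftRight (Nat.shiftRight (Nat.shiftRight z2 146) 146) 146) 146) 146)
    z3
    (Nat.shiftRight z3 146)
    (Nat.shiftRight (Nat.shiftRight z3 146) 146)
    (Nat.shiftRight (Nat.shiftRight (Nat.shiftRight z3 146) 146) 146)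
    (Nat.shiftRight (Nat.shiftRight (Nat.shiftRight (Nat.shiftRight z3 146) 146) 146) 146)
    (Nat.shiftRight (Nat.shiftRight (Nat.shiftRight (Nat.shiftRight (Nat.shiftRight z3 146) 146) 146) 146) 146)
    z4
    (Nat.shiftRight z4 146)
    (Nat.shiftRight (Nat.shiftRight z4 146) 146)
    (Nat.shiftRight (Nat.shiftRight (Nat.shiftRight z4 146) 146) 146)
    (Nat.shiftRight (Nat.shiftRight (Nat.shiftRight (Nat.shiftRight z4 146) 146) 146) 146)
    (Nat.shiftRight (Nat.shiftRight (Nat.shiftRight (Nat.shiftRight (Nat.shiftRight z4 146) 146) 146) 146) 146)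
    z5
    (Nat.shiftRight z5 146)
    (Nat.shiftRight (Nat.shiftRight z5 146) 146)
    (Nat.shiftRight (Nat.shiftRight (Nat.shiftRight z5 146) 146) 146)
    (Nat.shiftRight (Nat.shiftRight (Nat.shiftRight (Nat.shiftRight z5 146) 146) 146) 146)
    (Nat.shiftRight (Nat.shiftRight (Nat.shiftRight (Nat.shiftRight (Nat.shiftRight z5 146) 146) 146) 146) 146)
    z6
    (Nat.shiftRight z6 146)
    (Nat.shiftRight (Nat.shiftRight z6 146) 146)
    (Nat.shiftRight (Nat.shiftRight (Nat.shiftRight z6 146) 146) 146)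
    (Nat.shiftRight (Nat.shiftRight (Nat.shiftRight (Nat.shiftRight z6 146) 146) 146) 146)
    (Nat.shiftRight (Nat.shiftRight (Nat.shiftRight (Nat.shiftRight (Nat.shiftRight z6 146) 146) 146) 146) 146)
    z7
    (Nat.shiftRight z7 146)
    (Nat.shiftRight (Nat.shiftRight z7 146) 146)
    (Nat.shiftRight (Nat.shiftRight (Nat.shiftRight z7 146) 146) 146)
    (Nat.shiftRight (Nat.shiftRight (Nat.shiftRight (Nat.shiftRight z7 146) 146) 146) 146)
    (Nat.shiftRight (Nat.shiftRight (Nat.shiftRight (Nat.shiftRight (Nat.shiftRight z7 146) 146) 146) 146) 146)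
    z8
    (Nat.shiftRight z8 146)
    (Nat.shiftRight (Nat.shiftRight z8 146) 146)
    (Nat.shiftRight (Nat.shiftRight (Nat.shiftRight z8 146) 146) 146)
    (Nat.shiftRight (Nat.shiftRight (Nat.shiftRight (Nat.shiftRight z8 146) 146) 146) 146)
    (Nat.shiftRight (Nat.shiftRight (Nat.shiftRight (Nat.shiftRight (Nat.shiftRight z8 146) 146) 146) 146) 146)
    z9
    (Nat.shiftRight z9 146)
    (Nat.shiftRight (Nat.shiftRight z9 146) 146)
    (Nat.shiftRight (Nat.shiftRight (Nat.shiftRight z9 146) 146) 146)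
    (Nat.shiftRight (Nat.shiftRight (Nat.shiftRight (Nat.shiftRight z9 146) 146) 146) 146)
    (Nat.shiftRight (Nat.shiftRight (Nat.shiftRight (Nat.shiftRight (Nat.shiftRight z9 146) 146) 146) 146) 146)
    z10
    (Nat.shiftRight z10 146)
    (Nat.shiftRight (Nat.shiftRight z10 146) 146)
    (Nat.shiftRight (Nat.shiftRight (Nat.shiftRight z10 146) 146) 146)
    (Nat.shiftRight (Nat.shiftRight (Nat.shiftRight (Nat.shiftRight z10 146) 146) 146) 146)
    (Nat.shiftRight (Nat.shiftRight (Nat.shiftRight (Nat.shiftRight (Nat.shiftRight z10 146) 146) 146) 146) 146)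
    z11
    (Nat.shiftRight z11 146)

def sqC1 (u : Nat) : Nat :=
  sqB1
    u
    (sh6 146 u)
    (sh6 146 (sh6 146 u))
    (sh6 146 (sh6 146 (sh6 146 u)))
    (sh6 146 (sh6 146 (sh6 146 (sh6 146 u))))
    (sh6 146 (sh6 146 (sh6 146 (sh6 146 (sh6 146 u)))))
    (sh6 146 (sh6 146 (sh6 146 (sh6 146 (sh6 146 (sh6 146 u))))))
    (sh6 146 (sh6 146 (sh6 146 (sh6 146 (sh6 146 (sh6 146 (sh6 146 u)))))))
    (sh6 146 (sh6 146 (sh6 146 (sh6 146 (sh6 146 (sh6 146 (sh6 146 (sh6 146 u))))))))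
    (sh6 146 (sh6 146 (sh6 146 (sh6 146 (sh6 146 (sh6 146 (sh6 146 (sh6 146 (sh6 146 u)))))))))
    (sh6 146 (sh6 146 (sh6 146 (sh6 146 (sh6 146 (sh6 146 (sh6 146 (sh6 146 (sh6 146 (sh6 146 u))))))))))
    (sh6 146 (sh6 146 (sh6 146 (sh6 146 (sh6 146 (sh6 146 (sh6 146 (sh6 146 (sh6 146 (sh6 146 (sh6 146 u)))))))))))

noncomputable def sq1 (v : Nat) : Nat := sqC1 (Nat.add v (offs 146 (Nat.shiftLeft 1 (Nat.sub 146 1)) ch1))

theorem sq_eq1 : sq1 = sqF 146 ch1 := Eq.refl sq1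

theorem side_ok1 : sideOK 9 146 mask cf9 ch1 = true := by decide +kernel

theorem cover : beqP (repL 9 7) (ch0 ++ (ch1 ++ [])) = true := by decide +kernel

theorem len_ok : (secL 9 7 0 []).length = 2304 := by decide +kernel

theorem wt_ok : (List.map Prod.snd (ch0 ++ (ch1 ++ []))).sum = 4608 := by decide +kernel

end Vale.Agent.P348.A9_7
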