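import Vale.Agent.P348.KCore2
import Vale.Agent.P348.Poly

set_option maxRecDepth 1000000
set_option maxHeartbeats 0
set_option linter.all false

namespace Vale.Agent.P348.A9_8

def mask : Nat := nat_lit 2996754740934846538383337884595286541002664062839912595727627876783228076662266340195695802449840141525568544670280849320088150411702453753653680831218770747527839226366088305316069486369408810486079835635845717229592645398416383684081957554512408566793387351348421349989586113472399624429609490364400872361148760942977408014216557554138682440665120625778516802973052364368854885396673266061475283941289816286756378655236346403224241450928051868652809586669216954752342161186260390525854450640174386506861204924117669041857758743598753097150322579062694066372456853626760977826275471300312196366898679977291601983834998208567887019500673803552873405502470443756085751463044307878988471813862138767955991584736715625742369920797674411002516577993520557105429342581257023218932674686479187351885321683261234764460688334750549876556479034976683948381337999453432103632869824266102214219432289577538910475730590838491159325978131649945771840692891092717649626726698089635141224273685522677760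

def KK : Type :=
    Nat → Nat → Nat → Nat → Nat → Nat → Nat → Nat → Nat → Nat → Nat → Nat → Nat → Nat → Nat → Nat →
    Nat → Nat → Nat → Nat → Nat → Nat → Nat → Nat → Nat → Nat → Nat → Nat → Nat → Nat → Nat → Nat →
    Nat → Nat → Nat → Nat → Nat → Nat → Nat → Nat → Nat → Nat → Nat → Nat → Nat → Nat → Nat → Nat →
    Nat → Nat → Nat → Nat → Nat → Nat → Nat → Nat → Nat → Nat → Nat → Nat → Nat → Nat → Nat → Nat →
    Nat → Nat → Nat → Nat → Nat → Nat → Nat → Nat → Nat → Nat → Nat → Nat → Nat → Nat → Nat → Nat →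
    Nat → Nat → Nat → Nat → Nat → Nat → Nat → Nat → Nat → Nat → Nat → Nat → Nat → Nat → Nat → Nat →
    Nat → Nat → Nat → Nat → Nat → Nat → Nat → Nat → Nat → Nat → Nat → Nat → Nat → Nat → Nat → Nat →
    Nat → Nat → Nat → Nat → Nat → Nat → Nat → Nat → Nat → Nat → Nat → Nat → Nat → Nat → Nat → Nat →
    Nat → Nat → Nat → Nat → Nat → Nat → Nat → Nat → Nat → Nat → Nat → Nat → Nat → Nat → Nat → Nat →
    Nat → Nat → Nat → Nat → Nat → Nat → Nat → Nat → Nat → Nat → Nat → Nat → Nat → Nat → Nat → Nat →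
    Nat → Nat → Nat → Nat → Nat → Nat → Nat → Nat → Nat → Nat → Nat → Nat → Nat → Nat → Nat → Nat →
    Nat → Nat → Nat → Nat → Nat → Nat → Nat → Nat → Nat → Nat → Nat → Nat → Nat → Nat → Nat → Nat →
    Nat → Nat → Nat → Nat → Nat → Nat → Nat → Nat → Nat → Nat → Nat → Nat → Nat → Nat → Nat → Nat →
    Nat → Nat → Nat → Nat → Nat → Nat → Nat → Nat → Nat → Nat → Nat → Nat → Nat → Nat → Nat → Nat →
    Nat → Nat → Nat → Nat → Nat → Nat → Nat → Nat → Nat → Nat → Nat → Nat → Nat → Nat → Nat → Nat →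
    Nat → Nat → Nat → Nat → Nat → Nat → Nat → Nat → Nat → Nat → Nat → Nat → Nat → Nat → Nat → Nat →
    Nat → Nat → Nat → Nat → Nat → Nat → Nat → Nat → Nat → Nat → Nat → Nat → Nat → Nat → Nat → Nat →
    Nat → Nat → Nat → Nat → Nat → Nat → Nat → Nat → Nat → Nat → Nat → Nat → Nat → Nat → Nat → Nat →
    Nat → Nat → Nat → Nat → Nat → Nat → Nat → Nat → Nat → Nat → Nat → Nat → Nat → Nat → Nat → Nat →
    Nat → Nat → Nat → Nat → Nat → Nat → Nat → Nat → Nat → Nat → Nat → Nat → Nat → Nat → Nat → Nat →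
    Nat → Nat → Nat → Nat → Nat → Nat → Nat → Nat → Nat → Nat → Nat → Nat → Nat → Nat → Nat → Nat →
    Nat → Nat → Nat → Nat → Nat → Nat → Nat → Nat → Nat → Nat → Nat → Nat → Nat → Nat → Nat → Nat →
    Nat → Nat → Nat → Nat → Nat → Nat → Nat → Nat → Nat → Nat → Nat → Nat → Nat → Nat → Nat → Nat →
    Nat → Nat → Nat → Nat → Nat → Nat → Nat → Nat → Nat → Nat → Nat → Nat → Nat → Nat → Nat → Nat →
    Nat → Nat → Nat → Nat → Nat → Nat → Nat → Nat → Nat → Nat → Nat → Nat → Nat → Nat → Nat → Nat →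
    Nat → Nat → Nat → Nat → Nat → Nat → Nat → Nat → Nat → Nat → Nat → Nat → Nat → Nat → Nat → Nat →
    Nat → Nat → Nat → Nat → Nat → Nat → Nat → Nat → Nat → Nat → Nat → Nat → Nat → Nat → Nat → Nat →
    Nat → Nat → Nat → Nat → Nat → Nat → Nat → Nat → Nat → Nat → Nat → Nat → Nat → Nat → Nat → Nat →
    Nat → Nat → Nat → Nat → Nat → Nat → Nat → Nat → Nat → Nat → Nat → Nat → Nat → Nat → Nat → Nat →
    Nat → Nat → Nat → Nat → Nat → Nat → Nat → Nat → Nat → Nat → Nat → Nat → Nat → Nat → Nat → Nat →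
    Nat → Nat → Nat → Nat → Nat → Nat → Nat → Nat → Nat → Nat → Nat → Nat → Nat → Nat → Nat → Nat →
    Nat → Nat → Nat → Nat → Nat → Nat → Nat → Nat → Nat → Nat → Nat → Nat → Nat → Nat → Nat → Nat →
    Nat → Nat → Nat → Nat → Nat → Nat → Nat → Nat → Nat → Nat → Nat → Nat → Nat → Nat → Nat → Nat →
    Nat → Nat → Nat → Nat → Nat → Nat → Nat → Nat → Nat → Nat → Nat → Nat → Nat → Nat → Nat → Nat →
    Nat → Nat → Nat → Nat → Nat → Nat → Nat → Nat → Nat → Nat → Nat → Nat → Nat → Nat → Nat → Nat →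
    Nat → Nat → Nat → Nat → Nat → Nat → Nat → Nat → Nat → Nat → Nat → Nat → Nat → Nat → Nat → Nat →
    Nat → Nat → Nat → Nat → Nat → Nat → Nat → Nat → Nat → Nat → Nat → Nat → Nat → Nat → Nat → Nat →
    Nat → Nat → Nat → Nat → Nat → Nat → Nat → Nat → Nat → Nat → Nat → Nat → Nat → Nat → Nat → Nat →
    Nat → Nat → Nat → Nat → Nat → Nat → Nat → Nat → Nat → Nat → Nat → Nat → Nat → Nat → Nat → Nat →
    Nat → Nat → Nat → Nat → Nat → Nat → Nat → Nat → Nat → Nat → Nat → Nat → Nat → Nat → Nat → Nat →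
    Nat → Nat → Nat → Nat → Nat → Nat → Nat → Nat → Nat → Nat → Nat → Nat → Nat → Nat → Nat → Nat →
    Nat → Nat → Nat → Nat → Nat → Nat → Nat → Nat → Nat → Nat → Nat → Nat → Nat → Nat → Nat → Nat →
    Nat → Nat → Nat → Nat → Nat → Nat → Nat → Nat → Nat → Nat → Nat → Nat → Nat → Nat → Nat → Nat →
    Nat → Nat → Nat → Nat → Nat → Nat → Nat → Nat → Nat → Nat → Nat → Nat → Nat → Nat → Nat → Nat →
    Nat → Nat → Nat → Nat → Nat → Nat → Nat → Nat → Nat → Nat → Nat → Nat → Nat → Nat → Nat → Nat →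
    Nat → Nat → Nat → Nat → Nat → Nat → Nat → Nat → Nat → Nat → Nat → Nat → Nat → Nat → Nat → Nat →
    Nat → Nat → Nat → Nat → Nat → Nat → Nat → Nat → Nat → Nat → Nat → Nat → Nat → Nat → Nat → Nat →
    Nat → Nat → Nat → Nat → Nat → Nat → Nat → Nat → Nat → Nat → Nat → Nat → Nat → Nat → Nat → Nat →
    Nat → Nat → Nat → Nat → Nat → Nat → Nat → Nat → Nat → Nat → Nat → Nat → Nat → Nat → Nat → Nat →
    Nat → Nat → Nat → Nat → Nat → Nat → Nat → Nat → Nat → Nat → Nat → Nat → Nat → Nat → Nat → Nat →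
    Nat → Nat → Nat → Nat → Nat → Nat → Nat → Nat → Nat → Nat → Nat → Nat → Nat → Nat → Nat → Nat →
    Nat → Nat → Nat → Nat → Nat → Nat → Nat → Nat → Nat → Nat → Nat → Nat → Nat → Nat → Nat → Nat →
    Nat → Nat → Nat → Nat → Nat → Nat → Nat → Nat → Nat → Nat → Nat → Nat → Nat → Nat → Nat → Nat →
    Nat → Nat → Nat → Nat → Nat → Nat → Nat → Nat → Nat → Nat → Nat → Nat → Nat → Nat → Nat → Nat →
    Nat → Nat → Nat → Nat → Nat → Nat → Nat → Nat → Nat → Nat → Nat → Nat → Nat → Nat → Nat → Nat →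
    Nat → Nat → Nat → Nat → Nat → Nat → Nat → Nat → Nat → Nat → Nat → Nat → Nat → Nat → Nat → Nat →
    Nat → Nat → Nat → Nat → Nat → Nat → Nat → Nat → Nat → Nat → Nat → Nat → Nat → Nat → Nat → Nat →
    Nat → Nat → Nat → Nat → Nat → Nat → Nat → Nat → Nat → Nat → Nat → Nat → Nat → Nat → Nat → Nat →
    Nat → Nat → Nat → Nat → Nat → Nat → Nat → Nat → Nat → Nat → Nat → Nat → Nat → Nat → Nat → Nat →
    Nat → Nat → Nat → Nat → Nat → Nat → Nat → Nat → Nat → Nat → Nat → Nat → Nat → Nat → Nat → Nat →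
    Nat → Nat → Nat → Nat → Nat → Nat → Nat → Nat → Nat → Nat → Nat → Nat → Nat → Nat → Nat → Nat →
    Nat → Nat → Nat → Nat → Nat → Nat → Nat → Nat → Nat → Nat → Nat → Nat → Nat → Nat → Nat → Nat →
    Nat → Nat → Nat → Nat → Nat → Nat → Nat → Nat → Nat → Nat → Nat → Nat → Nat → Nat → Nat → Nat →
    Nat → Nat → Nat → Nat → Nat → Nat → Nat → Nat → Nat → Nat → Nat → Nat → Nat → Nat → Nat → Nat →
    Nat → Nat → Nat → Nat → Nat → Nat → Nat → Nat → Nat → Nat → Nat → Nat → Nat → Nat → Nat → Nat →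
    Nat → Nat → Nat → Nat → Nat → Nat → Nat → Nat → Nat → Nat → Nat → Nat → Nat → Nat → Nat → Nat →
    Nat → Nat → Nat → Nat → Nat → Nat → Nat → Nat → Nat → Nat → Nat → Nat → Nat → Nat → Nat → Nat →
    Nat → Nat → Nat → Nat → Nat → Nat → Nat → Nat → Nat → Nat → Nat → Nat → Nat → Nat → Nat → Nat →
    Nat → Nat → Nat → Nat → Nat → Nat → Nat → Nat → Nat → Nat → Nat → Nat → Nat → Nat → Nat → Nat →
    Nat → Nat → Nat → Nat → Nat → Nat → Nat → Nat → Nat → Nat → Nat → Nat → Nat → Nat → Nat → Nat →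
    Nat → Nat → Nat → Nat → Nat → Nat → Nat → Nat → Nat → Nat → Nat → Nat → Nat → Nat → Nat → Nat →
    Nat → Nat → Nat → Nat → Nat → Nat → Nat → Nat → Nat → Nat → Nat → Nat → Nat → Nat → Nat → Nat →
    Nat → Nat → Nat → Nat → Nat → Nat → Nat → Nat → Nat → Nat → Nat → Nat → Nat → Nat → Nat → Nat →
    Nat → Nat → Nat → Nat → Nat → Nat → Nat → Nat → Nat → Nat → Nat → Nat → Nat → Nat → Nat → Nat →
    Nat → Nat → Nat → Nat → Nat → Nat → Nat → Nat → Nat → Nat → Nat → Nat → Nat → Nat → Nat → Nat →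
    Nat → Nat → Nat → Nat → Nat → Nat → Nat → Nat → Nat → Nat → Nat → Nat → Nat → Nat → Nat → Nat →
    Nat → Nat → Nat → Nat → Nat → Nat → Nat → Nat → Nat → Nat → Nat → Nat → Nat → Nat → Nat → Nat →
    Nat → Nat → Nat → Nat → Nat → Nat → Nat → Nat → Nat → Nat → Nat → Nat → Nat → Nat → Nat → Nat →
    Nat → Nat → Nat → Nat → Nat → Nat → Nat → Nat → Nat → Nat → Nat → Nat → Nat → Nat → Nat → Nat →
    Nat → Nat → Nat → Nat → Nat → Nat → Nat → Nat → Nat → Nat → Nat → Nat → Nat → Nat → Nat → Nat →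
    Nat → Nat → Nat → Nat → Nat → Nat → Nat → Nat → Nat → Nat → Nat → Nat → Nat → Nat → Nat → Nat →
    Nat → Nat → Nat → Nat → Nat → Nat → Nat → Nat → Nat → Nat → Nat → Nat → Nat → Nat → Nat → Nat →
    Nat → Nat → Nat → Nat → Nat → Nat → Nat → Nat → Nat → Nat → Nat → Nat → Nat → Nat → Nat → Nat →
    Nat → Nat → Nat → Nat → Nat → Nat → Nat → Nat → Nat → Nat → Nat → Nat → Nat → Nat → Nat → Nat →
    Nat → Nat → Nat → Nat → Nat → Nat → Nat → Nat → Nat → Nat → Nat → Nat → Nat → Nat → Nat → Nat →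
    Nat → Nat → Nat → Nat → Nat → Nat → Nat → Nat → Nat → Nat → Nat → Nat → Nat → Nat → Nat → Nat →
    Nat → Nat → Nat → Nat → Nat → Nat → Nat → Nat → Nat → Nat → Nat → Nat → Nat → Nat → Nat → Nat →
    Nat → Nat → Nat → Nat → Nat → Nat → Nat → Nat → Nat → Nat → Nat → Nat → Nat → Nat → Nat → Nat →
    Nat → Nat → Nat → Nat → Nat → Nat → Nat → Nat → Nat → Nat → Nat → Nat → Nat → Nat → Nat → Nat →
    Nat → Nat → Nat → Nat → Nat → Nat → Nat → Nat → Nat → Nat → Nat → Nat → Nat → Nat → Nat → Nat →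
    Nat → Nat → Nat → Nat → Nat → Nat → Nat → Nat → Nat → Nat → Nat → Nat → Nat → Nat → Nat → Nat →
    Nat → Nat → Nat → Nat → Nat → Nat → Nat → Nat → Nat → Nat → Nat → Nat → Nat → Nat → Nat → Nat →
    Nat → Nat → Nat → Nat → Nat → Nat → Nat → Nat → Nat → Nat → Nat → Nat → Nat → Nat → Nat → Nat →
    Nat → Nat → Nat → Nat → Nat → Nat → Nat → Nat → Nat → Nat → Nat → Nat → Nat → Nat → Nat → Nat →
    Nat → Nat → Nat → Nat → Nat → Nat → Nat → Nat → Nat → Nat → Nat → Nat → Nat → Nat → Nat → Nat →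
    Nat → Nat → Nat → Nat → Nat → Nat → Nat → Nat → Nat → Nat → Nat → Nat → Nat → Nat → Nat → Nat →
    Nat → Nat → Nat → Nat → Nat → Nat → Nat → Nat → Nat → Nat → Nat → Nat → Nat → Nat → Nat → Nat →
    Nat → Nat → Nat → Nat → Nat → Nat → Nat → Nat → Nat → Nat → Nat → Nat → Nat → Nat → Nat → Nat →
    Nat → Nat → Nat → Nat → Nat → Nat → Nat → Nat → Nat → Nat → Nat → Nat → Nat → Nat → Nat → Nat →
    Nat → Nat → Nat → Nat → Nat → Nat → Nat → Nat → Nat → Nat → Nat → Nat → Nat → Nat → Nat → Nat →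
    Nat → Nat → Nat → Nat → Nat → Nat → Nat → Nat → Nat → Nat → Nat → Nat → Nat → Nat → Nat → Nat →
    Nat → Nat → Nat → Nat → Nat → Nat → Nat → Nat → Nat → Nat → Nat → Nat → Nat → Nat → Nat → Nat →
    Nat → Nat → Nat → Nat → Nat → Nat → Nat → Nat → Nat → Nat → Nat → Nat → Nat → Nat → Nat → Nat →
    Nat → Nat → Nat → Nat → Nat → Nat → Nat → Nat → Nat → Nat → Nat → Nat → Nat → Nat → Nat → Nat →
    Nat → Nat → Nat → Nat → Nat → Nat → Nat → Nat → Nat → Nat → Nat → Nat → Nat → Nat → Nat → Nat →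
    Nat → Nat → Nat → Nat → Nat → Nat → Nat → Nat → Nat → Nat → Nat → Nat → Nat → Nat → Nat → Nat →
    Nat → Nat → Nat → Nat → Nat → Nat → Nat → Nat → Nat → Nat → Nat → Nat → Nat → Nat → Nat → Nat →
    Nat → Nat → Nat → Nat → Nat → Nat → Nat → Nat → Nat → Nat → Nat → Nat → Nat → Nat → Nat → Nat →
    Nat → Nat → Nat → Nat → Nat → Nat → Nat → Nat → Nat → Nat → Nat → Nat → Nat → Nat → Nat → Nat →
    Nat → Nat → Nat → Nat → Nat → Nat → Nat → Nat → Nat → Nat → Nat → Nat → Nat → Nat → Nat → Nat →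
    Nat → Nat → Nat → Nat → Nat → Nat → Nat → Nat → Nat → Nat → Nat → Nat → Nat → Nat → Nat → Nat →
    Nat → Nat → Nat → Nat → Nat → Nat → Nat → Nat → Nat → Nat → Nat → Nat → Nat → Nat → Nat → Nat →
    Nat → Nat → Nat → Nat → Nat → Nat → Nat → Nat → Nat → Nat → Nat → Nat → Nat → Nat → Nat → Nat →
    Nat → Nat → Nat → Nat → Nat → Nat → Nat → Nat → Nat → Nat → Nat → Nat → Nat → Nat → Nat → Nat →
    Nat → Nat → Nat → Nat → Nat → Nat → Nat → Nat → Nat → Nat → Nat → Nat → Nat → Nat → Nat → Nat →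
    Nat → Nat → Nat → Nat → Nat → Nat → Nat → Nat → Nat → Nat → Nat → Nat → Nat → Nat → Nat → Nat →
    Nat → Nat → Nat → Nat → Nat → Nat → Nat → Nat → Nat → Nat → Nat → Nat → Nat → Nat → Nat → Nat →
    Nat → Nat → Nat → Nat → Nat → Nat → Nat → Nat → Nat → Nat → Nat → Nat → Nat → Nat → Nat → Nat →
    Nat → Nat → Nat → Nat → Nat → Nat → Nat → Nat → Nat → Nat → Nat → Nat → Nat → Nat → Nat → Nat →
    Nat → Nat → Nat → Nat → Nat → Nat → Nat → Nat → Nat → Nat → Nat → Nat → Nat → Nat → Nat → Nat →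
    Nat → Nat → Nat → Nat → Nat → Nat → Nat → Nat → Nat → Nat → Nat → Nat → Nat → Nat → Nat → Nat →
    Nat → Nat → Nat → Nat → Nat → Nat → Nat → Nat → Nat → Nat → Nat → Nat → Nat → Nat → Nat → Nat →
    Nat → Nat → Nat → Nat → Nat → Nat → Nat → Nat → Nat → Nat → Nat → Nat → Nat → Nat → Nat → Nat →
    Nat → Nat → Nat → Nat → Nat → Nat → Nat → Nat → Nat → Nat → Nat → Nat → Nat → Nat → Nat → Nat →
    Nat → Nat → Nat → Nat → Nat → Nat → Nat → Nat → Nat → Nat → Nat → Nat → Nat → Nat → Nat → Nat →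
    Nat → Nat → Nat → Nat → Nat → Nat → Nat → Nat → Nat → Nat → Nat → Nat → Nat → Nat → Nat → Nat →
    Nat → Nat → Nat → Nat → Nat → Nat → Nat → Nat → Nat → Nat → Nat → Nat → Nat → Nat → Nat → Nat →
    Nat → Nat → Nat → Nat → Nat → Nat → Nat → Nat → Nat → Nat → Nat → Nat → Nat → Nat → Nat → Nat →
    Nat → Nat → Nat → Nat → Nat → Nat → Nat → Nat → Nat → Nat → Nat → Nat → Nat → Nat → Nat → Nat →
    Nat → Nat → Nat → Nat → Nat → Nat → Nat → Nat → Nat → Nat → Nat → Nat → Nat → Nat → Nat → Nat →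
    Nat → Nat → Nat → Nat → Nat → Nat → Nat → Nat → Nat → Nat → Nat → Nat → Nat → Nat → Nat → Nat →
    Nat → Nat → Nat → Nat → Nat → Nat → Nat → Nat → Nat → Nat → Nat → Nat → Nat → Nat → Nat → Nat →
    Nat → Nat → Nat → Nat → Nat → Nat → Nat → Nat → Nat → Nat → Nat → Nat → Nat → Nat → Nat → Nat →
    Nat → Nat → Nat → Nat → Nat → Nat → Nat → Nat → Nat → Nat → Nat → Nat → Nat → Nat → Nat → Nat →
    Nat → Nat → Nat → Nat → Nat → Nat → Nat → Nat → Nat → Nat → Nat → Nat → Nat → Nat → Nat → Nat →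
    Nat → Nat → Nat → Nat → Nat → Nat → Nat → Nat → Nat → Nat → Nat → Nat → Nat → Nat → Nat → Nat →
    Nat → Nat → Nat → Nat → Nat → Nat → Nat → Nat → Nat → Nat → Nat → Nat → Nat → Nat → Nat → Nat →
    Nat → Nat → Nat → Nat → Nat → Nat → Nat → Nat → Nat → Nat → Nat → Nat → Nat → Nat → Nat → Nat →
    Nat → Nat → Nat → Nat → Nat → Nat → Nat → Nat → Nat → Nat → Nat → Nat → Nat → Nat → Nat → Nat →
    Nat → Nat → Nat → Nat → Nat → Nat → Nat → Nat → Nat → Nat → Nat → Nat → Nat → Nat → Nat → Nat →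
    Nat → Nat → Nat → Nat → Nat → Nat → Nat → Nat → Nat → Nat → Nat → Nat → Nat → Nat → Nat → Nat →
    Nat → Nat → Nat → Nat → Nat → Nat → Nat → Nat → Nat → Nat → Nat → Nat → Nat → Nat → Nat → Nat →
    Nat → Nat → Nat → Nat → Nat → Nat → Nat → Nat → Nat → Nat → Nat → Nat → Nat → Nat → Nat → Nat →
    Nat → Nat → Nat → Nat → Nat → Nat → Nat → Nat → Nat → Nat → Nat → Nat → Nat → Nat → Nat → Nat →
    Nat → Nat → Nat → Nat → Nat → Nat → Nat → Nat → Nat → Nat → Nat → Nat → Nat → Nat → Nat → Nat →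
    Nat → Nat → Nat → Nat → Nat → Nat → Nat → Nat → Nat → Nat → Nat → Nat → Nat → Nat → Nat → Nat →
    Nat → Nat → Nat → Nat → Nat → Nat → Nat → Nat → Nat → Nat → Nat → Nat → Nat → Nat → Nat → Nat →
    Nat → Nat → Nat → Nat → Nat → Nat → Nat → Nat → Nat → Nat → Nat → Nat → Nat → Nat → Nat → Nat →
    Nat → Nat → Nat → Nat → Nat → Nat → Nat → Nat → Nat → Nat → Nat → Nat → Nat → Nat → Nat → Nat →
    Nat → Nat → Nat → Nat → Nat → Nat → Nat → Nat → Nat → Nat → Nat → Nat → Nat → Nat → Nat → Nat →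
    Nat → Nat → Nat → Nat → Nat → Nat → Nat → Nat → Nat → Nat → Nat → Nat → Nat → Nat → Nat → Nat →
    Nat → Nat → Nat → Nat → Nat → Nat → Nat → Nat → Nat → Nat → Nat → Nat → Nat → Nat → Nat → Nat →
    Nat → Nat → Nat → Nat → Nat → Nat → Nat → Nat → Nat → Nat → Nat → Nat → Nat → Nat → Nat → Nat →
    Nat → Nat → Nat → Nat → Nat → Nat → Nat → Nat → Nat → Nat → Nat → Nat → Nat → Nat → Nat → Nat →
    Nat → Nat → Nat → Nat → Nat → Nat → Nat → Nat → Nat → Nat → Nat → Nat → Nat → Nat → Nat → Nat →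
    Nat → Nat → Nat → Nat → Nat → Nat → Nat → Nat → Nat → Nat → Nat → Nat → Nat → Nat → Nat → Nat →
    Nat → Nat → Nat → Nat → Nat → Nat → Nat → Nat → Nat → Nat → Nat → Nat → Nat → Nat → Nat → Nat →
    Nat → Nat → Nat → Nat → Nat → Nat → Nat → Nat → Nat → Nat → Nat → Nat → Nat → Nat → Nat → Nat →
    Nat → Nat → Nat → Nat → Nat → Nat → Nat → Nat → Nat → Nat → Nat → Nat → Nat → Nat → Nat → Nat →
    Nat → Nat → Nat → Nat → Nat → Nat → Nat → Nat → Nat → Nat → Nat → Nat → Nat → Nat → Nat → Nat →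
    Nat → Nat → Nat → Nat → Nat → Nat → Nat → Nat → Nat → Nat → Nat → Nat → Nat → Nat → Nat → Nat →
    Nat → Nat → Nat → Nat → Nat → Nat → Nat → Nat → Nat → Nat → Nat → Nat → Nat → Nat → Nat → Nat →
    Nat → Nat → Nat → Nat → Nat → Nat → Nat → Nat → Nat → Nat → Nat → Nat → Nat → Nat → Nat → Nat →
    Nat → Nat → Nat → Nat → Nat → Nat → Nat → Nat → Nat → Nat → Nat → Nat → Nat → Nat → Nat → Nat →
    Nat → Nat → Nat → Nat → Nat → Nat → Nat → Nat → Nat → Nat → Nat → Nat → Nat → Nat → Nat → Nat →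
    Nat → Nat → Nat → Nat → Nat → Nat → Nat → Nat → Nat → Nat → Nat → Nat → Nat → Nat → Nat → Nat →
    Nat → Nat → Nat → Nat → Nat → Nat → Nat → Nat → Nat → Nat → Nat → Nat → Nat → Nat → Nat → Nat →
    Nat → Nat → Nat → Nat → Nat → Nat → Nat → Nat → Nat → Nat → Nat → Nat → Nat → Nat → Nat → Nat →
    Nat → Nat → Nat → Nat → Nat → Nat → Nat → Nat → Nat → Nat → Nat → Nat → Nat → Nat → Nat → Nat →
    Nat → Nat → Nat → Nat → Nat → Nat → Nat → Nat → Nat → Nat → Nat → Nat → Nat → Nat → Nat → Nat →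
    Nat → Nat → Nat → Nat → Nat → Nat → Nat → Nat → Nat → Nat → Nat → Nat → Nat → Nat → Nat → Nat →
    Nat → Nat → Nat → Nat → Nat → Nat → Nat → Nat → Nat → Nat → Nat → Nat → Nat → Nat → Nat → Nat →
    Nat → Nat → Nat → Nat → Nat → Nat → Nat → Nat → Nat → Nat → Nat → Nat → Nat → Nat → Nat → Nat →
    Nat → Nat → Nat → Nat → Nat → Nat → Nat → Nat → Nat → Nat → Nat → Nat → Nat → Nat → Nat → Nat →
    Nat → Nat → Nat → Nat → Nat → Nat → Nat → Nat → Nat → Nat → Nat → Nat → Nat → Nat → Nat → Nat →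
    Nat → Nat → Nat → Nat → Nat → Nat → Nat → Nat → Nat → Nat → Nat → Nat → Nat → Nat → Nat → Nat →
    Nat → Nat → Nat → Nat → Nat → Nat → Nat → Nat → Nat → Nat → Nat → Nat → Nat → Nat → Nat → Nat →
    Nat → Nat → Nat → Nat → Nat → Nat → Nat → Nat → Nat → Nat → Nat → Nat → Nat → Nat → Nat → Nat →
    Nat → Nat → Nat → Nat → Nat → Nat → Nat → Nat → Nat → Nat → Nat → Nat → Nat → Nat → Nat → Nat →
    Nat → Nat → Nat → Nat → Nat → Nat → Nat → Nat → Nat → Nat → Nat → Nat → Nat → Nat → Nat → Nat →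
    Nat → Nat → Nat → Nat → Nat → Nat → Nat → Nat → Nat → Nat → Nat → Nat → Nat → Nat → Nat → Nat →
    Nat → Nat → Nat → Nat → Nat → Nat → Nat → Nat → Nat → Nat → Nat → Bool

noncomputable def cd0 : List Spec :=
  [Spec.mk (nat_lit 80) (nat_lit 0) [] (nat_lit 0) [] false,
   Spec.mk (nat_lit 134) (nat_lit 0) [] (nat_lit 0) [] false,
   Spec.mk (nat_lit 152) (nat_lit 0) [] (nat_lit 0) [] false,
   Spec.mk (nat_lit 158) (nat_lit 0) [] (nat_lit 0) [] false,
   Spec.mk (nat_lit 160) (nat_lit 0) [] (nat_lit 0) [] false,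
   Spec.mk (nat_lit 188) (nat_lit 0) [] (nat_lit 0) [] false,
   Spec.mk (nat_lit 206) (nat_lit 0) [] (nat_lit 0) [] false,
   Spec.mk (nat_lit 212) (nat_lit 0) [] (nat_lit 0) [] false,
   Spec.mk (nat_lit 214) (nat_lit 0) [] (nat_lit 0) [] false,
   Spec.mk (nat_lit 224) (nat_lit 0) [] (nat_lit 0) [] false,
   Spec.mk (nat_lit 230) (nat_lit 0) [] (nat_lit 0) [] false,
   Spec.mk (nat_lit 232) (nat_lit 0) [] (nat_lit 0) [] false,
   Spec.mk (nat_lit 236) (nat_lit 0) [] (nat_lit 0) [] false,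
   Spec.mk (nat_lit 238) (nat_lit 0) [] (nat_lit 0) [] false,
   Spec.mk (nat_lit 240) (nat_lit 0) [] (nat_lit 0) [] false,
   Spec.mk (nat_lit 296) (nat_lit 0) [] (nat_lit 0) [] false,
   Spec.mk (nat_lit 314) (nat_lit 0) [] (nat_lit 0) [] false,
   Spec.mk (nat_lit 320) (nat_lit 0) [] (nat_lit 0) [] false,
   Spec.mk (nat_lit 322) (nat_lit 0) [] (nat_lit 0) [] false,
   Spec.mk (nat_lit 350) (nat_lit 0) [] (nat_lit 0) [] false,
   Spec.mk (nat_lit 368) (nat_lit 0) [] (nat_lit 0) [] false,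
   Spec.mk (nat_lit 374) (nat_lit 0) [] (nat_lit 0) [] false,
   Spec.mk (nat_lit 376) (nat_lit 0) [] (nat_lit 0) [] false,
   Spec.mk (nat_lit 386) (nat_lit 0) [] (nat_lit 0) [] false,
   Spec.mk (nat_lit 392) (nat_lit 0) [] (nat_lit 0) [] false,
   Spec.mk (nat_lit 394) (nat_lit 0) [] (nat_lit 0) [] false,
   Spec.mk (nat_lit 398) (nat_lit 0) [] (nat_lit 0) [] false,
   Spec.mk (nat_lit 400) (nat_lit 0) [] (nat_lit 0) [] false,
   Spec.mk (nat_lit 402) (nat_lit 0) [] (nat_lit 0) [] false,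
   Spec.mk (nat_lit 422) (nat_lit 0) [] (nat_lit 0) [] false,
   Spec.mk (nat_lit 428) (nat_lit 0) [] (nat_lit 0) [] false,
   Spec.mk (nat_lit 430) (nat_lit 0) [] (nat_lit 0) [] false,
   Spec.mk (nat_lit 440) (nat_lit 0) [] (nat_lit 0) [] false,
   Spec.mk (nat_lit 446) (nat_lit 0) [] (nat_lit 0) [] false,
   Spec.mk (nat_lit 448) (nat_lit 0) [] (nat_lit 0) [] false,
   Spec.mk (nat_lit 452) (nat_lit 0) [] (nat_lit 0) [] false,
   Spec.mk (nat_lit 454) (nat_lit 0) [] (nat_lit 0) [] false,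
   Spec.mk (nat_lit 456) (nat_lit 0) [] (nat_lit 0) [] false,
   Spec.mk (nat_lit 464) (nat_lit 0) [] (nat_lit 0) [] false,
   Spec.mk (nat_lit 466) (nat_lit 0) [] (nat_lit 0) [] false,
   Spec.mk (nat_lit 470) (nat_lit 0) [] (nat_lit 0) [] false,
   Spec.mk (nat_lit 472) (nat_lit 0) [] (nat_lit 0) [] false,
   Spec.mk (nat_lit 474) (nat_lit 0) [] (nat_lit 0) [] false,
   Spec.mk (nat_lit 478) (nat_lit 0) [] (nat_lit 0) [] false,
   Spec.mk (nat_lit 480) (nat_lit 0) [] (nat_lit 0) [] false,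
   Spec.mk (nat_lit 512) (nat_lit 0) [] (nat_lit 0) [] false,
   Spec.mk (nat_lit 530) (nat_lit 0) [] (nat_lit 0) [] false,
   Spec.mk (nat_lit 536) (nat_lit 0) [] (nat_lit 0) [] false,
   Spec.mk (nat_lit 538) (nat_lit 0) [] (nat_lit 0) [] false,
   Spec.mk (nat_lit 548) (nat_lit 0) [] (nat_lit 0) [] false,
   Spec.mk (nat_lit 554) (nat_lit 0) [] (nat_lit 0) [] false,
   Spec.mk (nat_lit 556) (nat_lit 0) [] (nat_lit 0) [] false,
   Spec.mk (nat_lit 560) (nat_lit 0) [] (nat_lit 0) [] false,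
   Spec.mk (nat_lit 562) (nat_lit 0) [] (nat_lit 0) [] false,
   Spec.mk (nat_lit 564) (nat_lit 0) [] (nat_lit 0) [] false,
   Spec.mk (nat_lit 584) (nat_lit 0) [] (nat_lit 0) [] false,
   Spec.mk (nat_lit 590) (nat_lit 0) [] (nat_lit 0) [] false,
   Spec.mk (nat_lit 592) (nat_lit 0) [] (nat_lit 0) [] false,
   Spec.mk (nat_lit 602) (nat_lit 0) [] (nat_lit 0) [] false,
   Spec.mk (nat_lit 608) (nat_lit 0) [] (nat_lit 0) [] false]

noncomputable def cd1 : List Spec :=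
  [Spec.mk (nat_lit 610) (nat_lit 0) [] (nat_lit 0) [] false,
   Spec.mk (nat_lit 614) (nat_lit 0) [] (nat_lit 0) [] false,
   Spec.mk (nat_lit 616) (nat_lit 0) [] (nat_lit 0) [] false,
   Spec.mk (nat_lit 618) (nat_lit 0) [] (nat_lit 0) [] false,
   Spec.mk (nat_lit 626) (nat_lit 0) [] (nat_lit 0) [] false,
   Spec.mk (nat_lit 628) (nat_lit 0) [] (nat_lit 0) [] false,
   Spec.mk (nat_lit 632) (nat_lit 0) [] (nat_lit 0) [] false,
   Spec.mk (nat_lit 634) (nat_lit 0) [] (nat_lit 0) [] false,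
   Spec.mk (nat_lit 636) (nat_lit 0) [] (nat_lit 0) [] false,
   Spec.mk (nat_lit 640) (nat_lit 0) [] (nat_lit 0) [] false,
   Spec.mk (nat_lit 642) (nat_lit 0) [] (nat_lit 0) [] false,
   Spec.mk (nat_lit 656) (nat_lit 0) [] (nat_lit 0) [] false,
   Spec.mk (nat_lit 662) (nat_lit 0) [] (nat_lit 0) [] false,
   Spec.mk (nat_lit 664) (nat_lit 0) [] (nat_lit 0) [] false,
   Spec.mk (nat_lit 668) (nat_lit 0) [] (nat_lit 0) [] false,
   Spec.mk (nat_lit 670) (nat_lit 0) [] (nat_lit 0) [] false,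
   Spec.mk (nat_lit 672) (nat_lit 0) [] (nat_lit 0) [] false,
   Spec.mk (nat_lit 680) (nat_lit 0) [] (nat_lit 0) [] false,
   Spec.mk (nat_lit 682) (nat_lit 0) [] (nat_lit 0) [] false,
   Spec.mk (nat_lit 686) (nat_lit 0) [] (nat_lit 0) [] false,
   Spec.mk (nat_lit 688) (nat_lit 0) [] (nat_lit 0) [] false,
   Spec.mk (nat_lit 690) (nat_lit 0) [] (nat_lit 0) [] false,
   Spec.mk (nat_lit 694) (nat_lit 0) [] (nat_lit 0) [] false,
   Spec.mk (nat_lit 696) (nat_lit 0) [] (nat_lit 0) [] false,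
   Spec.mk (nat_lit 704) (nat_lit 0) [] (nat_lit 0) [] false,
   Spec.mk (nat_lit 706) (nat_lit 0) [] (nat_lit 0) [] false,
   Spec.mk (nat_lit 708) (nat_lit 0) [] (nat_lit 0) [] false,
   Spec.mk (nat_lit 712) (nat_lit 0) [] (nat_lit 0) [] false,
   Spec.mk (nat_lit 714) (nat_lit 0) [] (nat_lit 0) [] false,
   Spec.mk (nat_lit 720) (nat_lit 0) [] (nat_lit 0) [] false,
   Spec.mk (nat_lit 782) (nat_lit 0) [] (nat_lit 0) [] false,
   Spec.mk (nat_lit 800) (nat_lit 0) [] (nat_lit 0) [] false,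
   Spec.mk (nat_lit 806) (nat_lit 0) [] (nat_lit 0) [] false,
   Spec.mk (nat_lit 808) (nat_lit 0) [] (nat_lit 0) [] false,
   Spec.mk (nat_lit 836) (nat_lit 0) [] (nat_lit 0) [] false,
   Spec.mk (nat_lit 854) (nat_lit 0) [] (nat_lit 0) [] false,
   Spec.mk (nat_lit 860) (nat_lit 0) [] (nat_lit 0) [] false,
   Spec.mk (nat_lit 862) (nat_lit 0) [] (nat_lit 0) [] false,
   Spec.mk (nat_lit 872) (nat_lit 0) [] (nat_lit 0) [] false,
   Spec.mk (nat_lit 878) (nat_lit 0) [] (nat_lit 0) [] false,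
   Spec.mk (nat_lit 880) (nat_lit 0) [] (nat_lit 0) [] false,
   Spec.mk (nat_lit 884) (nat_lit 0) [] (nat_lit 0) [] false,
   Spec.mk (nat_lit 886) (nat_lit 0) [] (nat_lit 0) [] false,
   Spec.mk (nat_lit 888) (nat_lit 0) [] (nat_lit 0) [] false,
   Spec.mk (nat_lit 908) (nat_lit 0) [] (nat_lit 0) [] false,
   Spec.mk (nat_lit 914) (nat_lit 0) [] (nat_lit 0) [] false,
   Spec.mk (nat_lit 916) (nat_lit 0) [] (nat_lit 0) [] false,
   Spec.mk (nat_lit 926) (nat_lit 0) [] (nat_lit 0) [] false,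
   Spec.mk (nat_lit 932) (nat_lit 0) [] (nat_lit 0) [] false,
   Spec.mk (nat_lit 934) (nat_lit 0) [] (nat_lit 0) [] false,
   Spec.mk (nat_lit 938) (nat_lit 0) [] (nat_lit 0) [] false,
   Spec.mk (nat_lit 940) (nat_lit 0) [] (nat_lit 0) [] false,
   Spec.mk (nat_lit 942) (nat_lit 0) [] (nat_lit 0) [] false,
   Spec.mk (nat_lit 950) (nat_lit 0) [] (nat_lit 0) [] false,
   Spec.mk (nat_lit 952) (nat_lit 0) [] (nat_lit 0) [] false,
   Spec.mk (nat_lit 956) (nat_lit 0) [] (nat_lit 0) [] false,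
   Spec.mk (nat_lit 958) (nat_lit 0) [] (nat_lit 0) [] false,
   Spec.mk (nat_lit 960) (nat_lit 0) [] (nat_lit 0) [] false,
   Spec.mk (nat_lit 964) (nat_lit 0) [] (nat_lit 0) [] false,
   Spec.mk (nat_lit 966) (nat_lit 0) [] (nat_lit 0) [] false]

noncomputable def cd2 : List Spec :=
  [Spec.mk (nat_lit 998) (nat_lit 0) [] (nat_lit 0) [] false,
   Spec.mk (nat_lit 1016) (nat_lit 0) [] (nat_lit 0) [] false,
   Spec.mk (nat_lit 1022) (nat_lit 0) [] (nat_lit 0) [] false,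
   Spec.mk (nat_lit 1024) (nat_lit 0) [] (nat_lit 0) [] false,
   Spec.mk (nat_lit 1034) (nat_lit 0) [] (nat_lit 0) [] false,
   Spec.mk (nat_lit 1040) (nat_lit 0) [] (nat_lit 0) [] false,
   Spec.mk (nat_lit 1042) (nat_lit 0) [] (nat_lit 0) [] false,
   Spec.mk (nat_lit 1046) (nat_lit 0) [] (nat_lit 0) [] false,
   Spec.mk (nat_lit 1048) (nat_lit 0) [] (nat_lit 0) [] false,
   Spec.mk (nat_lit 1050) (nat_lit 0) [] (nat_lit 0) [] false,
   Spec.mk (nat_lit 1070) (nat_lit 0) [] (nat_lit 0) [] false,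
   Spec.mk (nat_lit 1076) (nat_lit 0) [] (nat_lit 0) [] false,
   Spec.mk (nat_lit 1078) (nat_lit 0) [] (nat_lit 0) [] false,
   Spec.mk (nat_lit 1088) (nat_lit 0) [] (nat_lit 0) [] false,
   Spec.mk (nat_lit 1094) (nat_lit 0) [] (nat_lit 0) [] false,
   Spec.mk (nat_lit 1096) (nat_lit 0) [] (nat_lit 0) [] false,
   Spec.mk (nat_lit 1100) (nat_lit 0) [] (nat_lit 0) [] false,
   Spec.mk (nat_lit 1102) (nat_lit 0) [] (nat_lit 0) [] false,
   Spec.mk (nat_lit 1104) (nat_lit 0) [] (nat_lit 0) [] false,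
   Spec.mk (nat_lit 1112) (nat_lit 0) [] (nat_lit 0) [] false,
   Spec.mk (nat_lit 1114) (nat_lit 0) [] (nat_lit 0) [] false,
   Spec.mk (nat_lit 1118) (nat_lit 0) [] (nat_lit 0) [] false,
   Spec.mk (nat_lit 1120) (nat_lit 0) [] (nat_lit 0) [] false,
   Spec.mk (nat_lit 1122) (nat_lit 0) [] (nat_lit 0) [] false,
   Spec.mk (nat_lit 1126) (nat_lit 0) [] (nat_lit 0) [] false,
   Spec.mk (nat_lit 1128) (nat_lit 0) [] (nat_lit 0) [] false,
   Spec.mk (nat_lit 1142) (nat_lit 0) [] (nat_lit 0) [] false,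
   Spec.mk (nat_lit 1148) (nat_lit 0) [] (nat_lit 0) [] false,
   Spec.mk (nat_lit 1150) (nat_lit 0) [] (nat_lit 0) [] false,
   Spec.mk (nat_lit 1154) (nat_lit 0) [] (nat_lit 0) [] false,
   Spec.mk (nat_lit 1156) (nat_lit 0) [] (nat_lit 0) [] false,
   Spec.mk (nat_lit 1158) (nat_lit 0) [] (nat_lit 0) [] false,
   Spec.mk (nat_lit 1166) (nat_lit 0) [] (nat_lit 0) [] false,
   Spec.mk (nat_lit 1168) (nat_lit 0) [] (nat_lit 0) [] false,
   Spec.mk (nat_lit 1172) (nat_lit 0) [] (nat_lit 0) [] false,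
   Spec.mk (nat_lit 1174) (nat_lit 0) [] (nat_lit 0) [] false,
   Spec.mk (nat_lit 1176) (nat_lit 0) [] (nat_lit 0) [] false,
   Spec.mk (nat_lit 1180) (nat_lit 0) [] (nat_lit 0) [] false,
   Spec.mk (nat_lit 1182) (nat_lit 0) [] (nat_lit 0) [] false,
   Spec.mk (nat_lit 1190) (nat_lit 0) [] (nat_lit 0) [] false,
   Spec.mk (nat_lit 1192) (nat_lit 0) [] (nat_lit 0) [] false,
   Spec.mk (nat_lit 1194) (nat_lit 0) [] (nat_lit 0) [] false,
   Spec.mk (nat_lit 1198) (nat_lit 0) [] (nat_lit 0) [] false,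
   Spec.mk (nat_lit 1200) (nat_lit 0) [] (nat_lit 0) [] false,
   Spec.mk (nat_lit 1206) (nat_lit 0) [] (nat_lit 0) [] false,
   Spec.mk (nat_lit 1232) (nat_lit 0) [] (nat_lit 0) [] false,
   Spec.mk (nat_lit 1238) (nat_lit 0) [] (nat_lit 0) [] false,
   Spec.mk (nat_lit 1240) (nat_lit 0) [] (nat_lit 0) [] false,
   Spec.mk (nat_lit 1250) (nat_lit 0) [] (nat_lit 0) [] false,
   Spec.mk (nat_lit 1256) (nat_lit 0) [] (nat_lit 0) [] false,
   Spec.mk (nat_lit 1258) (nat_lit 0) [] (nat_lit 0) [] false,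
   Spec.mk (nat_lit 1262) (nat_lit 0) [] (nat_lit 0) [] false,
   Spec.mk (nat_lit 1264) (nat_lit 0) [] (nat_lit 0) [] false,
   Spec.mk (nat_lit 1266) (nat_lit 0) [] (nat_lit 0) [] false,
   Spec.mk (nat_lit 1274) (nat_lit 0) [] (nat_lit 0) [] false,
   Spec.mk (nat_lit 1276) (nat_lit 0) [] (nat_lit 0) [] false,
   Spec.mk (nat_lit 1280) (nat_lit 0) [] (nat_lit 0) [] false,
   Spec.mk (nat_lit 1282) (nat_lit 0) [] (nat_lit 0) [] false,
   Spec.mk (nat_lit 1284) (nat_lit 0) [] (nat_lit 0) [] false,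
   Spec.mk (nat_lit 1288) (nat_lit 0) [] (nat_lit 0) [] false]

noncomputable def cd3 : List Spec :=
  [Spec.mk (nat_lit 1290) (nat_lit 0) [] (nat_lit 0) [] false,
   Spec.mk (nat_lit 1304) (nat_lit 0) [] (nat_lit 0) [] false,
   Spec.mk (nat_lit 1310) (nat_lit 0) [] (nat_lit 0) [] false,
   Spec.mk (nat_lit 1312) (nat_lit 0) [] (nat_lit 0) [] false,
   Spec.mk (nat_lit 1316) (nat_lit 0) [] (nat_lit 0) [] false,
   Spec.mk (nat_lit 1318) (nat_lit 0) [] (nat_lit 0) [] false,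
   Spec.mk (nat_lit 1320) (nat_lit 0) [] (nat_lit 0) [] false,
   Spec.mk (nat_lit 1328) (nat_lit 0) [] (nat_lit 0) [] false,
   Spec.mk (nat_lit 1330) (nat_lit 0) [] (nat_lit 0) [] false,
   Spec.mk (nat_lit 1334) (nat_lit 0) [] (nat_lit 0) [] false,
   Spec.mk (nat_lit 1336) (nat_lit 0) [] (nat_lit 0) [] false,
   Spec.mk (nat_lit 1338) (nat_lit 0) [] (nat_lit 0) [] false,
   Spec.mk (nat_lit 1342) (nat_lit 0) [] (nat_lit 0) [] false,
   Spec.mk (nat_lit 1344) (nat_lit 0) [] (nat_lit 0) [] false,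
   Spec.mk (nat_lit 1352) (nat_lit 0) [] (nat_lit 0) [] false,
   Spec.mk (nat_lit 1354) (nat_lit 0) [] (nat_lit 0) [] false,
   Spec.mk (nat_lit 1356) (nat_lit 0) [] (nat_lit 0) [] false,
   Spec.mk (nat_lit 1360) (nat_lit 0) [] (nat_lit 0) [] false,
   Spec.mk (nat_lit 1362) (nat_lit 0) [] (nat_lit 0) [] false,
   Spec.mk (nat_lit 1368) (nat_lit 0) [] (nat_lit 0) [] false,
   Spec.mk (nat_lit 1382) (nat_lit 0) [] (nat_lit 0) [] false,
   Spec.mk (nat_lit 1384) (nat_lit 0) [] (nat_lit 0) [] false,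
   Spec.mk (nat_lit 1388) (nat_lit 0) [] (nat_lit 0) [] false,
   Spec.mk (nat_lit 1390) (nat_lit 0) [] (nat_lit 0) [] false,
   Spec.mk (nat_lit 1392) (nat_lit 0) [] (nat_lit 0) [] false,
   Spec.mk (nat_lit 1396) (nat_lit 0) [] (nat_lit 0) [] false,
   Spec.mk (nat_lit 1398) (nat_lit 0) [] (nat_lit 0) [] false,
   Spec.mk (nat_lit 1406) (nat_lit 0) [] (nat_lit 0) [] false,
   Spec.mk (nat_lit 1408) (nat_lit 0) [] (nat_lit 0) [] false,
   Spec.mk (nat_lit 1410) (nat_lit 0) [] (nat_lit 0) [] false,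
   Spec.mk (nat_lit 1414) (nat_lit 0) [] (nat_lit 0) [] false,
   Spec.mk (nat_lit 1416) (nat_lit 0) [] (nat_lit 0) [] false,
   Spec.mk (nat_lit 1422) (nat_lit 0) [] (nat_lit 0) [] false,
   Spec.mk (nat_lit 1432) (nat_lit 0) [] (nat_lit 0) [] false,
   Spec.mk (nat_lit 1434) (nat_lit 0) [] (nat_lit 0) [] false,
   Spec.mk (nat_lit 1440) (nat_lit 0) [] (nat_lit 0) [] false,
   Spec.mk (nat_lit 1484) (nat_lit 0) [] (nat_lit 0) [] false,
   Spec.mk (nat_lit 1502) (nat_lit 0) [] (nat_lit 0) [] false,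
   Spec.mk (nat_lit 1508) (nat_lit 0) [] (nat_lit 0) [] false,
   Spec.mk (nat_lit 1510) (nat_lit 0) [] (nat_lit 0) [] false,
   Spec.mk (nat_lit 1520) (nat_lit 0) [] (nat_lit 0) [] false,
   Spec.mk (nat_lit 1526) (nat_lit 0) [] (nat_lit 0) [] false,
   Spec.mk (nat_lit 1528) (nat_lit 0) [] (nat_lit 0) [] false,
   Spec.mk (nat_lit 1532) (nat_lit 0) [] (nat_lit 0) [] false,
   Spec.mk (nat_lit 1534) (nat_lit 0) [] (nat_lit 0) [] false,
   Spec.mk (nat_lit 1536) (nat_lit 0) [] (nat_lit 0) [] false,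
   Spec.mk (nat_lit 1556) (nat_lit 0) [] (nat_lit 0) [] false,
   Spec.mk (nat_lit 1562) (nat_lit 0) [] (nat_lit 0) [] false,
   Spec.mk (nat_lit 1564) (nat_lit 0) [] (nat_lit 0) [] false,
   Spec.mk (nat_lit 1574) (nat_lit 0) [] (nat_lit 0) [] false,
   Spec.mk (nat_lit 1580) (nat_lit 0) [] (nat_lit 0) [] false,
   Spec.mk (nat_lit 1582) (nat_lit 0) [] (nat_lit 0) [] false,
   Spec.mk (nat_lit 1586) (nat_lit 0) [] (nat_lit 0) [] false,
   Spec.mk (nat_lit 1588) (nat_lit 0) [] (nat_lit 0) [] false,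
   Spec.mk (nat_lit 1590) (nat_lit 0) [] (nat_lit 0) [] false,
   Spec.mk (nat_lit 1598) (nat_lit 0) [] (nat_lit 0) [] false,
   Spec.mk (nat_lit 1600) (nat_lit 0) [] (nat_lit 0) [] false,
   Spec.mk (nat_lit 1604) (nat_lit 0) [] (nat_lit 0) [] false,
   Spec.mk (nat_lit 1606) (nat_lit 0) [] (nat_lit 0) [] false,
   Spec.mk (nat_lit 1608) (nat_lit 0) [] (nat_lit 0) [] false]

noncomputable def cd4 : List Spec :=
  [Spec.mk (nat_lit 1612) (nat_lit 0) [] (nat_lit 0) [] false,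
   Spec.mk (nat_lit 1614) (nat_lit 0) [] (nat_lit 0) [] false,
   Spec.mk (nat_lit 1628) (nat_lit 0) [] (nat_lit 0) [] false,
   Spec.mk (nat_lit 1634) (nat_lit 0) [] (nat_lit 0) [] false,
   Spec.mk (nat_lit 1636) (nat_lit 0) [] (nat_lit 0) [] false,
   Spec.mk (nat_lit 1640) (nat_lit 0) [] (nat_lit 0) [] false,
   Spec.mk (nat_lit 1642) (nat_lit 0) [] (nat_lit 0) [] false,
   Spec.mk (nat_lit 1644) (nat_lit 0) [] (nat_lit 0) [] false,
   Spec.mk (nat_lit 1652) (nat_lit 0) [] (nat_lit 0) [] false,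
   Spec.mk (nat_lit 1654) (nat_lit 0) [] (nat_lit 0) [] false,
   Spec.mk (nat_lit 1658) (nat_lit 0) [] (nat_lit 0) [] false,
   Spec.mk (nat_lit 1660) (nat_lit 0) [] (nat_lit 0) [] false,
   Spec.mk (nat_lit 1662) (nat_lit 0) [] (nat_lit 0) [] false,
   Spec.mk (nat_lit 1666) (nat_lit 0) [] (nat_lit 0) [] false,
   Spec.mk (nat_lit 1668) (nat_lit 0) [] (nat_lit 0) [] false,
   Spec.mk (nat_lit 1676) (nat_lit 0) [] (nat_lit 0) [] false,
   Spec.mk (nat_lit 1678) (nat_lit 0) [] (nat_lit 0) [] false,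
   Spec.mk (nat_lit 1680) (nat_lit 0) [] (nat_lit 0) [] false,
   Spec.mk (nat_lit 1684) (nat_lit 0) [] (nat_lit 0) [] false,
   Spec.mk (nat_lit 1686) (nat_lit 0) [] (nat_lit 0) [] false,
   Spec.mk (nat_lit 1692) (nat_lit 0) [] (nat_lit 0) [] false,
   Spec.mk (nat_lit 1718) (nat_lit 0) [] (nat_lit 0) [] false,
   Spec.mk (nat_lit 1724) (nat_lit 0) [] (nat_lit 0) [] false,
   Spec.mk (nat_lit 1726) (nat_lit 0) [] (nat_lit 0) [] false,
   Spec.mk (nat_lit 1736) (nat_lit 0) [] (nat_lit 0) [] false,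
   Spec.mk (nat_lit 1742) (nat_lit 0) [] (nat_lit 0) [] false,
   Spec.mk (nat_lit 1744) (nat_lit 0) [] (nat_lit 0) [] false,
   Spec.mk (nat_lit 1748) (nat_lit 0) [] (nat_lit 0) [] false,
   Spec.mk (nat_lit 1750) (nat_lit 0) [] (nat_lit 0) [] false,
   Spec.mk (nat_lit 1752) (nat_lit 0) [] (nat_lit 0) [] false,
   Spec.mk (nat_lit 1760) (nat_lit 0) [] (nat_lit 0) [] false,
   Spec.mk (nat_lit 1762) (nat_lit 0) [] (nat_lit 0) [] false,
   Spec.mk (nat_lit 1766) (nat_lit 0) [] (nat_lit 0) [] false,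
   Spec.mk (nat_lit 1768) (nat_lit 0) [] (nat_lit 0) [] false,
   Spec.mk (nat_lit 1770) (nat_lit 0) [] (nat_lit 0) [] false,
   Spec.mk (nat_lit 1774) (nat_lit 0) [] (nat_lit 0) [] false,
   Spec.mk (nat_lit 1776) (nat_lit 0) [] (nat_lit 0) [] false,
   Spec.mk (nat_lit 1790) (nat_lit 0) [] (nat_lit 0) [] false,
   Spec.mk (nat_lit 1796) (nat_lit 0) [] (nat_lit 0) [] false,
   Spec.mk (nat_lit 1798) (nat_lit 0) [] (nat_lit 0) [] false,
   Spec.mk (nat_lit 1802) (nat_lit 0) [] (nat_lit 0) [] false,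
   Spec.mk (nat_lit 1804) (nat_lit 0) [] (nat_lit 0) [] false,
   Spec.mk (nat_lit 1806) (nat_lit 0) [] (nat_lit 0) [] false,
   Spec.mk (nat_lit 1814) (nat_lit 0) [] (nat_lit 0) [] false,
   Spec.mk (nat_lit 1816) (nat_lit 0) [] (nat_lit 0) [] false,
   Spec.mk (nat_lit 1820) (nat_lit 0) [] (nat_lit 0) [] false,
   Spec.mk (nat_lit 1822) (nat_lit 0) [] (nat_lit 0) [] false,
   Spec.mk (nat_lit 1824) (nat_lit 0) [] (nat_lit 0) [] false,
   Spec.mk (nat_lit 1828) (nat_lit 0) [] (nat_lit 0) [] false,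
   Spec.mk (nat_lit 1830) (nat_lit 0) [] (nat_lit 0) [] false,
   Spec.mk (nat_lit 1838) (nat_lit 0) [] (nat_lit 0) [] false,
   Spec.mk (nat_lit 1840) (nat_lit 0) [] (nat_lit 0) [] false,
   Spec.mk (nat_lit 1842) (nat_lit 0) [] (nat_lit 0) [] false,
   Spec.mk (nat_lit 1846) (nat_lit 0) [] (nat_lit 0) [] false,
   Spec.mk (nat_lit 1848) (nat_lit 0) [] (nat_lit 0) [] false,
   Spec.mk (nat_lit 1854) (nat_lit 0) [] (nat_lit 0) [] false,
   Spec.mk (nat_lit 1868) (nat_lit 0) [] (nat_lit 0) [] false,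
   Spec.mk (nat_lit 1870) (nat_lit 0) [] (nat_lit 0) [] false,
   Spec.mk (nat_lit 1874) (nat_lit 0) [] (nat_lit 0) [] false,
   Spec.mk (nat_lit 1876) (nat_lit 0) [] (nat_lit 0) [] false]

noncomputable def cd5 : List Spec :=
  [Spec.mk (nat_lit 1878) (nat_lit 0) [] (nat_lit 0) [] false,
   Spec.mk (nat_lit 1882) (nat_lit 0) [] (nat_lit 0) [] false,
   Spec.mk (nat_lit 1884) (nat_lit 0) [] (nat_lit 0) [] false,
   Spec.mk (nat_lit 1892) (nat_lit 0) [] (nat_lit 0) [] false,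
   Spec.mk (nat_lit 1894) (nat_lit 0) [] (nat_lit 0) [] false,
   Spec.mk (nat_lit 1896) (nat_lit 0) [] (nat_lit 0) [] false,
   Spec.mk (nat_lit 1900) (nat_lit 0) [] (nat_lit 0) [] false,
   Spec.mk (nat_lit 1902) (nat_lit 0) [] (nat_lit 0) [] false,
   Spec.mk (nat_lit 1908) (nat_lit 0) [] (nat_lit 0) [] false,
   Spec.mk (nat_lit 1918) (nat_lit 0) [] (nat_lit 0) [] false,
   Spec.mk (nat_lit 1920) (nat_lit 0) [] (nat_lit 0) [] false,
   Spec.mk (nat_lit 1926) (nat_lit 0) [] (nat_lit 0) [] false,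
   Spec.mk (nat_lit 1952) (nat_lit 0) [] (nat_lit 0) [] false,
   Spec.mk (nat_lit 1958) (nat_lit 0) [] (nat_lit 0) [] false,
   Spec.mk (nat_lit 1960) (nat_lit 0) [] (nat_lit 0) [] false,
   Spec.mk (nat_lit 1964) (nat_lit 0) [] (nat_lit 0) [] false,
   Spec.mk (nat_lit 1966) (nat_lit 0) [] (nat_lit 0) [] false,
   Spec.mk (nat_lit 1968) (nat_lit 0) [] (nat_lit 0) [] false,
   Spec.mk (nat_lit 1976) (nat_lit 0) [] (nat_lit 0) [] false,
   Spec.mk (nat_lit 1978) (nat_lit 0) [] (nat_lit 0) [] false,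
   Spec.mk (nat_lit 1982) (nat_lit 0) [] (nat_lit 0) [] false,
   Spec.mk (nat_lit 1984) (nat_lit 0) [] (nat_lit 0) [] false,
   Spec.mk (nat_lit 1986) (nat_lit 0) [] (nat_lit 0) [] false,
   Spec.mk (nat_lit 1990) (nat_lit 0) [] (nat_lit 0) [] false,
   Spec.mk (nat_lit 1992) (nat_lit 0) [] (nat_lit 0) [] false,
   Spec.mk (nat_lit 2000) (nat_lit 0) [] (nat_lit 0) [] false,
   Spec.mk (nat_lit 2002) (nat_lit 0) [] (nat_lit 0) [] false,
   Spec.mk (nat_lit 2004) (nat_lit 0) [] (nat_lit 0) [] false,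
   Spec.mk (nat_lit 2008) (nat_lit 0) [] (nat_lit 0) [] false,
   Spec.mk (nat_lit 2010) (nat_lit 0) [] (nat_lit 0) [] false,
   Spec.mk (nat_lit 2016) (nat_lit 0) [] (nat_lit 0) [] false,
   Spec.mk (nat_lit 2030) (nat_lit 0) [] (nat_lit 0) [] false,
   Spec.mk (nat_lit 2032) (nat_lit 0) [] (nat_lit 0) [] false,
   Spec.mk (nat_lit 2036) (nat_lit 0) [] (nat_lit 0) [] false,
   Spec.mk (nat_lit 2038) (nat_lit 0) [] (nat_lit 0) [] false,
   Spec.mk (nat_lit 2040) (nat_lit 0) [] (nat_lit 0) [] false,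
   Spec.mk (nat_lit 2044) (nat_lit 0) [] (nat_lit 0) [] false,
   Spec.mk (nat_lit 2046) (nat_lit 0) [] (nat_lit 0) [] false,
   Spec.mk (nat_lit 2054) (nat_lit 0) [] (nat_lit 0) [] false,
   Spec.mk (nat_lit 2056) (nat_lit 0) [] (nat_lit 0) [] false,
   Spec.mk (nat_lit 2058) (nat_lit 0) [] (nat_lit 0) [] false,
   Spec.mk (nat_lit 2062) (nat_lit 0) [] (nat_lit 0) [] false,
   Spec.mk (nat_lit 2064) (nat_lit 0) [] (nat_lit 0) [] false,
   Spec.mk (nat_lit 2070) (nat_lit 0) [] (nat_lit 0) [] false,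
   Spec.mk (nat_lit 2080) (nat_lit 0) [] (nat_lit 0) [] false,
   Spec.mk (nat_lit 2082) (nat_lit 0) [] (nat_lit 0) [] false,
   Spec.mk (nat_lit 2088) (nat_lit 0) [] (nat_lit 0) [] false,
   Spec.mk (nat_lit 2108) (nat_lit 0) [] (nat_lit 0) [] false,
   Spec.mk (nat_lit 2110) (nat_lit 0) [] (nat_lit 0) [] false,
   Spec.mk (nat_lit 2112) (nat_lit 0) [] (nat_lit 0) [] false,
   Spec.mk (nat_lit 2116) (nat_lit 0) [] (nat_lit 0) [] false,
   Spec.mk (nat_lit 2118) (nat_lit 0) [] (nat_lit 0) [] false,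
   Spec.mk (nat_lit 2124) (nat_lit 0) [] (nat_lit 0) [] false,
   Spec.mk (nat_lit 2134) (nat_lit 0) [] (nat_lit 0) [] false,
   Spec.mk (nat_lit 2136) (nat_lit 0) [] (nat_lit 0) [] false,
   Spec.mk (nat_lit 2142) (nat_lit 0) [] (nat_lit 0) [] false,
   Spec.mk (nat_lit 2160) (nat_lit 0) [] (nat_lit 0) [] false,
   Spec.mk (nat_lit 2240) (nat_lit 0) [] (nat_lit 0) [] false,
   Spec.mk (nat_lit 2258) (nat_lit 0) [] (nat_lit 0) [] false,
   Spec.mk (nat_lit 2264) (nat_lit 0) [] (nat_lit 0) [] false]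

noncomputable def cd6 : List Spec :=
  [Spec.mk (nat_lit 2266) (nat_lit 0) [] (nat_lit 0) [] false,
   Spec.mk (nat_lit 2294) (nat_lit 0) [] (nat_lit 0) [] false,
   Spec.mk (nat_lit 2312) (nat_lit 0) [] (nat_lit 0) [] false,
   Spec.mk (nat_lit 2318) (nat_lit 0) [] (nat_lit 0) [] false,
   Spec.mk (nat_lit 2320) (nat_lit 0) [] (nat_lit 0) [] false,
   Spec.mk (nat_lit 2330) (nat_lit 0) [] (nat_lit 0) [] false,
   Spec.mk (nat_lit 2336) (nat_lit 0) [] (nat_lit 0) [] false,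
   Spec.mk (nat_lit 2338) (nat_lit 0) [] (nat_lit 0) [] false,
   Spec.mk (nat_lit 2342) (nat_lit 0) [] (nat_lit 0) [] false,
   Spec.mk (nat_lit 2344) (nat_lit 0) [] (nat_lit 0) [] false,
   Spec.mk (nat_lit 2346) (nat_lit 0) [] (nat_lit 0) [] false,
   Spec.mk (nat_lit 2366) (nat_lit 0) [] (nat_lit 0) [] false,
   Spec.mk (nat_lit 2372) (nat_lit 0) [] (nat_lit 0) [] false,
   Spec.mk (nat_lit 2374) (nat_lit 0) [] (nat_lit 0) [] false,
   Spec.mk (nat_lit 2384) (nat_lit 0) [] (nat_lit 0) [] false,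
   Spec.mk (nat_lit 2390) (nat_lit 0) [] (nat_lit 0) [] false,
   Spec.mk (nat_lit 2392) (nat_lit 0) [] (nat_lit 0) [] false,
   Spec.mk (nat_lit 2396) (nat_lit 0) [] (nat_lit 0) [] false,
   Spec.mk (nat_lit 2398) (nat_lit 0) [] (nat_lit 0) [] false,
   Spec.mk (nat_lit 2400) (nat_lit 0) [] (nat_lit 0) [] false,
   Spec.mk (nat_lit 2408) (nat_lit 0) [] (nat_lit 0) [] false,
   Spec.mk (nat_lit 2410) (nat_lit 0) [] (nat_lit 0) [] false,
   Spec.mk (nat_lit 2414) (nat_lit 0) [] (nat_lit 0) [] false,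
   Spec.mk (nat_lit 2416) (nat_lit 0) [] (nat_lit 0) [] false,
   Spec.mk (nat_lit 2418) (nat_lit 0) [] (nat_lit 0) [] false,
   Spec.mk (nat_lit 2422) (nat_lit 0) [] (nat_lit 0) [] false,
   Spec.mk (nat_lit 2424) (nat_lit 0) [] (nat_lit 0) [] false,
   Spec.mk (nat_lit 2456) (nat_lit 0) [] (nat_lit 0) [] false,
   Spec.mk (nat_lit 2474) (nat_lit 0) [] (nat_lit 0) [] false,
   Spec.mk (nat_lit 2480) (nat_lit 0) [] (nat_lit 0) [] false,
   Spec.mk (nat_lit 2482) (nat_lit 0) [] (nat_lit 0) [] false,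
   Spec.mk (nat_lit 2492) (nat_lit 0) [] (nat_lit 0) [] false,
   Spec.mk (nat_lit 2498) (nat_lit 0) [] (nat_lit 0) [] false,
   Spec.mk (nat_lit 2500) (nat_lit 0) [] (nat_lit 0) [] false,
   Spec.mk (nat_lit 2504) (nat_lit 0) [] (nat_lit 0) [] false,
   Spec.mk (nat_lit 2506) (nat_lit 0) [] (nat_lit 0) [] false,
   Spec.mk (nat_lit 2508) (nat_lit 0) [] (nat_lit 0) [] false,
   Spec.mk (nat_lit 2528) (nat_lit 0) [] (nat_lit 0) [] false,
   Spec.mk (nat_lit 2534) (nat_lit 0) [] (nat_lit 0) [] false,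
   Spec.mk (nat_lit 2536) (nat_lit 0) [] (nat_lit 0) [] false,
   Spec.mk (nat_lit 2546) (nat_lit 0) [] (nat_lit 0) [] false,
   Spec.mk (nat_lit 2552) (nat_lit 0) [] (nat_lit 0) [] false,
   Spec.mk (nat_lit 2554) (nat_lit 0) [] (nat_lit 0) [] false,
   Spec.mk (nat_lit 2558) (nat_lit 0) [] (nat_lit 0) [] false,
   Spec.mk (nat_lit 2560) (nat_lit 0) [] (nat_lit 0) [] false,
   Spec.mk (nat_lit 2562) (nat_lit 0) [] (nat_lit 0) [] false,
   Spec.mk (nat_lit 2570) (nat_lit 0) [] (nat_lit 0) [] false,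
   Spec.mk (nat_lit 2572) (nat_lit 0) [] (nat_lit 0) [] false,
   Spec.mk (nat_lit 2576) (nat_lit 0) [] (nat_lit 0) [] false,
   Spec.mk (nat_lit 2578) (nat_lit 0) [] (nat_lit 0) [] false,
   Spec.mk (nat_lit 2580) (nat_lit 0) [] (nat_lit 0) [] false,
   Spec.mk (nat_lit 2584) (nat_lit 0) [] (nat_lit 0) [] false,
   Spec.mk (nat_lit 2586) (nat_lit 0) [] (nat_lit 0) [] false,
   Spec.mk (nat_lit 2600) (nat_lit 0) [] (nat_lit 0) [] false,
   Spec.mk (nat_lit 2606) (nat_lit 0) [] (nat_lit 0) [] false,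
   Spec.mk (nat_lit 2608) (nat_lit 0) [] (nat_lit 0) [] false,
   Spec.mk (nat_lit 2612) (nat_lit 0) [] (nat_lit 0) [] false,
   Spec.mk (nat_lit 2614) (nat_lit 0) [] (nat_lit 0) [] false,
   Spec.mk (nat_lit 2616) (nat_lit 0) [] (nat_lit 0) [] false,
   Spec.mk (nat_lit 2624) (nat_lit 0) [] (nat_lit 0) [] false]

noncomputable def cd7 : List Spec :=
  [Spec.mk (nat_lit 2626) (nat_lit 0) [] (nat_lit 0) [] false,
   Spec.mk (nat_lit 2630) (nat_lit 0) [] (nat_lit 0) [] false,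
   Spec.mk (nat_lit 2632) (nat_lit 0) [] (nat_lit 0) [] false,
   Spec.mk (nat_lit 2634) (nat_lit 0) [] (nat_lit 0) [] false,
   Spec.mk (nat_lit 2638) (nat_lit 0) [] (nat_lit 0) [] false,
   Spec.mk (nat_lit 2640) (nat_lit 0) [] (nat_lit 0) [] false,
   Spec.mk (nat_lit 2648) (nat_lit 0) [] (nat_lit 0) [] false,
   Spec.mk (nat_lit 2650) (nat_lit 0) [] (nat_lit 0) [] false,
   Spec.mk (nat_lit 2652) (nat_lit 0) [] (nat_lit 0) [] false,
   Spec.mk (nat_lit 2656) (nat_lit 0) [] (nat_lit 0) [] false,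
   Spec.mk (nat_lit 2658) (nat_lit 0) [] (nat_lit 0) [] false,
   Spec.mk (nat_lit 2664) (nat_lit 0) [] (nat_lit 0) [] false,
   Spec.mk (nat_lit 2690) (nat_lit 0) [] (nat_lit 0) [] false,
   Spec.mk (nat_lit 2696) (nat_lit 0) [] (nat_lit 0) [] false,
   Spec.mk (nat_lit 2698) (nat_lit 0) [] (nat_lit 0) [] false,
   Spec.mk (nat_lit 2708) (nat_lit 0) [] (nat_lit 0) [] false,
   Spec.mk (nat_lit 2714) (nat_lit 0) [] (nat_lit 0) [] false,
   Spec.mk (nat_lit 2716) (nat_lit 0) [] (nat_lit 0) [] false,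
   Spec.mk (nat_lit 2720) (nat_lit 0) [] (nat_lit 0) [] false,
   Spec.mk (nat_lit 2722) (nat_lit 0) [] (nat_lit 0) [] false,
   Spec.mk (nat_lit 2724) (nat_lit 0) [] (nat_lit 0) [] false,
   Spec.mk (nat_lit 2732) (nat_lit 0) [] (nat_lit 0) [] false,
   Spec.mk (nat_lit 2734) (nat_lit 0) [] (nat_lit 0) [] false,
   Spec.mk (nat_lit 2738) (nat_lit 0) [] (nat_lit 0) [] false,
   Spec.mk (nat_lit 2740) (nat_lit 0) [] (nat_lit 0) [] false,
   Spec.mk (nat_lit 2742) (nat_lit 0) [] (nat_lit 0) [] false,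
   Spec.mk (nat_lit 2746) (nat_lit 0) [] (nat_lit 0) [] false,
   Spec.mk (nat_lit 2748) (nat_lit 0) [] (nat_lit 0) [] false,
   Spec.mk (nat_lit 2762) (nat_lit 0) [] (nat_lit 0) [] false,
   Spec.mk (nat_lit 2768) (nat_lit 0) [] (nat_lit 0) [] false,
   Spec.mk (nat_lit 2770) (nat_lit 0) [] (nat_lit 0) [] false,
   Spec.mk (nat_lit 2774) (nat_lit 0) [] (nat_lit 0) [] false,
   Spec.mk (nat_lit 2776) (nat_lit 0) [] (nat_lit 0) [] false,
   Spec.mk (nat_lit 2778) (nat_lit 0) [] (nat_lit 0) [] false,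
   Spec.mk (nat_lit 2786) (nat_lit 0) [] (nat_lit 0) [] false,
   Spec.mk (nat_lit 2788) (nat_lit 0) [] (nat_lit 0) [] false,
   Spec.mk (nat_lit 2792) (nat_lit 0) [] (nat_lit 0) [] false,
   Spec.mk (nat_lit 2794) (nat_lit 0) [] (nat_lit 0) [] false,
   Spec.mk (nat_lit 2796) (nat_lit 0) [] (nat_lit 0) [] false,
   Spec.mk (nat_lit 2800) (nat_lit 0) [] (nat_lit 0) [] false,
   Spec.mk (nat_lit 2802) (nat_lit 0) [] (nat_lit 0) [] false,
   Spec.mk (nat_lit 2810) (nat_lit 0) [] (nat_lit 0) [] false,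
   Spec.mk (nat_lit 2812) (nat_lit 0) [] (nat_lit 0) [] false,
   Spec.mk (nat_lit 2814) (nat_lit 0) [] (nat_lit 0) [] false,
   Spec.mk (nat_lit 2818) (nat_lit 0) [] (nat_lit 0) [] false,
   Spec.mk (nat_lit 2820) (nat_lit 0) [] (nat_lit 0) [] false,
   Spec.mk (nat_lit 2826) (nat_lit 0) [] (nat_lit 0) [] false,
   Spec.mk (nat_lit 2840) (nat_lit 0) [] (nat_lit 0) [] false,
   Spec.mk (nat_lit 2842) (nat_lit 0) [] (nat_lit 0) [] false,
   Spec.mk (nat_lit 2846) (nat_lit 0) [] (nat_lit 0) [] false,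
   Spec.mk (nat_lit 2848) (nat_lit 0) [] (nat_lit 0) [] false,
   Spec.mk (nat_lit 2850) (nat_lit 0) [] (nat_lit 0) [] false,
   Spec.mk (nat_lit 2854) (nat_lit 0) [] (nat_lit 0) [] false,
   Spec.mk (nat_lit 2856) (nat_lit 0) [] (nat_lit 0) [] false,
   Spec.mk (nat_lit 2864) (nat_lit 0) [] (nat_lit 0) [] false,
   Spec.mk (nat_lit 2866) (nat_lit 0) [] (nat_lit 0) [] false,
   Spec.mk (nat_lit 2868) (nat_lit 0) [] (nat_lit 0) [] false,
   Spec.mk (nat_lit 2872) (nat_lit 0) [] (nat_lit 0) [] false,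
   Spec.mk (nat_lit 2874) (nat_lit 0) [] (nat_lit 0) [] false,
   Spec.mk (nat_lit 2880) (nat_lit 0) [] (nat_lit 0) [] false]

noncomputable def cd8 : List Spec :=
  [Spec.mk (nat_lit 2890) (nat_lit 0) [] (nat_lit 0) [] false,
   Spec.mk (nat_lit 2892) (nat_lit 0) [] (nat_lit 0) [] false,
   Spec.mk (nat_lit 2898) (nat_lit 0) [] (nat_lit 0) [] false,
   Spec.mk (nat_lit 2942) (nat_lit 0) [] (nat_lit 0) [] false,
   Spec.mk (nat_lit 2960) (nat_lit 0) [] (nat_lit 0) [] false,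
   Spec.mk (nat_lit 2966) (nat_lit 0) [] (nat_lit 0) [] false,
   Spec.mk (nat_lit 2968) (nat_lit 0) [] (nat_lit 0) [] false,
   Spec.mk (nat_lit 2978) (nat_lit 0) [] (nat_lit 0) [] false,
   Spec.mk (nat_lit 2984) (nat_lit 0) [] (nat_lit 0) [] false,
   Spec.mk (nat_lit 2986) (nat_lit 0) [] (nat_lit 0) [] false,
   Spec.mk (nat_lit 2990) (nat_lit 0) [] (nat_lit 0) [] false,
   Spec.mk (nat_lit 2992) (nat_lit 0) [] (nat_lit 0) [] false,
   Spec.mk (nat_lit 2994) (nat_lit 0) [] (nat_lit 0) [] false,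
   Spec.mk (nat_lit 3014) (nat_lit 0) [] (nat_lit 0) [] false,
   Spec.mk (nat_lit 3020) (nat_lit 0) [] (nat_lit 0) [] false,
   Spec.mk (nat_lit 3022) (nat_lit 0) [] (nat_lit 0) [] false,
   Spec.mk (nat_lit 3032) (nat_lit 0) [] (nat_lit 0) [] false,
   Spec.mk (nat_lit 3038) (nat_lit 0) [] (nat_lit 0) [] false,
   Spec.mk (nat_lit 3040) (nat_lit 0) [] (nat_lit 0) [] false,
   Spec.mk (nat_lit 3044) (nat_lit 0) [] (nat_lit 0) [] false,
   Spec.mk (nat_lit 3046) (nat_lit 0) [] (nat_lit 0) [] false,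
   Spec.mk (nat_lit 3048) (nat_lit 0) [] (nat_lit 0) [] false,
   Spec.mk (nat_lit 3056) (nat_lit 0) [] (nat_lit 0) [] false,
   Spec.mk (nat_lit 3058) (nat_lit 0) [] (nat_lit 0) [] false,
   Spec.mk (nat_lit 3062) (nat_lit 0) [] (nat_lit 0) [] false,
   Spec.mk (nat_lit 3064) (nat_lit 0) [] (nat_lit 0) [] false,
   Spec.mk (nat_lit 3066) (nat_lit 0) [] (nat_lit 0) [] false,
   Spec.mk (nat_lit 3070) (nat_lit 0) [] (nat_lit 0) [] false,
   Spec.mk (nat_lit 3072) (nat_lit 0) [] (nat_lit 0) [] false,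
   Spec.mk (nat_lit 3086) (nat_lit 0) [] (nat_lit 0) [] false,
   Spec.mk (nat_lit 3092) (nat_lit 0) [] (nat_lit 0) [] false,
   Spec.mk (nat_lit 3094) (nat_lit 0) [] (nat_lit 0) [] false,
   Spec.mk (nat_lit 3098) (nat_lit 0) [] (nat_lit 0) [] false,
   Spec.mk (nat_lit 3100) (nat_lit 0) [] (nat_lit 0) [] false,
   Spec.mk (nat_lit 3102) (nat_lit 0) [] (nat_lit 0) [] false,
   Spec.mk (nat_lit 3110) (nat_lit 0) [] (nat_lit 0) [] false,
   Spec.mk (nat_lit 3112) (nat_lit 0) [] (nat_lit 0) [] false,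
   Spec.mk (nat_lit 3116) (nat_lit 0) [] (nat_lit 0) [] false,
   Spec.mk (nat_lit 3118) (nat_lit 0) [] (nat_lit 0) [] false,
   Spec.mk (nat_lit 3120) (nat_lit 0) [] (nat_lit 0) [] false,
   Spec.mk (nat_lit 3124) (nat_lit 0) [] (nat_lit 0) [] false,
   Spec.mk (nat_lit 3126) (nat_lit 0) [] (nat_lit 0) [] false,
   Spec.mk (nat_lit 3134) (nat_lit 0) [] (nat_lit 0) [] false,
   Spec.mk (nat_lit 3136) (nat_lit 0) [] (nat_lit 0) [] false,
   Spec.mk (nat_lit 3138) (nat_lit 0) [] (nat_lit 0) [] false,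
   Spec.mk (nat_lit 3142) (nat_lit 0) [] (nat_lit 0) [] false,
   Spec.mk (nat_lit 3144) (nat_lit 0) [] (nat_lit 0) [] false,
   Spec.mk (nat_lit 3150) (nat_lit 0) [] (nat_lit 0) [] false,
   Spec.mk (nat_lit 3176) (nat_lit 0) [] (nat_lit 0) [] false,
   Spec.mk (nat_lit 3182) (nat_lit 0) [] (nat_lit 0) [] false,
   Spec.mk (nat_lit 3184) (nat_lit 0) [] (nat_lit 0) [] false,
   Spec.mk (nat_lit 3194) (nat_lit 0) [] (nat_lit 0) [] false,
   Spec.mk (nat_lit 3200) (nat_lit 0) [] (nat_lit 0) [] false,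
   Spec.mk (nat_lit 3202) (nat_lit 0) [] (nat_lit 0) [] false,
   Spec.mk (nat_lit 3206) (nat_lit 0) [] (nat_lit 0) [] false,
   Spec.mk (nat_lit 3208) (nat_lit 0) [] (nat_lit 0) [] false,
   Spec.mk (nat_lit 3210) (nat_lit 0) [] (nat_lit 0) [] false,
   Spec.mk (nat_lit 3218) (nat_lit 0) [] (nat_lit 0) [] false,
   Spec.mk (nat_lit 3220) (nat_lit 0) [] (nat_lit 0) [] false,
   Spec.mk (nat_lit 3224) (nat_lit 0) [] (nat_lit 0) [] false]

noncomputable def cd9 : List Spec :=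
  [Spec.mk (nat_lit 3226) (nat_lit 0) [] (nat_lit 0) [] false,
   Spec.mk (nat_lit 3228) (nat_lit 0) [] (nat_lit 0) [] false,
   Spec.mk (nat_lit 3232) (nat_lit 0) [] (nat_lit 0) [] false,
   Spec.mk (nat_lit 3234) (nat_lit 0) [] (nat_lit 0) [] false,
   Spec.mk (nat_lit 3248) (nat_lit 0) [] (nat_lit 0) [] false,
   Spec.mk (nat_lit 3254) (nat_lit 0) [] (nat_lit 0) [] false,
   Spec.mk (nat_lit 3256) (nat_lit 0) [] (nat_lit 0) [] false,
   Spec.mk (nat_lit 3260) (nat_lit 0) [] (nat_lit 0) [] false,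
   Spec.mk (nat_lit 3262) (nat_lit 0) [] (nat_lit 0) [] false,
   Spec.mk (nat_lit 3264) (nat_lit 0) [] (nat_lit 0) [] false,
   Spec.mk (nat_lit 3272) (nat_lit 0) [] (nat_lit 0) [] false,
   Spec.mk (nat_lit 3274) (nat_lit 0) [] (nat_lit 0) [] false,
   Spec.mk (nat_lit 3278) (nat_lit 0) [] (nat_lit 0) [] false,
   Spec.mk (nat_lit 3280) (nat_lit 0) [] (nat_lit 0) [] false,
   Spec.mk (nat_lit 3282) (nat_lit 0) [] (nat_lit 0) [] false,
   Spec.mk (nat_lit 3286) (nat_lit 0) [] (nat_lit 0) [] false,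
   Spec.mk (nat_lit 3288) (nat_lit 0) [] (nat_lit 0) [] false,
   Spec.mk (nat_lit 3296) (nat_lit 0) [] (nat_lit 0) [] false,
   Spec.mk (nat_lit 3298) (nat_lit 0) [] (nat_lit 0) [] false,
   Spec.mk (nat_lit 3300) (nat_lit 0) [] (nat_lit 0) [] false,
   Spec.mk (nat_lit 3304) (nat_lit 0) [] (nat_lit 0) [] false,
   Spec.mk (nat_lit 3306) (nat_lit 0) [] (nat_lit 0) [] false,
   Spec.mk (nat_lit 3312) (nat_lit 0) [] (nat_lit 0) [] false,
   Spec.mk (nat_lit 3326) (nat_lit 0) [] (nat_lit 0) [] false,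
   Spec.mk (nat_lit 3328) (nat_lit 0) [] (nat_lit 0) [] false,
   Spec.mk (nat_lit 3332) (nat_lit 0) [] (nat_lit 0) [] false,
   Spec.mk (nat_lit 3334) (nat_lit 0) [] (nat_lit 0) [] false,
   Spec.mk (nat_lit 3336) (nat_lit 0) [] (nat_lit 0) [] false,
   Spec.mk (nat_lit 3340) (nat_lit 0) [] (nat_lit 0) [] false,
   Spec.mk (nat_lit 3342) (nat_lit 0) [] (nat_lit 0) [] false,
   Spec.mk (nat_lit 3350) (nat_lit 0) [] (nat_lit 0) [] false,
   Spec.mk (nat_lit 3352) (nat_lit 0) [] (nat_lit 0) [] false,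
   Spec.mk (nat_lit 3354) (nat_lit 0) [] (nat_lit 0) [] false,
   Spec.mk (nat_lit 3358) (nat_lit 0) [] (nat_lit 0) [] false,
   Spec.mk (nat_lit 3360) (nat_lit 0) [] (nat_lit 0) [] false,
   Spec.mk (nat_lit 3366) (nat_lit 0) [] (nat_lit 0) [] false,
   Spec.mk (nat_lit 3376) (nat_lit 0) [] (nat_lit 0) [] false,
   Spec.mk (nat_lit 3378) (nat_lit 0) [] (nat_lit 0) [] false,
   Spec.mk (nat_lit 3384) (nat_lit 0) [] (nat_lit 0) [] false,
   Spec.mk (nat_lit 3410) (nat_lit 0) [] (nat_lit 0) [] false,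
   Spec.mk (nat_lit 3416) (nat_lit 0) [] (nat_lit 0) [] false,
   Spec.mk (nat_lit 3418) (nat_lit 0) [] (nat_lit 0) [] false,
   Spec.mk (nat_lit 3422) (nat_lit 0) [] (nat_lit 0) [] false,
   Spec.mk (nat_lit 3424) (nat_lit 0) [] (nat_lit 0) [] false,
   Spec.mk (nat_lit 3426) (nat_lit 0) [] (nat_lit 0) [] false,
   Spec.mk (nat_lit 3434) (nat_lit 0) [] (nat_lit 0) [] false,
   Spec.mk (nat_lit 3436) (nat_lit 0) [] (nat_lit 0) [] false,
   Spec.mk (nat_lit 3440) (nat_lit 0) [] (nat_lit 0) [] false,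
   Spec.mk (nat_lit 3442) (nat_lit 0) [] (nat_lit 0) [] false,
   Spec.mk (nat_lit 3444) (nat_lit 0) [] (nat_lit 0) [] false,
   Spec.mk (nat_lit 3448) (nat_lit 0) [] (nat_lit 0) [] false,
   Spec.mk (nat_lit 3450) (nat_lit 0) [] (nat_lit 0) [] false,
   Spec.mk (nat_lit 3458) (nat_lit 0) [] (nat_lit 0) [] false,
   Spec.mk (nat_lit 3460) (nat_lit 0) [] (nat_lit 0) [] false,
   Spec.mk (nat_lit 3462) (nat_lit 0) [] (nat_lit 0) [] false,
   Spec.mk (nat_lit 3466) (nat_lit 0) [] (nat_lit 0) [] false,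
   Spec.mk (nat_lit 3468) (nat_lit 0) [] (nat_lit 0) [] false,
   Spec.mk (nat_lit 3474) (nat_lit 0) [] (nat_lit 0) [] false,
   Spec.mk (nat_lit 3488) (nat_lit 0) [] (nat_lit 0) [] false,
   Spec.mk (nat_lit 3490) (nat_lit 0) [] (nat_lit 0) [] false]

noncomputable def cd10 : List Spec :=
  [Spec.mk (nat_lit 3494) (nat_lit 0) [] (nat_lit 0) [] false,
   Spec.mk (nat_lit 3496) (nat_lit 0) [] (nat_lit 0) [] false,
   Spec.mk (nat_lit 3498) (nat_lit 0) [] (nat_lit 0) [] false,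
   Spec.mk (nat_lit 3502) (nat_lit 0) [] (nat_lit 0) [] false,
   Spec.mk (nat_lit 3504) (nat_lit 0) [] (nat_lit 0) [] false,
   Spec.mk (nat_lit 3512) (nat_lit 0) [] (nat_lit 0) [] false,
   Spec.mk (nat_lit 3514) (nat_lit 0) [] (nat_lit 0) [] false,
   Spec.mk (nat_lit 3516) (nat_lit 0) [] (nat_lit 0) [] false,
   Spec.mk (nat_lit 3520) (nat_lit 0) [] (nat_lit 0) [] false,
   Spec.mk (nat_lit 3522) (nat_lit 0) [] (nat_lit 0) [] false,
   Spec.mk (nat_lit 3528) (nat_lit 0) [] (nat_lit 0) [] false,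
   Spec.mk (nat_lit 3538) (nat_lit 0) [] (nat_lit 0) [] false,
   Spec.mk (nat_lit 3540) (nat_lit 0) [] (nat_lit 0) [] false,
   Spec.mk (nat_lit 3546) (nat_lit 0) [] (nat_lit 0) [] false,
   Spec.mk (nat_lit 3566) (nat_lit 0) [] (nat_lit 0) [] false,
   Spec.mk (nat_lit 3568) (nat_lit 0) [] (nat_lit 0) [] false,
   Spec.mk (nat_lit 3570) (nat_lit 0) [] (nat_lit 0) [] false,
   Spec.mk (nat_lit 3574) (nat_lit 0) [] (nat_lit 0) [] false,
   Spec.mk (nat_lit 3576) (nat_lit 0) [] (nat_lit 0) [] false,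
   Spec.mk (nat_lit 3582) (nat_lit 0) [] (nat_lit 0) [] false,
   Spec.mk (nat_lit 3592) (nat_lit 0) [] (nat_lit 0) [] false,
   Spec.mk (nat_lit 3594) (nat_lit 0) [] (nat_lit 0) [] false,
   Spec.mk (nat_lit 3600) (nat_lit 0) [] (nat_lit 0) [] false,
   Spec.mk (nat_lit 3618) (nat_lit 0) [] (nat_lit 0) [] false,
   Spec.mk (nat_lit 3662) (nat_lit 0) [] (nat_lit 0) [] false,
   Spec.mk (nat_lit 3668) (nat_lit 0) [] (nat_lit 0) [] false,
   Spec.mk (nat_lit 3670) (nat_lit 0) [] (nat_lit 0) [] false,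
   Spec.mk (nat_lit 3680) (nat_lit 0) [] (nat_lit 0) [] false,
   Spec.mk (nat_lit 3686) (nat_lit 0) [] (nat_lit 0) [] false,
   Spec.mk (nat_lit 3688) (nat_lit 0) [] (nat_lit 0) [] false,
   Spec.mk (nat_lit 3692) (nat_lit 0) [] (nat_lit 0) [] false,
   Spec.mk (nat_lit 3694) (nat_lit 0) [] (nat_lit 0) [] false,
   Spec.mk (nat_lit 3696) (nat_lit 0) [] (nat_lit 0) [] false,
   Spec.mk (nat_lit 3704) (nat_lit 0) [] (nat_lit 0) [] false,
   Spec.mk (nat_lit 3706) (nat_lit 0) [] (nat_lit 0) [] false,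
   Spec.mk (nat_lit 3710) (nat_lit 0) [] (nat_lit 0) [] false,
   Spec.mk (nat_lit 3712) (nat_lit 0) [] (nat_lit 0) [] false,
   Spec.mk (nat_lit 3714) (nat_lit 0) [] (nat_lit 0) [] false,
   Spec.mk (nat_lit 3718) (nat_lit 0) [] (nat_lit 0) [] false,
   Spec.mk (nat_lit 3720) (nat_lit 0) [] (nat_lit 0) [] false,
   Spec.mk (nat_lit 3734) (nat_lit 0) [] (nat_lit 0) [] false,
   Spec.mk (nat_lit 3740) (nat_lit 0) [] (nat_lit 0) [] false,
   Spec.mk (nat_lit 3742) (nat_lit 0) [] (nat_lit 0) [] false,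
   Spec.mk (nat_lit 3746) (nat_lit 0) [] (nat_lit 0) [] false,
   Spec.mk (nat_lit 3748) (nat_lit 0) [] (nat_lit 0) [] false,
   Spec.mk (nat_lit 3750) (nat_lit 0) [] (nat_lit 0) [] false,
   Spec.mk (nat_lit 3758) (nat_lit 0) [] (nat_lit 0) [] false,
   Spec.mk (nat_lit 3760) (nat_lit 0) [] (nat_lit 0) [] false,
   Spec.mk (nat_lit 3764) (nat_lit 0) [] (nat_lit 0) [] false,
   Spec.mk (nat_lit 3766) (nat_lit 0) [] (nat_lit 0) [] false,
   Spec.mk (nat_lit 3768) (nat_lit 0) [] (nat_lit 0) [] false,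
   Spec.mk (nat_lit 3772) (nat_lit 0) [] (nat_lit 0) [] false,
   Spec.mk (nat_lit 3774) (nat_lit 0) [] (nat_lit 0) [] false,
   Spec.mk (nat_lit 3782) (nat_lit 0) [] (nat_lit 0) [] false,
   Spec.mk (nat_lit 3784) (nat_lit 0) [] (nat_lit 0) [] false,
   Spec.mk (nat_lit 3786) (nat_lit 0) [] (nat_lit 0) [] false,
   Spec.mk (nat_lit 3790) (nat_lit 0) [] (nat_lit 0) [] false,
   Spec.mk (nat_lit 3792) (nat_lit 0) [] (nat_lit 0) [] false,
   Spec.mk (nat_lit 3798) (nat_lit 0) [] (nat_lit 0) [] false,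
   Spec.mk (nat_lit 3812) (nat_lit 0) [] (nat_lit 0) [] false]

noncomputable def cd11 : List Spec :=
  [Spec.mk (nat_lit 3814) (nat_lit 0) [] (nat_lit 0) [] false,
   Spec.mk (nat_lit 3818) (nat_lit 0) [] (nat_lit 0) [] false,
   Spec.mk (nat_lit 3820) (nat_lit 0) [] (nat_lit 0) [] false,
   Spec.mk (nat_lit 3822) (nat_lit 0) [] (nat_lit 0) [] false,
   Spec.mk (nat_lit 3826) (nat_lit 0) [] (nat_lit 0) [] false,
   Spec.mk (nat_lit 3828) (nat_lit 0) [] (nat_lit 0) [] false,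
   Spec.mk (nat_lit 3836) (nat_lit 0) [] (nat_lit 0) [] false,
   Spec.mk (nat_lit 3838) (nat_lit 0) [] (nat_lit 0) [] false,
   Spec.mk (nat_lit 3840) (nat_lit 0) [] (nat_lit 0) [] false,
   Spec.mk (nat_lit 3844) (nat_lit 0) [] (nat_lit 0) [] false,
   Spec.mk (nat_lit 3846) (nat_lit 0) [] (nat_lit 0) [] false,
   Spec.mk (nat_lit 3852) (nat_lit 0) [] (nat_lit 0) [] false,
   Spec.mk (nat_lit 3862) (nat_lit 0) [] (nat_lit 0) [] false,
   Spec.mk (nat_lit 3864) (nat_lit 0) [] (nat_lit 0) [] false,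
   Spec.mk (nat_lit 3870) (nat_lit 0) [] (nat_lit 0) [] false,
   Spec.mk (nat_lit 3896) (nat_lit 0) [] (nat_lit 0) [] false,
   Spec.mk (nat_lit 3902) (nat_lit 0) [] (nat_lit 0) [] false,
   Spec.mk (nat_lit 3904) (nat_lit 0) [] (nat_lit 0) [] false,
   Spec.mk (nat_lit 3908) (nat_lit 0) [] (nat_lit 0) [] false,
   Spec.mk (nat_lit 3910) (nat_lit 0) [] (nat_lit 0) [] false,
   Spec.mk (nat_lit 3912) (nat_lit 0) [] (nat_lit 0) [] false,
   Spec.mk (nat_lit 3920) (nat_lit 0) [] (nat_lit 0) [] false,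
   Spec.mk (nat_lit 3922) (nat_lit 0) [] (nat_lit 0) [] false,
   Spec.mk (nat_lit 3926) (nat_lit 0) [] (nat_lit 0) [] false,
   Spec.mk (nat_lit 3928) (nat_lit 0) [] (nat_lit 0) [] false,
   Spec.mk (nat_lit 3930) (nat_lit 0) [] (nat_lit 0) [] false,
   Spec.mk (nat_lit 3934) (nat_lit 0) [] (nat_lit 0) [] false,
   Spec.mk (nat_lit 3936) (nat_lit 0) [] (nat_lit 0) [] false,
   Spec.mk (nat_lit 3944) (nat_lit 0) [] (nat_lit 0) [] false,
   Spec.mk (nat_lit 3946) (nat_lit 0) [] (nat_lit 0) [] false,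
   Spec.mk (nat_lit 3948) (nat_lit 0) [] (nat_lit 0) [] false,
   Spec.mk (nat_lit 3952) (nat_lit 0) [] (nat_lit 0) [] false,
   Spec.mk (nat_lit 3954) (nat_lit 0) [] (nat_lit 0) [] false,
   Spec.mk (nat_lit 3960) (nat_lit 0) [] (nat_lit 0) [] false,
   Spec.mk (nat_lit 3974) (nat_lit 0) [] (nat_lit 0) [] false,
   Spec.mk (nat_lit 3976) (nat_lit 0) [] (nat_lit 0) [] false,
   Spec.mk (nat_lit 3980) (nat_lit 0) [] (nat_lit 0) [] false,
   Spec.mk (nat_lit 3982) (nat_lit 0) [] (nat_lit 0) [] false,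
   Spec.mk (nat_lit 3984) (nat_lit 0) [] (nat_lit 0) [] false,
   Spec.mk (nat_lit 3988) (nat_lit 0) [] (nat_lit 0) [] false,
   Spec.mk (nat_lit 3990) (nat_lit 0) [] (nat_lit 0) [] false,
   Spec.mk (nat_lit 3998) (nat_lit 0) [] (nat_lit 0) [] false,
   Spec.mk (nat_lit 4000) (nat_lit 0) [] (nat_lit 0) [] false,
   Spec.mk (nat_lit 4002) (nat_lit 0) [] (nat_lit 0) [] false,
   Spec.mk (nat_lit 4006) (nat_lit 0) [] (nat_lit 0) [] false,
   Spec.mk (nat_lit 4008) (nat_lit 0) [] (nat_lit 0) [] false,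
   Spec.mk (nat_lit 4014) (nat_lit 0) [] (nat_lit 0) [] false,
   Spec.mk (nat_lit 4024) (nat_lit 0) [] (nat_lit 0) [] false,
   Spec.mk (nat_lit 4026) (nat_lit 0) [] (nat_lit 0) [] false,
   Spec.mk (nat_lit 4032) (nat_lit 0) [] (nat_lit 0) [] false,
   Spec.mk (nat_lit 4052) (nat_lit 0) [] (nat_lit 0) [] false,
   Spec.mk (nat_lit 4054) (nat_lit 0) [] (nat_lit 0) [] false,
   Spec.mk (nat_lit 4056) (nat_lit 0) [] (nat_lit 0) [] false,
   Spec.mk (nat_lit 4060) (nat_lit 0) [] (nat_lit 0) [] false,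
   Spec.mk (nat_lit 4062) (nat_lit 0) [] (nat_lit 0) [] false,
   Spec.mk (nat_lit 4068) (nat_lit 0) [] (nat_lit 0) [] false,
   Spec.mk (nat_lit 4078) (nat_lit 0) [] (nat_lit 0) [] false,
   Spec.mk (nat_lit 4080) (nat_lit 0) [] (nat_lit 0) [] false,
   Spec.mk (nat_lit 4086) (nat_lit 0) [] (nat_lit 0) [] false,
   Spec.mk (nat_lit 4104) (nat_lit 0) [] (nat_lit 0) [] false]

noncomputable def cd12 : List Spec :=
  [Spec.mk (nat_lit 4136) (nat_lit 0) [] (nat_lit 0) [] false,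
   Spec.mk (nat_lit 4138) (nat_lit 0) [] (nat_lit 0) [] false,
   Spec.mk (nat_lit 4142) (nat_lit 0) [] (nat_lit 0) [] false,
   Spec.mk (nat_lit 4144) (nat_lit 0) [] (nat_lit 0) [] false,
   Spec.mk (nat_lit 4146) (nat_lit 0) [] (nat_lit 0) [] false,
   Spec.mk (nat_lit 4150) (nat_lit 0) [] (nat_lit 0) [] false,
   Spec.mk (nat_lit 4152) (nat_lit 0) [] (nat_lit 0) [] false,
   Spec.mk (nat_lit 4160) (nat_lit 0) [] (nat_lit 0) [] false,
   Spec.mk (nat_lit 4162) (nat_lit 0) [] (nat_lit 0) [] false,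
   Spec.mk (nat_lit 4164) (nat_lit 0) [] (nat_lit 0) [] false,
   Spec.mk (nat_lit 4168) (nat_lit 0) [] (nat_lit 0) [] false,
   Spec.mk (nat_lit 4170) (nat_lit 0) [] (nat_lit 0) [] false,
   Spec.mk (nat_lit 4176) (nat_lit 0) [] (nat_lit 0) [] false,
   Spec.mk (nat_lit 4186) (nat_lit 0) [] (nat_lit 0) [] false,
   Spec.mk (nat_lit 4188) (nat_lit 0) [] (nat_lit 0) [] false,
   Spec.mk (nat_lit 4194) (nat_lit 0) [] (nat_lit 0) [] false,
   Spec.mk (nat_lit 4214) (nat_lit 0) [] (nat_lit 0) [] false,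
   Spec.mk (nat_lit 4216) (nat_lit 0) [] (nat_lit 0) [] false,
   Spec.mk (nat_lit 4218) (nat_lit 0) [] (nat_lit 0) [] false,
   Spec.mk (nat_lit 4222) (nat_lit 0) [] (nat_lit 0) [] false,
   Spec.mk (nat_lit 4224) (nat_lit 0) [] (nat_lit 0) [] false,
   Spec.mk (nat_lit 4230) (nat_lit 0) [] (nat_lit 0) [] false,
   Spec.mk (nat_lit 4240) (nat_lit 0) [] (nat_lit 0) [] false,
   Spec.mk (nat_lit 4242) (nat_lit 0) [] (nat_lit 0) [] false,
   Spec.mk (nat_lit 4248) (nat_lit 0) [] (nat_lit 0) [] false,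
   Spec.mk (nat_lit 4266) (nat_lit 0) [] (nat_lit 0) [] false,
   Spec.mk (nat_lit 4294) (nat_lit 0) [] (nat_lit 0) [] false,
   Spec.mk (nat_lit 4296) (nat_lit 0) [] (nat_lit 0) [] false,
   Spec.mk (nat_lit 4302) (nat_lit 0) [] (nat_lit 0) [] false,
   Spec.mk (nat_lit 4320) (nat_lit 0) [] (nat_lit 0) [] false,
   Spec.mk (nat_lit 4400) (nat_lit 0) [] (nat_lit 0) [] false,
   Spec.mk (nat_lit 4418) (nat_lit 0) [] (nat_lit 0) [] false,
   Spec.mk (nat_lit 4424) (nat_lit 0) [] (nat_lit 0) [] false,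
   Spec.mk (nat_lit 4426) (nat_lit 0) [] (nat_lit 0) [] false,
   Spec.mk (nat_lit 4436) (nat_lit 0) [] (nat_lit 0) [] false,
   Spec.mk (nat_lit 4442) (nat_lit 0) [] (nat_lit 0) [] false,
   Spec.mk (nat_lit 4444) (nat_lit 0) [] (nat_lit 0) [] false,
   Spec.mk (nat_lit 4448) (nat_lit 0) [] (nat_lit 0) [] false,
   Spec.mk (nat_lit 4450) (nat_lit 0) [] (nat_lit 0) [] false,
   Spec.mk (nat_lit 4452) (nat_lit 0) [] (nat_lit 0) [] false,
   Spec.mk (nat_lit 4472) (nat_lit 0) [] (nat_lit 0) [] false,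
   Spec.mk (nat_lit 4478) (nat_lit 0) [] (nat_lit 0) [] false,
   Spec.mk (nat_lit 4480) (nat_lit 0) [] (nat_lit 0) [] false,
   Spec.mk (nat_lit 4490) (nat_lit 0) [] (nat_lit 0) [] false,
   Spec.mk (nat_lit 4496) (nat_lit 0) [] (nat_lit 0) [] false,
   Spec.mk (nat_lit 4498) (nat_lit 0) [] (nat_lit 0) [] false,
   Spec.mk (nat_lit 4502) (nat_lit 0) [] (nat_lit 0) [] false,
   Spec.mk (nat_lit 4504) (nat_lit 0) [] (nat_lit 0) [] false,
   Spec.mk (nat_lit 4506) (nat_lit 0) [] (nat_lit 0) [] false,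
   Spec.mk (nat_lit 4514) (nat_lit 0) [] (nat_lit 0) [] false,
   Spec.mk (nat_lit 4516) (nat_lit 0) [] (nat_lit 0) [] false,
   Spec.mk (nat_lit 4520) (nat_lit 0) [] (nat_lit 0) [] false,
   Spec.mk (nat_lit 4522) (nat_lit 0) [] (nat_lit 0) [] false,
   Spec.mk (nat_lit 4524) (nat_lit 0) [] (nat_lit 0) [] false,
   Spec.mk (nat_lit 4528) (nat_lit 0) [] (nat_lit 0) [] false,
   Spec.mk (nat_lit 4530) (nat_lit 0) [] (nat_lit 0) [] false,
   Spec.mk (nat_lit 4544) (nat_lit 0) [] (nat_lit 0) [] false,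
   Spec.mk (nat_lit 4550) (nat_lit 0) [] (nat_lit 0) [] false,
   Spec.mk (nat_lit 4552) (nat_lit 0) [] (nat_lit 0) [] false,
   Spec.mk (nat_lit 4556) (nat_lit 0) [] (nat_lit 0) [] false]

noncomputable def cd13 : List Spec :=
  [Spec.mk (nat_lit 4558) (nat_lit 0) [] (nat_lit 0) [] false,
   Spec.mk (nat_lit 4560) (nat_lit 0) [] (nat_lit 0) [] false,
   Spec.mk (nat_lit 4568) (nat_lit 0) [] (nat_lit 0) [] false,
   Spec.mk (nat_lit 4570) (nat_lit 0) [] (nat_lit 0) [] false,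
   Spec.mk (nat_lit 4574) (nat_lit 0) [] (nat_lit 0) [] false,
   Spec.mk (nat_lit 4576) (nat_lit 0) [] (nat_lit 0) [] false,
   Spec.mk (nat_lit 4578) (nat_lit 0) [] (nat_lit 0) [] false,
   Spec.mk (nat_lit 4582) (nat_lit 0) [] (nat_lit 0) [] false,
   Spec.mk (nat_lit 4584) (nat_lit 0) [] (nat_lit 0) [] false,
   Spec.mk (nat_lit 4592) (nat_lit 0) [] (nat_lit 0) [] false,
   Spec.mk (nat_lit 4594) (nat_lit 0) [] (nat_lit 0) [] false,
   Spec.mk (nat_lit 4596) (nat_lit 0) [] (nat_lit 0) [] false,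
   Spec.mk (nat_lit 4600) (nat_lit 0) [] (nat_lit 0) [] false,
   Spec.mk (nat_lit 4602) (nat_lit 0) [] (nat_lit 0) [] false,
   Spec.mk (nat_lit 4608) (nat_lit 0) [] (nat_lit 0) [] false,
   Spec.mk (nat_lit 4634) (nat_lit 0) [] (nat_lit 0) [] false,
   Spec.mk (nat_lit 4640) (nat_lit 0) [] (nat_lit 0) [] false,
   Spec.mk (nat_lit 4642) (nat_lit 0) [] (nat_lit 0) [] false,
   Spec.mk (nat_lit 4652) (nat_lit 0) [] (nat_lit 0) [] false,
   Spec.mk (nat_lit 4658) (nat_lit 0) [] (nat_lit 0) [] false,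
   Spec.mk (nat_lit 4660) (nat_lit 0) [] (nat_lit 0) [] false,
   Spec.mk (nat_lit 4664) (nat_lit 0) [] (nat_lit 0) [] false,
   Spec.mk (nat_lit 4666) (nat_lit 0) [] (nat_lit 0) [] false,
   Spec.mk (nat_lit 4668) (nat_lit 0) [] (nat_lit 0) [] false,
   Spec.mk (nat_lit 4676) (nat_lit 0) [] (nat_lit 0) [] false,
   Spec.mk (nat_lit 4678) (nat_lit 0) [] (nat_lit 0) [] false,
   Spec.mk (nat_lit 4682) (nat_lit 0) [] (nat_lit 0) [] false,
   Spec.mk (nat_lit 4684) (nat_lit 0) [] (nat_lit 0) [] false,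
   Spec.mk (nat_lit 4686) (nat_lit 0) [] (nat_lit 0) [] false,
   Spec.mk (nat_lit 4690) (nat_lit 0) [] (nat_lit 0) [] false,
   Spec.mk (nat_lit 4692) (nat_lit 0) [] (nat_lit 0) [] false,
   Spec.mk (nat_lit 4706) (nat_lit 0) [] (nat_lit 0) [] false,
   Spec.mk (nat_lit 4712) (nat_lit 0) [] (nat_lit 0) [] false,
   Spec.mk (nat_lit 4714) (nat_lit 0) [] (nat_lit 0) [] false,
   Spec.mk (nat_lit 4718) (nat_lit 0) [] (nat_lit 0) [] false,
   Spec.mk (nat_lit 4720) (nat_lit 0) [] (nat_lit 0) [] false,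
   Spec.mk (nat_lit 4722) (nat_lit 0) [] (nat_lit 0) [] false,
   Spec.mk (nat_lit 4730) (nat_lit 0) [] (nat_lit 0) [] false,
   Spec.mk (nat_lit 4732) (nat_lit 0) [] (nat_lit 0) [] false,
   Spec.mk (nat_lit 4736) (nat_lit 0) [] (nat_lit 0) [] false,
   Spec.mk (nat_lit 4738) (nat_lit 0) [] (nat_lit 0) [] false,
   Spec.mk (nat_lit 4740) (nat_lit 0) [] (nat_lit 0) [] false,
   Spec.mk (nat_lit 4744) (nat_lit 0) [] (nat_lit 0) [] false,
   Spec.mk (nat_lit 4746) (nat_lit 0) [] (nat_lit 0) [] false,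
   Spec.mk (nat_lit 4754) (nat_lit 0) [] (nat_lit 0) [] false,
   Spec.mk (nat_lit 4756) (nat_lit 0) [] (nat_lit 0) [] false,
   Spec.mk (nat_lit 4758) (nat_lit 0) [] (nat_lit 0) [] false,
   Spec.mk (nat_lit 4762) (nat_lit 0) [] (nat_lit 0) [] false,
   Spec.mk (nat_lit 4764) (nat_lit 0) [] (nat_lit 0) [] false,
   Spec.mk (nat_lit 4770) (nat_lit 0) [] (nat_lit 0) [] false,
   Spec.mk (nat_lit 4784) (nat_lit 0) [] (nat_lit 0) [] false,
   Spec.mk (nat_lit 4786) (nat_lit 0) [] (nat_lit 0) [] false,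
   Spec.mk (nat_lit 4790) (nat_lit 0) [] (nat_lit 0) [] false,
   Spec.mk (nat_lit 4792) (nat_lit 0) [] (nat_lit 0) [] false,
   Spec.mk (nat_lit 4794) (nat_lit 0) [] (nat_lit 0) [] false,
   Spec.mk (nat_lit 4798) (nat_lit 0) [] (nat_lit 0) [] false,
   Spec.mk (nat_lit 4800) (nat_lit 0) [] (nat_lit 0) [] false,
   Spec.mk (nat_lit 4808) (nat_lit 0) [] (nat_lit 0) [] false,
   Spec.mk (nat_lit 4810) (nat_lit 0) [] (nat_lit 0) [] false,
   Spec.mk (nat_lit 4812) (nat_lit 0) [] (nat_lit 0) [] false]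

noncomputable def cd14 : List Spec :=
  [Spec.mk (nat_lit 4816) (nat_lit 0) [] (nat_lit 0) [] false,
   Spec.mk (nat_lit 4818) (nat_lit 0) [] (nat_lit 0) [] false,
   Spec.mk (nat_lit 4824) (nat_lit 0) [] (nat_lit 0) [] false,
   Spec.mk (nat_lit 4834) (nat_lit 0) [] (nat_lit 0) [] false,
   Spec.mk (nat_lit 4836) (nat_lit 0) [] (nat_lit 0) [] false,
   Spec.mk (nat_lit 4842) (nat_lit 0) [] (nat_lit 0) [] false,
   Spec.mk (nat_lit 4868) (nat_lit 0) [] (nat_lit 0) [] false,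
   Spec.mk (nat_lit 4874) (nat_lit 0) [] (nat_lit 0) [] false,
   Spec.mk (nat_lit 4876) (nat_lit 0) [] (nat_lit 0) [] false,
   Spec.mk (nat_lit 4880) (nat_lit 0) [] (nat_lit 0) [] false,
   Spec.mk (nat_lit 4882) (nat_lit 0) [] (nat_lit 0) [] false,
   Spec.mk (nat_lit 4884) (nat_lit 0) [] (nat_lit 0) [] false,
   Spec.mk (nat_lit 4892) (nat_lit 0) [] (nat_lit 0) [] false,
   Spec.mk (nat_lit 4894) (nat_lit 0) [] (nat_lit 0) [] false,
   Spec.mk (nat_lit 4898) (nat_lit 0) [] (nat_lit 0) [] false,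
   Spec.mk (nat_lit 4900) (nat_lit 0) [] (nat_lit 0) [] false,
   Spec.mk (nat_lit 4902) (nat_lit 0) [] (nat_lit 0) [] false,
   Spec.mk (nat_lit 4906) (nat_lit 0) [] (nat_lit 0) [] false,
   Spec.mk (nat_lit 4908) (nat_lit 0) [] (nat_lit 0) [] false,
   Spec.mk (nat_lit 4916) (nat_lit 0) [] (nat_lit 0) [] false,
   Spec.mk (nat_lit 4918) (nat_lit 0) [] (nat_lit 0) [] false,
   Spec.mk (nat_lit 4920) (nat_lit 0) [] (nat_lit 0) [] false,
   Spec.mk (nat_lit 4924) (nat_lit 0) [] (nat_lit 0) [] false,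
   Spec.mk (nat_lit 4926) (nat_lit 0) [] (nat_lit 0) [] false,
   Spec.mk (nat_lit 4932) (nat_lit 0) [] (nat_lit 0) [] false,
   Spec.mk (nat_lit 4946) (nat_lit 0) [] (nat_lit 0) [] false,
   Spec.mk (nat_lit 4948) (nat_lit 0) [] (nat_lit 0) [] false,
   Spec.mk (nat_lit 4952) (nat_lit 0) [] (nat_lit 0) [] false,
   Spec.mk (nat_lit 4954) (nat_lit 0) [] (nat_lit 0) [] false,
   Spec.mk (nat_lit 4956) (nat_lit 0) [] (nat_lit 0) [] false,
   Spec.mk (nat_lit 4960) (nat_lit 0) [] (nat_lit 0) [] false,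
   Spec.mk (nat_lit 4962) (nat_lit 0) [] (nat_lit 0) [] false,
   Spec.mk (nat_lit 4970) (nat_lit 0) [] (nat_lit 0) [] false,
   Spec.mk (nat_lit 4972) (nat_lit 0) [] (nat_lit 0) [] false,
   Spec.mk (nat_lit 4974) (nat_lit 0) [] (nat_lit 0) [] false,
   Spec.mk (nat_lit 4978) (nat_lit 0) [] (nat_lit 0) [] false,
   Spec.mk (nat_lit 4980) (nat_lit 0) [] (nat_lit 0) [] false,
   Spec.mk (nat_lit 4986) (nat_lit 0) [] (nat_lit 0) [] false,
   Spec.mk (nat_lit 4996) (nat_lit 0) [] (nat_lit 0) [] false,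
   Spec.mk (nat_lit 4998) (nat_lit 0) [] (nat_lit 0) [] false,
   Spec.mk (nat_lit 5004) (nat_lit 0) [] (nat_lit 0) [] false,
   Spec.mk (nat_lit 5024) (nat_lit 0) [] (nat_lit 0) [] false,
   Spec.mk (nat_lit 5026) (nat_lit 0) [] (nat_lit 0) [] false,
   Spec.mk (nat_lit 5028) (nat_lit 0) [] (nat_lit 0) [] false,
   Spec.mk (nat_lit 5032) (nat_lit 0) [] (nat_lit 0) [] false,
   Spec.mk (nat_lit 5034) (nat_lit 0) [] (nat_lit 0) [] false,
   Spec.mk (nat_lit 5040) (nat_lit 0) [] (nat_lit 0) [] false,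
   Spec.mk (nat_lit 5050) (nat_lit 0) [] (nat_lit 0) [] false,
   Spec.mk (nat_lit 5052) (nat_lit 0) [] (nat_lit 0) [] false,
   Spec.mk (nat_lit 5058) (nat_lit 0) [] (nat_lit 0) [] false,
   Spec.mk (nat_lit 5076) (nat_lit 0) [] (nat_lit 0) [] false,
   Spec.mk (nat_lit 5120) (nat_lit 0) [] (nat_lit 0) [] false,
   Spec.mk (nat_lit 5126) (nat_lit 0) [] (nat_lit 0) [] false,
   Spec.mk (nat_lit 5128) (nat_lit 0) [] (nat_lit 0) [] false,
   Spec.mk (nat_lit 5138) (nat_lit 0) [] (nat_lit 0) [] false,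
   Spec.mk (nat_lit 5144) (nat_lit 0) [] (nat_lit 0) [] false,
   Spec.mk (nat_lit 5146) (nat_lit 0) [] (nat_lit 0) [] false,
   Spec.mk (nat_lit 5150) (nat_lit 0) [] (nat_lit 0) [] false,
   Spec.mk (nat_lit 5152) (nat_lit 0) [] (nat_lit 0) [] false,
   Spec.mk (nat_lit 5154) (nat_lit 0) [] (nat_lit 0) [] false]

noncomputable def cd15 : List Spec :=
  [Spec.mk (nat_lit 5162) (nat_lit 0) [] (nat_lit 0) [] false,
   Spec.mk (nat_lit 5164) (nat_lit 0) [] (nat_lit 0) [] false,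
   Spec.mk (nat_lit 5168) (nat_lit 0) [] (nat_lit 0) [] false,
   Spec.mk (nat_lit 5170) (nat_lit 0) [] (nat_lit 0) [] false,
   Spec.mk (nat_lit 5172) (nat_lit 0) [] (nat_lit 0) [] false,
   Spec.mk (nat_lit 5176) (nat_lit 0) [] (nat_lit 0) [] false,
   Spec.mk (nat_lit 5178) (nat_lit 0) [] (nat_lit 0) [] false,
   Spec.mk (nat_lit 5192) (nat_lit 0) [] (nat_lit 0) [] false,
   Spec.mk (nat_lit 5198) (nat_lit 0) [] (nat_lit 0) [] false,
   Spec.mk (nat_lit 5200) (nat_lit 0) [] (nat_lit 0) [] false,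
   Spec.mk (nat_lit 5204) (nat_lit 0) [] (nat_lit 0) [] false,
   Spec.mk (nat_lit 5206) (nat_lit 0) [] (nat_lit 0) [] false,
   Spec.mk (nat_lit 5208) (nat_lit 0) [] (nat_lit 0) [] false,
   Spec.mk (nat_lit 5216) (nat_lit 0) [] (nat_lit 0) [] false,
   Spec.mk (nat_lit 5218) (nat_lit 0) [] (nat_lit 0) [] false,
   Spec.mk (nat_lit 5222) (nat_lit 0) [] (nat_lit 0) [] false,
   Spec.mk (nat_lit 5224) (nat_lit 0) [] (nat_lit 0) [] false,
   Spec.mk (nat_lit 5226) (nat_lit 0) [] (nat_lit 0) [] false,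
   Spec.mk (nat_lit 5230) (nat_lit 0) [] (nat_lit 0) [] false,
   Spec.mk (nat_lit 5232) (nat_lit 0) [] (nat_lit 0) [] false,
   Spec.mk (nat_lit 5240) (nat_lit 0) [] (nat_lit 0) [] false,
   Spec.mk (nat_lit 5242) (nat_lit 0) [] (nat_lit 0) [] false,
   Spec.mk (nat_lit 5244) (nat_lit 0) [] (nat_lit 0) [] false,
   Spec.mk (nat_lit 5248) (nat_lit 0) [] (nat_lit 0) [] false,
   Spec.mk (nat_lit 5250) (nat_lit 0) [] (nat_lit 0) [] false,
   Spec.mk (nat_lit 5256) (nat_lit 0) [] (nat_lit 0) [] false,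
   Spec.mk (nat_lit 5270) (nat_lit 0) [] (nat_lit 0) [] false,
   Spec.mk (nat_lit 5272) (nat_lit 0) [] (nat_lit 0) [] false,
   Spec.mk (nat_lit 5276) (nat_lit 0) [] (nat_lit 0) [] false,
   Spec.mk (nat_lit 5278) (nat_lit 0) [] (nat_lit 0) [] false,
   Spec.mk (nat_lit 5280) (nat_lit 0) [] (nat_lit 0) [] false,
   Spec.mk (nat_lit 5284) (nat_lit 0) [] (nat_lit 0) [] false,
   Spec.mk (nat_lit 5286) (nat_lit 0) [] (nat_lit 0) [] false,
   Spec.mk (nat_lit 5294) (nat_lit 0) [] (nat_lit 0) [] false,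
   Spec.mk (nat_lit 5296) (nat_lit 0) [] (nat_lit 0) [] false,
   Spec.mk (nat_lit 5298) (nat_lit 0) [] (nat_lit 0) [] false,
   Spec.mk (nat_lit 5302) (nat_lit 0) [] (nat_lit 0) [] false,
   Spec.mk (nat_lit 5304) (nat_lit 0) [] (nat_lit 0) [] false,
   Spec.mk (nat_lit 5310) (nat_lit 0) [] (nat_lit 0) [] false,
   Spec.mk (nat_lit 5320) (nat_lit 0) [] (nat_lit 0) [] false,
   Spec.mk (nat_lit 5322) (nat_lit 0) [] (nat_lit 0) [] false,
   Spec.mk (nat_lit 5328) (nat_lit 0) [] (nat_lit 0) [] false,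
   Spec.mk (nat_lit 5354) (nat_lit 0) [] (nat_lit 0) [] false,
   Spec.mk (nat_lit 5360) (nat_lit 0) [] (nat_lit 0) [] false,
   Spec.mk (nat_lit 5362) (nat_lit 0) [] (nat_lit 0) [] false,
   Spec.mk (nat_lit 5366) (nat_lit 0) [] (nat_lit 0) [] false,
   Spec.mk (nat_lit 5368) (nat_lit 0) [] (nat_lit 0) [] false,
   Spec.mk (nat_lit 5370) (nat_lit 0) [] (nat_lit 0) [] false,
   Spec.mk (nat_lit 5378) (nat_lit 0) [] (nat_lit 0) [] false,
   Spec.mk (nat_lit 5380) (nat_lit 0) [] (nat_lit 0) [] false,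
   Spec.mk (nat_lit 5384) (nat_lit 0) [] (nat_lit 0) [] false,
   Spec.mk (nat_lit 5386) (nat_lit 0) [] (nat_lit 0) [] false,
   Spec.mk (nat_lit 5388) (nat_lit 0) [] (nat_lit 0) [] false,
   Spec.mk (nat_lit 5392) (nat_lit 0) [] (nat_lit 0) [] false,
   Spec.mk (nat_lit 5394) (nat_lit 0) [] (nat_lit 0) [] false,
   Spec.mk (nat_lit 5402) (nat_lit 0) [] (nat_lit 0) [] false,
   Spec.mk (nat_lit 5404) (nat_lit 0) [] (nat_lit 0) [] false,
   Spec.mk (nat_lit 5406) (nat_lit 0) [] (nat_lit 0) [] false,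
   Spec.mk (nat_lit 5410) (nat_lit 0) [] (nat_lit 0) [] false,
   Spec.mk (nat_lit 5412) (nat_lit 0) [] (nat_lit 0) [] false]

noncomputable def cd16 : List Spec :=
  [Spec.mk (nat_lit 5418) (nat_lit 0) [] (nat_lit 0) [] false,
   Spec.mk (nat_lit 5432) (nat_lit 0) [] (nat_lit 0) [] false,
   Spec.mk (nat_lit 5434) (nat_lit 0) [] (nat_lit 0) [] false,
   Spec.mk (nat_lit 5438) (nat_lit 0) [] (nat_lit 0) [] false,
   Spec.mk (nat_lit 5440) (nat_lit 0) [] (nat_lit 0) [] false,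
   Spec.mk (nat_lit 5442) (nat_lit 0) [] (nat_lit 0) [] false,
   Spec.mk (nat_lit 5446) (nat_lit 0) [] (nat_lit 0) [] false,
   Spec.mk (nat_lit 5448) (nat_lit 0) [] (nat_lit 0) [] false,
   Spec.mk (nat_lit 5456) (nat_lit 0) [] (nat_lit 0) [] false,
   Spec.mk (nat_lit 5458) (nat_lit 0) [] (nat_lit 0) [] false,
   Spec.mk (nat_lit 5460) (nat_lit 0) [] (nat_lit 0) [] false,
   Spec.mk (nat_lit 5464) (nat_lit 0) [] (nat_lit 0) [] false,
   Spec.mk (nat_lit 5466) (nat_lit 0) [] (nat_lit 0) [] false,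
   Spec.mk (nat_lit 5472) (nat_lit 0) [] (nat_lit 0) [] false,
   Spec.mk (nat_lit 5482) (nat_lit 0) [] (nat_lit 0) [] false,
   Spec.mk (nat_lit 5484) (nat_lit 0) [] (nat_lit 0) [] false,
   Spec.mk (nat_lit 5490) (nat_lit 0) [] (nat_lit 0) [] false,
   Spec.mk (nat_lit 5510) (nat_lit 0) [] (nat_lit 0) [] false,
   Spec.mk (nat_lit 5512) (nat_lit 0) [] (nat_lit 0) [] false,
   Spec.mk (nat_lit 5514) (nat_lit 0) [] (nat_lit 0) [] false,
   Spec.mk (nat_lit 5518) (nat_lit 0) [] (nat_lit 0) [] false,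
   Spec.mk (nat_lit 5520) (nat_lit 0) [] (nat_lit 0) [] false,
   Spec.mk (nat_lit 5526) (nat_lit 0) [] (nat_lit 0) [] false,
   Spec.mk (nat_lit 5536) (nat_lit 0) [] (nat_lit 0) [] false,
   Spec.mk (nat_lit 5538) (nat_lit 0) [] (nat_lit 0) [] false,
   Spec.mk (nat_lit 5544) (nat_lit 0) [] (nat_lit 0) [] false,
   Spec.mk (nat_lit 5562) (nat_lit 0) [] (nat_lit 0) [] false,
   Spec.mk (nat_lit 5594) (nat_lit 0) [] (nat_lit 0) [] false,
   Spec.mk (nat_lit 5596) (nat_lit 0) [] (nat_lit 0) [] false,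
   Spec.mk (nat_lit 5600) (nat_lit 0) [] (nat_lit 0) [] false,
   Spec.mk (nat_lit 5602) (nat_lit 0) [] (nat_lit 0) [] false,
   Spec.mk (nat_lit 5604) (nat_lit 0) [] (nat_lit 0) [] false,
   Spec.mk (nat_lit 5608) (nat_lit 0) [] (nat_lit 0) [] false,
   Spec.mk (nat_lit 5610) (nat_lit 0) [] (nat_lit 0) [] false,
   Spec.mk (nat_lit 5618) (nat_lit 0) [] (nat_lit 0) [] false,
   Spec.mk (nat_lit 5620) (nat_lit 0) [] (nat_lit 0) [] false,
   Spec.mk (nat_lit 5622) (nat_lit 0) [] (nat_lit 0) [] false,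
   Spec.mk (nat_lit 5626) (nat_lit 0) [] (nat_lit 0) [] false,
   Spec.mk (nat_lit 5628) (nat_lit 0) [] (nat_lit 0) [] false,
   Spec.mk (nat_lit 5634) (nat_lit 0) [] (nat_lit 0) [] false,
   Spec.mk (nat_lit 5644) (nat_lit 0) [] (nat_lit 0) [] false,
   Spec.mk (nat_lit 5646) (nat_lit 0) [] (nat_lit 0) [] false,
   Spec.mk (nat_lit 5652) (nat_lit 0) [] (nat_lit 0) [] false,
   Spec.mk (nat_lit 5672) (nat_lit 0) [] (nat_lit 0) [] false,
   Spec.mk (nat_lit 5674) (nat_lit 0) [] (nat_lit 0) [] false,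
   Spec.mk (nat_lit 5676) (nat_lit 0) [] (nat_lit 0) [] false,
   Spec.mk (nat_lit 5680) (nat_lit 0) [] (nat_lit 0) [] false,
   Spec.mk (nat_lit 5682) (nat_lit 0) [] (nat_lit 0) [] false,
   Spec.mk (nat_lit 5688) (nat_lit 0) [] (nat_lit 0) [] false,
   Spec.mk (nat_lit 5698) (nat_lit 0) [] (nat_lit 0) [] false,
   Spec.mk (nat_lit 5700) (nat_lit 0) [] (nat_lit 0) [] false,
   Spec.mk (nat_lit 5706) (nat_lit 0) [] (nat_lit 0) [] false,
   Spec.mk (nat_lit 5724) (nat_lit 0) [] (nat_lit 0) [] false,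
   Spec.mk (nat_lit 5752) (nat_lit 0) [] (nat_lit 0) [] false,
   Spec.mk (nat_lit 5754) (nat_lit 0) [] (nat_lit 0) [] false,
   Spec.mk (nat_lit 5760) (nat_lit 0) [] (nat_lit 0) [] false,
   Spec.mk (nat_lit 5778) (nat_lit 0) [] (nat_lit 0) [] false,
   Spec.mk (nat_lit 5840) (nat_lit 0) [] (nat_lit 0) [] false,
   Spec.mk (nat_lit 5846) (nat_lit 0) [] (nat_lit 0) [] false,
   Spec.mk (nat_lit 5848) (nat_lit 0) [] (nat_lit 0) [] false]

noncomputable def cd17 : List Spec :=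
  [Spec.mk (nat_lit 5852) (nat_lit 0) [] (nat_lit 0) [] false,
   Spec.mk (nat_lit 5854) (nat_lit 0) [] (nat_lit 0) [] false,
   Spec.mk (nat_lit 5856) (nat_lit 0) [] (nat_lit 0) [] false,
   Spec.mk (nat_lit 5864) (nat_lit 0) [] (nat_lit 0) [] false,
   Spec.mk (nat_lit 5866) (nat_lit 0) [] (nat_lit 0) [] false,
   Spec.mk (nat_lit 5870) (nat_lit 0) [] (nat_lit 0) [] false,
   Spec.mk (nat_lit 5872) (nat_lit 0) [] (nat_lit 0) [] false,
   Spec.mk (nat_lit 5874) (nat_lit 0) [] (nat_lit 0) [] false,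
   Spec.mk (nat_lit 5878) (nat_lit 0) [] (nat_lit 0) [] false,
   Spec.mk (nat_lit 5880) (nat_lit 0) [] (nat_lit 0) [] false,
   Spec.mk (nat_lit 5888) (nat_lit 0) [] (nat_lit 0) [] false,
   Spec.mk (nat_lit 5890) (nat_lit 0) [] (nat_lit 0) [] false,
   Spec.mk (nat_lit 5892) (nat_lit 0) [] (nat_lit 0) [] false,
   Spec.mk (nat_lit 5896) (nat_lit 0) [] (nat_lit 0) [] false,
   Spec.mk (nat_lit 5898) (nat_lit 0) [] (nat_lit 0) [] false,
   Spec.mk (nat_lit 5904) (nat_lit 0) [] (nat_lit 0) [] false,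
   Spec.mk (nat_lit 5918) (nat_lit 0) [] (nat_lit 0) [] false,
   Spec.mk (nat_lit 5920) (nat_lit 0) [] (nat_lit 0) [] false,
   Spec.mk (nat_lit 5924) (nat_lit 0) [] (nat_lit 0) [] false,
   Spec.mk (nat_lit 5926) (nat_lit 0) [] (nat_lit 0) [] false,
   Spec.mk (nat_lit 5928) (nat_lit 0) [] (nat_lit 0) [] false,
   Spec.mk (nat_lit 5932) (nat_lit 0) [] (nat_lit 0) [] false,
   Spec.mk (nat_lit 5934) (nat_lit 0) [] (nat_lit 0) [] false,
   Spec.mk (nat_lit 5942) (nat_lit 0) [] (nat_lit 0) [] false,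
   Spec.mk (nat_lit 5944) (nat_lit 0) [] (nat_lit 0) [] false,
   Spec.mk (nat_lit 5946) (nat_lit 0) [] (nat_lit 0) [] false,
   Spec.mk (nat_lit 5950) (nat_lit 0) [] (nat_lit 0) [] false,
   Spec.mk (nat_lit 5952) (nat_lit 0) [] (nat_lit 0) [] false,
   Spec.mk (nat_lit 5958) (nat_lit 0) [] (nat_lit 0) [] false,
   Spec.mk (nat_lit 5968) (nat_lit 0) [] (nat_lit 0) [] false,
   Spec.mk (nat_lit 5970) (nat_lit 0) [] (nat_lit 0) [] false,
   Spec.mk (nat_lit 5976) (nat_lit 0) [] (nat_lit 0) [] false,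
   Spec.mk (nat_lit 5996) (nat_lit 0) [] (nat_lit 0) [] false,
   Spec.mk (nat_lit 5998) (nat_lit 0) [] (nat_lit 0) [] false,
   Spec.mk (nat_lit 6000) (nat_lit 0) [] (nat_lit 0) [] false,
   Spec.mk (nat_lit 6004) (nat_lit 0) [] (nat_lit 0) [] false,
   Spec.mk (nat_lit 6006) (nat_lit 0) [] (nat_lit 0) [] false,
   Spec.mk (nat_lit 6012) (nat_lit 0) [] (nat_lit 0) [] false,
   Spec.mk (nat_lit 6022) (nat_lit 0) [] (nat_lit 0) [] false,
   Spec.mk (nat_lit 6024) (nat_lit 0) [] (nat_lit 0) [] false,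
   Spec.mk (nat_lit 6030) (nat_lit 0) [] (nat_lit 0) [] false,
   Spec.mk (nat_lit 6048) (nat_lit 0) [] (nat_lit 0) [] false,
   Spec.mk (nat_lit 6080) (nat_lit 0) [] (nat_lit 0) [] false,
   Spec.mk (nat_lit 6082) (nat_lit 0) [] (nat_lit 0) [] false,
   Spec.mk (nat_lit 6086) (nat_lit 0) [] (nat_lit 0) [] false,
   Spec.mk (nat_lit 6088) (nat_lit 0) [] (nat_lit 0) [] false,
   Spec.mk (nat_lit 6090) (nat_lit 0) [] (nat_lit 0) [] false,
   Spec.mk (nat_lit 6094) (nat_lit 0) [] (nat_lit 0) [] false,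
   Spec.mk (nat_lit 6096) (nat_lit 0) [] (nat_lit 0) [] false,
   Spec.mk (nat_lit 6104) (nat_lit 0) [] (nat_lit 0) [] false,
   Spec.mk (nat_lit 6106) (nat_lit 0) [] (nat_lit 0) [] false,
   Spec.mk (nat_lit 6108) (nat_lit 0) [] (nat_lit 0) [] false,
   Spec.mk (nat_lit 6112) (nat_lit 0) [] (nat_lit 0) [] false,
   Spec.mk (nat_lit 6114) (nat_lit 0) [] (nat_lit 0) [] false,
   Spec.mk (nat_lit 6120) (nat_lit 0) [] (nat_lit 0) [] false,
   Spec.mk (nat_lit 6130) (nat_lit 0) [] (nat_lit 0) [] false,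
   Spec.mk (nat_lit 6132) (nat_lit 0) [] (nat_lit 0) [] false,
   Spec.mk (nat_lit 6138) (nat_lit 0) [] (nat_lit 0) [] false,
   Spec.mk (nat_lit 6158) (nat_lit 0) [] (nat_lit 0) [] false,
   Spec.mk (nat_lit 6160) (nat_lit 0) [] (nat_lit 0) [] false]

noncomputable def cd18 : List Spec :=
  [Spec.mk (nat_lit 6162) (nat_lit 0) [] (nat_lit 0) [] false,
   Spec.mk (nat_lit 6166) (nat_lit 0) [] (nat_lit 0) [] false,
   Spec.mk (nat_lit 6168) (nat_lit 0) [] (nat_lit 0) [] false,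
   Spec.mk (nat_lit 6174) (nat_lit 0) [] (nat_lit 0) [] false,
   Spec.mk (nat_lit 6184) (nat_lit 0) [] (nat_lit 0) [] false,
   Spec.mk (nat_lit 6186) (nat_lit 0) [] (nat_lit 0) [] false,
   Spec.mk (nat_lit 6192) (nat_lit 0) [] (nat_lit 0) [] false,
   Spec.mk (nat_lit 6210) (nat_lit 0) [] (nat_lit 0) [] false,
   Spec.mk (nat_lit 6238) (nat_lit 0) [] (nat_lit 0) [] false,
   Spec.mk (nat_lit 6240) (nat_lit 0) [] (nat_lit 0) [] false,
   Spec.mk (nat_lit 6246) (nat_lit 0) [] (nat_lit 0) [] false,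
   Spec.mk (nat_lit 6264) (nat_lit 0) [] (nat_lit 0) [] false,
   Spec.mk (nat_lit 6320) (nat_lit 0) [] (nat_lit 0) [] false,
   Spec.mk (nat_lit 6322) (nat_lit 0) [] (nat_lit 0) [] false,
   Spec.mk (nat_lit 6324) (nat_lit 0) [] (nat_lit 0) [] false,
   Spec.mk (nat_lit 6328) (nat_lit 0) [] (nat_lit 0) [] false,
   Spec.mk (nat_lit 6330) (nat_lit 0) [] (nat_lit 0) [] false,
   Spec.mk (nat_lit 6336) (nat_lit 0) [] (nat_lit 0) [] false,
   Spec.mk (nat_lit 6346) (nat_lit 0) [] (nat_lit 0) [] false,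
   Spec.mk (nat_lit 6348) (nat_lit 0) [] (nat_lit 0) [] false,
   Spec.mk (nat_lit 6354) (nat_lit 0) [] (nat_lit 0) [] false,
   Spec.mk (nat_lit 6372) (nat_lit 0) [] (nat_lit 0) [] false,
   Spec.mk (nat_lit 6400) (nat_lit 0) [] (nat_lit 0) [] false,
   Spec.mk (nat_lit 6402) (nat_lit 0) [] (nat_lit 0) [] false,
   Spec.mk (nat_lit 6408) (nat_lit 0) [] (nat_lit 0) [] false,
   Spec.mk (nat_lit 6426) (nat_lit 0) [] (nat_lit 0) [] false,
   Spec.mk (nat_lit 6480) (nat_lit 0) [] (nat_lit 0) [] false,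
   Spec.mk (nat_lit 6614) (nat_lit 0) [] (nat_lit 0) [] false,
   Spec.mk (nat_lit 6632) (nat_lit 0) [] (nat_lit 0) [] false,
   Spec.mk (nat_lit 6638) (nat_lit 0) [] (nat_lit 0) [] false,
   Spec.mk (nat_lit 6640) (nat_lit 0) [] (nat_lit 0) [] false,
   Spec.mk (nat_lit 6668) (nat_lit 0) [] (nat_lit 0) [] false,
   Spec.mk (nat_lit 6686) (nat_lit 0) [] (nat_lit 0) [] false,
   Spec.mk (nat_lit 6692) (nat_lit 0) [] (nat_lit 0) [] false,
   Spec.mk (nat_lit 6694) (nat_lit 0) [] (nat_lit 0) [] false,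
   Spec.mk (nat_lit 6704) (nat_lit 0) [] (nat_lit 0) [] false,
   Spec.mk (nat_lit 6710) (nat_lit 0) [] (nat_lit 0) [] false,
   Spec.mk (nat_lit 6712) (nat_lit 0) [] (nat_lit 0) [] false,
   Spec.mk (nat_lit 6716) (nat_lit 0) [] (nat_lit 0) [] false,
   Spec.mk (nat_lit 6718) (nat_lit 0) [] (nat_lit 0) [] false,
   Spec.mk (nat_lit 6720) (nat_lit 0) [] (nat_lit 0) [] false,
   Spec.mk (nat_lit 6740) (nat_lit 0) [] (nat_lit 0) [] false,
   Spec.mk (nat_lit 6746) (nat_lit 0) [] (nat_lit 0) [] false,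
   Spec.mk (nat_lit 6748) (nat_lit 0) [] (nat_lit 0) [] false,
   Spec.mk (nat_lit 6758) (nat_lit 0) [] (nat_lit 0) [] false,
   Spec.mk (nat_lit 6764) (nat_lit 0) [] (nat_lit 0) [] false,
   Spec.mk (nat_lit 6766) (nat_lit 0) [] (nat_lit 0) [] false,
   Spec.mk (nat_lit 6770) (nat_lit 0) [] (nat_lit 0) [] false,
   Spec.mk (nat_lit 6772) (nat_lit 0) [] (nat_lit 0) [] false,
   Spec.mk (nat_lit 6774) (nat_lit 0) [] (nat_lit 0) [] false,
   Spec.mk (nat_lit 6782) (nat_lit 0) [] (nat_lit 0) [] false,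
   Spec.mk (nat_lit 6784) (nat_lit 0) [] (nat_lit 0) [] false,
   Spec.mk (nat_lit 6788) (nat_lit 0) [] (nat_lit 0) [] false,
   Spec.mk (nat_lit 6790) (nat_lit 0) [] (nat_lit 0) [] false,
   Spec.mk (nat_lit 6792) (nat_lit 0) [] (nat_lit 0) [] false,
   Spec.mk (nat_lit 6796) (nat_lit 0) [] (nat_lit 0) [] false,
   Spec.mk (nat_lit 6798) (nat_lit 0) [] (nat_lit 0) [] false,
   Spec.mk (nat_lit 6830) (nat_lit 0) [] (nat_lit 0) [] false,
   Spec.mk (nat_lit 6848) (nat_lit 0) [] (nat_lit 0) [] false,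
   Spec.mk (nat_lit 6854) (nat_lit 0) [] (nat_lit 0) [] false]

noncomputable def cd19 : List Spec :=
  [Spec.mk (nat_lit 6856) (nat_lit 0) [] (nat_lit 0) [] false,
   Spec.mk (nat_lit 6866) (nat_lit 0) [] (nat_lit 0) [] false,
   Spec.mk (nat_lit 6872) (nat_lit 0) [] (nat_lit 0) [] false,
   Spec.mk (nat_lit 6874) (nat_lit 0) [] (nat_lit 0) [] false,
   Spec.mk (nat_lit 6878) (nat_lit 0) [] (nat_lit 0) [] false,
   Spec.mk (nat_lit 6880) (nat_lit 0) [] (nat_lit 0) [] false,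
   Spec.mk (nat_lit 6882) (nat_lit 0) [] (nat_lit 0) [] false,
   Spec.mk (nat_lit 6902) (nat_lit 0) [] (nat_lit 0) [] false,
   Spec.mk (nat_lit 6908) (nat_lit 0) [] (nat_lit 0) [] false,
   Spec.mk (nat_lit 6910) (nat_lit 0) [] (nat_lit 0) [] false,
   Spec.mk (nat_lit 6920) (nat_lit 0) [] (nat_lit 0) [] false,
   Spec.mk (nat_lit 6926) (nat_lit 0) [] (nat_lit 0) [] false,
   Spec.mk (nat_lit 6928) (nat_lit 0) [] (nat_lit 0) [] false,
   Spec.mk (nat_lit 6932) (nat_lit 0) [] (nat_lit 0) [] false,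
   Spec.mk (nat_lit 6934) (nat_lit 0) [] (nat_lit 0) [] false,
   Spec.mk (nat_lit 6936) (nat_lit 0) [] (nat_lit 0) [] false,
   Spec.mk (nat_lit 6944) (nat_lit 0) [] (nat_lit 0) [] false,
   Spec.mk (nat_lit 6946) (nat_lit 0) [] (nat_lit 0) [] false,
   Spec.mk (nat_lit 6950) (nat_lit 0) [] (nat_lit 0) [] false,
   Spec.mk (nat_lit 6952) (nat_lit 0) [] (nat_lit 0) [] false,
   Spec.mk (nat_lit 6954) (nat_lit 0) [] (nat_lit 0) [] false,
   Spec.mk (nat_lit 6958) (nat_lit 0) [] (nat_lit 0) [] false,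
   Spec.mk (nat_lit 6960) (nat_lit 0) [] (nat_lit 0) [] false,
   Spec.mk (nat_lit 6974) (nat_lit 0) [] (nat_lit 0) [] false,
   Spec.mk (nat_lit 6980) (nat_lit 0) [] (nat_lit 0) [] false,
   Spec.mk (nat_lit 6982) (nat_lit 0) [] (nat_lit 0) [] false,
   Spec.mk (nat_lit 6986) (nat_lit 0) [] (nat_lit 0) [] false,
   Spec.mk (nat_lit 6988) (nat_lit 0) [] (nat_lit 0) [] false,
   Spec.mk (nat_lit 6990) (nat_lit 0) [] (nat_lit 0) [] false,
   Spec.mk (nat_lit 6998) (nat_lit 0) [] (nat_lit 0) [] false,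
   Spec.mk (nat_lit 7000) (nat_lit 0) [] (nat_lit 0) [] false,
   Spec.mk (nat_lit 7004) (nat_lit 0) [] (nat_lit 0) [] false,
   Spec.mk (nat_lit 7006) (nat_lit 0) [] (nat_lit 0) [] false,
   Spec.mk (nat_lit 7008) (nat_lit 0) [] (nat_lit 0) [] false,
   Spec.mk (nat_lit 7012) (nat_lit 0) [] (nat_lit 0) [] false,
   Spec.mk (nat_lit 7014) (nat_lit 0) [] (nat_lit 0) [] false,
   Spec.mk (nat_lit 7022) (nat_lit 0) [] (nat_lit 0) [] false,
   Spec.mk (nat_lit 7024) (nat_lit 0) [] (nat_lit 0) [] false,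
   Spec.mk (nat_lit 7026) (nat_lit 0) [] (nat_lit 0) [] false,
   Spec.mk (nat_lit 7030) (nat_lit 0) [] (nat_lit 0) [] false,
   Spec.mk (nat_lit 7032) (nat_lit 0) [] (nat_lit 0) [] false,
   Spec.mk (nat_lit 7038) (nat_lit 0) [] (nat_lit 0) [] false,
   Spec.mk (nat_lit 7064) (nat_lit 0) [] (nat_lit 0) [] false,
   Spec.mk (nat_lit 7070) (nat_lit 0) [] (nat_lit 0) [] false,
   Spec.mk (nat_lit 7072) (nat_lit 0) [] (nat_lit 0) [] false,
   Spec.mk (nat_lit 7082) (nat_lit 0) [] (nat_lit 0) [] false,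
   Spec.mk (nat_lit 7088) (nat_lit 0) [] (nat_lit 0) [] false,
   Spec.mk (nat_lit 7090) (nat_lit 0) [] (nat_lit 0) [] false,
   Spec.mk (nat_lit 7094) (nat_lit 0) [] (nat_lit 0) [] false,
   Spec.mk (nat_lit 7096) (nat_lit 0) [] (nat_lit 0) [] false,
   Spec.mk (nat_lit 7098) (nat_lit 0) [] (nat_lit 0) [] false,
   Spec.mk (nat_lit 7106) (nat_lit 0) [] (nat_lit 0) [] false,
   Spec.mk (nat_lit 7108) (nat_lit 0) [] (nat_lit 0) [] false,
   Spec.mk (nat_lit 7112) (nat_lit 0) [] (nat_lit 0) [] false,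
   Spec.mk (nat_lit 7114) (nat_lit 0) [] (nat_lit 0) [] false,
   Spec.mk (nat_lit 7116) (nat_lit 0) [] (nat_lit 0) [] false,
   Spec.mk (nat_lit 7120) (nat_lit 0) [] (nat_lit 0) [] false,
   Spec.mk (nat_lit 7122) (nat_lit 0) [] (nat_lit 0) [] false,
   Spec.mk (nat_lit 7136) (nat_lit 0) [] (nat_lit 0) [] false,
   Spec.mk (nat_lit 7142) (nat_lit 0) [] (nat_lit 0) [] false]

noncomputable def cd20 : List Spec :=
  [Spec.mk (nat_lit 7144) (nat_lit 0) [] (nat_lit 0) [] false,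
   Spec.mk (nat_lit 7148) (nat_lit 0) [] (nat_lit 0) [] false,
   Spec.mk (nat_lit 7150) (nat_lit 0) [] (nat_lit 0) [] false,
   Spec.mk (nat_lit 7152) (nat_lit 0) [] (nat_lit 0) [] false,
   Spec.mk (nat_lit 7160) (nat_lit 0) [] (nat_lit 0) [] false,
   Spec.mk (nat_lit 7162) (nat_lit 0) [] (nat_lit 0) [] false,
   Spec.mk (nat_lit 7166) (nat_lit 0) [] (nat_lit 0) [] false,
   Spec.mk (nat_lit 7168) (nat_lit 0) [] (nat_lit 0) [] false,
   Spec.mk (nat_lit 7170) (nat_lit 0) [] (nat_lit 0) [] false,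
   Spec.mk (nat_lit 7174) (nat_lit 0) [] (nat_lit 0) [] false,
   Spec.mk (nat_lit 7176) (nat_lit 0) [] (nat_lit 0) [] false,
   Spec.mk (nat_lit 7184) (nat_lit 0) [] (nat_lit 0) [] false,
   Spec.mk (nat_lit 7186) (nat_lit 0) [] (nat_lit 0) [] false,
   Spec.mk (nat_lit 7188) (nat_lit 0) [] (nat_lit 0) [] false,
   Spec.mk (nat_lit 7192) (nat_lit 0) [] (nat_lit 0) [] false,
   Spec.mk (nat_lit 7194) (nat_lit 0) [] (nat_lit 0) [] false,
   Spec.mk (nat_lit 7200) (nat_lit 0) [] (nat_lit 0) [] false,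
   Spec.mk (nat_lit 7214) (nat_lit 0) [] (nat_lit 0) [] false,
   Spec.mk (nat_lit 7216) (nat_lit 0) [] (nat_lit 0) [] false,
   Spec.mk (nat_lit 7220) (nat_lit 0) [] (nat_lit 0) [] false,
   Spec.mk (nat_lit 7222) (nat_lit 0) [] (nat_lit 0) [] false,
   Spec.mk (nat_lit 7224) (nat_lit 0) [] (nat_lit 0) [] false,
   Spec.mk (nat_lit 7228) (nat_lit 0) [] (nat_lit 0) [] false,
   Spec.mk (nat_lit 7230) (nat_lit 0) [] (nat_lit 0) [] false,
   Spec.mk (nat_lit 7238) (nat_lit 0) [] (nat_lit 0) [] false,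
   Spec.mk (nat_lit 7240) (nat_lit 0) [] (nat_lit 0) [] false,
   Spec.mk (nat_lit 7242) (nat_lit 0) [] (nat_lit 0) [] false,
   Spec.mk (nat_lit 7246) (nat_lit 0) [] (nat_lit 0) [] false,
   Spec.mk (nat_lit 7248) (nat_lit 0) [] (nat_lit 0) [] false,
   Spec.mk (nat_lit 7254) (nat_lit 0) [] (nat_lit 0) [] false,
   Spec.mk (nat_lit 7264) (nat_lit 0) [] (nat_lit 0) [] false,
   Spec.mk (nat_lit 7266) (nat_lit 0) [] (nat_lit 0) [] false,
   Spec.mk (nat_lit 7272) (nat_lit 0) [] (nat_lit 0) [] false,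
   Spec.mk (nat_lit 7316) (nat_lit 0) [] (nat_lit 0) [] false,
   Spec.mk (nat_lit 7334) (nat_lit 0) [] (nat_lit 0) [] false,
   Spec.mk (nat_lit 7340) (nat_lit 0) [] (nat_lit 0) [] false,
   Spec.mk (nat_lit 7342) (nat_lit 0) [] (nat_lit 0) [] false,
   Spec.mk (nat_lit 7352) (nat_lit 0) [] (nat_lit 0) [] false,
   Spec.mk (nat_lit 7358) (nat_lit 0) [] (nat_lit 0) [] false,
   Spec.mk (nat_lit 7360) (nat_lit 0) [] (nat_lit 0) [] false,
   Spec.mk (nat_lit 7364) (nat_lit 0) [] (nat_lit 0) [] false,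
   Spec.mk (nat_lit 7366) (nat_lit 0) [] (nat_lit 0) [] false,
   Spec.mk (nat_lit 7368) (nat_lit 0) [] (nat_lit 0) [] false,
   Spec.mk (nat_lit 7388) (nat_lit 0) [] (nat_lit 0) [] false,
   Spec.mk (nat_lit 7394) (nat_lit 0) [] (nat_lit 0) [] false,
   Spec.mk (nat_lit 7396) (nat_lit 0) [] (nat_lit 0) [] false,
   Spec.mk (nat_lit 7406) (nat_lit 0) [] (nat_lit 0) [] false,
   Spec.mk (nat_lit 7412) (nat_lit 0) [] (nat_lit 0) [] false,
   Spec.mk (nat_lit 7414) (nat_lit 0) [] (nat_lit 0) [] false,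
   Spec.mk (nat_lit 7418) (nat_lit 0) [] (nat_lit 0) [] false,
   Spec.mk (nat_lit 7420) (nat_lit 0) [] (nat_lit 0) [] false,
   Spec.mk (nat_lit 7422) (nat_lit 0) [] (nat_lit 0) [] false,
   Spec.mk (nat_lit 7430) (nat_lit 0) [] (nat_lit 0) [] false,
   Spec.mk (nat_lit 7432) (nat_lit 0) [] (nat_lit 0) [] false,
   Spec.mk (nat_lit 7436) (nat_lit 0) [] (nat_lit 0) [] false,
   Spec.mk (nat_lit 7438) (nat_lit 0) [] (nat_lit 0) [] false,
   Spec.mk (nat_lit 7440) (nat_lit 0) [] (nat_lit 0) [] false,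
   Spec.mk (nat_lit 7444) (nat_lit 0) [] (nat_lit 0) [] false,
   Spec.mk (nat_lit 7446) (nat_lit 0) [] (nat_lit 0) [] false,
   Spec.mk (nat_lit 7460) (nat_lit 0) [] (nat_lit 0) [] false]

noncomputable def cd21 : List Spec :=
  [Spec.mk (nat_lit 7466) (nat_lit 0) [] (nat_lit 0) [] false,
   Spec.mk (nat_lit 7468) (nat_lit 0) [] (nat_lit 0) [] false,
   Spec.mk (nat_lit 7472) (nat_lit 0) [] (nat_lit 0) [] false,
   Spec.mk (nat_lit 7474) (nat_lit 0) [] (nat_lit 0) [] false,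
   Spec.mk (nat_lit 7476) (nat_lit 0) [] (nat_lit 0) [] false,
   Spec.mk (nat_lit 7484) (nat_lit 0) [] (nat_lit 0) [] false,
   Spec.mk (nat_lit 7486) (nat_lit 0) [] (nat_lit 0) [] false,
   Spec.mk (nat_lit 7490) (nat_lit 0) [] (nat_lit 0) [] false,
   Spec.mk (nat_lit 7492) (nat_lit 0) [] (nat_lit 0) [] false,
   Spec.mk (nat_lit 7494) (nat_lit 0) [] (nat_lit 0) [] false,
   Spec.mk (nat_lit 7498) (nat_lit 0) [] (nat_lit 0) [] false,
   Spec.mk (nat_lit 7500) (nat_lit 0) [] (nat_lit 0) [] false,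
   Spec.mk (nat_lit 7508) (nat_lit 0) [] (nat_lit 0) [] false,
   Spec.mk (nat_lit 7510) (nat_lit 0) [] (nat_lit 0) [] false,
   Spec.mk (nat_lit 7512) (nat_lit 0) [] (nat_lit 0) [] false,
   Spec.mk (nat_lit 7516) (nat_lit 0) [] (nat_lit 0) [] false,
   Spec.mk (nat_lit 7518) (nat_lit 0) [] (nat_lit 0) [] false,
   Spec.mk (nat_lit 7524) (nat_lit 0) [] (nat_lit 0) [] false,
   Spec.mk (nat_lit 7550) (nat_lit 0) [] (nat_lit 0) [] false,
   Spec.mk (nat_lit 7556) (nat_lit 0) [] (nat_lit 0) [] false,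
   Spec.mk (nat_lit 7558) (nat_lit 0) [] (nat_lit 0) [] false,
   Spec.mk (nat_lit 7568) (nat_lit 0) [] (nat_lit 0) [] false,
   Spec.mk (nat_lit 7574) (nat_lit 0) [] (nat_lit 0) [] false,
   Spec.mk (nat_lit 7576) (nat_lit 0) [] (nat_lit 0) [] false,
   Spec.mk (nat_lit 7580) (nat_lit 0) [] (nat_lit 0) [] false,
   Spec.mk (nat_lit 7582) (nat_lit 0) [] (nat_lit 0) [] false,
   Spec.mk (nat_lit 7584) (nat_lit 0) [] (nat_lit 0) [] false,
   Spec.mk (nat_lit 7592) (nat_lit 0) [] (nat_lit 0) [] false,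
   Spec.mk (nat_lit 7594) (nat_lit 0) [] (nat_lit 0) [] false,
   Spec.mk (nat_lit 7598) (nat_lit 0) [] (nat_lit 0) [] false,
   Spec.mk (nat_lit 7600) (nat_lit 0) [] (nat_lit 0) [] false,
   Spec.mk (nat_lit 7602) (nat_lit 0) [] (nat_lit 0) [] false,
   Spec.mk (nat_lit 7606) (nat_lit 0) [] (nat_lit 0) [] false,
   Spec.mk (nat_lit 7608) (nat_lit 0) [] (nat_lit 0) [] false,
   Spec.mk (nat_lit 7622) (nat_lit 0) [] (nat_lit 0) [] false,
   Spec.mk (nat_lit 7628) (nat_lit 0) [] (nat_lit 0) [] false,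
   Spec.mk (nat_lit 7630) (nat_lit 0) [] (nat_lit 0) [] false,
   Spec.mk (nat_lit 7634) (nat_lit 0) [] (nat_lit 0) [] false,
   Spec.mk (nat_lit 7636) (nat_lit 0) [] (nat_lit 0) [] false,
   Spec.mk (nat_lit 7638) (nat_lit 0) [] (nat_lit 0) [] false,
   Spec.mk (nat_lit 7646) (nat_lit 0) [] (nat_lit 0) [] false,
   Spec.mk (nat_lit 7648) (nat_lit 0) [] (nat_lit 0) [] false,
   Spec.mk (nat_lit 7652) (nat_lit 0) [] (nat_lit 0) [] false,
   Spec.mk (nat_lit 7654) (nat_lit 0) [] (nat_lit 0) [] false,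
   Spec.mk (nat_lit 7656) (nat_lit 0) [] (nat_lit 0) [] false,
   Spec.mk (nat_lit 7660) (nat_lit 0) [] (nat_lit 0) [] false,
   Spec.mk (nat_lit 7662) (nat_lit 0) [] (nat_lit 0) [] false,
   Spec.mk (nat_lit 7670) (nat_lit 0) [] (nat_lit 0) [] false,
   Spec.mk (nat_lit 7672) (nat_lit 0) [] (nat_lit 0) [] false,
   Spec.mk (nat_lit 7674) (nat_lit 0) [] (nat_lit 0) [] false,
   Spec.mk (nat_lit 7678) (nat_lit 0) [] (nat_lit 0) [] false,
   Spec.mk (nat_lit 7680) (nat_lit 0) [] (nat_lit 0) [] false,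
   Spec.mk (nat_lit 7686) (nat_lit 0) [] (nat_lit 0) [] false,
   Spec.mk (nat_lit 7700) (nat_lit 0) [] (nat_lit 0) [] false,
   Spec.mk (nat_lit 7702) (nat_lit 0) [] (nat_lit 0) [] false,
   Spec.mk (nat_lit 7706) (nat_lit 0) [] (nat_lit 0) [] false,
   Spec.mk (nat_lit 7708) (nat_lit 0) [] (nat_lit 0) [] false,
   Spec.mk (nat_lit 7710) (nat_lit 0) [] (nat_lit 0) [] false,
   Spec.mk (nat_lit 7714) (nat_lit 0) [] (nat_lit 0) [] false,
   Spec.mk (nat_lit 7716) (nat_lit 0) [] (nat_lit 0) [] false]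

noncomputable def cd22 : List Spec :=
  [Spec.mk (nat_lit 7724) (nat_lit 0) [] (nat_lit 0) [] false,
   Spec.mk (nat_lit 7726) (nat_lit 0) [] (nat_lit 0) [] false,
   Spec.mk (nat_lit 7728) (nat_lit 0) [] (nat_lit 0) [] false,
   Spec.mk (nat_lit 7732) (nat_lit 0) [] (nat_lit 0) [] false,
   Spec.mk (nat_lit 7734) (nat_lit 0) [] (nat_lit 0) [] false,
   Spec.mk (nat_lit 7740) (nat_lit 0) [] (nat_lit 0) [] false,
   Spec.mk (nat_lit 7750) (nat_lit 0) [] (nat_lit 0) [] false,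
   Spec.mk (nat_lit 7752) (nat_lit 0) [] (nat_lit 0) [] false,
   Spec.mk (nat_lit 7758) (nat_lit 0) [] (nat_lit 0) [] false,
   Spec.mk (nat_lit 7784) (nat_lit 0) [] (nat_lit 0) [] false,
   Spec.mk (nat_lit 7790) (nat_lit 0) [] (nat_lit 0) [] false,
   Spec.mk (nat_lit 7792) (nat_lit 0) [] (nat_lit 0) [] false,
   Spec.mk (nat_lit 7796) (nat_lit 0) [] (nat_lit 0) [] false,
   Spec.mk (nat_lit 7798) (nat_lit 0) [] (nat_lit 0) [] false,
   Spec.mk (nat_lit 7800) (nat_lit 0) [] (nat_lit 0) [] false,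
   Spec.mk (nat_lit 7808) (nat_lit 0) [] (nat_lit 0) [] false,
   Spec.mk (nat_lit 7810) (nat_lit 0) [] (nat_lit 0) [] false,
   Spec.mk (nat_lit 7814) (nat_lit 0) [] (nat_lit 0) [] false,
   Spec.mk (nat_lit 7816) (nat_lit 0) [] (nat_lit 0) [] false,
   Spec.mk (nat_lit 7818) (nat_lit 0) [] (nat_lit 0) [] false,
   Spec.mk (nat_lit 7822) (nat_lit 0) [] (nat_lit 0) [] false,
   Spec.mk (nat_lit 7824) (nat_lit 0) [] (nat_lit 0) [] false,
   Spec.mk (nat_lit 7832) (nat_lit 0) [] (nat_lit 0) [] false,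
   Spec.mk (nat_lit 7834) (nat_lit 0) [] (nat_lit 0) [] false,
   Spec.mk (nat_lit 7836) (nat_lit 0) [] (nat_lit 0) [] false,
   Spec.mk (nat_lit 7840) (nat_lit 0) [] (nat_lit 0) [] false,
   Spec.mk (nat_lit 7842) (nat_lit 0) [] (nat_lit 0) [] false,
   Spec.mk (nat_lit 7848) (nat_lit 0) [] (nat_lit 0) [] false,
   Spec.mk (nat_lit 7862) (nat_lit 0) [] (nat_lit 0) [] false,
   Spec.mk (nat_lit 7864) (nat_lit 0) [] (nat_lit 0) [] false,
   Spec.mk (nat_lit 7868) (nat_lit 0) [] (nat_lit 0) [] false,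
   Spec.mk (nat_lit 7870) (nat_lit 0) [] (nat_lit 0) [] false,
   Spec.mk (nat_lit 7872) (nat_lit 0) [] (nat_lit 0) [] false,
   Spec.mk (nat_lit 7876) (nat_lit 0) [] (nat_lit 0) [] false,
   Spec.mk (nat_lit 7878) (nat_lit 0) [] (nat_lit 0) [] false,
   Spec.mk (nat_lit 7886) (nat_lit 0) [] (nat_lit 0) [] false,
   Spec.mk (nat_lit 7888) (nat_lit 0) [] (nat_lit 0) [] false,
   Spec.mk (nat_lit 7890) (nat_lit 0) [] (nat_lit 0) [] false,
   Spec.mk (nat_lit 7894) (nat_lit 0) [] (nat_lit 0) [] false,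
   Spec.mk (nat_lit 7896) (nat_lit 0) [] (nat_lit 0) [] false,
   Spec.mk (nat_lit 7902) (nat_lit 0) [] (nat_lit 0) [] false,
   Spec.mk (nat_lit 7912) (nat_lit 0) [] (nat_lit 0) [] false,
   Spec.mk (nat_lit 7914) (nat_lit 0) [] (nat_lit 0) [] false,
   Spec.mk (nat_lit 7920) (nat_lit 0) [] (nat_lit 0) [] false,
   Spec.mk (nat_lit 7940) (nat_lit 0) [] (nat_lit 0) [] false,
   Spec.mk (nat_lit 7942) (nat_lit 0) [] (nat_lit 0) [] false,
   Spec.mk (nat_lit 7944) (nat_lit 0) [] (nat_lit 0) [] false,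
   Spec.mk (nat_lit 7948) (nat_lit 0) [] (nat_lit 0) [] false,
   Spec.mk (nat_lit 7950) (nat_lit 0) [] (nat_lit 0) [] false,
   Spec.mk (nat_lit 7956) (nat_lit 0) [] (nat_lit 0) [] false,
   Spec.mk (nat_lit 7966) (nat_lit 0) [] (nat_lit 0) [] false,
   Spec.mk (nat_lit 7968) (nat_lit 0) [] (nat_lit 0) [] false,
   Spec.mk (nat_lit 7974) (nat_lit 0) [] (nat_lit 0) [] false,
   Spec.mk (nat_lit 7992) (nat_lit 0) [] (nat_lit 0) [] false,
   Spec.mk (nat_lit 8036) (nat_lit 0) [] (nat_lit 0) [] false,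
   Spec.mk (nat_lit 8042) (nat_lit 0) [] (nat_lit 0) [] false,
   Spec.mk (nat_lit 8044) (nat_lit 0) [] (nat_lit 0) [] false,
   Spec.mk (nat_lit 8054) (nat_lit 0) [] (nat_lit 0) [] false,
   Spec.mk (nat_lit 8060) (nat_lit 0) [] (nat_lit 0) [] false,
   Spec.mk (nat_lit 8062) (nat_lit 0) [] (nat_lit 0) [] false]

noncomputable def cd23 : List Spec :=
  [Spec.mk (nat_lit 8066) (nat_lit 0) [] (nat_lit 0) [] false,
   Spec.mk (nat_lit 8068) (nat_lit 0) [] (nat_lit 0) [] false,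
   Spec.mk (nat_lit 8070) (nat_lit 0) [] (nat_lit 0) [] false,
   Spec.mk (nat_lit 8078) (nat_lit 0) [] (nat_lit 0) [] false,
   Spec.mk (nat_lit 8080) (nat_lit 0) [] (nat_lit 0) [] false,
   Spec.mk (nat_lit 8084) (nat_lit 0) [] (nat_lit 0) [] false,
   Spec.mk (nat_lit 8086) (nat_lit 0) [] (nat_lit 0) [] false,
   Spec.mk (nat_lit 8088) (nat_lit 0) [] (nat_lit 0) [] false,
   Spec.mk (nat_lit 8092) (nat_lit 0) [] (nat_lit 0) [] false,
   Spec.mk (nat_lit 8094) (nat_lit 0) [] (nat_lit 0) [] false,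
   Spec.mk (nat_lit 8108) (nat_lit 0) [] (nat_lit 0) [] false,
   Spec.mk (nat_lit 8114) (nat_lit 0) [] (nat_lit 0) [] false,
   Spec.mk (nat_lit 8116) (nat_lit 0) [] (nat_lit 0) [] false,
   Spec.mk (nat_lit 8120) (nat_lit 0) [] (nat_lit 0) [] false,
   Spec.mk (nat_lit 8122) (nat_lit 0) [] (nat_lit 0) [] false,
   Spec.mk (nat_lit 8124) (nat_lit 0) [] (nat_lit 0) [] false,
   Spec.mk (nat_lit 8132) (nat_lit 0) [] (nat_lit 0) [] false,
   Spec.mk (nat_lit 8134) (nat_lit 0) [] (nat_lit 0) [] false,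
   Spec.mk (nat_lit 8138) (nat_lit 0) [] (nat_lit 0) [] false,
   Spec.mk (nat_lit 8140) (nat_lit 0) [] (nat_lit 0) [] false,
   Spec.mk (nat_lit 8142) (nat_lit 0) [] (nat_lit 0) [] false,
   Spec.mk (nat_lit 8146) (nat_lit 0) [] (nat_lit 0) [] false,
   Spec.mk (nat_lit 8148) (nat_lit 0) [] (nat_lit 0) [] false,
   Spec.mk (nat_lit 8156) (nat_lit 0) [] (nat_lit 0) [] false,
   Spec.mk (nat_lit 8158) (nat_lit 0) [] (nat_lit 0) [] false,
   Spec.mk (nat_lit 8160) (nat_lit 0) [] (nat_lit 0) [] false,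
   Spec.mk (nat_lit 8164) (nat_lit 0) [] (nat_lit 0) [] false,
   Spec.mk (nat_lit 8166) (nat_lit 0) [] (nat_lit 0) [] false,
   Spec.mk (nat_lit 8172) (nat_lit 0) [] (nat_lit 0) [] false,
   Spec.mk (nat_lit 8186) (nat_lit 0) [] (nat_lit 0) [] false,
   Spec.mk (nat_lit 8188) (nat_lit 0) [] (nat_lit 0) [] false,
   Spec.mk (nat_lit 8192) (nat_lit 0) [] (nat_lit 0) [] false,
   Spec.mk (nat_lit 8194) (nat_lit 0) [] (nat_lit 0) [] false,
   Spec.mk (nat_lit 8196) (nat_lit 0) [] (nat_lit 0) [] false,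
   Spec.mk (nat_lit 8200) (nat_lit 0) [] (nat_lit 0) [] false,
   Spec.mk (nat_lit 8202) (nat_lit 0) [] (nat_lit 0) [] false,
   Spec.mk (nat_lit 8210) (nat_lit 0) [] (nat_lit 0) [] false,
   Spec.mk (nat_lit 8212) (nat_lit 0) [] (nat_lit 0) [] false,
   Spec.mk (nat_lit 8214) (nat_lit 0) [] (nat_lit 0) [] false,
   Spec.mk (nat_lit 8218) (nat_lit 0) [] (nat_lit 0) [] false,
   Spec.mk (nat_lit 8220) (nat_lit 0) [] (nat_lit 0) [] false,
   Spec.mk (nat_lit 8226) (nat_lit 0) [] (nat_lit 0) [] false,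
   Spec.mk (nat_lit 8236) (nat_lit 0) [] (nat_lit 0) [] false,
   Spec.mk (nat_lit 8238) (nat_lit 0) [] (nat_lit 0) [] false,
   Spec.mk (nat_lit 8244) (nat_lit 0) [] (nat_lit 0) [] false,
   Spec.mk (nat_lit 8270) (nat_lit 0) [] (nat_lit 0) [] false,
   Spec.mk (nat_lit 8276) (nat_lit 0) [] (nat_lit 0) [] false,
   Spec.mk (nat_lit 8278) (nat_lit 0) [] (nat_lit 0) [] false,
   Spec.mk (nat_lit 8282) (nat_lit 0) [] (nat_lit 0) [] false,
   Spec.mk (nat_lit 8284) (nat_lit 0) [] (nat_lit 0) [] false,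
   Spec.mk (nat_lit 8286) (nat_lit 0) [] (nat_lit 0) [] false,
   Spec.mk (nat_lit 8294) (nat_lit 0) [] (nat_lit 0) [] false,
   Spec.mk (nat_lit 8296) (nat_lit 0) [] (nat_lit 0) [] false,
   Spec.mk (nat_lit 8300) (nat_lit 0) [] (nat_lit 0) [] false,
   Spec.mk (nat_lit 8302) (nat_lit 0) [] (nat_lit 0) [] false,
   Spec.mk (nat_lit 8304) (nat_lit 0) [] (nat_lit 0) [] false,
   Spec.mk (nat_lit 8308) (nat_lit 0) [] (nat_lit 0) [] false,
   Spec.mk (nat_lit 8310) (nat_lit 0) [] (nat_lit 0) [] false,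
   Spec.mk (nat_lit 8318) (nat_lit 0) [] (nat_lit 0) [] false,
   Spec.mk (nat_lit 8320) (nat_lit 0) [] (nat_lit 0) [] false]

noncomputable def cd24 : List Spec :=
  [Spec.mk (nat_lit 8322) (nat_lit 0) [] (nat_lit 0) [] false,
   Spec.mk (nat_lit 8326) (nat_lit 0) [] (nat_lit 0) [] false,
   Spec.mk (nat_lit 8328) (nat_lit 0) [] (nat_lit 0) [] false,
   Spec.mk (nat_lit 8334) (nat_lit 0) [] (nat_lit 0) [] false,
   Spec.mk (nat_lit 8348) (nat_lit 0) [] (nat_lit 0) [] false,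
   Spec.mk (nat_lit 8350) (nat_lit 0) [] (nat_lit 0) [] false,
   Spec.mk (nat_lit 8354) (nat_lit 0) [] (nat_lit 0) [] false,
   Spec.mk (nat_lit 8356) (nat_lit 0) [] (nat_lit 0) [] false,
   Spec.mk (nat_lit 8358) (nat_lit 0) [] (nat_lit 0) [] false,
   Spec.mk (nat_lit 8362) (nat_lit 0) [] (nat_lit 0) [] false,
   Spec.mk (nat_lit 8364) (nat_lit 0) [] (nat_lit 0) [] false,
   Spec.mk (nat_lit 8372) (nat_lit 0) [] (nat_lit 0) [] false,
   Spec.mk (nat_lit 8374) (nat_lit 0) [] (nat_lit 0) [] false,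
   Spec.mk (nat_lit 8376) (nat_lit 0) [] (nat_lit 0) [] false,
   Spec.mk (nat_lit 8380) (nat_lit 0) [] (nat_lit 0) [] false,
   Spec.mk (nat_lit 8382) (nat_lit 0) [] (nat_lit 0) [] false,
   Spec.mk (nat_lit 8388) (nat_lit 0) [] (nat_lit 0) [] false,
   Spec.mk (nat_lit 8398) (nat_lit 0) [] (nat_lit 0) [] false,
   Spec.mk (nat_lit 8400) (nat_lit 0) [] (nat_lit 0) [] false,
   Spec.mk (nat_lit 8406) (nat_lit 0) [] (nat_lit 0) [] false,
   Spec.mk (nat_lit 8426) (nat_lit 0) [] (nat_lit 0) [] false,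
   Spec.mk (nat_lit 8428) (nat_lit 0) [] (nat_lit 0) [] false,
   Spec.mk (nat_lit 8430) (nat_lit 0) [] (nat_lit 0) [] false,
   Spec.mk (nat_lit 8434) (nat_lit 0) [] (nat_lit 0) [] false,
   Spec.mk (nat_lit 8436) (nat_lit 0) [] (nat_lit 0) [] false,
   Spec.mk (nat_lit 8442) (nat_lit 0) [] (nat_lit 0) [] false,
   Spec.mk (nat_lit 8452) (nat_lit 0) [] (nat_lit 0) [] false,
   Spec.mk (nat_lit 8454) (nat_lit 0) [] (nat_lit 0) [] false,
   Spec.mk (nat_lit 8460) (nat_lit 0) [] (nat_lit 0) [] false,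
   Spec.mk (nat_lit 8478) (nat_lit 0) [] (nat_lit 0) [] false,
   Spec.mk (nat_lit 8510) (nat_lit 0) [] (nat_lit 0) [] false,
   Spec.mk (nat_lit 8512) (nat_lit 0) [] (nat_lit 0) [] false,
   Spec.mk (nat_lit 8516) (nat_lit 0) [] (nat_lit 0) [] false,
   Spec.mk (nat_lit 8518) (nat_lit 0) [] (nat_lit 0) [] false,
   Spec.mk (nat_lit 8520) (nat_lit 0) [] (nat_lit 0) [] false,
   Spec.mk (nat_lit 8524) (nat_lit 0) [] (nat_lit 0) [] false,
   Spec.mk (nat_lit 8526) (nat_lit 0) [] (nat_lit 0) [] false,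
   Spec.mk (nat_lit 8534) (nat_lit 0) [] (nat_lit 0) [] false,
   Spec.mk (nat_lit 8536) (nat_lit 0) [] (nat_lit 0) [] false,
   Spec.mk (nat_lit 8538) (nat_lit 0) [] (nat_lit 0) [] false,
   Spec.mk (nat_lit 8542) (nat_lit 0) [] (nat_lit 0) [] false,
   Spec.mk (nat_lit 8544) (nat_lit 0) [] (nat_lit 0) [] false,
   Spec.mk (nat_lit 8550) (nat_lit 0) [] (nat_lit 0) [] false,
   Spec.mk (nat_lit 8560) (nat_lit 0) [] (nat_lit 0) [] false,
   Spec.mk (nat_lit 8562) (nat_lit 0) [] (nat_lit 0) [] false,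
   Spec.mk (nat_lit 8568) (nat_lit 0) [] (nat_lit 0) [] false,
   Spec.mk (nat_lit 8588) (nat_lit 0) [] (nat_lit 0) [] false,
   Spec.mk (nat_lit 8590) (nat_lit 0) [] (nat_lit 0) [] false,
   Spec.mk (nat_lit 8592) (nat_lit 0) [] (nat_lit 0) [] false,
   Spec.mk (nat_lit 8596) (nat_lit 0) [] (nat_lit 0) [] false,
   Spec.mk (nat_lit 8598) (nat_lit 0) [] (nat_lit 0) [] false,
   Spec.mk (nat_lit 8604) (nat_lit 0) [] (nat_lit 0) [] false,
   Spec.mk (nat_lit 8614) (nat_lit 0) [] (nat_lit 0) [] false,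
   Spec.mk (nat_lit 8616) (nat_lit 0) [] (nat_lit 0) [] false,
   Spec.mk (nat_lit 8622) (nat_lit 0) [] (nat_lit 0) [] false,
   Spec.mk (nat_lit 8640) (nat_lit 0) [] (nat_lit 0) [] false,
   Spec.mk (nat_lit 8668) (nat_lit 0) [] (nat_lit 0) [] false,
   Spec.mk (nat_lit 8670) (nat_lit 0) [] (nat_lit 0) [] false,
   Spec.mk (nat_lit 8676) (nat_lit 0) [] (nat_lit 0) [] false,
   Spec.mk (nat_lit 8694) (nat_lit 0) [] (nat_lit 0) [] false]

noncomputable def cd25 : List Spec :=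
  [Spec.mk (nat_lit 8774) (nat_lit 0) [] (nat_lit 0) [] false,
   Spec.mk (nat_lit 8792) (nat_lit 0) [] (nat_lit 0) [] false,
   Spec.mk (nat_lit 8798) (nat_lit 0) [] (nat_lit 0) [] false,
   Spec.mk (nat_lit 8800) (nat_lit 0) [] (nat_lit 0) [] false,
   Spec.mk (nat_lit 8810) (nat_lit 0) [] (nat_lit 0) [] false,
   Spec.mk (nat_lit 8816) (nat_lit 0) [] (nat_lit 0) [] false,
   Spec.mk (nat_lit 8818) (nat_lit 0) [] (nat_lit 0) [] false,
   Spec.mk (nat_lit 8822) (nat_lit 0) [] (nat_lit 0) [] false,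
   Spec.mk (nat_lit 8824) (nat_lit 0) [] (nat_lit 0) [] false,
   Spec.mk (nat_lit 8826) (nat_lit 0) [] (nat_lit 0) [] false,
   Spec.mk (nat_lit 8846) (nat_lit 0) [] (nat_lit 0) [] false,
   Spec.mk (nat_lit 8852) (nat_lit 0) [] (nat_lit 0) [] false,
   Spec.mk (nat_lit 8854) (nat_lit 0) [] (nat_lit 0) [] false,
   Spec.mk (nat_lit 8864) (nat_lit 0) [] (nat_lit 0) [] false,
   Spec.mk (nat_lit 8870) (nat_lit 0) [] (nat_lit 0) [] false,
   Spec.mk (nat_lit 8872) (nat_lit 0) [] (nat_lit 0) [] false,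
   Spec.mk (nat_lit 8876) (nat_lit 0) [] (nat_lit 0) [] false,
   Spec.mk (nat_lit 8878) (nat_lit 0) [] (nat_lit 0) [] false,
   Spec.mk (nat_lit 8880) (nat_lit 0) [] (nat_lit 0) [] false,
   Spec.mk (nat_lit 8888) (nat_lit 0) [] (nat_lit 0) [] false,
   Spec.mk (nat_lit 8890) (nat_lit 0) [] (nat_lit 0) [] false,
   Spec.mk (nat_lit 8894) (nat_lit 0) [] (nat_lit 0) [] false,
   Spec.mk (nat_lit 8896) (nat_lit 0) [] (nat_lit 0) [] false,
   Spec.mk (nat_lit 8898) (nat_lit 0) [] (nat_lit 0) [] false,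
   Spec.mk (nat_lit 8902) (nat_lit 0) [] (nat_lit 0) [] false,
   Spec.mk (nat_lit 8904) (nat_lit 0) [] (nat_lit 0) [] false,
   Spec.mk (nat_lit 8918) (nat_lit 0) [] (nat_lit 0) [] false,
   Spec.mk (nat_lit 8924) (nat_lit 0) [] (nat_lit 0) [] false,
   Spec.mk (nat_lit 8926) (nat_lit 0) [] (nat_lit 0) [] false,
   Spec.mk (nat_lit 8930) (nat_lit 0) [] (nat_lit 0) [] false,
   Spec.mk (nat_lit 8932) (nat_lit 0) [] (nat_lit 0) [] false,
   Spec.mk (nat_lit 8934) (nat_lit 0) [] (nat_lit 0) [] false,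
   Spec.mk (nat_lit 8942) (nat_lit 0) [] (nat_lit 0) [] false,
   Spec.mk (nat_lit 8944) (nat_lit 0) [] (nat_lit 0) [] false,
   Spec.mk (nat_lit 8948) (nat_lit 0) [] (nat_lit 0) [] false,
   Spec.mk (nat_lit 8950) (nat_lit 0) [] (nat_lit 0) [] false,
   Spec.mk (nat_lit 8952) (nat_lit 0) [] (nat_lit 0) [] false,
   Spec.mk (nat_lit 8956) (nat_lit 0) [] (nat_lit 0) [] false,
   Spec.mk (nat_lit 8958) (nat_lit 0) [] (nat_lit 0) [] false,
   Spec.mk (nat_lit 8966) (nat_lit 0) [] (nat_lit 0) [] false,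
   Spec.mk (nat_lit 8968) (nat_lit 0) [] (nat_lit 0) [] false,
   Spec.mk (nat_lit 8970) (nat_lit 0) [] (nat_lit 0) [] false,
   Spec.mk (nat_lit 8974) (nat_lit 0) [] (nat_lit 0) [] false,
   Spec.mk (nat_lit 8976) (nat_lit 0) [] (nat_lit 0) [] false,
   Spec.mk (nat_lit 8982) (nat_lit 0) [] (nat_lit 0) [] false,
   Spec.mk (nat_lit 9008) (nat_lit 0) [] (nat_lit 0) [] false,
   Spec.mk (nat_lit 9014) (nat_lit 0) [] (nat_lit 0) [] false,
   Spec.mk (nat_lit 9016) (nat_lit 0) [] (nat_lit 0) [] false,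
   Spec.mk (nat_lit 9026) (nat_lit 0) [] (nat_lit 0) [] false,
   Spec.mk (nat_lit 9032) (nat_lit 0) [] (nat_lit 0) [] false,
   Spec.mk (nat_lit 9034) (nat_lit 0) [] (nat_lit 0) [] false,
   Spec.mk (nat_lit 9038) (nat_lit 0) [] (nat_lit 0) [] false,
   Spec.mk (nat_lit 9040) (nat_lit 0) [] (nat_lit 0) [] false,
   Spec.mk (nat_lit 9042) (nat_lit 0) [] (nat_lit 0) [] false,
   Spec.mk (nat_lit 9050) (nat_lit 0) [] (nat_lit 0) [] false,
   Spec.mk (nat_lit 9052) (nat_lit 0) [] (nat_lit 0) [] false,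
   Spec.mk (nat_lit 9056) (nat_lit 0) [] (nat_lit 0) [] false,
   Spec.mk (nat_lit 9058) (nat_lit 0) [] (nat_lit 0) [] false,
   Spec.mk (nat_lit 9060) (nat_lit 0) [] (nat_lit 0) [] false,
   Spec.mk (nat_lit 9064) (nat_lit 0) [] (nat_lit 0) [] false]

noncomputable def cd26 : List Spec :=
  [Spec.mk (nat_lit 9066) (nat_lit 0) [] (nat_lit 0) [] false,
   Spec.mk (nat_lit 9080) (nat_lit 0) [] (nat_lit 0) [] false,
   Spec.mk (nat_lit 9086) (nat_lit 0) [] (nat_lit 0) [] false,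
   Spec.mk (nat_lit 9088) (nat_lit 0) [] (nat_lit 0) [] false,
   Spec.mk (nat_lit 9092) (nat_lit 0) [] (nat_lit 0) [] false,
   Spec.mk (nat_lit 9094) (nat_lit 0) [] (nat_lit 0) [] false,
   Spec.mk (nat_lit 9096) (nat_lit 0) [] (nat_lit 0) [] false,
   Spec.mk (nat_lit 9104) (nat_lit 0) [] (nat_lit 0) [] false,
   Spec.mk (nat_lit 9106) (nat_lit 0) [] (nat_lit 0) [] false,
   Spec.mk (nat_lit 9110) (nat_lit 0) [] (nat_lit 0) [] false,
   Spec.mk (nat_lit 9112) (nat_lit 0) [] (nat_lit 0) [] false,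
   Spec.mk (nat_lit 9114) (nat_lit 0) [] (nat_lit 0) [] false,
   Spec.mk (nat_lit 9118) (nat_lit 0) [] (nat_lit 0) [] false,
   Spec.mk (nat_lit 9120) (nat_lit 0) [] (nat_lit 0) [] false,
   Spec.mk (nat_lit 9128) (nat_lit 0) [] (nat_lit 0) [] false,
   Spec.mk (nat_lit 9130) (nat_lit 0) [] (nat_lit 0) [] false,
   Spec.mk (nat_lit 9132) (nat_lit 0) [] (nat_lit 0) [] false,
   Spec.mk (nat_lit 9136) (nat_lit 0) [] (nat_lit 0) [] false,
   Spec.mk (nat_lit 9138) (nat_lit 0) [] (nat_lit 0) [] false,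
   Spec.mk (nat_lit 9144) (nat_lit 0) [] (nat_lit 0) [] false,
   Spec.mk (nat_lit 9158) (nat_lit 0) [] (nat_lit 0) [] false,
   Spec.mk (nat_lit 9160) (nat_lit 0) [] (nat_lit 0) [] false,
   Spec.mk (nat_lit 9164) (nat_lit 0) [] (nat_lit 0) [] false,
   Spec.mk (nat_lit 9166) (nat_lit 0) [] (nat_lit 0) [] false,
   Spec.mk (nat_lit 9168) (nat_lit 0) [] (nat_lit 0) [] false,
   Spec.mk (nat_lit 9172) (nat_lit 0) [] (nat_lit 0) [] false,
   Spec.mk (nat_lit 9174) (nat_lit 0) [] (nat_lit 0) [] false,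
   Spec.mk (nat_lit 9182) (nat_lit 0) [] (nat_lit 0) [] false,
   Spec.mk (nat_lit 9184) (nat_lit 0) [] (nat_lit 0) [] false,
   Spec.mk (nat_lit 9186) (nat_lit 0) [] (nat_lit 0) [] false,
   Spec.mk (nat_lit 9190) (nat_lit 0) [] (nat_lit 0) [] false,
   Spec.mk (nat_lit 9192) (nat_lit 0) [] (nat_lit 0) [] false,
   Spec.mk (nat_lit 9198) (nat_lit 0) [] (nat_lit 0) [] false,
   Spec.mk (nat_lit 9208) (nat_lit 0) [] (nat_lit 0) [] false,
   Spec.mk (nat_lit 9210) (nat_lit 0) [] (nat_lit 0) [] false,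
   Spec.mk (nat_lit 9216) (nat_lit 0) [] (nat_lit 0) [] false,
   Spec.mk (nat_lit 9242) (nat_lit 0) [] (nat_lit 0) [] false,
   Spec.mk (nat_lit 9248) (nat_lit 0) [] (nat_lit 0) [] false,
   Spec.mk (nat_lit 9250) (nat_lit 0) [] (nat_lit 0) [] false,
   Spec.mk (nat_lit 9254) (nat_lit 0) [] (nat_lit 0) [] false,
   Spec.mk (nat_lit 9256) (nat_lit 0) [] (nat_lit 0) [] false,
   Spec.mk (nat_lit 9258) (nat_lit 0) [] (nat_lit 0) [] false,
   Spec.mk (nat_lit 9266) (nat_lit 0) [] (nat_lit 0) [] false,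
   Spec.mk (nat_lit 9268) (nat_lit 0) [] (nat_lit 0) [] false,
   Spec.mk (nat_lit 9272) (nat_lit 0) [] (nat_lit 0) [] false,
   Spec.mk (nat_lit 9274) (nat_lit 0) [] (nat_lit 0) [] false,
   Spec.mk (nat_lit 9276) (nat_lit 0) [] (nat_lit 0) [] false,
   Spec.mk (nat_lit 9280) (nat_lit 0) [] (nat_lit 0) [] false,
   Spec.mk (nat_lit 9282) (nat_lit 0) [] (nat_lit 0) [] false,
   Spec.mk (nat_lit 9290) (nat_lit 0) [] (nat_lit 0) [] false,
   Spec.mk (nat_lit 9292) (nat_lit 0) [] (nat_lit 0) [] false,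
   Spec.mk (nat_lit 9294) (nat_lit 0) [] (nat_lit 0) [] false,
   Spec.mk (nat_lit 9298) (nat_lit 0) [] (nat_lit 0) [] false,
   Spec.mk (nat_lit 9300) (nat_lit 0) [] (nat_lit 0) [] false,
   Spec.mk (nat_lit 9306) (nat_lit 0) [] (nat_lit 0) [] false,
   Spec.mk (nat_lit 9320) (nat_lit 0) [] (nat_lit 0) [] false,
   Spec.mk (nat_lit 9322) (nat_lit 0) [] (nat_lit 0) [] false,
   Spec.mk (nat_lit 9326) (nat_lit 0) [] (nat_lit 0) [] false,
   Spec.mk (nat_lit 9328) (nat_lit 0) [] (nat_lit 0) [] false,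
   Spec.mk (nat_lit 9330) (nat_lit 0) [] (nat_lit 0) [] false]

noncomputable def cd27 : List Spec :=
  [Spec.mk (nat_lit 9334) (nat_lit 0) [] (nat_lit 0) [] false,
   Spec.mk (nat_lit 9336) (nat_lit 0) [] (nat_lit 0) [] false,
   Spec.mk (nat_lit 9344) (nat_lit 0) [] (nat_lit 0) [] false,
   Spec.mk (nat_lit 9346) (nat_lit 0) [] (nat_lit 0) [] false,
   Spec.mk (nat_lit 9348) (nat_lit 0) [] (nat_lit 0) [] false,
   Spec.mk (nat_lit 9352) (nat_lit 0) [] (nat_lit 0) [] false,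
   Spec.mk (nat_lit 9354) (nat_lit 0) [] (nat_lit 0) [] false,
   Spec.mk (nat_lit 9360) (nat_lit 0) [] (nat_lit 0) [] false,
   Spec.mk (nat_lit 9370) (nat_lit 0) [] (nat_lit 0) [] false,
   Spec.mk (nat_lit 9372) (nat_lit 0) [] (nat_lit 0) [] false,
   Spec.mk (nat_lit 9378) (nat_lit 0) [] (nat_lit 0) [] false,
   Spec.mk (nat_lit 9398) (nat_lit 0) [] (nat_lit 0) [] false,
   Spec.mk (nat_lit 9400) (nat_lit 0) [] (nat_lit 0) [] false,
   Spec.mk (nat_lit 9402) (nat_lit 0) [] (nat_lit 0) [] false,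
   Spec.mk (nat_lit 9406) (nat_lit 0) [] (nat_lit 0) [] false,
   Spec.mk (nat_lit 9408) (nat_lit 0) [] (nat_lit 0) [] false,
   Spec.mk (nat_lit 9414) (nat_lit 0) [] (nat_lit 0) [] false,
   Spec.mk (nat_lit 9424) (nat_lit 0) [] (nat_lit 0) [] false,
   Spec.mk (nat_lit 9426) (nat_lit 0) [] (nat_lit 0) [] false,
   Spec.mk (nat_lit 9432) (nat_lit 0) [] (nat_lit 0) [] false,
   Spec.mk (nat_lit 9450) (nat_lit 0) [] (nat_lit 0) [] false,
   Spec.mk (nat_lit 9494) (nat_lit 0) [] (nat_lit 0) [] false,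
   Spec.mk (nat_lit 9500) (nat_lit 0) [] (nat_lit 0) [] false,
   Spec.mk (nat_lit 9502) (nat_lit 0) [] (nat_lit 0) [] false,
   Spec.mk (nat_lit 9512) (nat_lit 0) [] (nat_lit 0) [] false,
   Spec.mk (nat_lit 9518) (nat_lit 0) [] (nat_lit 0) [] false,
   Spec.mk (nat_lit 9520) (nat_lit 0) [] (nat_lit 0) [] false,
   Spec.mk (nat_lit 9524) (nat_lit 0) [] (nat_lit 0) [] false,
   Spec.mk (nat_lit 9526) (nat_lit 0) [] (nat_lit 0) [] false,
   Spec.mk (nat_lit 9528) (nat_lit 0) [] (nat_lit 0) [] false,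
   Spec.mk (nat_lit 9536) (nat_lit 0) [] (nat_lit 0) [] false,
   Spec.mk (nat_lit 9538) (nat_lit 0) [] (nat_lit 0) [] false,
   Spec.mk (nat_lit 9542) (nat_lit 0) [] (nat_lit 0) [] false,
   Spec.mk (nat_lit 9544) (nat_lit 0) [] (nat_lit 0) [] false,
   Spec.mk (nat_lit 9546) (nat_lit 0) [] (nat_lit 0) [] false,
   Spec.mk (nat_lit 9550) (nat_lit 0) [] (nat_lit 0) [] false,
   Spec.mk (nat_lit 9552) (nat_lit 0) [] (nat_lit 0) [] false,
   Spec.mk (nat_lit 9566) (nat_lit 0) [] (nat_lit 0) [] false,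
   Spec.mk (nat_lit 9572) (nat_lit 0) [] (nat_lit 0) [] false,
   Spec.mk (nat_lit 9574) (nat_lit 0) [] (nat_lit 0) [] false,
   Spec.mk (nat_lit 9578) (nat_lit 0) [] (nat_lit 0) [] false,
   Spec.mk (nat_lit 9580) (nat_lit 0) [] (nat_lit 0) [] false,
   Spec.mk (nat_lit 9582) (nat_lit 0) [] (nat_lit 0) [] false,
   Spec.mk (nat_lit 9590) (nat_lit 0) [] (nat_lit 0) [] false,
   Spec.mk (nat_lit 9592) (nat_lit 0) [] (nat_lit 0) [] false,
   Spec.mk (nat_lit 9596) (nat_lit 0) [] (nat_lit 0) [] false,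
   Spec.mk (nat_lit 9598) (nat_lit 0) [] (nat_lit 0) [] false,
   Spec.mk (nat_lit 9600) (nat_lit 0) [] (nat_lit 0) [] false,
   Spec.mk (nat_lit 9604) (nat_lit 0) [] (nat_lit 0) [] false,
   Spec.mk (nat_lit 9606) (nat_lit 0) [] (nat_lit 0) [] false,
   Spec.mk (nat_lit 9614) (nat_lit 0) [] (nat_lit 0) [] false,
   Spec.mk (nat_lit 9616) (nat_lit 0) [] (nat_lit 0) [] false,
   Spec.mk (nat_lit 9618) (nat_lit 0) [] (nat_lit 0) [] false,
   Spec.mk (nat_lit 9622) (nat_lit 0) [] (nat_lit 0) [] false,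
   Spec.mk (nat_lit 9624) (nat_lit 0) [] (nat_lit 0) [] false,
   Spec.mk (nat_lit 9630) (nat_lit 0) [] (nat_lit 0) [] false,
   Spec.mk (nat_lit 9644) (nat_lit 0) [] (nat_lit 0) [] false,
   Spec.mk (nat_lit 9646) (nat_lit 0) [] (nat_lit 0) [] false,
   Spec.mk (nat_lit 9650) (nat_lit 0) [] (nat_lit 0) [] false,
   Spec.mk (nat_lit 9652) (nat_lit 0) [] (nat_lit 0) [] false]

noncomputable def cd28 : List Spec :=
  [Spec.mk (nat_lit 9654) (nat_lit 0) [] (nat_lit 0) [] false,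
   Spec.mk (nat_lit 9658) (nat_lit 0) [] (nat_lit 0) [] false,
   Spec.mk (nat_lit 9660) (nat_lit 0) [] (nat_lit 0) [] false,
   Spec.mk (nat_lit 9668) (nat_lit 0) [] (nat_lit 0) [] false,
   Spec.mk (nat_lit 9670) (nat_lit 0) [] (nat_lit 0) [] false,
   Spec.mk (nat_lit 9672) (nat_lit 0) [] (nat_lit 0) [] false,
   Spec.mk (nat_lit 9676) (nat_lit 0) [] (nat_lit 0) [] false,
   Spec.mk (nat_lit 9678) (nat_lit 0) [] (nat_lit 0) [] false,
   Spec.mk (nat_lit 9684) (nat_lit 0) [] (nat_lit 0) [] false,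
   Spec.mk (nat_lit 9694) (nat_lit 0) [] (nat_lit 0) [] false,
   Spec.mk (nat_lit 9696) (nat_lit 0) [] (nat_lit 0) [] false,
   Spec.mk (nat_lit 9702) (nat_lit 0) [] (nat_lit 0) [] false,
   Spec.mk (nat_lit 9728) (nat_lit 0) [] (nat_lit 0) [] false,
   Spec.mk (nat_lit 9734) (nat_lit 0) [] (nat_lit 0) [] false,
   Spec.mk (nat_lit 9736) (nat_lit 0) [] (nat_lit 0) [] false,
   Spec.mk (nat_lit 9740) (nat_lit 0) [] (nat_lit 0) [] false,
   Spec.mk (nat_lit 9742) (nat_lit 0) [] (nat_lit 0) [] false,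
   Spec.mk (nat_lit 9744) (nat_lit 0) [] (nat_lit 0) [] false,
   Spec.mk (nat_lit 9752) (nat_lit 0) [] (nat_lit 0) [] false,
   Spec.mk (nat_lit 9754) (nat_lit 0) [] (nat_lit 0) [] false,
   Spec.mk (nat_lit 9758) (nat_lit 0) [] (nat_lit 0) [] false,
   Spec.mk (nat_lit 9760) (nat_lit 0) [] (nat_lit 0) [] false,
   Spec.mk (nat_lit 9762) (nat_lit 0) [] (nat_lit 0) [] false,
   Spec.mk (nat_lit 9766) (nat_lit 0) [] (nat_lit 0) [] false,
   Spec.mk (nat_lit 9768) (nat_lit 0) [] (nat_lit 0) [] false,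
   Spec.mk (nat_lit 9776) (nat_lit 0) [] (nat_lit 0) [] false,
   Spec.mk (nat_lit 9778) (nat_lit 0) [] (nat_lit 0) [] false,
   Spec.mk (nat_lit 9780) (nat_lit 0) [] (nat_lit 0) [] false,
   Spec.mk (nat_lit 9784) (nat_lit 0) [] (nat_lit 0) [] false,
   Spec.mk (nat_lit 9786) (nat_lit 0) [] (nat_lit 0) [] false,
   Spec.mk (nat_lit 9792) (nat_lit 0) [] (nat_lit 0) [] false,
   Spec.mk (nat_lit 9806) (nat_lit 0) [] (nat_lit 0) [] false,
   Spec.mk (nat_lit 9808) (nat_lit 0) [] (nat_lit 0) [] false,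
   Spec.mk (nat_lit 9812) (nat_lit 0) [] (nat_lit 0) [] false,
   Spec.mk (nat_lit 9814) (nat_lit 0) [] (nat_lit 0) [] false,
   Spec.mk (nat_lit 9816) (nat_lit 0) [] (nat_lit 0) [] false,
   Spec.mk (nat_lit 9820) (nat_lit 0) [] (nat_lit 0) [] false,
   Spec.mk (nat_lit 9822) (nat_lit 0) [] (nat_lit 0) [] false,
   Spec.mk (nat_lit 9830) (nat_lit 0) [] (nat_lit 0) [] false,
   Spec.mk (nat_lit 9832) (nat_lit 0) [] (nat_lit 0) [] false,
   Spec.mk (nat_lit 9834) (nat_lit 0) [] (nat_lit 0) [] false,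
   Spec.mk (nat_lit 9838) (nat_lit 0) [] (nat_lit 0) [] false,
   Spec.mk (nat_lit 9840) (nat_lit 0) [] (nat_lit 0) [] false,
   Spec.mk (nat_lit 9846) (nat_lit 0) [] (nat_lit 0) [] false,
   Spec.mk (nat_lit 9856) (nat_lit 0) [] (nat_lit 0) [] false,
   Spec.mk (nat_lit 9858) (nat_lit 0) [] (nat_lit 0) [] false,
   Spec.mk (nat_lit 9864) (nat_lit 0) [] (nat_lit 0) [] false,
   Spec.mk (nat_lit 9884) (nat_lit 0) [] (nat_lit 0) [] false,
   Spec.mk (nat_lit 9886) (nat_lit 0) [] (nat_lit 0) [] false,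
   Spec.mk (nat_lit 9888) (nat_lit 0) [] (nat_lit 0) [] false,
   Spec.mk (nat_lit 9892) (nat_lit 0) [] (nat_lit 0) [] false,
   Spec.mk (nat_lit 9894) (nat_lit 0) [] (nat_lit 0) [] false,
   Spec.mk (nat_lit 9900) (nat_lit 0) [] (nat_lit 0) [] false,
   Spec.mk (nat_lit 9910) (nat_lit 0) [] (nat_lit 0) [] false,
   Spec.mk (nat_lit 9912) (nat_lit 0) [] (nat_lit 0) [] false,
   Spec.mk (nat_lit 9918) (nat_lit 0) [] (nat_lit 0) [] false,
   Spec.mk (nat_lit 9936) (nat_lit 0) [] (nat_lit 0) [] false,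
   Spec.mk (nat_lit 9968) (nat_lit 0) [] (nat_lit 0) [] false,
   Spec.mk (nat_lit 9970) (nat_lit 0) [] (nat_lit 0) [] false,
   Spec.mk (nat_lit 9974) (nat_lit 0) [] (nat_lit 0) [] false]

noncomputable def cd29 : List Spec :=
  [Spec.mk (nat_lit 9976) (nat_lit 0) [] (nat_lit 0) [] false,
   Spec.mk (nat_lit 9978) (nat_lit 0) [] (nat_lit 0) [] false,
   Spec.mk (nat_lit 9982) (nat_lit 0) [] (nat_lit 0) [] false,
   Spec.mk (nat_lit 9984) (nat_lit 0) [] (nat_lit 0) [] false,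
   Spec.mk (nat_lit 9992) (nat_lit 0) [] (nat_lit 0) [] false,
   Spec.mk (nat_lit 9994) (nat_lit 0) [] (nat_lit 0) [] false,
   Spec.mk (nat_lit 9996) (nat_lit 0) [] (nat_lit 0) [] false,
   Spec.mk (nat_lit 10000) (nat_lit 0) [] (nat_lit 0) [] false,
   Spec.mk (nat_lit 10002) (nat_lit 0) [] (nat_lit 0) [] false,
   Spec.mk (nat_lit 10008) (nat_lit 0) [] (nat_lit 0) [] false,
   Spec.mk (nat_lit 10018) (nat_lit 0) [] (nat_lit 0) [] false,
   Spec.mk (nat_lit 10020) (nat_lit 0) [] (nat_lit 0) [] false,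
   Spec.mk (nat_lit 10026) (nat_lit 0) [] (nat_lit 0) [] false,
   Spec.mk (nat_lit 10046) (nat_lit 0) [] (nat_lit 0) [] false,
   Spec.mk (nat_lit 10048) (nat_lit 0) [] (nat_lit 0) [] false,
   Spec.mk (nat_lit 10050) (nat_lit 0) [] (nat_lit 0) [] false,
   Spec.mk (nat_lit 10054) (nat_lit 0) [] (nat_lit 0) [] false,
   Spec.mk (nat_lit 10056) (nat_lit 0) [] (nat_lit 0) [] false,
   Spec.mk (nat_lit 10062) (nat_lit 0) [] (nat_lit 0) [] false,
   Spec.mk (nat_lit 10072) (nat_lit 0) [] (nat_lit 0) [] false,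
   Spec.mk (nat_lit 10074) (nat_lit 0) [] (nat_lit 0) [] false,
   Spec.mk (nat_lit 10080) (nat_lit 0) [] (nat_lit 0) [] false,
   Spec.mk (nat_lit 10098) (nat_lit 0) [] (nat_lit 0) [] false,
   Spec.mk (nat_lit 10126) (nat_lit 0) [] (nat_lit 0) [] false,
   Spec.mk (nat_lit 10128) (nat_lit 0) [] (nat_lit 0) [] false,
   Spec.mk (nat_lit 10134) (nat_lit 0) [] (nat_lit 0) [] false,
   Spec.mk (nat_lit 10152) (nat_lit 0) [] (nat_lit 0) [] false,
   Spec.mk (nat_lit 10214) (nat_lit 0) [] (nat_lit 0) [] false,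
   Spec.mk (nat_lit 10220) (nat_lit 0) [] (nat_lit 0) [] false,
   Spec.mk (nat_lit 10222) (nat_lit 0) [] (nat_lit 0) [] false,
   Spec.mk (nat_lit 10226) (nat_lit 0) [] (nat_lit 0) [] false,
   Spec.mk (nat_lit 10228) (nat_lit 0) [] (nat_lit 0) [] false,
   Spec.mk (nat_lit 10230) (nat_lit 0) [] (nat_lit 0) [] false,
   Spec.mk (nat_lit 10238) (nat_lit 0) [] (nat_lit 0) [] false,
   Spec.mk (nat_lit 10240) (nat_lit 0) [] (nat_lit 0) [] false,
   Spec.mk (nat_lit 10244) (nat_lit 0) [] (nat_lit 0) [] false,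
   Spec.mk (nat_lit 10246) (nat_lit 0) [] (nat_lit 0) [] false,
   Spec.mk (nat_lit 10248) (nat_lit 0) [] (nat_lit 0) [] false,
   Spec.mk (nat_lit 10252) (nat_lit 0) [] (nat_lit 0) [] false,
   Spec.mk (nat_lit 10254) (nat_lit 0) [] (nat_lit 0) [] false,
   Spec.mk (nat_lit 10262) (nat_lit 0) [] (nat_lit 0) [] false,
   Spec.mk (nat_lit 10264) (nat_lit 0) [] (nat_lit 0) [] false,
   Spec.mk (nat_lit 10266) (nat_lit 0) [] (nat_lit 0) [] false,
   Spec.mk (nat_lit 10270) (nat_lit 0) [] (nat_lit 0) [] false,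
   Spec.mk (nat_lit 10272) (nat_lit 0) [] (nat_lit 0) [] false,
   Spec.mk (nat_lit 10278) (nat_lit 0) [] (nat_lit 0) [] false,
   Spec.mk (nat_lit 10292) (nat_lit 0) [] (nat_lit 0) [] false,
   Spec.mk (nat_lit 10294) (nat_lit 0) [] (nat_lit 0) [] false,
   Spec.mk (nat_lit 10298) (nat_lit 0) [] (nat_lit 0) [] false,
   Spec.mk (nat_lit 10300) (nat_lit 0) [] (nat_lit 0) [] false,
   Spec.mk (nat_lit 10302) (nat_lit 0) [] (nat_lit 0) [] false,
   Spec.mk (nat_lit 10306) (nat_lit 0) [] (nat_lit 0) [] false,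
   Spec.mk (nat_lit 10308) (nat_lit 0) [] (nat_lit 0) [] false,
   Spec.mk (nat_lit 10316) (nat_lit 0) [] (nat_lit 0) [] false,
   Spec.mk (nat_lit 10318) (nat_lit 0) [] (nat_lit 0) [] false,
   Spec.mk (nat_lit 10320) (nat_lit 0) [] (nat_lit 0) [] false,
   Spec.mk (nat_lit 10324) (nat_lit 0) [] (nat_lit 0) [] false,
   Spec.mk (nat_lit 10326) (nat_lit 0) [] (nat_lit 0) [] false,
   Spec.mk (nat_lit 10332) (nat_lit 0) [] (nat_lit 0) [] false,
   Spec.mk (nat_lit 10342) (nat_lit 0) [] (nat_lit 0) [] false]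

noncomputable def cd30 : List Spec :=
  [Spec.mk (nat_lit 10344) (nat_lit 0) [] (nat_lit 0) [] false,
   Spec.mk (nat_lit 10350) (nat_lit 0) [] (nat_lit 0) [] false,
   Spec.mk (nat_lit 10370) (nat_lit 0) [] (nat_lit 0) [] false,
   Spec.mk (nat_lit 10372) (nat_lit 0) [] (nat_lit 0) [] false,
   Spec.mk (nat_lit 10374) (nat_lit 0) [] (nat_lit 0) [] false,
   Spec.mk (nat_lit 10378) (nat_lit 0) [] (nat_lit 0) [] false,
   Spec.mk (nat_lit 10380) (nat_lit 0) [] (nat_lit 0) [] false,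
   Spec.mk (nat_lit 10386) (nat_lit 0) [] (nat_lit 0) [] false,
   Spec.mk (nat_lit 10396) (nat_lit 0) [] (nat_lit 0) [] false,
   Spec.mk (nat_lit 10398) (nat_lit 0) [] (nat_lit 0) [] false,
   Spec.mk (nat_lit 10404) (nat_lit 0) [] (nat_lit 0) [] false,
   Spec.mk (nat_lit 10422) (nat_lit 0) [] (nat_lit 0) [] false,
   Spec.mk (nat_lit 10454) (nat_lit 0) [] (nat_lit 0) [] false,
   Spec.mk (nat_lit 10456) (nat_lit 0) [] (nat_lit 0) [] false,
   Spec.mk (nat_lit 10460) (nat_lit 0) [] (nat_lit 0) [] false,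
   Spec.mk (nat_lit 10462) (nat_lit 0) [] (nat_lit 0) [] false,
   Spec.mk (nat_lit 10464) (nat_lit 0) [] (nat_lit 0) [] false,
   Spec.mk (nat_lit 10468) (nat_lit 0) [] (nat_lit 0) [] false,
   Spec.mk (nat_lit 10470) (nat_lit 0) [] (nat_lit 0) [] false,
   Spec.mk (nat_lit 10478) (nat_lit 0) [] (nat_lit 0) [] false,
   Spec.mk (nat_lit 10480) (nat_lit 0) [] (nat_lit 0) [] false,
   Spec.mk (nat_lit 10482) (nat_lit 0) [] (nat_lit 0) [] false,
   Spec.mk (nat_lit 10486) (nat_lit 0) [] (nat_lit 0) [] false,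
   Spec.mk (nat_lit 10488) (nat_lit 0) [] (nat_lit 0) [] false,
   Spec.mk (nat_lit 10494) (nat_lit 0) [] (nat_lit 0) [] false,
   Spec.mk (nat_lit 10504) (nat_lit 0) [] (nat_lit 0) [] false,
   Spec.mk (nat_lit 10506) (nat_lit 0) [] (nat_lit 0) [] false,
   Spec.mk (nat_lit 10512) (nat_lit 0) [] (nat_lit 0) [] false,
   Spec.mk (nat_lit 10532) (nat_lit 0) [] (nat_lit 0) [] false,
   Spec.mk (nat_lit 10534) (nat_lit 0) [] (nat_lit 0) [] false,
   Spec.mk (nat_lit 10536) (nat_lit 0) [] (nat_lit 0) [] false,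
   Spec.mk (nat_lit 10540) (nat_lit 0) [] (nat_lit 0) [] false,
   Spec.mk (nat_lit 10542) (nat_lit 0) [] (nat_lit 0) [] false,
   Spec.mk (nat_lit 10548) (nat_lit 0) [] (nat_lit 0) [] false,
   Spec.mk (nat_lit 10558) (nat_lit 0) [] (nat_lit 0) [] false,
   Spec.mk (nat_lit 10560) (nat_lit 0) [] (nat_lit 0) [] false,
   Spec.mk (nat_lit 10566) (nat_lit 0) [] (nat_lit 0) [] false,
   Spec.mk (nat_lit 10584) (nat_lit 0) [] (nat_lit 0) [] false,
   Spec.mk (nat_lit 10612) (nat_lit 0) [] (nat_lit 0) [] false,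
   Spec.mk (nat_lit 10614) (nat_lit 0) [] (nat_lit 0) [] false,
   Spec.mk (nat_lit 10620) (nat_lit 0) [] (nat_lit 0) [] false,
   Spec.mk (nat_lit 10638) (nat_lit 0) [] (nat_lit 0) [] false,
   Spec.mk (nat_lit 10694) (nat_lit 0) [] (nat_lit 0) [] false,
   Spec.mk (nat_lit 10696) (nat_lit 0) [] (nat_lit 0) [] false,
   Spec.mk (nat_lit 10698) (nat_lit 0) [] (nat_lit 0) [] false,
   Spec.mk (nat_lit 10702) (nat_lit 0) [] (nat_lit 0) [] false,
   Spec.mk (nat_lit 10704) (nat_lit 0) [] (nat_lit 0) [] false,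
   Spec.mk (nat_lit 10710) (nat_lit 0) [] (nat_lit 0) [] false,
   Spec.mk (nat_lit 10720) (nat_lit 0) [] (nat_lit 0) [] false,
   Spec.mk (nat_lit 10722) (nat_lit 0) [] (nat_lit 0) [] false,
   Spec.mk (nat_lit 10728) (nat_lit 0) [] (nat_lit 0) [] false,
   Spec.mk (nat_lit 10746) (nat_lit 0) [] (nat_lit 0) [] false,
   Spec.mk (nat_lit 10774) (nat_lit 0) [] (nat_lit 0) [] false,
   Spec.mk (nat_lit 10776) (nat_lit 0) [] (nat_lit 0) [] false,
   Spec.mk (nat_lit 10782) (nat_lit 0) [] (nat_lit 0) [] false,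
   Spec.mk (nat_lit 10800) (nat_lit 0) [] (nat_lit 0) [] false,
   Spec.mk (nat_lit 10854) (nat_lit 0) [] (nat_lit 0) [] false,
   Spec.mk (nat_lit 10952) (nat_lit 0) [] (nat_lit 0) [] false,
   Spec.mk (nat_lit 10958) (nat_lit 0) [] (nat_lit 0) [] false,
   Spec.mk (nat_lit 10960) (nat_lit 0) [] (nat_lit 0) [] false]

noncomputable def cd31 : List Spec :=
  [Spec.mk (nat_lit 10970) (nat_lit 0) [] (nat_lit 0) [] false,
   Spec.mk (nat_lit 10976) (nat_lit 0) [] (nat_lit 0) [] false,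
   Spec.mk (nat_lit 10978) (nat_lit 0) [] (nat_lit 0) [] false,
   Spec.mk (nat_lit 10982) (nat_lit 0) [] (nat_lit 0) [] false,
   Spec.mk (nat_lit 10984) (nat_lit 0) [] (nat_lit 0) [] false,
   Spec.mk (nat_lit 10986) (nat_lit 0) [] (nat_lit 0) [] false,
   Spec.mk (nat_lit 10994) (nat_lit 0) [] (nat_lit 0) [] false,
   Spec.mk (nat_lit 10996) (nat_lit 0) [] (nat_lit 0) [] false,
   Spec.mk (nat_lit 11000) (nat_lit 0) [] (nat_lit 0) [] false,
   Spec.mk (nat_lit 11002) (nat_lit 0) [] (nat_lit 0) [] false,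
   Spec.mk (nat_lit 11004) (nat_lit 0) [] (nat_lit 0) [] false,
   Spec.mk (nat_lit 11008) (nat_lit 0) [] (nat_lit 0) [] false,
   Spec.mk (nat_lit 11010) (nat_lit 0) [] (nat_lit 0) [] false,
   Spec.mk (nat_lit 11024) (nat_lit 0) [] (nat_lit 0) [] false,
   Spec.mk (nat_lit 11030) (nat_lit 0) [] (nat_lit 0) [] false,
   Spec.mk (nat_lit 11032) (nat_lit 0) [] (nat_lit 0) [] false,
   Spec.mk (nat_lit 11036) (nat_lit 0) [] (nat_lit 0) [] false,
   Spec.mk (nat_lit 11038) (nat_lit 0) [] (nat_lit 0) [] false,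
   Spec.mk (nat_lit 11040) (nat_lit 0) [] (nat_lit 0) [] false,
   Spec.mk (nat_lit 11048) (nat_lit 0) [] (nat_lit 0) [] false,
   Spec.mk (nat_lit 11050) (nat_lit 0) [] (nat_lit 0) [] false,
   Spec.mk (nat_lit 11054) (nat_lit 0) [] (nat_lit 0) [] false,
   Spec.mk (nat_lit 11056) (nat_lit 0) [] (nat_lit 0) [] false,
   Spec.mk (nat_lit 11058) (nat_lit 0) [] (nat_lit 0) [] false,
   Spec.mk (nat_lit 11062) (nat_lit 0) [] (nat_lit 0) [] false,
   Spec.mk (nat_lit 11064) (nat_lit 0) [] (nat_lit 0) [] false,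
   Spec.mk (nat_lit 11072) (nat_lit 0) [] (nat_lit 0) [] false,
   Spec.mk (nat_lit 11074) (nat_lit 0) [] (nat_lit 0) [] false,
   Spec.mk (nat_lit 11076) (nat_lit 0) [] (nat_lit 0) [] false,
   Spec.mk (nat_lit 11080) (nat_lit 0) [] (nat_lit 0) [] false,
   Spec.mk (nat_lit 11082) (nat_lit 0) [] (nat_lit 0) [] false,
   Spec.mk (nat_lit 11088) (nat_lit 0) [] (nat_lit 0) [] false,
   Spec.mk (nat_lit 11102) (nat_lit 0) [] (nat_lit 0) [] false,
   Spec.mk (nat_lit 11104) (nat_lit 0) [] (nat_lit 0) [] false,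
   Spec.mk (nat_lit 11108) (nat_lit 0) [] (nat_lit 0) [] false,
   Spec.mk (nat_lit 11110) (nat_lit 0) [] (nat_lit 0) [] false,
   Spec.mk (nat_lit 11112) (nat_lit 0) [] (nat_lit 0) [] false,
   Spec.mk (nat_lit 11116) (nat_lit 0) [] (nat_lit 0) [] false,
   Spec.mk (nat_lit 11118) (nat_lit 0) [] (nat_lit 0) [] false,
   Spec.mk (nat_lit 11126) (nat_lit 0) [] (nat_lit 0) [] false,
   Spec.mk (nat_lit 11128) (nat_lit 0) [] (nat_lit 0) [] false,
   Spec.mk (nat_lit 11130) (nat_lit 0) [] (nat_lit 0) [] false,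
   Spec.mk (nat_lit 11134) (nat_lit 0) [] (nat_lit 0) [] false,
   Spec.mk (nat_lit 11136) (nat_lit 0) [] (nat_lit 0) [] false,
   Spec.mk (nat_lit 11142) (nat_lit 0) [] (nat_lit 0) [] false,
   Spec.mk (nat_lit 11152) (nat_lit 0) [] (nat_lit 0) [] false,
   Spec.mk (nat_lit 11154) (nat_lit 0) [] (nat_lit 0) [] false,
   Spec.mk (nat_lit 11160) (nat_lit 0) [] (nat_lit 0) [] false,
   Spec.mk (nat_lit 11186) (nat_lit 0) [] (nat_lit 0) [] false,
   Spec.mk (nat_lit 11192) (nat_lit 0) [] (nat_lit 0) [] false,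
   Spec.mk (nat_lit 11194) (nat_lit 0) [] (nat_lit 0) [] false,
   Spec.mk (nat_lit 11198) (nat_lit 0) [] (nat_lit 0) [] false,
   Spec.mk (nat_lit 11200) (nat_lit 0) [] (nat_lit 0) [] false,
   Spec.mk (nat_lit 11202) (nat_lit 0) [] (nat_lit 0) [] false,
   Spec.mk (nat_lit 11210) (nat_lit 0) [] (nat_lit 0) [] false,
   Spec.mk (nat_lit 11212) (nat_lit 0) [] (nat_lit 0) [] false,
   Spec.mk (nat_lit 11216) (nat_lit 0) [] (nat_lit 0) [] false,
   Spec.mk (nat_lit 11218) (nat_lit 0) [] (nat_lit 0) [] false,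
   Spec.mk (nat_lit 11220) (nat_lit 0) [] (nat_lit 0) [] false,
   Spec.mk (nat_lit 11224) (nat_lit 0) [] (nat_lit 0) [] false]

noncomputable def cd32 : List Spec :=
  [Spec.mk (nat_lit 11226) (nat_lit 0) [] (nat_lit 0) [] false,
   Spec.mk (nat_lit 11234) (nat_lit 0) [] (nat_lit 0) [] false,
   Spec.mk (nat_lit 11236) (nat_lit 0) [] (nat_lit 0) [] false,
   Spec.mk (nat_lit 11238) (nat_lit 0) [] (nat_lit 0) [] false,
   Spec.mk (nat_lit 11242) (nat_lit 0) [] (nat_lit 0) [] false,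
   Spec.mk (nat_lit 11244) (nat_lit 0) [] (nat_lit 0) [] false,
   Spec.mk (nat_lit 11250) (nat_lit 0) [] (nat_lit 0) [] false,
   Spec.mk (nat_lit 11264) (nat_lit 0) [] (nat_lit 0) [] false,
   Spec.mk (nat_lit 11266) (nat_lit 0) [] (nat_lit 0) [] false,
   Spec.mk (nat_lit 11270) (nat_lit 0) [] (nat_lit 0) [] false,
   Spec.mk (nat_lit 11272) (nat_lit 0) [] (nat_lit 0) [] false,
   Spec.mk (nat_lit 11274) (nat_lit 0) [] (nat_lit 0) [] false,
   Spec.mk (nat_lit 11278) (nat_lit 0) [] (nat_lit 0) [] false,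
   Spec.mk (nat_lit 11280) (nat_lit 0) [] (nat_lit 0) [] false,
   Spec.mk (nat_lit 11288) (nat_lit 0) [] (nat_lit 0) [] false,
   Spec.mk (nat_lit 11290) (nat_lit 0) [] (nat_lit 0) [] false,
   Spec.mk (nat_lit 11292) (nat_lit 0) [] (nat_lit 0) [] false,
   Spec.mk (nat_lit 11296) (nat_lit 0) [] (nat_lit 0) [] false,
   Spec.mk (nat_lit 11298) (nat_lit 0) [] (nat_lit 0) [] false,
   Spec.mk (nat_lit 11304) (nat_lit 0) [] (nat_lit 0) [] false,
   Spec.mk (nat_lit 11314) (nat_lit 0) [] (nat_lit 0) [] false,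
   Spec.mk (nat_lit 11316) (nat_lit 0) [] (nat_lit 0) [] false,
   Spec.mk (nat_lit 11322) (nat_lit 0) [] (nat_lit 0) [] false,
   Spec.mk (nat_lit 11342) (nat_lit 0) [] (nat_lit 0) [] false,
   Spec.mk (nat_lit 11344) (nat_lit 0) [] (nat_lit 0) [] false,
   Spec.mk (nat_lit 11346) (nat_lit 0) [] (nat_lit 0) [] false,
   Spec.mk (nat_lit 11350) (nat_lit 0) [] (nat_lit 0) [] false,
   Spec.mk (nat_lit 11352) (nat_lit 0) [] (nat_lit 0) [] false,
   Spec.mk (nat_lit 11358) (nat_lit 0) [] (nat_lit 0) [] false,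
   Spec.mk (nat_lit 11368) (nat_lit 0) [] (nat_lit 0) [] false,
   Spec.mk (nat_lit 11370) (nat_lit 0) [] (nat_lit 0) [] false,
   Spec.mk (nat_lit 11376) (nat_lit 0) [] (nat_lit 0) [] false,
   Spec.mk (nat_lit 11394) (nat_lit 0) [] (nat_lit 0) [] false,
   Spec.mk (nat_lit 11426) (nat_lit 0) [] (nat_lit 0) [] false,
   Spec.mk (nat_lit 11428) (nat_lit 0) [] (nat_lit 0) [] false,
   Spec.mk (nat_lit 11432) (nat_lit 0) [] (nat_lit 0) [] false,
   Spec.mk (nat_lit 11434) (nat_lit 0) [] (nat_lit 0) [] false,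
   Spec.mk (nat_lit 11436) (nat_lit 0) [] (nat_lit 0) [] false,
   Spec.mk (nat_lit 11440) (nat_lit 0) [] (nat_lit 0) [] false,
   Spec.mk (nat_lit 11442) (nat_lit 0) [] (nat_lit 0) [] false,
   Spec.mk (nat_lit 11450) (nat_lit 0) [] (nat_lit 0) [] false,
   Spec.mk (nat_lit 11452) (nat_lit 0) [] (nat_lit 0) [] false,
   Spec.mk (nat_lit 11454) (nat_lit 0) [] (nat_lit 0) [] false,
   Spec.mk (nat_lit 11458) (nat_lit 0) [] (nat_lit 0) [] false,
   Spec.mk (nat_lit 11460) (nat_lit 0) [] (nat_lit 0) [] false,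
   Spec.mk (nat_lit 11466) (nat_lit 0) [] (nat_lit 0) [] false,
   Spec.mk (nat_lit 11476) (nat_lit 0) [] (nat_lit 0) [] false,
   Spec.mk (nat_lit 11478) (nat_lit 0) [] (nat_lit 0) [] false,
   Spec.mk (nat_lit 11484) (nat_lit 0) [] (nat_lit 0) [] false,
   Spec.mk (nat_lit 11504) (nat_lit 0) [] (nat_lit 0) [] false,
   Spec.mk (nat_lit 11506) (nat_lit 0) [] (nat_lit 0) [] false,
   Spec.mk (nat_lit 11508) (nat_lit 0) [] (nat_lit 0) [] false,
   Spec.mk (nat_lit 11512) (nat_lit 0) [] (nat_lit 0) [] false,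
   Spec.mk (nat_lit 11514) (nat_lit 0) [] (nat_lit 0) [] false,
   Spec.mk (nat_lit 11520) (nat_lit 0) [] (nat_lit 0) [] false,
   Spec.mk (nat_lit 11530) (nat_lit 0) [] (nat_lit 0) [] false,
   Spec.mk (nat_lit 11532) (nat_lit 0) [] (nat_lit 0) [] false,
   Spec.mk (nat_lit 11538) (nat_lit 0) [] (nat_lit 0) [] false,
   Spec.mk (nat_lit 11556) (nat_lit 0) [] (nat_lit 0) [] false,
   Spec.mk (nat_lit 11584) (nat_lit 0) [] (nat_lit 0) [] false]

noncomputable def cd33 : List Spec :=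
  [Spec.mk (nat_lit 11586) (nat_lit 0) [] (nat_lit 0) [] false,
   Spec.mk (nat_lit 11592) (nat_lit 0) [] (nat_lit 0) [] false,
   Spec.mk (nat_lit 11610) (nat_lit 0) [] (nat_lit 0) [] false,
   Spec.mk (nat_lit 11672) (nat_lit 0) [] (nat_lit 0) [] false,
   Spec.mk (nat_lit 11678) (nat_lit 0) [] (nat_lit 0) [] false,
   Spec.mk (nat_lit 11680) (nat_lit 0) [] (nat_lit 0) [] false,
   Spec.mk (nat_lit 11684) (nat_lit 0) [] (nat_lit 0) [] false,
   Spec.mk (nat_lit 11686) (nat_lit 0) [] (nat_lit 0) [] false,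
   Spec.mk (nat_lit 11688) (nat_lit 0) [] (nat_lit 0) [] false,
   Spec.mk (nat_lit 11696) (nat_lit 0) [] (nat_lit 0) [] false,
   Spec.mk (nat_lit 11698) (nat_lit 0) [] (nat_lit 0) [] false,
   Spec.mk (nat_lit 11702) (nat_lit 0) [] (nat_lit 0) [] false,
   Spec.mk (nat_lit 11704) (nat_lit 0) [] (nat_lit 0) [] false,
   Spec.mk (nat_lit 11706) (nat_lit 0) [] (nat_lit 0) [] false,
   Spec.mk (nat_lit 11710) (nat_lit 0) [] (nat_lit 0) [] false,
   Spec.mk (nat_lit 11712) (nat_lit 0) [] (nat_lit 0) [] false,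
   Spec.mk (nat_lit 11720) (nat_lit 0) [] (nat_lit 0) [] false,
   Spec.mk (nat_lit 11722) (nat_lit 0) [] (nat_lit 0) [] false,
   Spec.mk (nat_lit 11724) (nat_lit 0) [] (nat_lit 0) [] false,
   Spec.mk (nat_lit 11728) (nat_lit 0) [] (nat_lit 0) [] false,
   Spec.mk (nat_lit 11730) (nat_lit 0) [] (nat_lit 0) [] false,
   Spec.mk (nat_lit 11736) (nat_lit 0) [] (nat_lit 0) [] false,
   Spec.mk (nat_lit 11750) (nat_lit 0) [] (nat_lit 0) [] false,
   Spec.mk (nat_lit 11752) (nat_lit 0) [] (nat_lit 0) [] false,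
   Spec.mk (nat_lit 11756) (nat_lit 0) [] (nat_lit 0) [] false,
   Spec.mk (nat_lit 11758) (nat_lit 0) [] (nat_lit 0) [] false,
   Spec.mk (nat_lit 11760) (nat_lit 0) [] (nat_lit 0) [] false,
   Spec.mk (nat_lit 11764) (nat_lit 0) [] (nat_lit 0) [] false,
   Spec.mk (nat_lit 11766) (nat_lit 0) [] (nat_lit 0) [] false,
   Spec.mk (nat_lit 11774) (nat_lit 0) [] (nat_lit 0) [] false,
   Spec.mk (nat_lit 11776) (nat_lit 0) [] (nat_lit 0) [] false,
   Spec.mk (nat_lit 11778) (nat_lit 0) [] (nat_lit 0) [] false,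
   Spec.mk (nat_lit 11782) (nat_lit 0) [] (nat_lit 0) [] false,
   Spec.mk (nat_lit 11784) (nat_lit 0) [] (nat_lit 0) [] false,
   Spec.mk (nat_lit 11790) (nat_lit 0) [] (nat_lit 0) [] false,
   Spec.mk (nat_lit 11800) (nat_lit 0) [] (nat_lit 0) [] false,
   Spec.mk (nat_lit 11802) (nat_lit 0) [] (nat_lit 0) [] false,
   Spec.mk (nat_lit 11808) (nat_lit 0) [] (nat_lit 0) [] false,
   Spec.mk (nat_lit 11828) (nat_lit 0) [] (nat_lit 0) [] false,
   Spec.mk (nat_lit 11830) (nat_lit 0) [] (nat_lit 0) [] false,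
   Spec.mk (nat_lit 11832) (nat_lit 0) [] (nat_lit 0) [] false,
   Spec.mk (nat_lit 11836) (nat_lit 0) [] (nat_lit 0) [] false,
   Spec.mk (nat_lit 11838) (nat_lit 0) [] (nat_lit 0) [] false,
   Spec.mk (nat_lit 11844) (nat_lit 0) [] (nat_lit 0) [] false,
   Spec.mk (nat_lit 11854) (nat_lit 0) [] (nat_lit 0) [] false,
   Spec.mk (nat_lit 11856) (nat_lit 0) [] (nat_lit 0) [] false,
   Spec.mk (nat_lit 11862) (nat_lit 0) [] (nat_lit 0) [] false,
   Spec.mk (nat_lit 11880) (nat_lit 0) [] (nat_lit 0) [] false,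
   Spec.mk (nat_lit 11912) (nat_lit 0) [] (nat_lit 0) [] false,
   Spec.mk (nat_lit 11914) (nat_lit 0) [] (nat_lit 0) [] false,
   Spec.mk (nat_lit 11918) (nat_lit 0) [] (nat_lit 0) [] false,
   Spec.mk (nat_lit 11920) (nat_lit 0) [] (nat_lit 0) [] false,
   Spec.mk (nat_lit 11922) (nat_lit 0) [] (nat_lit 0) [] false,
   Spec.mk (nat_lit 11926) (nat_lit 0) [] (nat_lit 0) [] false,
   Spec.mk (nat_lit 11928) (nat_lit 0) [] (nat_lit 0) [] false,
   Spec.mk (nat_lit 11936) (nat_lit 0) [] (nat_lit 0) [] false,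
   Spec.mk (nat_lit 11938) (nat_lit 0) [] (nat_lit 0) [] false,
   Spec.mk (nat_lit 11940) (nat_lit 0) [] (nat_lit 0) [] false,
   Spec.mk (nat_lit 11944) (nat_lit 0) [] (nat_lit 0) [] false,
   Spec.mk (nat_lit 11946) (nat_lit 0) [] (nat_lit 0) [] false]

noncomputable def cd34 : List Spec :=
  [Spec.mk (nat_lit 11952) (nat_lit 0) [] (nat_lit 0) [] false,
   Spec.mk (nat_lit 11962) (nat_lit 0) [] (nat_lit 0) [] false,
   Spec.mk (nat_lit 11964) (nat_lit 0) [] (nat_lit 0) [] false,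
   Spec.mk (nat_lit 11970) (nat_lit 0) [] (nat_lit 0) [] false,
   Spec.mk (nat_lit 11990) (nat_lit 0) [] (nat_lit 0) [] false,
   Spec.mk (nat_lit 11992) (nat_lit 0) [] (nat_lit 0) [] false,
   Spec.mk (nat_lit 11994) (nat_lit 0) [] (nat_lit 0) [] false,
   Spec.mk (nat_lit 11998) (nat_lit 0) [] (nat_lit 0) [] false,
   Spec.mk (nat_lit 12000) (nat_lit 0) [] (nat_lit 0) [] false,
   Spec.mk (nat_lit 12006) (nat_lit 0) [] (nat_lit 0) [] false,
   Spec.mk (nat_lit 12016) (nat_lit 0) [] (nat_lit 0) [] false,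
   Spec.mk (nat_lit 12018) (nat_lit 0) [] (nat_lit 0) [] false,
   Spec.mk (nat_lit 12024) (nat_lit 0) [] (nat_lit 0) [] false,
   Spec.mk (nat_lit 12042) (nat_lit 0) [] (nat_lit 0) [] false,
   Spec.mk (nat_lit 12070) (nat_lit 0) [] (nat_lit 0) [] false,
   Spec.mk (nat_lit 12072) (nat_lit 0) [] (nat_lit 0) [] false,
   Spec.mk (nat_lit 12078) (nat_lit 0) [] (nat_lit 0) [] false,
   Spec.mk (nat_lit 12096) (nat_lit 0) [] (nat_lit 0) [] false,
   Spec.mk (nat_lit 12152) (nat_lit 0) [] (nat_lit 0) [] false,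
   Spec.mk (nat_lit 12154) (nat_lit 0) [] (nat_lit 0) [] false,
   Spec.mk (nat_lit 12156) (nat_lit 0) [] (nat_lit 0) [] false,
   Spec.mk (nat_lit 12160) (nat_lit 0) [] (nat_lit 0) [] false,
   Spec.mk (nat_lit 12162) (nat_lit 0) [] (nat_lit 0) [] false,
   Spec.mk (nat_lit 12168) (nat_lit 0) [] (nat_lit 0) [] false,
   Spec.mk (nat_lit 12178) (nat_lit 0) [] (nat_lit 0) [] false,
   Spec.mk (nat_lit 12180) (nat_lit 0) [] (nat_lit 0) [] false,
   Spec.mk (nat_lit 12186) (nat_lit 0) [] (nat_lit 0) [] false,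
   Spec.mk (nat_lit 12204) (nat_lit 0) [] (nat_lit 0) [] false,
   Spec.mk (nat_lit 12232) (nat_lit 0) [] (nat_lit 0) [] false,
   Spec.mk (nat_lit 12234) (nat_lit 0) [] (nat_lit 0) [] false,
   Spec.mk (nat_lit 12240) (nat_lit 0) [] (nat_lit 0) [] false,
   Spec.mk (nat_lit 12258) (nat_lit 0) [] (nat_lit 0) [] false,
   Spec.mk (nat_lit 12312) (nat_lit 0) [] (nat_lit 0) [] false,
   Spec.mk (nat_lit 12398) (nat_lit 0) [] (nat_lit 0) [] false,
   Spec.mk (nat_lit 12400) (nat_lit 0) [] (nat_lit 0) [] false,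
   Spec.mk (nat_lit 12404) (nat_lit 0) [] (nat_lit 0) [] false,
   Spec.mk (nat_lit 12406) (nat_lit 0) [] (nat_lit 0) [] false,
   Spec.mk (nat_lit 12408) (nat_lit 0) [] (nat_lit 0) [] false,
   Spec.mk (nat_lit 12412) (nat_lit 0) [] (nat_lit 0) [] false,
   Spec.mk (nat_lit 12414) (nat_lit 0) [] (nat_lit 0) [] false,
   Spec.mk (nat_lit 12422) (nat_lit 0) [] (nat_lit 0) [] false,
   Spec.mk (nat_lit 12424) (nat_lit 0) [] (nat_lit 0) [] false,
   Spec.mk (nat_lit 12426) (nat_lit 0) [] (nat_lit 0) [] false,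
   Spec.mk (nat_lit 12430) (nat_lit 0) [] (nat_lit 0) [] false,
   Spec.mk (nat_lit 12432) (nat_lit 0) [] (nat_lit 0) [] false,
   Spec.mk (nat_lit 12438) (nat_lit 0) [] (nat_lit 0) [] false,
   Spec.mk (nat_lit 12448) (nat_lit 0) [] (nat_lit 0) [] false,
   Spec.mk (nat_lit 12450) (nat_lit 0) [] (nat_lit 0) [] false,
   Spec.mk (nat_lit 12456) (nat_lit 0) [] (nat_lit 0) [] false,
   Spec.mk (nat_lit 12476) (nat_lit 0) [] (nat_lit 0) [] false,
   Spec.mk (nat_lit 12478) (nat_lit 0) [] (nat_lit 0) [] false,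
   Spec.mk (nat_lit 12480) (nat_lit 0) [] (nat_lit 0) [] false,
   Spec.mk (nat_lit 12484) (nat_lit 0) [] (nat_lit 0) [] false,
   Spec.mk (nat_lit 12486) (nat_lit 0) [] (nat_lit 0) [] false,
   Spec.mk (nat_lit 12492) (nat_lit 0) [] (nat_lit 0) [] false,
   Spec.mk (nat_lit 12502) (nat_lit 0) [] (nat_lit 0) [] false,
   Spec.mk (nat_lit 12504) (nat_lit 0) [] (nat_lit 0) [] false,
   Spec.mk (nat_lit 12510) (nat_lit 0) [] (nat_lit 0) [] false,
   Spec.mk (nat_lit 12528) (nat_lit 0) [] (nat_lit 0) [] false,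
   Spec.mk (nat_lit 12556) (nat_lit 0) [] (nat_lit 0) [] false]

noncomputable def cd35 : List Spec :=
  [Spec.mk (nat_lit 12558) (nat_lit 0) [] (nat_lit 0) [] false,
   Spec.mk (nat_lit 12564) (nat_lit 0) [] (nat_lit 0) [] false,
   Spec.mk (nat_lit 12582) (nat_lit 0) [] (nat_lit 0) [] false,
   Spec.mk (nat_lit 12638) (nat_lit 0) [] (nat_lit 0) [] false,
   Spec.mk (nat_lit 12640) (nat_lit 0) [] (nat_lit 0) [] false,
   Spec.mk (nat_lit 12642) (nat_lit 0) [] (nat_lit 0) [] false,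
   Spec.mk (nat_lit 12646) (nat_lit 0) [] (nat_lit 0) [] false,
   Spec.mk (nat_lit 12648) (nat_lit 0) [] (nat_lit 0) [] false,
   Spec.mk (nat_lit 12654) (nat_lit 0) [] (nat_lit 0) [] false,
   Spec.mk (nat_lit 12664) (nat_lit 0) [] (nat_lit 0) [] false,
   Spec.mk (nat_lit 12666) (nat_lit 0) [] (nat_lit 0) [] false,
   Spec.mk (nat_lit 12672) (nat_lit 0) [] (nat_lit 0) [] false,
   Spec.mk (nat_lit 12690) (nat_lit 0) [] (nat_lit 0) [] false,
   Spec.mk (nat_lit 12718) (nat_lit 0) [] (nat_lit 0) [] false,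
   Spec.mk (nat_lit 12720) (nat_lit 0) [] (nat_lit 0) [] false,
   Spec.mk (nat_lit 12726) (nat_lit 0) [] (nat_lit 0) [] false,
   Spec.mk (nat_lit 12744) (nat_lit 0) [] (nat_lit 0) [] false,
   Spec.mk (nat_lit 12798) (nat_lit 0) [] (nat_lit 0) [] false,
   Spec.mk (nat_lit 12880) (nat_lit 0) [] (nat_lit 0) [] false,
   Spec.mk (nat_lit 12882) (nat_lit 0) [] (nat_lit 0) [] false,
   Spec.mk (nat_lit 12888) (nat_lit 0) [] (nat_lit 0) [] false,
   Spec.mk (nat_lit 12906) (nat_lit 0) [] (nat_lit 0) [] false,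
   Spec.mk (nat_lit 12960) (nat_lit 0) [] (nat_lit 0) [] false,
   Spec.mk (nat_lit 13148) (nat_lit 0) [] (nat_lit 0) [] false,
   Spec.mk (nat_lit 13166) (nat_lit 0) [] (nat_lit 0) [] false,
   Spec.mk (nat_lit 13172) (nat_lit 0) [] (nat_lit 0) [] false,
   Spec.mk (nat_lit 13174) (nat_lit 0) [] (nat_lit 0) [] false,
   Spec.mk (nat_lit 13184) (nat_lit 0) [] (nat_lit 0) [] false,
   Spec.mk (nat_lit 13190) (nat_lit 0) [] (nat_lit 0) [] false,
   Spec.mk (nat_lit 13192) (nat_lit 0) [] (nat_lit 0) [] false,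
   Spec.mk (nat_lit 13196) (nat_lit 0) [] (nat_lit 0) [] false,
   Spec.mk (nat_lit 13198) (nat_lit 0) [] (nat_lit 0) [] false,
   Spec.mk (nat_lit 13200) (nat_lit 0) [] (nat_lit 0) [] false,
   Spec.mk (nat_lit 13220) (nat_lit 0) [] (nat_lit 0) [] false,
   Spec.mk (nat_lit 13226) (nat_lit 0) [] (nat_lit 0) [] false,
   Spec.mk (nat_lit 13228) (nat_lit 0) [] (nat_lit 0) [] false,
   Spec.mk (nat_lit 13238) (nat_lit 0) [] (nat_lit 0) [] false,
   Spec.mk (nat_lit 13244) (nat_lit 0) [] (nat_lit 0) [] false,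
   Spec.mk (nat_lit 13246) (nat_lit 0) [] (nat_lit 0) [] false,
   Spec.mk (nat_lit 13250) (nat_lit 0) [] (nat_lit 0) [] false,
   Spec.mk (nat_lit 13252) (nat_lit 0) [] (nat_lit 0) [] false,
   Spec.mk (nat_lit 13254) (nat_lit 0) [] (nat_lit 0) [] false,
   Spec.mk (nat_lit 13262) (nat_lit 0) [] (nat_lit 0) [] false,
   Spec.mk (nat_lit 13264) (nat_lit 0) [] (nat_lit 0) [] false,
   Spec.mk (nat_lit 13268) (nat_lit 0) [] (nat_lit 0) [] false,
   Spec.mk (nat_lit 13270) (nat_lit 0) [] (nat_lit 0) [] false,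
   Spec.mk (nat_lit 13272) (nat_lit 0) [] (nat_lit 0) [] false,
   Spec.mk (nat_lit 13276) (nat_lit 0) [] (nat_lit 0) [] false,
   Spec.mk (nat_lit 13278) (nat_lit 0) [] (nat_lit 0) [] false,
   Spec.mk (nat_lit 13292) (nat_lit 0) [] (nat_lit 0) [] false,
   Spec.mk (nat_lit 13298) (nat_lit 0) [] (nat_lit 0) [] false,
   Spec.mk (nat_lit 13300) (nat_lit 0) [] (nat_lit 0) [] false,
   Spec.mk (nat_lit 13304) (nat_lit 0) [] (nat_lit 0) [] false,
   Spec.mk (nat_lit 13306) (nat_lit 0) [] (nat_lit 0) [] false,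
   Spec.mk (nat_lit 13308) (nat_lit 0) [] (nat_lit 0) [] false,
   Spec.mk (nat_lit 13316) (nat_lit 0) [] (nat_lit 0) [] false,
   Spec.mk (nat_lit 13318) (nat_lit 0) [] (nat_lit 0) [] false,
   Spec.mk (nat_lit 13322) (nat_lit 0) [] (nat_lit 0) [] false,
   Spec.mk (nat_lit 13324) (nat_lit 0) [] (nat_lit 0) [] false,
   Spec.mk (nat_lit 13326) (nat_lit 0) [] (nat_lit 0) [] false]

noncomputable def cd36 : List Spec :=
  [Spec.mk (nat_lit 13330) (nat_lit 0) [] (nat_lit 0) [] false,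
   Spec.mk (nat_lit 13332) (nat_lit 0) [] (nat_lit 0) [] false,
   Spec.mk (nat_lit 13340) (nat_lit 0) [] (nat_lit 0) [] false,
   Spec.mk (nat_lit 13342) (nat_lit 0) [] (nat_lit 0) [] false,
   Spec.mk (nat_lit 13344) (nat_lit 0) [] (nat_lit 0) [] false,
   Spec.mk (nat_lit 13348) (nat_lit 0) [] (nat_lit 0) [] false,
   Spec.mk (nat_lit 13350) (nat_lit 0) [] (nat_lit 0) [] false,
   Spec.mk (nat_lit 13356) (nat_lit 0) [] (nat_lit 0) [] false,
   Spec.mk (nat_lit 13382) (nat_lit 0) [] (nat_lit 0) [] false,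
   Spec.mk (nat_lit 13388) (nat_lit 0) [] (nat_lit 0) [] false,
   Spec.mk (nat_lit 13390) (nat_lit 0) [] (nat_lit 0) [] false,
   Spec.mk (nat_lit 13400) (nat_lit 0) [] (nat_lit 0) [] false,
   Spec.mk (nat_lit 13406) (nat_lit 0) [] (nat_lit 0) [] false,
   Spec.mk (nat_lit 13408) (nat_lit 0) [] (nat_lit 0) [] false,
   Spec.mk (nat_lit 13412) (nat_lit 0) [] (nat_lit 0) [] false,
   Spec.mk (nat_lit 13414) (nat_lit 0) [] (nat_lit 0) [] false,
   Spec.mk (nat_lit 13416) (nat_lit 0) [] (nat_lit 0) [] false,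
   Spec.mk (nat_lit 13424) (nat_lit 0) [] (nat_lit 0) [] false,
   Spec.mk (nat_lit 13426) (nat_lit 0) [] (nat_lit 0) [] false,
   Spec.mk (nat_lit 13430) (nat_lit 0) [] (nat_lit 0) [] false,
   Spec.mk (nat_lit 13432) (nat_lit 0) [] (nat_lit 0) [] false,
   Spec.mk (nat_lit 13434) (nat_lit 0) [] (nat_lit 0) [] false,
   Spec.mk (nat_lit 13438) (nat_lit 0) [] (nat_lit 0) [] false,
   Spec.mk (nat_lit 13440) (nat_lit 0) [] (nat_lit 0) [] false,
   Spec.mk (nat_lit 13454) (nat_lit 0) [] (nat_lit 0) [] false,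
   Spec.mk (nat_lit 13460) (nat_lit 0) [] (nat_lit 0) [] false,
   Spec.mk (nat_lit 13462) (nat_lit 0) [] (nat_lit 0) [] false,
   Spec.mk (nat_lit 13466) (nat_lit 0) [] (nat_lit 0) [] false,
   Spec.mk (nat_lit 13468) (nat_lit 0) [] (nat_lit 0) [] false,
   Spec.mk (nat_lit 13470) (nat_lit 0) [] (nat_lit 0) [] false,
   Spec.mk (nat_lit 13478) (nat_lit 0) [] (nat_lit 0) [] false,
   Spec.mk (nat_lit 13480) (nat_lit 0) [] (nat_lit 0) [] false,
   Spec.mk (nat_lit 13484) (nat_lit 0) [] (nat_lit 0) [] false,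
   Spec.mk (nat_lit 13486) (nat_lit 0) [] (nat_lit 0) [] false,
   Spec.mk (nat_lit 13488) (nat_lit 0) [] (nat_lit 0) [] false,
   Spec.mk (nat_lit 13492) (nat_lit 0) [] (nat_lit 0) [] false,
   Spec.mk (nat_lit 13494) (nat_lit 0) [] (nat_lit 0) [] false,
   Spec.mk (nat_lit 13502) (nat_lit 0) [] (nat_lit 0) [] false,
   Spec.mk (nat_lit 13504) (nat_lit 0) [] (nat_lit 0) [] false,
   Spec.mk (nat_lit 13506) (nat_lit 0) [] (nat_lit 0) [] false,
   Spec.mk (nat_lit 13510) (nat_lit 0) [] (nat_lit 0) [] false,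
   Spec.mk (nat_lit 13512) (nat_lit 0) [] (nat_lit 0) [] false,
   Spec.mk (nat_lit 13518) (nat_lit 0) [] (nat_lit 0) [] false,
   Spec.mk (nat_lit 13532) (nat_lit 0) [] (nat_lit 0) [] false,
   Spec.mk (nat_lit 13534) (nat_lit 0) [] (nat_lit 0) [] false,
   Spec.mk (nat_lit 13538) (nat_lit 0) [] (nat_lit 0) [] false,
   Spec.mk (nat_lit 13540) (nat_lit 0) [] (nat_lit 0) [] false,
   Spec.mk (nat_lit 13542) (nat_lit 0) [] (nat_lit 0) [] false,
   Spec.mk (nat_lit 13546) (nat_lit 0) [] (nat_lit 0) [] false,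
   Spec.mk (nat_lit 13548) (nat_lit 0) [] (nat_lit 0) [] false,
   Spec.mk (nat_lit 13556) (nat_lit 0) [] (nat_lit 0) [] false,
   Spec.mk (nat_lit 13558) (nat_lit 0) [] (nat_lit 0) [] false,
   Spec.mk (nat_lit 13560) (nat_lit 0) [] (nat_lit 0) [] false,
   Spec.mk (nat_lit 13564) (nat_lit 0) [] (nat_lit 0) [] false,
   Spec.mk (nat_lit 13566) (nat_lit 0) [] (nat_lit 0) [] false,
   Spec.mk (nat_lit 13572) (nat_lit 0) [] (nat_lit 0) [] false,
   Spec.mk (nat_lit 13582) (nat_lit 0) [] (nat_lit 0) [] false,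
   Spec.mk (nat_lit 13584) (nat_lit 0) [] (nat_lit 0) [] false,
   Spec.mk (nat_lit 13590) (nat_lit 0) [] (nat_lit 0) [] false,
   Spec.mk (nat_lit 13616) (nat_lit 0) [] (nat_lit 0) [] false]

noncomputable def cd37 : List Spec :=
  [Spec.mk (nat_lit 13622) (nat_lit 0) [] (nat_lit 0) [] false,
   Spec.mk (nat_lit 13624) (nat_lit 0) [] (nat_lit 0) [] false,
   Spec.mk (nat_lit 13628) (nat_lit 0) [] (nat_lit 0) [] false,
   Spec.mk (nat_lit 13630) (nat_lit 0) [] (nat_lit 0) [] false,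
   Spec.mk (nat_lit 13632) (nat_lit 0) [] (nat_lit 0) [] false,
   Spec.mk (nat_lit 13640) (nat_lit 0) [] (nat_lit 0) [] false,
   Spec.mk (nat_lit 13642) (nat_lit 0) [] (nat_lit 0) [] false,
   Spec.mk (nat_lit 13646) (nat_lit 0) [] (nat_lit 0) [] false,
   Spec.mk (nat_lit 13648) (nat_lit 0) [] (nat_lit 0) [] false,
   Spec.mk (nat_lit 13650) (nat_lit 0) [] (nat_lit 0) [] false,
   Spec.mk (nat_lit 13654) (nat_lit 0) [] (nat_lit 0) [] false,
   Spec.mk (nat_lit 13656) (nat_lit 0) [] (nat_lit 0) [] false,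
   Spec.mk (nat_lit 13664) (nat_lit 0) [] (nat_lit 0) [] false,
   Spec.mk (nat_lit 13666) (nat_lit 0) [] (nat_lit 0) [] false,
   Spec.mk (nat_lit 13668) (nat_lit 0) [] (nat_lit 0) [] false,
   Spec.mk (nat_lit 13672) (nat_lit 0) [] (nat_lit 0) [] false,
   Spec.mk (nat_lit 13674) (nat_lit 0) [] (nat_lit 0) [] false,
   Spec.mk (nat_lit 13680) (nat_lit 0) [] (nat_lit 0) [] false,
   Spec.mk (nat_lit 13694) (nat_lit 0) [] (nat_lit 0) [] false,
   Spec.mk (nat_lit 13696) (nat_lit 0) [] (nat_lit 0) [] false,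
   Spec.mk (nat_lit 13700) (nat_lit 0) [] (nat_lit 0) [] false,
   Spec.mk (nat_lit 13702) (nat_lit 0) [] (nat_lit 0) [] false,
   Spec.mk (nat_lit 13704) (nat_lit 0) [] (nat_lit 0) [] false,
   Spec.mk (nat_lit 13708) (nat_lit 0) [] (nat_lit 0) [] false,
   Spec.mk (nat_lit 13710) (nat_lit 0) [] (nat_lit 0) [] false,
   Spec.mk (nat_lit 13718) (nat_lit 0) [] (nat_lit 0) [] false,
   Spec.mk (nat_lit 13720) (nat_lit 0) [] (nat_lit 0) [] false,
   Spec.mk (nat_lit 13722) (nat_lit 0) [] (nat_lit 0) [] false,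
   Spec.mk (nat_lit 13726) (nat_lit 0) [] (nat_lit 0) [] false,
   Spec.mk (nat_lit 13728) (nat_lit 0) [] (nat_lit 0) [] false,
   Spec.mk (nat_lit 13734) (nat_lit 0) [] (nat_lit 0) [] false,
   Spec.mk (nat_lit 13744) (nat_lit 0) [] (nat_lit 0) [] false,
   Spec.mk (nat_lit 13746) (nat_lit 0) [] (nat_lit 0) [] false,
   Spec.mk (nat_lit 13752) (nat_lit 0) [] (nat_lit 0) [] false,
   Spec.mk (nat_lit 13772) (nat_lit 0) [] (nat_lit 0) [] false,
   Spec.mk (nat_lit 13774) (nat_lit 0) [] (nat_lit 0) [] false,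
   Spec.mk (nat_lit 13776) (nat_lit 0) [] (nat_lit 0) [] false,
   Spec.mk (nat_lit 13780) (nat_lit 0) [] (nat_lit 0) [] false,
   Spec.mk (nat_lit 13782) (nat_lit 0) [] (nat_lit 0) [] false,
   Spec.mk (nat_lit 13788) (nat_lit 0) [] (nat_lit 0) [] false,
   Spec.mk (nat_lit 13798) (nat_lit 0) [] (nat_lit 0) [] false,
   Spec.mk (nat_lit 13800) (nat_lit 0) [] (nat_lit 0) [] false,
   Spec.mk (nat_lit 13806) (nat_lit 0) [] (nat_lit 0) [] false,
   Spec.mk (nat_lit 13824) (nat_lit 0) [] (nat_lit 0) [] false,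
   Spec.mk (nat_lit 13868) (nat_lit 0) [] (nat_lit 0) [] false,
   Spec.mk (nat_lit 13874) (nat_lit 0) [] (nat_lit 0) [] false,
   Spec.mk (nat_lit 13876) (nat_lit 0) [] (nat_lit 0) [] false,
   Spec.mk (nat_lit 13886) (nat_lit 0) [] (nat_lit 0) [] false,
   Spec.mk (nat_lit 13892) (nat_lit 0) [] (nat_lit 0) [] false,
   Spec.mk (nat_lit 13894) (nat_lit 0) [] (nat_lit 0) [] false,
   Spec.mk (nat_lit 13898) (nat_lit 0) [] (nat_lit 0) [] false,
   Spec.mk (nat_lit 13900) (nat_lit 0) [] (nat_lit 0) [] false,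
   Spec.mk (nat_lit 13902) (nat_lit 0) [] (nat_lit 0) [] false,
   Spec.mk (nat_lit 13910) (nat_lit 0) [] (nat_lit 0) [] false,
   Spec.mk (nat_lit 13912) (nat_lit 0) [] (nat_lit 0) [] false,
   Spec.mk (nat_lit 13916) (nat_lit 0) [] (nat_lit 0) [] false,
   Spec.mk (nat_lit 13918) (nat_lit 0) [] (nat_lit 0) [] false,
   Spec.mk (nat_lit 13920) (nat_lit 0) [] (nat_lit 0) [] false,
   Spec.mk (nat_lit 13924) (nat_lit 0) [] (nat_lit 0) [] false,
   Spec.mk (nat_lit 13926) (nat_lit 0) [] (nat_lit 0) [] false]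

noncomputable def cd38 : List Spec :=
  [Spec.mk (nat_lit 13940) (nat_lit 0) [] (nat_lit 0) [] false,
   Spec.mk (nat_lit 13946) (nat_lit 0) [] (nat_lit 0) [] false,
   Spec.mk (nat_lit 13948) (nat_lit 0) [] (nat_lit 0) [] false,
   Spec.mk (nat_lit 13952) (nat_lit 0) [] (nat_lit 0) [] false,
   Spec.mk (nat_lit 13954) (nat_lit 0) [] (nat_lit 0) [] false,
   Spec.mk (nat_lit 13956) (nat_lit 0) [] (nat_lit 0) [] false,
   Spec.mk (nat_lit 13964) (nat_lit 0) [] (nat_lit 0) [] false,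
   Spec.mk (nat_lit 13966) (nat_lit 0) [] (nat_lit 0) [] false,
   Spec.mk (nat_lit 13970) (nat_lit 0) [] (nat_lit 0) [] false,
   Spec.mk (nat_lit 13972) (nat_lit 0) [] (nat_lit 0) [] false,
   Spec.mk (nat_lit 13974) (nat_lit 0) [] (nat_lit 0) [] false,
   Spec.mk (nat_lit 13978) (nat_lit 0) [] (nat_lit 0) [] false,
   Spec.mk (nat_lit 13980) (nat_lit 0) [] (nat_lit 0) [] false,
   Spec.mk (nat_lit 13988) (nat_lit 0) [] (nat_lit 0) [] false,
   Spec.mk (nat_lit 13990) (nat_lit 0) [] (nat_lit 0) [] false,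
   Spec.mk (nat_lit 13992) (nat_lit 0) [] (nat_lit 0) [] false,
   Spec.mk (nat_lit 13996) (nat_lit 0) [] (nat_lit 0) [] false,
   Spec.mk (nat_lit 13998) (nat_lit 0) [] (nat_lit 0) [] false,
   Spec.mk (nat_lit 14004) (nat_lit 0) [] (nat_lit 0) [] false,
   Spec.mk (nat_lit 14018) (nat_lit 0) [] (nat_lit 0) [] false,
   Spec.mk (nat_lit 14020) (nat_lit 0) [] (nat_lit 0) [] false,
   Spec.mk (nat_lit 14024) (nat_lit 0) [] (nat_lit 0) [] false,
   Spec.mk (nat_lit 14026) (nat_lit 0) [] (nat_lit 0) [] false,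
   Spec.mk (nat_lit 14028) (nat_lit 0) [] (nat_lit 0) [] false,
   Spec.mk (nat_lit 14032) (nat_lit 0) [] (nat_lit 0) [] false,
   Spec.mk (nat_lit 14034) (nat_lit 0) [] (nat_lit 0) [] false,
   Spec.mk (nat_lit 14042) (nat_lit 0) [] (nat_lit 0) [] false,
   Spec.mk (nat_lit 14044) (nat_lit 0) [] (nat_lit 0) [] false,
   Spec.mk (nat_lit 14046) (nat_lit 0) [] (nat_lit 0) [] false,
   Spec.mk (nat_lit 14050) (nat_lit 0) [] (nat_lit 0) [] false,
   Spec.mk (nat_lit 14052) (nat_lit 0) [] (nat_lit 0) [] false,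
   Spec.mk (nat_lit 14058) (nat_lit 0) [] (nat_lit 0) [] false,
   Spec.mk (nat_lit 14068) (nat_lit 0) [] (nat_lit 0) [] false,
   Spec.mk (nat_lit 14070) (nat_lit 0) [] (nat_lit 0) [] false,
   Spec.mk (nat_lit 14076) (nat_lit 0) [] (nat_lit 0) [] false,
   Spec.mk (nat_lit 14102) (nat_lit 0) [] (nat_lit 0) [] false,
   Spec.mk (nat_lit 14108) (nat_lit 0) [] (nat_lit 0) [] false,
   Spec.mk (nat_lit 14110) (nat_lit 0) [] (nat_lit 0) [] false,
   Spec.mk (nat_lit 14114) (nat_lit 0) [] (nat_lit 0) [] false,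
   Spec.mk (nat_lit 14116) (nat_lit 0) [] (nat_lit 0) [] false,
   Spec.mk (nat_lit 14118) (nat_lit 0) [] (nat_lit 0) [] false,
   Spec.mk (nat_lit 14126) (nat_lit 0) [] (nat_lit 0) [] false,
   Spec.mk (nat_lit 14128) (nat_lit 0) [] (nat_lit 0) [] false,
   Spec.mk (nat_lit 14132) (nat_lit 0) [] (nat_lit 0) [] false,
   Spec.mk (nat_lit 14134) (nat_lit 0) [] (nat_lit 0) [] false,
   Spec.mk (nat_lit 14136) (nat_lit 0) [] (nat_lit 0) [] false,
   Spec.mk (nat_lit 14140) (nat_lit 0) [] (nat_lit 0) [] false,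
   Spec.mk (nat_lit 14142) (nat_lit 0) [] (nat_lit 0) [] false,
   Spec.mk (nat_lit 14150) (nat_lit 0) [] (nat_lit 0) [] false,
   Spec.mk (nat_lit 14152) (nat_lit 0) [] (nat_lit 0) [] false,
   Spec.mk (nat_lit 14154) (nat_lit 0) [] (nat_lit 0) [] false,
   Spec.mk (nat_lit 14158) (nat_lit 0) [] (nat_lit 0) [] false,
   Spec.mk (nat_lit 14160) (nat_lit 0) [] (nat_lit 0) [] false,
   Spec.mk (nat_lit 14166) (nat_lit 0) [] (nat_lit 0) [] false,
   Spec.mk (nat_lit 14180) (nat_lit 0) [] (nat_lit 0) [] false,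
   Spec.mk (nat_lit 14182) (nat_lit 0) [] (nat_lit 0) [] false,
   Spec.mk (nat_lit 14186) (nat_lit 0) [] (nat_lit 0) [] false,
   Spec.mk (nat_lit 14188) (nat_lit 0) [] (nat_lit 0) [] false,
   Spec.mk (nat_lit 14190) (nat_lit 0) [] (nat_lit 0) [] false,
   Spec.mk (nat_lit 14194) (nat_lit 0) [] (nat_lit 0) [] false]

noncomputable def cd39 : List Spec :=
  [Spec.mk (nat_lit 14196) (nat_lit 0) [] (nat_lit 0) [] false,
   Spec.mk (nat_lit 14204) (nat_lit 0) [] (nat_lit 0) [] false,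
   Spec.mk (nat_lit 14206) (nat_lit 0) [] (nat_lit 0) [] false,
   Spec.mk (nat_lit 14208) (nat_lit 0) [] (nat_lit 0) [] false,
   Spec.mk (nat_lit 14212) (nat_lit 0) [] (nat_lit 0) [] false,
   Spec.mk (nat_lit 14214) (nat_lit 0) [] (nat_lit 0) [] false,
   Spec.mk (nat_lit 14220) (nat_lit 0) [] (nat_lit 0) [] false,
   Spec.mk (nat_lit 14230) (nat_lit 0) [] (nat_lit 0) [] false,
   Spec.mk (nat_lit 14232) (nat_lit 0) [] (nat_lit 0) [] false,
   Spec.mk (nat_lit 14238) (nat_lit 0) [] (nat_lit 0) [] false,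
   Spec.mk (nat_lit 14258) (nat_lit 0) [] (nat_lit 0) [] false,
   Spec.mk (nat_lit 14260) (nat_lit 0) [] (nat_lit 0) [] false,
   Spec.mk (nat_lit 14262) (nat_lit 0) [] (nat_lit 0) [] false,
   Spec.mk (nat_lit 14266) (nat_lit 0) [] (nat_lit 0) [] false,
   Spec.mk (nat_lit 14268) (nat_lit 0) [] (nat_lit 0) [] false,
   Spec.mk (nat_lit 14274) (nat_lit 0) [] (nat_lit 0) [] false,
   Spec.mk (nat_lit 14284) (nat_lit 0) [] (nat_lit 0) [] false,
   Spec.mk (nat_lit 14286) (nat_lit 0) [] (nat_lit 0) [] false,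
   Spec.mk (nat_lit 14292) (nat_lit 0) [] (nat_lit 0) [] false,
   Spec.mk (nat_lit 14310) (nat_lit 0) [] (nat_lit 0) [] false,
   Spec.mk (nat_lit 14342) (nat_lit 0) [] (nat_lit 0) [] false,
   Spec.mk (nat_lit 14344) (nat_lit 0) [] (nat_lit 0) [] false,
   Spec.mk (nat_lit 14348) (nat_lit 0) [] (nat_lit 0) [] false,
   Spec.mk (nat_lit 14350) (nat_lit 0) [] (nat_lit 0) [] false,
   Spec.mk (nat_lit 14352) (nat_lit 0) [] (nat_lit 0) [] false,
   Spec.mk (nat_lit 14356) (nat_lit 0) [] (nat_lit 0) [] false,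
   Spec.mk (nat_lit 14358) (nat_lit 0) [] (nat_lit 0) [] false,
   Spec.mk (nat_lit 14366) (nat_lit 0) [] (nat_lit 0) [] false,
   Spec.mk (nat_lit 14368) (nat_lit 0) [] (nat_lit 0) [] false,
   Spec.mk (nat_lit 14370) (nat_lit 0) [] (nat_lit 0) [] false,
   Spec.mk (nat_lit 14374) (nat_lit 0) [] (nat_lit 0) [] false,
   Spec.mk (nat_lit 14376) (nat_lit 0) [] (nat_lit 0) [] false,
   Spec.mk (nat_lit 14382) (nat_lit 0) [] (nat_lit 0) [] false,
   Spec.mk (nat_lit 14392) (nat_lit 0) [] (nat_lit 0) [] false,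
   Spec.mk (nat_lit 14394) (nat_lit 0) [] (nat_lit 0) [] false,
   Spec.mk (nat_lit 14400) (nat_lit 0) [] (nat_lit 0) [] false,
   Spec.mk (nat_lit 14420) (nat_lit 0) [] (nat_lit 0) [] false,
   Spec.mk (nat_lit 14422) (nat_lit 0) [] (nat_lit 0) [] false,
   Spec.mk (nat_lit 14424) (nat_lit 0) [] (nat_lit 0) [] false,
   Spec.mk (nat_lit 14428) (nat_lit 0) [] (nat_lit 0) [] false,
   Spec.mk (nat_lit 14430) (nat_lit 0) [] (nat_lit 0) [] false,
   Spec.mk (nat_lit 14436) (nat_lit 0) [] (nat_lit 0) [] false,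
   Spec.mk (nat_lit 14446) (nat_lit 0) [] (nat_lit 0) [] false,
   Spec.mk (nat_lit 14448) (nat_lit 0) [] (nat_lit 0) [] false,
   Spec.mk (nat_lit 14454) (nat_lit 0) [] (nat_lit 0) [] false,
   Spec.mk (nat_lit 14472) (nat_lit 0) [] (nat_lit 0) [] false,
   Spec.mk (nat_lit 14500) (nat_lit 0) [] (nat_lit 0) [] false,
   Spec.mk (nat_lit 14502) (nat_lit 0) [] (nat_lit 0) [] false,
   Spec.mk (nat_lit 14508) (nat_lit 0) [] (nat_lit 0) [] false,
   Spec.mk (nat_lit 14526) (nat_lit 0) [] (nat_lit 0) [] false,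
   Spec.mk (nat_lit 14588) (nat_lit 0) [] (nat_lit 0) [] false,
   Spec.mk (nat_lit 14594) (nat_lit 0) [] (nat_lit 0) [] false,
   Spec.mk (nat_lit 14596) (nat_lit 0) [] (nat_lit 0) [] false,
   Spec.mk (nat_lit 14600) (nat_lit 0) [] (nat_lit 0) [] false,
   Spec.mk (nat_lit 14602) (nat_lit 0) [] (nat_lit 0) [] false,
   Spec.mk (nat_lit 14604) (nat_lit 0) [] (nat_lit 0) [] false,
   Spec.mk (nat_lit 14612) (nat_lit 0) [] (nat_lit 0) [] false,
   Spec.mk (nat_lit 14614) (nat_lit 0) [] (nat_lit 0) [] false,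
   Spec.mk (nat_lit 14618) (nat_lit 0) [] (nat_lit 0) [] false,
   Spec.mk (nat_lit 14620) (nat_lit 0) [] (nat_lit 0) [] false]

noncomputable def cd40 : List Spec :=
  [Spec.mk (nat_lit 14622) (nat_lit 0) [] (nat_lit 0) [] false,
   Spec.mk (nat_lit 14626) (nat_lit 0) [] (nat_lit 0) [] false,
   Spec.mk (nat_lit 14628) (nat_lit 0) [] (nat_lit 0) [] false,
   Spec.mk (nat_lit 14636) (nat_lit 0) [] (nat_lit 0) [] false,
   Spec.mk (nat_lit 14638) (nat_lit 0) [] (nat_lit 0) [] false,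
   Spec.mk (nat_lit 14640) (nat_lit 0) [] (nat_lit 0) [] false,
   Spec.mk (nat_lit 14644) (nat_lit 0) [] (nat_lit 0) [] false,
   Spec.mk (nat_lit 14646) (nat_lit 0) [] (nat_lit 0) [] false,
   Spec.mk (nat_lit 14652) (nat_lit 0) [] (nat_lit 0) [] false,
   Spec.mk (nat_lit 14666) (nat_lit 0) [] (nat_lit 0) [] false,
   Spec.mk (nat_lit 14668) (nat_lit 0) [] (nat_lit 0) [] false,
   Spec.mk (nat_lit 14672) (nat_lit 0) [] (nat_lit 0) [] false,
   Spec.mk (nat_lit 14674) (nat_lit 0) [] (nat_lit 0) [] false,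
   Spec.mk (nat_lit 14676) (nat_lit 0) [] (nat_lit 0) [] false,
   Spec.mk (nat_lit 14680) (nat_lit 0) [] (nat_lit 0) [] false,
   Spec.mk (nat_lit 14682) (nat_lit 0) [] (nat_lit 0) [] false,
   Spec.mk (nat_lit 14690) (nat_lit 0) [] (nat_lit 0) [] false,
   Spec.mk (nat_lit 14692) (nat_lit 0) [] (nat_lit 0) [] false,
   Spec.mk (nat_lit 14694) (nat_lit 0) [] (nat_lit 0) [] false,
   Spec.mk (nat_lit 14698) (nat_lit 0) [] (nat_lit 0) [] false,
   Spec.mk (nat_lit 14700) (nat_lit 0) [] (nat_lit 0) [] false,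
   Spec.mk (nat_lit 14706) (nat_lit 0) [] (nat_lit 0) [] false,
   Spec.mk (nat_lit 14716) (nat_lit 0) [] (nat_lit 0) [] false,
   Spec.mk (nat_lit 14718) (nat_lit 0) [] (nat_lit 0) [] false,
   Spec.mk (nat_lit 14724) (nat_lit 0) [] (nat_lit 0) [] false,
   Spec.mk (nat_lit 14744) (nat_lit 0) [] (nat_lit 0) [] false,
   Spec.mk (nat_lit 14746) (nat_lit 0) [] (nat_lit 0) [] false,
   Spec.mk (nat_lit 14748) (nat_lit 0) [] (nat_lit 0) [] false,
   Spec.mk (nat_lit 14752) (nat_lit 0) [] (nat_lit 0) [] false,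
   Spec.mk (nat_lit 14754) (nat_lit 0) [] (nat_lit 0) [] false,
   Spec.mk (nat_lit 14760) (nat_lit 0) [] (nat_lit 0) [] false,
   Spec.mk (nat_lit 14770) (nat_lit 0) [] (nat_lit 0) [] false,
   Spec.mk (nat_lit 14772) (nat_lit 0) [] (nat_lit 0) [] false,
   Spec.mk (nat_lit 14778) (nat_lit 0) [] (nat_lit 0) [] false,
   Spec.mk (nat_lit 14796) (nat_lit 0) [] (nat_lit 0) [] false,
   Spec.mk (nat_lit 14828) (nat_lit 0) [] (nat_lit 0) [] false,
   Spec.mk (nat_lit 14830) (nat_lit 0) [] (nat_lit 0) [] false,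
   Spec.mk (nat_lit 14834) (nat_lit 0) [] (nat_lit 0) [] false,
   Spec.mk (nat_lit 14836) (nat_lit 0) [] (nat_lit 0) [] false,
   Spec.mk (nat_lit 14838) (nat_lit 0) [] (nat_lit 0) [] false,
   Spec.mk (nat_lit 14842) (nat_lit 0) [] (nat_lit 0) [] false,
   Spec.mk (nat_lit 14844) (nat_lit 0) [] (nat_lit 0) [] false,
   Spec.mk (nat_lit 14852) (nat_lit 0) [] (nat_lit 0) [] false,
   Spec.mk (nat_lit 14854) (nat_lit 0) [] (nat_lit 0) [] false,
   Spec.mk (nat_lit 14856) (nat_lit 0) [] (nat_lit 0) [] false,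
   Spec.mk (nat_lit 14860) (nat_lit 0) [] (nat_lit 0) [] false,
   Spec.mk (nat_lit 14862) (nat_lit 0) [] (nat_lit 0) [] false,
   Spec.mk (nat_lit 14868) (nat_lit 0) [] (nat_lit 0) [] false,
   Spec.mk (nat_lit 14878) (nat_lit 0) [] (nat_lit 0) [] false,
   Spec.mk (nat_lit 14880) (nat_lit 0) [] (nat_lit 0) [] false,
   Spec.mk (nat_lit 14886) (nat_lit 0) [] (nat_lit 0) [] false,
   Spec.mk (nat_lit 14906) (nat_lit 0) [] (nat_lit 0) [] false,
   Spec.mk (nat_lit 14908) (nat_lit 0) [] (nat_lit 0) [] false,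
   Spec.mk (nat_lit 14910) (nat_lit 0) [] (nat_lit 0) [] false,
   Spec.mk (nat_lit 14914) (nat_lit 0) [] (nat_lit 0) [] false,
   Spec.mk (nat_lit 14916) (nat_lit 0) [] (nat_lit 0) [] false,
   Spec.mk (nat_lit 14922) (nat_lit 0) [] (nat_lit 0) [] false,
   Spec.mk (nat_lit 14932) (nat_lit 0) [] (nat_lit 0) [] false,
   Spec.mk (nat_lit 14934) (nat_lit 0) [] (nat_lit 0) [] false,
   Spec.mk (nat_lit 14940) (nat_lit 0) [] (nat_lit 0) [] false]

noncomputable def cd41 : List Spec :=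
  [Spec.mk (nat_lit 14958) (nat_lit 0) [] (nat_lit 0) [] false,
   Spec.mk (nat_lit 14986) (nat_lit 0) [] (nat_lit 0) [] false,
   Spec.mk (nat_lit 14988) (nat_lit 0) [] (nat_lit 0) [] false,
   Spec.mk (nat_lit 14994) (nat_lit 0) [] (nat_lit 0) [] false,
   Spec.mk (nat_lit 15012) (nat_lit 0) [] (nat_lit 0) [] false,
   Spec.mk (nat_lit 15068) (nat_lit 0) [] (nat_lit 0) [] false,
   Spec.mk (nat_lit 15070) (nat_lit 0) [] (nat_lit 0) [] false,
   Spec.mk (nat_lit 15072) (nat_lit 0) [] (nat_lit 0) [] false,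
   Spec.mk (nat_lit 15076) (nat_lit 0) [] (nat_lit 0) [] false,
   Spec.mk (nat_lit 15078) (nat_lit 0) [] (nat_lit 0) [] false,
   Spec.mk (nat_lit 15084) (nat_lit 0) [] (nat_lit 0) [] false,
   Spec.mk (nat_lit 15094) (nat_lit 0) [] (nat_lit 0) [] false,
   Spec.mk (nat_lit 15096) (nat_lit 0) [] (nat_lit 0) [] false,
   Spec.mk (nat_lit 15102) (nat_lit 0) [] (nat_lit 0) [] false,
   Spec.mk (nat_lit 15120) (nat_lit 0) [] (nat_lit 0) [] false,
   Spec.mk (nat_lit 15148) (nat_lit 0) [] (nat_lit 0) [] false,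
   Spec.mk (nat_lit 15150) (nat_lit 0) [] (nat_lit 0) [] false,
   Spec.mk (nat_lit 15156) (nat_lit 0) [] (nat_lit 0) [] false,
   Spec.mk (nat_lit 15174) (nat_lit 0) [] (nat_lit 0) [] false,
   Spec.mk (nat_lit 15228) (nat_lit 0) [] (nat_lit 0) [] false,
   Spec.mk (nat_lit 15326) (nat_lit 0) [] (nat_lit 0) [] false,
   Spec.mk (nat_lit 15332) (nat_lit 0) [] (nat_lit 0) [] false,
   Spec.mk (nat_lit 15334) (nat_lit 0) [] (nat_lit 0) [] false,
   Spec.mk (nat_lit 15344) (nat_lit 0) [] (nat_lit 0) [] false,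
   Spec.mk (nat_lit 15350) (nat_lit 0) [] (nat_lit 0) [] false,
   Spec.mk (nat_lit 15352) (nat_lit 0) [] (nat_lit 0) [] false,
   Spec.mk (nat_lit 15356) (nat_lit 0) [] (nat_lit 0) [] false,
   Spec.mk (nat_lit 15358) (nat_lit 0) [] (nat_lit 0) [] false,
   Spec.mk (nat_lit 15360) (nat_lit 0) [] (nat_lit 0) [] false,
   Spec.mk (nat_lit 15368) (nat_lit 0) [] (nat_lit 0) [] false,
   Spec.mk (nat_lit 15370) (nat_lit 0) [] (nat_lit 0) [] false,
   Spec.mk (nat_lit 15374) (nat_lit 0) [] (nat_lit 0) [] false,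
   Spec.mk (nat_lit 15376) (nat_lit 0) [] (nat_lit 0) [] false,
   Spec.mk (nat_lit 15378) (nat_lit 0) [] (nat_lit 0) [] false,
   Spec.mk (nat_lit 15382) (nat_lit 0) [] (nat_lit 0) [] false,
   Spec.mk (nat_lit 15384) (nat_lit 0) [] (nat_lit 0) [] false,
   Spec.mk (nat_lit 15398) (nat_lit 0) [] (nat_lit 0) [] false,
   Spec.mk (nat_lit 15404) (nat_lit 0) [] (nat_lit 0) [] false,
   Spec.mk (nat_lit 15406) (nat_lit 0) [] (nat_lit 0) [] false,
   Spec.mk (nat_lit 15410) (nat_lit 0) [] (nat_lit 0) [] false,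
   Spec.mk (nat_lit 15412) (nat_lit 0) [] (nat_lit 0) [] false,
   Spec.mk (nat_lit 15414) (nat_lit 0) [] (nat_lit 0) [] false,
   Spec.mk (nat_lit 15422) (nat_lit 0) [] (nat_lit 0) [] false,
   Spec.mk (nat_lit 15424) (nat_lit 0) [] (nat_lit 0) [] false,
   Spec.mk (nat_lit 15428) (nat_lit 0) [] (nat_lit 0) [] false,
   Spec.mk (nat_lit 15430) (nat_lit 0) [] (nat_lit 0) [] false,
   Spec.mk (nat_lit 15432) (nat_lit 0) [] (nat_lit 0) [] false,
   Spec.mk (nat_lit 15436) (nat_lit 0) [] (nat_lit 0) [] false,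
   Spec.mk (nat_lit 15438) (nat_lit 0) [] (nat_lit 0) [] false,
   Spec.mk (nat_lit 15446) (nat_lit 0) [] (nat_lit 0) [] false,
   Spec.mk (nat_lit 15448) (nat_lit 0) [] (nat_lit 0) [] false,
   Spec.mk (nat_lit 15450) (nat_lit 0) [] (nat_lit 0) [] false,
   Spec.mk (nat_lit 15454) (nat_lit 0) [] (nat_lit 0) [] false,
   Spec.mk (nat_lit 15456) (nat_lit 0) [] (nat_lit 0) [] false,
   Spec.mk (nat_lit 15462) (nat_lit 0) [] (nat_lit 0) [] false,
   Spec.mk (nat_lit 15476) (nat_lit 0) [] (nat_lit 0) [] false,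
   Spec.mk (nat_lit 15478) (nat_lit 0) [] (nat_lit 0) [] false,
   Spec.mk (nat_lit 15482) (nat_lit 0) [] (nat_lit 0) [] false,
   Spec.mk (nat_lit 15484) (nat_lit 0) [] (nat_lit 0) [] false,
   Spec.mk (nat_lit 15486) (nat_lit 0) [] (nat_lit 0) [] false]

noncomputable def cd42 : List Spec :=
  [Spec.mk (nat_lit 15490) (nat_lit 0) [] (nat_lit 0) [] false,
   Spec.mk (nat_lit 15492) (nat_lit 0) [] (nat_lit 0) [] false,
   Spec.mk (nat_lit 15500) (nat_lit 0) [] (nat_lit 0) [] false,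
   Spec.mk (nat_lit 15502) (nat_lit 0) [] (nat_lit 0) [] false,
   Spec.mk (nat_lit 15504) (nat_lit 0) [] (nat_lit 0) [] false,
   Spec.mk (nat_lit 15508) (nat_lit 0) [] (nat_lit 0) [] false,
   Spec.mk (nat_lit 15510) (nat_lit 0) [] (nat_lit 0) [] false,
   Spec.mk (nat_lit 15516) (nat_lit 0) [] (nat_lit 0) [] false,
   Spec.mk (nat_lit 15526) (nat_lit 0) [] (nat_lit 0) [] false,
   Spec.mk (nat_lit 15528) (nat_lit 0) [] (nat_lit 0) [] false,
   Spec.mk (nat_lit 15534) (nat_lit 0) [] (nat_lit 0) [] false,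
   Spec.mk (nat_lit 15560) (nat_lit 0) [] (nat_lit 0) [] false,
   Spec.mk (nat_lit 15566) (nat_lit 0) [] (nat_lit 0) [] false,
   Spec.mk (nat_lit 15568) (nat_lit 0) [] (nat_lit 0) [] false,
   Spec.mk (nat_lit 15572) (nat_lit 0) [] (nat_lit 0) [] false,
   Spec.mk (nat_lit 15574) (nat_lit 0) [] (nat_lit 0) [] false,
   Spec.mk (nat_lit 15576) (nat_lit 0) [] (nat_lit 0) [] false,
   Spec.mk (nat_lit 15584) (nat_lit 0) [] (nat_lit 0) [] false,
   Spec.mk (nat_lit 15586) (nat_lit 0) [] (nat_lit 0) [] false,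
   Spec.mk (nat_lit 15590) (nat_lit 0) [] (nat_lit 0) [] false,
   Spec.mk (nat_lit 15592) (nat_lit 0) [] (nat_lit 0) [] false,
   Spec.mk (nat_lit 15594) (nat_lit 0) [] (nat_lit 0) [] false,
   Spec.mk (nat_lit 15598) (nat_lit 0) [] (nat_lit 0) [] false,
   Spec.mk (nat_lit 15600) (nat_lit 0) [] (nat_lit 0) [] false,
   Spec.mk (nat_lit 15608) (nat_lit 0) [] (nat_lit 0) [] false,
   Spec.mk (nat_lit 15610) (nat_lit 0) [] (nat_lit 0) [] false,
   Spec.mk (nat_lit 15612) (nat_lit 0) [] (nat_lit 0) [] false,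
   Spec.mk (nat_lit 15616) (nat_lit 0) [] (nat_lit 0) [] false,
   Spec.mk (nat_lit 15618) (nat_lit 0) [] (nat_lit 0) [] false,
   Spec.mk (nat_lit 15624) (nat_lit 0) [] (nat_lit 0) [] false,
   Spec.mk (nat_lit 15638) (nat_lit 0) [] (nat_lit 0) [] false,
   Spec.mk (nat_lit 15640) (nat_lit 0) [] (nat_lit 0) [] false,
   Spec.mk (nat_lit 15644) (nat_lit 0) [] (nat_lit 0) [] false,
   Spec.mk (nat_lit 15646) (nat_lit 0) [] (nat_lit 0) [] false,
   Spec.mk (nat_lit 15648) (nat_lit 0) [] (nat_lit 0) [] false,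
   Spec.mk (nat_lit 15652) (nat_lit 0) [] (nat_lit 0) [] false,
   Spec.mk (nat_lit 15654) (nat_lit 0) [] (nat_lit 0) [] false,
   Spec.mk (nat_lit 15662) (nat_lit 0) [] (nat_lit 0) [] false,
   Spec.mk (nat_lit 15664) (nat_lit 0) [] (nat_lit 0) [] false,
   Spec.mk (nat_lit 15666) (nat_lit 0) [] (nat_lit 0) [] false,
   Spec.mk (nat_lit 15670) (nat_lit 0) [] (nat_lit 0) [] false,
   Spec.mk (nat_lit 15672) (nat_lit 0) [] (nat_lit 0) [] false,
   Spec.mk (nat_lit 15678) (nat_lit 0) [] (nat_lit 0) [] false,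
   Spec.mk (nat_lit 15688) (nat_lit 0) [] (nat_lit 0) [] false,
   Spec.mk (nat_lit 15690) (nat_lit 0) [] (nat_lit 0) [] false,
   Spec.mk (nat_lit 15696) (nat_lit 0) [] (nat_lit 0) [] false,
   Spec.mk (nat_lit 15716) (nat_lit 0) [] (nat_lit 0) [] false,
   Spec.mk (nat_lit 15718) (nat_lit 0) [] (nat_lit 0) [] false,
   Spec.mk (nat_lit 15720) (nat_lit 0) [] (nat_lit 0) [] false,
   Spec.mk (nat_lit 15724) (nat_lit 0) [] (nat_lit 0) [] false,
   Spec.mk (nat_lit 15726) (nat_lit 0) [] (nat_lit 0) [] false,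
   Spec.mk (nat_lit 15732) (nat_lit 0) [] (nat_lit 0) [] false,
   Spec.mk (nat_lit 15742) (nat_lit 0) [] (nat_lit 0) [] false,
   Spec.mk (nat_lit 15744) (nat_lit 0) [] (nat_lit 0) [] false,
   Spec.mk (nat_lit 15750) (nat_lit 0) [] (nat_lit 0) [] false,
   Spec.mk (nat_lit 15768) (nat_lit 0) [] (nat_lit 0) [] false,
   Spec.mk (nat_lit 15800) (nat_lit 0) [] (nat_lit 0) [] false,
   Spec.mk (nat_lit 15802) (nat_lit 0) [] (nat_lit 0) [] false,
   Spec.mk (nat_lit 15806) (nat_lit 0) [] (nat_lit 0) [] false,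
   Spec.mk (nat_lit 15808) (nat_lit 0) [] (nat_lit 0) [] false]

noncomputable def cd43 : List Spec :=
  [Spec.mk (nat_lit 15810) (nat_lit 0) [] (nat_lit 0) [] false,
   Spec.mk (nat_lit 15814) (nat_lit 0) [] (nat_lit 0) [] false,
   Spec.mk (nat_lit 15816) (nat_lit 0) [] (nat_lit 0) [] false,
   Spec.mk (nat_lit 15824) (nat_lit 0) [] (nat_lit 0) [] false,
   Spec.mk (nat_lit 15826) (nat_lit 0) [] (nat_lit 0) [] false,
   Spec.mk (nat_lit 15828) (nat_lit 0) [] (nat_lit 0) [] false,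
   Spec.mk (nat_lit 15832) (nat_lit 0) [] (nat_lit 0) [] false,
   Spec.mk (nat_lit 15834) (nat_lit 0) [] (nat_lit 0) [] false,
   Spec.mk (nat_lit 15840) (nat_lit 0) [] (nat_lit 0) [] false,
   Spec.mk (nat_lit 15850) (nat_lit 0) [] (nat_lit 0) [] false,
   Spec.mk (nat_lit 15852) (nat_lit 0) [] (nat_lit 0) [] false,
   Spec.mk (nat_lit 15858) (nat_lit 0) [] (nat_lit 0) [] false,
   Spec.mk (nat_lit 15878) (nat_lit 0) [] (nat_lit 0) [] false,
   Spec.mk (nat_lit 15880) (nat_lit 0) [] (nat_lit 0) [] false,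
   Spec.mk (nat_lit 15882) (nat_lit 0) [] (nat_lit 0) [] false,
   Spec.mk (nat_lit 15886) (nat_lit 0) [] (nat_lit 0) [] false,
   Spec.mk (nat_lit 15888) (nat_lit 0) [] (nat_lit 0) [] false,
   Spec.mk (nat_lit 15894) (nat_lit 0) [] (nat_lit 0) [] false,
   Spec.mk (nat_lit 15904) (nat_lit 0) [] (nat_lit 0) [] false,
   Spec.mk (nat_lit 15906) (nat_lit 0) [] (nat_lit 0) [] false,
   Spec.mk (nat_lit 15912) (nat_lit 0) [] (nat_lit 0) [] false,
   Spec.mk (nat_lit 15930) (nat_lit 0) [] (nat_lit 0) [] false,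
   Spec.mk (nat_lit 15958) (nat_lit 0) [] (nat_lit 0) [] false,
   Spec.mk (nat_lit 15960) (nat_lit 0) [] (nat_lit 0) [] false,
   Spec.mk (nat_lit 15966) (nat_lit 0) [] (nat_lit 0) [] false,
   Spec.mk (nat_lit 15984) (nat_lit 0) [] (nat_lit 0) [] false,
   Spec.mk (nat_lit 16046) (nat_lit 0) [] (nat_lit 0) [] false,
   Spec.mk (nat_lit 16052) (nat_lit 0) [] (nat_lit 0) [] false,
   Spec.mk (nat_lit 16054) (nat_lit 0) [] (nat_lit 0) [] false,
   Spec.mk (nat_lit 16058) (nat_lit 0) [] (nat_lit 0) [] false,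
   Spec.mk (nat_lit 16060) (nat_lit 0) [] (nat_lit 0) [] false,
   Spec.mk (nat_lit 16062) (nat_lit 0) [] (nat_lit 0) [] false,
   Spec.mk (nat_lit 16070) (nat_lit 0) [] (nat_lit 0) [] false,
   Spec.mk (nat_lit 16072) (nat_lit 0) [] (nat_lit 0) [] false,
   Spec.mk (nat_lit 16076) (nat_lit 0) [] (nat_lit 0) [] false,
   Spec.mk (nat_lit 16078) (nat_lit 0) [] (nat_lit 0) [] false,
   Spec.mk (nat_lit 16080) (nat_lit 0) [] (nat_lit 0) [] false,
   Spec.mk (nat_lit 16084) (nat_lit 0) [] (nat_lit 0) [] false,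
   Spec.mk (nat_lit 16086) (nat_lit 0) [] (nat_lit 0) [] false,
   Spec.mk (nat_lit 16094) (nat_lit 0) [] (nat_lit 0) [] false,
   Spec.mk (nat_lit 16096) (nat_lit 0) [] (nat_lit 0) [] false,
   Spec.mk (nat_lit 16098) (nat_lit 0) [] (nat_lit 0) [] false,
   Spec.mk (nat_lit 16102) (nat_lit 0) [] (nat_lit 0) [] false,
   Spec.mk (nat_lit 16104) (nat_lit 0) [] (nat_lit 0) [] false,
   Spec.mk (nat_lit 16110) (nat_lit 0) [] (nat_lit 0) [] false,
   Spec.mk (nat_lit 16124) (nat_lit 0) [] (nat_lit 0) [] false,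
   Spec.mk (nat_lit 16126) (nat_lit 0) [] (nat_lit 0) [] false,
   Spec.mk (nat_lit 16130) (nat_lit 0) [] (nat_lit 0) [] false,
   Spec.mk (nat_lit 16132) (nat_lit 0) [] (nat_lit 0) [] false,
   Spec.mk (nat_lit 16134) (nat_lit 0) [] (nat_lit 0) [] false,
   Spec.mk (nat_lit 16138) (nat_lit 0) [] (nat_lit 0) [] false,
   Spec.mk (nat_lit 16140) (nat_lit 0) [] (nat_lit 0) [] false,
   Spec.mk (nat_lit 16148) (nat_lit 0) [] (nat_lit 0) [] false,
   Spec.mk (nat_lit 16150) (nat_lit 0) [] (nat_lit 0) [] false,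
   Spec.mk (nat_lit 16152) (nat_lit 0) [] (nat_lit 0) [] false,
   Spec.mk (nat_lit 16156) (nat_lit 0) [] (nat_lit 0) [] false,
   Spec.mk (nat_lit 16158) (nat_lit 0) [] (nat_lit 0) [] false,
   Spec.mk (nat_lit 16164) (nat_lit 0) [] (nat_lit 0) [] false,
   Spec.mk (nat_lit 16174) (nat_lit 0) [] (nat_lit 0) [] false,
   Spec.mk (nat_lit 16176) (nat_lit 0) [] (nat_lit 0) [] false]

noncomputable def cd44 : List Spec :=
  [Spec.mk (nat_lit 16182) (nat_lit 0) [] (nat_lit 0) [] false,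
   Spec.mk (nat_lit 16202) (nat_lit 0) [] (nat_lit 0) [] false,
   Spec.mk (nat_lit 16204) (nat_lit 0) [] (nat_lit 0) [] false,
   Spec.mk (nat_lit 16206) (nat_lit 0) [] (nat_lit 0) [] false,
   Spec.mk (nat_lit 16210) (nat_lit 0) [] (nat_lit 0) [] false,
   Spec.mk (nat_lit 16212) (nat_lit 0) [] (nat_lit 0) [] false,
   Spec.mk (nat_lit 16218) (nat_lit 0) [] (nat_lit 0) [] false,
   Spec.mk (nat_lit 16228) (nat_lit 0) [] (nat_lit 0) [] false,
   Spec.mk (nat_lit 16230) (nat_lit 0) [] (nat_lit 0) [] false,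
   Spec.mk (nat_lit 16236) (nat_lit 0) [] (nat_lit 0) [] false,
   Spec.mk (nat_lit 16254) (nat_lit 0) [] (nat_lit 0) [] false,
   Spec.mk (nat_lit 16286) (nat_lit 0) [] (nat_lit 0) [] false,
   Spec.mk (nat_lit 16288) (nat_lit 0) [] (nat_lit 0) [] false,
   Spec.mk (nat_lit 16292) (nat_lit 0) [] (nat_lit 0) [] false,
   Spec.mk (nat_lit 16294) (nat_lit 0) [] (nat_lit 0) [] false,
   Spec.mk (nat_lit 16296) (nat_lit 0) [] (nat_lit 0) [] false,
   Spec.mk (nat_lit 16300) (nat_lit 0) [] (nat_lit 0) [] false,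
   Spec.mk (nat_lit 16302) (nat_lit 0) [] (nat_lit 0) [] false,
   Spec.mk (nat_lit 16310) (nat_lit 0) [] (nat_lit 0) [] false,
   Spec.mk (nat_lit 16312) (nat_lit 0) [] (nat_lit 0) [] false,
   Spec.mk (nat_lit 16314) (nat_lit 0) [] (nat_lit 0) [] false,
   Spec.mk (nat_lit 16318) (nat_lit 0) [] (nat_lit 0) [] false,
   Spec.mk (nat_lit 16320) (nat_lit 0) [] (nat_lit 0) [] false,
   Spec.mk (nat_lit 16326) (nat_lit 0) [] (nat_lit 0) [] false,
   Spec.mk (nat_lit 16336) (nat_lit 0) [] (nat_lit 0) [] false,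
   Spec.mk (nat_lit 16338) (nat_lit 0) [] (nat_lit 0) [] false,
   Spec.mk (nat_lit 16344) (nat_lit 0) [] (nat_lit 0) [] false,
   Spec.mk (nat_lit 16364) (nat_lit 0) [] (nat_lit 0) [] false,
   Spec.mk (nat_lit 16366) (nat_lit 0) [] (nat_lit 0) [] false,
   Spec.mk (nat_lit 16368) (nat_lit 0) [] (nat_lit 0) [] false,
   Spec.mk (nat_lit 16372) (nat_lit 0) [] (nat_lit 0) [] false,
   Spec.mk (nat_lit 16374) (nat_lit 0) [] (nat_lit 0) [] false,
   Spec.mk (nat_lit 16380) (nat_lit 0) [] (nat_lit 0) [] false,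
   Spec.mk (nat_lit 16390) (nat_lit 0) [] (nat_lit 0) [] false,
   Spec.mk (nat_lit 16392) (nat_lit 0) [] (nat_lit 0) [] false,
   Spec.mk (nat_lit 16398) (nat_lit 0) [] (nat_lit 0) [] false,
   Spec.mk (nat_lit 16416) (nat_lit 0) [] (nat_lit 0) [] false,
   Spec.mk (nat_lit 16444) (nat_lit 0) [] (nat_lit 0) [] false,
   Spec.mk (nat_lit 16446) (nat_lit 0) [] (nat_lit 0) [] false,
   Spec.mk (nat_lit 16452) (nat_lit 0) [] (nat_lit 0) [] false,
   Spec.mk (nat_lit 16470) (nat_lit 0) [] (nat_lit 0) [] false,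
   Spec.mk (nat_lit 16526) (nat_lit 0) [] (nat_lit 0) [] false,
   Spec.mk (nat_lit 16528) (nat_lit 0) [] (nat_lit 0) [] false,
   Spec.mk (nat_lit 16530) (nat_lit 0) [] (nat_lit 0) [] false,
   Spec.mk (nat_lit 16534) (nat_lit 0) [] (nat_lit 0) [] false,
   Spec.mk (nat_lit 16536) (nat_lit 0) [] (nat_lit 0) [] false,
   Spec.mk (nat_lit 16542) (nat_lit 0) [] (nat_lit 0) [] false,
   Spec.mk (nat_lit 16552) (nat_lit 0) [] (nat_lit 0) [] false,
   Spec.mk (nat_lit 16554) (nat_lit 0) [] (nat_lit 0) [] false,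
   Spec.mk (nat_lit 16560) (nat_lit 0) [] (nat_lit 0) [] false,
   Spec.mk (nat_lit 16578) (nat_lit 0) [] (nat_lit 0) [] false,
   Spec.mk (nat_lit 16606) (nat_lit 0) [] (nat_lit 0) [] false,
   Spec.mk (nat_lit 16608) (nat_lit 0) [] (nat_lit 0) [] false,
   Spec.mk (nat_lit 16614) (nat_lit 0) [] (nat_lit 0) [] false,
   Spec.mk (nat_lit 16632) (nat_lit 0) [] (nat_lit 0) [] false,
   Spec.mk (nat_lit 16686) (nat_lit 0) [] (nat_lit 0) [] false,
   Spec.mk (nat_lit 16772) (nat_lit 0) [] (nat_lit 0) [] false,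
   Spec.mk (nat_lit 16774) (nat_lit 0) [] (nat_lit 0) [] false,
   Spec.mk (nat_lit 16778) (nat_lit 0) [] (nat_lit 0) [] false,
   Spec.mk (nat_lit 16780) (nat_lit 0) [] (nat_lit 0) [] false]

noncomputable def cd45 : List Spec :=
  [Spec.mk (nat_lit 16782) (nat_lit 0) [] (nat_lit 0) [] false,
   Spec.mk (nat_lit 16786) (nat_lit 0) [] (nat_lit 0) [] false,
   Spec.mk (nat_lit 16788) (nat_lit 0) [] (nat_lit 0) [] false,
   Spec.mk (nat_lit 16796) (nat_lit 0) [] (nat_lit 0) [] false,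
   Spec.mk (nat_lit 16798) (nat_lit 0) [] (nat_lit 0) [] false,
   Spec.mk (nat_lit 16800) (nat_lit 0) [] (nat_lit 0) [] false,
   Spec.mk (nat_lit 16804) (nat_lit 0) [] (nat_lit 0) [] false,
   Spec.mk (nat_lit 16806) (nat_lit 0) [] (nat_lit 0) [] false,
   Spec.mk (nat_lit 16812) (nat_lit 0) [] (nat_lit 0) [] false,
   Spec.mk (nat_lit 16822) (nat_lit 0) [] (nat_lit 0) [] false,
   Spec.mk (nat_lit 16824) (nat_lit 0) [] (nat_lit 0) [] false,
   Spec.mk (nat_lit 16830) (nat_lit 0) [] (nat_lit 0) [] false,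
   Spec.mk (nat_lit 16850) (nat_lit 0) [] (nat_lit 0) [] false,
   Spec.mk (nat_lit 16852) (nat_lit 0) [] (nat_lit 0) [] false,
   Spec.mk (nat_lit 16854) (nat_lit 0) [] (nat_lit 0) [] false,
   Spec.mk (nat_lit 16858) (nat_lit 0) [] (nat_lit 0) [] false,
   Spec.mk (nat_lit 16860) (nat_lit 0) [] (nat_lit 0) [] false,
   Spec.mk (nat_lit 16866) (nat_lit 0) [] (nat_lit 0) [] false,
   Spec.mk (nat_lit 16876) (nat_lit 0) [] (nat_lit 0) [] false,
   Spec.mk (nat_lit 16878) (nat_lit 0) [] (nat_lit 0) [] false,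
   Spec.mk (nat_lit 16884) (nat_lit 0) [] (nat_lit 0) [] false,
   Spec.mk (nat_lit 16902) (nat_lit 0) [] (nat_lit 0) [] false,
   Spec.mk (nat_lit 16930) (nat_lit 0) [] (nat_lit 0) [] false,
   Spec.mk (nat_lit 16932) (nat_lit 0) [] (nat_lit 0) [] false,
   Spec.mk (nat_lit 16938) (nat_lit 0) [] (nat_lit 0) [] false,
   Spec.mk (nat_lit 16956) (nat_lit 0) [] (nat_lit 0) [] false,
   Spec.mk (nat_lit 17012) (nat_lit 0) [] (nat_lit 0) [] false,
   Spec.mk (nat_lit 17014) (nat_lit 0) [] (nat_lit 0) [] false,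
   Spec.mk (nat_lit 17016) (nat_lit 0) [] (nat_lit 0) [] false,
   Spec.mk (nat_lit 17020) (nat_lit 0) [] (nat_lit 0) [] false,
   Spec.mk (nat_lit 17022) (nat_lit 0) [] (nat_lit 0) [] false,
   Spec.mk (nat_lit 17028) (nat_lit 0) [] (nat_lit 0) [] false,
   Spec.mk (nat_lit 17038) (nat_lit 0) [] (nat_lit 0) [] false,
   Spec.mk (nat_lit 17040) (nat_lit 0) [] (nat_lit 0) [] false,
   Spec.mk (nat_lit 17046) (nat_lit 0) [] (nat_lit 0) [] false,
   Spec.mk (nat_lit 17064) (nat_lit 0) [] (nat_lit 0) [] false,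
   Spec.mk (nat_lit 17092) (nat_lit 0) [] (nat_lit 0) [] false,
   Spec.mk (nat_lit 17094) (nat_lit 0) [] (nat_lit 0) [] false,
   Spec.mk (nat_lit 17100) (nat_lit 0) [] (nat_lit 0) [] false,
   Spec.mk (nat_lit 17118) (nat_lit 0) [] (nat_lit 0) [] false,
   Spec.mk (nat_lit 17172) (nat_lit 0) [] (nat_lit 0) [] false,
   Spec.mk (nat_lit 17254) (nat_lit 0) [] (nat_lit 0) [] false,
   Spec.mk (nat_lit 17256) (nat_lit 0) [] (nat_lit 0) [] false,
   Spec.mk (nat_lit 17262) (nat_lit 0) [] (nat_lit 0) [] false,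
   Spec.mk (nat_lit 17280) (nat_lit 0) [] (nat_lit 0) [] false,
   Spec.mk (nat_lit 17334) (nat_lit 0) [] (nat_lit 0) [] false,
   Spec.mk (nat_lit 17504) (nat_lit 0) [] (nat_lit 0) [] false,
   Spec.mk (nat_lit 17510) (nat_lit 0) [] (nat_lit 0) [] false,
   Spec.mk (nat_lit 17512) (nat_lit 0) [] (nat_lit 0) [] false,
   Spec.mk (nat_lit 17516) (nat_lit 0) [] (nat_lit 0) [] false,
   Spec.mk (nat_lit 17518) (nat_lit 0) [] (nat_lit 0) [] false,
   Spec.mk (nat_lit 17520) (nat_lit 0) [] (nat_lit 0) [] false,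
   Spec.mk (nat_lit 17528) (nat_lit 0) [] (nat_lit 0) [] false,
   Spec.mk (nat_lit 17530) (nat_lit 0) [] (nat_lit 0) [] false,
   Spec.mk (nat_lit 17534) (nat_lit 0) [] (nat_lit 0) [] false,
   Spec.mk (nat_lit 17536) (nat_lit 0) [] (nat_lit 0) [] false,
   Spec.mk (nat_lit 17538) (nat_lit 0) [] (nat_lit 0) [] false,
   Spec.mk (nat_lit 17542) (nat_lit 0) [] (nat_lit 0) [] false,
   Spec.mk (nat_lit 17544) (nat_lit 0) [] (nat_lit 0) [] false,
   Spec.mk (nat_lit 17552) (nat_lit 0) [] (nat_lit 0) [] false]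

noncomputable def cd46 : List Spec :=
  [Spec.mk (nat_lit 17554) (nat_lit 0) [] (nat_lit 0) [] false,
   Spec.mk (nat_lit 17556) (nat_lit 0) [] (nat_lit 0) [] false,
   Spec.mk (nat_lit 17560) (nat_lit 0) [] (nat_lit 0) [] false,
   Spec.mk (nat_lit 17562) (nat_lit 0) [] (nat_lit 0) [] false,
   Spec.mk (nat_lit 17568) (nat_lit 0) [] (nat_lit 0) [] false,
   Spec.mk (nat_lit 17582) (nat_lit 0) [] (nat_lit 0) [] false,
   Spec.mk (nat_lit 17584) (nat_lit 0) [] (nat_lit 0) [] false,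
   Spec.mk (nat_lit 17588) (nat_lit 0) [] (nat_lit 0) [] false,
   Spec.mk (nat_lit 17590) (nat_lit 0) [] (nat_lit 0) [] false,
   Spec.mk (nat_lit 17592) (nat_lit 0) [] (nat_lit 0) [] false,
   Spec.mk (nat_lit 17596) (nat_lit 0) [] (nat_lit 0) [] false,
   Spec.mk (nat_lit 17598) (nat_lit 0) [] (nat_lit 0) [] false,
   Spec.mk (nat_lit 17606) (nat_lit 0) [] (nat_lit 0) [] false,
   Spec.mk (nat_lit 17608) (nat_lit 0) [] (nat_lit 0) [] false,
   Spec.mk (nat_lit 17610) (nat_lit 0) [] (nat_lit 0) [] false,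
   Spec.mk (nat_lit 17614) (nat_lit 0) [] (nat_lit 0) [] false,
   Spec.mk (nat_lit 17616) (nat_lit 0) [] (nat_lit 0) [] false,
   Spec.mk (nat_lit 17622) (nat_lit 0) [] (nat_lit 0) [] false,
   Spec.mk (nat_lit 17632) (nat_lit 0) [] (nat_lit 0) [] false,
   Spec.mk (nat_lit 17634) (nat_lit 0) [] (nat_lit 0) [] false,
   Spec.mk (nat_lit 17640) (nat_lit 0) [] (nat_lit 0) [] false,
   Spec.mk (nat_lit 17660) (nat_lit 0) [] (nat_lit 0) [] false,
   Spec.mk (nat_lit 17662) (nat_lit 0) [] (nat_lit 0) [] false,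
   Spec.mk (nat_lit 17664) (nat_lit 0) [] (nat_lit 0) [] false,
   Spec.mk (nat_lit 17668) (nat_lit 0) [] (nat_lit 0) [] false,
   Spec.mk (nat_lit 17670) (nat_lit 0) [] (nat_lit 0) [] false,
   Spec.mk (nat_lit 17676) (nat_lit 0) [] (nat_lit 0) [] false,
   Spec.mk (nat_lit 17686) (nat_lit 0) [] (nat_lit 0) [] false,
   Spec.mk (nat_lit 17688) (nat_lit 0) [] (nat_lit 0) [] false,
   Spec.mk (nat_lit 17694) (nat_lit 0) [] (nat_lit 0) [] false,
   Spec.mk (nat_lit 17712) (nat_lit 0) [] (nat_lit 0) [] false,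
   Spec.mk (nat_lit 17744) (nat_lit 0) [] (nat_lit 0) [] false,
   Spec.mk (nat_lit 17746) (nat_lit 0) [] (nat_lit 0) [] false,
   Spec.mk (nat_lit 17750) (nat_lit 0) [] (nat_lit 0) [] false,
   Spec.mk (nat_lit 17752) (nat_lit 0) [] (nat_lit 0) [] false,
   Spec.mk (nat_lit 17754) (nat_lit 0) [] (nat_lit 0) [] false,
   Spec.mk (nat_lit 17758) (nat_lit 0) [] (nat_lit 0) [] false,
   Spec.mk (nat_lit 17760) (nat_lit 0) [] (nat_lit 0) [] false,
   Spec.mk (nat_lit 17768) (nat_lit 0) [] (nat_lit 0) [] false,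
   Spec.mk (nat_lit 17770) (nat_lit 0) [] (nat_lit 0) [] false,
   Spec.mk (nat_lit 17772) (nat_lit 0) [] (nat_lit 0) [] false,
   Spec.mk (nat_lit 17776) (nat_lit 0) [] (nat_lit 0) [] false,
   Spec.mk (nat_lit 17778) (nat_lit 0) [] (nat_lit 0) [] false,
   Spec.mk (nat_lit 17784) (nat_lit 0) [] (nat_lit 0) [] false,
   Spec.mk (nat_lit 17794) (nat_lit 0) [] (nat_lit 0) [] false,
   Spec.mk (nat_lit 17796) (nat_lit 0) [] (nat_lit 0) [] false,
   Spec.mk (nat_lit 17802) (nat_lit 0) [] (nat_lit 0) [] false,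
   Spec.mk (nat_lit 17822) (nat_lit 0) [] (nat_lit 0) [] false,
   Spec.mk (nat_lit 17824) (nat_lit 0) [] (nat_lit 0) [] false,
   Spec.mk (nat_lit 17826) (nat_lit 0) [] (nat_lit 0) [] false,
   Spec.mk (nat_lit 17830) (nat_lit 0) [] (nat_lit 0) [] false,
   Spec.mk (nat_lit 17832) (nat_lit 0) [] (nat_lit 0) [] false,
   Spec.mk (nat_lit 17838) (nat_lit 0) [] (nat_lit 0) [] false,
   Spec.mk (nat_lit 17848) (nat_lit 0) [] (nat_lit 0) [] false,
   Spec.mk (nat_lit 17850) (nat_lit 0) [] (nat_lit 0) [] false,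
   Spec.mk (nat_lit 17856) (nat_lit 0) [] (nat_lit 0) [] false,
   Spec.mk (nat_lit 17874) (nat_lit 0) [] (nat_lit 0) [] false,
   Spec.mk (nat_lit 17902) (nat_lit 0) [] (nat_lit 0) [] false,
   Spec.mk (nat_lit 17904) (nat_lit 0) [] (nat_lit 0) [] false,
   Spec.mk (nat_lit 17910) (nat_lit 0) [] (nat_lit 0) [] false]

noncomputable def cd47 : List Spec :=
  [Spec.mk (nat_lit 17928) (nat_lit 0) [] (nat_lit 0) [] false,
   Spec.mk (nat_lit 17984) (nat_lit 0) [] (nat_lit 0) [] false,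
   Spec.mk (nat_lit 17986) (nat_lit 0) [] (nat_lit 0) [] false,
   Spec.mk (nat_lit 17988) (nat_lit 0) [] (nat_lit 0) [] false,
   Spec.mk (nat_lit 17992) (nat_lit 0) [] (nat_lit 0) [] false,
   Spec.mk (nat_lit 17994) (nat_lit 0) [] (nat_lit 0) [] false,
   Spec.mk (nat_lit 18000) (nat_lit 0) [] (nat_lit 0) [] false,
   Spec.mk (nat_lit 18010) (nat_lit 0) [] (nat_lit 0) [] false,
   Spec.mk (nat_lit 18012) (nat_lit 0) [] (nat_lit 0) [] false,
   Spec.mk (nat_lit 18018) (nat_lit 0) [] (nat_lit 0) [] false,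
   Spec.mk (nat_lit 18036) (nat_lit 0) [] (nat_lit 0) [] false,
   Spec.mk (nat_lit 18064) (nat_lit 0) [] (nat_lit 0) [] false,
   Spec.mk (nat_lit 18066) (nat_lit 0) [] (nat_lit 0) [] false,
   Spec.mk (nat_lit 18072) (nat_lit 0) [] (nat_lit 0) [] false,
   Spec.mk (nat_lit 18090) (nat_lit 0) [] (nat_lit 0) [] false,
   Spec.mk (nat_lit 18144) (nat_lit 0) [] (nat_lit 0) [] false,
   Spec.mk (nat_lit 18230) (nat_lit 0) [] (nat_lit 0) [] false,
   Spec.mk (nat_lit 18232) (nat_lit 0) [] (nat_lit 0) [] false,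
   Spec.mk (nat_lit 18236) (nat_lit 0) [] (nat_lit 0) [] false,
   Spec.mk (nat_lit 18238) (nat_lit 0) [] (nat_lit 0) [] false,
   Spec.mk (nat_lit 18240) (nat_lit 0) [] (nat_lit 0) [] false,
   Spec.mk (nat_lit 18244) (nat_lit 0) [] (nat_lit 0) [] false,
   Spec.mk (nat_lit 18246) (nat_lit 0) [] (nat_lit 0) [] false,
   Spec.mk (nat_lit 18254) (nat_lit 0) [] (nat_lit 0) [] false,
   Spec.mk (nat_lit 18256) (nat_lit 0) [] (nat_lit 0) [] false,
   Spec.mk (nat_lit 18258) (nat_lit 0) [] (nat_lit 0) [] false,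
   Spec.mk (nat_lit 18262) (nat_lit 0) [] (nat_lit 0) [] false,
   Spec.mk (nat_lit 18264) (nat_lit 0) [] (nat_lit 0) [] false,
   Spec.mk (nat_lit 18270) (nat_lit 0) [] (nat_lit 0) [] false,
   Spec.mk (nat_lit 18280) (nat_lit 0) [] (nat_lit 0) [] false,
   Spec.mk (nat_lit 18282) (nat_lit 0) [] (nat_lit 0) [] false,
   Spec.mk (nat_lit 18288) (nat_lit 0) [] (nat_lit 0) [] false,
   Spec.mk (nat_lit 18308) (nat_lit 0) [] (nat_lit 0) [] false,
   Spec.mk (nat_lit 18310) (nat_lit 0) [] (nat_lit 0) [] false,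
   Spec.mk (nat_lit 18312) (nat_lit 0) [] (nat_lit 0) [] false,
   Spec.mk (nat_lit 18316) (nat_lit 0) [] (nat_lit 0) [] false,
   Spec.mk (nat_lit 18318) (nat_lit 0) [] (nat_lit 0) [] false,
   Spec.mk (nat_lit 18324) (nat_lit 0) [] (nat_lit 0) [] false,
   Spec.mk (nat_lit 18334) (nat_lit 0) [] (nat_lit 0) [] false,
   Spec.mk (nat_lit 18336) (nat_lit 0) [] (nat_lit 0) [] false,
   Spec.mk (nat_lit 18342) (nat_lit 0) [] (nat_lit 0) [] false,
   Spec.mk (nat_lit 18360) (nat_lit 0) [] (nat_lit 0) [] false,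
   Spec.mk (nat_lit 18388) (nat_lit 0) [] (nat_lit 0) [] false,
   Spec.mk (nat_lit 18390) (nat_lit 0) [] (nat_lit 0) [] false,
   Spec.mk (nat_lit 18396) (nat_lit 0) [] (nat_lit 0) [] false,
   Spec.mk (nat_lit 18414) (nat_lit 0) [] (nat_lit 0) [] false,
   Spec.mk (nat_lit 18470) (nat_lit 0) [] (nat_lit 0) [] false,
   Spec.mk (nat_lit 18472) (nat_lit 0) [] (nat_lit 0) [] false,
   Spec.mk (nat_lit 18474) (nat_lit 0) [] (nat_lit 0) [] false,
   Spec.mk (nat_lit 18478) (nat_lit 0) [] (nat_lit 0) [] false,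
   Spec.mk (nat_lit 18480) (nat_lit 0) [] (nat_lit 0) [] false,
   Spec.mk (nat_lit 18486) (nat_lit 0) [] (nat_lit 0) [] false,
   Spec.mk (nat_lit 18496) (nat_lit 0) [] (nat_lit 0) [] false,
   Spec.mk (nat_lit 18498) (nat_lit 0) [] (nat_lit 0) [] false,
   Spec.mk (nat_lit 18504) (nat_lit 0) [] (nat_lit 0) [] false,
   Spec.mk (nat_lit 18522) (nat_lit 0) [] (nat_lit 0) [] false,
   Spec.mk (nat_lit 18550) (nat_lit 0) [] (nat_lit 0) [] false,
   Spec.mk (nat_lit 18552) (nat_lit 0) [] (nat_lit 0) [] false,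
   Spec.mk (nat_lit 18558) (nat_lit 0) [] (nat_lit 0) [] false,
   Spec.mk (nat_lit 18576) (nat_lit 0) [] (nat_lit 0) [] false]

noncomputable def cd48 : List Spec :=
  [Spec.mk (nat_lit 18630) (nat_lit 0) [] (nat_lit 0) [] false,
   Spec.mk (nat_lit 18712) (nat_lit 0) [] (nat_lit 0) [] false,
   Spec.mk (nat_lit 18714) (nat_lit 0) [] (nat_lit 0) [] false,
   Spec.mk (nat_lit 18720) (nat_lit 0) [] (nat_lit 0) [] false,
   Spec.mk (nat_lit 18738) (nat_lit 0) [] (nat_lit 0) [] false,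
   Spec.mk (nat_lit 18792) (nat_lit 0) [] (nat_lit 0) [] false,
   Spec.mk (nat_lit 18956) (nat_lit 0) [] (nat_lit 0) [] false,
   Spec.mk (nat_lit 18958) (nat_lit 0) [] (nat_lit 0) [] false,
   Spec.mk (nat_lit 18960) (nat_lit 0) [] (nat_lit 0) [] false,
   Spec.mk (nat_lit 18964) (nat_lit 0) [] (nat_lit 0) [] false,
   Spec.mk (nat_lit 18966) (nat_lit 0) [] (nat_lit 0) [] false,
   Spec.mk (nat_lit 18972) (nat_lit 0) [] (nat_lit 0) [] false,
   Spec.mk (nat_lit 18982) (nat_lit 0) [] (nat_lit 0) [] false,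
   Spec.mk (nat_lit 18984) (nat_lit 0) [] (nat_lit 0) [] false,
   Spec.mk (nat_lit 18990) (nat_lit 0) [] (nat_lit 0) [] false,
   Spec.mk (nat_lit 19008) (nat_lit 0) [] (nat_lit 0) [] false,
   Spec.mk (nat_lit 19036) (nat_lit 0) [] (nat_lit 0) [] false,
   Spec.mk (nat_lit 19038) (nat_lit 0) [] (nat_lit 0) [] false,
   Spec.mk (nat_lit 19044) (nat_lit 0) [] (nat_lit 0) [] false,
   Spec.mk (nat_lit 19062) (nat_lit 0) [] (nat_lit 0) [] false,
   Spec.mk (nat_lit 19116) (nat_lit 0) [] (nat_lit 0) [] false,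
   Spec.mk (nat_lit 19198) (nat_lit 0) [] (nat_lit 0) [] false,
   Spec.mk (nat_lit 19200) (nat_lit 0) [] (nat_lit 0) [] false,
   Spec.mk (nat_lit 19206) (nat_lit 0) [] (nat_lit 0) [] false,
   Spec.mk (nat_lit 19224) (nat_lit 0) [] (nat_lit 0) [] false,
   Spec.mk (nat_lit 19278) (nat_lit 0) [] (nat_lit 0) [] false,
   Spec.mk (nat_lit 19440) (nat_lit 0) [] (nat_lit 0) [] false]

noncomputable def cds : List (List Spec) :=
    cd0 :: cd1 :: cd2 :: cd3 :: cd4 :: cd5 :: cd6 :: cd7 :: cd8 :: cd9 :: cd10 :: cd11 :: cd12 ::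
    cd13 :: cd14 :: cd15 :: cd16 :: cd17 :: cd18 :: cd19 :: cd20 :: cd21 :: cd22 :: cd23 :: cd24 ::
    cd25 :: cd26 :: cd27 :: cd28 :: cd29 :: cd30 :: cd31 :: cd32 :: cd33 :: cd34 :: cd35 :: cd36 ::
    cd37 :: cd38 :: cd39 :: cd40 :: cd41 :: cd42 :: cd43 :: cd44 :: cd45 :: cd46 :: cd47 :: cd48 ::
    []

noncomputable def ap (x : Nat → Nat) (k :
    Nat → Nat → Nat → Nat → Nat → Nat → Nat → Nat → Nat → Nat → Nat → Nat → Nat → Nat → Nat → Nat →
    Nat → Nat → Nat → Nat → Nat → Nat → Nat → Nat → Nat → Nat → Nat → Nat → Nat → Nat → Nat → Nat →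
    Nat → Nat → Nat → Nat → Nat → Nat → Nat → Nat → Nat → Nat → Nat → Nat → Nat → Nat → Nat → Nat →
    Nat → Nat → Nat → Nat → Nat → Nat → Nat → Nat → Nat → Nat → Nat → Nat → Nat → Nat → Nat → Nat →
    Nat → Nat → Nat → Nat → Nat → Nat → Nat → Nat → Nat → Nat → Nat → Nat → Nat → Nat → Nat → Nat →
    Nat → Nat → Nat → Nat → Nat → Nat → Nat → Nat → Nat → Nat → Nat → Nat → Nat → Nat → Nat → Nat →
    Nat → Nat → Nat → Nat → Nat → Nat → Nat → Nat → Nat → Nat → Nat → Nat → Nat → Nat → Nat → Nat →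
    Nat → Nat → Nat → Nat → Nat → Nat → Nat → Nat → Nat → Nat → Nat → Nat → Nat → Nat → Nat → Nat →
    Nat → Nat → Nat → Nat → Nat → Nat → Nat → Nat → Nat → Nat → Nat → Nat → Nat → Nat → Nat → Nat →
    Nat → Nat → Nat → Nat → Nat → Nat → Nat → Nat → Nat → Nat → Nat → Nat → Nat → Nat → Nat → Nat →
    Nat → Nat → Nat → Nat → Nat → Nat → Nat → Nat → Nat → Nat → Nat → Nat → Nat → Nat → Nat → Nat →
    Nat → Nat → Nat → Nat → Nat → Nat → Nat → Nat → Nat → Nat → Nat → Nat → Nat → Nat → Nat → Nat →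
    Nat → Nat → Nat → Nat → Nat → Nat → Nat → Nat → Nat → Nat → Nat → Nat → Nat → Nat → Nat → Nat →
    Nat → Nat → Nat → Nat → Nat → Nat → Nat → Nat → Nat → Nat → Nat → Nat → Nat → Nat → Nat → Nat →
    Nat → Nat → Nat → Nat → Nat → Nat → Nat → Nat → Nat → Nat → Nat → Nat → Nat → Nat → Nat → Nat →
    Nat → Nat → Nat → Nat → Nat → Nat → Nat → Nat → Nat → Nat → Nat → Nat → Nat → Nat → Nat → Nat →
    Nat → Nat → Nat → Nat → Nat → Nat → Nat → Nat → Nat → Nat → Nat → Nat → Nat → Nat → Nat → Nat →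
    Nat → Nat → Nat → Nat → Nat → Nat → Nat → Nat → Nat → Nat → Nat → Nat → Nat → Nat → Nat → Nat →
    Nat → Nat → Nat → Nat → Nat → Nat → Nat → Nat → Nat → Nat → Nat → Nat → Nat → Nat → Nat → Nat →
    Nat → Nat → Nat → Nat → Nat → Nat → Nat → Nat → Nat → Nat → Nat → Nat → Nat → Nat → Nat → Nat →
    Nat → Nat → Nat → Nat → Nat → Nat → Nat → Nat → Nat → Nat → Nat → Nat → Nat → Nat → Nat → Nat →
    Nat → Nat → Nat → Nat → Nat → Nat → Nat → Nat → Nat → Nat → Nat → Nat → Nat → Nat → Nat → Nat →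
    Nat → Nat → Nat → Nat → Nat → Nat → Nat → Nat → Nat → Nat → Nat → Nat → Nat → Nat → Nat → Nat →
    Nat → Nat → Nat → Nat → Nat → Nat → Nat → Nat → Nat → Nat → Nat → Nat → Nat → Nat → Nat → Nat →
    Nat → Nat → Nat → Nat → Nat → Nat → Nat → Nat → Nat → Nat → Nat → Nat → Nat → Nat → Nat → Nat →
    Nat → Nat → Nat → Nat → Nat → Nat → Nat → Nat → Nat → Nat → Nat → Nat → Nat → Nat → Nat → Nat →
    Nat → Nat → Nat → Nat → Nat → Nat → Nat → Nat → Nat → Nat → Nat → Nat → Nat → Nat → Nat → Nat →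
    Nat → Nat → Nat → Nat → Nat → Nat → Nat → Nat → Nat → Nat → Nat → Nat → Nat → Nat → Nat → Nat →
    Nat → Nat → Nat → Nat → Nat → Nat → Nat → Nat → Nat → Nat → Nat → Nat → Nat → Nat → Nat → Nat →
    Nat → Nat → Nat → Nat → Nat → Nat → Nat → Nat → Nat → Nat → Nat → Nat → Nat → Nat → Nat → Nat →
    Nat → Nat → Nat → Nat → Nat → Nat → Nat → Nat → Nat → Nat → Nat → Nat → Nat → Nat → Nat → Nat →
    Nat → Nat → Nat → Nat → Nat → Nat → Nat → Nat → Nat → Nat → Nat → Nat → Nat → Nat → Nat → Nat →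
    Nat → Nat → Nat → Nat → Nat → Nat → Nat → Nat → Nat → Nat → Nat → Nat → Nat → Nat → Nat → Nat →
    Nat → Nat → Nat → Nat → Nat → Nat → Nat → Nat → Nat → Nat → Nat → Nat → Nat → Nat → Nat → Nat →
    Nat → Nat → Nat → Nat → Nat → Nat → Nat → Nat → Nat → Nat → Nat → Nat → Nat → Nat → Nat → Nat →
    Nat → Nat → Nat → Nat → Nat → Nat → Nat → Nat → Nat → Nat → Nat → Nat → Nat → Nat → Nat → Nat →
    Nat → Nat → Nat → Nat → Nat → Nat → Nat → Nat → Nat → Nat → Nat → Nat → Nat → Nat → Nat → Nat →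
    Nat → Nat → Nat → Nat → Nat → Nat → Nat → Nat → Nat → Nat → Nat → Nat → Nat → Nat → Nat → Nat →
    Nat → Nat → Nat → Nat → Nat → Nat → Nat → Nat → Nat → Nat → Nat → Nat → Nat → Nat → Nat → Nat →
    Nat → Nat → Nat → Nat → Nat → Nat → Nat → Nat → Nat → Nat → Nat → Nat → Nat → Nat → Nat → Nat →
    Nat → Nat → Nat → Nat → Nat → Nat → Nat → Nat → Nat → Nat → Nat → Nat → Nat → Nat → Nat → Nat →
    Nat → Nat → Nat → Nat → Nat → Nat → Nat → Nat → Nat → Nat → Nat → Nat → Nat → Nat → Nat → Nat →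
    Nat → Nat → Nat → Nat → Nat → Nat → Nat → Nat → Nat → Nat → Nat → Nat → Nat → Nat → Nat → Nat →
    Nat → Nat → Nat → Nat → Nat → Nat → Nat → Nat → Nat → Nat → Nat → Nat → Nat → Nat → Nat → Nat →
    Nat → Nat → Nat → Nat → Nat → Nat → Nat → Nat → Nat → Nat → Nat → Nat → Nat → Nat → Nat → Nat →
    Nat → Nat → Nat → Nat → Nat → Nat → Nat → Nat → Nat → Nat → Nat → Nat → Nat → Nat → Nat → Nat →
    Nat → Nat → Nat → Nat → Nat → Nat → Nat → Nat → Nat → Nat → Nat → Nat → Nat → Nat → Nat → Nat →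
    Nat → Nat → Nat → Nat → Nat → Nat → Nat → Nat → Nat → Nat → Nat → Nat → Nat → Nat → Nat → Nat →
    Nat → Nat → Nat → Nat → Nat → Nat → Nat → Nat → Nat → Nat → Nat → Nat → Nat → Nat → Nat → Nat →
    Nat → Nat → Nat → Nat → Nat → Nat → Nat → Nat → Nat → Nat → Nat → Nat → Nat → Nat → Nat → Nat →
    Nat → Nat → Nat → Nat → Nat → Nat → Nat → Nat → Nat → Nat → Nat → Nat → Nat → Nat → Nat → Nat →
    Nat → Nat → Nat → Nat → Nat → Nat → Nat → Nat → Nat → Nat → Nat → Nat → Nat → Nat → Nat → Nat →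
    Nat → Nat → Nat → Nat → Nat → Nat → Nat → Nat → Nat → Nat → Nat → Nat → Nat → Nat → Nat → Nat →
    Nat → Nat → Nat → Nat → Nat → Nat → Nat → Nat → Nat → Nat → Nat → Nat → Nat → Nat → Nat → Nat →
    Nat → Nat → Nat → Nat → Nat → Nat → Nat → Nat → Nat → Nat → Nat → Nat → Nat → Nat → Nat → Nat →
    Nat → Nat → Nat → Nat → Nat → Nat → Nat → Nat → Nat → Nat → Nat → Nat → Nat → Nat → Nat → Nat →
    Nat → Nat → Nat → Nat → Nat → Nat → Nat → Nat → Nat → Nat → Nat → Nat → Nat → Nat → Nat → Nat →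
    Nat → Nat → Nat → Nat → Nat → Nat → Nat → Nat → Nat → Nat → Nat → Nat → Nat → Nat → Nat → Nat →
    Nat → Nat → Nat → Nat → Nat → Nat → Nat → Nat → Nat → Nat → Nat → Nat → Nat → Nat → Nat → Nat →
    Nat → Nat → Nat → Nat → Nat → Nat → Nat → Nat → Nat → Nat → Nat → Nat → Nat → Nat → Nat → Nat →
    Nat → Nat → Nat → Nat → Nat → Nat → Nat → Nat → Nat → Nat → Nat → Nat → Nat → Nat → Nat → Nat →
    Nat → Nat → Nat → Nat → Nat → Nat → Nat → Nat → Nat → Nat → Nat → Nat → Nat → Nat → Nat → Nat →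
    Nat → Nat → Nat → Nat → Nat → Nat → Nat → Nat → Nat → Nat → Nat → Nat → Nat → Nat → Nat → Nat →
    Nat → Nat → Nat → Nat → Nat → Nat → Nat → Nat → Nat → Nat → Nat → Nat → Nat → Nat → Nat → Nat →
    Nat → Nat → Nat → Nat → Nat → Nat → Nat → Nat → Nat → Nat → Nat → Nat → Nat → Nat → Nat → Nat →
    Nat → Nat → Nat → Nat → Nat → Nat → Nat → Nat → Nat → Nat → Nat → Nat → Nat → Nat → Nat → Nat →
    Nat → Nat → Nat → Nat → Nat → Nat → Nat → Nat → Nat → Nat → Nat → Nat → Nat → Nat → Nat → Nat →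
    Nat → Nat → Nat → Nat → Nat → Nat → Nat → Nat → Nat → Nat → Nat → Nat → Nat → Nat → Nat → Nat →
    Nat → Nat → Nat → Nat → Nat → Nat → Nat → Nat → Nat → Nat → Nat → Nat → Nat → Nat → Nat → Nat →
    Nat → Nat → Nat → Nat → Nat → Nat → Nat → Nat → Nat → Nat → Nat → Nat → Nat → Nat → Nat → Nat →
    Nat → Nat → Nat → Nat → Nat → Nat → Nat → Nat → Nat → Nat → Nat → Nat → Nat → Nat → Nat → Nat →
    Nat → Nat → Nat → Nat → Nat → Nat → Nat → Nat → Nat → Nat → Nat → Nat → Nat → Nat → Nat → Nat →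
    Nat → Nat → Nat → Nat → Nat → Nat → Nat → Nat → Nat → Nat → Nat → Nat → Nat → Nat → Nat → Nat →
    Nat → Nat → Nat → Nat → Nat → Nat → Nat → Nat → Nat → Nat → Nat → Nat → Nat → Nat → Nat → Nat →
    Nat → Nat → Nat → Nat → Nat → Nat → Nat → Nat → Nat → Nat → Nat → Nat → Nat → Nat → Nat → Nat →
    Nat → Nat → Nat → Nat → Nat → Nat → Nat → Nat → Nat → Nat → Nat → Nat → Nat → Nat → Nat → Nat →
    Nat → Nat → Nat → Nat → Nat → Nat → Nat → Nat → Nat → Nat → Nat → Nat → Nat → Nat → Nat → Nat →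
    Nat → Nat → Nat → Nat → Nat → Nat → Nat → Nat → Nat → Nat → Nat → Nat → Nat → Nat → Nat → Nat →
    Nat → Nat → Nat → Nat → Nat → Nat → Nat → Nat → Nat → Nat → Nat → Nat → Nat → Nat → Nat → Nat →
    Nat → Nat → Nat → Nat → Nat → Nat → Nat → Nat → Nat → Nat → Nat → Nat → Nat → Nat → Nat → Nat →
    Nat → Nat → Nat → Nat → Nat → Nat → Nat → Nat → Nat → Nat → Nat → Nat → Nat → Nat → Nat → Nat →
    Nat → Nat → Nat → Nat → Nat → Nat → Nat → Nat → Nat → Nat → Nat → Nat → Nat → Nat → Nat → Nat →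
    Nat → Nat → Nat → Nat → Nat → Nat → Nat → Nat → Nat → Nat → Nat → Nat → Nat → Nat → Nat → Nat →
    Nat → Nat → Nat → Nat → Nat → Nat → Nat → Nat → Nat → Nat → Nat → Nat → Nat → Nat → Nat → Nat →
    Nat → Nat → Nat → Nat → Nat → Nat → Nat → Nat → Nat → Nat → Nat → Nat → Nat → Nat → Nat → Nat →
    Nat → Nat → Nat → Nat → Nat → Nat → Nat → Nat → Nat → Nat → Nat → Nat → Nat → Nat → Nat → Nat →
    Nat → Nat → Nat → Nat → Nat → Nat → Nat → Nat → Nat → Nat → Nat → Nat → Nat → Nat → Nat → Nat →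
    Nat → Nat → Nat → Nat → Nat → Nat → Nat → Nat → Nat → Nat → Nat → Nat → Nat → Nat → Nat → Nat →
    Nat → Nat → Nat → Nat → Nat → Nat → Nat → Nat → Nat → Nat → Nat → Nat → Nat → Nat → Nat → Nat →
    Nat → Nat → Nat → Nat → Nat → Nat → Nat → Nat → Nat → Nat → Nat → Nat → Nat → Nat → Nat → Nat →
    Nat → Nat → Nat → Nat → Nat → Nat → Nat → Nat → Nat → Nat → Nat → Nat → Nat → Nat → Nat → Nat →
    Nat → Nat → Nat → Nat → Nat → Nat → Nat → Nat → Nat → Nat → Nat → Nat → Nat → Nat → Nat → Nat →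
    Nat → Nat → Nat → Nat → Nat → Nat → Nat → Nat → Nat → Nat → Nat → Nat → Nat → Nat → Nat → Nat →
    Nat → Nat → Nat → Nat → Nat → Nat → Nat → Nat → Nat → Nat → Nat → Nat → Nat → Nat → Nat → Nat →
    Nat → Nat → Nat → Nat → Nat → Nat → Nat → Nat → Nat → Nat → Nat → Nat → Nat → Nat → Nat → Nat →
    Nat → Nat → Nat → Nat → Nat → Nat → Nat → Nat → Nat → Nat → Nat → Nat → Nat → Nat → Nat → Nat →
    Nat → Nat → Nat → Nat → Nat → Nat → Nat → Nat → Nat → Nat → Nat → Nat → Nat → Nat → Nat → Nat →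
    Nat → Nat → Nat → Nat → Nat → Nat → Nat → Nat → Nat → Nat → Nat → Nat → Nat → Nat → Nat → Nat →
    Nat → Nat → Nat → Nat → Nat → Nat → Nat → Nat → Nat → Nat → Nat → Nat → Nat → Nat → Nat → Nat →
    Nat → Nat → Nat → Nat → Nat → Nat → Nat → Nat → Nat → Nat → Nat → Nat → Nat → Nat → Nat → Nat →
    Nat → Nat → Nat → Nat → Nat → Nat → Nat → Nat → Nat → Nat → Nat → Nat → Nat → Nat → Nat → Nat →
    Nat → Nat → Nat → Nat → Nat → Nat → Nat → Nat → Nat → Nat → Nat → Nat → Nat → Nat → Nat → Nat →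
    Nat → Nat → Nat → Nat → Nat → Nat → Nat → Nat → Nat → Nat → Nat → Nat → Nat → Nat → Nat → Nat →
    Nat → Nat → Nat → Nat → Nat → Nat → Nat → Nat → Nat → Nat → Nat → Nat → Nat → Nat → Nat → Nat →
    Nat → Nat → Nat → Nat → Nat → Nat → Nat → Nat → Nat → Nat → Nat → Nat → Nat → Nat → Nat → Nat →
    Nat → Nat → Nat → Nat → Nat → Nat → Nat → Nat → Nat → Nat → Nat → Nat → Nat → Nat → Nat → Nat →
    Nat → Nat → Nat → Nat → Nat → Nat → Nat → Nat → Nat → Nat → Nat → Nat → Nat → Nat → Nat → Nat →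
    Nat → Nat → Nat → Nat → Nat → Nat → Nat → Nat → Nat → Nat → Nat → Nat → Nat → Nat → Nat → Nat →
    Nat → Nat → Nat → Nat → Nat → Nat → Nat → Nat → Nat → Nat → Nat → Nat → Nat → Nat → Nat → Nat →
    Nat → Nat → Nat → Nat → Nat → Nat → Nat → Nat → Nat → Nat → Nat → Nat → Nat → Nat → Nat → Nat →
    Nat → Nat → Nat → Nat → Nat → Nat → Nat → Nat → Nat → Nat → Nat → Nat → Nat → Nat → Nat → Nat →
    Nat → Nat → Nat → Nat → Nat → Nat → Nat → Nat → Nat → Nat → Nat → Nat → Nat → Nat → Nat → Nat →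
    Nat → Nat → Nat → Nat → Nat → Nat → Nat → Nat → Nat → Nat → Nat → Nat → Nat → Nat → Nat → Nat →
    Nat → Nat → Nat → Nat → Nat → Nat → Nat → Nat → Nat → Nat → Nat → Nat → Nat → Nat → Nat → Nat →
    Nat → Nat → Nat → Nat → Nat → Nat → Nat → Nat → Nat → Nat → Nat → Nat → Nat → Nat → Nat → Nat →
    Nat → Nat → Nat → Nat → Nat → Nat → Nat → Nat → Nat → Nat → Nat → Nat → Nat → Nat → Nat → Nat →
    Nat → Nat → Nat → Nat → Nat → Nat → Nat → Nat → Nat → Nat → Nat → Nat → Nat → Nat → Nat → Nat →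
    Nat → Nat → Nat → Nat → Nat → Nat → Nat → Nat → Nat → Nat → Nat → Nat → Nat → Nat → Nat → Nat →
    Nat → Nat → Nat → Nat → Nat → Nat → Nat → Nat → Nat → Nat → Nat → Nat → Nat → Nat → Nat → Nat →
    Nat → Nat → Nat → Nat → Nat → Nat → Nat → Nat → Nat → Nat → Nat → Nat → Nat → Nat → Nat → Nat →
    Nat → Nat → Nat → Nat → Nat → Nat → Nat → Nat → Nat → Nat → Nat → Nat → Nat → Nat → Nat → Nat →
    Nat → Nat → Nat → Nat → Nat → Nat → Nat → Nat → Nat → Nat → Nat → Nat → Nat → Nat → Nat → Nat →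
    Nat → Nat → Nat → Nat → Nat → Nat → Nat → Nat → Nat → Nat → Nat → Nat → Nat → Nat → Nat → Nat →
    Nat → Nat → Nat → Nat → Nat → Nat → Nat → Nat → Nat → Nat → Nat → Nat → Nat → Nat → Nat → Nat →
    Nat → Nat → Nat → Nat → Nat → Nat → Nat → Nat → Nat → Nat → Nat → Nat → Nat → Nat → Nat → Nat →
    Nat → Nat → Nat → Nat → Nat → Nat → Nat → Nat → Nat → Nat → Nat → Nat → Nat → Nat → Nat → Nat →
    Nat → Nat → Nat → Nat → Nat → Nat → Nat → Nat → Nat → Nat → Nat → Nat → Nat → Nat → Nat → Nat →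
    Nat → Nat → Nat → Nat → Nat → Nat → Nat → Nat → Nat → Nat → Nat → Nat → Nat → Nat → Nat → Nat →
    Nat → Nat → Nat → Nat → Nat → Nat → Nat → Nat → Nat → Nat → Nat → Nat → Nat → Nat → Nat → Nat →
    Nat → Nat → Nat → Nat → Nat → Nat → Nat → Nat → Nat → Nat → Nat → Nat → Nat → Nat → Nat → Nat →
    Nat → Nat → Nat → Nat → Nat → Nat → Nat → Nat → Nat → Nat → Nat → Nat → Nat → Nat → Nat → Nat →
    Nat → Nat → Nat → Nat → Nat → Nat → Nat → Nat → Nat → Nat → Nat → Nat → Nat → Nat → Nat → Nat →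
    Nat → Nat → Nat → Nat → Nat → Nat → Nat → Nat → Nat → Nat → Nat → Nat → Nat → Nat → Nat → Nat →
    Nat → Nat → Nat → Nat → Nat → Nat → Nat → Nat → Nat → Nat → Nat → Nat → Nat → Nat → Nat → Nat →
    Nat → Nat → Nat → Nat → Nat → Nat → Nat → Nat → Nat → Nat → Nat → Nat → Nat → Nat → Nat → Nat →
    Nat → Nat → Nat → Nat → Nat → Nat → Nat → Nat → Nat → Nat → Nat → Nat → Nat → Nat → Nat → Nat →
    Nat → Nat → Nat → Nat → Nat → Nat → Nat → Nat → Nat → Nat → Nat → Nat → Nat → Nat → Nat → Nat →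
    Nat → Nat → Nat → Nat → Nat → Nat → Nat → Nat → Nat → Nat → Nat → Nat → Nat → Nat → Nat → Nat →
    Nat → Nat → Nat → Nat → Nat → Nat → Nat → Nat → Nat → Nat → Nat → Nat → Nat → Nat → Nat → Nat →
    Nat → Nat → Nat → Nat → Nat → Nat → Nat → Nat → Nat → Nat → Nat → Nat → Nat → Nat → Nat → Nat →
    Nat → Nat → Nat → Nat → Nat → Nat → Nat → Nat → Nat → Nat → Nat → Nat → Nat → Nat → Nat → Nat →
    Nat → Nat → Nat → Nat → Nat → Nat → Nat → Nat → Nat → Nat → Nat → Nat → Nat → Nat → Nat → Nat →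
    Nat → Nat → Nat → Nat → Nat → Nat → Nat → Nat → Nat → Nat → Nat → Nat → Nat → Nat → Nat → Nat →
    Nat → Nat → Nat → Nat → Nat → Nat → Nat → Nat → Nat → Nat → Nat → Nat → Nat → Nat → Nat → Nat →
    Nat → Nat → Nat → Nat → Nat → Nat → Nat → Nat → Nat → Nat → Nat → Nat → Nat → Nat → Nat → Nat →
    Nat → Nat → Nat → Nat → Nat → Nat → Nat → Nat → Nat → Nat → Nat → Nat → Nat → Nat → Nat → Nat →
    Nat → Nat → Nat → Nat → Nat → Nat → Nat → Nat → Nat → Nat → Nat → Nat → Nat → Nat → Nat → Nat →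
    Nat → Nat → Nat → Nat → Nat → Nat → Nat → Nat → Nat → Nat → Nat → Nat → Nat → Nat → Nat → Nat →
    Nat → Nat → Nat → Nat → Nat → Nat → Nat → Nat → Nat → Nat → Nat → Nat → Nat → Nat → Nat → Nat →
    Nat → Nat → Nat → Nat → Nat → Nat → Nat → Nat → Nat → Nat → Nat → Nat → Nat → Nat → Nat → Nat →
    Nat → Nat → Nat → Nat → Nat → Nat → Nat → Nat → Nat → Nat → Nat → Nat → Nat → Nat → Nat → Nat →
    Nat → Nat → Nat → Nat → Nat → Nat → Nat → Nat → Nat → Nat → Nat → Nat → Nat → Nat → Nat → Nat →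
    Nat → Nat → Nat → Nat → Nat → Nat → Nat → Nat → Nat → Nat → Nat → Nat → Nat → Nat → Nat → Nat →
    Nat → Nat → Nat → Nat → Nat → Nat → Nat → Nat → Nat → Nat → Nat → Nat → Nat → Nat → Nat → Nat →
    Nat → Nat → Nat → Nat → Nat → Nat → Nat → Nat → Nat → Nat → Nat → Nat → Nat → Nat → Nat → Nat →
    Nat → Nat → Nat → Nat → Nat → Nat → Nat → Nat → Nat → Nat → Nat → Nat → Nat → Nat → Nat → Nat →
    Nat → Nat → Nat → Nat → Nat → Nat → Nat → Nat → Nat → Nat → Nat → Nat → Nat → Nat → Nat → Nat →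
    Nat → Nat → Nat → Nat → Nat → Nat → Nat → Nat → Nat → Nat → Nat → Nat → Nat → Nat → Nat → Nat →
    Nat → Nat → Nat → Nat → Nat → Nat → Nat → Nat → Nat → Nat → Nat → Nat → Nat → Nat → Nat → Nat →
    Nat → Nat → Nat → Nat → Nat → Nat → Nat → Nat → Nat → Nat → Nat → Nat → Nat → Nat → Nat → Nat →
    Nat → Nat → Nat → Nat → Nat → Nat → Nat → Nat → Nat → Nat → Nat → Nat → Nat → Nat → Nat → Nat →
    Nat → Nat → Nat → Nat → Nat → Nat → Nat → Nat → Nat → Nat → Nat → Nat → Nat → Nat → Nat → Nat →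
    Nat → Nat → Nat → Nat → Nat → Nat → Nat → Nat → Nat → Nat → Nat → Nat → Nat → Nat → Nat → Nat →
    Nat → Nat → Nat → Nat → Nat → Nat → Nat → Nat → Nat → Nat → Nat → Nat → Nat → Nat → Nat → Nat →
    Nat → Nat → Nat → Nat → Nat → Nat → Nat → Nat → Nat → Nat → Nat → Nat → Nat → Nat → Nat → Nat →
    Nat → Nat → Nat → Nat → Nat → Nat → Nat → Nat → Nat → Nat → Nat → Nat → Nat → Nat → Nat → Nat →
    Nat → Nat → Nat → Nat → Nat → Nat → Nat → Nat → Nat → Nat → Nat → Nat → Nat → Nat → Nat → Nat →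
    Nat → Nat → Nat → Nat → Nat → Nat → Nat → Nat → Nat → Nat → Nat → Nat → Nat → Nat → Nat → Nat →
    Nat → Nat → Nat → Nat → Nat → Nat → Nat → Nat → Nat → Nat → Nat → Nat → Nat → Nat → Nat → Nat →
    Nat → Nat → Nat → Nat → Nat → Nat → Nat → Nat → Nat → Nat → Nat → Nat → Nat → Nat → Nat → Nat →
    Nat → Nat → Nat → Nat → Nat → Nat → Nat → Nat → Nat → Nat → Nat → Nat → Nat → Nat → Nat → Nat →
    Nat → Nat → Nat → Nat → Nat → Nat → Nat → Nat → Nat → Nat → Nat → Nat → Nat → Nat → Nat → Nat →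
    Nat → Nat → Nat → Nat → Nat → Nat → Nat → Nat → Nat → Nat → Nat → Nat → Nat → Nat → Nat → Nat →
    Nat → Nat → Nat → Nat → Nat → Nat → Nat → Nat → Nat → Nat → Nat → Nat → Nat → Nat → Nat → Nat →
    Nat → Nat → Nat → Nat → Nat → Nat → Nat → Nat → Nat → Nat → Nat → Nat → Nat → Nat → Nat → Nat →
    Nat → Nat → Nat → Nat → Nat → Nat → Nat → Nat → Nat → Nat → Nat → Nat → Nat → Nat → Nat → Nat →
    Nat → Nat → Nat → Nat → Nat → Nat → Nat → Nat → Nat → Nat → Nat → Nat → Nat → Nat → Nat → Nat →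
    Nat → Nat → Nat → Nat → Nat → Nat → Nat → Nat → Nat → Nat → Nat → Nat → Nat → Nat → Nat → Nat →
    Nat → Nat → Nat → Nat → Nat → Nat → Nat → Nat → Nat → Nat → Nat → Nat → Nat → Nat → Nat → Nat →
    Nat → Nat → Nat → Nat → Nat → Nat → Nat → Nat → Nat → Nat → Nat → Nat → Nat → Nat → Nat → Nat →
    Nat → Nat → Nat → Nat → Nat → Nat → Nat → Nat → Nat → Nat → Nat → Nat → Nat → Nat → Nat → Nat →
    Nat → Nat → Nat → Nat → Nat → Nat → Nat → Nat → Nat → Nat → Nat → Bool) : Bool :=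
  k
    (x (nat_lit 80)) (x (nat_lit 134)) (x (nat_lit 152)) (x (nat_lit 158)) (x (nat_lit 160))
    (x (nat_lit 188)) (x (nat_lit 206)) (x (nat_lit 212)) (x (nat_lit 214)) (x (nat_lit 224))
    (x (nat_lit 230)) (x (nat_lit 232)) (x (nat_lit 236)) (x (nat_lit 238)) (x (nat_lit 240))
    (x (nat_lit 296)) (x (nat_lit 314)) (x (nat_lit 320)) (x (nat_lit 322)) (x (nat_lit 350))
    (x (nat_lit 368)) (x (nat_lit 374)) (x (nat_lit 376)) (x (nat_lit 386)) (x (nat_lit 392))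
    (x (nat_lit 394)) (x (nat_lit 398)) (x (nat_lit 400)) (x (nat_lit 402)) (x (nat_lit 422))
    (x (nat_lit 428)) (x (nat_lit 430)) (x (nat_lit 440)) (x (nat_lit 446)) (x (nat_lit 448))
    (x (nat_lit 452)) (x (nat_lit 454)) (x (nat_lit 456)) (x (nat_lit 464)) (x (nat_lit 466))
    (x (nat_lit 470)) (x (nat_lit 472)) (x (nat_lit 474)) (x (nat_lit 478)) (x (nat_lit 480))
    (x (nat_lit 512)) (x (nat_lit 530)) (x (nat_lit 536)) (x (nat_lit 538)) (x (nat_lit 548))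
    (x (nat_lit 554)) (x (nat_lit 556)) (x (nat_lit 560)) (x (nat_lit 562)) (x (nat_lit 564))
    (x (nat_lit 584)) (x (nat_lit 590)) (x (nat_lit 592)) (x (nat_lit 602)) (x (nat_lit 608))
    (x (nat_lit 610)) (x (nat_lit 614)) (x (nat_lit 616)) (x (nat_lit 618)) (x (nat_lit 626))
    (x (nat_lit 628)) (x (nat_lit 632)) (x (nat_lit 634)) (x (nat_lit 636)) (x (nat_lit 640))
    (x (nat_lit 642)) (x (nat_lit 656)) (x (nat_lit 662)) (x (nat_lit 664)) (x (nat_lit 668))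
    (x (nat_lit 670)) (x (nat_lit 672)) (x (nat_lit 680)) (x (nat_lit 682)) (x (nat_lit 686))
    (x (nat_lit 688)) (x (nat_lit 690)) (x (nat_lit 694)) (x (nat_lit 696)) (x (nat_lit 704))
    (x (nat_lit 706)) (x (nat_lit 708)) (x (nat_lit 712)) (x (nat_lit 714)) (x (nat_lit 720))
    (x (nat_lit 782)) (x (nat_lit 800)) (x (nat_lit 806)) (x (nat_lit 808)) (x (nat_lit 836))
    (x (nat_lit 854)) (x (nat_lit 860)) (x (nat_lit 862)) (x (nat_lit 872)) (x (nat_lit 878))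
    (x (nat_lit 880)) (x (nat_lit 884)) (x (nat_lit 886)) (x (nat_lit 888)) (x (nat_lit 908))
    (x (nat_lit 914)) (x (nat_lit 916)) (x (nat_lit 926)) (x (nat_lit 932)) (x (nat_lit 934))
    (x (nat_lit 938)) (x (nat_lit 940)) (x (nat_lit 942)) (x (nat_lit 950)) (x (nat_lit 952))
    (x (nat_lit 956)) (x (nat_lit 958)) (x (nat_lit 960)) (x (nat_lit 964)) (x (nat_lit 966))
    (x (nat_lit 998)) (x (nat_lit 1016)) (x (nat_lit 1022)) (x (nat_lit 1024)) (x (nat_lit 1034))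
    (x (nat_lit 1040)) (x (nat_lit 1042)) (x (nat_lit 1046)) (x (nat_lit 1048)) (x (nat_lit 1050))
    (x (nat_lit 1070)) (x (nat_lit 1076)) (x (nat_lit 1078)) (x (nat_lit 1088)) (x (nat_lit 1094))
    (x (nat_lit 1096)) (x (nat_lit 1100)) (x (nat_lit 1102)) (x (nat_lit 1104)) (x (nat_lit 1112))
    (x (nat_lit 1114)) (x (nat_lit 1118)) (x (nat_lit 1120)) (x (nat_lit 1122)) (x (nat_lit 1126))
    (x (nat_lit 1128)) (x (nat_lit 1142)) (x (nat_lit 1148)) (x (nat_lit 1150)) (x (nat_lit 1154))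
    (x (nat_lit 1156)) (x (nat_lit 1158)) (x (nat_lit 1166)) (x (nat_lit 1168)) (x (nat_lit 1172))
    (x (nat_lit 1174)) (x (nat_lit 1176)) (x (nat_lit 1180)) (x (nat_lit 1182)) (x (nat_lit 1190))
    (x (nat_lit 1192)) (x (nat_lit 1194)) (x (nat_lit 1198)) (x (nat_lit 1200)) (x (nat_lit 1206))
    (x (nat_lit 1232)) (x (nat_lit 1238)) (x (nat_lit 1240)) (x (nat_lit 1250)) (x (nat_lit 1256))
    (x (nat_lit 1258)) (x (nat_lit 1262)) (x (nat_lit 1264)) (x (nat_lit 1266)) (x (nat_lit 1274))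
    (x (nat_lit 1276)) (x (nat_lit 1280)) (x (nat_lit 1282)) (x (nat_lit 1284)) (x (nat_lit 1288))
    (x (nat_lit 1290)) (x (nat_lit 1304)) (x (nat_lit 1310)) (x (nat_lit 1312)) (x (nat_lit 1316))
    (x (nat_lit 1318)) (x (nat_lit 1320)) (x (nat_lit 1328)) (x (nat_lit 1330)) (x (nat_lit 1334))
    (x (nat_lit 1336)) (x (nat_lit 1338)) (x (nat_lit 1342)) (x (nat_lit 1344)) (x (nat_lit 1352))
    (x (nat_lit 1354)) (x (nat_lit 1356)) (x (nat_lit 1360)) (x (nat_lit 1362)) (x (nat_lit 1368))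
    (x (nat_lit 1382)) (x (nat_lit 1384)) (x (nat_lit 1388)) (x (nat_lit 1390)) (x (nat_lit 1392))
    (x (nat_lit 1396)) (x (nat_lit 1398)) (x (nat_lit 1406)) (x (nat_lit 1408)) (x (nat_lit 1410))
    (x (nat_lit 1414)) (x (nat_lit 1416)) (x (nat_lit 1422)) (x (nat_lit 1432)) (x (nat_lit 1434))
    (x (nat_lit 1440)) (x (nat_lit 1484)) (x (nat_lit 1502)) (x (nat_lit 1508)) (x (nat_lit 1510))
    (x (nat_lit 1520)) (x (nat_lit 1526)) (x (nat_lit 1528)) (x (nat_lit 1532)) (x (nat_lit 1534))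
    (x (nat_lit 1536)) (x (nat_lit 1556)) (x (nat_lit 1562)) (x (nat_lit 1564)) (x (nat_lit 1574))
    (x (nat_lit 1580)) (x (nat_lit 1582)) (x (nat_lit 1586)) (x (nat_lit 1588)) (x (nat_lit 1590))
    (x (nat_lit 1598)) (x (nat_lit 1600)) (x (nat_lit 1604)) (x (nat_lit 1606)) (x (nat_lit 1608))
    (x (nat_lit 1612)) (x (nat_lit 1614)) (x (nat_lit 1628)) (x (nat_lit 1634)) (x (nat_lit 1636))
    (x (nat_lit 1640)) (x (nat_lit 1642)) (x (nat_lit 1644)) (x (nat_lit 1652)) (x (nat_lit 1654))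
    (x (nat_lit 1658)) (x (nat_lit 1660)) (x (nat_lit 1662)) (x (nat_lit 1666)) (x (nat_lit 1668))
    (x (nat_lit 1676)) (x (nat_lit 1678)) (x (nat_lit 1680)) (x (nat_lit 1684)) (x (nat_lit 1686))
    (x (nat_lit 1692)) (x (nat_lit 1718)) (x (nat_lit 1724)) (x (nat_lit 1726)) (x (nat_lit 1736))
    (x (nat_lit 1742)) (x (nat_lit 1744)) (x (nat_lit 1748)) (x (nat_lit 1750)) (x (nat_lit 1752))
    (x (nat_lit 1760)) (x (nat_lit 1762)) (x (nat_lit 1766)) (x (nat_lit 1768)) (x (nat_lit 1770))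
    (x (nat_lit 1774)) (x (nat_lit 1776)) (x (nat_lit 1790)) (x (nat_lit 1796)) (x (nat_lit 1798))
    (x (nat_lit 1802)) (x (nat_lit 1804)) (x (nat_lit 1806)) (x (nat_lit 1814)) (x (nat_lit 1816))
    (x (nat_lit 1820)) (x (nat_lit 1822)) (x (nat_lit 1824)) (x (nat_lit 1828)) (x (nat_lit 1830))
    (x (nat_lit 1838)) (x (nat_lit 1840)) (x (nat_lit 1842)) (x (nat_lit 1846)) (x (nat_lit 1848))
    (x (nat_lit 1854)) (x (nat_lit 1868)) (x (nat_lit 1870)) (x (nat_lit 1874)) (x (nat_lit 1876))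
    (x (nat_lit 1878)) (x (nat_lit 1882)) (x (nat_lit 1884)) (x (nat_lit 1892)) (x (nat_lit 1894))
    (x (nat_lit 1896)) (x (nat_lit 1900)) (x (nat_lit 1902)) (x (nat_lit 1908)) (x (nat_lit 1918))
    (x (nat_lit 1920)) (x (nat_lit 1926)) (x (nat_lit 1952)) (x (nat_lit 1958)) (x (nat_lit 1960))
    (x (nat_lit 1964)) (x (nat_lit 1966)) (x (nat_lit 1968)) (x (nat_lit 1976)) (x (nat_lit 1978))
    (x (nat_lit 1982)) (x (nat_lit 1984)) (x (nat_lit 1986)) (x (nat_lit 1990)) (x (nat_lit 1992))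
    (x (nat_lit 2000)) (x (nat_lit 2002)) (x (nat_lit 2004)) (x (nat_lit 2008)) (x (nat_lit 2010))
    (x (nat_lit 2016)) (x (nat_lit 2030)) (x (nat_lit 2032)) (x (nat_lit 2036)) (x (nat_lit 2038))
    (x (nat_lit 2040)) (x (nat_lit 2044)) (x (nat_lit 2046)) (x (nat_lit 2054)) (x (nat_lit 2056))
    (x (nat_lit 2058)) (x (nat_lit 2062)) (x (nat_lit 2064)) (x (nat_lit 2070)) (x (nat_lit 2080))
    (x (nat_lit 2082)) (x (nat_lit 2088)) (x (nat_lit 2108)) (x (nat_lit 2110)) (x (nat_lit 2112))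
    (x (nat_lit 2116)) (x (nat_lit 2118)) (x (nat_lit 2124)) (x (nat_lit 2134)) (x (nat_lit 2136))
    (x (nat_lit 2142)) (x (nat_lit 2160)) (x (nat_lit 2240)) (x (nat_lit 2258)) (x (nat_lit 2264))
    (x (nat_lit 2266)) (x (nat_lit 2294)) (x (nat_lit 2312)) (x (nat_lit 2318)) (x (nat_lit 2320))
    (x (nat_lit 2330)) (x (nat_lit 2336)) (x (nat_lit 2338)) (x (nat_lit 2342)) (x (nat_lit 2344))
    (x (nat_lit 2346)) (x (nat_lit 2366)) (x (nat_lit 2372)) (x (nat_lit 2374)) (x (nat_lit 2384))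
    (x (nat_lit 2390)) (x (nat_lit 2392)) (x (nat_lit 2396)) (x (nat_lit 2398)) (x (nat_lit 2400))
    (x (nat_lit 2408)) (x (nat_lit 2410)) (x (nat_lit 2414)) (x (nat_lit 2416)) (x (nat_lit 2418))
    (x (nat_lit 2422)) (x (nat_lit 2424)) (x (nat_lit 2456)) (x (nat_lit 2474)) (x (nat_lit 2480))
    (x (nat_lit 2482)) (x (nat_lit 2492)) (x (nat_lit 2498)) (x (nat_lit 2500)) (x (nat_lit 2504))
    (x (nat_lit 2506)) (x (nat_lit 2508)) (x (nat_lit 2528)) (x (nat_lit 2534)) (x (nat_lit 2536))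
    (x (nat_lit 2546)) (x (nat_lit 2552)) (x (nat_lit 2554)) (x (nat_lit 2558)) (x (nat_lit 2560))
    (x (nat_lit 2562)) (x (nat_lit 2570)) (x (nat_lit 2572)) (x (nat_lit 2576)) (x (nat_lit 2578))
    (x (nat_lit 2580)) (x (nat_lit 2584)) (x (nat_lit 2586)) (x (nat_lit 2600)) (x (nat_lit 2606))
    (x (nat_lit 2608)) (x (nat_lit 2612)) (x (nat_lit 2614)) (x (nat_lit 2616)) (x (nat_lit 2624))
    (x (nat_lit 2626)) (x (nat_lit 2630)) (x (nat_lit 2632)) (x (nat_lit 2634)) (x (nat_lit 2638))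
    (x (nat_lit 2640)) (x (nat_lit 2648)) (x (nat_lit 2650)) (x (nat_lit 2652)) (x (nat_lit 2656))
    (x (nat_lit 2658)) (x (nat_lit 2664)) (x (nat_lit 2690)) (x (nat_lit 2696)) (x (nat_lit 2698))
    (x (nat_lit 2708)) (x (nat_lit 2714)) (x (nat_lit 2716)) (x (nat_lit 2720)) (x (nat_lit 2722))
    (x (nat_lit 2724)) (x (nat_lit 2732)) (x (nat_lit 2734)) (x (nat_lit 2738)) (x (nat_lit 2740))
    (x (nat_lit 2742)) (x (nat_lit 2746)) (x (nat_lit 2748)) (x (nat_lit 2762)) (x (nat_lit 2768))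
    (x (nat_lit 2770)) (x (nat_lit 2774)) (x (nat_lit 2776)) (x (nat_lit 2778)) (x (nat_lit 2786))
    (x (nat_lit 2788)) (x (nat_lit 2792)) (x (nat_lit 2794)) (x (nat_lit 2796)) (x (nat_lit 2800))
    (x (nat_lit 2802)) (x (nat_lit 2810)) (x (nat_lit 2812)) (x (nat_lit 2814)) (x (nat_lit 2818))
    (x (nat_lit 2820)) (x (nat_lit 2826)) (x (nat_lit 2840)) (x (nat_lit 2842)) (x (nat_lit 2846))
    (x (nat_lit 2848)) (x (nat_lit 2850)) (x (nat_lit 2854)) (x (nat_lit 2856)) (x (nat_lit 2864))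
    (x (nat_lit 2866)) (x (nat_lit 2868)) (x (nat_lit 2872)) (x (nat_lit 2874)) (x (nat_lit 2880))
    (x (nat_lit 2890)) (x (nat_lit 2892)) (x (nat_lit 2898)) (x (nat_lit 2942)) (x (nat_lit 2960))
    (x (nat_lit 2966)) (x (nat_lit 2968)) (x (nat_lit 2978)) (x (nat_lit 2984)) (x (nat_lit 2986))
    (x (nat_lit 2990)) (x (nat_lit 2992)) (x (nat_lit 2994)) (x (nat_lit 3014)) (x (nat_lit 3020))
    (x (nat_lit 3022)) (x (nat_lit 3032)) (x (nat_lit 3038)) (x (nat_lit 3040)) (x (nat_lit 3044))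
    (x (nat_lit 3046)) (x (nat_lit 3048)) (x (nat_lit 3056)) (x (nat_lit 3058)) (x (nat_lit 3062))
    (x (nat_lit 3064)) (x (nat_lit 3066)) (x (nat_lit 3070)) (x (nat_lit 3072)) (x (nat_lit 3086))
    (x (nat_lit 3092)) (x (nat_lit 3094)) (x (nat_lit 3098)) (x (nat_lit 3100)) (x (nat_lit 3102))
    (x (nat_lit 3110)) (x (nat_lit 3112)) (x (nat_lit 3116)) (x (nat_lit 3118)) (x (nat_lit 3120))
    (x (nat_lit 3124)) (x (nat_lit 3126)) (x (nat_lit 3134)) (x (nat_lit 3136)) (x (nat_lit 3138))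
    (x (nat_lit 3142)) (x (nat_lit 3144)) (x (nat_lit 3150)) (x (nat_lit 3176)) (x (nat_lit 3182))
    (x (nat_lit 3184)) (x (nat_lit 3194)) (x (nat_lit 3200)) (x (nat_lit 3202)) (x (nat_lit 3206))
    (x (nat_lit 3208)) (x (nat_lit 3210)) (x (nat_lit 3218)) (x (nat_lit 3220)) (x (nat_lit 3224))
    (x (nat_lit 3226)) (x (nat_lit 3228)) (x (nat_lit 3232)) (x (nat_lit 3234)) (x (nat_lit 3248))
    (x (nat_lit 3254)) (x (nat_lit 3256)) (x (nat_lit 3260)) (x (nat_lit 3262)) (x (nat_lit 3264))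
    (x (nat_lit 3272)) (x (nat_lit 3274)) (x (nat_lit 3278)) (x (nat_lit 3280)) (x (nat_lit 3282))
    (x (nat_lit 3286)) (x (nat_lit 3288)) (x (nat_lit 3296)) (x (nat_lit 3298)) (x (nat_lit 3300))
    (x (nat_lit 3304)) (x (nat_lit 3306)) (x (nat_lit 3312)) (x (nat_lit 3326)) (x (nat_lit 3328))
    (x (nat_lit 3332)) (x (nat_lit 3334)) (x (nat_lit 3336)) (x (nat_lit 3340)) (x (nat_lit 3342))
    (x (nat_lit 3350)) (x (nat_lit 3352)) (x (nat_lit 3354)) (x (nat_lit 3358)) (x (nat_lit 3360))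
    (x (nat_lit 3366)) (x (nat_lit 3376)) (x (nat_lit 3378)) (x (nat_lit 3384)) (x (nat_lit 3410))
    (x (nat_lit 3416)) (x (nat_lit 3418)) (x (nat_lit 3422)) (x (nat_lit 3424)) (x (nat_lit 3426))
    (x (nat_lit 3434)) (x (nat_lit 3436)) (x (nat_lit 3440)) (x (nat_lit 3442)) (x (nat_lit 3444))
    (x (nat_lit 3448)) (x (nat_lit 3450)) (x (nat_lit 3458)) (x (nat_lit 3460)) (x (nat_lit 3462))
    (x (nat_lit 3466)) (x (nat_lit 3468)) (x (nat_lit 3474)) (x (nat_lit 3488)) (x (nat_lit 3490))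
    (x (nat_lit 3494)) (x (nat_lit 3496)) (x (nat_lit 3498)) (x (nat_lit 3502)) (x (nat_lit 3504))
    (x (nat_lit 3512)) (x (nat_lit 3514)) (x (nat_lit 3516)) (x (nat_lit 3520)) (x (nat_lit 3522))
    (x (nat_lit 3528)) (x (nat_lit 3538)) (x (nat_lit 3540)) (x (nat_lit 3546)) (x (nat_lit 3566))
    (x (nat_lit 3568)) (x (nat_lit 3570)) (x (nat_lit 3574)) (x (nat_lit 3576)) (x (nat_lit 3582))
    (x (nat_lit 3592)) (x (nat_lit 3594)) (x (nat_lit 3600)) (x (nat_lit 3618)) (x (nat_lit 3662))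
    (x (nat_lit 3668)) (x (nat_lit 3670)) (x (nat_lit 3680)) (x (nat_lit 3686)) (x (nat_lit 3688))
    (x (nat_lit 3692)) (x (nat_lit 3694)) (x (nat_lit 3696)) (x (nat_lit 3704)) (x (nat_lit 3706))
    (x (nat_lit 3710)) (x (nat_lit 3712)) (x (nat_lit 3714)) (x (nat_lit 3718)) (x (nat_lit 3720))
    (x (nat_lit 3734)) (x (nat_lit 3740)) (x (nat_lit 3742)) (x (nat_lit 3746)) (x (nat_lit 3748))
    (x (nat_lit 3750)) (x (nat_lit 3758)) (x (nat_lit 3760)) (x (nat_lit 3764)) (x (nat_lit 3766))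
    (x (nat_lit 3768)) (x (nat_lit 3772)) (x (nat_lit 3774)) (x (nat_lit 3782)) (x (nat_lit 3784))
    (x (nat_lit 3786)) (x (nat_lit 3790)) (x (nat_lit 3792)) (x (nat_lit 3798)) (x (nat_lit 3812))
    (x (nat_lit 3814)) (x (nat_lit 3818)) (x (nat_lit 3820)) (x (nat_lit 3822)) (x (nat_lit 3826))
    (x (nat_lit 3828)) (x (nat_lit 3836)) (x (nat_lit 3838)) (x (nat_lit 3840)) (x (nat_lit 3844))
    (x (nat_lit 3846)) (x (nat_lit 3852)) (x (nat_lit 3862)) (x (nat_lit 3864)) (x (nat_lit 3870))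
    (x (nat_lit 3896)) (x (nat_lit 3902)) (x (nat_lit 3904)) (x (nat_lit 3908)) (x (nat_lit 3910))
    (x (nat_lit 3912)) (x (nat_lit 3920)) (x (nat_lit 3922)) (x (nat_lit 3926)) (x (nat_lit 3928))
    (x (nat_lit 3930)) (x (nat_lit 3934)) (x (nat_lit 3936)) (x (nat_lit 3944)) (x (nat_lit 3946))
    (x (nat_lit 3948)) (x (nat_lit 3952)) (x (nat_lit 3954)) (x (nat_lit 3960)) (x (nat_lit 3974))
    (x (nat_lit 3976)) (x (nat_lit 3980)) (x (nat_lit 3982)) (x (nat_lit 3984)) (x (nat_lit 3988))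
    (x (nat_lit 3990)) (x (nat_lit 3998)) (x (nat_lit 4000)) (x (nat_lit 4002)) (x (nat_lit 4006))
    (x (nat_lit 4008)) (x (nat_lit 4014)) (x (nat_lit 4024)) (x (nat_lit 4026)) (x (nat_lit 4032))
    (x (nat_lit 4052)) (x (nat_lit 4054)) (x (nat_lit 4056)) (x (nat_lit 4060)) (x (nat_lit 4062))
    (x (nat_lit 4068)) (x (nat_lit 4078)) (x (nat_lit 4080)) (x (nat_lit 4086)) (x (nat_lit 4104))
    (x (nat_lit 4136)) (x (nat_lit 4138)) (x (nat_lit 4142)) (x (nat_lit 4144)) (x (nat_lit 4146))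
    (x (nat_lit 4150)) (x (nat_lit 4152)) (x (nat_lit 4160)) (x (nat_lit 4162)) (x (nat_lit 4164))
    (x (nat_lit 4168)) (x (nat_lit 4170)) (x (nat_lit 4176)) (x (nat_lit 4186)) (x (nat_lit 4188))
    (x (nat_lit 4194)) (x (nat_lit 4214)) (x (nat_lit 4216)) (x (nat_lit 4218)) (x (nat_lit 4222))
    (x (nat_lit 4224)) (x (nat_lit 4230)) (x (nat_lit 4240)) (x (nat_lit 4242)) (x (nat_lit 4248))
    (x (nat_lit 4266)) (x (nat_lit 4294)) (x (nat_lit 4296)) (x (nat_lit 4302)) (x (nat_lit 4320))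
    (x (nat_lit 4400)) (x (nat_lit 4418)) (x (nat_lit 4424)) (x (nat_lit 4426)) (x (nat_lit 4436))
    (x (nat_lit 4442)) (x (nat_lit 4444)) (x (nat_lit 4448)) (x (nat_lit 4450)) (x (nat_lit 4452))
    (x (nat_lit 4472)) (x (nat_lit 4478)) (x (nat_lit 4480)) (x (nat_lit 4490)) (x (nat_lit 4496))
    (x (nat_lit 4498)) (x (nat_lit 4502)) (x (nat_lit 4504)) (x (nat_lit 4506)) (x (nat_lit 4514))
    (x (nat_lit 4516)) (x (nat_lit 4520)) (x (nat_lit 4522)) (x (nat_lit 4524)) (x (nat_lit 4528))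
    (x (nat_lit 4530)) (x (nat_lit 4544)) (x (nat_lit 4550)) (x (nat_lit 4552)) (x (nat_lit 4556))
    (x (nat_lit 4558)) (x (nat_lit 4560)) (x (nat_lit 4568)) (x (nat_lit 4570)) (x (nat_lit 4574))
    (x (nat_lit 4576)) (x (nat_lit 4578)) (x (nat_lit 4582)) (x (nat_lit 4584)) (x (nat_lit 4592))
    (x (nat_lit 4594)) (x (nat_lit 4596)) (x (nat_lit 4600)) (x (nat_lit 4602)) (x (nat_lit 4608))
    (x (nat_lit 4634)) (x (nat_lit 4640)) (x (nat_lit 4642)) (x (nat_lit 4652)) (x (nat_lit 4658))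
    (x (nat_lit 4660)) (x (nat_lit 4664)) (x (nat_lit 4666)) (x (nat_lit 4668)) (x (nat_lit 4676))
    (x (nat_lit 4678)) (x (nat_lit 4682)) (x (nat_lit 4684)) (x (nat_lit 4686)) (x (nat_lit 4690))
    (x (nat_lit 4692)) (x (nat_lit 4706)) (x (nat_lit 4712)) (x (nat_lit 4714)) (x (nat_lit 4718))
    (x (nat_lit 4720)) (x (nat_lit 4722)) (x (nat_lit 4730)) (x (nat_lit 4732)) (x (nat_lit 4736))
    (x (nat_lit 4738)) (x (nat_lit 4740)) (x (nat_lit 4744)) (x (nat_lit 4746)) (x (nat_lit 4754))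
    (x (nat_lit 4756)) (x (nat_lit 4758)) (x (nat_lit 4762)) (x (nat_lit 4764)) (x (nat_lit 4770))
    (x (nat_lit 4784)) (x (nat_lit 4786)) (x (nat_lit 4790)) (x (nat_lit 4792)) (x (nat_lit 4794))
    (x (nat_lit 4798)) (x (nat_lit 4800)) (x (nat_lit 4808)) (x (nat_lit 4810)) (x (nat_lit 4812))
    (x (nat_lit 4816)) (x (nat_lit 4818)) (x (nat_lit 4824)) (x (nat_lit 4834)) (x (nat_lit 4836))
    (x (nat_lit 4842)) (x (nat_lit 4868)) (x (nat_lit 4874)) (x (nat_lit 4876)) (x (nat_lit 4880))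
    (x (nat_lit 4882)) (x (nat_lit 4884)) (x (nat_lit 4892)) (x (nat_lit 4894)) (x (nat_lit 4898))
    (x (nat_lit 4900)) (x (nat_lit 4902)) (x (nat_lit 4906)) (x (nat_lit 4908)) (x (nat_lit 4916))
    (x (nat_lit 4918)) (x (nat_lit 4920)) (x (nat_lit 4924)) (x (nat_lit 4926)) (x (nat_lit 4932))
    (x (nat_lit 4946)) (x (nat_lit 4948)) (x (nat_lit 4952)) (x (nat_lit 4954)) (x (nat_lit 4956))
    (x (nat_lit 4960)) (x (nat_lit 4962)) (x (nat_lit 4970)) (x (nat_lit 4972)) (x (nat_lit 4974))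
    (x (nat_lit 4978)) (x (nat_lit 4980)) (x (nat_lit 4986)) (x (nat_lit 4996)) (x (nat_lit 4998))
    (x (nat_lit 5004)) (x (nat_lit 5024)) (x (nat_lit 5026)) (x (nat_lit 5028)) (x (nat_lit 5032))
    (x (nat_lit 5034)) (x (nat_lit 5040)) (x (nat_lit 5050)) (x (nat_lit 5052)) (x (nat_lit 5058))
    (x (nat_lit 5076)) (x (nat_lit 5120)) (x (nat_lit 5126)) (x (nat_lit 5128)) (x (nat_lit 5138))
    (x (nat_lit 5144)) (x (nat_lit 5146)) (x (nat_lit 5150)) (x (nat_lit 5152)) (x (nat_lit 5154))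
    (x (nat_lit 5162)) (x (nat_lit 5164)) (x (nat_lit 5168)) (x (nat_lit 5170)) (x (nat_lit 5172))
    (x (nat_lit 5176)) (x (nat_lit 5178)) (x (nat_lit 5192)) (x (nat_lit 5198)) (x (nat_lit 5200))
    (x (nat_lit 5204)) (x (nat_lit 5206)) (x (nat_lit 5208)) (x (nat_lit 5216)) (x (nat_lit 5218))
    (x (nat_lit 5222)) (x (nat_lit 5224)) (x (nat_lit 5226)) (x (nat_lit 5230)) (x (nat_lit 5232))
    (x (nat_lit 5240)) (x (nat_lit 5242)) (x (nat_lit 5244)) (x (nat_lit 5248)) (x (nat_lit 5250))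
    (x (nat_lit 5256)) (x (nat_lit 5270)) (x (nat_lit 5272)) (x (nat_lit 5276)) (x (nat_lit 5278))
    (x (nat_lit 5280)) (x (nat_lit 5284)) (x (nat_lit 5286)) (x (nat_lit 5294)) (x (nat_lit 5296))
    (x (nat_lit 5298)) (x (nat_lit 5302)) (x (nat_lit 5304)) (x (nat_lit 5310)) (x (nat_lit 5320))
    (x (nat_lit 5322)) (x (nat_lit 5328)) (x (nat_lit 5354)) (x (nat_lit 5360)) (x (nat_lit 5362))
    (x (nat_lit 5366)) (x (nat_lit 5368)) (x (nat_lit 5370)) (x (nat_lit 5378)) (x (nat_lit 5380))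
    (x (nat_lit 5384)) (x (nat_lit 5386)) (x (nat_lit 5388)) (x (nat_lit 5392)) (x (nat_lit 5394))
    (x (nat_lit 5402)) (x (nat_lit 5404)) (x (nat_lit 5406)) (x (nat_lit 5410)) (x (nat_lit 5412))
    (x (nat_lit 5418)) (x (nat_lit 5432)) (x (nat_lit 5434)) (x (nat_lit 5438)) (x (nat_lit 5440))
    (x (nat_lit 5442)) (x (nat_lit 5446)) (x (nat_lit 5448)) (x (nat_lit 5456)) (x (nat_lit 5458))
    (x (nat_lit 5460)) (x (nat_lit 5464)) (x (nat_lit 5466)) (x (nat_lit 5472)) (x (nat_lit 5482))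
    (x (nat_lit 5484)) (x (nat_lit 5490)) (x (nat_lit 5510)) (x (nat_lit 5512)) (x (nat_lit 5514))
    (x (nat_lit 5518)) (x (nat_lit 5520)) (x (nat_lit 5526)) (x (nat_lit 5536)) (x (nat_lit 5538))
    (x (nat_lit 5544)) (x (nat_lit 5562)) (x (nat_lit 5594)) (x (nat_lit 5596)) (x (nat_lit 5600))
    (x (nat_lit 5602)) (x (nat_lit 5604)) (x (nat_lit 5608)) (x (nat_lit 5610)) (x (nat_lit 5618))
    (x (nat_lit 5620)) (x (nat_lit 5622)) (x (nat_lit 5626)) (x (nat_lit 5628)) (x (nat_lit 5634))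
    (x (nat_lit 5644)) (x (nat_lit 5646)) (x (nat_lit 5652)) (x (nat_lit 5672)) (x (nat_lit 5674))
    (x (nat_lit 5676)) (x (nat_lit 5680)) (x (nat_lit 5682)) (x (nat_lit 5688)) (x (nat_lit 5698))
    (x (nat_lit 5700)) (x (nat_lit 5706)) (x (nat_lit 5724)) (x (nat_lit 5752)) (x (nat_lit 5754))
    (x (nat_lit 5760)) (x (nat_lit 5778)) (x (nat_lit 5840)) (x (nat_lit 5846)) (x (nat_lit 5848))
    (x (nat_lit 5852)) (x (nat_lit 5854)) (x (nat_lit 5856)) (x (nat_lit 5864)) (x (nat_lit 5866))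
    (x (nat_lit 5870)) (x (nat_lit 5872)) (x (nat_lit 5874)) (x (nat_lit 5878)) (x (nat_lit 5880))
    (x (nat_lit 5888)) (x (nat_lit 5890)) (x (nat_lit 5892)) (x (nat_lit 5896)) (x (nat_lit 5898))
    (x (nat_lit 5904)) (x (nat_lit 5918)) (x (nat_lit 5920)) (x (nat_lit 5924)) (x (nat_lit 5926))
    (x (nat_lit 5928)) (x (nat_lit 5932)) (x (nat_lit 5934)) (x (nat_lit 5942)) (x (nat_lit 5944))
    (x (nat_lit 5946)) (x (nat_lit 5950)) (x (nat_lit 5952)) (x (nat_lit 5958)) (x (nat_lit 5968))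
    (x (nat_lit 5970)) (x (nat_lit 5976)) (x (nat_lit 5996)) (x (nat_lit 5998)) (x (nat_lit 6000))
    (x (nat_lit 6004)) (x (nat_lit 6006)) (x (nat_lit 6012)) (x (nat_lit 6022)) (x (nat_lit 6024))
    (x (nat_lit 6030)) (x (nat_lit 6048)) (x (nat_lit 6080)) (x (nat_lit 6082)) (x (nat_lit 6086))
    (x (nat_lit 6088)) (x (nat_lit 6090)) (x (nat_lit 6094)) (x (nat_lit 6096)) (x (nat_lit 6104))
    (x (nat_lit 6106)) (x (nat_lit 6108)) (x (nat_lit 6112)) (x (nat_lit 6114)) (x (nat_lit 6120))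
    (x (nat_lit 6130)) (x (nat_lit 6132)) (x (nat_lit 6138)) (x (nat_lit 6158)) (x (nat_lit 6160))
    (x (nat_lit 6162)) (x (nat_lit 6166)) (x (nat_lit 6168)) (x (nat_lit 6174)) (x (nat_lit 6184))
    (x (nat_lit 6186)) (x (nat_lit 6192)) (x (nat_lit 6210)) (x (nat_lit 6238)) (x (nat_lit 6240))
    (x (nat_lit 6246)) (x (nat_lit 6264)) (x (nat_lit 6320)) (x (nat_lit 6322)) (x (nat_lit 6324))
    (x (nat_lit 6328)) (x (nat_lit 6330)) (x (nat_lit 6336)) (x (nat_lit 6346)) (x (nat_lit 6348))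
    (x (nat_lit 6354)) (x (nat_lit 6372)) (x (nat_lit 6400)) (x (nat_lit 6402)) (x (nat_lit 6408))
    (x (nat_lit 6426)) (x (nat_lit 6480)) (x (nat_lit 6614)) (x (nat_lit 6632)) (x (nat_lit 6638))
    (x (nat_lit 6640)) (x (nat_lit 6668)) (x (nat_lit 6686)) (x (nat_lit 6692)) (x (nat_lit 6694))
    (x (nat_lit 6704)) (x (nat_lit 6710)) (x (nat_lit 6712)) (x (nat_lit 6716)) (x (nat_lit 6718))
    (x (nat_lit 6720)) (x (nat_lit 6740)) (x (nat_lit 6746)) (x (nat_lit 6748)) (x (nat_lit 6758))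
    (x (nat_lit 6764)) (x (nat_lit 6766)) (x (nat_lit 6770)) (x (nat_lit 6772)) (x (nat_lit 6774))
    (x (nat_lit 6782)) (x (nat_lit 6784)) (x (nat_lit 6788)) (x (nat_lit 6790)) (x (nat_lit 6792))
    (x (nat_lit 6796)) (x (nat_lit 6798)) (x (nat_lit 6830)) (x (nat_lit 6848)) (x (nat_lit 6854))
    (x (nat_lit 6856)) (x (nat_lit 6866)) (x (nat_lit 6872)) (x (nat_lit 6874)) (x (nat_lit 6878))
    (x (nat_lit 6880)) (x (nat_lit 6882)) (x (nat_lit 6902)) (x (nat_lit 6908)) (x (nat_lit 6910))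
    (x (nat_lit 6920)) (x (nat_lit 6926)) (x (nat_lit 6928)) (x (nat_lit 6932)) (x (nat_lit 6934))
    (x (nat_lit 6936)) (x (nat_lit 6944)) (x (nat_lit 6946)) (x (nat_lit 6950)) (x (nat_lit 6952))
    (x (nat_lit 6954)) (x (nat_lit 6958)) (x (nat_lit 6960)) (x (nat_lit 6974)) (x (nat_lit 6980))
    (x (nat_lit 6982)) (x (nat_lit 6986)) (x (nat_lit 6988)) (x (nat_lit 6990)) (x (nat_lit 6998))
    (x (nat_lit 7000)) (x (nat_lit 7004)) (x (nat_lit 7006)) (x (nat_lit 7008)) (x (nat_lit 7012))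
    (x (nat_lit 7014)) (x (nat_lit 7022)) (x (nat_lit 7024)) (x (nat_lit 7026)) (x (nat_lit 7030))
    (x (nat_lit 7032)) (x (nat_lit 7038)) (x (nat_lit 7064)) (x (nat_lit 7070)) (x (nat_lit 7072))
    (x (nat_lit 7082)) (x (nat_lit 7088)) (x (nat_lit 7090)) (x (nat_lit 7094)) (x (nat_lit 7096))
    (x (nat_lit 7098)) (x (nat_lit 7106)) (x (nat_lit 7108)) (x (nat_lit 7112)) (x (nat_lit 7114))
    (x (nat_lit 7116)) (x (nat_lit 7120)) (x (nat_lit 7122)) (x (nat_lit 7136)) (x (nat_lit 7142))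
    (x (nat_lit 7144)) (x (nat_lit 7148)) (x (nat_lit 7150)) (x (nat_lit 7152)) (x (nat_lit 7160))
    (x (nat_lit 7162)) (x (nat_lit 7166)) (x (nat_lit 7168)) (x (nat_lit 7170)) (x (nat_lit 7174))
    (x (nat_lit 7176)) (x (nat_lit 7184)) (x (nat_lit 7186)) (x (nat_lit 7188)) (x (nat_lit 7192))
    (x (nat_lit 7194)) (x (nat_lit 7200)) (x (nat_lit 7214)) (x (nat_lit 7216)) (x (nat_lit 7220))
    (x (nat_lit 7222)) (x (nat_lit 7224)) (x (nat_lit 7228)) (x (nat_lit 7230)) (x (nat_lit 7238))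
    (x (nat_lit 7240)) (x (nat_lit 7242)) (x (nat_lit 7246)) (x (nat_lit 7248)) (x (nat_lit 7254))
    (x (nat_lit 7264)) (x (nat_lit 7266)) (x (nat_lit 7272)) (x (nat_lit 7316)) (x (nat_lit 7334))
    (x (nat_lit 7340)) (x (nat_lit 7342)) (x (nat_lit 7352)) (x (nat_lit 7358)) (x (nat_lit 7360))
    (x (nat_lit 7364)) (x (nat_lit 7366)) (x (nat_lit 7368)) (x (nat_lit 7388)) (x (nat_lit 7394))
    (x (nat_lit 7396)) (x (nat_lit 7406)) (x (nat_lit 7412)) (x (nat_lit 7414)) (x (nat_lit 7418))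
    (x (nat_lit 7420)) (x (nat_lit 7422)) (x (nat_lit 7430)) (x (nat_lit 7432)) (x (nat_lit 7436))
    (x (nat_lit 7438)) (x (nat_lit 7440)) (x (nat_lit 7444)) (x (nat_lit 7446)) (x (nat_lit 7460))
    (x (nat_lit 7466)) (x (nat_lit 7468)) (x (nat_lit 7472)) (x (nat_lit 7474)) (x (nat_lit 7476))
    (x (nat_lit 7484)) (x (nat_lit 7486)) (x (nat_lit 7490)) (x (nat_lit 7492)) (x (nat_lit 7494))
    (x (nat_lit 7498)) (x (nat_lit 7500)) (x (nat_lit 7508)) (x (nat_lit 7510)) (x (nat_lit 7512))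
    (x (nat_lit 7516)) (x (nat_lit 7518)) (x (nat_lit 7524)) (x (nat_lit 7550)) (x (nat_lit 7556))
    (x (nat_lit 7558)) (x (nat_lit 7568)) (x (nat_lit 7574)) (x (nat_lit 7576)) (x (nat_lit 7580))
    (x (nat_lit 7582)) (x (nat_lit 7584)) (x (nat_lit 7592)) (x (nat_lit 7594)) (x (nat_lit 7598))
    (x (nat_lit 7600)) (x (nat_lit 7602)) (x (nat_lit 7606)) (x (nat_lit 7608)) (x (nat_lit 7622))
    (x (nat_lit 7628)) (x (nat_lit 7630)) (x (nat_lit 7634)) (x (nat_lit 7636)) (x (nat_lit 7638))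
    (x (nat_lit 7646)) (x (nat_lit 7648)) (x (nat_lit 7652)) (x (nat_lit 7654)) (x (nat_lit 7656))
    (x (nat_lit 7660)) (x (nat_lit 7662)) (x (nat_lit 7670)) (x (nat_lit 7672)) (x (nat_lit 7674))
    (x (nat_lit 7678)) (x (nat_lit 7680)) (x (nat_lit 7686)) (x (nat_lit 7700)) (x (nat_lit 7702))
    (x (nat_lit 7706)) (x (nat_lit 7708)) (x (nat_lit 7710)) (x (nat_lit 7714)) (x (nat_lit 7716))
    (x (nat_lit 7724)) (x (nat_lit 7726)) (x (nat_lit 7728)) (x (nat_lit 7732)) (x (nat_lit 7734))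
    (x (nat_lit 7740)) (x (nat_lit 7750)) (x (nat_lit 7752)) (x (nat_lit 7758)) (x (nat_lit 7784))
    (x (nat_lit 7790)) (x (nat_lit 7792)) (x (nat_lit 7796)) (x (nat_lit 7798)) (x (nat_lit 7800))
    (x (nat_lit 7808)) (x (nat_lit 7810)) (x (nat_lit 7814)) (x (nat_lit 7816)) (x (nat_lit 7818))
    (x (nat_lit 7822)) (x (nat_lit 7824)) (x (nat_lit 7832)) (x (nat_lit 7834)) (x (nat_lit 7836))
    (x (nat_lit 7840)) (x (nat_lit 7842)) (x (nat_lit 7848)) (x (nat_lit 7862)) (x (nat_lit 7864))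
    (x (nat_lit 7868)) (x (nat_lit 7870)) (x (nat_lit 7872)) (x (nat_lit 7876)) (x (nat_lit 7878))
    (x (nat_lit 7886)) (x (nat_lit 7888)) (x (nat_lit 7890)) (x (nat_lit 7894)) (x (nat_lit 7896))
    (x (nat_lit 7902)) (x (nat_lit 7912)) (x (nat_lit 7914)) (x (nat_lit 7920)) (x (nat_lit 7940))
    (x (nat_lit 7942)) (x (nat_lit 7944)) (x (nat_lit 7948)) (x (nat_lit 7950)) (x (nat_lit 7956))
    (x (nat_lit 7966)) (x (nat_lit 7968)) (x (nat_lit 7974)) (x (nat_lit 7992)) (x (nat_lit 8036))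
    (x (nat_lit 8042)) (x (nat_lit 8044)) (x (nat_lit 8054)) (x (nat_lit 8060)) (x (nat_lit 8062))
    (x (nat_lit 8066)) (x (nat_lit 8068)) (x (nat_lit 8070)) (x (nat_lit 8078)) (x (nat_lit 8080))
    (x (nat_lit 8084)) (x (nat_lit 8086)) (x (nat_lit 8088)) (x (nat_lit 8092)) (x (nat_lit 8094))
    (x (nat_lit 8108)) (x (nat_lit 8114)) (x (nat_lit 8116)) (x (nat_lit 8120)) (x (nat_lit 8122))
    (x (nat_lit 8124)) (x (nat_lit 8132)) (x (nat_lit 8134)) (x (nat_lit 8138)) (x (nat_lit 8140))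
    (x (nat_lit 8142)) (x (nat_lit 8146)) (x (nat_lit 8148)) (x (nat_lit 8156)) (x (nat_lit 8158))
    (x (nat_lit 8160)) (x (nat_lit 8164)) (x (nat_lit 8166)) (x (nat_lit 8172)) (x (nat_lit 8186))
    (x (nat_lit 8188)) (x (nat_lit 8192)) (x (nat_lit 8194)) (x (nat_lit 8196)) (x (nat_lit 8200))
    (x (nat_lit 8202)) (x (nat_lit 8210)) (x (nat_lit 8212)) (x (nat_lit 8214)) (x (nat_lit 8218))
    (x (nat_lit 8220)) (x (nat_lit 8226)) (x (nat_lit 8236)) (x (nat_lit 8238)) (x (nat_lit 8244))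
    (x (nat_lit 8270)) (x (nat_lit 8276)) (x (nat_lit 8278)) (x (nat_lit 8282)) (x (nat_lit 8284))
    (x (nat_lit 8286)) (x (nat_lit 8294)) (x (nat_lit 8296)) (x (nat_lit 8300)) (x (nat_lit 8302))
    (x (nat_lit 8304)) (x (nat_lit 8308)) (x (nat_lit 8310)) (x (nat_lit 8318)) (x (nat_lit 8320))
    (x (nat_lit 8322)) (x (nat_lit 8326)) (x (nat_lit 8328)) (x (nat_lit 8334)) (x (nat_lit 8348))
    (x (nat_lit 8350)) (x (nat_lit 8354)) (x (nat_lit 8356)) (x (nat_lit 8358)) (x (nat_lit 8362))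
    (x (nat_lit 8364)) (x (nat_lit 8372)) (x (nat_lit 8374)) (x (nat_lit 8376)) (x (nat_lit 8380))
    (x (nat_lit 8382)) (x (nat_lit 8388)) (x (nat_lit 8398)) (x (nat_lit 8400)) (x (nat_lit 8406))
    (x (nat_lit 8426)) (x (nat_lit 8428)) (x (nat_lit 8430)) (x (nat_lit 8434)) (x (nat_lit 8436))
    (x (nat_lit 8442)) (x (nat_lit 8452)) (x (nat_lit 8454)) (x (nat_lit 8460)) (x (nat_lit 8478))
    (x (nat_lit 8510)) (x (nat_lit 8512)) (x (nat_lit 8516)) (x (nat_lit 8518)) (x (nat_lit 8520))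
    (x (nat_lit 8524)) (x (nat_lit 8526)) (x (nat_lit 8534)) (x (nat_lit 8536)) (x (nat_lit 8538))
    (x (nat_lit 8542)) (x (nat_lit 8544)) (x (nat_lit 8550)) (x (nat_lit 8560)) (x (nat_lit 8562))
    (x (nat_lit 8568)) (x (nat_lit 8588)) (x (nat_lit 8590)) (x (nat_lit 8592)) (x (nat_lit 8596))
    (x (nat_lit 8598)) (x (nat_lit 8604)) (x (nat_lit 8614)) (x (nat_lit 8616)) (x (nat_lit 8622))
    (x (nat_lit 8640)) (x (nat_lit 8668)) (x (nat_lit 8670)) (x (nat_lit 8676)) (x (nat_lit 8694))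
    (x (nat_lit 8774)) (x (nat_lit 8792)) (x (nat_lit 8798)) (x (nat_lit 8800)) (x (nat_lit 8810))
    (x (nat_lit 8816)) (x (nat_lit 8818)) (x (nat_lit 8822)) (x (nat_lit 8824)) (x (nat_lit 8826))
    (x (nat_lit 8846)) (x (nat_lit 8852)) (x (nat_lit 8854)) (x (nat_lit 8864)) (x (nat_lit 8870))
    (x (nat_lit 8872)) (x (nat_lit 8876)) (x (nat_lit 8878)) (x (nat_lit 8880)) (x (nat_lit 8888))
    (x (nat_lit 8890)) (x (nat_lit 8894)) (x (nat_lit 8896)) (x (nat_lit 8898)) (x (nat_lit 8902))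
    (x (nat_lit 8904)) (x (nat_lit 8918)) (x (nat_lit 8924)) (x (nat_lit 8926)) (x (nat_lit 8930))
    (x (nat_lit 8932)) (x (nat_lit 8934)) (x (nat_lit 8942)) (x (nat_lit 8944)) (x (nat_lit 8948))
    (x (nat_lit 8950)) (x (nat_lit 8952)) (x (nat_lit 8956)) (x (nat_lit 8958)) (x (nat_lit 8966))
    (x (nat_lit 8968)) (x (nat_lit 8970)) (x (nat_lit 8974)) (x (nat_lit 8976)) (x (nat_lit 8982))
    (x (nat_lit 9008)) (x (nat_lit 9014)) (x (nat_lit 9016)) (x (nat_lit 9026)) (x (nat_lit 9032))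
    (x (nat_lit 9034)) (x (nat_lit 9038)) (x (nat_lit 9040)) (x (nat_lit 9042)) (x (nat_lit 9050))
    (x (nat_lit 9052)) (x (nat_lit 9056)) (x (nat_lit 9058)) (x (nat_lit 9060)) (x (nat_lit 9064))
    (x (nat_lit 9066)) (x (nat_lit 9080)) (x (nat_lit 9086)) (x (nat_lit 9088)) (x (nat_lit 9092))
    (x (nat_lit 9094)) (x (nat_lit 9096)) (x (nat_lit 9104)) (x (nat_lit 9106)) (x (nat_lit 9110))
    (x (nat_lit 9112)) (x (nat_lit 9114)) (x (nat_lit 9118)) (x (nat_lit 9120)) (x (nat_lit 9128))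
    (x (nat_lit 9130)) (x (nat_lit 9132)) (x (nat_lit 9136)) (x (nat_lit 9138)) (x (nat_lit 9144))
    (x (nat_lit 9158)) (x (nat_lit 9160)) (x (nat_lit 9164)) (x (nat_lit 9166)) (x (nat_lit 9168))
    (x (nat_lit 9172)) (x (nat_lit 9174)) (x (nat_lit 9182)) (x (nat_lit 9184)) (x (nat_lit 9186))
    (x (nat_lit 9190)) (x (nat_lit 9192)) (x (nat_lit 9198)) (x (nat_lit 9208)) (x (nat_lit 9210))
    (x (nat_lit 9216)) (x (nat_lit 9242)) (x (nat_lit 9248)) (x (nat_lit 9250)) (x (nat_lit 9254))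
    (x (nat_lit 9256)) (x (nat_lit 9258)) (x (nat_lit 9266)) (x (nat_lit 9268)) (x (nat_lit 9272))
    (x (nat_lit 9274)) (x (nat_lit 9276)) (x (nat_lit 9280)) (x (nat_lit 9282)) (x (nat_lit 9290))
    (x (nat_lit 9292)) (x (nat_lit 9294)) (x (nat_lit 9298)) (x (nat_lit 9300)) (x (nat_lit 9306))
    (x (nat_lit 9320)) (x (nat_lit 9322)) (x (nat_lit 9326)) (x (nat_lit 9328)) (x (nat_lit 9330))
    (x (nat_lit 9334)) (x (nat_lit 9336)) (x (nat_lit 9344)) (x (nat_lit 9346)) (x (nat_lit 9348))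
    (x (nat_lit 9352)) (x (nat_lit 9354)) (x (nat_lit 9360)) (x (nat_lit 9370)) (x (nat_lit 9372))
    (x (nat_lit 9378)) (x (nat_lit 9398)) (x (nat_lit 9400)) (x (nat_lit 9402)) (x (nat_lit 9406))
    (x (nat_lit 9408)) (x (nat_lit 9414)) (x (nat_lit 9424)) (x (nat_lit 9426)) (x (nat_lit 9432))
    (x (nat_lit 9450)) (x (nat_lit 9494)) (x (nat_lit 9500)) (x (nat_lit 9502)) (x (nat_lit 9512))
    (x (nat_lit 9518)) (x (nat_lit 9520)) (x (nat_lit 9524)) (x (nat_lit 9526)) (x (nat_lit 9528))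
    (x (nat_lit 9536)) (x (nat_lit 9538)) (x (nat_lit 9542)) (x (nat_lit 9544)) (x (nat_lit 9546))
    (x (nat_lit 9550)) (x (nat_lit 9552)) (x (nat_lit 9566)) (x (nat_lit 9572)) (x (nat_lit 9574))
    (x (nat_lit 9578)) (x (nat_lit 9580)) (x (nat_lit 9582)) (x (nat_lit 9590)) (x (nat_lit 9592))
    (x (nat_lit 9596)) (x (nat_lit 9598)) (x (nat_lit 9600)) (x (nat_lit 9604)) (x (nat_lit 9606))
    (x (nat_lit 9614)) (x (nat_lit 9616)) (x (nat_lit 9618)) (x (nat_lit 9622)) (x (nat_lit 9624))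
    (x (nat_lit 9630)) (x (nat_lit 9644)) (x (nat_lit 9646)) (x (nat_lit 9650)) (x (nat_lit 9652))
    (x (nat_lit 9654)) (x (nat_lit 9658)) (x (nat_lit 9660)) (x (nat_lit 9668)) (x (nat_lit 9670))
    (x (nat_lit 9672)) (x (nat_lit 9676)) (x (nat_lit 9678)) (x (nat_lit 9684)) (x (nat_lit 9694))
    (x (nat_lit 9696)) (x (nat_lit 9702)) (x (nat_lit 9728)) (x (nat_lit 9734)) (x (nat_lit 9736))
    (x (nat_lit 9740)) (x (nat_lit 9742)) (x (nat_lit 9744)) (x (nat_lit 9752)) (x (nat_lit 9754))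
    (x (nat_lit 9758)) (x (nat_lit 9760)) (x (nat_lit 9762)) (x (nat_lit 9766)) (x (nat_lit 9768))
    (x (nat_lit 9776)) (x (nat_lit 9778)) (x (nat_lit 9780)) (x (nat_lit 9784)) (x (nat_lit 9786))
    (x (nat_lit 9792)) (x (nat_lit 9806)) (x (nat_lit 9808)) (x (nat_lit 9812)) (x (nat_lit 9814))
    (x (nat_lit 9816)) (x (nat_lit 9820)) (x (nat_lit 9822)) (x (nat_lit 9830)) (x (nat_lit 9832))
    (x (nat_lit 9834)) (x (nat_lit 9838)) (x (nat_lit 9840)) (x (nat_lit 9846)) (x (nat_lit 9856))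
    (x (nat_lit 9858)) (x (nat_lit 9864)) (x (nat_lit 9884)) (x (nat_lit 9886)) (x (nat_lit 9888))
    (x (nat_lit 9892)) (x (nat_lit 9894)) (x (nat_lit 9900)) (x (nat_lit 9910)) (x (nat_lit 9912))
    (x (nat_lit 9918)) (x (nat_lit 9936)) (x (nat_lit 9968)) (x (nat_lit 9970)) (x (nat_lit 9974))
    (x (nat_lit 9976)) (x (nat_lit 9978)) (x (nat_lit 9982)) (x (nat_lit 9984)) (x (nat_lit 9992))
    (x (nat_lit 9994)) (x (nat_lit 9996)) (x (nat_lit 10000)) (x (nat_lit 10002))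
    (x (nat_lit 10008)) (x (nat_lit 10018)) (x (nat_lit 10020)) (x (nat_lit 10026))
    (x (nat_lit 10046)) (x (nat_lit 10048)) (x (nat_lit 10050)) (x (nat_lit 10054))
    (x (nat_lit 10056)) (x (nat_lit 10062)) (x (nat_lit 10072)) (x (nat_lit 10074))
    (x (nat_lit 10080)) (x (nat_lit 10098)) (x (nat_lit 10126)) (x (nat_lit 10128))
    (x (nat_lit 10134)) (x (nat_lit 10152)) (x (nat_lit 10214)) (x (nat_lit 10220))
    (x (nat_lit 10222)) (x (nat_lit 10226)) (x (nat_lit 10228)) (x (nat_lit 10230))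
    (x (nat_lit 10238)) (x (nat_lit 10240)) (x (nat_lit 10244)) (x (nat_lit 10246))
    (x (nat_lit 10248)) (x (nat_lit 10252)) (x (nat_lit 10254)) (x (nat_lit 10262))
    (x (nat_lit 10264)) (x (nat_lit 10266)) (x (nat_lit 10270)) (x (nat_lit 10272))
    (x (nat_lit 10278)) (x (nat_lit 10292)) (x (nat_lit 10294)) (x (nat_lit 10298))
    (x (nat_lit 10300)) (x (nat_lit 10302)) (x (nat_lit 10306)) (x (nat_lit 10308))
    (x (nat_lit 10316)) (x (nat_lit 10318)) (x (nat_lit 10320)) (x (nat_lit 10324))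
    (x (nat_lit 10326)) (x (nat_lit 10332)) (x (nat_lit 10342)) (x (nat_lit 10344))
    (x (nat_lit 10350)) (x (nat_lit 10370)) (x (nat_lit 10372)) (x (nat_lit 10374))
    (x (nat_lit 10378)) (x (nat_lit 10380)) (x (nat_lit 10386)) (x (nat_lit 10396))
    (x (nat_lit 10398)) (x (nat_lit 10404)) (x (nat_lit 10422)) (x (nat_lit 10454))
    (x (nat_lit 10456)) (x (nat_lit 10460)) (x (nat_lit 10462)) (x (nat_lit 10464))
    (x (nat_lit 10468)) (x (nat_lit 10470)) (x (nat_lit 10478)) (x (nat_lit 10480))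
    (x (nat_lit 10482)) (x (nat_lit 10486)) (x (nat_lit 10488)) (x (nat_lit 10494))
    (x (nat_lit 10504)) (x (nat_lit 10506)) (x (nat_lit 10512)) (x (nat_lit 10532))
    (x (nat_lit 10534)) (x (nat_lit 10536)) (x (nat_lit 10540)) (x (nat_lit 10542))
    (x (nat_lit 10548)) (x (nat_lit 10558)) (x (nat_lit 10560)) (x (nat_lit 10566))
    (x (nat_lit 10584)) (x (nat_lit 10612)) (x (nat_lit 10614)) (x (nat_lit 10620))
    (x (nat_lit 10638)) (x (nat_lit 10694)) (x (nat_lit 10696)) (x (nat_lit 10698))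
    (x (nat_lit 10702)) (x (nat_lit 10704)) (x (nat_lit 10710)) (x (nat_lit 10720))
    (x (nat_lit 10722)) (x (nat_lit 10728)) (x (nat_lit 10746)) (x (nat_lit 10774))
    (x (nat_lit 10776)) (x (nat_lit 10782)) (x (nat_lit 10800)) (x (nat_lit 10854))
    (x (nat_lit 10952)) (x (nat_lit 10958)) (x (nat_lit 10960)) (x (nat_lit 10970))
    (x (nat_lit 10976)) (x (nat_lit 10978)) (x (nat_lit 10982)) (x (nat_lit 10984))
    (x (nat_lit 10986)) (x (nat_lit 10994)) (x (nat_lit 10996)) (x (nat_lit 11000))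
    (x (nat_lit 11002)) (x (nat_lit 11004)) (x (nat_lit 11008)) (x (nat_lit 11010))
    (x (nat_lit 11024)) (x (nat_lit 11030)) (x (nat_lit 11032)) (x (nat_lit 11036))
    (x (nat_lit 11038)) (x (nat_lit 11040)) (x (nat_lit 11048)) (x (nat_lit 11050))
    (x (nat_lit 11054)) (x (nat_lit 11056)) (x (nat_lit 11058)) (x (nat_lit 11062))
    (x (nat_lit 11064)) (x (nat_lit 11072)) (x (nat_lit 11074)) (x (nat_lit 11076))
    (x (nat_lit 11080)) (x (nat_lit 11082)) (x (nat_lit 11088)) (x (nat_lit 11102))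
    (x (nat_lit 11104)) (x (nat_lit 11108)) (x (nat_lit 11110)) (x (nat_lit 11112))
    (x (nat_lit 11116)) (x (nat_lit 11118)) (x (nat_lit 11126)) (x (nat_lit 11128))
    (x (nat_lit 11130)) (x (nat_lit 11134)) (x (nat_lit 11136)) (x (nat_lit 11142))
    (x (nat_lit 11152)) (x (nat_lit 11154)) (x (nat_lit 11160)) (x (nat_lit 11186))
    (x (nat_lit 11192)) (x (nat_lit 11194)) (x (nat_lit 11198)) (x (nat_lit 11200))
    (x (nat_lit 11202)) (x (nat_lit 11210)) (x (nat_lit 11212)) (x (nat_lit 11216))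
    (x (nat_lit 11218)) (x (nat_lit 11220)) (x (nat_lit 11224)) (x (nat_lit 11226))
    (x (nat_lit 11234)) (x (nat_lit 11236)) (x (nat_lit 11238)) (x (nat_lit 11242))
    (x (nat_lit 11244)) (x (nat_lit 11250)) (x (nat_lit 11264)) (x (nat_lit 11266))
    (x (nat_lit 11270)) (x (nat_lit 11272)) (x (nat_lit 11274)) (x (nat_lit 11278))
    (x (nat_lit 11280)) (x (nat_lit 11288)) (x (nat_lit 11290)) (x (nat_lit 11292))
    (x (nat_lit 11296)) (x (nat_lit 11298)) (x (nat_lit 11304)) (x (nat_lit 11314))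
    (x (nat_lit 11316)) (x (nat_lit 11322)) (x (nat_lit 11342)) (x (nat_lit 11344))
    (x (nat_lit 11346)) (x (nat_lit 11350)) (x (nat_lit 11352)) (x (nat_lit 11358))
    (x (nat_lit 11368)) (x (nat_lit 11370)) (x (nat_lit 11376)) (x (nat_lit 11394))
    (x (nat_lit 11426)) (x (nat_lit 11428)) (x (nat_lit 11432)) (x (nat_lit 11434))
    (x (nat_lit 11436)) (x (nat_lit 11440)) (x (nat_lit 11442)) (x (nat_lit 11450))
    (x (nat_lit 11452)) (x (nat_lit 11454)) (x (nat_lit 11458)) (x (nat_lit 11460))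
    (x (nat_lit 11466)) (x (nat_lit 11476)) (x (nat_lit 11478)) (x (nat_lit 11484))
    (x (nat_lit 11504)) (x (nat_lit 11506)) (x (nat_lit 11508)) (x (nat_lit 11512))
    (x (nat_lit 11514)) (x (nat_lit 11520)) (x (nat_lit 11530)) (x (nat_lit 11532))
    (x (nat_lit 11538)) (x (nat_lit 11556)) (x (nat_lit 11584)) (x (nat_lit 11586))
    (x (nat_lit 11592)) (x (nat_lit 11610)) (x (nat_lit 11672)) (x (nat_lit 11678))
    (x (nat_lit 11680)) (x (nat_lit 11684)) (x (nat_lit 11686)) (x (nat_lit 11688))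
    (x (nat_lit 11696)) (x (nat_lit 11698)) (x (nat_lit 11702)) (x (nat_lit 11704))
    (x (nat_lit 11706)) (x (nat_lit 11710)) (x (nat_lit 11712)) (x (nat_lit 11720))
    (x (nat_lit 11722)) (x (nat_lit 11724)) (x (nat_lit 11728)) (x (nat_lit 11730))
    (x (nat_lit 11736)) (x (nat_lit 11750)) (x (nat_lit 11752)) (x (nat_lit 11756))
    (x (nat_lit 11758)) (x (nat_lit 11760)) (x (nat_lit 11764)) (x (nat_lit 11766))
    (x (nat_lit 11774)) (x (nat_lit 11776)) (x (nat_lit 11778)) (x (nat_lit 11782))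
    (x (nat_lit 11784)) (x (nat_lit 11790)) (x (nat_lit 11800)) (x (nat_lit 11802))
    (x (nat_lit 11808)) (x (nat_lit 11828)) (x (nat_lit 11830)) (x (nat_lit 11832))
    (x (nat_lit 11836)) (x (nat_lit 11838)) (x (nat_lit 11844)) (x (nat_lit 11854))
    (x (nat_lit 11856)) (x (nat_lit 11862)) (x (nat_lit 11880)) (x (nat_lit 11912))
    (x (nat_lit 11914)) (x (nat_lit 11918)) (x (nat_lit 11920)) (x (nat_lit 11922))
    (x (nat_lit 11926)) (x (nat_lit 11928)) (x (nat_lit 11936)) (x (nat_lit 11938))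
    (x (nat_lit 11940)) (x (nat_lit 11944)) (x (nat_lit 11946)) (x (nat_lit 11952))
    (x (nat_lit 11962)) (x (nat_lit 11964)) (x (nat_lit 11970)) (x (nat_lit 11990))
    (x (nat_lit 11992)) (x (nat_lit 11994)) (x (nat_lit 11998)) (x (nat_lit 12000))
    (x (nat_lit 12006)) (x (nat_lit 12016)) (x (nat_lit 12018)) (x (nat_lit 12024))
    (x (nat_lit 12042)) (x (nat_lit 12070)) (x (nat_lit 12072)) (x (nat_lit 12078))
    (x (nat_lit 12096)) (x (nat_lit 12152)) (x (nat_lit 12154)) (x (nat_lit 12156))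
    (x (nat_lit 12160)) (x (nat_lit 12162)) (x (nat_lit 12168)) (x (nat_lit 12178))
    (x (nat_lit 12180)) (x (nat_lit 12186)) (x (nat_lit 12204)) (x (nat_lit 12232))
    (x (nat_lit 12234)) (x (nat_lit 12240)) (x (nat_lit 12258)) (x (nat_lit 12312))
    (x (nat_lit 12398)) (x (nat_lit 12400)) (x (nat_lit 12404)) (x (nat_lit 12406))
    (x (nat_lit 12408)) (x (nat_lit 12412)) (x (nat_lit 12414)) (x (nat_lit 12422))
    (x (nat_lit 12424)) (x (nat_lit 12426)) (x (nat_lit 12430)) (x (nat_lit 12432))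
    (x (nat_lit 12438)) (x (nat_lit 12448)) (x (nat_lit 12450)) (x (nat_lit 12456))
    (x (nat_lit 12476)) (x (nat_lit 12478)) (x (nat_lit 12480)) (x (nat_lit 12484))
    (x (nat_lit 12486)) (x (nat_lit 12492)) (x (nat_lit 12502)) (x (nat_lit 12504))
    (x (nat_lit 12510)) (x (nat_lit 12528)) (x (nat_lit 12556)) (x (nat_lit 12558))
    (x (nat_lit 12564)) (x (nat_lit 12582)) (x (nat_lit 12638)) (x (nat_lit 12640))
    (x (nat_lit 12642)) (x (nat_lit 12646)) (x (nat_lit 12648)) (x (nat_lit 12654))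
    (x (nat_lit 12664)) (x (nat_lit 12666)) (x (nat_lit 12672)) (x (nat_lit 12690))
    (x (nat_lit 12718)) (x (nat_lit 12720)) (x (nat_lit 12726)) (x (nat_lit 12744))
    (x (nat_lit 12798)) (x (nat_lit 12880)) (x (nat_lit 12882)) (x (nat_lit 12888))
    (x (nat_lit 12906)) (x (nat_lit 12960)) (x (nat_lit 13148)) (x (nat_lit 13166))
    (x (nat_lit 13172)) (x (nat_lit 13174)) (x (nat_lit 13184)) (x (nat_lit 13190))
    (x (nat_lit 13192)) (x (nat_lit 13196)) (x (nat_lit 13198)) (x (nat_lit 13200))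
    (x (nat_lit 13220)) (x (nat_lit 13226)) (x (nat_lit 13228)) (x (nat_lit 13238))
    (x (nat_lit 13244)) (x (nat_lit 13246)) (x (nat_lit 13250)) (x (nat_lit 13252))
    (x (nat_lit 13254)) (x (nat_lit 13262)) (x (nat_lit 13264)) (x (nat_lit 13268))
    (x (nat_lit 13270)) (x (nat_lit 13272)) (x (nat_lit 13276)) (x (nat_lit 13278))
    (x (nat_lit 13292)) (x (nat_lit 13298)) (x (nat_lit 13300)) (x (nat_lit 13304))
    (x (nat_lit 13306)) (x (nat_lit 13308)) (x (nat_lit 13316)) (x (nat_lit 13318))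
    (x (nat_lit 13322)) (x (nat_lit 13324)) (x (nat_lit 13326)) (x (nat_lit 13330))
    (x (nat_lit 13332)) (x (nat_lit 13340)) (x (nat_lit 13342)) (x (nat_lit 13344))
    (x (nat_lit 13348)) (x (nat_lit 13350)) (x (nat_lit 13356)) (x (nat_lit 13382))
    (x (nat_lit 13388)) (x (nat_lit 13390)) (x (nat_lit 13400)) (x (nat_lit 13406))
    (x (nat_lit 13408)) (x (nat_lit 13412)) (x (nat_lit 13414)) (x (nat_lit 13416))
    (x (nat_lit 13424)) (x (nat_lit 13426)) (x (nat_lit 13430)) (x (nat_lit 13432))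
    (x (nat_lit 13434)) (x (nat_lit 13438)) (x (nat_lit 13440)) (x (nat_lit 13454))
    (x (nat_lit 13460)) (x (nat_lit 13462)) (x (nat_lit 13466)) (x (nat_lit 13468))
    (x (nat_lit 13470)) (x (nat_lit 13478)) (x (nat_lit 13480)) (x (nat_lit 13484))
    (x (nat_lit 13486)) (x (nat_lit 13488)) (x (nat_lit 13492)) (x (nat_lit 13494))
    (x (nat_lit 13502)) (x (nat_lit 13504)) (x (nat_lit 13506)) (x (nat_lit 13510))
    (x (nat_lit 13512)) (x (nat_lit 13518)) (x (nat_lit 13532)) (x (nat_lit 13534))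
    (x (nat_lit 13538)) (x (nat_lit 13540)) (x (nat_lit 13542)) (x (nat_lit 13546))
    (x (nat_lit 13548)) (x (nat_lit 13556)) (x (nat_lit 13558)) (x (nat_lit 13560))
    (x (nat_lit 13564)) (x (nat_lit 13566)) (x (nat_lit 13572)) (x (nat_lit 13582))
    (x (nat_lit 13584)) (x (nat_lit 13590)) (x (nat_lit 13616)) (x (nat_lit 13622))
    (x (nat_lit 13624)) (x (nat_lit 13628)) (x (nat_lit 13630)) (x (nat_lit 13632))
    (x (nat_lit 13640)) (x (nat_lit 13642)) (x (nat_lit 13646)) (x (nat_lit 13648))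
    (x (nat_lit 13650)) (x (nat_lit 13654)) (x (nat_lit 13656)) (x (nat_lit 13664))
    (x (nat_lit 13666)) (x (nat_lit 13668)) (x (nat_lit 13672)) (x (nat_lit 13674))
    (x (nat_lit 13680)) (x (nat_lit 13694)) (x (nat_lit 13696)) (x (nat_lit 13700))
    (x (nat_lit 13702)) (x (nat_lit 13704)) (x (nat_lit 13708)) (x (nat_lit 13710))
    (x (nat_lit 13718)) (x (nat_lit 13720)) (x (nat_lit 13722)) (x (nat_lit 13726))
    (x (nat_lit 13728)) (x (nat_lit 13734)) (x (nat_lit 13744)) (x (nat_lit 13746))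
    (x (nat_lit 13752)) (x (nat_lit 13772)) (x (nat_lit 13774)) (x (nat_lit 13776))
    (x (nat_lit 13780)) (x (nat_lit 13782)) (x (nat_lit 13788)) (x (nat_lit 13798))
    (x (nat_lit 13800)) (x (nat_lit 13806)) (x (nat_lit 13824)) (x (nat_lit 13868))
    (x (nat_lit 13874)) (x (nat_lit 13876)) (x (nat_lit 13886)) (x (nat_lit 13892))
    (x (nat_lit 13894)) (x (nat_lit 13898)) (x (nat_lit 13900)) (x (nat_lit 13902))
    (x (nat_lit 13910)) (x (nat_lit 13912)) (x (nat_lit 13916)) (x (nat_lit 13918))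
    (x (nat_lit 13920)) (x (nat_lit 13924)) (x (nat_lit 13926)) (x (nat_lit 13940))
    (x (nat_lit 13946)) (x (nat_lit 13948)) (x (nat_lit 13952)) (x (nat_lit 13954))
    (x (nat_lit 13956)) (x (nat_lit 13964)) (x (nat_lit 13966)) (x (nat_lit 13970))
    (x (nat_lit 13972)) (x (nat_lit 13974)) (x (nat_lit 13978)) (x (nat_lit 13980))
    (x (nat_lit 13988)) (x (nat_lit 13990)) (x (nat_lit 13992)) (x (nat_lit 13996))
    (x (nat_lit 13998)) (x (nat_lit 14004)) (x (nat_lit 14018)) (x (nat_lit 14020))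
    (x (nat_lit 14024)) (x (nat_lit 14026)) (x (nat_lit 14028)) (x (nat_lit 14032))
    (x (nat_lit 14034)) (x (nat_lit 14042)) (x (nat_lit 14044)) (x (nat_lit 14046))
    (x (nat_lit 14050)) (x (nat_lit 14052)) (x (nat_lit 14058)) (x (nat_lit 14068))
    (x (nat_lit 14070)) (x (nat_lit 14076)) (x (nat_lit 14102)) (x (nat_lit 14108))
    (x (nat_lit 14110)) (x (nat_lit 14114)) (x (nat_lit 14116)) (x (nat_lit 14118))
    (x (nat_lit 14126)) (x (nat_lit 14128)) (x (nat_lit 14132)) (x (nat_lit 14134))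
    (x (nat_lit 14136)) (x (nat_lit 14140)) (x (nat_lit 14142)) (x (nat_lit 14150))
    (x (nat_lit 14152)) (x (nat_lit 14154)) (x (nat_lit 14158)) (x (nat_lit 14160))
    (x (nat_lit 14166)) (x (nat_lit 14180)) (x (nat_lit 14182)) (x (nat_lit 14186))
    (x (nat_lit 14188)) (x (nat_lit 14190)) (x (nat_lit 14194)) (x (nat_lit 14196))
    (x (nat_lit 14204)) (x (nat_lit 14206)) (x (nat_lit 14208)) (x (nat_lit 14212))
    (x (nat_lit 14214)) (x (nat_lit 14220)) (x (nat_lit 14230)) (x (nat_lit 14232))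
    (x (nat_lit 14238)) (x (nat_lit 14258)) (x (nat_lit 14260)) (x (nat_lit 14262))
    (x (nat_lit 14266)) (x (nat_lit 14268)) (x (nat_lit 14274)) (x (nat_lit 14284))
    (x (nat_lit 14286)) (x (nat_lit 14292)) (x (nat_lit 14310)) (x (nat_lit 14342))
    (x (nat_lit 14344)) (x (nat_lit 14348)) (x (nat_lit 14350)) (x (nat_lit 14352))
    (x (nat_lit 14356)) (x (nat_lit 14358)) (x (nat_lit 14366)) (x (nat_lit 14368))
    (x (nat_lit 14370)) (x (nat_lit 14374)) (x (nat_lit 14376)) (x (nat_lit 14382))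
    (x (nat_lit 14392)) (x (nat_lit 14394)) (x (nat_lit 14400)) (x (nat_lit 14420))
    (x (nat_lit 14422)) (x (nat_lit 14424)) (x (nat_lit 14428)) (x (nat_lit 14430))
    (x (nat_lit 14436)) (x (nat_lit 14446)) (x (nat_lit 14448)) (x (nat_lit 14454))
    (x (nat_lit 14472)) (x (nat_lit 14500)) (x (nat_lit 14502)) (x (nat_lit 14508))
    (x (nat_lit 14526)) (x (nat_lit 14588)) (x (nat_lit 14594)) (x (nat_lit 14596))
    (x (nat_lit 14600)) (x (nat_lit 14602)) (x (nat_lit 14604)) (x (nat_lit 14612))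
    (x (nat_lit 14614)) (x (nat_lit 14618)) (x (nat_lit 14620)) (x (nat_lit 14622))
    (x (nat_lit 14626)) (x (nat_lit 14628)) (x (nat_lit 14636)) (x (nat_lit 14638))
    (x (nat_lit 14640)) (x (nat_lit 14644)) (x (nat_lit 14646)) (x (nat_lit 14652))
    (x (nat_lit 14666)) (x (nat_lit 14668)) (x (nat_lit 14672)) (x (nat_lit 14674))
    (x (nat_lit 14676)) (x (nat_lit 14680)) (x (nat_lit 14682)) (x (nat_lit 14690))
    (x (nat_lit 14692)) (x (nat_lit 14694)) (x (nat_lit 14698)) (x (nat_lit 14700))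
    (x (nat_lit 14706)) (x (nat_lit 14716)) (x (nat_lit 14718)) (x (nat_lit 14724))
    (x (nat_lit 14744)) (x (nat_lit 14746)) (x (nat_lit 14748)) (x (nat_lit 14752))
    (x (nat_lit 14754)) (x (nat_lit 14760)) (x (nat_lit 14770)) (x (nat_lit 14772))
    (x (nat_lit 14778)) (x (nat_lit 14796)) (x (nat_lit 14828)) (x (nat_lit 14830))
    (x (nat_lit 14834)) (x (nat_lit 14836)) (x (nat_lit 14838)) (x (nat_lit 14842))
    (x (nat_lit 14844)) (x (nat_lit 14852)) (x (nat_lit 14854)) (x (nat_lit 14856))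
    (x (nat_lit 14860)) (x (nat_lit 14862)) (x (nat_lit 14868)) (x (nat_lit 14878))
    (x (nat_lit 14880)) (x (nat_lit 14886)) (x (nat_lit 14906)) (x (nat_lit 14908))
    (x (nat_lit 14910)) (x (nat_lit 14914)) (x (nat_lit 14916)) (x (nat_lit 14922))
    (x (nat_lit 14932)) (x (nat_lit 14934)) (x (nat_lit 14940)) (x (nat_lit 14958))
    (x (nat_lit 14986)) (x (nat_lit 14988)) (x (nat_lit 14994)) (x (nat_lit 15012))
    (x (nat_lit 15068)) (x (nat_lit 15070)) (x (nat_lit 15072)) (x (nat_lit 15076))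
    (x (nat_lit 15078)) (x (nat_lit 15084)) (x (nat_lit 15094)) (x (nat_lit 15096))
    (x (nat_lit 15102)) (x (nat_lit 15120)) (x (nat_lit 15148)) (x (nat_lit 15150))
    (x (nat_lit 15156)) (x (nat_lit 15174)) (x (nat_lit 15228)) (x (nat_lit 15326))
    (x (nat_lit 15332)) (x (nat_lit 15334)) (x (nat_lit 15344)) (x (nat_lit 15350))
    (x (nat_lit 15352)) (x (nat_lit 15356)) (x (nat_lit 15358)) (x (nat_lit 15360))
    (x (nat_lit 15368)) (x (nat_lit 15370)) (x (nat_lit 15374)) (x (nat_lit 15376))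
    (x (nat_lit 15378)) (x (nat_lit 15382)) (x (nat_lit 15384)) (x (nat_lit 15398))
    (x (nat_lit 15404)) (x (nat_lit 15406)) (x (nat_lit 15410)) (x (nat_lit 15412))
    (x (nat_lit 15414)) (x (nat_lit 15422)) (x (nat_lit 15424)) (x (nat_lit 15428))
    (x (nat_lit 15430)) (x (nat_lit 15432)) (x (nat_lit 15436)) (x (nat_lit 15438))
    (x (nat_lit 15446)) (x (nat_lit 15448)) (x (nat_lit 15450)) (x (nat_lit 15454))
    (x (nat_lit 15456)) (x (nat_lit 15462)) (x (nat_lit 15476)) (x (nat_lit 15478))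
    (x (nat_lit 15482)) (x (nat_lit 15484)) (x (nat_lit 15486)) (x (nat_lit 15490))
    (x (nat_lit 15492)) (x (nat_lit 15500)) (x (nat_lit 15502)) (x (nat_lit 15504))
    (x (nat_lit 15508)) (x (nat_lit 15510)) (x (nat_lit 15516)) (x (nat_lit 15526))
    (x (nat_lit 15528)) (x (nat_lit 15534)) (x (nat_lit 15560)) (x (nat_lit 15566))
    (x (nat_lit 15568)) (x (nat_lit 15572)) (x (nat_lit 15574)) (x (nat_lit 15576))
    (x (nat_lit 15584)) (x (nat_lit 15586)) (x (nat_lit 15590)) (x (nat_lit 15592))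
    (x (nat_lit 15594)) (x (nat_lit 15598)) (x (nat_lit 15600)) (x (nat_lit 15608))
    (x (nat_lit 15610)) (x (nat_lit 15612)) (x (nat_lit 15616)) (x (nat_lit 15618))
    (x (nat_lit 15624)) (x (nat_lit 15638)) (x (nat_lit 15640)) (x (nat_lit 15644))
    (x (nat_lit 15646)) (x (nat_lit 15648)) (x (nat_lit 15652)) (x (nat_lit 15654))
    (x (nat_lit 15662)) (x (nat_lit 15664)) (x (nat_lit 15666)) (x (nat_lit 15670))
    (x (nat_lit 15672)) (x (nat_lit 15678)) (x (nat_lit 15688)) (x (nat_lit 15690))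
    (x (nat_lit 15696)) (x (nat_lit 15716)) (x (nat_lit 15718)) (x (nat_lit 15720))
    (x (nat_lit 15724)) (x (nat_lit 15726)) (x (nat_lit 15732)) (x (nat_lit 15742))
    (x (nat_lit 15744)) (x (nat_lit 15750)) (x (nat_lit 15768)) (x (nat_lit 15800))
    (x (nat_lit 15802)) (x (nat_lit 15806)) (x (nat_lit 15808)) (x (nat_lit 15810))
    (x (nat_lit 15814)) (x (nat_lit 15816)) (x (nat_lit 15824)) (x (nat_lit 15826))
    (x (nat_lit 15828)) (x (nat_lit 15832)) (x (nat_lit 15834)) (x (nat_lit 15840))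
    (x (nat_lit 15850)) (x (nat_lit 15852)) (x (nat_lit 15858)) (x (nat_lit 15878))
    (x (nat_lit 15880)) (x (nat_lit 15882)) (x (nat_lit 15886)) (x (nat_lit 15888))
    (x (nat_lit 15894)) (x (nat_lit 15904)) (x (nat_lit 15906)) (x (nat_lit 15912))
    (x (nat_lit 15930)) (x (nat_lit 15958)) (x (nat_lit 15960)) (x (nat_lit 15966))
    (x (nat_lit 15984)) (x (nat_lit 16046)) (x (nat_lit 16052)) (x (nat_lit 16054))
    (x (nat_lit 16058)) (x (nat_lit 16060)) (x (nat_lit 16062)) (x (nat_lit 16070))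
    (x (nat_lit 16072)) (x (nat_lit 16076)) (x (nat_lit 16078)) (x (nat_lit 16080))
    (x (nat_lit 16084)) (x (nat_lit 16086)) (x (nat_lit 16094)) (x (nat_lit 16096))
    (x (nat_lit 16098)) (x (nat_lit 16102)) (x (nat_lit 16104)) (x (nat_lit 16110))
    (x (nat_lit 16124)) (x (nat_lit 16126)) (x (nat_lit 16130)) (x (nat_lit 16132))
    (x (nat_lit 16134)) (x (nat_lit 16138)) (x (nat_lit 16140)) (x (nat_lit 16148))
    (x (nat_lit 16150)) (x (nat_lit 16152)) (x (nat_lit 16156)) (x (nat_lit 16158))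
    (x (nat_lit 16164)) (x (nat_lit 16174)) (x (nat_lit 16176)) (x (nat_lit 16182))
    (x (nat_lit 16202)) (x (nat_lit 16204)) (x (nat_lit 16206)) (x (nat_lit 16210))
    (x (nat_lit 16212)) (x (nat_lit 16218)) (x (nat_lit 16228)) (x (nat_lit 16230))
    (x (nat_lit 16236)) (x (nat_lit 16254)) (x (nat_lit 16286)) (x (nat_lit 16288))
    (x (nat_lit 16292)) (x (nat_lit 16294)) (x (nat_lit 16296)) (x (nat_lit 16300))
    (x (nat_lit 16302)) (x (nat_lit 16310)) (x (nat_lit 16312)) (x (nat_lit 16314))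
    (x (nat_lit 16318)) (x (nat_lit 16320)) (x (nat_lit 16326)) (x (nat_lit 16336))
    (x (nat_lit 16338)) (x (nat_lit 16344)) (x (nat_lit 16364)) (x (nat_lit 16366))
    (x (nat_lit 16368)) (x (nat_lit 16372)) (x (nat_lit 16374)) (x (nat_lit 16380))
    (x (nat_lit 16390)) (x (nat_lit 16392)) (x (nat_lit 16398)) (x (nat_lit 16416))
    (x (nat_lit 16444)) (x (nat_lit 16446)) (x (nat_lit 16452)) (x (nat_lit 16470))
    (x (nat_lit 16526)) (x (nat_lit 16528)) (x (nat_lit 16530)) (x (nat_lit 16534))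
    (x (nat_lit 16536)) (x (nat_lit 16542)) (x (nat_lit 16552)) (x (nat_lit 16554))
    (x (nat_lit 16560)) (x (nat_lit 16578)) (x (nat_lit 16606)) (x (nat_lit 16608))
    (x (nat_lit 16614)) (x (nat_lit 16632)) (x (nat_lit 16686)) (x (nat_lit 16772))
    (x (nat_lit 16774)) (x (nat_lit 16778)) (x (nat_lit 16780)) (x (nat_lit 16782))
    (x (nat_lit 16786)) (x (nat_lit 16788)) (x (nat_lit 16796)) (x (nat_lit 16798))
    (x (nat_lit 16800)) (x (nat_lit 16804)) (x (nat_lit 16806)) (x (nat_lit 16812))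
    (x (nat_lit 16822)) (x (nat_lit 16824)) (x (nat_lit 16830)) (x (nat_lit 16850))
    (x (nat_lit 16852)) (x (nat_lit 16854)) (x (nat_lit 16858)) (x (nat_lit 16860))
    (x (nat_lit 16866)) (x (nat_lit 16876)) (x (nat_lit 16878)) (x (nat_lit 16884))
    (x (nat_lit 16902)) (x (nat_lit 16930)) (x (nat_lit 16932)) (x (nat_lit 16938))
    (x (nat_lit 16956)) (x (nat_lit 17012)) (x (nat_lit 17014)) (x (nat_lit 17016))
    (x (nat_lit 17020)) (x (nat_lit 17022)) (x (nat_lit 17028)) (x (nat_lit 17038))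
    (x (nat_lit 17040)) (x (nat_lit 17046)) (x (nat_lit 17064)) (x (nat_lit 17092))
    (x (nat_lit 17094)) (x (nat_lit 17100)) (x (nat_lit 17118)) (x (nat_lit 17172))
    (x (nat_lit 17254)) (x (nat_lit 17256)) (x (nat_lit 17262)) (x (nat_lit 17280))
    (x (nat_lit 17334)) (x (nat_lit 17504)) (x (nat_lit 17510)) (x (nat_lit 17512))
    (x (nat_lit 17516)) (x (nat_lit 17518)) (x (nat_lit 17520)) (x (nat_lit 17528))
    (x (nat_lit 17530)) (x (nat_lit 17534)) (x (nat_lit 17536)) (x (nat_lit 17538))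
    (x (nat_lit 17542)) (x (nat_lit 17544)) (x (nat_lit 17552)) (x (nat_lit 17554))
    (x (nat_lit 17556)) (x (nat_lit 17560)) (x (nat_lit 17562)) (x (nat_lit 17568))
    (x (nat_lit 17582)) (x (nat_lit 17584)) (x (nat_lit 17588)) (x (nat_lit 17590))
    (x (nat_lit 17592)) (x (nat_lit 17596)) (x (nat_lit 17598)) (x (nat_lit 17606))
    (x (nat_lit 17608)) (x (nat_lit 17610)) (x (nat_lit 17614)) (x (nat_lit 17616))
    (x (nat_lit 17622)) (x (nat_lit 17632)) (x (nat_lit 17634)) (x (nat_lit 17640))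
    (x (nat_lit 17660)) (x (nat_lit 17662)) (x (nat_lit 17664)) (x (nat_lit 17668))
    (x (nat_lit 17670)) (x (nat_lit 17676)) (x (nat_lit 17686)) (x (nat_lit 17688))
    (x (nat_lit 17694)) (x (nat_lit 17712)) (x (nat_lit 17744)) (x (nat_lit 17746))
    (x (nat_lit 17750)) (x (nat_lit 17752)) (x (nat_lit 17754)) (x (nat_lit 17758))
    (x (nat_lit 17760)) (x (nat_lit 17768)) (x (nat_lit 17770)) (x (nat_lit 17772))
    (x (nat_lit 17776)) (x (nat_lit 17778)) (x (nat_lit 17784)) (x (nat_lit 17794))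
    (x (nat_lit 17796)) (x (nat_lit 17802)) (x (nat_lit 17822)) (x (nat_lit 17824))
    (x (nat_lit 17826)) (x (nat_lit 17830)) (x (nat_lit 17832)) (x (nat_lit 17838))
    (x (nat_lit 17848)) (x (nat_lit 17850)) (x (nat_lit 17856)) (x (nat_lit 17874))
    (x (nat_lit 17902)) (x (nat_lit 17904)) (x (nat_lit 17910)) (x (nat_lit 17928))
    (x (nat_lit 17984)) (x (nat_lit 17986)) (x (nat_lit 17988)) (x (nat_lit 17992))
    (x (nat_lit 17994)) (x (nat_lit 18000)) (x (nat_lit 18010)) (x (nat_lit 18012))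
    (x (nat_lit 18018)) (x (nat_lit 18036)) (x (nat_lit 18064)) (x (nat_lit 18066))
    (x (nat_lit 18072)) (x (nat_lit 18090)) (x (nat_lit 18144)) (x (nat_lit 18230))
    (x (nat_lit 18232)) (x (nat_lit 18236)) (x (nat_lit 18238)) (x (nat_lit 18240))
    (x (nat_lit 18244)) (x (nat_lit 18246)) (x (nat_lit 18254)) (x (nat_lit 18256))
    (x (nat_lit 18258)) (x (nat_lit 18262)) (x (nat_lit 18264)) (x (nat_lit 18270))
    (x (nat_lit 18280)) (x (nat_lit 18282)) (x (nat_lit 18288)) (x (nat_lit 18308))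
    (x (nat_lit 18310)) (x (nat_lit 18312)) (x (nat_lit 18316)) (x (nat_lit 18318))
    (x (nat_lit 18324)) (x (nat_lit 18334)) (x (nat_lit 18336)) (x (nat_lit 18342))
    (x (nat_lit 18360)) (x (nat_lit 18388)) (x (nat_lit 18390)) (x (nat_lit 18396))
    (x (nat_lit 18414)) (x (nat_lit 18470)) (x (nat_lit 18472)) (x (nat_lit 18474))
    (x (nat_lit 18478)) (x (nat_lit 18480)) (x (nat_lit 18486)) (x (nat_lit 18496))
    (x (nat_lit 18498)) (x (nat_lit 18504)) (x (nat_lit 18522)) (x (nat_lit 18550))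
    (x (nat_lit 18552)) (x (nat_lit 18558)) (x (nat_lit 18576)) (x (nat_lit 18630))
    (x (nat_lit 18712)) (x (nat_lit 18714)) (x (nat_lit 18720)) (x (nat_lit 18738))
    (x (nat_lit 18792)) (x (nat_lit 18956)) (x (nat_lit 18958)) (x (nat_lit 18960))
    (x (nat_lit 18964)) (x (nat_lit 18966)) (x (nat_lit 18972)) (x (nat_lit 18982))
    (x (nat_lit 18984)) (x (nat_lit 18990)) (x (nat_lit 19008)) (x (nat_lit 19036))
    (x (nat_lit 19038)) (x (nat_lit 19044)) (x (nat_lit 19062)) (x (nat_lit 19116))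
    (x (nat_lit 19198)) (x (nat_lit 19200)) (x (nat_lit 19206)) (x (nat_lit 19224))
    (x (nat_lit 19278)) (x (nat_lit 19440))

theorem ap_eq (x : Nat → Nat) (k : FnLL cds) : apLL (fun t => x t.cd) cds k = ap x k :=
  Eq.refl (ap x k)

theorem codes_ok : beqL (codes cds) (secL 9 8 0 []) = true := by decide +kernel

noncomputable def fin (f : Nat → Nat) (v1 : Nat) (
    x80 x134 x152 x158 x160 x188 x206 x212 x214 x224 x230 x232 x236 x238 x240 x296 x314 x320 x322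
    x350 x368 x374 x376 x386 x392 x394 x398 x400 x402 x422 x428 x430 x440 x446 x448 x452 x454 x456
    x464 x466 x470 x472 x474 x478 x480 x512 x530 x536 x538 x548 x554 x556 x560 x562 x564 x584 x590
    x592 x602 x608 x610 x614 x616 x618 x626 x628 x632 x634 x636 x640 x642 x656 x662 x664 x668 x670
    x672 x680 x682 x686 x688 x690 x694 x696 x704 x706 x708 x712 x714 x720 x782 x800 x806 x808 x836
    x854 x860 x862 x872 x878 x880 x884 x886 x888 x908 x914 x916 x926 x932 x934 x938 x940 x942 x950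
    x952 x956 x958 x960 x964 x966 x998 x1016 x1022 x1024 x1034 x1040 x1042 x1046 x1048 x1050 x1070
    x1076 x1078 x1088 x1094 x1096 x1100 x1102 x1104 x1112 x1114 x1118 x1120 x1122 x1126 x1128 x1142
    x1148 x1150 x1154 x1156 x1158 x1166 x1168 x1172 x1174 x1176 x1180 x1182 x1190 x1192 x1194 x1198
    x1200 x1206 x1232 x1238 x1240 x1250 x1256 x1258 x1262 x1264 x1266 x1274 x1276 x1280 x1282 x1284
    x1288 x1290 x1304 x1310 x1312 x1316 x1318 x1320 x1328 x1330 x1334 x1336 x1338 x1342 x1344 x1352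
    x1354 x1356 x1360 x1362 x1368 x1382 x1384 x1388 x1390 x1392 x1396 x1398 x1406 x1408 x1410 x1414
    x1416 x1422 x1432 x1434 x1440 x1484 x1502 x1508 x1510 x1520 x1526 x1528 x1532 x1534 x1536 x1556
    x1562 x1564 x1574 x1580 x1582 x1586 x1588 x1590 x1598 x1600 x1604 x1606 x1608 x1612 x1614 x1628
    x1634 x1636 x1640 x1642 x1644 x1652 x1654 x1658 x1660 x1662 x1666 x1668 x1676 x1678 x1680 x1684
    x1686 x1692 x1718 x1724 x1726 x1736 x1742 x1744 x1748 x1750 x1752 x1760 x1762 x1766 x1768 x1770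
    x1774 x1776 x1790 x1796 x1798 x1802 x1804 x1806 x1814 x1816 x1820 x1822 x1824 x1828 x1830 x1838
    x1840 x1842 x1846 x1848 x1854 x1868 x1870 x1874 x1876 x1878 x1882 x1884 x1892 x1894 x1896 x1900
    x1902 x1908 x1918 x1920 x1926 x1952 x1958 x1960 x1964 x1966 x1968 x1976 x1978 x1982 x1984 x1986
    x1990 x1992 x2000 x2002 x2004 x2008 x2010 x2016 x2030 x2032 x2036 x2038 x2040 x2044 x2046 x2054
    x2056 x2058 x2062 x2064 x2070 x2080 x2082 x2088 x2108 x2110 x2112 x2116 x2118 x2124 x2134 x2136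
    x2142 x2160 x2240 x2258 x2264 x2266 x2294 x2312 x2318 x2320 x2330 x2336 x2338 x2342 x2344 x2346
    x2366 x2372 x2374 x2384 x2390 x2392 x2396 x2398 x2400 x2408 x2410 x2414 x2416 x2418 x2422 x2424
    x2456 x2474 x2480 x2482 x2492 x2498 x2500 x2504 x2506 x2508 x2528 x2534 x2536 x2546 x2552 x2554
    x2558 x2560 x2562 x2570 x2572 x2576 x2578 x2580 x2584 x2586 x2600 x2606 x2608 x2612 x2614 x2616
    x2624 x2626 x2630 x2632 x2634 x2638 x2640 x2648 x2650 x2652 x2656 x2658 x2664 x2690 x2696 x2698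
    x2708 x2714 x2716 x2720 x2722 x2724 x2732 x2734 x2738 x2740 x2742 x2746 x2748 x2762 x2768 x2770
    x2774 x2776 x2778 x2786 x2788 x2792 x2794 x2796 x2800 x2802 x2810 x2812 x2814 x2818 x2820 x2826
    x2840 x2842 x2846 x2848 x2850 x2854 x2856 x2864 x2866 x2868 x2872 x2874 x2880 x2890 x2892 x2898
    x2942 x2960 x2966 x2968 x2978 x2984 x2986 x2990 x2992 x2994 x3014 x3020 x3022 x3032 x3038 x3040
    x3044 x3046 x3048 x3056 x3058 x3062 x3064 x3066 x3070 x3072 x3086 x3092 x3094 x3098 x3100 x3102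
    x3110 x3112 x3116 x3118 x3120 x3124 x3126 x3134 x3136 x3138 x3142 x3144 x3150 x3176 x3182 x3184
    x3194 x3200 x3202 x3206 x3208 x3210 x3218 x3220 x3224 x3226 x3228 x3232 x3234 x3248 x3254 x3256
    x3260 x3262 x3264 x3272 x3274 x3278 x3280 x3282 x3286 x3288 x3296 x3298 x3300 x3304 x3306 x3312
    x3326 x3328 x3332 x3334 x3336 x3340 x3342 x3350 x3352 x3354 x3358 x3360 x3366 x3376 x3378 x3384
    x3410 x3416 x3418 x3422 x3424 x3426 x3434 x3436 x3440 x3442 x3444 x3448 x3450 x3458 x3460 x3462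
    x3466 x3468 x3474 x3488 x3490 x3494 x3496 x3498 x3502 x3504 x3512 x3514 x3516 x3520 x3522 x3528
    x3538 x3540 x3546 x3566 x3568 x3570 x3574 x3576 x3582 x3592 x3594 x3600 x3618 x3662 x3668 x3670
    x3680 x3686 x3688 x3692 x3694 x3696 x3704 x3706 x3710 x3712 x3714 x3718 x3720 x3734 x3740 x3742
    x3746 x3748 x3750 x3758 x3760 x3764 x3766 x3768 x3772 x3774 x3782 x3784 x3786 x3790 x3792 x3798
    x3812 x3814 x3818 x3820 x3822 x3826 x3828 x3836 x3838 x3840 x3844 x3846 x3852 x3862 x3864 x3870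
    x3896 x3902 x3904 x3908 x3910 x3912 x3920 x3922 x3926 x3928 x3930 x3934 x3936 x3944 x3946 x3948
    x3952 x3954 x3960 x3974 x3976 x3980 x3982 x3984 x3988 x3990 x3998 x4000 x4002 x4006 x4008 x4014
    x4024 x4026 x4032 x4052 x4054 x4056 x4060 x4062 x4068 x4078 x4080 x4086 x4104 x4136 x4138 x4142
    x4144 x4146 x4150 x4152 x4160 x4162 x4164 x4168 x4170 x4176 x4186 x4188 x4194 x4214 x4216 x4218
    x4222 x4224 x4230 x4240 x4242 x4248 x4266 x4294 x4296 x4302 x4320 x4400 x4418 x4424 x4426 x4436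
    x4442 x4444 x4448 x4450 x4452 x4472 x4478 x4480 x4490 x4496 x4498 x4502 x4504 x4506 x4514 x4516
    x4520 x4522 x4524 x4528 x4530 x4544 x4550 x4552 x4556 x4558 x4560 x4568 x4570 x4574 x4576 x4578
    x4582 x4584 x4592 x4594 x4596 x4600 x4602 x4608 x4634 x4640 x4642 x4652 x4658 x4660 x4664 x4666
    x4668 x4676 x4678 x4682 x4684 x4686 x4690 x4692 x4706 x4712 x4714 x4718 x4720 x4722 x4730 x4732
    x4736 x4738 x4740 x4744 x4746 x4754 x4756 x4758 x4762 x4764 x4770 x4784 x4786 x4790 x4792 x4794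
    x4798 x4800 x4808 x4810 x4812 x4816 x4818 x4824 x4834 x4836 x4842 x4868 x4874 x4876 x4880 x4882
    x4884 x4892 x4894 x4898 x4900 x4902 x4906 x4908 x4916 x4918 x4920 x4924 x4926 x4932 x4946 x4948
    x4952 x4954 x4956 x4960 x4962 x4970 x4972 x4974 x4978 x4980 x4986 x4996 x4998 x5004 x5024 x5026
    x5028 x5032 x5034 x5040 x5050 x5052 x5058 x5076 x5120 x5126 x5128 x5138 x5144 x5146 x5150 x5152
    x5154 x5162 x5164 x5168 x5170 x5172 x5176 x5178 x5192 x5198 x5200 x5204 x5206 x5208 x5216 x5218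
    x5222 x5224 x5226 x5230 x5232 x5240 x5242 x5244 x5248 x5250 x5256 x5270 x5272 x5276 x5278 x5280
    x5284 x5286 x5294 x5296 x5298 x5302 x5304 x5310 x5320 x5322 x5328 x5354 x5360 x5362 x5366 x5368
    x5370 x5378 x5380 x5384 x5386 x5388 x5392 x5394 x5402 x5404 x5406 x5410 x5412 x5418 x5432 x5434
    x5438 x5440 x5442 x5446 x5448 x5456 x5458 x5460 x5464 x5466 x5472 x5482 x5484 x5490 x5510 x5512
    x5514 x5518 x5520 x5526 x5536 x5538 x5544 x5562 x5594 x5596 x5600 x5602 x5604 x5608 x5610 x5618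
    x5620 x5622 x5626 x5628 x5634 x5644 x5646 x5652 x5672 x5674 x5676 x5680 x5682 x5688 x5698 x5700
    x5706 x5724 x5752 x5754 x5760 x5778 x5840 x5846 x5848 x5852 x5854 x5856 x5864 x5866 x5870 x5872
    x5874 x5878 x5880 x5888 x5890 x5892 x5896 x5898 x5904 x5918 x5920 x5924 x5926 x5928 x5932 x5934
    x5942 x5944 x5946 x5950 x5952 x5958 x5968 x5970 x5976 x5996 x5998 x6000 x6004 x6006 x6012 x6022
    x6024 x6030 x6048 x6080 x6082 x6086 x6088 x6090 x6094 x6096 x6104 x6106 x6108 x6112 x6114 x6120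
    x6130 x6132 x6138 x6158 x6160 x6162 x6166 x6168 x6174 x6184 x6186 x6192 x6210 x6238 x6240 x6246
    x6264 x6320 x6322 x6324 x6328 x6330 x6336 x6346 x6348 x6354 x6372 x6400 x6402 x6408 x6426 x6480
    x6614 x6632 x6638 x6640 x6668 x6686 x6692 x6694 x6704 x6710 x6712 x6716 x6718 x6720 x6740 x6746
    x6748 x6758 x6764 x6766 x6770 x6772 x6774 x6782 x6784 x6788 x6790 x6792 x6796 x6798 x6830 x6848
    x6854 x6856 x6866 x6872 x6874 x6878 x6880 x6882 x6902 x6908 x6910 x6920 x6926 x6928 x6932 x6934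
    x6936 x6944 x6946 x6950 x6952 x6954 x6958 x6960 x6974 x6980 x6982 x6986 x6988 x6990 x6998 x7000
    x7004 x7006 x7008 x7012 x7014 x7022 x7024 x7026 x7030 x7032 x7038 x7064 x7070 x7072 x7082 x7088
    x7090 x7094 x7096 x7098 x7106 x7108 x7112 x7114 x7116 x7120 x7122 x7136 x7142 x7144 x7148 x7150
    x7152 x7160 x7162 x7166 x7168 x7170 x7174 x7176 x7184 x7186 x7188 x7192 x7194 x7200 x7214 x7216
    x7220 x7222 x7224 x7228 x7230 x7238 x7240 x7242 x7246 x7248 x7254 x7264 x7266 x7272 x7316 x7334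
    x7340 x7342 x7352 x7358 x7360 x7364 x7366 x7368 x7388 x7394 x7396 x7406 x7412 x7414 x7418 x7420
    x7422 x7430 x7432 x7436 x7438 x7440 x7444 x7446 x7460 x7466 x7468 x7472 x7474 x7476 x7484 x7486
    x7490 x7492 x7494 x7498 x7500 x7508 x7510 x7512 x7516 x7518 x7524 x7550 x7556 x7558 x7568 x7574
    x7576 x7580 x7582 x7584 x7592 x7594 x7598 x7600 x7602 x7606 x7608 x7622 x7628 x7630 x7634 x7636
    x7638 x7646 x7648 x7652 x7654 x7656 x7660 x7662 x7670 x7672 x7674 x7678 x7680 x7686 x7700 x7702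
    x7706 x7708 x7710 x7714 x7716 x7724 x7726 x7728 x7732 x7734 x7740 x7750 x7752 x7758 x7784 x7790
    x7792 x7796 x7798 x7800 x7808 x7810 x7814 x7816 x7818 x7822 x7824 x7832 x7834 x7836 x7840 x7842
    x7848 x7862 x7864 x7868 x7870 x7872 x7876 x7878 x7886 x7888 x7890 x7894 x7896 x7902 x7912 x7914
    x7920 x7940 x7942 x7944 x7948 x7950 x7956 x7966 x7968 x7974 x7992 x8036 x8042 x8044 x8054 x8060
    x8062 x8066 x8068 x8070 x8078 x8080 x8084 x8086 x8088 x8092 x8094 x8108 x8114 x8116 x8120 x8122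
    x8124 x8132 x8134 x8138 x8140 x8142 x8146 x8148 x8156 x8158 x8160 x8164 x8166 x8172 x8186 x8188
    x8192 x8194 x8196 x8200 x8202 x8210 x8212 x8214 x8218 x8220 x8226 x8236 x8238 x8244 x8270 x8276
    x8278 x8282 x8284 x8286 x8294 x8296 x8300 x8302 x8304 x8308 x8310 x8318 x8320 x8322 x8326 x8328
    x8334 x8348 x8350 x8354 x8356 x8358 x8362 x8364 x8372 x8374 x8376 x8380 x8382 x8388 x8398 x8400
    x8406 x8426 x8428 x8430 x8434 x8436 x8442 x8452 x8454 x8460 x8478 x8510 x8512 x8516 x8518 x8520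
    x8524 x8526 x8534 x8536 x8538 x8542 x8544 x8550 x8560 x8562 x8568 x8588 x8590 x8592 x8596 x8598
    x8604 x8614 x8616 x8622 x8640 x8668 x8670 x8676 x8694 x8774 x8792 x8798 x8800 x8810 x8816 x8818
    x8822 x8824 x8826 x8846 x8852 x8854 x8864 x8870 x8872 x8876 x8878 x8880 x8888 x8890 x8894 x8896
    x8898 x8902 x8904 x8918 x8924 x8926 x8930 x8932 x8934 x8942 x8944 x8948 x8950 x8952 x8956 x8958
    x8966 x8968 x8970 x8974 x8976 x8982 x9008 x9014 x9016 x9026 x9032 x9034 x9038 x9040 x9042 x9050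
    x9052 x9056 x9058 x9060 x9064 x9066 x9080 x9086 x9088 x9092 x9094 x9096 x9104 x9106 x9110 x9112
    x9114 x9118 x9120 x9128 x9130 x9132 x9136 x9138 x9144 x9158 x9160 x9164 x9166 x9168 x9172 x9174
    x9182 x9184 x9186 x9190 x9192 x9198 x9208 x9210 x9216 x9242 x9248 x9250 x9254 x9256 x9258 x9266
    x9268 x9272 x9274 x9276 x9280 x9282 x9290 x9292 x9294 x9298 x9300 x9306 x9320 x9322 x9326 x9328
    x9330 x9334 x9336 x9344 x9346 x9348 x9352 x9354 x9360 x9370 x9372 x9378 x9398 x9400 x9402 x9406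
    x9408 x9414 x9424 x9426 x9432 x9450 x9494 x9500 x9502 x9512 x9518 x9520 x9524 x9526 x9528 x9536
    x9538 x9542 x9544 x9546 x9550 x9552 x9566 x9572 x9574 x9578 x9580 x9582 x9590 x9592 x9596 x9598
    x9600 x9604 x9606 x9614 x9616 x9618 x9622 x9624 x9630 x9644 x9646 x9650 x9652 x9654 x9658 x9660
    x9668 x9670 x9672 x9676 x9678 x9684 x9694 x9696 x9702 x9728 x9734 x9736 x9740 x9742 x9744 x9752
    x9754 x9758 x9760 x9762 x9766 x9768 x9776 x9778 x9780 x9784 x9786 x9792 x9806 x9808 x9812 x9814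
    x9816 x9820 x9822 x9830 x9832 x9834 x9838 x9840 x9846 x9856 x9858 x9864 x9884 x9886 x9888 x9892
    x9894 x9900 x9910 x9912 x9918 x9936 x9968 x9970 x9974 x9976 x9978 x9982 x9984 x9992 x9994 x9996
    x10000 x10002 x10008 x10018 x10020 x10026 x10046 x10048 x10050 x10054 x10056 x10062 x10072
    x10074 x10080 x10098 x10126 x10128 x10134 x10152 x10214 x10220 x10222 x10226 x10228 x10230
    x10238 x10240 x10244 x10246 x10248 x10252 x10254 x10262 x10264 x10266 x10270 x10272 x10278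
    x10292 x10294 x10298 x10300 x10302 x10306 x10308 x10316 x10318 x10320 x10324 x10326 x10332
    x10342 x10344 x10350 x10370 x10372 x10374 x10378 x10380 x10386 x10396 x10398 x10404 x10422
    x10454 x10456 x10460 x10462 x10464 x10468 x10470 x10478 x10480 x10482 x10486 x10488 x10494
    x10504 x10506 x10512 x10532 x10534 x10536 x10540 x10542 x10548 x10558 x10560 x10566 x10584
    x10612 x10614 x10620 x10638 x10694 x10696 x10698 x10702 x10704 x10710 x10720 x10722 x10728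
    x10746 x10774 x10776 x10782 x10800 x10854 x10952 x10958 x10960 x10970 x10976 x10978 x10982
    x10984 x10986 x10994 x10996 x11000 x11002 x11004 x11008 x11010 x11024 x11030 x11032 x11036
    x11038 x11040 x11048 x11050 x11054 x11056 x11058 x11062 x11064 x11072 x11074 x11076 x11080
    x11082 x11088 x11102 x11104 x11108 x11110 x11112 x11116 x11118 x11126 x11128 x11130 x11134
    x11136 x11142 x11152 x11154 x11160 x11186 x11192 x11194 x11198 x11200 x11202 x11210 x11212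
    x11216 x11218 x11220 x11224 x11226 x11234 x11236 x11238 x11242 x11244 x11250 x11264 x11266
    x11270 x11272 x11274 x11278 x11280 x11288 x11290 x11292 x11296 x11298 x11304 x11314 x11316
    x11322 x11342 x11344 x11346 x11350 x11352 x11358 x11368 x11370 x11376 x11394 x11426 x11428
    x11432 x11434 x11436 x11440 x11442 x11450 x11452 x11454 x11458 x11460 x11466 x11476 x11478
    x11484 x11504 x11506 x11508 x11512 x11514 x11520 x11530 x11532 x11538 x11556 x11584 x11586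
    x11592 x11610 x11672 x11678 x11680 x11684 x11686 x11688 x11696 x11698 x11702 x11704 x11706
    x11710 x11712 x11720 x11722 x11724 x11728 x11730 x11736 x11750 x11752 x11756 x11758 x11760
    x11764 x11766 x11774 x11776 x11778 x11782 x11784 x11790 x11800 x11802 x11808 x11828 x11830
    x11832 x11836 x11838 x11844 x11854 x11856 x11862 x11880 x11912 x11914 x11918 x11920 x11922
    x11926 x11928 x11936 x11938 x11940 x11944 x11946 x11952 x11962 x11964 x11970 x11990 x11992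
    x11994 x11998 x12000 x12006 x12016 x12018 x12024 x12042 x12070 x12072 x12078 x12096 x12152
    x12154 x12156 x12160 x12162 x12168 x12178 x12180 x12186 x12204 x12232 x12234 x12240 x12258
    x12312 x12398 x12400 x12404 x12406 x12408 x12412 x12414 x12422 x12424 x12426 x12430 x12432
    x12438 x12448 x12450 x12456 x12476 x12478 x12480 x12484 x12486 x12492 x12502 x12504 x12510
    x12528 x12556 x12558 x12564 x12582 x12638 x12640 x12642 x12646 x12648 x12654 x12664 x12666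
    x12672 x12690 x12718 x12720 x12726 x12744 x12798 x12880 x12882 x12888 x12906 x12960 x13148
    x13166 x13172 x13174 x13184 x13190 x13192 x13196 x13198 x13200 x13220 x13226 x13228 x13238
    x13244 x13246 x13250 x13252 x13254 x13262 x13264 x13268 x13270 x13272 x13276 x13278 x13292
    x13298 x13300 x13304 x13306 x13308 x13316 x13318 x13322 x13324 x13326 x13330 x13332 x13340
    x13342 x13344 x13348 x13350 x13356 x13382 x13388 x13390 x13400 x13406 x13408 x13412 x13414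
    x13416 x13424 x13426 x13430 x13432 x13434 x13438 x13440 x13454 x13460 x13462 x13466 x13468
    x13470 x13478 x13480 x13484 x13486 x13488 x13492 x13494 x13502 x13504 x13506 x13510 x13512
    x13518 x13532 x13534 x13538 x13540 x13542 x13546 x13548 x13556 x13558 x13560 x13564 x13566
    x13572 x13582 x13584 x13590 x13616 x13622 x13624 x13628 x13630 x13632 x13640 x13642 x13646
    x13648 x13650 x13654 x13656 x13664 x13666 x13668 x13672 x13674 x13680 x13694 x13696 x13700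
    x13702 x13704 x13708 x13710 x13718 x13720 x13722 x13726 x13728 x13734 x13744 x13746 x13752
    x13772 x13774 x13776 x13780 x13782 x13788 x13798 x13800 x13806 x13824 x13868 x13874 x13876
    x13886 x13892 x13894 x13898 x13900 x13902 x13910 x13912 x13916 x13918 x13920 x13924 x13926
    x13940 x13946 x13948 x13952 x13954 x13956 x13964 x13966 x13970 x13972 x13974 x13978 x13980
    x13988 x13990 x13992 x13996 x13998 x14004 x14018 x14020 x14024 x14026 x14028 x14032 x14034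
    x14042 x14044 x14046 x14050 x14052 x14058 x14068 x14070 x14076 x14102 x14108 x14110 x14114
    x14116 x14118 x14126 x14128 x14132 x14134 x14136 x14140 x14142 x14150 x14152 x14154 x14158
    x14160 x14166 x14180 x14182 x14186 x14188 x14190 x14194 x14196 x14204 x14206 x14208 x14212
    x14214 x14220 x14230 x14232 x14238 x14258 x14260 x14262 x14266 x14268 x14274 x14284 x14286
    x14292 x14310 x14342 x14344 x14348 x14350 x14352 x14356 x14358 x14366 x14368 x14370 x14374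
    x14376 x14382 x14392 x14394 x14400 x14420 x14422 x14424 x14428 x14430 x14436 x14446 x14448
    x14454 x14472 x14500 x14502 x14508 x14526 x14588 x14594 x14596 x14600 x14602 x14604 x14612
    x14614 x14618 x14620 x14622 x14626 x14628 x14636 x14638 x14640 x14644 x14646 x14652 x14666
    x14668 x14672 x14674 x14676 x14680 x14682 x14690 x14692 x14694 x14698 x14700 x14706 x14716
    x14718 x14724 x14744 x14746 x14748 x14752 x14754 x14760 x14770 x14772 x14778 x14796 x14828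
    x14830 x14834 x14836 x14838 x14842 x14844 x14852 x14854 x14856 x14860 x14862 x14868 x14878
    x14880 x14886 x14906 x14908 x14910 x14914 x14916 x14922 x14932 x14934 x14940 x14958 x14986
    x14988 x14994 x15012 x15068 x15070 x15072 x15076 x15078 x15084 x15094 x15096 x15102 x15120
    x15148 x15150 x15156 x15174 x15228 x15326 x15332 x15334 x15344 x15350 x15352 x15356 x15358
    x15360 x15368 x15370 x15374 x15376 x15378 x15382 x15384 x15398 x15404 x15406 x15410 x15412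
    x15414 x15422 x15424 x15428 x15430 x15432 x15436 x15438 x15446 x15448 x15450 x15454 x15456
    x15462 x15476 x15478 x15482 x15484 x15486 x15490 x15492 x15500 x15502 x15504 x15508 x15510
    x15516 x15526 x15528 x15534 x15560 x15566 x15568 x15572 x15574 x15576 x15584 x15586 x15590
    x15592 x15594 x15598 x15600 x15608 x15610 x15612 x15616 x15618 x15624 x15638 x15640 x15644
    x15646 x15648 x15652 x15654 x15662 x15664 x15666 x15670 x15672 x15678 x15688 x15690 x15696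
    x15716 x15718 x15720 x15724 x15726 x15732 x15742 x15744 x15750 x15768 x15800 x15802 x15806
    x15808 x15810 x15814 x15816 x15824 x15826 x15828 x15832 x15834 x15840 x15850 x15852 x15858
    x15878 x15880 x15882 x15886 x15888 x15894 x15904 x15906 x15912 x15930 x15958 x15960 x15966
    x15984 x16046 x16052 x16054 x16058 x16060 x16062 x16070 x16072 x16076 x16078 x16080 x16084
    x16086 x16094 x16096 x16098 x16102 x16104 x16110 x16124 x16126 x16130 x16132 x16134 x16138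
    x16140 x16148 x16150 x16152 x16156 x16158 x16164 x16174 x16176 x16182 x16202 x16204 x16206
    x16210 x16212 x16218 x16228 x16230 x16236 x16254 x16286 x16288 x16292 x16294 x16296 x16300
    x16302 x16310 x16312 x16314 x16318 x16320 x16326 x16336 x16338 x16344 x16364 x16366 x16368
    x16372 x16374 x16380 x16390 x16392 x16398 x16416 x16444 x16446 x16452 x16470 x16526 x16528
    x16530 x16534 x16536 x16542 x16552 x16554 x16560 x16578 x16606 x16608 x16614 x16632 x16686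
    x16772 x16774 x16778 x16780 x16782 x16786 x16788 x16796 x16798 x16800 x16804 x16806 x16812
    x16822 x16824 x16830 x16850 x16852 x16854 x16858 x16860 x16866 x16876 x16878 x16884 x16902
    x16930 x16932 x16938 x16956 x17012 x17014 x17016 x17020 x17022 x17028 x17038 x17040 x17046
    x17064 x17092 x17094 x17100 x17118 x17172 x17254 x17256 x17262 x17280 x17334 x17504 x17510
    x17512 x17516 x17518 x17520 x17528 x17530 x17534 x17536 x17538 x17542 x17544 x17552 x17554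
    x17556 x17560 x17562 x17568 x17582 x17584 x17588 x17590 x17592 x17596 x17598 x17606 x17608
    x17610 x17614 x17616 x17622 x17632 x17634 x17640 x17660 x17662 x17664 x17668 x17670 x17676
    x17686 x17688 x17694 x17712 x17744 x17746 x17750 x17752 x17754 x17758 x17760 x17768 x17770
    x17772 x17776 x17778 x17784 x17794 x17796 x17802 x17822 x17824 x17826 x17830 x17832 x17838
    x17848 x17850 x17856 x17874 x17902 x17904 x17910 x17928 x17984 x17986 x17988 x17992 x17994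
    x18000 x18010 x18012 x18018 x18036 x18064 x18066 x18072 x18090 x18144 x18230 x18232 x18236
    x18238 x18240 x18244 x18246 x18254 x18256 x18258 x18262 x18264 x18270 x18280 x18282 x18288
    x18308 x18310 x18312 x18316 x18318 x18324 x18334 x18336 x18342 x18360 x18388 x18390 x18396
    x18414 x18470 x18472 x18474 x18478 x18480 x18486 x18496 x18498 x18504 x18522 x18550 x18552
    x18558 x18576 x18630 x18712 x18714 x18720 x18738 x18792 x18956 x18958 x18960 x18964 x18966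
    x18972 x18982 x18984 x18990 x19008 x19036 x19038 x19044 x19062 x19116 x19198 x19200 x19206
    x19224 x19278 x19440 : Nat) : Bool :=
  Nat.beq
    (Nat.add (Nat.add (f x80) (Nat.add (f x134) (Nat.add (f x152) (Nat.add (f x158) (Nat.add
    (f x160) (Nat.add (f x188) (Nat.add (f x206) (Nat.add (f x212) (Nat.add (f x214) (Nat.add
    (f x224) (Nat.add (f x230) (Nat.add (f x232) (Nat.add (f x236) (Nat.add (f x238) (Nat.add
    (f x240) (Nat.add (f x296) (Nat.add (f x314) (Nat.add (f x320) (Nat.add (f x322) (Nat.add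
    (f x350) (Nat.add (f x368) (Nat.add (f x374) (Nat.add (f x376) (Nat.add (f x386) (Nat.add
    (f x392) (Nat.add (f x394) (Nat.add (f x398) (Nat.add (f x400) (Nat.add (f x402) (Nat.add
    (f x422) (Nat.add (f x428) (Nat.add (f x430) (Nat.add (f x440) (Nat.add (f x446) (Nat.add
    (f x448) (Nat.add (f x452) (Nat.add (f x454) (Nat.add (f x456) (Nat.add (f x464) (Nat.add
    (f x466) (Nat.add (f x470) (Nat.add (f x472) (Nat.add (f x474) (Nat.add (f x478) (Nat.add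
    (f x480) (Nat.add (f x512) (Nat.add (f x530) (Nat.add (f x536) (Nat.add (f x538) (Nat.add
    (f x548) (Nat.add (f x554) (Nat.add (f x556) (Nat.add (f x560) (Nat.add (f x562) (Nat.add
    (f x564) (Nat.add (f x584) (Nat.add (f x590) (Nat.add (f x592) (Nat.add (f x602) (Nat.add
    (f x608) 0)))))))))))))))))))))))))))))))))))))))))))))))))))))))))))) (Nat.add (Nat.add
    (f x610) (Nat.add (f x614) (Nat.add (f x616) (Nat.add (f x618) (Nat.add (f x626) (Nat.add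
    (f x628) (Nat.add (f x632) (Nat.add (f x634) (Nat.add (f x636) (Nat.add (f x640) (Nat.add
    (f x642) (Nat.add (f x656) (Nat.add (f x662) (Nat.add (f x664) (Nat.add (f x668) (Nat.add
    (f x670) (Nat.add (f x672) (Nat.add (f x680) (Nat.add (f x682) (Nat.add (f x686) (Nat.add
    (f x688) (Nat.add (f x690) (Nat.add (f x694) (Nat.add (f x696) (Nat.add (f x704) (Nat.add
    (f x706) (Nat.add (f x708) (Nat.add (f x712) (Nat.add (f x714) (Nat.add (f x720) (Nat.add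
    (f x782) (Nat.add (f x800) (Nat.add (f x806) (Nat.add (f x808) (Nat.add (f x836) (Nat.add
    (f x854) (Nat.add (f x860) (Nat.add (f x862) (Nat.add (f x872) (Nat.add (f x878) (Nat.add
    (f x880) (Nat.add (f x884) (Nat.add (f x886) (Nat.add (f x888) (Nat.add (f x908) (Nat.add
    (f x914) (Nat.add (f x916) (Nat.add (f x926) (Nat.add (f x932) (Nat.add (f x934) (Nat.add
    (f x938) (Nat.add (f x940) (Nat.add (f x942) (Nat.add (f x950) (Nat.add (f x952) (Nat.add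
    (f x956) (Nat.add (f x958) (Nat.add (f x960) (Nat.add (f x964) (Nat.add (f x966)
    0)))))))))))))))))))))))))))))))))))))))))))))))))))))))))))) (Nat.add (Nat.add (f x998)
    (Nat.add (f x1016) (Nat.add (f x1022) (Nat.add (f x1024) (Nat.add (f x1034) (Nat.add (f x1040)
    (Nat.add (f x1042) (Nat.add (f x1046) (Nat.add (f x1048) (Nat.add (f x1050) (Nat.add (f x1070)
    (Nat.add (f x1076) (Nat.add (f x1078) (Nat.add (f x1088) (Nat.add (f x1094) (Nat.add (f x1096)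
    (Nat.add (f x1100) (Nat.add (f x1102) (Nat.add (f x1104) (Nat.add (f x1112) (Nat.add (f x1114)
    (Nat.add (f x1118) (Nat.add (f x1120) (Nat.add (f x1122) (Nat.add (f x1126) (Nat.add (f x1128)
    (Nat.add (f x1142) (Nat.add (f x1148) (Nat.add (f x1150) (Nat.add (f x1154) (Nat.add (f x1156)
    (Nat.add (f x1158) (Nat.add (f x1166) (Nat.add (f x1168) (Nat.add (f x1172) (Nat.add (f x1174)
    (Nat.add (f x1176) (Nat.add (f x1180) (Nat.add (f x1182) (Nat.add (f x1190) (Nat.add (f x1192)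
    (Nat.add (f x1194) (Nat.add (f x1198) (Nat.add (f x1200) (Nat.add (f x1206) (Nat.add (f x1232)
    (Nat.add (f x1238) (Nat.add (f x1240) (Nat.add (f x1250) (Nat.add (f x1256) (Nat.add (f x1258)
    (Nat.add (f x1262) (Nat.add (f x1264) (Nat.add (f x1266) (Nat.add (f x1274) (Nat.add (f x1276)
    (Nat.add (f x1280) (Nat.add (f x1282) (Nat.add (f x1284) (Nat.add (f x1288)
    0)))))))))))))))))))))))))))))))))))))))))))))))))))))))))))) (Nat.add (Nat.add (f x1290)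
    (Nat.add (f x1304) (Nat.add (f x1310) (Nat.add (f x1312) (Nat.add (f x1316) (Nat.add (f x1318)
    (Nat.add (f x1320) (Nat.add (f x1328) (Nat.add (f x1330) (Nat.add (f x1334) (Nat.add (f x1336)
    (Nat.add (f x1338) (Nat.add (f x1342) (Nat.add (f x1344) (Nat.add (f x1352) (Nat.add (f x1354)
    (Nat.add (f x1356) (Nat.add (f x1360) (Nat.add (f x1362) (Nat.add (f x1368) (Nat.add (f x1382)
    (Nat.add (f x1384) (Nat.add (f x1388) (Nat.add (f x1390) (Nat.add (f x1392) (Nat.add (f x1396)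
    (Nat.add (f x1398) (Nat.add (f x1406) (Nat.add (f x1408) (Nat.add (f x1410) (Nat.add (f x1414)
    (Nat.add (f x1416) (Nat.add (f x1422) (Nat.add (f x1432) (Nat.add (f x1434) (Nat.add (f x1440)
    (Nat.add (f x1484) (Nat.add (f x1502) (Nat.add (f x1508) (Nat.add (f x1510) (Nat.add (f x1520)
    (Nat.add (f x1526) (Nat.add (f x1528) (Nat.add (f x1532) (Nat.add (f x1534) (Nat.add (f x1536)
    (Nat.add (f x1556) (Nat.add (f x1562) (Nat.add (f x1564) (Nat.add (f x1574) (Nat.add (f x1580)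
    (Nat.add (f x1582) (Nat.add (f x1586) (Nat.add (f x1588) (Nat.add (f x1590) (Nat.add (f x1598)
    (Nat.add (f x1600) (Nat.add (f x1604) (Nat.add (f x1606) (Nat.add (f x1608)
    0)))))))))))))))))))))))))))))))))))))))))))))))))))))))))))) (Nat.add (Nat.add (f x1612)
    (Nat.add (f x1614) (Nat.add (f x1628) (Nat.add (f x1634) (Nat.add (f x1636) (Nat.add (f x1640)
    (Nat.add (f x1642) (Nat.add (f x1644) (Nat.add (f x1652) (Nat.add (f x1654) (Nat.add (f x1658)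
    (Nat.add (f x1660) (Nat.add (f x1662) (Nat.add (f x1666) (Nat.add (f x1668) (Nat.add (f x1676)
    (Nat.add (f x1678) (Nat.add (f x1680) (Nat.add (f x1684) (Nat.add (f x1686) (Nat.add (f x1692)
    (Nat.add (f x1718) (Nat.add (f x1724) (Nat.add (f x1726) (Nat.add (f x1736) (Nat.add (f x1742)
    (Nat.add (f x1744) (Nat.add (f x1748) (Nat.add (f x1750) (Nat.add (f x1752) (Nat.add (f x1760)
    (Nat.add (f x1762) (Nat.add (f x1766) (Nat.add (f x1768) (Nat.add (f x1770) (Nat.add (f x1774)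
    (Nat.add (f x1776) (Nat.add (f x1790) (Nat.add (f x1796) (Nat.add (f x1798) (Nat.add (f x1802)
    (Nat.add (f x1804) (Nat.add (f x1806) (Nat.add (f x1814) (Nat.add (f x1816) (Nat.add (f x1820)
    (Nat.add (f x1822) (Nat.add (f x1824) (Nat.add (f x1828) (Nat.add (f x1830) (Nat.add (f x1838)
    (Nat.add (f x1840) (Nat.add (f x1842) (Nat.add (f x1846) (Nat.add (f x1848) (Nat.add (f x1854)
    (Nat.add (f x1868) (Nat.add (f x1870) (Nat.add (f x1874) (Nat.add (f x1876)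
    0)))))))))))))))))))))))))))))))))))))))))))))))))))))))))))) (Nat.add (Nat.add (f x1878)
    (Nat.add (f x1882) (Nat.add (f x1884) (Nat.add (f x1892) (Nat.add (f x1894) (Nat.add (f x1896)
    (Nat.add (f x1900) (Nat.add (f x1902) (Nat.add (f x1908) (Nat.add (f x1918) (Nat.add (f x1920)
    (Nat.add (f x1926) (Nat.add (f x1952) (Nat.add (f x1958) (Nat.add (f x1960) (Nat.add (f x1964)
    (Nat.add (f x1966) (Nat.add (f x1968) (Nat.add (f x1976) (Nat.add (f x1978) (Nat.add (f x1982)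
    (Nat.add (f x1984) (Nat.add (f x1986) (Nat.add (f x1990) (Nat.add (f x1992) (Nat.add (f x2000)
    (Nat.add (f x2002) (Nat.add (f x2004) (Nat.add (f x2008) (Nat.add (f x2010) (Nat.add (f x2016)
    (Nat.add (f x2030) (Nat.add (f x2032) (Nat.add (f x2036) (Nat.add (f x2038) (Nat.add (f x2040)
    (Nat.add (f x2044) (Nat.add (f x2046) (Nat.add (f x2054) (Nat.add (f x2056) (Nat.add (f x2058)
    (Nat.add (f x2062) (Nat.add (f x2064) (Nat.add (f x2070) (Nat.add (f x2080) (Nat.add (f x2082)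
    (Nat.add (f x2088) (Nat.add (f x2108) (Nat.add (f x2110) (Nat.add (f x2112) (Nat.add (f x2116)
    (Nat.add (f x2118) (Nat.add (f x2124) (Nat.add (f x2134) (Nat.add (f x2136) (Nat.add (f x2142)
    (Nat.add (f x2160) (Nat.add (f x2240) (Nat.add (f x2258) (Nat.add (f x2264)
    0)))))))))))))))))))))))))))))))))))))))))))))))))))))))))))) (Nat.add (Nat.add (f x2266)
    (Nat.add (f x2294) (Nat.add (f x2312) (Nat.add (f x2318) (Nat.add (f x2320) (Nat.add (f x2330)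
    (Nat.add (f x2336) (Nat.add (f x2338) (Nat.add (f x2342) (Nat.add (f x2344) (Nat.add (f x2346)
    (Nat.add (f x2366) (Nat.add (f x2372) (Nat.add (f x2374) (Nat.add (f x2384) (Nat.add (f x2390)
    (Nat.add (f x2392) (Nat.add (f x2396) (Nat.add (f x2398) (Nat.add (f x2400) (Nat.add (f x2408)
    (Nat.add (f x2410) (Nat.add (f x2414) (Nat.add (f x2416) (Nat.add (f x2418) (Nat.add (f x2422)
    (Nat.add (f x2424) (Nat.add (f x2456) (Nat.add (f x2474) (Nat.add (f x2480) (Nat.add (f x2482)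
    (Nat.add (f x2492) (Nat.add (f x2498) (Nat.add (f x2500) (Nat.add (f x2504) (Nat.add (f x2506)
    (Nat.add (f x2508) (Nat.add (f x2528) (Nat.add (f x2534) (Nat.add (f x2536) (Nat.add (f x2546)
    (Nat.add (f x2552) (Nat.add (f x2554) (Nat.add (f x2558) (Nat.add (f x2560) (Nat.add (f x2562)
    (Nat.add (f x2570) (Nat.add (f x2572) (Nat.add (f x2576) (Nat.add (f x2578) (Nat.add (f x2580)
    (Nat.add (f x2584) (Nat.add (f x2586) (Nat.add (f x2600) (Nat.add (f x2606) (Nat.add (f x2608)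
    (Nat.add (f x2612) (Nat.add (f x2614) (Nat.add (f x2616) (Nat.add (f x2624)
    0)))))))))))))))))))))))))))))))))))))))))))))))))))))))))))) (Nat.add (Nat.add (f x2626)
    (Nat.add (f x2630) (Nat.add (f x2632) (Nat.add (f x2634) (Nat.add (f x2638) (Nat.add (f x2640)
    (Nat.add (f x2648) (Nat.add (f x2650) (Nat.add (f x2652) (Nat.add (f x2656) (Nat.add (f x2658)
    (Nat.add (f x2664) (Nat.add (f x2690) (Nat.add (f x2696) (Nat.add (f x2698) (Nat.add (f x2708)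
    (Nat.add (f x2714) (Nat.add (f x2716) (Nat.add (f x2720) (Nat.add (f x2722) (Nat.add (f x2724)
    (Nat.add (f x2732) (Nat.add (f x2734) (Nat.add (f x2738) (Nat.add (f x2740) (Nat.add (f x2742)
    (Nat.add (f x2746) (Nat.add (f x2748) (Nat.add (f x2762) (Nat.add (f x2768) (Nat.add (f x2770)
    (Nat.add (f x2774) (Nat.add (f x2776) (Nat.add (f x2778) (Nat.add (f x2786) (Nat.add (f x2788)
    (Nat.add (f x2792) (Nat.add (f x2794) (Nat.add (f x2796) (Nat.add (f x2800) (Nat.add (f x2802)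
    (Nat.add (f x2810) (Nat.add (f x2812) (Nat.add (f x2814) (Nat.add (f x2818) (Nat.add (f x2820)
    (Nat.add (f x2826) (Nat.add (f x2840) (Nat.add (f x2842) (Nat.add (f x2846) (Nat.add (f x2848)
    (Nat.add (f x2850) (Nat.add (f x2854) (Nat.add (f x2856) (Nat.add (f x2864) (Nat.add (f x2866)
    (Nat.add (f x2868) (Nat.add (f x2872) (Nat.add (f x2874) (Nat.add (f x2880)
    0)))))))))))))))))))))))))))))))))))))))))))))))))))))))))))) (Nat.add (Nat.add (f x2890)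
    (Nat.add (f x2892) (Nat.add (f x2898) (Nat.add (f x2942) (Nat.add (f x2960) (Nat.add (f x2966)
    (Nat.add (f x2968) (Nat.add (f x2978) (Nat.add (f x2984) (Nat.add (f x2986) (Nat.add (f x2990)
    (Nat.add (f x2992) (Nat.add (f x2994) (Nat.add (f x3014) (Nat.add (f x3020) (Nat.add (f x3022)
    (Nat.add (f x3032) (Nat.add (f x3038) (Nat.add (f x3040) (Nat.add (f x3044) (Nat.add (f x3046)
    (Nat.add (f x3048) (Nat.add (f x3056) (Nat.add (f x3058) (Nat.add (f x3062) (Nat.add (f x3064)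
    (Nat.add (f x3066) (Nat.add (f x3070) (Nat.add (f x3072) (Nat.add (f x3086) (Nat.add (f x3092)
    (Nat.add (f x3094) (Nat.add (f x3098) (Nat.add (f x3100) (Nat.add (f x3102) (Nat.add (f x3110)
    (Nat.add (f x3112) (Nat.add (f x3116) (Nat.add (f x3118) (Nat.add (f x3120) (Nat.add (f x3124)
    (Nat.add (f x3126) (Nat.add (f x3134) (Nat.add (f x3136) (Nat.add (f x3138) (Nat.add (f x3142)
    (Nat.add (f x3144) (Nat.add (f x3150) (Nat.add (f x3176) (Nat.add (f x3182) (Nat.add (f x3184)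
    (Nat.add (f x3194) (Nat.add (f x3200) (Nat.add (f x3202) (Nat.add (f x3206) (Nat.add (f x3208)
    (Nat.add (f x3210) (Nat.add (f x3218) (Nat.add (f x3220) (Nat.add (f x3224)
    0)))))))))))))))))))))))))))))))))))))))))))))))))))))))))))) (Nat.add (Nat.add (f x3226)
    (Nat.add (f x3228) (Nat.add (f x3232) (Nat.add (f x3234) (Nat.add (f x3248) (Nat.add (f x3254)
    (Nat.add (f x3256) (Nat.add (f x3260) (Nat.add (f x3262) (Nat.add (f x3264) (Nat.add (f x3272)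
    (Nat.add (f x3274) (Nat.add (f x3278) (Nat.add (f x3280) (Nat.add (f x3282) (Nat.add (f x3286)
    (Nat.add (f x3288) (Nat.add (f x3296) (Nat.add (f x3298) (Nat.add (f x3300) (Nat.add (f x3304)
    (Nat.add (f x3306) (Nat.add (f x3312) (Nat.add (f x3326) (Nat.add (f x3328) (Nat.add (f x3332)
    (Nat.add (f x3334) (Nat.add (f x3336) (Nat.add (f x3340) (Nat.add (f x3342) (Nat.add (f x3350)
    (Nat.add (f x3352) (Nat.add (f x3354) (Nat.add (f x3358) (Nat.add (f x3360) (Nat.add (f x3366)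
    (Nat.add (f x3376) (Nat.add (f x3378) (Nat.add (f x3384) (Nat.add (f x3410) (Nat.add (f x3416)
    (Nat.add (f x3418) (Nat.add (f x3422) (Nat.add (f x3424) (Nat.add (f x3426) (Nat.add (f x3434)
    (Nat.add (f x3436) (Nat.add (f x3440) (Nat.add (f x3442) (Nat.add (f x3444) (Nat.add (f x3448)
    (Nat.add (f x3450) (Nat.add (f x3458) (Nat.add (f x3460) (Nat.add (f x3462) (Nat.add (f x3466)
    (Nat.add (f x3468) (Nat.add (f x3474) (Nat.add (f x3488) (Nat.add (f x3490)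
    0)))))))))))))))))))))))))))))))))))))))))))))))))))))))))))) (Nat.add (Nat.add (f x3494)
    (Nat.add (f x3496) (Nat.add (f x3498) (Nat.add (f x3502) (Nat.add (f x3504) (Nat.add (f x3512)
    (Nat.add (f x3514) (Nat.add (f x3516) (Nat.add (f x3520) (Nat.add (f x3522) (Nat.add (f x3528)
    (Nat.add (f x3538) (Nat.add (f x3540) (Nat.add (f x3546) (Nat.add (f x3566) (Nat.add (f x3568)
    (Nat.add (f x3570) (Nat.add (f x3574) (Nat.add (f x3576) (Nat.add (f x3582) (Nat.add (f x3592)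
    (Nat.add (f x3594) (Nat.add (f x3600) (Nat.add (f x3618) (Nat.add (f x3662) (Nat.add (f x3668)
    (Nat.add (f x3670) (Nat.add (f x3680) (Nat.add (f x3686) (Nat.add (f x3688) (Nat.add (f x3692)
    (Nat.add (f x3694) (Nat.add (f x3696) (Nat.add (f x3704) (Nat.add (f x3706) (Nat.add (f x3710)
    (Nat.add (f x3712) (Nat.add (f x3714) (Nat.add (f x3718) (Nat.add (f x3720) (Nat.add (f x3734)
    (Nat.add (f x3740) (Nat.add (f x3742) (Nat.add (f x3746) (Nat.add (f x3748) (Nat.add (f x3750)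
    (Nat.add (f x3758) (Nat.add (f x3760) (Nat.add (f x3764) (Nat.add (f x3766) (Nat.add (f x3768)
    (Nat.add (f x3772) (Nat.add (f x3774) (Nat.add (f x3782) (Nat.add (f x3784) (Nat.add (f x3786)
    (Nat.add (f x3790) (Nat.add (f x3792) (Nat.add (f x3798) (Nat.add (f x3812)
    0)))))))))))))))))))))))))))))))))))))))))))))))))))))))))))) (Nat.add (Nat.add (f x3814)
    (Nat.add (f x3818) (Nat.add (f x3820) (Nat.add (f x3822) (Nat.add (f x3826) (Nat.add (f x3828)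
    (Nat.add (f x3836) (Nat.add (f x3838) (Nat.add (f x3840) (Nat.add (f x3844) (Nat.add (f x3846)
    (Nat.add (f x3852) (Nat.add (f x3862) (Nat.add (f x3864) (Nat.add (f x3870) (Nat.add (f x3896)
    (Nat.add (f x3902) (Nat.add (f x3904) (Nat.add (f x3908) (Nat.add (f x3910) (Nat.add (f x3912)
    (Nat.add (f x3920) (Nat.add (f x3922) (Nat.add (f x3926) (Nat.add (f x3928) (Nat.add (f x3930)
    (Nat.add (f x3934) (Nat.add (f x3936) (Nat.add (f x3944) (Nat.add (f x3946) (Nat.add (f x3948)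
    (Nat.add (f x3952) (Nat.add (f x3954) (Nat.add (f x3960) (Nat.add (f x3974) (Nat.add (f x3976)
    (Nat.add (f x3980) (Nat.add (f x3982) (Nat.add (f x3984) (Nat.add (f x3988) (Nat.add (f x3990)
    (Nat.add (f x3998) (Nat.add (f x4000) (Nat.add (f x4002) (Nat.add (f x4006) (Nat.add (f x4008)
    (Nat.add (f x4014) (Nat.add (f x4024) (Nat.add (f x4026) (Nat.add (f x4032) (Nat.add (f x4052)
    (Nat.add (f x4054) (Nat.add (f x4056) (Nat.add (f x4060) (Nat.add (f x4062) (Nat.add (f x4068)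
    (Nat.add (f x4078) (Nat.add (f x4080) (Nat.add (f x4086) (Nat.add (f x4104)
    0)))))))))))))))))))))))))))))))))))))))))))))))))))))))))))) (Nat.add (Nat.add (f x4136)
    (Nat.add (f x4138) (Nat.add (f x4142) (Nat.add (f x4144) (Nat.add (f x4146) (Nat.add (f x4150)
    (Nat.add (f x4152) (Nat.add (f x4160) (Nat.add (f x4162) (Nat.add (f x4164) (Nat.add (f x4168)
    (Nat.add (f x4170) (Nat.add (f x4176) (Nat.add (f x4186) (Nat.add (f x4188) (Nat.add (f x4194)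
    (Nat.add (f x4214) (Nat.add (f x4216) (Nat.add (f x4218) (Nat.add (f x4222) (Nat.add (f x4224)
    (Nat.add (f x4230) (Nat.add (f x4240) (Nat.add (f x4242) (Nat.add (f x4248) (Nat.add (f x4266)
    (Nat.add (f x4294) (Nat.add (f x4296) (Nat.add (f x4302) (Nat.add (f x4320) (Nat.add (f x4400)
    (Nat.add (f x4418) (Nat.add (f x4424) (Nat.add (f x4426) (Nat.add (f x4436) (Nat.add (f x4442)
    (Nat.add (f x4444) (Nat.add (f x4448) (Nat.add (f x4450) (Nat.add (f x4452) (Nat.add (f x4472)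
    (Nat.add (f x4478) (Nat.add (f x4480) (Nat.add (f x4490) (Nat.add (f x4496) (Nat.add (f x4498)
    (Nat.add (f x4502) (Nat.add (f x4504) (Nat.add (f x4506) (Nat.add (f x4514) (Nat.add (f x4516)
    (Nat.add (f x4520) (Nat.add (f x4522) (Nat.add (f x4524) (Nat.add (f x4528) (Nat.add (f x4530)
    (Nat.add (f x4544) (Nat.add (f x4550) (Nat.add (f x4552) (Nat.add (f x4556)
    0)))))))))))))))))))))))))))))))))))))))))))))))))))))))))))) (Nat.add (Nat.add (f x4558)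
    (Nat.add (f x4560) (Nat.add (f x4568) (Nat.add (f x4570) (Nat.add (f x4574) (Nat.add (f x4576)
    (Nat.add (f x4578) (Nat.add (f x4582) (Nat.add (f x4584) (Nat.add (f x4592) (Nat.add (f x4594)
    (Nat.add (f x4596) (Nat.add (f x4600) (Nat.add (f x4602) (Nat.add (f x4608) (Nat.add (f x4634)
    (Nat.add (f x4640) (Nat.add (f x4642) (Nat.add (f x4652) (Nat.add (f x4658) (Nat.add (f x4660)
    (Nat.add (f x4664) (Nat.add (f x4666) (Nat.add (f x4668) (Nat.add (f x4676) (Nat.add (f x4678)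
    (Nat.add (f x4682) (Nat.add (f x4684) (Nat.add (f x4686) (Nat.add (f x4690) (Nat.add (f x4692)
    (Nat.add (f x4706) (Nat.add (f x4712) (Nat.add (f x4714) (Nat.add (f x4718) (Nat.add (f x4720)
    (Nat.add (f x4722) (Nat.add (f x4730) (Nat.add (f x4732) (Nat.add (f x4736) (Nat.add (f x4738)
    (Nat.add (f x4740) (Nat.add (f x4744) (Nat.add (f x4746) (Nat.add (f x4754) (Nat.add (f x4756)
    (Nat.add (f x4758) (Nat.add (f x4762) (Nat.add (f x4764) (Nat.add (f x4770) (Nat.add (f x4784)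
    (Nat.add (f x4786) (Nat.add (f x4790) (Nat.add (f x4792) (Nat.add (f x4794) (Nat.add (f x4798)
    (Nat.add (f x4800) (Nat.add (f x4808) (Nat.add (f x4810) (Nat.add (f x4812)
    0)))))))))))))))))))))))))))))))))))))))))))))))))))))))))))) (Nat.add (Nat.add (f x4816)
    (Nat.add (f x4818) (Nat.add (f x4824) (Nat.add (f x4834) (Nat.add (f x4836) (Nat.add (f x4842)
    (Nat.add (f x4868) (Nat.add (f x4874) (Nat.add (f x4876) (Nat.add (f x4880) (Nat.add (f x4882)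
    (Nat.add (f x4884) (Nat.add (f x4892) (Nat.add (f x4894) (Nat.add (f x4898) (Nat.add (f x4900)
    (Nat.add (f x4902) (Nat.add (f x4906) (Nat.add (f x4908) (Nat.add (f x4916) (Nat.add (f x4918)
    (Nat.add (f x4920) (Nat.add (f x4924) (Nat.add (f x4926) (Nat.add (f x4932) (Nat.add (f x4946)
    (Nat.add (f x4948) (Nat.add (f x4952) (Nat.add (f x4954) (Nat.add (f x4956) (Nat.add (f x4960)
    (Nat.add (f x4962) (Nat.add (f x4970) (Nat.add (f x4972) (Nat.add (f x4974) (Nat.add (f x4978)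
    (Nat.add (f x4980) (Nat.add (f x4986) (Nat.add (f x4996) (Nat.add (f x4998) (Nat.add (f x5004)
    (Nat.add (f x5024) (Nat.add (f x5026) (Nat.add (f x5028) (Nat.add (f x5032) (Nat.add (f x5034)
    (Nat.add (f x5040) (Nat.add (f x5050) (Nat.add (f x5052) (Nat.add (f x5058) (Nat.add (f x5076)
    (Nat.add (f x5120) (Nat.add (f x5126) (Nat.add (f x5128) (Nat.add (f x5138) (Nat.add (f x5144)
    (Nat.add (f x5146) (Nat.add (f x5150) (Nat.add (f x5152) (Nat.add (f x5154)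
    0)))))))))))))))))))))))))))))))))))))))))))))))))))))))))))) (Nat.add (Nat.add (f x5162)
    (Nat.add (f x5164) (Nat.add (f x5168) (Nat.add (f x5170) (Nat.add (f x5172) (Nat.add (f x5176)
    (Nat.add (f x5178) (Nat.add (f x5192) (Nat.add (f x5198) (Nat.add (f x5200) (Nat.add (f x5204)
    (Nat.add (f x5206) (Nat.add (f x5208) (Nat.add (f x5216) (Nat.add (f x5218) (Nat.add (f x5222)
    (Nat.add (f x5224) (Nat.add (f x5226) (Nat.add (f x5230) (Nat.add (f x5232) (Nat.add (f x5240)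
    (Nat.add (f x5242) (Nat.add (f x5244) (Nat.add (f x5248) (Nat.add (f x5250) (Nat.add (f x5256)
    (Nat.add (f x5270) (Nat.add (f x5272) (Nat.add (f x5276) (Nat.add (f x5278) (Nat.add (f x5280)
    (Nat.add (f x5284) (Nat.add (f x5286) (Nat.add (f x5294) (Nat.add (f x5296) (Nat.add (f x5298)
    (Nat.add (f x5302) (Nat.add (f x5304) (Nat.add (f x5310) (Nat.add (f x5320) (Nat.add (f x5322)
    (Nat.add (f x5328) (Nat.add (f x5354) (Nat.add (f x5360) (Nat.add (f x5362) (Nat.add (f x5366)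
    (Nat.add (f x5368) (Nat.add (f x5370) (Nat.add (f x5378) (Nat.add (f x5380) (Nat.add (f x5384)
    (Nat.add (f x5386) (Nat.add (f x5388) (Nat.add (f x5392) (Nat.add (f x5394) (Nat.add (f x5402)
    (Nat.add (f x5404) (Nat.add (f x5406) (Nat.add (f x5410) (Nat.add (f x5412)
    0)))))))))))))))))))))))))))))))))))))))))))))))))))))))))))) (Nat.add (Nat.add (f x5418)
    (Nat.add (f x5432) (Nat.add (f x5434) (Nat.add (f x5438) (Nat.add (f x5440) (Nat.add (f x5442)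
    (Nat.add (f x5446) (Nat.add (f x5448) (Nat.add (f x5456) (Nat.add (f x5458) (Nat.add (f x5460)
    (Nat.add (f x5464) (Nat.add (f x5466) (Nat.add (f x5472) (Nat.add (f x5482) (Nat.add (f x5484)
    (Nat.add (f x5490) (Nat.add (f x5510) (Nat.add (f x5512) (Nat.add (f x5514) (Nat.add (f x5518)
    (Nat.add (f x5520) (Nat.add (f x5526) (Nat.add (f x5536) (Nat.add (f x5538) (Nat.add (f x5544)
    (Nat.add (f x5562) (Nat.add (f x5594) (Nat.add (f x5596) (Nat.add (f x5600) (Nat.add (f x5602)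
    (Nat.add (f x5604) (Nat.add (f x5608) (Nat.add (f x5610) (Nat.add (f x5618) (Nat.add (f x5620)
    (Nat.add (f x5622) (Nat.add (f x5626) (Nat.add (f x5628) (Nat.add (f x5634) (Nat.add (f x5644)
    (Nat.add (f x5646) (Nat.add (f x5652) (Nat.add (f x5672) (Nat.add (f x5674) (Nat.add (f x5676)
    (Nat.add (f x5680) (Nat.add (f x5682) (Nat.add (f x5688) (Nat.add (f x5698) (Nat.add (f x5700)
    (Nat.add (f x5706) (Nat.add (f x5724) (Nat.add (f x5752) (Nat.add (f x5754) (Nat.add (f x5760)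
    (Nat.add (f x5778) (Nat.add (f x5840) (Nat.add (f x5846) (Nat.add (f x5848)
    0)))))))))))))))))))))))))))))))))))))))))))))))))))))))))))) (Nat.add (Nat.add (f x5852)
    (Nat.add (f x5854) (Nat.add (f x5856) (Nat.add (f x5864) (Nat.add (f x5866) (Nat.add (f x5870)
    (Nat.add (f x5872) (Nat.add (f x5874) (Nat.add (f x5878) (Nat.add (f x5880) (Nat.add (f x5888)
    (Nat.add (f x5890) (Nat.add (f x5892) (Nat.add (f x5896) (Nat.add (f x5898) (Nat.add (f x5904)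
    (Nat.add (f x5918) (Nat.add (f x5920) (Nat.add (f x5924) (Nat.add (f x5926) (Nat.add (f x5928)
    (Nat.add (f x5932) (Nat.add (f x5934) (Nat.add (f x5942) (Nat.add (f x5944) (Nat.add (f x5946)
    (Nat.add (f x5950) (Nat.add (f x5952) (Nat.add (f x5958) (Nat.add (f x5968) (Nat.add (f x5970)
    (Nat.add (f x5976) (Nat.add (f x5996) (Nat.add (f x5998) (Nat.add (f x6000) (Nat.add (f x6004)
    (Nat.add (f x6006) (Nat.add (f x6012) (Nat.add (f x6022) (Nat.add (f x6024) (Nat.add (f x6030)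
    (Nat.add (f x6048) (Nat.add (f x6080) (Nat.add (f x6082) (Nat.add (f x6086) (Nat.add (f x6088)
    (Nat.add (f x6090) (Nat.add (f x6094) (Nat.add (f x6096) (Nat.add (f x6104) (Nat.add (f x6106)
    (Nat.add (f x6108) (Nat.add (f x6112) (Nat.add (f x6114) (Nat.add (f x6120) (Nat.add (f x6130)
    (Nat.add (f x6132) (Nat.add (f x6138) (Nat.add (f x6158) (Nat.add (f x6160)
    0)))))))))))))))))))))))))))))))))))))))))))))))))))))))))))) (Nat.add (Nat.add (f x6162)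
    (Nat.add (f x6166) (Nat.add (f x6168) (Nat.add (f x6174) (Nat.add (f x6184) (Nat.add (f x6186)
    (Nat.add (f x6192) (Nat.add (f x6210) (Nat.add (f x6238) (Nat.add (f x6240) (Nat.add (f x6246)
    (Nat.add (f x6264) (Nat.add (f x6320) (Nat.add (f x6322) (Nat.add (f x6324) (Nat.add (f x6328)
    (Nat.add (f x6330) (Nat.add (f x6336) (Nat.add (f x6346) (Nat.add (f x6348) (Nat.add (f x6354)
    (Nat.add (f x6372) (Nat.add (f x6400) (Nat.add (f x6402) (Nat.add (f x6408) (Nat.add (f x6426)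
    (Nat.add (f x6480) (Nat.add (f x6614) (Nat.add (f x6632) (Nat.add (f x6638) (Nat.add (f x6640)
    (Nat.add (f x6668) (Nat.add (f x6686) (Nat.add (f x6692) (Nat.add (f x6694) (Nat.add (f x6704)
    (Nat.add (f x6710) (Nat.add (f x6712) (Nat.add (f x6716) (Nat.add (f x6718) (Nat.add (f x6720)
    (Nat.add (f x6740) (Nat.add (f x6746) (Nat.add (f x6748) (Nat.add (f x6758) (Nat.add (f x6764)
    (Nat.add (f x6766) (Nat.add (f x6770) (Nat.add (f x6772) (Nat.add (f x6774) (Nat.add (f x6782)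
    (Nat.add (f x6784) (Nat.add (f x6788) (Nat.add (f x6790) (Nat.add (f x6792) (Nat.add (f x6796)
    (Nat.add (f x6798) (Nat.add (f x6830) (Nat.add (f x6848) (Nat.add (f x6854)
    0)))))))))))))))))))))))))))))))))))))))))))))))))))))))))))) (Nat.add (Nat.add (f x6856)
    (Nat.add (f x6866) (Nat.add (f x6872) (Nat.add (f x6874) (Nat.add (f x6878) (Nat.add (f x6880)
    (Nat.add (f x6882) (Nat.add (f x6902) (Nat.add (f x6908) (Nat.add (f x6910) (Nat.add (f x6920)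
    (Nat.add (f x6926) (Nat.add (f x6928) (Nat.add (f x6932) (Nat.add (f x6934) (Nat.add (f x6936)
    (Nat.add (f x6944) (Nat.add (f x6946) (Nat.add (f x6950) (Nat.add (f x6952) (Nat.add (f x6954)
    (Nat.add (f x6958) (Nat.add (f x6960) (Nat.add (f x6974) (Nat.add (f x6980) (Nat.add (f x6982)
    (Nat.add (f x6986) (Nat.add (f x6988) (Nat.add (f x6990) (Nat.add (f x6998) (Nat.add (f x7000)
    (Nat.add (f x7004) (Nat.add (f x7006) (Nat.add (f x7008) (Nat.add (f x7012) (Nat.add (f x7014)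
    (Nat.add (f x7022) (Nat.add (f x7024) (Nat.add (f x7026) (Nat.add (f x7030) (Nat.add (f x7032)
    (Nat.add (f x7038) (Nat.add (f x7064) (Nat.add (f x7070) (Nat.add (f x7072) (Nat.add (f x7082)
    (Nat.add (f x7088) (Nat.add (f x7090) (Nat.add (f x7094) (Nat.add (f x7096) (Nat.add (f x7098)
    (Nat.add (f x7106) (Nat.add (f x7108) (Nat.add (f x7112) (Nat.add (f x7114) (Nat.add (f x7116)
    (Nat.add (f x7120) (Nat.add (f x7122) (Nat.add (f x7136) (Nat.add (f x7142)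
    0)))))))))))))))))))))))))))))))))))))))))))))))))))))))))))) (Nat.add (Nat.add (f x7144)
    (Nat.add (f x7148) (Nat.add (f x7150) (Nat.add (f x7152) (Nat.add (f x7160) (Nat.add (f x7162)
    (Nat.add (f x7166) (Nat.add (f x7168) (Nat.add (f x7170) (Nat.add (f x7174) (Nat.add (f x7176)
    (Nat.add (f x7184) (Nat.add (f x7186) (Nat.add (f x7188) (Nat.add (f x7192) (Nat.add (f x7194)
    (Nat.add (f x7200) (Nat.add (f x7214) (Nat.add (f x7216) (Nat.add (f x7220) (Nat.add (f x7222)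
    (Nat.add (f x7224) (Nat.add (f x7228) (Nat.add (f x7230) (Nat.add (f x7238) (Nat.add (f x7240)
    (Nat.add (f x7242) (Nat.add (f x7246) (Nat.add (f x7248) (Nat.add (f x7254) (Nat.add (f x7264)
    (Nat.add (f x7266) (Nat.add (f x7272) (Nat.add (f x7316) (Nat.add (f x7334) (Nat.add (f x7340)
    (Nat.add (f x7342) (Nat.add (f x7352) (Nat.add (f x7358) (Nat.add (f x7360) (Nat.add (f x7364)
    (Nat.add (f x7366) (Nat.add (f x7368) (Nat.add (f x7388) (Nat.add (f x7394) (Nat.add (f x7396)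
    (Nat.add (f x7406) (Nat.add (f x7412) (Nat.add (f x7414) (Nat.add (f x7418) (Nat.add (f x7420)
    (Nat.add (f x7422) (Nat.add (f x7430) (Nat.add (f x7432) (Nat.add (f x7436) (Nat.add (f x7438)
    (Nat.add (f x7440) (Nat.add (f x7444) (Nat.add (f x7446) (Nat.add (f x7460)
    0)))))))))))))))))))))))))))))))))))))))))))))))))))))))))))) (Nat.add (Nat.add (f x7466)
    (Nat.add (f x7468) (Nat.add (f x7472) (Nat.add (f x7474) (Nat.add (f x7476) (Nat.add (f x7484)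
    (Nat.add (f x7486) (Nat.add (f x7490) (Nat.add (f x7492) (Nat.add (f x7494) (Nat.add (f x7498)
    (Nat.add (f x7500) (Nat.add (f x7508) (Nat.add (f x7510) (Nat.add (f x7512) (Nat.add (f x7516)
    (Nat.add (f x7518) (Nat.add (f x7524) (Nat.add (f x7550) (Nat.add (f x7556) (Nat.add (f x7558)
    (Nat.add (f x7568) (Nat.add (f x7574) (Nat.add (f x7576) (Nat.add (f x7580) (Nat.add (f x7582)
    (Nat.add (f x7584) (Nat.add (f x7592) (Nat.add (f x7594) (Nat.add (f x7598) (Nat.add (f x7600)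
    (Nat.add (f x7602) (Nat.add (f x7606) (Nat.add (f x7608) (Nat.add (f x7622) (Nat.add (f x7628)
    (Nat.add (f x7630) (Nat.add (f x7634) (Nat.add (f x7636) (Nat.add (f x7638) (Nat.add (f x7646)
    (Nat.add (f x7648) (Nat.add (f x7652) (Nat.add (f x7654) (Nat.add (f x7656) (Nat.add (f x7660)
    (Nat.add (f x7662) (Nat.add (f x7670) (Nat.add (f x7672) (Nat.add (f x7674) (Nat.add (f x7678)
    (Nat.add (f x7680) (Nat.add (f x7686) (Nat.add (f x7700) (Nat.add (f x7702) (Nat.add (f x7706)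
    (Nat.add (f x7708) (Nat.add (f x7710) (Nat.add (f x7714) (Nat.add (f x7716)
    0)))))))))))))))))))))))))))))))))))))))))))))))))))))))))))) (Nat.add (Nat.add (f x7724)
    (Nat.add (f x7726) (Nat.add (f x7728) (Nat.add (f x7732) (Nat.add (f x7734) (Nat.add (f x7740)
    (Nat.add (f x7750) (Nat.add (f x7752) (Nat.add (f x7758) (Nat.add (f x7784) (Nat.add (f x7790)
    (Nat.add (f x7792) (Nat.add (f x7796) (Nat.add (f x7798) (Nat.add (f x7800) (Nat.add (f x7808)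
    (Nat.add (f x7810) (Nat.add (f x7814) (Nat.add (f x7816) (Nat.add (f x7818) (Nat.add (f x7822)
    (Nat.add (f x7824) (Nat.add (f x7832) (Nat.add (f x7834) (Nat.add (f x7836) (Nat.add (f x7840)
    (Nat.add (f x7842) (Nat.add (f x7848) (Nat.add (f x7862) (Nat.add (f x7864) (Nat.add (f x7868)
    (Nat.add (f x7870) (Nat.add (f x7872) (Nat.add (f x7876) (Nat.add (f x7878) (Nat.add (f x7886)
    (Nat.add (f x7888) (Nat.add (f x7890) (Nat.add (f x7894) (Nat.add (f x7896) (Nat.add (f x7902)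
    (Nat.add (f x7912) (Nat.add (f x7914) (Nat.add (f x7920) (Nat.add (f x7940) (Nat.add (f x7942)
    (Nat.add (f x7944) (Nat.add (f x7948) (Nat.add (f x7950) (Nat.add (f x7956) (Nat.add (f x7966)
    (Nat.add (f x7968) (Nat.add (f x7974) (Nat.add (f x7992) (Nat.add (f x8036) (Nat.add (f x8042)
    (Nat.add (f x8044) (Nat.add (f x8054) (Nat.add (f x8060) (Nat.add (f x8062)
    0)))))))))))))))))))))))))))))))))))))))))))))))))))))))))))) (Nat.add (Nat.add (f x8066)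
    (Nat.add (f x8068) (Nat.add (f x8070) (Nat.add (f x8078) (Nat.add (f x8080) (Nat.add (f x8084)
    (Nat.add (f x8086) (Nat.add (f x8088) (Nat.add (f x8092) (Nat.add (f x8094) (Nat.add (f x8108)
    (Nat.add (f x8114) (Nat.add (f x8116) (Nat.add (f x8120) (Nat.add (f x8122) (Nat.add (f x8124)
    (Nat.add (f x8132) (Nat.add (f x8134) (Nat.add (f x8138) (Nat.add (f x8140) (Nat.add (f x8142)
    (Nat.add (f x8146) (Nat.add (f x8148) (Nat.add (f x8156) (Nat.add (f x8158) (Nat.add (f x8160)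
    (Nat.add (f x8164) (Nat.add (f x8166) (Nat.add (f x8172) (Nat.add (f x8186) (Nat.add (f x8188)
    (Nat.add (f x8192) (Nat.add (f x8194) (Nat.add (f x8196) (Nat.add (f x8200) (Nat.add (f x8202)
    (Nat.add (f x8210) (Nat.add (f x8212) (Nat.add (f x8214) (Nat.add (f x8218) (Nat.add (f x8220)
    (Nat.add (f x8226) (Nat.add (f x8236) (Nat.add (f x8238) (Nat.add (f x8244) (Nat.add (f x8270)
    (Nat.add (f x8276) (Nat.add (f x8278) (Nat.add (f x8282) (Nat.add (f x8284) (Nat.add (f x8286)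
    (Nat.add (f x8294) (Nat.add (f x8296) (Nat.add (f x8300) (Nat.add (f x8302) (Nat.add (f x8304)
    (Nat.add (f x8308) (Nat.add (f x8310) (Nat.add (f x8318) (Nat.add (f x8320)
    0)))))))))))))))))))))))))))))))))))))))))))))))))))))))))))) (Nat.add (Nat.add (f x8322)
    (Nat.add (f x8326) (Nat.add (f x8328) (Nat.add (f x8334) (Nat.add (f x8348) (Nat.add (f x8350)
    (Nat.add (f x8354) (Nat.add (f x8356) (Nat.add (f x8358) (Nat.add (f x8362) (Nat.add (f x8364)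
    (Nat.add (f x8372) (Nat.add (f x8374) (Nat.add (f x8376) (Nat.add (f x8380) (Nat.add (f x8382)
    (Nat.add (f x8388) (Nat.add (f x8398) (Nat.add (f x8400) (Nat.add (f x8406) (Nat.add (f x8426)
    (Nat.add (f x8428) (Nat.add (f x8430) (Nat.add (f x8434) (Nat.add (f x8436) (Nat.add (f x8442)
    (Nat.add (f x8452) (Nat.add (f x8454) (Nat.add (f x8460) (Nat.add (f x8478) (Nat.add (f x8510)
    (Nat.add (f x8512) (Nat.add (f x8516) (Nat.add (f x8518) (Nat.add (f x8520) (Nat.add (f x8524)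
    (Nat.add (f x8526) (Nat.add (f x8534) (Nat.add (f x8536) (Nat.add (f x8538) (Nat.add (f x8542)
    (Nat.add (f x8544) (Nat.add (f x8550) (Nat.add (f x8560) (Nat.add (f x8562) (Nat.add (f x8568)
    (Nat.add (f x8588) (Nat.add (f x8590) (Nat.add (f x8592) (Nat.add (f x8596) (Nat.add (f x8598)
    (Nat.add (f x8604) (Nat.add (f x8614) (Nat.add (f x8616) (Nat.add (f x8622) (Nat.add (f x8640)
    (Nat.add (f x8668) (Nat.add (f x8670) (Nat.add (f x8676) (Nat.add (f x8694)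
    0)))))))))))))))))))))))))))))))))))))))))))))))))))))))))))) (Nat.add (Nat.add (f x8774)
    (Nat.add (f x8792) (Nat.add (f x8798) (Nat.add (f x8800) (Nat.add (f x8810) (Nat.add (f x8816)
    (Nat.add (f x8818) (Nat.add (f x8822) (Nat.add (f x8824) (Nat.add (f x8826) (Nat.add (f x8846)
    (Nat.add (f x8852) (Nat.add (f x8854) (Nat.add (f x8864) (Nat.add (f x8870) (Nat.add (f x8872)
    (Nat.add (f x8876) (Nat.add (f x8878) (Nat.add (f x8880) (Nat.add (f x8888) (Nat.add (f x8890)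
    (Nat.add (f x8894) (Nat.add (f x8896) (Nat.add (f x8898) (Nat.add (f x8902) (Nat.add (f x8904)
    (Nat.add (f x8918) (Nat.add (f x8924) (Nat.add (f x8926) (Nat.add (f x8930) (Nat.add (f x8932)
    (Nat.add (f x8934) (Nat.add (f x8942) (Nat.add (f x8944) (Nat.add (f x8948) (Nat.add (f x8950)
    (Nat.add (f x8952) (Nat.add (f x8956) (Nat.add (f x8958) (Nat.add (f x8966) (Nat.add (f x8968)
    (Nat.add (f x8970) (Nat.add (f x8974) (Nat.add (f x8976) (Nat.add (f x8982) (Nat.add (f x9008)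
    (Nat.add (f x9014) (Nat.add (f x9016) (Nat.add (f x9026) (Nat.add (f x9032) (Nat.add (f x9034)
    (Nat.add (f x9038) (Nat.add (f x9040) (Nat.add (f x9042) (Nat.add (f x9050) (Nat.add (f x9052)
    (Nat.add (f x9056) (Nat.add (f x9058) (Nat.add (f x9060) (Nat.add (f x9064)
    0)))))))))))))))))))))))))))))))))))))))))))))))))))))))))))) (Nat.add (Nat.add (f x9066)
    (Nat.add (f x9080) (Nat.add (f x9086) (Nat.add (f x9088) (Nat.add (f x9092) (Nat.add (f x9094)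
    (Nat.add (f x9096) (Nat.add (f x9104) (Nat.add (f x9106) (Nat.add (f x9110) (Nat.add (f x9112)
    (Nat.add (f x9114) (Nat.add (f x9118) (Nat.add (f x9120) (Nat.add (f x9128) (Nat.add (f x9130)
    (Nat.add (f x9132) (Nat.add (f x9136) (Nat.add (f x9138) (Nat.add (f x9144) (Nat.add (f x9158)
    (Nat.add (f x9160) (Nat.add (f x9164) (Nat.add (f x9166) (Nat.add (f x9168) (Nat.add (f x9172)
    (Nat.add (f x9174) (Nat.add (f x9182) (Nat.add (f x9184) (Nat.add (f x9186) (Nat.add (f x9190)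
    (Nat.add (f x9192) (Nat.add (f x9198) (Nat.add (f x9208) (Nat.add (f x9210) (Nat.add (f x9216)
    (Nat.add (f x9242) (Nat.add (f x9248) (Nat.add (f x9250) (Nat.add (f x9254) (Nat.add (f x9256)
    (Nat.add (f x9258) (Nat.add (f x9266) (Nat.add (f x9268) (Nat.add (f x9272) (Nat.add (f x9274)
    (Nat.add (f x9276) (Nat.add (f x9280) (Nat.add (f x9282) (Nat.add (f x9290) (Nat.add (f x9292)
    (Nat.add (f x9294) (Nat.add (f x9298) (Nat.add (f x9300) (Nat.add (f x9306) (Nat.add (f x9320)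
    (Nat.add (f x9322) (Nat.add (f x9326) (Nat.add (f x9328) (Nat.add (f x9330)
    0)))))))))))))))))))))))))))))))))))))))))))))))))))))))))))) (Nat.add (Nat.add (f x9334)
    (Nat.add (f x9336) (Nat.add (f x9344) (Nat.add (f x9346) (Nat.add (f x9348) (Nat.add (f x9352)
    (Nat.add (f x9354) (Nat.add (f x9360) (Nat.add (f x9370) (Nat.add (f x9372) (Nat.add (f x9378)
    (Nat.add (f x9398) (Nat.add (f x9400) (Nat.add (f x9402) (Nat.add (f x9406) (Nat.add (f x9408)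
    (Nat.add (f x9414) (Nat.add (f x9424) (Nat.add (f x9426) (Nat.add (f x9432) (Nat.add (f x9450)
    (Nat.add (f x9494) (Nat.add (f x9500) (Nat.add (f x9502) (Nat.add (f x9512) (Nat.add (f x9518)
    (Nat.add (f x9520) (Nat.add (f x9524) (Nat.add (f x9526) (Nat.add (f x9528) (Nat.add (f x9536)
    (Nat.add (f x9538) (Nat.add (f x9542) (Nat.add (f x9544) (Nat.add (f x9546) (Nat.add (f x9550)
    (Nat.add (f x9552) (Nat.add (f x9566) (Nat.add (f x9572) (Nat.add (f x9574) (Nat.add (f x9578)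
    (Nat.add (f x9580) (Nat.add (f x9582) (Nat.add (f x9590) (Nat.add (f x9592) (Nat.add (f x9596)
    (Nat.add (f x9598) (Nat.add (f x9600) (Nat.add (f x9604) (Nat.add (f x9606) (Nat.add (f x9614)
    (Nat.add (f x9616) (Nat.add (f x9618) (Nat.add (f x9622) (Nat.add (f x9624) (Nat.add (f x9630)
    (Nat.add (f x9644) (Nat.add (f x9646) (Nat.add (f x9650) (Nat.add (f x9652)
    0)))))))))))))))))))))))))))))))))))))))))))))))))))))))))))) (Nat.add (Nat.add (f x9654)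
    (Nat.add (f x9658) (Nat.add (f x9660) (Nat.add (f x9668) (Nat.add (f x9670) (Nat.add (f x9672)
    (Nat.add (f x9676) (Nat.add (f x9678) (Nat.add (f x9684) (Nat.add (f x9694) (Nat.add (f x9696)
    (Nat.add (f x9702) (Nat.add (f x9728) (Nat.add (f x9734) (Nat.add (f x9736) (Nat.add (f x9740)
    (Nat.add (f x9742) (Nat.add (f x9744) (Nat.add (f x9752) (Nat.add (f x9754) (Nat.add (f x9758)
    (Nat.add (f x9760) (Nat.add (f x9762) (Nat.add (f x9766) (Nat.add (f x9768) (Nat.add (f x9776)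
    (Nat.add (f x9778) (Nat.add (f x9780) (Nat.add (f x9784) (Nat.add (f x9786) (Nat.add (f x9792)
    (Nat.add (f x9806) (Nat.add (f x9808) (Nat.add (f x9812) (Nat.add (f x9814) (Nat.add (f x9816)
    (Nat.add (f x9820) (Nat.add (f x9822) (Nat.add (f x9830) (Nat.add (f x9832) (Nat.add (f x9834)
    (Nat.add (f x9838) (Nat.add (f x9840) (Nat.add (f x9846) (Nat.add (f x9856) (Nat.add (f x9858)
    (Nat.add (f x9864) (Nat.add (f x9884) (Nat.add (f x9886) (Nat.add (f x9888) (Nat.add (f x9892)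
    (Nat.add (f x9894) (Nat.add (f x9900) (Nat.add (f x9910) (Nat.add (f x9912) (Nat.add (f x9918)
    (Nat.add (f x9936) (Nat.add (f x9968) (Nat.add (f x9970) (Nat.add (f x9974)
    0)))))))))))))))))))))))))))))))))))))))))))))))))))))))))))) (Nat.add (Nat.add (f x9976)
    (Nat.add (f x9978) (Nat.add (f x9982) (Nat.add (f x9984) (Nat.add (f x9992) (Nat.add (f x9994)
    (Nat.add (f x9996) (Nat.add (f x10000) (Nat.add (f x10002) (Nat.add (f x10008) (Nat.add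
    (f x10018) (Nat.add (f x10020) (Nat.add (f x10026) (Nat.add (f x10046) (Nat.add (f x10048)
    (Nat.add (f x10050) (Nat.add (f x10054) (Nat.add (f x10056) (Nat.add (f x10062) (Nat.add
    (f x10072) (Nat.add (f x10074) (Nat.add (f x10080) (Nat.add (f x10098) (Nat.add (f x10126)
    (Nat.add (f x10128) (Nat.add (f x10134) (Nat.add (f x10152) (Nat.add (f x10214) (Nat.add
    (f x10220) (Nat.add (f x10222) (Nat.add (f x10226) (Nat.add (f x10228) (Nat.add (f x10230)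
    (Nat.add (f x10238) (Nat.add (f x10240) (Nat.add (f x10244) (Nat.add (f x10246) (Nat.add
    (f x10248) (Nat.add (f x10252) (Nat.add (f x10254) (Nat.add (f x10262) (Nat.add (f x10264)
    (Nat.add (f x10266) (Nat.add (f x10270) (Nat.add (f x10272) (Nat.add (f x10278) (Nat.add
    (f x10292) (Nat.add (f x10294) (Nat.add (f x10298) (Nat.add (f x10300) (Nat.add (f x10302)
    (Nat.add (f x10306) (Nat.add (f x10308) (Nat.add (f x10316) (Nat.add (f x10318) (Nat.add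
    (f x10320) (Nat.add (f x10324) (Nat.add (f x10326) (Nat.add (f x10332) (Nat.add (f x10342)
    0)))))))))))))))))))))))))))))))))))))))))))))))))))))))))))) (Nat.add (Nat.add (f x10344)
    (Nat.add (f x10350) (Nat.add (f x10370) (Nat.add (f x10372) (Nat.add (f x10374) (Nat.add
    (f x10378) (Nat.add (f x10380) (Nat.add (f x10386) (Nat.add (f x10396) (Nat.add (f x10398)
    (Nat.add (f x10404) (Nat.add (f x10422) (Nat.add (f x10454) (Nat.add (f x10456) (Nat.add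
    (f x10460) (Nat.add (f x10462) (Nat.add (f x10464) (Nat.add (f x10468) (Nat.add (f x10470)
    (Nat.add (f x10478) (Nat.add (f x10480) (Nat.add (f x10482) (Nat.add (f x10486) (Nat.add
    (f x10488) (Nat.add (f x10494) (Nat.add (f x10504) (Nat.add (f x10506) (Nat.add (f x10512)
    (Nat.add (f x10532) (Nat.add (f x10534) (Nat.add (f x10536) (Nat.add (f x10540) (Nat.add
    (f x10542) (Nat.add (f x10548) (Nat.add (f x10558) (Nat.add (f x10560) (Nat.add (f x10566)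
    (Nat.add (f x10584) (Nat.add (f x10612) (Nat.add (f x10614) (Nat.add (f x10620) (Nat.add
    (f x10638) (Nat.add (f x10694) (Nat.add (f x10696) (Nat.add (f x10698) (Nat.add (f x10702)
    (Nat.add (f x10704) (Nat.add (f x10710) (Nat.add (f x10720) (Nat.add (f x10722) (Nat.add
    (f x10728) (Nat.add (f x10746) (Nat.add (f x10774) (Nat.add (f x10776) (Nat.add (f x10782)
    (Nat.add (f x10800) (Nat.add (f x10854) (Nat.add (f x10952) (Nat.add (f x10958) (Nat.add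
    (f x10960) 0)))))))))))))))))))))))))))))))))))))))))))))))))))))))))))) (Nat.add (Nat.add
    (f x10970) (Nat.add (f x10976) (Nat.add (f x10978) (Nat.add (f x10982) (Nat.add (f x10984)
    (Nat.add (f x10986) (Nat.add (f x10994) (Nat.add (f x10996) (Nat.add (f x11000) (Nat.add
    (f x11002) (Nat.add (f x11004) (Nat.add (f x11008) (Nat.add (f x11010) (Nat.add (f x11024)
    (Nat.add (f x11030) (Nat.add (f x11032) (Nat.add (f x11036) (Nat.add (f x11038) (Nat.add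
    (f x11040) (Nat.add (f x11048) (Nat.add (f x11050) (Nat.add (f x11054) (Nat.add (f x11056)
    (Nat.add (f x11058) (Nat.add (f x11062) (Nat.add (f x11064) (Nat.add (f x11072) (Nat.add
    (f x11074) (Nat.add (f x11076) (Nat.add (f x11080) (Nat.add (f x11082) (Nat.add (f x11088)
    (Nat.add (f x11102) (Nat.add (f x11104) (Nat.add (f x11108) (Nat.add (f x11110) (Nat.add
    (f x11112) (Nat.add (f x11116) (Nat.add (f x11118) (Nat.add (f x11126) (Nat.add (f x11128)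
    (Nat.add (f x11130) (Nat.add (f x11134) (Nat.add (f x11136) (Nat.add (f x11142) (Nat.add
    (f x11152) (Nat.add (f x11154) (Nat.add (f x11160) (Nat.add (f x11186) (Nat.add (f x11192)
    (Nat.add (f x11194) (Nat.add (f x11198) (Nat.add (f x11200) (Nat.add (f x11202) (Nat.add
    (f x11210) (Nat.add (f x11212) (Nat.add (f x11216) (Nat.add (f x11218) (Nat.add (f x11220)
    (Nat.add (f x11224) 0)))))))))))))))))))))))))))))))))))))))))))))))))))))))))))) (Nat.add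
    (Nat.add (f x11226) (Nat.add (f x11234) (Nat.add (f x11236) (Nat.add (f x11238) (Nat.add
    (f x11242) (Nat.add (f x11244) (Nat.add (f x11250) (Nat.add (f x11264) (Nat.add (f x11266)
    (Nat.add (f x11270) (Nat.add (f x11272) (Nat.add (f x11274) (Nat.add (f x11278) (Nat.add
    (f x11280) (Nat.add (f x11288) (Nat.add (f x11290) (Nat.add (f x11292) (Nat.add (f x11296)
    (Nat.add (f x11298) (Nat.add (f x11304) (Nat.add (f x11314) (Nat.add (f x11316) (Nat.add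
    (f x11322) (Nat.add (f x11342) (Nat.add (f x11344) (Nat.add (f x11346) (Nat.add (f x11350)
    (Nat.add (f x11352) (Nat.add (f x11358) (Nat.add (f x11368) (Nat.add (f x11370) (Nat.add
    (f x11376) (Nat.add (f x11394) (Nat.add (f x11426) (Nat.add (f x11428) (Nat.add (f x11432)
    (Nat.add (f x11434) (Nat.add (f x11436) (Nat.add (f x11440) (Nat.add (f x11442) (Nat.add
    (f x11450) (Nat.add (f x11452) (Nat.add (f x11454) (Nat.add (f x11458) (Nat.add (f x11460)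
    (Nat.add (f x11466) (Nat.add (f x11476) (Nat.add (f x11478) (Nat.add (f x11484) (Nat.add
    (f x11504) (Nat.add (f x11506) (Nat.add (f x11508) (Nat.add (f x11512) (Nat.add (f x11514)
    (Nat.add (f x11520) (Nat.add (f x11530) (Nat.add (f x11532) (Nat.add (f x11538) (Nat.add
    (f x11556) (Nat.add (f x11584) 0))))))))))))))))))))))))))))))))))))))))))))))))))))))))))))
    (Nat.add (Nat.add (f x11586) (Nat.add (f x11592) (Nat.add (f x11610) (Nat.add (f x11672)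
    (Nat.add (f x11678) (Nat.add (f x11680) (Nat.add (f x11684) (Nat.add (f x11686) (Nat.add
    (f x11688) (Nat.add (f x11696) (Nat.add (f x11698) (Nat.add (f x11702) (Nat.add (f x11704)
    (Nat.add (f x11706) (Nat.add (f x11710) (Nat.add (f x11712) (Nat.add (f x11720) (Nat.add
    (f x11722) (Nat.add (f x11724) (Nat.add (f x11728) (Nat.add (f x11730) (Nat.add (f x11736)
    (Nat.add (f x11750) (Nat.add (f x11752) (Nat.add (f x11756) (Nat.add (f x11758) (Nat.add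
    (f x11760) (Nat.add (f x11764) (Nat.add (f x11766) (Nat.add (f x11774) (Nat.add (f x11776)
    (Nat.add (f x11778) (Nat.add (f x11782) (Nat.add (f x11784) (Nat.add (f x11790) (Nat.add
    (f x11800) (Nat.add (f x11802) (Nat.add (f x11808) (Nat.add (f x11828) (Nat.add (f x11830)
    (Nat.add (f x11832) (Nat.add (f x11836) (Nat.add (f x11838) (Nat.add (f x11844) (Nat.add
    (f x11854) (Nat.add (f x11856) (Nat.add (f x11862) (Nat.add (f x11880) (Nat.add (f x11912)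
    (Nat.add (f x11914) (Nat.add (f x11918) (Nat.add (f x11920) (Nat.add (f x11922) (Nat.add
    (f x11926) (Nat.add (f x11928) (Nat.add (f x11936) (Nat.add (f x11938) (Nat.add (f x11940)
    (Nat.add (f x11944) (Nat.add (f x11946)
    0)))))))))))))))))))))))))))))))))))))))))))))))))))))))))))) (Nat.add (Nat.add (f x11952)
    (Nat.add (f x11962) (Nat.add (f x11964) (Nat.add (f x11970) (Nat.add (f x11990) (Nat.add
    (f x11992) (Nat.add (f x11994) (Nat.add (f x11998) (Nat.add (f x12000) (Nat.add (f x12006)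
    (Nat.add (f x12016) (Nat.add (f x12018) (Nat.add (f x12024) (Nat.add (f x12042) (Nat.add
    (f x12070) (Nat.add (f x12072) (Nat.add (f x12078) (Nat.add (f x12096) (Nat.add (f x12152)
    (Nat.add (f x12154) (Nat.add (f x12156) (Nat.add (f x12160) (Nat.add (f x12162) (Nat.add
    (f x12168) (Nat.add (f x12178) (Nat.add (f x12180) (Nat.add (f x12186) (Nat.add (f x12204)
    (Nat.add (f x12232) (Nat.add (f x12234) (Nat.add (f x12240) (Nat.add (f x12258) (Nat.add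
    (f x12312) (Nat.add (f x12398) (Nat.add (f x12400) (Nat.add (f x12404) (Nat.add (f x12406)
    (Nat.add (f x12408) (Nat.add (f x12412) (Nat.add (f x12414) (Nat.add (f x12422) (Nat.add
    (f x12424) (Nat.add (f x12426) (Nat.add (f x12430) (Nat.add (f x12432) (Nat.add (f x12438)
    (Nat.add (f x12448) (Nat.add (f x12450) (Nat.add (f x12456) (Nat.add (f x12476) (Nat.add
    (f x12478) (Nat.add (f x12480) (Nat.add (f x12484) (Nat.add (f x12486) (Nat.add (f x12492)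
    (Nat.add (f x12502) (Nat.add (f x12504) (Nat.add (f x12510) (Nat.add (f x12528) (Nat.add
    (f x12556) 0)))))))))))))))))))))))))))))))))))))))))))))))))))))))))))) (Nat.add (Nat.add
    (f x12558) (Nat.add (f x12564) (Nat.add (f x12582) (Nat.add (f x12638) (Nat.add (f x12640)
    (Nat.add (f x12642) (Nat.add (f x12646) (Nat.add (f x12648) (Nat.add (f x12654) (Nat.add
    (f x12664) (Nat.add (f x12666) (Nat.add (f x12672) (Nat.add (f x12690) (Nat.add (f x12718)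
    (Nat.add (f x12720) (Nat.add (f x12726) (Nat.add (f x12744) (Nat.add (f x12798) (Nat.add
    (f x12880) (Nat.add (f x12882) (Nat.add (f x12888) (Nat.add (f x12906) (Nat.add (f x12960)
    (Nat.add (f x13148) (Nat.add (f x13166) (Nat.add (f x13172) (Nat.add (f x13174) (Nat.add
    (f x13184) (Nat.add (f x13190) (Nat.add (f x13192) (Nat.add (f x13196) (Nat.add (f x13198)
    (Nat.add (f x13200) (Nat.add (f x13220) (Nat.add (f x13226) (Nat.add (f x13228) (Nat.add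
    (f x13238) (Nat.add (f x13244) (Nat.add (f x13246) (Nat.add (f x13250) (Nat.add (f x13252)
    (Nat.add (f x13254) (Nat.add (f x13262) (Nat.add (f x13264) (Nat.add (f x13268) (Nat.add
    (f x13270) (Nat.add (f x13272) (Nat.add (f x13276) (Nat.add (f x13278) (Nat.add (f x13292)
    (Nat.add (f x13298) (Nat.add (f x13300) (Nat.add (f x13304) (Nat.add (f x13306) (Nat.add
    (f x13308) (Nat.add (f x13316) (Nat.add (f x13318) (Nat.add (f x13322) (Nat.add (f x13324)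
    (Nat.add (f x13326) 0)))))))))))))))))))))))))))))))))))))))))))))))))))))))))))) (Nat.add
    (Nat.add (f x13330) (Nat.add (f x13332) (Nat.add (f x13340) (Nat.add (f x13342) (Nat.add
    (f x13344) (Nat.add (f x13348) (Nat.add (f x13350) (Nat.add (f x13356) (Nat.add (f x13382)
    (Nat.add (f x13388) (Nat.add (f x13390) (Nat.add (f x13400) (Nat.add (f x13406) (Nat.add
    (f x13408) (Nat.add (f x13412) (Nat.add (f x13414) (Nat.add (f x13416) (Nat.add (f x13424)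
    (Nat.add (f x13426) (Nat.add (f x13430) (Nat.add (f x13432) (Nat.add (f x13434) (Nat.add
    (f x13438) (Nat.add (f x13440) (Nat.add (f x13454) (Nat.add (f x13460) (Nat.add (f x13462)
    (Nat.add (f x13466) (Nat.add (f x13468) (Nat.add (f x13470) (Nat.add (f x13478) (Nat.add
    (f x13480) (Nat.add (f x13484) (Nat.add (f x13486) (Nat.add (f x13488) (Nat.add (f x13492)
    (Nat.add (f x13494) (Nat.add (f x13502) (Nat.add (f x13504) (Nat.add (f x13506) (Nat.add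
    (f x13510) (Nat.add (f x13512) (Nat.add (f x13518) (Nat.add (f x13532) (Nat.add (f x13534)
    (Nat.add (f x13538) (Nat.add (f x13540) (Nat.add (f x13542) (Nat.add (f x13546) (Nat.add
    (f x13548) (Nat.add (f x13556) (Nat.add (f x13558) (Nat.add (f x13560) (Nat.add (f x13564)
    (Nat.add (f x13566) (Nat.add (f x13572) (Nat.add (f x13582) (Nat.add (f x13584) (Nat.add
    (f x13590) (Nat.add (f x13616) 0))))))))))))))))))))))))))))))))))))))))))))))))))))))))))))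
    (Nat.add (Nat.add (f x13622) (Nat.add (f x13624) (Nat.add (f x13628) (Nat.add (f x13630)
    (Nat.add (f x13632) (Nat.add (f x13640) (Nat.add (f x13642) (Nat.add (f x13646) (Nat.add
    (f x13648) (Nat.add (f x13650) (Nat.add (f x13654) (Nat.add (f x13656) (Nat.add (f x13664)
    (Nat.add (f x13666) (Nat.add (f x13668) (Nat.add (f x13672) (Nat.add (f x13674) (Nat.add
    (f x13680) (Nat.add (f x13694) (Nat.add (f x13696) (Nat.add (f x13700) (Nat.add (f x13702)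
    (Nat.add (f x13704) (Nat.add (f x13708) (Nat.add (f x13710) (Nat.add (f x13718) (Nat.add
    (f x13720) (Nat.add (f x13722) (Nat.add (f x13726) (Nat.add (f x13728) (Nat.add (f x13734)
    (Nat.add (f x13744) (Nat.add (f x13746) (Nat.add (f x13752) (Nat.add (f x13772) (Nat.add
    (f x13774) (Nat.add (f x13776) (Nat.add (f x13780) (Nat.add (f x13782) (Nat.add (f x13788)
    (Nat.add (f x13798) (Nat.add (f x13800) (Nat.add (f x13806) (Nat.add (f x13824) (Nat.add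
    (f x13868) (Nat.add (f x13874) (Nat.add (f x13876) (Nat.add (f x13886) (Nat.add (f x13892)
    (Nat.add (f x13894) (Nat.add (f x13898) (Nat.add (f x13900) (Nat.add (f x13902) (Nat.add
    (f x13910) (Nat.add (f x13912) (Nat.add (f x13916) (Nat.add (f x13918) (Nat.add (f x13920)
    (Nat.add (f x13924) (Nat.add (f x13926)
    0)))))))))))))))))))))))))))))))))))))))))))))))))))))))))))) (Nat.add (Nat.add (f x13940)
    (Nat.add (f x13946) (Nat.add (f x13948) (Nat.add (f x13952) (Nat.add (f x13954) (Nat.add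
    (f x13956) (Nat.add (f x13964) (Nat.add (f x13966) (Nat.add (f x13970) (Nat.add (f x13972)
    (Nat.add (f x13974) (Nat.add (f x13978) (Nat.add (f x13980) (Nat.add (f x13988) (Nat.add
    (f x13990) (Nat.add (f x13992) (Nat.add (f x13996) (Nat.add (f x13998) (Nat.add (f x14004)
    (Nat.add (f x14018) (Nat.add (f x14020) (Nat.add (f x14024) (Nat.add (f x14026) (Nat.add
    (f x14028) (Nat.add (f x14032) (Nat.add (f x14034) (Nat.add (f x14042) (Nat.add (f x14044)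
    (Nat.add (f x14046) (Nat.add (f x14050) (Nat.add (f x14052) (Nat.add (f x14058) (Nat.add
    (f x14068) (Nat.add (f x14070) (Nat.add (f x14076) (Nat.add (f x14102) (Nat.add (f x14108)
    (Nat.add (f x14110) (Nat.add (f x14114) (Nat.add (f x14116) (Nat.add (f x14118) (Nat.add
    (f x14126) (Nat.add (f x14128) (Nat.add (f x14132) (Nat.add (f x14134) (Nat.add (f x14136)
    (Nat.add (f x14140) (Nat.add (f x14142) (Nat.add (f x14150) (Nat.add (f x14152) (Nat.add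
    (f x14154) (Nat.add (f x14158) (Nat.add (f x14160) (Nat.add (f x14166) (Nat.add (f x14180)
    (Nat.add (f x14182) (Nat.add (f x14186) (Nat.add (f x14188) (Nat.add (f x14190) (Nat.add
    (f x14194) 0)))))))))))))))))))))))))))))))))))))))))))))))))))))))))))) (Nat.add (Nat.add
    (f x14196) (Nat.add (f x14204) (Nat.add (f x14206) (Nat.add (f x14208) (Nat.add (f x14212)
    (Nat.add (f x14214) (Nat.add (f x14220) (Nat.add (f x14230) (Nat.add (f x14232) (Nat.add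
    (f x14238) (Nat.add (f x14258) (Nat.add (f x14260) (Nat.add (f x14262) (Nat.add (f x14266)
    (Nat.add (f x14268) (Nat.add (f x14274) (Nat.add (f x14284) (Nat.add (f x14286) (Nat.add
    (f x14292) (Nat.add (f x14310) (Nat.add (f x14342) (Nat.add (f x14344) (Nat.add (f x14348)
    (Nat.add (f x14350) (Nat.add (f x14352) (Nat.add (f x14356) (Nat.add (f x14358) (Nat.add
    (f x14366) (Nat.add (f x14368) (Nat.add (f x14370) (Nat.add (f x14374) (Nat.add (f x14376)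
    (Nat.add (f x14382) (Nat.add (f x14392) (Nat.add (f x14394) (Nat.add (f x14400) (Nat.add
    (f x14420) (Nat.add (f x14422) (Nat.add (f x14424) (Nat.add (f x14428) (Nat.add (f x14430)
    (Nat.add (f x14436) (Nat.add (f x14446) (Nat.add (f x14448) (Nat.add (f x14454) (Nat.add
    (f x14472) (Nat.add (f x14500) (Nat.add (f x14502) (Nat.add (f x14508) (Nat.add (f x14526)
    (Nat.add (f x14588) (Nat.add (f x14594) (Nat.add (f x14596) (Nat.add (f x14600) (Nat.add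
    (f x14602) (Nat.add (f x14604) (Nat.add (f x14612) (Nat.add (f x14614) (Nat.add (f x14618)
    (Nat.add (f x14620) 0)))))))))))))))))))))))))))))))))))))))))))))))))))))))))))) (Nat.add
    (Nat.add (f x14622) (Nat.add (f x14626) (Nat.add (f x14628) (Nat.add (f x14636) (Nat.add
    (f x14638) (Nat.add (f x14640) (Nat.add (f x14644) (Nat.add (f x14646) (Nat.add (f x14652)
    (Nat.add (f x14666) (Nat.add (f x14668) (Nat.add (f x14672) (Nat.add (f x14674) (Nat.add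
    (f x14676) (Nat.add (f x14680) (Nat.add (f x14682) (Nat.add (f x14690) (Nat.add (f x14692)
    (Nat.add (f x14694) (Nat.add (f x14698) (Nat.add (f x14700) (Nat.add (f x14706) (Nat.add
    (f x14716) (Nat.add (f x14718) (Nat.add (f x14724) (Nat.add (f x14744) (Nat.add (f x14746)
    (Nat.add (f x14748) (Nat.add (f x14752) (Nat.add (f x14754) (Nat.add (f x14760) (Nat.add
    (f x14770) (Nat.add (f x14772) (Nat.add (f x14778) (Nat.add (f x14796) (Nat.add (f x14828)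
    (Nat.add (f x14830) (Nat.add (f x14834) (Nat.add (f x14836) (Nat.add (f x14838) (Nat.add
    (f x14842) (Nat.add (f x14844) (Nat.add (f x14852) (Nat.add (f x14854) (Nat.add (f x14856)
    (Nat.add (f x14860) (Nat.add (f x14862) (Nat.add (f x14868) (Nat.add (f x14878) (Nat.add
    (f x14880) (Nat.add (f x14886) (Nat.add (f x14906) (Nat.add (f x14908) (Nat.add (f x14910)
    (Nat.add (f x14914) (Nat.add (f x14916) (Nat.add (f x14922) (Nat.add (f x14932) (Nat.add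
    (f x14934) (Nat.add (f x14940) 0))))))))))))))))))))))))))))))))))))))))))))))))))))))))))))
    (Nat.add (Nat.add (f x14958) (Nat.add (f x14986) (Nat.add (f x14988) (Nat.add (f x14994)
    (Nat.add (f x15012) (Nat.add (f x15068) (Nat.add (f x15070) (Nat.add (f x15072) (Nat.add
    (f x15076) (Nat.add (f x15078) (Nat.add (f x15084) (Nat.add (f x15094) (Nat.add (f x15096)
    (Nat.add (f x15102) (Nat.add (f x15120) (Nat.add (f x15148) (Nat.add (f x15150) (Nat.add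
    (f x15156) (Nat.add (f x15174) (Nat.add (f x15228) (Nat.add (f x15326) (Nat.add (f x15332)
    (Nat.add (f x15334) (Nat.add (f x15344) (Nat.add (f x15350) (Nat.add (f x15352) (Nat.add
    (f x15356) (Nat.add (f x15358) (Nat.add (f x15360) (Nat.add (f x15368) (Nat.add (f x15370)
    (Nat.add (f x15374) (Nat.add (f x15376) (Nat.add (f x15378) (Nat.add (f x15382) (Nat.add
    (f x15384) (Nat.add (f x15398) (Nat.add (f x15404) (Nat.add (f x15406) (Nat.add (f x15410)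
    (Nat.add (f x15412) (Nat.add (f x15414) (Nat.add (f x15422) (Nat.add (f x15424) (Nat.add
    (f x15428) (Nat.add (f x15430) (Nat.add (f x15432) (Nat.add (f x15436) (Nat.add (f x15438)
    (Nat.add (f x15446) (Nat.add (f x15448) (Nat.add (f x15450) (Nat.add (f x15454) (Nat.add
    (f x15456) (Nat.add (f x15462) (Nat.add (f x15476) (Nat.add (f x15478) (Nat.add (f x15482)
    (Nat.add (f x15484) (Nat.add (f x15486)
    0)))))))))))))))))))))))))))))))))))))))))))))))))))))))))))) (Nat.add (Nat.add (f x15490)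
    (Nat.add (f x15492) (Nat.add (f x15500) (Nat.add (f x15502) (Nat.add (f x15504) (Nat.add
    (f x15508) (Nat.add (f x15510) (Nat.add (f x15516) (Nat.add (f x15526) (Nat.add (f x15528)
    (Nat.add (f x15534) (Nat.add (f x15560) (Nat.add (f x15566) (Nat.add (f x15568) (Nat.add
    (f x15572) (Nat.add (f x15574) (Nat.add (f x15576) (Nat.add (f x15584) (Nat.add (f x15586)
    (Nat.add (f x15590) (Nat.add (f x15592) (Nat.add (f x15594) (Nat.add (f x15598) (Nat.add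
    (f x15600) (Nat.add (f x15608) (Nat.add (f x15610) (Nat.add (f x15612) (Nat.add (f x15616)
    (Nat.add (f x15618) (Nat.add (f x15624) (Nat.add (f x15638) (Nat.add (f x15640) (Nat.add
    (f x15644) (Nat.add (f x15646) (Nat.add (f x15648) (Nat.add (f x15652) (Nat.add (f x15654)
    (Nat.add (f x15662) (Nat.add (f x15664) (Nat.add (f x15666) (Nat.add (f x15670) (Nat.add
    (f x15672) (Nat.add (f x15678) (Nat.add (f x15688) (Nat.add (f x15690) (Nat.add (f x15696)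
    (Nat.add (f x15716) (Nat.add (f x15718) (Nat.add (f x15720) (Nat.add (f x15724) (Nat.add
    (f x15726) (Nat.add (f x15732) (Nat.add (f x15742) (Nat.add (f x15744) (Nat.add (f x15750)
    (Nat.add (f x15768) (Nat.add (f x15800) (Nat.add (f x15802) (Nat.add (f x15806) (Nat.add
    (f x15808) 0)))))))))))))))))))))))))))))))))))))))))))))))))))))))))))) (Nat.add (Nat.add
    (f x15810) (Nat.add (f x15814) (Nat.add (f x15816) (Nat.add (f x15824) (Nat.add (f x15826)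
    (Nat.add (f x15828) (Nat.add (f x15832) (Nat.add (f x15834) (Nat.add (f x15840) (Nat.add
    (f x15850) (Nat.add (f x15852) (Nat.add (f x15858) (Nat.add (f x15878) (Nat.add (f x15880)
    (Nat.add (f x15882) (Nat.add (f x15886) (Nat.add (f x15888) (Nat.add (f x15894) (Nat.add
    (f x15904) (Nat.add (f x15906) (Nat.add (f x15912) (Nat.add (f x15930) (Nat.add (f x15958)
    (Nat.add (f x15960) (Nat.add (f x15966) (Nat.add (f x15984) (Nat.add (f x16046) (Nat.add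
    (f x16052) (Nat.add (f x16054) (Nat.add (f x16058) (Nat.add (f x16060) (Nat.add (f x16062)
    (Nat.add (f x16070) (Nat.add (f x16072) (Nat.add (f x16076) (Nat.add (f x16078) (Nat.add
    (f x16080) (Nat.add (f x16084) (Nat.add (f x16086) (Nat.add (f x16094) (Nat.add (f x16096)
    (Nat.add (f x16098) (Nat.add (f x16102) (Nat.add (f x16104) (Nat.add (f x16110) (Nat.add
    (f x16124) (Nat.add (f x16126) (Nat.add (f x16130) (Nat.add (f x16132) (Nat.add (f x16134)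
    (Nat.add (f x16138) (Nat.add (f x16140) (Nat.add (f x16148) (Nat.add (f x16150) (Nat.add
    (f x16152) (Nat.add (f x16156) (Nat.add (f x16158) (Nat.add (f x16164) (Nat.add (f x16174)
    (Nat.add (f x16176) 0)))))))))))))))))))))))))))))))))))))))))))))))))))))))))))) (Nat.add
    (Nat.add (f x16182) (Nat.add (f x16202) (Nat.add (f x16204) (Nat.add (f x16206) (Nat.add
    (f x16210) (Nat.add (f x16212) (Nat.add (f x16218) (Nat.add (f x16228) (Nat.add (f x16230)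
    (Nat.add (f x16236) (Nat.add (f x16254) (Nat.add (f x16286) (Nat.add (f x16288) (Nat.add
    (f x16292) (Nat.add (f x16294) (Nat.add (f x16296) (Nat.add (f x16300) (Nat.add (f x16302)
    (Nat.add (f x16310) (Nat.add (f x16312) (Nat.add (f x16314) (Nat.add (f x16318) (Nat.add
    (f x16320) (Nat.add (f x16326) (Nat.add (f x16336) (Nat.add (f x16338) (Nat.add (f x16344)
    (Nat.add (f x16364) (Nat.add (f x16366) (Nat.add (f x16368) (Nat.add (f x16372) (Nat.add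
    (f x16374) (Nat.add (f x16380) (Nat.add (f x16390) (Nat.add (f x16392) (Nat.add (f x16398)
    (Nat.add (f x16416) (Nat.add (f x16444) (Nat.add (f x16446) (Nat.add (f x16452) (Nat.add
    (f x16470) (Nat.add (f x16526) (Nat.add (f x16528) (Nat.add (f x16530) (Nat.add (f x16534)
    (Nat.add (f x16536) (Nat.add (f x16542) (Nat.add (f x16552) (Nat.add (f x16554) (Nat.add
    (f x16560) (Nat.add (f x16578) (Nat.add (f x16606) (Nat.add (f x16608) (Nat.add (f x16614)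
    (Nat.add (f x16632) (Nat.add (f x16686) (Nat.add (f x16772) (Nat.add (f x16774) (Nat.add
    (f x16778) (Nat.add (f x16780) 0))))))))))))))))))))))))))))))))))))))))))))))))))))))))))))
    (Nat.add (Nat.add (f x16782) (Nat.add (f x16786) (Nat.add (f x16788) (Nat.add (f x16796)
    (Nat.add (f x16798) (Nat.add (f x16800) (Nat.add (f x16804) (Nat.add (f x16806) (Nat.add
    (f x16812) (Nat.add (f x16822) (Nat.add (f x16824) (Nat.add (f x16830) (Nat.add (f x16850)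
    (Nat.add (f x16852) (Nat.add (f x16854) (Nat.add (f x16858) (Nat.add (f x16860) (Nat.add
    (f x16866) (Nat.add (f x16876) (Nat.add (f x16878) (Nat.add (f x16884) (Nat.add (f x16902)
    (Nat.add (f x16930) (Nat.add (f x16932) (Nat.add (f x16938) (Nat.add (f x16956) (Nat.add
    (f x17012) (Nat.add (f x17014) (Nat.add (f x17016) (Nat.add (f x17020) (Nat.add (f x17022)
    (Nat.add (f x17028) (Nat.add (f x17038) (Nat.add (f x17040) (Nat.add (f x17046) (Nat.add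
    (f x17064) (Nat.add (f x17092) (Nat.add (f x17094) (Nat.add (f x17100) (Nat.add (f x17118)
    (Nat.add (f x17172) (Nat.add (f x17254) (Nat.add (f x17256) (Nat.add (f x17262) (Nat.add
    (f x17280) (Nat.add (f x17334) (Nat.add (f x17504) (Nat.add (f x17510) (Nat.add (f x17512)
    (Nat.add (f x17516) (Nat.add (f x17518) (Nat.add (f x17520) (Nat.add (f x17528) (Nat.add
    (f x17530) (Nat.add (f x17534) (Nat.add (f x17536) (Nat.add (f x17538) (Nat.add (f x17542)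
    (Nat.add (f x17544) (Nat.add (f x17552)
    0)))))))))))))))))))))))))))))))))))))))))))))))))))))))))))) (Nat.add (Nat.add (f x17554)
    (Nat.add (f x17556) (Nat.add (f x17560) (Nat.add (f x17562) (Nat.add (f x17568) (Nat.add
    (f x17582) (Nat.add (f x17584) (Nat.add (f x17588) (Nat.add (f x17590) (Nat.add (f x17592)
    (Nat.add (f x17596) (Nat.add (f x17598) (Nat.add (f x17606) (Nat.add (f x17608) (Nat.add
    (f x17610) (Nat.add (f x17614) (Nat.add (f x17616) (Nat.add (f x17622) (Nat.add (f x17632)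
    (Nat.add (f x17634) (Nat.add (f x17640) (Nat.add (f x17660) (Nat.add (f x17662) (Nat.add
    (f x17664) (Nat.add (f x17668) (Nat.add (f x17670) (Nat.add (f x17676) (Nat.add (f x17686)
    (Nat.add (f x17688) (Nat.add (f x17694) (Nat.add (f x17712) (Nat.add (f x17744) (Nat.add
    (f x17746) (Nat.add (f x17750) (Nat.add (f x17752) (Nat.add (f x17754) (Nat.add (f x17758)
    (Nat.add (f x17760) (Nat.add (f x17768) (Nat.add (f x17770) (Nat.add (f x17772) (Nat.add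
    (f x17776) (Nat.add (f x17778) (Nat.add (f x17784) (Nat.add (f x17794) (Nat.add (f x17796)
    (Nat.add (f x17802) (Nat.add (f x17822) (Nat.add (f x17824) (Nat.add (f x17826) (Nat.add
    (f x17830) (Nat.add (f x17832) (Nat.add (f x17838) (Nat.add (f x17848) (Nat.add (f x17850)
    (Nat.add (f x17856) (Nat.add (f x17874) (Nat.add (f x17902) (Nat.add (f x17904) (Nat.add
    (f x17910) 0)))))))))))))))))))))))))))))))))))))))))))))))))))))))))))) (Nat.add (Nat.add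
    (f x17928) (Nat.add (f x17984) (Nat.add (f x17986) (Nat.add (f x17988) (Nat.add (f x17992)
    (Nat.add (f x17994) (Nat.add (f x18000) (Nat.add (f x18010) (Nat.add (f x18012) (Nat.add
    (f x18018) (Nat.add (f x18036) (Nat.add (f x18064) (Nat.add (f x18066) (Nat.add (f x18072)
    (Nat.add (f x18090) (Nat.add (f x18144) (Nat.add (f x18230) (Nat.add (f x18232) (Nat.add
    (f x18236) (Nat.add (f x18238) (Nat.add (f x18240) (Nat.add (f x18244) (Nat.add (f x18246)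
    (Nat.add (f x18254) (Nat.add (f x18256) (Nat.add (f x18258) (Nat.add (f x18262) (Nat.add
    (f x18264) (Nat.add (f x18270) (Nat.add (f x18280) (Nat.add (f x18282) (Nat.add (f x18288)
    (Nat.add (f x18308) (Nat.add (f x18310) (Nat.add (f x18312) (Nat.add (f x18316) (Nat.add
    (f x18318) (Nat.add (f x18324) (Nat.add (f x18334) (Nat.add (f x18336) (Nat.add (f x18342)
    (Nat.add (f x18360) (Nat.add (f x18388) (Nat.add (f x18390) (Nat.add (f x18396) (Nat.add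
    (f x18414) (Nat.add (f x18470) (Nat.add (f x18472) (Nat.add (f x18474) (Nat.add (f x18478)
    (Nat.add (f x18480) (Nat.add (f x18486) (Nat.add (f x18496) (Nat.add (f x18498) (Nat.add
    (f x18504) (Nat.add (f x18522) (Nat.add (f x18550) (Nat.add (f x18552) (Nat.add (f x18558)
    (Nat.add (f x18576) 0)))))))))))))))))))))))))))))))))))))))))))))))))))))))))))) (Nat.add
    (Nat.add (f x18630) (Nat.add (f x18712) (Nat.add (f x18714) (Nat.add (f x18720) (Nat.add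
    (f x18738) (Nat.add (f x18792) (Nat.add (f x18956) (Nat.add (f x18958) (Nat.add (f x18960)
    (Nat.add (f x18964) (Nat.add (f x18966) (Nat.add (f x18972) (Nat.add (f x18982) (Nat.add
    (f x18984) (Nat.add (f x18990) (Nat.add (f x19008) (Nat.add (f x19036) (Nat.add (f x19038)
    (Nat.add (f x19044) (Nat.add (f x19062) (Nat.add (f x19116) (Nat.add (f x19198) (Nat.add
    (f x19200) (Nat.add (f x19206) (Nat.add (f x19224) (Nat.add (f x19278) (Nat.add (f x19440)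
    0))))))))))))))))))))))))))) 0))))))))))))))))))))))))))))))))))))))))))))))))) v1

theorem fin_eq0 (f : Nat → Nat) (v1 : Nat) (x : Nat → Nat) :
    apLL (fun t => x t.cd) cds (fin f v1) = Nat.beq (sum2 (fun t => f (x t.cd)) cds) v1 :=
  Eq.refl (apLL (fun t => x t.cd) cds (fin f v1))

theorem fin_eq (f : Nat → Nat) (v1 : Nat) (x : Nat → Nat) :
    ap x (fin f v1) = Nat.beq (sumL (fun s => f (x s)) (secL 9 8 0 [])) v1 :=
  ((ap_eq x (fin f v1)).symm.trans (fin_eq0 f v1 x)).trans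
    (congrArg (fun z => Nat.beq z v1) (sum2_eq cds _ codes_ok (fun s => f (x s))))

def ch0 : List (Nat × Nat) :=
    [(80,18), (134,36), (152,36), (158,36), (160,18), (188,36), (206,36), (212,18), (224,18),
    (296,36), (314,36), (320,36), (322,36), (350,36), (368,36), (374,36), (376,36), (386,36),
    (392,36), (394,36), (398,36), (400,18), (422,36), (428,36), (430,36), (440,36), (446,36),
    (448,18), (452,36), (464,36), (470,36), (512,36), (530,36), (536,36), (548,36), (554,36),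
    (560,18), (584,36), (590,36), (602,36), (608,18), (656,18), (782,36), (800,36), (836,36),
    (854,36), (860,36), (862,36), (872,36), (878,36), (880,36), (884,36), (886,36), (908,36),
    (914,36), (916,36), (926,36), (932,36), (934,36), (938,36), (940,36), (950,36), (952,36),
    (956,36), (958,36), (964,18), (998,18), (1016,36), (1022,36), (1024,36), (1034,36), (1040,36),
    (1042,36), (1046,36), (1048,36), (1070,36), (1076,36), (1078,36), (1088,36), (1094,36),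
    (1096,36), (1100,36), (1102,36), (1112,36), (1114,36), (1118,36), (1120,18), (1142,36),
    (1148,36)]

def sqA0 (X M
    u0 u1 u2 u3 u4 u5 u6 u7 u8 u9 u10 u11 u12 u13 u14 u15 u16 u17 u18 u19 u20 u21 u22 u23 u24 u25
    u26 u27 u28 u29 u30 u31 u32 u33 u34 u35 u36 u37 u38 u39 u40 u41 u42 u43 u44 u45 u46 u47 u48 u49
    u50 u51 u52 u53 u54 u55 u56 u57 u58 u59 u60 u61 u62 u63 u64 u65 u66 u67 u68 u69 u70 u71 u72 u73
    u74 u75 u76 u77 u78 u79 u80 u81 u82 u83 u84 u85 u86 u87 u88 : Nat) : Nat :=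
    (Nat.add (Nat.mul (Nat.mul (Nat.land u0 M) (Nat.sub X (Nat.land u0 M))) 18)
    (Nat.add (Nat.mul (Nat.mul (Nat.land u1 M) (Nat.sub X (Nat.land u1 M))) 36)
    (Nat.add (Nat.mul (Nat.mul (Nat.land u2 M) (Nat.sub X (Nat.land u2 M))) 36)
    (Nat.add (Nat.mul (Nat.mul (Nat.land u3 M) (Nat.sub X (Nat.land u3 M))) 36)
    (Nat.add (Nat.mul (Nat.mul (Nat.land u4 M) (Nat.sub X (Nat.land u4 M))) 18)
    (Nat.add (Nat.mul (Nat.mul (Nat.land u5 M) (Nat.sub X (Nat.land u5 M))) 36)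
    (Nat.add (Nat.mul (Nat.mul (Nat.land u6 M) (Nat.sub X (Nat.land u6 M))) 36)
    (Nat.add (Nat.mul (Nat.mul (Nat.land u7 M) (Nat.sub X (Nat.land u7 M))) 18)
    (Nat.add (Nat.mul (Nat.mul (Nat.land u8 M) (Nat.sub X (Nat.land u8 M))) 18)
    (Nat.add (Nat.mul (Nat.mul (Nat.land u9 M) (Nat.sub X (Nat.land u9 M))) 36)
    (Nat.add (Nat.mul (Nat.mul (Nat.land u10 M) (Nat.sub X (Nat.land u10 M))) 36)
    (Nat.add (Nat.mul (Nat.mul (Nat.land u11 M) (Nat.sub X (Nat.land u11 M))) 36)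
    (Nat.add (Nat.mul (Nat.mul (Nat.land u12 M) (Nat.sub X (Nat.land u12 M))) 36)
    (Nat.add (Nat.mul (Nat.mul (Nat.land u13 M) (Nat.sub X (Nat.land u13 M))) 36)
    (Nat.add (Nat.mul (Nat.mul (Nat.land u14 M) (Nat.sub X (Nat.land u14 M))) 36)
    (Nat.add (Nat.mul (Nat.mul (Nat.land u15 M) (Nat.sub X (Nat.land u15 M))) 36)
    (Nat.add (Nat.mul (Nat.mul (Nat.land u16 M) (Nat.sub X (Nat.land u16 M))) 36)
    (Nat.add (Nat.mul (Nat.mul (Nat.land u17 M) (Nat.sub X (Nat.land u17 M))) 36)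
    (Nat.add (Nat.mul (Nat.mul (Nat.land u18 M) (Nat.sub X (Nat.land u18 M))) 36)
    (Nat.add (Nat.mul (Nat.mul (Nat.land u19 M) (Nat.sub X (Nat.land u19 M))) 36)
    (Nat.add (Nat.mul (Nat.mul (Nat.land u20 M) (Nat.sub X (Nat.land u20 M))) 36)
    (Nat.add (Nat.mul (Nat.mul (Nat.land u21 M) (Nat.sub X (Nat.land u21 M))) 18)
    (Nat.add (Nat.mul (Nat.mul (Nat.land u22 M) (Nat.sub X (Nat.land u22 M))) 36)
    (Nat.add (Nat.mul (Nat.mul (Nat.land u23 M) (Nat.sub X (Nat.land u23 M))) 36)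
    (Nat.add (Nat.mul (Nat.mul (Nat.land u24 M) (Nat.sub X (Nat.land u24 M))) 36)
    (Nat.add (Nat.mul (Nat.mul (Nat.land u25 M) (Nat.sub X (Nat.land u25 M))) 36)
    (Nat.add (Nat.mul (Nat.mul (Nat.land u26 M) (Nat.sub X (Nat.land u26 M))) 36)
    (Nat.add (Nat.mul (Nat.mul (Nat.land u27 M) (Nat.sub X (Nat.land u27 M))) 18)
    (Nat.add (Nat.mul (Nat.mul (Nat.land u28 M) (Nat.sub X (Nat.land u28 M))) 36)
    (Nat.add (Nat.mul (Nat.mul (Nat.land u29 M) (Nat.sub X (Nat.land u29 M))) 36)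
    (Nat.add (Nat.mul (Nat.mul (Nat.land u30 M) (Nat.sub X (Nat.land u30 M))) 36)
    (Nat.add (Nat.mul (Nat.mul (Nat.land u31 M) (Nat.sub X (Nat.land u31 M))) 36)
    (Nat.add (Nat.mul (Nat.mul (Nat.land u32 M) (Nat.sub X (Nat.land u32 M))) 36)
    (Nat.add (Nat.mul (Nat.mul (Nat.land u33 M) (Nat.sub X (Nat.land u33 M))) 36)
    (Nat.add (Nat.mul (Nat.mul (Nat.land u34 M) (Nat.sub X (Nat.land u34 M))) 36)
    (Nat.add (Nat.mul (Nat.mul (Nat.land u35 M) (Nat.sub X (Nat.land u35 M))) 36)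
    (Nat.add (Nat.mul (Nat.mul (Nat.land u36 M) (Nat.sub X (Nat.land u36 M))) 18)
    (Nat.add (Nat.mul (Nat.mul (Nat.land u37 M) (Nat.sub X (Nat.land u37 M))) 36)
    (Nat.add (Nat.mul (Nat.mul (Nat.land u38 M) (Nat.sub X (Nat.land u38 M))) 36)
    (Nat.add (Nat.mul (Nat.mul (Nat.land u39 M) (Nat.sub X (Nat.land u39 M))) 36)
    (Nat.add (Nat.mul (Nat.mul (Nat.land u40 M) (Nat.sub X (Nat.land u40 M))) 18)
    (Nat.add (Nat.mul (Nat.mul (Nat.land u41 M) (Nat.sub X (Nat.land u41 M))) 18)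
    (Nat.add (Nat.mul (Nat.mul (Nat.land u42 M) (Nat.sub X (Nat.land u42 M))) 36)
    (Nat.add (Nat.mul (Nat.mul (Nat.land u43 M) (Nat.sub X (Nat.land u43 M))) 36)
    (Nat.add (Nat.mul (Nat.mul (Nat.land u44 M) (Nat.sub X (Nat.land u44 M))) 36)
    (Nat.add (Nat.mul (Nat.mul (Nat.land u45 M) (Nat.sub X (Nat.land u45 M))) 36)
    (Nat.add (Nat.mul (Nat.mul (Nat.land u46 M) (Nat.sub X (Nat.land u46 M))) 36)
    (Nat.add (Nat.mul (Nat.mul (Nat.land u47 M) (Nat.sub X (Nat.land u47 M))) 36)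
    (Nat.add (Nat.mul (Nat.mul (Nat.land u48 M) (Nat.sub X (Nat.land u48 M))) 36)
    (Nat.add (Nat.mul (Nat.mul (Nat.land u49 M) (Nat.sub X (Nat.land u49 M))) 36)
    (Nat.add (Nat.mul (Nat.mul (Nat.land u50 M) (Nat.sub X (Nat.land u50 M))) 36)
    (Nat.add (Nat.mul (Nat.mul (Nat.land u51 M) (Nat.sub X (Nat.land u51 M))) 36)
    (Nat.add (Nat.mul (Nat.mul (Nat.land u52 M) (Nat.sub X (Nat.land u52 M))) 36)
    (Nat.add (Nat.mul (Nat.mul (Nat.land u53 M) (Nat.sub X (Nat.land u53 M))) 36)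
    (Nat.add (Nat.mul (Nat.mul (Nat.land u54 M) (Nat.sub X (Nat.land u54 M))) 36)
    (Nat.add (Nat.mul (Nat.mul (Nat.land u55 M) (Nat.sub X (Nat.land u55 M))) 36)
    (Nat.add (Nat.mul (Nat.mul (Nat.land u56 M) (Nat.sub X (Nat.land u56 M))) 36)
    (Nat.add (Nat.mul (Nat.mul (Nat.land u57 M) (Nat.sub X (Nat.land u57 M))) 36)
    (Nat.add (Nat.mul (Nat.mul (Nat.land u58 M) (Nat.sub X (Nat.land u58 M))) 36)
    (Nat.add (Nat.mul (Nat.mul (Nat.land u59 M) (Nat.sub X (Nat.land u59 M))) 36)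
    (Nat.add (Nat.mul (Nat.mul (Nat.land u60 M) (Nat.sub X (Nat.land u60 M))) 36)
    (Nat.add (Nat.mul (Nat.mul (Nat.land u61 M) (Nat.sub X (Nat.land u61 M))) 36)
    (Nat.add (Nat.mul (Nat.mul (Nat.land u62 M) (Nat.sub X (Nat.land u62 M))) 36)
    (Nat.add (Nat.mul (Nat.mul (Nat.land u63 M) (Nat.sub X (Nat.land u63 M))) 36)
    (Nat.add (Nat.mul (Nat.mul (Nat.land u64 M) (Nat.sub X (Nat.land u64 M))) 36)
    (Nat.add (Nat.mul (Nat.mul (Nat.land u65 M) (Nat.sub X (Nat.land u65 M))) 18)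
    (Nat.add (Nat.mul (Nat.mul (Nat.land u66 M) (Nat.sub X (Nat.land u66 M))) 18)
    (Nat.add (Nat.mul (Nat.mul (Nat.land u67 M) (Nat.sub X (Nat.land u67 M))) 36)
    (Nat.add (Nat.mul (Nat.mul (Nat.land u68 M) (Nat.sub X (Nat.land u68 M))) 36)
    (Nat.add (Nat.mul (Nat.mul (Nat.land u69 M) (Nat.sub X (Nat.land u69 M))) 36)
    (Nat.add (Nat.mul (Nat.mul (Nat.land u70 M) (Nat.sub X (Nat.land u70 M))) 36)
    (Nat.add (Nat.mul (Nat.mul (Nat.land u71 M) (Nat.sub X (Nat.land u71 M))) 36)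
    (Nat.add (Nat.mul (Nat.mul (Nat.land u72 M) (Nat.sub X (Nat.land u72 M))) 36)
    (Nat.add (Nat.mul (Nat.mul (Nat.land u73 M) (Nat.sub X (Nat.land u73 M))) 36)
    (Nat.add (Nat.mul (Nat.mul (Nat.land u74 M) (Nat.sub X (Nat.land u74 M))) 36)
    (Nat.add (Nat.mul (Nat.mul (Nat.land u75 M) (Nat.sub X (Nat.land u75 M))) 36)
    (Nat.add (Nat.mul (Nat.mul (Nat.land u76 M) (Nat.sub X (Nat.land u76 M))) 36)
    (Nat.add (Nat.mul (Nat.mul (Nat.land u77 M) (Nat.sub X (Nat.land u77 M))) 36)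
    (Nat.add (Nat.mul (Nat.mul (Nat.land u78 M) (Nat.sub X (Nat.land u78 M))) 36)
    (Nat.add (Nat.mul (Nat.mul (Nat.land u79 M) (Nat.sub X (Nat.land u79 M))) 36)
    (Nat.add (Nat.mul (Nat.mul (Nat.land u80 M) (Nat.sub X (Nat.land u80 M))) 36)
    (Nat.add (Nat.mul (Nat.mul (Nat.land u81 M) (Nat.sub X (Nat.land u81 M))) 36)
    (Nat.add (Nat.mul (Nat.mul (Nat.land u82 M) (Nat.sub X (Nat.land u82 M))) 36)
    (Nat.add (Nat.mul (Nat.mul (Nat.land u83 M) (Nat.sub X (Nat.land u83 M))) 36)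
    (Nat.add (Nat.mul (Nat.mul (Nat.land u84 M) (Nat.sub X (Nat.land u84 M))) 36)
    (Nat.add (Nat.mul (Nat.mul (Nat.land u85 M) (Nat.sub X (Nat.land u85 M))) 36)
    (Nat.add (Nat.mul (Nat.mul (Nat.land u86 M) (Nat.sub X (Nat.land u86 M))) 18)
    (Nat.add (Nat.mul (Nat.mul (Nat.land u87 M) (Nat.sub X (Nat.land u87 M))) 36)
    (Nat.add (Nat.mul (Nat.mul (Nat.land u88 M) (Nat.sub X (Nat.land u88 M))) 36)
    0)))))))))))))))))))))))))))))))))))))))))))))))))))))))))))))))))))))))))))))))))))))))))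

def sqB0 (z0 z1 z2 z3 z4 z5 z6 z7 z8 z9 z10 z11 z12 z13 z14 : Nat) : Nat :=
  sqA0 (Nat.shiftLeft 1 146) (Nat.sub (Nat.shiftLeft 1 146) 1)
    z0
    (Nat.shiftRight z0 146)
    (Nat.shiftRight (Nat.shiftRight z0 146) 146)
    (Nat.shiftRight (Nat.shiftRight (Nat.shiftRight z0 146) 146) 146)
    (Nat.shiftRight (Nat.shiftRight (Nat.shiftRight (Nat.shiftRight z0 146) 146) 146) 146)
    (Nat.shiftRight (Nat.shiftRight (Nat.shiftRight (Nat.shiftRight (Nat.shiftRight z0 146) 146) 146) 146) 146)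
    z1
    (Nat.shiftRight z1 146)
    (Nat.shiftRight (Nat.shiftRight z1 146) 146)
    (Nat.shiftRight (Nat.shiftRight (Nat.shiftRight z1 146) 146) 146)
    (Nat.shiftRight (Nat.shiftRight (Nat.shiftRight (Nat.shiftRight z1 146) 146) 146) 146)
    (Nat.shiftRight (Nat.shiftRight (Nat.shiftRight (Nat.shiftRight (Nat.shiftRight z1 146) 146) 146) 146) 146)
    z2
    (Nat.shiftRight z2 146)
    (Nat.shiftRight (Nat.shiftRight z2 146) 146)
    (Nat.shiftRight (Nat.shiftRight (Nat.shiftRight z2 146) 146) 146)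
    (Nat.shiftRight (Nat.shiftRight (Nat.shiftRight (Nat.shiftRight z2 146) 146) 146) 146)
    (Nat.shiftRight (Nat.shiftRight (Nat.shiftRight (Nat.shiftRight (Nat.shiftRight z2 146) 146) 146) 146) 146)
    z3
    (Nat.shiftRight z3 146)
    (Nat.shiftRight (Nat.shiftRight z3 146) 146)
    (Nat.shiftRight (Nat.shiftRight (Nat.shiftRight z3 146) 146) 146)
    (Nat.shiftRight (Nat.shiftRight (Nat.shiftRight (Nat.shiftRight z3 146) 146) 146) 146)
    (Nat.shiftRight (Nat.shiftRight (Nat.shiftRight (Nat.shiftRight (Nat.shiftRight z3 146) 146) 146) 146) 146)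
    z4
    (Nat.shiftRight z4 146)
    (Nat.shiftRight (Nat.shiftRight z4 146) 146)
    (Nat.shiftRight (Nat.shiftRight (Nat.shiftRight z4 146) 146) 146)
    (Nat.shiftRight (Nat.shiftRight (Nat.shiftRight (Nat.shiftRight z4 146) 146) 146) 146)
    (Nat.shiftRight (Nat.shiftRight (Nat.shiftRight (Nat.shiftRight (Nat.shiftRight z4 146) 146) 146) 146) 146)
    z5
    (Nat.shiftRight z5 146)
    (Nat.shiftRight (Nat.shiftRight z5 146) 146)
    (Nat.shiftRight (Nat.shiftRight (Nat.shiftRight z5 146) 146) 146)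
    (Nat.shiftRight (Nat.shiftRight (Nat.shiftRight (Nat.shiftRight z5 146) 146) 146) 146)
    (Nat.shiftRight (Nat.shiftRight (Nat.shiftRight (Nat.shiftRight (Nat.shiftRight z5 146) 146) 146) 146) 146)
    z6
    (Nat.shiftRight z6 146)
    (Nat.shiftRight (Nat.shiftRight z6 146) 146)
    (Nat.shiftRight (Nat.shiftRight (Nat.shiftRight z6 146) 146) 146)
    (Nat.shiftRight (Nat.shiftRight (Nat.shiftRight (Nat.shiftRight z6 146) 146) 146) 146)
    (Nat.shiftRight (Nat.shiftRight (Nat.shiftRight (Nat.shiftRight (Nat.shiftRight z6 146) 146) 146) 146) 146)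
    z7
    (Nat.shiftRight z7 146)
    (Nat.shiftRight (Nat.shiftRight z7 146) 146)
    (Nat.shiftRight (Nat.shiftRight (Nat.shiftRight z7 146) 146) 146)
    (Nat.shiftRight (Nat.shiftRight (Nat.shiftRight (Nat.shiftRight z7 146) 146) 146) 146)
    (Nat.shiftRight (Nat.shiftRight (Nat.shiftRight (Nat.shiftRight (Nat.shiftRight z7 146) 146) 146) 146) 146)
    z8
    (Nat.shiftRight z8 146)
    (Nat.shiftRight (Nat.shiftRight z8 146) 146)
    (Nat.shiftRight (Nat.shiftRight (Nat.shiftRight z8 146) 146) 146)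
    (Nat.shiftRight (Nat.shiftRight (Nat.shiftRight (Nat.shiftRight z8 146) 146) 146) 146)
    (Nat.shiftRight (Nat.shiftRight (Nat.shiftRight (Nat.shiftRight (Nat.shiftRight z8 146) 146) 146) 146) 146)
    z9
    (Nat.shiftRight z9 146)
    (Nat.shiftRight (Nat.shiftRight z9 146) 146)
    (Nat.shiftRight (Nat.shiftRight (Nat.shiftRight z9 146) 146) 146)
    (Nat.shiftRight (Nat.shiftRight (Nat.shiftRight (Nat.shiftRight z9 146) 146) 146) 146)
    (Nat.shiftRight (Nat.shiftRight (Nat.shiftRight (Nat.shiftRight (Nat.shiftRight z9 146) 146) 146) 146) 146)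
    z10
    (Nat.shiftRight z10 146)
    (Nat.shiftRight (Nat.shiftRight z10 146) 146)
    (Nat.shiftRight (Nat.shiftRight (Nat.shiftRight z10 146) 146) 146)
    (Nat.shiftRight (Nat.shiftRight (Nat.shiftRight (Nat.shiftRight z10 146) 146) 146) 146)
    (Nat.shiftRight (Nat.shiftRight (Nat.shiftRight (Nat.shiftRight (Nat.shiftRight z10 146) 146) 146) 146) 146)
    z11
    (Nat.shiftRight z11 146)
    (Nat.shiftRight (Nat.shiftRight z11 146) 146)
    (Nat.shiftRight (Nat.shiftRight (Nat.shiftRight z11 146) 146) 146)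
    (Nat.shiftRight (Nat.shiftRight (Nat.shiftRight (Nat.shiftRight z11 146) 146) 146) 146)
    (Nat.shiftRight (Nat.shiftRight (Nat.shiftRight (Nat.shiftRight (Nat.shiftRight z11 146) 146) 146) 146) 146)
    z12
    (Nat.shiftRight z12 146)
    (Nat.shiftRight (Nat.shiftRight z12 146) 146)
    (Nat.shiftRight (Nat.shiftRight (Nat.shiftRight z12 146) 146) 146)
    (Nat.shiftRight (Nat.shiftRight (Nat.shiftRight (Nat.shiftRight z12 146) 146) 146) 146)
    (Nat.shiftRight (Nat.shiftRight (Nat.shiftRight (Nat.shiftRight (Nat.shiftRight z12 146) 146) 146) 146) 146)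
    z13
    (Nat.shiftRight z13 146)
    (Nat.shiftRight (Nat.shiftRight z13 146) 146)
    (Nat.shiftRight (Nat.shiftRight (Nat.shiftRight z13 146) 146) 146)
    (Nat.shiftRight (Nat.shiftRight (Nat.shiftRight (Nat.shiftRight z13 146) 146) 146) 146)
    (Nat.shiftRight (Nat.shiftRight (Nat.shiftRight (Nat.shiftRight (Nat.shiftRight z13 146) 146) 146) 146) 146)
    z14
    (Nat.shiftRight z14 146)
    (Nat.shiftRight (Nat.shiftRight z14 146) 146)
    (Nat.shiftRight (Nat.shiftRight (Nat.shiftRight z14 146) 146) 146)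
    (Nat.shiftRight (Nat.shiftRight (Nat.shiftRight (Nat.shiftRight z14 146) 146) 146) 146)

def sqC0 (u : Nat) : Nat :=
  sqB0
    u
    (sh6 146 u)
    (sh6 146 (sh6 146 u))
    (sh6 146 (sh6 146 (sh6 146 u)))
    (sh6 146 (sh6 146 (sh6 146 (sh6 146 u))))
    (sh6 146 (sh6 146 (sh6 146 (sh6 146 (sh6 146 u)))))
    (sh6 146 (sh6 146 (sh6 146 (sh6 146 (sh6 146 (sh6 146 u))))))
    (sh6 146 (sh6 146 (sh6 146 (sh6 146 (sh6 146 (sh6 146 (sh6 146 u)))))))
    (sh6 146 (sh6 146 (sh6 146 (sh6 146 (sh6 146 (sh6 146 (sh6 146 (sh6 146 u))))))))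
    (sh6 146 (sh6 146 (sh6 146 (sh6 146 (sh6 146 (sh6 146 (sh6 146 (sh6 146 (sh6 146 u)))))))))
    (sh6 146 (sh6 146 (sh6 146 (sh6 146 (sh6 146 (sh6 146 (sh6 146 (sh6 146 (sh6 146 (sh6 146 u))))))))))
    (sh6 146 (sh6 146 (sh6 146 (sh6 146 (sh6 146 (sh6 146 (sh6 146 (sh6 146 (sh6 146 (sh6 146 (sh6 146 u)))))))))))
    (sh6 146 (sh6 146 (sh6 146 (sh6 146 (sh6 146 (sh6 146 (sh6 146 (sh6 146 (sh6 146 (sh6 146 (sh6 146 (sh6 146 u))))))))))))
    (sh6 146 (sh6 146 (sh6 146 (sh6 146 (sh6 146 (sh6 146 (sh6 146 (sh6 146 (sh6 146 (sh6 146 (sh6 146 (sh6 146 (sh6 146 u)))))))))))))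
    (sh6 146 (sh6 146 (sh6 146 (sh6 146 (sh6 146 (sh6 146 (sh6 146 (sh6 146 (sh6 146 (sh6 146 (sh6 146 (sh6 146 (sh6 146 (sh6 146 u))))))))))))))

noncomputable def sq0 (v : Nat) : Nat := sqC0 (Nat.add v (offs 146 (Nat.shiftLeft 1 (Nat.sub 146 1)) ch0))

theorem sq_eq0 : sq0 = sqF 146 ch0 := Eq.refl sq0

theorem side_ok0 : sideOK 9 146 mask cf9 ch0 = true := by decide +kernel

def ch1 : List (Nat × Nat) :=
    [(1150,36), (1154,36), (1156,18), (1166,36), (1168,36), (1172,36), (1190,36), (1232,36),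
    (1238,36), (1240,36), (1250,36), (1256,36), (1258,36), (1262,36), (1274,36), (1276,18),
    (1280,36), (1304,18), (1310,36), (1312,18), (1316,36), (1328,36), (1334,36), (1352,36),
    (1388,36), (1406,18), (1520,36), (1526,18), (1556,36), (1562,36), (1574,36), (1580,36),
    (1586,36), (1598,36), (1604,18), (1628,18), (1634,36), (1640,18), (1652,36), (1736,36),
    (1742,36), (1760,18), (1796,18), (2474,36), (2480,36), (2482,18), (2492,36), (2498,18),
    (2528,36), (2534,36), (2536,36), (2546,36), (2552,36), (2554,36), (2558,36), (2560,36),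
    (2570,36), (2572,36), (2576,36), (2606,36), (2608,36), (2612,36), (2624,36), (2630,36),
    (2708,18), (2714,36), (2720,36), (2732,36), (2768,36), (3032,18), (3038,36), (3040,36),
    (3044,36), (3046,18), (3056,36), (3058,18), (3062,36), (3092,36), (3098,18), (3110,18),
    (3200,36), (3202,36), (3206,36), (3218,36), (3254,36), (3256,18), (3260,18), (3272,36),
    (3278,18), (3280,18)]

def sqA1 (X M
    u0 u1 u2 u3 u4 u5 u6 u7 u8 u9 u10 u11 u12 u13 u14 u15 u16 u17 u18 u19 u20 u21 u22 u23 u24 u25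
    u26 u27 u28 u29 u30 u31 u32 u33 u34 u35 u36 u37 u38 u39 u40 u41 u42 u43 u44 u45 u46 u47 u48 u49
    u50 u51 u52 u53 u54 u55 u56 u57 u58 u59 u60 u61 u62 u63 u64 u65 u66 u67 u68 u69 u70 u71 u72 u73
    u74 u75 u76 u77 u78 u79 u80 u81 u82 u83 u84 u85 u86 u87 u88 u89 : Nat) : Nat :=
    (Nat.add (Nat.mul (Nat.mul (Nat.land u0 M) (Nat.sub X (Nat.land u0 M))) 36)
    (Nat.add (Nat.mul (Nat.mul (Nat.land u1 M) (Nat.sub X (Nat.land u1 M))) 36)
    (Nat.add (Nat.mul (Nat.mul (Nat.land u2 M) (Nat.sub X (Nat.land u2 M))) 18)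
    (Nat.add (Nat.mul (Nat.mul (Nat.land u3 M) (Nat.sub X (Nat.land u3 M))) 36)
    (Nat.add (Nat.mul (Nat.mul (Nat.land u4 M) (Nat.sub X (Nat.land u4 M))) 36)
    (Nat.add (Nat.mul (Nat.mul (Nat.land u5 M) (Nat.sub X (Nat.land u5 M))) 36)
    (Nat.add (Nat.mul (Nat.mul (Nat.land u6 M) (Nat.sub X (Nat.land u6 M))) 36)
    (Nat.add (Nat.mul (Nat.mul (Nat.land u7 M) (Nat.sub X (Nat.land u7 M))) 36)
    (Nat.add (Nat.mul (Nat.mul (Nat.land u8 M) (Nat.sub X (Nat.land u8 M))) 36)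
    (Nat.add (Nat.mul (Nat.mul (Nat.land u9 M) (Nat.sub X (Nat.land u9 M))) 36)
    (Nat.add (Nat.mul (Nat.mul (Nat.land u10 M) (Nat.sub X (Nat.land u10 M))) 36)
    (Nat.add (Nat.mul (Nat.mul (Nat.land u11 M) (Nat.sub X (Nat.land u11 M))) 36)
    (Nat.add (Nat.mul (Nat.mul (Nat.land u12 M) (Nat.sub X (Nat.land u12 M))) 36)
    (Nat.add (Nat.mul (Nat.mul (Nat.land u13 M) (Nat.sub X (Nat.land u13 M))) 36)
    (Nat.add (Nat.mul (Nat.mul (Nat.land u14 M) (Nat.sub X (Nat.land u14 M))) 36)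
    (Nat.add (Nat.mul (Nat.mul (Nat.land u15 M) (Nat.sub X (Nat.land u15 M))) 18)
    (Nat.add (Nat.mul (Nat.mul (Nat.land u16 M) (Nat.sub X (Nat.land u16 M))) 36)
    (Nat.add (Nat.mul (Nat.mul (Nat.land u17 M) (Nat.sub X (Nat.land u17 M))) 18)
    (Nat.add (Nat.mul (Nat.mul (Nat.land u18 M) (Nat.sub X (Nat.land u18 M))) 36)
    (Nat.add (Nat.mul (Nat.mul (Nat.land u19 M) (Nat.sub X (Nat.land u19 M))) 18)
    (Nat.add (Nat.mul (Nat.mul (Nat.land u20 M) (Nat.sub X (Nat.land u20 M))) 36)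
    (Nat.add (Nat.mul (Nat.mul (Nat.land u21 M) (Nat.sub X (Nat.land u21 M))) 36)
    (Nat.add (Nat.mul (Nat.mul (Nat.land u22 M) (Nat.sub X (Nat.land u22 M))) 36)
    (Nat.add (Nat.mul (Nat.mul (Nat.land u23 M) (Nat.sub X (Nat.land u23 M))) 36)
    (Nat.add (Nat.mul (Nat.mul (Nat.land u24 M) (Nat.sub X (Nat.land u24 M))) 36)
    (Nat.add (Nat.mul (Nat.mul (Nat.land u25 M) (Nat.sub X (Nat.land u25 M))) 18)
    (Nat.add (Nat.mul (Nat.mul (Nat.land u26 M) (Nat.sub X (Nat.land u26 M))) 36)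
    (Nat.add (Nat.mul (Nat.mul (Nat.land u27 M) (Nat.sub X (Nat.land u27 M))) 18)
    (Nat.add (Nat.mul (Nat.mul (Nat.land u28 M) (Nat.sub X (Nat.land u28 M))) 36)
    (Nat.add (Nat.mul (Nat.mul (Nat.land u29 M) (Nat.sub X (Nat.land u29 M))) 36)
    (Nat.add (Nat.mul (Nat.mul (Nat.land u30 M) (Nat.sub X (Nat.land u30 M))) 36)
    (Nat.add (Nat.mul (Nat.mul (Nat.land u31 M) (Nat.sub X (Nat.land u31 M))) 36)
    (Nat.add (Nat.mul (Nat.mul (Nat.land u32 M) (Nat.sub X (Nat.land u32 M))) 36)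
    (Nat.add (Nat.mul (Nat.mul (Nat.land u33 M) (Nat.sub X (Nat.land u33 M))) 36)
    (Nat.add (Nat.mul (Nat.mul (Nat.land u34 M) (Nat.sub X (Nat.land u34 M))) 18)
    (Nat.add (Nat.mul (Nat.mul (Nat.land u35 M) (Nat.sub X (Nat.land u35 M))) 18)
    (Nat.add (Nat.mul (Nat.mul (Nat.land u36 M) (Nat.sub X (Nat.land u36 M))) 36)
    (Nat.add (Nat.mul (Nat.mul (Nat.land u37 M) (Nat.sub X (Nat.land u37 M))) 18)
    (Nat.add (Nat.mul (Nat.mul (Nat.land u38 M) (Nat.sub X (Nat.land u38 M))) 36)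
    (Nat.add (Nat.mul (Nat.mul (Nat.land u39 M) (Nat.sub X (Nat.land u39 M))) 36)
    (Nat.add (Nat.mul (Nat.mul (Nat.land u40 M) (Nat.sub X (Nat.land u40 M))) 36)
    (Nat.add (Nat.mul (Nat.mul (Nat.land u41 M) (Nat.sub X (Nat.land u41 M))) 18)
    (Nat.add (Nat.mul (Nat.mul (Nat.land u42 M) (Nat.sub X (Nat.land u42 M))) 18)
    (Nat.add (Nat.mul (Nat.mul (Nat.land u43 M) (Nat.sub X (Nat.land u43 M))) 36)
    (Nat.add (Nat.mul (Nat.mul (Nat.land u44 M) (Nat.sub X (Nat.land u44 M))) 36)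
    (Nat.add (Nat.mul (Nat.mul (Nat.land u45 M) (Nat.sub X (Nat.land u45 M))) 18)
    (Nat.add (Nat.mul (Nat.mul (Nat.land u46 M) (Nat.sub X (Nat.land u46 M))) 36)
    (Nat.add (Nat.mul (Nat.mul (Nat.land u47 M) (Nat.sub X (Nat.land u47 M))) 18)
    (Nat.add (Nat.mul (Nat.mul (Nat.land u48 M) (Nat.sub X (Nat.land u48 M))) 36)
    (Nat.add (Nat.mul (Nat.mul (Nat.land u49 M) (Nat.sub X (Nat.land u49 M))) 36)
    (Nat.add (Nat.mul (Nat.mul (Nat.land u50 M) (Nat.sub X (Nat.land u50 M))) 36)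
    (Nat.add (Nat.mul (Nat.mul (Nat.land u51 M) (Nat.sub X (Nat.land u51 M))) 36)
    (Nat.add (Nat.mul (Nat.mul (Nat.land u52 M) (Nat.sub X (Nat.land u52 M))) 36)
    (Nat.add (Nat.mul (Nat.mul (Nat.land u53 M) (Nat.sub X (Nat.land u53 M))) 36)
    (Nat.add (Nat.mul (Nat.mul (Nat.land u54 M) (Nat.sub X (Nat.land u54 M))) 36)
    (Nat.add (Nat.mul (Nat.mul (Nat.land u55 M) (Nat.sub X (Nat.land u55 M))) 36)
    (Nat.add (Nat.mul (Nat.mul (Nat.land u56 M) (Nat.sub X (Nat.land u56 M))) 36)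
    (Nat.add (Nat.mul (Nat.mul (Nat.land u57 M) (Nat.sub X (Nat.land u57 M))) 36)
    (Nat.add (Nat.mul (Nat.mul (Nat.land u58 M) (Nat.sub X (Nat.land u58 M))) 36)
    (Nat.add (Nat.mul (Nat.mul (Nat.land u59 M) (Nat.sub X (Nat.land u59 M))) 36)
    (Nat.add (Nat.mul (Nat.mul (Nat.land u60 M) (Nat.sub X (Nat.land u60 M))) 36)
    (Nat.add (Nat.mul (Nat.mul (Nat.land u61 M) (Nat.sub X (Nat.land u61 M))) 36)
    (Nat.add (Nat.mul (Nat.mul (Nat.land u62 M) (Nat.sub X (Nat.land u62 M))) 36)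
    (Nat.add (Nat.mul (Nat.mul (Nat.land u63 M) (Nat.sub X (Nat.land u63 M))) 36)
    (Nat.add (Nat.mul (Nat.mul (Nat.land u64 M) (Nat.sub X (Nat.land u64 M))) 18)
    (Nat.add (Nat.mul (Nat.mul (Nat.land u65 M) (Nat.sub X (Nat.land u65 M))) 36)
    (Nat.add (Nat.mul (Nat.mul (Nat.land u66 M) (Nat.sub X (Nat.land u66 M))) 36)
    (Nat.add (Nat.mul (Nat.mul (Nat.land u67 M) (Nat.sub X (Nat.land u67 M))) 36)
    (Nat.add (Nat.mul (Nat.mul (Nat.land u68 M) (Nat.sub X (Nat.land u68 M))) 36)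
    (Nat.add (Nat.mul (Nat.mul (Nat.land u69 M) (Nat.sub X (Nat.land u69 M))) 18)
    (Nat.add (Nat.mul (Nat.mul (Nat.land u70 M) (Nat.sub X (Nat.land u70 M))) 36)
    (Nat.add (Nat.mul (Nat.mul (Nat.land u71 M) (Nat.sub X (Nat.land u71 M))) 36)
    (Nat.add (Nat.mul (Nat.mul (Nat.land u72 M) (Nat.sub X (Nat.land u72 M))) 36)
    (Nat.add (Nat.mul (Nat.mul (Nat.land u73 M) (Nat.sub X (Nat.land u73 M))) 18)
    (Nat.add (Nat.mul (Nat.mul (Nat.land u74 M) (Nat.sub X (Nat.land u74 M))) 36)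
    (Nat.add (Nat.mul (Nat.mul (Nat.land u75 M) (Nat.sub X (Nat.land u75 M))) 18)
    (Nat.add (Nat.mul (Nat.mul (Nat.land u76 M) (Nat.sub X (Nat.land u76 M))) 36)
    (Nat.add (Nat.mul (Nat.mul (Nat.land u77 M) (Nat.sub X (Nat.land u77 M))) 36)
    (Nat.add (Nat.mul (Nat.mul (Nat.land u78 M) (Nat.sub X (Nat.land u78 M))) 18)
    (Nat.add (Nat.mul (Nat.mul (Nat.land u79 M) (Nat.sub X (Nat.land u79 M))) 18)
    (Nat.add (Nat.mul (Nat.mul (Nat.land u80 M) (Nat.sub X (Nat.land u80 M))) 36)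
    (Nat.add (Nat.mul (Nat.mul (Nat.land u81 M) (Nat.sub X (Nat.land u81 M))) 36)
    (Nat.add (Nat.mul (Nat.mul (Nat.land u82 M) (Nat.sub X (Nat.land u82 M))) 36)
    (Nat.add (Nat.mul (Nat.mul (Nat.land u83 M) (Nat.sub X (Nat.land u83 M))) 36)
    (Nat.add (Nat.mul (Nat.mul (Nat.land u84 M) (Nat.sub X (Nat.land u84 M))) 36)
    (Nat.add (Nat.mul (Nat.mul (Nat.land u85 M) (Nat.sub X (Nat.land u85 M))) 18)
    (Nat.add (Nat.mul (Nat.mul (Nat.land u86 M) (Nat.sub X (Nat.land u86 M))) 18)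
    (Nat.add (Nat.mul (Nat.mul (Nat.land u87 M) (Nat.sub X (Nat.land u87 M))) 36)
    (Nat.add (Nat.mul (Nat.mul (Nat.land u88 M) (Nat.sub X (Nat.land u88 M))) 18)
    (Nat.add (Nat.mul (Nat.mul (Nat.land u89 M) (Nat.sub X (Nat.land u89 M))) 18)
    0))))))))))))))))))))))))))))))))))))))))))))))))))))))))))))))))))))))))))))))))))))))))))

def sqB1 (z0 z1 z2 z3 z4 z5 z6 z7 z8 z9 z10 z11 z12 z13 z14 : Nat) : Nat :=
  sqA1 (Nat.shiftLeft 1 146) (Nat.sub (Nat.shiftLeft 1 146) 1)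
    z0
    (Nat.shiftRight z0 146)
    (Nat.shiftRight (Nat.shiftRight z0 146) 146)
    (Nat.shiftRight (Nat.shiftRight (Nat.shiftRight z0 146) 146) 146)
    (Nat.shiftRight (Nat.shiftRight (Nat.shiftRight (Nat.shiftRight z0 146) 146) 146) 146)
    (Nat.shiftRight (Nat.shiftRight (Nat.shiftRight (Nat.shiftRight (Nat.shiftRight z0 146) 146) 146) 146) 146)
    z1
    (Nat.shiftRight z1 146)
    (Nat.shiftRight (Nat.shiftRight z1 146) 146)
    (Nat.shiftRight (Nat.shiftRight (Nat.shiftRight z1 146) 146) 146)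
    (Nat.shiftRight (Nat.shiftRight (Nat.shiftRight (Nat.shiftRight z1 146) 146) 146) 146)
    (Nat.shiftRight (Nat.shiftRight (Nat.shiftRight (Nat.shiftRight (Nat.shiftRight z1 146) 146) 146) 146) 146)
    z2
    (Nat.shiftRight z2 146)
    (Nat.shiftRight (Nat.shiftRight z2 146) 146)
    (Nat.shiftRight (Nat.shiftRight (Nat.shiftRight z2 146) 146) 146)
    (Nat.shiftRight (Nat.shiftRight (Nat.shiftRight (Nat.shiftRight z2 146) 146) 146) 146)
    (Nat.shiftRight (Nat.shiftRight (Nat.shiftRight (Nat.shiftRight (Nat.shiftRight z2 146) 146) 146) 146) 146)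
    z3
    (Nat.shiftRight z3 146)
    (Nat.shiftRight (Nat.shiftRight z3 146) 146)
    (Nat.shiftRight (Nat.shiftRight (Nat.shiftRight z3 146) 146) 146)
    (Nat.shiftRight (Nat.shiftRight (Nat.shiftRight (Nat.shiftRight z3 146) 146) 146) 146)
    (Nat.shiftRight (Nat.shiftRight (Nat.shiftRight (Nat.shiftRight (Nat.shiftRight z3 146) 146) 146) 146) 146)
    z4
    (Nat.shiftRight z4 146)
    (Nat.shiftRight (Nat.shiftRight z4 146) 146)
    (Nat.shiftRight (Nat.shiftRight (Nat.shiftRight z4 146) 146) 146)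
    (Nat.shiftRight (Nat.shiftRight (Nat.shiftRight (Nat.shiftRight z4 146) 146) 146) 146)
    (Nat.shiftRight (Nat.shiftRight (Nat.shiftRight (Nat.shiftRight (Nat.shiftRight z4 146) 146) 146) 146) 146)
    z5
    (Nat.shiftRight z5 146)
    (Nat.shiftRight (Nat.shiftRight z5 146) 146)
    (Nat.shiftRight (Nat.shiftRight (Nat.shiftRight z5 146) 146) 146)
    (Nat.shiftRight (Nat.shiftRight (Nat.shiftRight (Nat.shiftRight z5 146) 146) 146) 146)
    (Nat.shiftRight (Nat.shiftRight (Nat.shiftRight (Nat.shiftRight (Nat.shiftRight z5 146) 146) 146) 146) 146)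
    z6
    (Nat.shiftRight z6 146)
    (Nat.shiftRight (Nat.shiftRight z6 146) 146)
    (Nat.shiftRight (Nat.shiftRight (Nat.shiftRight z6 146) 146) 146)
    (Nat.shiftRight (Nat.shiftRight (Nat.shiftRight (Nat.shiftRight z6 146) 146) 146) 146)
    (Nat.shiftRight (Nat.shiftRight (Nat.shiftRight (Nat.shiftRight (Nat.shiftRight z6 146) 146) 146) 146) 146)
    z7
    (Nat.shiftRight z7 146)
    (Nat.shiftRight (Nat.shiftRight z7 146) 146)
    (Nat.shiftRight (Nat.shiftRight (Nat.shiftRight z7 146) 146) 146)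
    (Nat.shiftRight (Nat.shiftRight (Nat.shiftRight (Nat.shiftRight z7 146) 146) 146) 146)
    (Nat.shiftRight (Nat.shiftRight (Nat.shiftRight (Nat.shiftRight (Nat.shiftRight z7 146) 146) 146) 146) 146)
    z8
    (Nat.shiftRight z8 146)
    (Nat.shiftRight (Nat.shiftRight z8 146) 146)
    (Nat.shiftRight (Nat.shiftRight (Nat.shiftRight z8 146) 146) 146)
    (Nat.shiftRight (Nat.shiftRight (Nat.shiftRight (Nat.shiftRight z8 146) 146) 146) 146)
    (Nat.shiftRight (Nat.shiftRight (Nat.shiftRight (Nat.shiftRight (Nat.shiftRight z8 146) 146) 146) 146) 146)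
    z9
    (Nat.shiftRight z9 146)
    (Nat.shiftRight (Nat.shiftRight z9 146) 146)
    (Nat.shiftRight (Nat.shiftRight (Nat.shiftRight z9 146) 146) 146)
    (Nat.shiftRight (Nat.shiftRight (Nat.shiftRight (Nat.shiftRight z9 146) 146) 146) 146)
    (Nat.shiftRight (Nat.shiftRight (Nat.shiftRight (Nat.shiftRight (Nat.shiftRight z9 146) 146) 146) 146) 146)
    z10
    (Nat.shiftRight z10 146)
    (Nat.shiftRight (Nat.shiftRight z10 146) 146)
    (Nat.shiftRight (Nat.shiftRight (Nat.shiftRight z10 146) 146) 146)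
    (Nat.shiftRight (Nat.shiftRight (Nat.shiftRight (Nat.shiftRight z10 146) 146) 146) 146)
    (Nat.shiftRight (Nat.shiftRight (Nat.shiftRight (Nat.shiftRight (Nat.shiftRight z10 146) 146) 146) 146) 146)
    z11
    (Nat.shiftRight z11 146)
    (Nat.shiftRight (Nat.shiftRight z11 146) 146)
    (Nat.shiftRight (Nat.shiftRight (Nat.shiftRight z11 146) 146) 146)
    (Nat.shiftRight (Nat.shiftRight (Nat.shiftRight (Nat.shiftRight z11 146) 146) 146) 146)
    (Nat.shiftRight (Nat.shiftRight (Nat.shiftRight (Nat.shiftRight (Nat.shiftRight z11 146) 146) 146) 146) 146)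
    z12
    (Nat.shiftRight z12 146)
    (Nat.shiftRight (Nat.shiftRight z12 146) 146)
    (Nat.shiftRight (Nat.shiftRight (Nat.shiftRight z12 146) 146) 146)
    (Nat.shiftRight (Nat.shiftRight (Nat.shiftRight (Nat.shiftRight z12 146) 146) 146) 146)
    (Nat.shiftRight (Nat.shiftRight (Nat.shiftRight (Nat.shiftRight (Nat.shiftRight z12 146) 146) 146) 146) 146)
    z13
    (Nat.shiftRight z13 146)
    (Nat.shiftRight (Nat.shiftRight z13 146) 146)
    (Nat.shiftRight (Nat.shiftRight (Nat.shiftRight z13 146) 146) 146)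
    (Nat.shiftRight (Nat.shiftRight (Nat.shiftRight (Nat.shiftRight z13 146) 146) 146) 146)
    (Nat.shiftRight (Nat.shiftRight (Nat.shiftRight (Nat.shiftRight (Nat.shiftRight z13 146) 146) 146) 146) 146)
    z14
    (Nat.shiftRight z14 146)
    (Nat.shiftRight (Nat.shiftRight z14 146) 146)
    (Nat.shiftRight (Nat.shiftRight (Nat.shiftRight z14 146) 146) 146)
    (Nat.shiftRight (Nat.shiftRight (Nat.shiftRight (Nat.shiftRight z14 146) 146) 146) 146)
    (Nat.shiftRight (Nat.shiftRight (Nat.shiftRight (Nat.shiftRight (Nat.shiftRight z14 146) 146) 146) 146) 146)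

def sqC1 (u : Nat) : Nat :=
  sqB1
    u
    (sh6 146 u)
    (sh6 146 (sh6 146 u))
    (sh6 146 (sh6 146 (sh6 146 u)))
    (sh6 146 (sh6 146 (sh6 146 (sh6 146 u))))
    (sh6 146 (sh6 146 (sh6 146 (sh6 146 (sh6 146 u)))))
    (sh6 146 (sh6 146 (sh6 146 (sh6 146 (sh6 146 (sh6 146 u))))))
    (sh6 146 (sh6 146 (sh6 146 (sh6 146 (sh6 146 (sh6 146 (sh6 146 u)))))))
    (sh6 146 (sh6 146 (sh6 146 (sh6 146 (sh6 146 (sh6 146 (sh6 146 (sh6 146 u))))))))
    (sh6 146 (sh6 146 (sh6 146 (sh6 146 (sh6 146 (sh6 146 (sh6 146 (sh6 146 (sh6 146 u)))))))))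
    (sh6 146 (sh6 146 (sh6 146 (sh6 146 (sh6 146 (sh6 146 (sh6 146 (sh6 146 (sh6 146 (sh6 146 u))))))))))
    (sh6 146 (sh6 146 (sh6 146 (sh6 146 (sh6 146 (sh6 146 (sh6 146 (sh6 146 (sh6 146 (sh6 146 (sh6 146 u)))))))))))
    (sh6 146 (sh6 146 (sh6 146 (sh6 146 (sh6 146 (sh6 146 (sh6 146 (sh6 146 (sh6 146 (sh6 146 (sh6 146 (sh6 146 u))))))))))))
    (sh6 146 (sh6 146 (sh6 146 (sh6 146 (sh6 146 (sh6 146 (sh6 146 (sh6 146 (sh6 146 (sh6 146 (sh6 146 (sh6 146 (sh6 146 u)))))))))))))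
    (sh6 146 (sh6 146 (sh6 146 (sh6 146 (sh6 146 (sh6 146 (sh6 146 (sh6 146 (sh6 146 (sh6 146 (sh6 146 (sh6 146 (sh6 146 (sh6 146 u))))))))))))))

noncomputable def sq1 (v : Nat) : Nat := sqC1 (Nat.add v (offs 146 (Nat.shiftLeft 1 (Nat.sub 146 1)) ch1))

theorem sq_eq1 : sq1 = sqF 146 ch1 := Eq.refl sq1

theorem side_ok1 : sideOK 9 146 mask cf9 ch1 = true := by decide +kernel

theorem cover : beqP (repL 9 8) (ch0 ++ (ch1 ++ [])) = true := by decide +kernel

theorem len_ok : (secL 9 8 0 []).length = 2907 := by decide +kernel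

theorem wt_ok : (List.map Prod.snd (ch0 ++ (ch1 ++ []))).sum = 5814 := by decide +kernel

end Vale.Agent.P348.A9_8
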