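import Vale.Agent.P348.KCore2
import Vale.Agent.P348.Poly

set_option maxRecDepth 1000000
set_option maxHeartbeats 0
set_option linter.all false

namespace Vale.Agent.P348.A9_9

def mask : Nat := nat_lit 273015515812118140022058887762671826171088474185936080957861731739536468411150248908648907125091539615990442959974529766525343833901509158124422287693584447465968701930888011887345409829611867979231195830101601926428891126488629235988430713883141507214825008706127328262765483910721178649515097007004811585957396650878282897514848875607048185362262453916222989499559806404649222280672576395684191263415578059103421598150694268341467652997112887724322925367839186839166879538056685831143892230015482602709667731494566896999481677156586491155842065028502701133545836479243427101049252434804830208733177158030153978688071256854851823430451381159201413411502981633783636006754293831119686943432200336283214530653924333920204837008721224305605818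182445813012098502223370890324015920725276605308754552751280456409720570317095268065542061415999309217700335073888193473307498325732386283439523524826612580715559105038290581678347574517801832031998693848612299287771561802949161244157771745550352053140715639513160068646444262440435165306510577323377688430563587170687815337439936504176389197398240274057998980073559806216199604953963092855744259299191542320411929919454324919693896430114212034659819021010591470045306225356125268855975185369121985498743605908460373027366897153683181020870472163962307960609260980561646993706870269623400032472766007720557306673072844686981530281392469248770602069337614880323720246458168809918265326027758949900325108055560163663823504800442900334359629504178108841547094352027723386575954080779715371446933009998751059040877695769386944481605497716786722934649063738120416029761605996093858371681465268020167153992471547212192615286457672193716616184656332254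92497094683213284520493903497095647835803477256963361866910451216053332633583718092605238560390877046997460385017853694943246807471069860605221398843192479163826645361805602828959891874097733704939478789759279216580742511765251849179340683878813404825021570843413237590037763256571156906193823618341043251398172417158529007991775519736178720322296108569391448433263859341138693817916487883833311244457447125193228634771909790596852987280915722190151544665726023481823182896590187485056385328760987150746237057886726083329270336872432325360512456005565482548262378656424023276876964279341953043480580794768297824584294454485992828163111580057382167078037232449011154432140663367960415377753246974925419152687688525296699720360010761368637589311547799434621291463788513194027901781914578851535723998322528332355931738036156902519266073861589234038300700447396945293463737400592202407140328756920719517981148542956660472672456810101888760065429677505735096372848629978020462539590969806810458752927688617557687047953981100698164510624470553885094176915781489921984361574581503496740777542836998585261039315078050806587066278861010539347620279468808819482765895041270169448173138449883191345412124759254697618453001238621999513061299527466229131961389158976882795863294353168400384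

def KK : Type :=
    Nat → Nat → Nat → Nat → Nat → Nat → Nat → Nat → Nat → Nat → Nat → Nat → Nat → Nat → Nat → Nat →
    Nat → Nat → Nat → Nat → Nat → Nat → Nat → Nat → Nat → Nat → Nat → Nat → Nat → Nat → Nat → Nat →
    Nat → Nat → Nat → Nat → Nat → Nat → Nat → Nat → Nat → Nat → Nat → Nat → Nat → Nat → Nat → Nat →
    Nat → Nat → Nat → Nat → Nat → Nat → Nat → Nat → Nat → Nat → Nat → Nat → Nat → Nat → Nat → Nat →
    Nat → Nat → Nat → Nat → Nat → Nat → Nat → Nat → Nat → Nat → Nat → Nat → Nat → Nat → Nat → Nat →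
    Nat → Nat → Nat → Nat → Nat → Nat → Nat → Nat → Nat → Nat → Nat → Nat → Nat → Nat → Nat → Nat →
    Nat → Nat → Nat → Nat → Nat → Nat → Nat → Nat → Nat → Nat → Nat → Nat → Nat → Nat → Nat → Nat →
    Nat → Nat → Nat → Nat → Nat → Nat → Nat → Nat → Nat → Nat → Nat → Nat → Nat → Nat → Nat → Nat →
    Nat → Nat → Nat → Nat → Nat → Nat → Nat → Nat → Nat → Nat → Nat → Nat → Nat → Nat → Nat → Nat →
    Nat → Nat → Nat → Nat → Nat → Nat → Nat → Nat → Nat → Nat → Nat → Nat → Nat → Nat → Nat → Nat →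
    Nat → Nat → Nat → Nat → Nat → Nat → Nat → Nat → Nat → Nat → Nat → Nat → Nat → Nat → Nat → Nat →
    Nat → Nat → Nat → Nat → Nat → Nat → Nat → Nat → Nat → Nat → Nat → Nat → Nat → Nat → Nat → Nat →
    Nat → Nat → Nat → Nat → Nat → Nat → Nat → Nat → Nat → Nat → Nat → Nat → Nat → Nat → Nat → Nat →
    Nat → Nat → Nat → Nat → Nat → Nat → Nat → Nat → Nat → Nat → Nat → Nat → Nat → Nat → Nat → Nat →
    Nat → Nat → Nat → Nat → Nat → Nat → Nat → Nat → Nat → Nat → Nat → Nat → Nat → Nat → Nat → Nat →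
    Nat → Nat → Nat → Nat → Nat → Nat → Nat → Nat → Nat → Nat → Nat → Nat → Nat → Nat → Nat → Nat →
    Nat → Nat → Nat → Nat → Nat → Nat → Nat → Nat → Nat → Nat → Nat → Nat → Nat → Nat → Nat → Nat →
    Nat → Nat → Nat → Nat → Nat → Nat → Nat → Nat → Nat → Nat → Nat → Nat → Nat → Nat → Nat → Nat →
    Nat → Nat → Nat → Nat → Nat → Nat → Nat → Nat → Nat → Nat → Nat → Nat → Nat → Nat → Nat → Nat →
    Nat → Nat → Nat → Nat → Nat → Nat → Nat → Nat → Nat → Nat → Nat → Nat → Nat → Nat → Nat → Nat →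
    Nat → Nat → Nat → Nat → Nat → Nat → Nat → Nat → Nat → Nat → Nat → Nat → Nat → Nat → Nat → Nat →
    Nat → Nat → Nat → Nat → Nat → Nat → Nat → Nat → Nat → Nat → Nat → Nat → Nat → Nat → Nat → Nat →
    Nat → Nat → Nat → Nat → Nat → Nat → Nat → Nat → Nat → Nat → Nat → Nat → Nat → Nat → Nat → Nat →
    Nat → Nat → Nat → Nat → Nat → Nat → Nat → Nat → Nat → Nat → Nat → Nat → Nat → Nat → Nat → Nat →
    Nat → Nat → Nat → Nat → Nat → Nat → Nat → Nat → Nat → Nat → Nat → Nat → Nat → Nat → Nat → Nat →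
    Nat → Nat → Nat → Nat → Nat → Nat → Nat → Nat → Nat → Nat → Nat → Nat → Nat → Nat → Nat → Nat →
    Nat → Nat → Nat → Nat → Nat → Nat → Nat → Nat → Nat → Nat → Nat → Nat → Nat → Nat → Nat → Nat →
    Nat → Nat → Nat → Nat → Nat → Nat → Nat → Nat → Nat → Nat → Nat → Nat → Nat → Nat → Nat → Nat →
    Nat → Nat → Nat → Nat → Nat → Nat → Nat → Nat → Nat → Nat → Nat → Nat → Nat → Nat → Nat → Nat →
    Nat → Nat → Nat → Nat → Nat → Nat → Nat → Nat → Nat → Nat → Nat → Nat → Nat → Nat → Nat → Nat →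
    Nat → Nat → Nat → Nat → Nat → Nat → Nat → Nat → Nat → Nat → Nat → Nat → Nat → Nat → Nat → Nat →
    Nat → Nat → Nat → Nat → Nat → Nat → Nat → Nat → Nat → Nat → Nat → Nat → Nat → Nat → Nat → Nat →
    Nat → Nat → Nat → Nat → Nat → Nat → Nat → Nat → Nat → Nat → Nat → Nat → Nat → Nat → Nat → Nat →
    Nat → Nat → Nat → Nat → Nat → Nat → Nat → Nat → Nat → Nat → Nat → Nat → Nat → Nat → Nat → Nat →
    Nat → Nat → Nat → Nat → Nat → Nat → Nat → Nat → Nat → Nat → Nat → Nat → Nat → Nat → Nat → Nat →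
    Nat → Nat → Nat → Nat → Nat → Nat → Nat → Nat → Nat → Nat → Nat → Nat → Nat → Nat → Nat → Nat →
    Nat → Nat → Nat → Nat → Nat → Nat → Nat → Nat → Nat → Nat → Nat → Nat → Nat → Nat → Nat → Nat →
    Nat → Nat → Nat → Nat → Nat → Nat → Nat → Nat → Nat → Nat → Nat → Nat → Nat → Nat → Nat → Nat →
    Nat → Nat → Nat → Nat → Nat → Nat → Nat → Nat → Nat → Nat → Nat → Nat → Nat → Nat → Nat → Nat →
    Nat → Nat → Nat → Nat → Nat → Nat → Nat → Nat → Nat → Nat → Nat → Nat → Nat → Nat → Nat → Nat →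
    Nat → Nat → Nat → Nat → Nat → Nat → Nat → Nat → Nat → Nat → Nat → Nat → Nat → Nat → Nat → Nat →
    Nat → Nat → Nat → Nat → Nat → Nat → Nat → Nat → Nat → Nat → Nat → Nat → Nat → Nat → Nat → Nat →
    Nat → Nat → Nat → Nat → Nat → Nat → Nat → Nat → Nat → Nat → Nat → Nat → Nat → Nat → Nat → Nat →
    Nat → Nat → Nat → Nat → Nat → Nat → Nat → Nat → Nat → Nat → Nat → Nat → Nat → Nat → Nat → Nat →
    Nat → Nat → Nat → Nat → Nat → Nat → Nat → Nat → Nat → Nat → Nat → Nat → Nat → Nat → Nat → Nat →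
    Nat → Nat → Nat → Nat → Nat → Nat → Nat → Nat → Nat → Nat → Nat → Nat → Nat → Nat → Nat → Nat →
    Nat → Nat → Nat → Nat → Nat → Nat → Nat → Nat → Nat → Nat → Nat → Nat → Nat → Nat → Nat → Nat →
    Nat → Nat → Nat → Nat → Nat → Nat → Nat → Nat → Nat → Nat → Nat → Nat → Nat → Nat → Nat → Nat →
    Nat → Nat → Nat → Nat → Nat → Nat → Nat → Nat → Nat → Nat → Nat → Nat → Nat → Nat → Nat → Nat →
    Nat → Nat → Nat → Nat → Nat → Nat → Nat → Nat → Nat → Nat → Nat → Nat → Nat → Nat → Nat → Nat →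
    Nat → Nat → Nat → Nat → Nat → Nat → Nat → Nat → Nat → Nat → Nat → Nat → Nat → Nat → Nat → Nat →
    Nat → Nat → Nat → Nat → Nat → Nat → Nat → Nat → Nat → Nat → Nat → Nat → Nat → Nat → Nat → Nat →
    Nat → Nat → Nat → Nat → Nat → Nat → Nat → Nat → Nat → Nat → Nat → Nat → Nat → Nat → Nat → Nat →
    Nat → Nat → Nat → Nat → Nat → Nat → Nat → Nat → Nat → Nat → Nat → Nat → Nat → Nat → Nat → Nat →
    Nat → Nat → Nat → Nat → Nat → Nat → Nat → Nat → Nat → Nat → Nat → Nat → Nat → Nat → Nat → Nat →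
    Nat → Nat → Nat → Nat → Nat → Nat → Nat → Nat → Nat → Nat → Nat → Nat → Nat → Nat → Nat → Nat →
    Nat → Nat → Nat → Nat → Nat → Nat → Nat → Nat → Nat → Nat → Nat → Nat → Nat → Nat → Nat → Nat →
    Nat → Nat → Nat → Nat → Nat → Nat → Nat → Nat → Nat → Nat → Nat → Nat → Nat → Nat → Nat → Nat →
    Nat → Nat → Nat → Nat → Nat → Nat → Nat → Nat → Nat → Nat → Nat → Nat → Nat → Nat → Nat → Nat →
    Nat → Nat → Nat → Nat → Nat → Nat → Nat → Nat → Nat → Nat → Nat → Nat → Nat → Nat → Nat → Nat →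
    Nat → Nat → Nat → Nat → Nat → Nat → Nat → Nat → Nat → Nat → Nat → Nat → Nat → Nat → Nat → Nat →
    Nat → Nat → Nat → Nat → Nat → Nat → Nat → Nat → Nat → Nat → Nat → Nat → Nat → Nat → Nat → Nat →
    Nat → Nat → Nat → Nat → Nat → Nat → Nat → Nat → Nat → Nat → Nat → Nat → Nat → Nat → Nat → Nat →
    Nat → Nat → Nat → Nat → Nat → Nat → Nat → Nat → Nat → Nat → Nat → Nat → Nat → Nat → Nat → Nat →
    Nat → Nat → Nat → Nat → Nat → Nat → Nat → Nat → Nat → Nat → Nat → Nat → Nat → Nat → Nat → Nat →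
    Nat → Nat → Nat → Nat → Nat → Nat → Nat → Nat → Nat → Nat → Nat → Nat → Nat → Nat → Nat → Nat →
    Nat → Nat → Nat → Nat → Nat → Nat → Nat → Nat → Nat → Nat → Nat → Nat → Nat → Nat → Nat → Nat →
    Nat → Nat → Nat → Nat → Nat → Nat → Nat → Nat → Nat → Nat → Nat → Nat → Nat → Nat → Nat → Nat →
    Nat → Nat → Nat → Nat → Nat → Nat → Nat → Nat → Nat → Nat → Nat → Nat → Nat → Nat → Nat → Nat →
    Nat → Nat → Nat → Nat → Nat → Nat → Nat → Nat → Nat → Nat → Nat → Nat → Nat → Nat → Nat → Nat →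
    Nat → Nat → Nat → Nat → Nat → Nat → Nat → Nat → Nat → Nat → Nat → Nat → Nat → Nat → Nat → Nat →
    Nat → Nat → Nat → Nat → Nat → Nat → Nat → Nat → Nat → Nat → Nat → Nat → Nat → Nat → Nat → Nat →
    Nat → Nat → Nat → Nat → Nat → Nat → Nat → Nat → Nat → Nat → Nat → Nat → Nat → Nat → Nat → Nat →
    Nat → Nat → Nat → Nat → Nat → Nat → Nat → Nat → Nat → Nat → Nat → Nat → Nat → Nat → Nat → Nat →
    Nat → Nat → Nat → Nat → Nat → Nat → Nat → Nat → Nat → Nat → Nat → Nat → Nat → Nat → Nat → Nat →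
    Nat → Nat → Nat → Nat → Nat → Nat → Nat → Nat → Nat → Nat → Nat → Nat → Nat → Nat → Nat → Nat →
    Nat → Nat → Nat → Nat → Nat → Nat → Nat → Nat → Nat → Nat → Nat → Nat → Nat → Nat → Nat → Nat →
    Nat → Nat → Nat → Nat → Nat → Nat → Nat → Nat → Nat → Nat → Nat → Nat → Nat → Nat → Nat → Nat →
    Nat → Nat → Nat → Nat → Nat → Nat → Nat → Nat → Nat → Nat → Nat → Nat → Nat → Nat → Nat → Nat →
    Nat → Nat → Nat → Nat → Nat → Nat → Nat → Nat → Nat → Nat → Nat → Nat → Nat → Nat → Nat → Nat →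
    Nat → Nat → Nat → Nat → Nat → Nat → Nat → Nat → Nat → Nat → Nat → Nat → Nat → Nat → Nat → Nat →
    Nat → Nat → Nat → Nat → Nat → Nat → Nat → Nat → Nat → Nat → Nat → Nat → Nat → Nat → Nat → Nat →
    Nat → Nat → Nat → Nat → Nat → Nat → Nat → Nat → Nat → Nat → Nat → Nat → Nat → Nat → Nat → Nat →
    Nat → Nat → Nat → Nat → Nat → Nat → Nat → Nat → Nat → Nat → Nat → Nat → Nat → Nat → Nat → Nat →
    Nat → Nat → Nat → Nat → Nat → Nat → Nat → Nat → Nat → Nat → Nat → Nat → Nat → Nat → Nat → Nat →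
    Nat → Nat → Nat → Nat → Nat → Nat → Nat → Nat → Nat → Nat → Nat → Nat → Nat → Nat → Nat → Nat →
    Nat → Nat → Nat → Nat → Nat → Nat → Nat → Nat → Nat → Nat → Nat → Nat → Nat → Nat → Nat → Nat →
    Nat → Nat → Nat → Nat → Nat → Nat → Nat → Nat → Nat → Nat → Nat → Nat → Nat → Nat → Nat → Nat →
    Nat → Nat → Nat → Nat → Nat → Nat → Nat → Nat → Nat → Nat → Nat → Nat → Nat → Nat → Nat → Nat →
    Nat → Nat → Nat → Nat → Nat → Nat → Nat → Nat → Nat → Nat → Nat → Nat → Nat → Nat → Nat → Nat →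
    Nat → Nat → Nat → Nat → Nat → Nat → Nat → Nat → Nat → Nat → Nat → Nat → Nat → Nat → Nat → Nat →
    Nat → Nat → Nat → Nat → Nat → Nat → Nat → Nat → Nat → Nat → Nat → Nat → Nat → Nat → Nat → Nat →
    Nat → Nat → Nat → Nat → Nat → Nat → Nat → Nat → Nat → Nat → Nat → Nat → Nat → Nat → Nat → Nat →
    Nat → Nat → Nat → Nat → Nat → Nat → Nat → Nat → Nat → Nat → Nat → Nat → Nat → Nat → Nat → Nat →
    Nat → Nat → Nat → Nat → Nat → Nat → Nat → Nat → Nat → Nat → Nat → Nat → Nat → Nat → Nat → Nat →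
    Nat → Nat → Nat → Nat → Nat → Nat → Nat → Nat → Nat → Nat → Nat → Nat → Nat → Nat → Nat → Nat →
    Nat → Nat → Nat → Nat → Nat → Nat → Nat → Nat → Nat → Nat → Nat → Nat → Nat → Nat → Nat → Nat →
    Nat → Nat → Nat → Nat → Nat → Nat → Nat → Nat → Nat → Nat → Nat → Nat → Nat → Nat → Nat → Nat →
    Nat → Nat → Nat → Nat → Nat → Nat → Nat → Nat → Nat → Nat → Nat → Nat → Nat → Nat → Nat → Nat →
    Nat → Nat → Nat → Nat → Nat → Nat → Nat → Nat → Nat → Nat → Nat → Nat → Nat → Nat → Nat → Nat →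
    Nat → Nat → Nat → Nat → Nat → Nat → Nat → Nat → Nat → Nat → Nat → Nat → Nat → Nat → Nat → Nat →
    Nat → Nat → Nat → Nat → Nat → Nat → Nat → Nat → Nat → Nat → Nat → Nat → Nat → Nat → Nat → Nat →
    Nat → Nat → Nat → Nat → Nat → Nat → Nat → Nat → Nat → Nat → Nat → Nat → Nat → Nat → Nat → Nat →
    Nat → Nat → Nat → Nat → Nat → Nat → Nat → Nat → Nat → Nat → Nat → Nat → Nat → Nat → Nat → Nat →
    Nat → Nat → Nat → Nat → Nat → Nat → Nat → Nat → Nat → Nat → Nat → Nat → Nat → Nat → Nat → Nat →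
    Nat → Nat → Nat → Nat → Nat → Nat → Nat → Nat → Nat → Nat → Nat → Nat → Nat → Nat → Nat → Nat →
    Nat → Nat → Nat → Nat → Nat → Nat → Nat → Nat → Nat → Nat → Nat → Nat → Nat → Nat → Nat → Nat →
    Nat → Nat → Nat → Nat → Nat → Nat → Nat → Nat → Nat → Nat → Nat → Nat → Nat → Nat → Nat → Nat →
    Nat → Nat → Nat → Nat → Nat → Nat → Nat → Nat → Nat → Nat → Nat → Nat → Nat → Nat → Nat → Nat →
    Nat → Nat → Nat → Nat → Nat → Nat → Nat → Nat → Nat → Nat → Nat → Nat → Nat → Nat → Nat → Nat →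
    Nat → Nat → Nat → Nat → Nat → Nat → Nat → Nat → Nat → Nat → Nat → Nat → Nat → Nat → Nat → Nat →
    Nat → Nat → Nat → Nat → Nat → Nat → Nat → Nat → Nat → Nat → Nat → Nat → Nat → Nat → Nat → Nat →
    Nat → Nat → Nat → Nat → Nat → Nat → Nat → Nat → Nat → Nat → Nat → Nat → Nat → Nat → Nat → Nat →
    Nat → Nat → Nat → Nat → Nat → Nat → Nat → Nat → Nat → Nat → Nat → Nat → Nat → Nat → Nat → Nat →
    Nat → Nat → Nat → Nat → Nat → Nat → Nat → Nat → Nat → Nat → Nat → Nat → Nat → Nat → Nat → Nat →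
    Nat → Nat → Nat → Nat → Nat → Nat → Nat → Nat → Nat → Nat → Nat → Nat → Nat → Nat → Nat → Nat →
    Nat → Nat → Nat → Nat → Nat → Nat → Nat → Nat → Nat → Nat → Nat → Nat → Nat → Nat → Nat → Nat →
    Nat → Nat → Nat → Nat → Nat → Nat → Nat → Nat → Nat → Nat → Nat → Nat → Nat → Nat → Nat → Nat →
    Nat → Nat → Nat → Nat → Nat → Nat → Nat → Nat → Nat → Nat → Nat → Nat → Nat → Nat → Nat → Nat →
    Nat → Nat → Nat → Nat → Nat → Nat → Nat → Nat → Nat → Nat → Nat → Nat → Nat → Nat → Nat → Nat →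
    Nat → Nat → Nat → Nat → Nat → Nat → Nat → Nat → Nat → Nat → Nat → Nat → Nat → Nat → Nat → Nat →
    Nat → Nat → Nat → Nat → Nat → Nat → Nat → Nat → Nat → Nat → Nat → Nat → Nat → Nat → Nat → Nat →
    Nat → Nat → Nat → Nat → Nat → Nat → Nat → Nat → Nat → Nat → Nat → Nat → Nat → Nat → Nat → Nat →
    Nat → Nat → Nat → Nat → Nat → Nat → Nat → Nat → Nat → Nat → Nat → Nat → Nat → Nat → Nat → Nat →
    Nat → Nat → Nat → Nat → Nat → Nat → Nat → Nat → Nat → Nat → Nat → Nat → Nat → Nat → Nat → Nat →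
    Nat → Nat → Nat → Nat → Nat → Nat → Nat → Nat → Nat → Nat → Nat → Nat → Nat → Nat → Nat → Nat →
    Nat → Nat → Nat → Nat → Nat → Nat → Nat → Nat → Nat → Nat → Nat → Nat → Nat → Nat → Nat → Nat →
    Nat → Nat → Nat → Nat → Nat → Nat → Nat → Nat → Nat → Nat → Nat → Nat → Nat → Nat → Nat → Nat →
    Nat → Nat → Nat → Nat → Nat → Nat → Nat → Nat → Nat → Nat → Nat → Nat → Nat → Nat → Nat → Nat →
    Nat → Nat → Nat → Nat → Nat → Nat → Nat → Nat → Nat → Nat → Nat → Nat → Nat → Nat → Nat → Nat →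
    Nat → Nat → Nat → Nat → Nat → Nat → Nat → Nat → Nat → Nat → Nat → Nat → Nat → Nat → Nat → Nat →
    Nat → Nat → Nat → Nat → Nat → Nat → Nat → Nat → Nat → Nat → Nat → Nat → Nat → Nat → Nat → Nat →
    Nat → Nat → Nat → Nat → Nat → Nat → Nat → Nat → Nat → Nat → Nat → Nat → Nat → Nat → Nat → Nat →
    Nat → Nat → Nat → Nat → Nat → Nat → Nat → Nat → Nat → Nat → Nat → Nat → Nat → Nat → Nat → Nat →
    Nat → Nat → Nat → Nat → Nat → Nat → Nat → Nat → Nat → Nat → Nat → Nat → Nat → Nat → Nat → Nat →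
    Nat → Nat → Nat → Nat → Nat → Nat → Nat → Nat → Nat → Nat → Nat → Nat → Nat → Nat → Nat → Nat →
    Nat → Nat → Nat → Nat → Nat → Nat → Nat → Nat → Nat → Nat → Nat → Nat → Nat → Nat → Nat → Nat →
    Nat → Nat → Nat → Nat → Nat → Nat → Nat → Nat → Nat → Nat → Nat → Nat → Nat → Nat → Nat → Nat →
    Nat → Nat → Nat → Nat → Nat → Nat → Nat → Nat → Nat → Nat → Nat → Nat → Nat → Nat → Nat → Nat →
    Nat → Nat → Nat → Nat → Nat → Nat → Nat → Nat → Nat → Nat → Nat → Nat → Nat → Nat → Nat → Nat →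
    Nat → Nat → Nat → Nat → Nat → Nat → Nat → Nat → Nat → Nat → Nat → Nat → Nat → Nat → Nat → Nat →
    Nat → Nat → Nat → Nat → Nat → Nat → Nat → Nat → Nat → Nat → Nat → Nat → Nat → Nat → Nat → Nat →
    Nat → Nat → Nat → Nat → Nat → Nat → Nat → Nat → Nat → Nat → Nat → Nat → Nat → Nat → Nat → Nat →
    Nat → Nat → Nat → Nat → Nat → Nat → Nat → Nat → Nat → Nat → Nat → Nat → Nat → Nat → Nat → Nat →
    Nat → Nat → Nat → Nat → Nat → Nat → Nat → Nat → Nat → Nat → Nat → Nat → Nat → Nat → Nat → Nat →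
    Nat → Nat → Nat → Nat → Nat → Nat → Nat → Nat → Nat → Nat → Nat → Nat → Nat → Nat → Nat → Nat →
    Nat → Nat → Nat → Nat → Nat → Nat → Nat → Nat → Nat → Nat → Nat → Nat → Nat → Nat → Nat → Nat →
    Nat → Nat → Nat → Nat → Nat → Nat → Nat → Nat → Nat → Nat → Nat → Nat → Nat → Nat → Nat → Nat →
    Nat → Nat → Nat → Nat → Nat → Nat → Nat → Nat → Nat → Nat → Nat → Nat → Nat → Nat → Nat → Nat →
    Nat → Nat → Nat → Nat → Nat → Nat → Nat → Nat → Nat → Nat → Nat → Nat → Nat → Nat → Nat → Nat →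
    Nat → Nat → Nat → Nat → Nat → Nat → Nat → Nat → Nat → Nat → Nat → Nat → Nat → Nat → Nat → Nat →
    Nat → Nat → Nat → Nat → Nat → Nat → Nat → Nat → Nat → Nat → Nat → Nat → Nat → Nat → Nat → Nat →
    Nat → Nat → Nat → Nat → Nat → Nat → Nat → Nat → Nat → Nat → Nat → Nat → Nat → Nat → Nat → Nat →
    Nat → Nat → Nat → Nat → Nat → Nat → Nat → Nat → Nat → Nat → Nat → Nat → Nat → Nat → Nat → Nat →
    Nat → Nat → Nat → Nat → Nat → Nat → Nat → Nat → Nat → Nat → Nat → Nat → Nat → Nat → Nat → Nat →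
    Nat → Nat → Nat → Nat → Nat → Nat → Nat → Nat → Nat → Nat → Nat → Nat → Nat → Nat → Nat → Nat →
    Nat → Nat → Nat → Nat → Nat → Nat → Nat → Nat → Nat → Nat → Nat → Nat → Nat → Nat → Nat → Nat →
    Nat → Nat → Nat → Nat → Nat → Nat → Nat → Nat → Nat → Nat → Nat → Nat → Nat → Nat → Nat → Nat →
    Nat → Nat → Nat → Nat → Nat → Nat → Nat → Nat → Nat → Nat → Nat → Nat → Nat → Nat → Nat → Nat →
    Nat → Nat → Nat → Nat → Nat → Nat → Nat → Nat → Nat → Nat → Nat → Nat → Nat → Nat → Nat → Nat →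
    Nat → Nat → Nat → Nat → Nat → Nat → Nat → Nat → Nat → Nat → Nat → Nat → Nat → Nat → Nat → Nat →
    Nat → Nat → Nat → Nat → Nat → Nat → Nat → Nat → Nat → Nat → Nat → Nat → Nat → Nat → Nat → Nat →
    Nat → Nat → Nat → Nat → Nat → Nat → Nat → Nat → Nat → Nat → Nat → Nat → Nat → Nat → Nat → Nat →
    Nat → Nat → Nat → Nat → Nat → Nat → Nat → Nat → Nat → Nat → Nat → Nat → Nat → Nat → Nat → Nat →
    Nat → Nat → Nat → Nat → Nat → Nat → Nat → Nat → Nat → Nat → Nat → Nat → Nat → Nat → Nat → Nat →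
    Nat → Nat → Nat → Nat → Nat → Nat → Nat → Nat → Nat → Nat → Nat → Nat → Nat → Nat → Nat → Nat →
    Nat → Nat → Nat → Nat → Nat → Nat → Nat → Nat → Nat → Nat → Nat → Nat → Nat → Nat → Nat → Nat →
    Nat → Nat → Nat → Nat → Nat → Nat → Nat → Nat → Nat → Nat → Nat → Nat → Nat → Nat → Nat → Nat →
    Nat → Nat → Nat → Nat → Nat → Nat → Nat → Nat → Nat → Nat → Nat → Nat → Nat → Nat → Nat → Nat →
    Nat → Nat → Nat → Nat → Nat → Nat → Nat → Nat → Nat → Nat → Nat → Nat → Nat → Nat → Nat → Nat →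
    Nat → Nat → Nat → Nat → Nat → Nat → Nat → Nat → Nat → Nat → Nat → Nat → Nat → Nat → Nat → Nat →
    Nat → Nat → Nat → Nat → Nat → Nat → Nat → Nat → Nat → Nat → Nat → Nat → Nat → Nat → Nat → Nat →
    Nat → Nat → Nat → Nat → Nat → Nat → Nat → Nat → Nat → Nat → Nat → Nat → Nat → Nat → Nat → Nat →
    Nat → Nat → Nat → Nat → Nat → Nat → Nat → Nat → Nat → Nat → Nat → Nat → Nat → Nat → Nat → Nat →
    Nat → Nat → Nat → Nat → Nat → Nat → Nat → Nat → Nat → Nat → Nat → Nat → Nat → Nat → Nat → Nat →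
    Nat → Nat → Nat → Nat → Nat → Nat → Nat → Nat → Nat → Nat → Nat → Nat → Nat → Nat → Nat → Nat →
    Nat → Nat → Nat → Nat → Nat → Nat → Nat → Nat → Nat → Nat → Nat → Nat → Nat → Nat → Nat → Nat →
    Nat → Nat → Nat → Nat → Nat → Nat → Nat → Nat → Nat → Nat → Nat → Nat → Nat → Nat → Nat → Nat →
    Nat → Nat → Nat → Nat → Nat → Nat → Nat → Nat → Nat → Nat → Nat → Nat → Nat → Nat → Nat → Nat →
    Nat → Nat → Nat → Nat → Nat → Nat → Nat → Nat → Nat → Nat → Nat → Nat → Nat → Nat → Nat → Nat →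
    Nat → Nat → Nat → Nat → Nat → Nat → Nat → Nat → Nat → Nat → Nat → Nat → Nat → Nat → Nat → Nat →
    Nat → Nat → Nat → Nat → Nat → Nat → Nat → Nat → Nat → Nat → Nat → Nat → Nat → Nat → Nat → Nat →
    Nat → Nat → Nat → Nat → Nat → Nat → Nat → Nat → Nat → Nat → Nat → Nat → Nat → Nat → Nat → Nat →
    Nat → Nat → Nat → Nat → Nat → Nat → Nat → Nat → Nat → Nat → Nat → Nat → Nat → Nat → Nat → Nat →
    Nat → Nat → Nat → Nat → Nat → Nat → Nat → Nat → Nat → Nat → Nat → Nat → Nat → Nat → Nat → Nat →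
    Nat → Nat → Nat → Nat → Nat → Nat → Nat → Nat → Nat → Nat → Nat → Nat → Nat → Nat → Nat → Nat →
    Nat → Nat → Nat → Nat → Nat → Nat → Nat → Nat → Nat → Nat → Nat → Nat → Nat → Nat → Nat → Nat →
    Nat → Nat → Nat → Nat → Nat → Nat → Nat → Nat → Nat → Nat → Nat → Nat → Nat → Nat → Nat → Nat →
    Nat → Nat → Nat → Nat → Nat → Nat → Nat → Nat → Nat → Nat → Nat → Nat → Nat → Nat → Nat → Nat →
    Nat → Nat → Nat → Nat → Nat → Nat → Nat → Nat → Nat → Nat → Nat → Nat → Nat → Nat → Nat → Nat →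
    Nat → Nat → Nat → Nat → Nat → Nat → Nat → Nat → Nat → Nat → Nat → Nat → Nat → Nat → Nat → Nat →
    Nat → Nat → Nat → Nat → Nat → Nat → Nat → Nat → Nat → Nat → Nat → Nat → Nat → Nat → Nat → Nat →
    Nat → Nat → Nat → Nat → Nat → Nat → Nat → Nat → Nat → Nat → Nat → Nat → Nat → Nat → Nat → Nat →
    Nat → Nat → Nat → Nat → Nat → Nat → Nat → Nat → Nat → Nat → Nat → Nat → Nat → Nat → Nat → Nat →
    Nat → Nat → Nat → Nat → Nat → Nat → Nat → Nat → Nat → Nat → Nat → Nat → Nat → Nat → Nat → Nat →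
    Nat → Nat → Nat → Nat → Nat → Nat → Nat → Nat → Nat → Nat → Nat → Nat → Nat → Nat → Nat → Nat →
    Nat → Nat → Nat → Bool

noncomputable def cd0 : List Spec :=
  [Spec.mk (nat_lit 161) (nat_lit 0) [] (nat_lit 0) [] false,
   Spec.mk (nat_lit 215) (nat_lit 0) [] (nat_lit 0) [] false,
   Spec.mk (nat_lit 233) (nat_lit 0) [] (nat_lit 0) [] false,
   Spec.mk (nat_lit 239) (nat_lit 0) [] (nat_lit 0) [] false,
   Spec.mk (nat_lit 241) (nat_lit 0) [] (nat_lit 0) [] false,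
   Spec.mk (nat_lit 323) (nat_lit 0) [] (nat_lit 0) [] false,
   Spec.mk (nat_lit 377) (nat_lit 0) [] (nat_lit 0) [] false,
   Spec.mk (nat_lit 395) (nat_lit 0) [] (nat_lit 0) [] false,
   Spec.mk (nat_lit 401) (nat_lit 0) [] (nat_lit 0) [] false,
   Spec.mk (nat_lit 403) (nat_lit 0) [] (nat_lit 0) [] false,
   Spec.mk (nat_lit 431) (nat_lit 0) [] (nat_lit 0) [] false,
   Spec.mk (nat_lit 449) (nat_lit 0) [] (nat_lit 0) [] false,
   Spec.mk (nat_lit 455) (nat_lit 0) [] (nat_lit 0) [] false,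
   Spec.mk (nat_lit 457) (nat_lit 0) [] (nat_lit 0) [] false,
   Spec.mk (nat_lit 467) (nat_lit 0) [] (nat_lit 0) [] false,
   Spec.mk (nat_lit 473) (nat_lit 0) [] (nat_lit 0) [] false,
   Spec.mk (nat_lit 475) (nat_lit 0) [] (nat_lit 0) [] false,
   Spec.mk (nat_lit 479) (nat_lit 0) [] (nat_lit 0) [] false,
   Spec.mk (nat_lit 481) (nat_lit 0) [] (nat_lit 0) [] false,
   Spec.mk (nat_lit 483) (nat_lit 0) [] (nat_lit 0) [] false,
   Spec.mk (nat_lit 539) (nat_lit 0) [] (nat_lit 0) [] false,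
   Spec.mk (nat_lit 557) (nat_lit 0) [] (nat_lit 0) [] false,
   Spec.mk (nat_lit 563) (nat_lit 0) [] (nat_lit 0) [] false,
   Spec.mk (nat_lit 565) (nat_lit 0) [] (nat_lit 0) [] false,
   Spec.mk (nat_lit 593) (nat_lit 0) [] (nat_lit 0) [] false,
   Spec.mk (nat_lit 611) (nat_lit 0) [] (nat_lit 0) [] false,
   Spec.mk (nat_lit 617) (nat_lit 0) [] (nat_lit 0) [] false,
   Spec.mk (nat_lit 619) (nat_lit 0) [] (nat_lit 0) [] false,
   Spec.mk (nat_lit 629) (nat_lit 0) [] (nat_lit 0) [] false,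
   Spec.mk (nat_lit 635) (nat_lit 0) [] (nat_lit 0) [] false,
   Spec.mk (nat_lit 637) (nat_lit 0) [] (nat_lit 0) [] false,
   Spec.mk (nat_lit 641) (nat_lit 0) [] (nat_lit 0) [] false,
   Spec.mk (nat_lit 643) (nat_lit 0) [] (nat_lit 0) [] false,
   Spec.mk (nat_lit 645) (nat_lit 0) [] (nat_lit 0) [] false,
   Spec.mk (nat_lit 665) (nat_lit 0) [] (nat_lit 0) [] false,
   Spec.mk (nat_lit 671) (nat_lit 0) [] (nat_lit 0) [] false,
   Spec.mk (nat_lit 673) (nat_lit 0) [] (nat_lit 0) [] false,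
   Spec.mk (nat_lit 683) (nat_lit 0) [] (nat_lit 0) [] false,
   Spec.mk (nat_lit 689) (nat_lit 0) [] (nat_lit 0) [] false,
   Spec.mk (nat_lit 691) (nat_lit 0) [] (nat_lit 0) [] false,
   Spec.mk (nat_lit 695) (nat_lit 0) [] (nat_lit 0) [] false,
   Spec.mk (nat_lit 697) (nat_lit 0) [] (nat_lit 0) [] false,
   Spec.mk (nat_lit 699) (nat_lit 0) [] (nat_lit 0) [] false,
   Spec.mk (nat_lit 707) (nat_lit 0) [] (nat_lit 0) [] false,
   Spec.mk (nat_lit 709) (nat_lit 0) [] (nat_lit 0) [] false,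
   Spec.mk (nat_lit 713) (nat_lit 0) [] (nat_lit 0) [] false,
   Spec.mk (nat_lit 715) (nat_lit 0) [] (nat_lit 0) [] false,
   Spec.mk (nat_lit 717) (nat_lit 0) [] (nat_lit 0) [] false,
   Spec.mk (nat_lit 721) (nat_lit 0) [] (nat_lit 0) [] false,
   Spec.mk (nat_lit 723) (nat_lit 0) [] (nat_lit 0) [] false,
   Spec.mk (nat_lit 809) (nat_lit 0) [] (nat_lit 0) [] false,
   Spec.mk (nat_lit 863) (nat_lit 0) [] (nat_lit 0) [] false,
   Spec.mk (nat_lit 881) (nat_lit 0) [] (nat_lit 0) [] false,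
   Spec.mk (nat_lit 887) (nat_lit 0) [] (nat_lit 0) [] false,
   Spec.mk (nat_lit 889) (nat_lit 0) [] (nat_lit 0) [] false,
   Spec.mk (nat_lit 917) (nat_lit 0) [] (nat_lit 0) [] false,
   Spec.mk (nat_lit 935) (nat_lit 0) [] (nat_lit 0) [] false,
   Spec.mk (nat_lit 941) (nat_lit 0) [] (nat_lit 0) [] false,
   Spec.mk (nat_lit 943) (nat_lit 0) [] (nat_lit 0) [] false,
   Spec.mk (nat_lit 953) (nat_lit 0) [] (nat_lit 0) [] false]

noncomputable def cd1 : List Spec :=
  [Spec.mk (nat_lit 959) (nat_lit 0) [] (nat_lit 0) [] false,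
   Spec.mk (nat_lit 961) (nat_lit 0) [] (nat_lit 0) [] false,
   Spec.mk (nat_lit 965) (nat_lit 0) [] (nat_lit 0) [] false,
   Spec.mk (nat_lit 967) (nat_lit 0) [] (nat_lit 0) [] false,
   Spec.mk (nat_lit 969) (nat_lit 0) [] (nat_lit 0) [] false,
   Spec.mk (nat_lit 1025) (nat_lit 0) [] (nat_lit 0) [] false,
   Spec.mk (nat_lit 1043) (nat_lit 0) [] (nat_lit 0) [] false,
   Spec.mk (nat_lit 1049) (nat_lit 0) [] (nat_lit 0) [] false,
   Spec.mk (nat_lit 1051) (nat_lit 0) [] (nat_lit 0) [] false,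
   Spec.mk (nat_lit 1079) (nat_lit 0) [] (nat_lit 0) [] false,
   Spec.mk (nat_lit 1097) (nat_lit 0) [] (nat_lit 0) [] false,
   Spec.mk (nat_lit 1103) (nat_lit 0) [] (nat_lit 0) [] false,
   Spec.mk (nat_lit 1105) (nat_lit 0) [] (nat_lit 0) [] false,
   Spec.mk (nat_lit 1115) (nat_lit 0) [] (nat_lit 0) [] false,
   Spec.mk (nat_lit 1121) (nat_lit 0) [] (nat_lit 0) [] false,
   Spec.mk (nat_lit 1123) (nat_lit 0) [] (nat_lit 0) [] false,
   Spec.mk (nat_lit 1127) (nat_lit 0) [] (nat_lit 0) [] false,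
   Spec.mk (nat_lit 1129) (nat_lit 0) [] (nat_lit 0) [] false,
   Spec.mk (nat_lit 1131) (nat_lit 0) [] (nat_lit 0) [] false,
   Spec.mk (nat_lit 1151) (nat_lit 0) [] (nat_lit 0) [] false,
   Spec.mk (nat_lit 1157) (nat_lit 0) [] (nat_lit 0) [] false,
   Spec.mk (nat_lit 1159) (nat_lit 0) [] (nat_lit 0) [] false,
   Spec.mk (nat_lit 1169) (nat_lit 0) [] (nat_lit 0) [] false,
   Spec.mk (nat_lit 1175) (nat_lit 0) [] (nat_lit 0) [] false,
   Spec.mk (nat_lit 1177) (nat_lit 0) [] (nat_lit 0) [] false,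
   Spec.mk (nat_lit 1181) (nat_lit 0) [] (nat_lit 0) [] false,
   Spec.mk (nat_lit 1183) (nat_lit 0) [] (nat_lit 0) [] false,
   Spec.mk (nat_lit 1185) (nat_lit 0) [] (nat_lit 0) [] false,
   Spec.mk (nat_lit 1193) (nat_lit 0) [] (nat_lit 0) [] false,
   Spec.mk (nat_lit 1195) (nat_lit 0) [] (nat_lit 0) [] false,
   Spec.mk (nat_lit 1199) (nat_lit 0) [] (nat_lit 0) [] false,
   Spec.mk (nat_lit 1201) (nat_lit 0) [] (nat_lit 0) [] false,
   Spec.mk (nat_lit 1203) (nat_lit 0) [] (nat_lit 0) [] false,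
   Spec.mk (nat_lit 1207) (nat_lit 0) [] (nat_lit 0) [] false,
   Spec.mk (nat_lit 1209) (nat_lit 0) [] (nat_lit 0) [] false,
   Spec.mk (nat_lit 1241) (nat_lit 0) [] (nat_lit 0) [] false,
   Spec.mk (nat_lit 1259) (nat_lit 0) [] (nat_lit 0) [] false,
   Spec.mk (nat_lit 1265) (nat_lit 0) [] (nat_lit 0) [] false,
   Spec.mk (nat_lit 1267) (nat_lit 0) [] (nat_lit 0) [] false,
   Spec.mk (nat_lit 1277) (nat_lit 0) [] (nat_lit 0) [] false,
   Spec.mk (nat_lit 1283) (nat_lit 0) [] (nat_lit 0) [] false,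
   Spec.mk (nat_lit 1285) (nat_lit 0) [] (nat_lit 0) [] false,
   Spec.mk (nat_lit 1289) (nat_lit 0) [] (nat_lit 0) [] false,
   Spec.mk (nat_lit 1291) (nat_lit 0) [] (nat_lit 0) [] false,
   Spec.mk (nat_lit 1293) (nat_lit 0) [] (nat_lit 0) [] false,
   Spec.mk (nat_lit 1313) (nat_lit 0) [] (nat_lit 0) [] false,
   Spec.mk (nat_lit 1319) (nat_lit 0) [] (nat_lit 0) [] false,
   Spec.mk (nat_lit 1321) (nat_lit 0) [] (nat_lit 0) [] false,
   Spec.mk (nat_lit 1331) (nat_lit 0) [] (nat_lit 0) [] false,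
   Spec.mk (nat_lit 1337) (nat_lit 0) [] (nat_lit 0) [] false,
   Spec.mk (nat_lit 1339) (nat_lit 0) [] (nat_lit 0) [] false,
   Spec.mk (nat_lit 1343) (nat_lit 0) [] (nat_lit 0) [] false,
   Spec.mk (nat_lit 1345) (nat_lit 0) [] (nat_lit 0) [] false,
   Spec.mk (nat_lit 1347) (nat_lit 0) [] (nat_lit 0) [] false,
   Spec.mk (nat_lit 1355) (nat_lit 0) [] (nat_lit 0) [] false,
   Spec.mk (nat_lit 1357) (nat_lit 0) [] (nat_lit 0) [] false,
   Spec.mk (nat_lit 1361) (nat_lit 0) [] (nat_lit 0) [] false,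
   Spec.mk (nat_lit 1363) (nat_lit 0) [] (nat_lit 0) [] false,
   Spec.mk (nat_lit 1365) (nat_lit 0) [] (nat_lit 0) [] false,
   Spec.mk (nat_lit 1369) (nat_lit 0) [] (nat_lit 0) [] false]

noncomputable def cd2 : List Spec :=
  [Spec.mk (nat_lit 1371) (nat_lit 0) [] (nat_lit 0) [] false,
   Spec.mk (nat_lit 1385) (nat_lit 0) [] (nat_lit 0) [] false,
   Spec.mk (nat_lit 1391) (nat_lit 0) [] (nat_lit 0) [] false,
   Spec.mk (nat_lit 1393) (nat_lit 0) [] (nat_lit 0) [] false,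
   Spec.mk (nat_lit 1397) (nat_lit 0) [] (nat_lit 0) [] false,
   Spec.mk (nat_lit 1399) (nat_lit 0) [] (nat_lit 0) [] false,
   Spec.mk (nat_lit 1401) (nat_lit 0) [] (nat_lit 0) [] false,
   Spec.mk (nat_lit 1409) (nat_lit 0) [] (nat_lit 0) [] false,
   Spec.mk (nat_lit 1411) (nat_lit 0) [] (nat_lit 0) [] false,
   Spec.mk (nat_lit 1415) (nat_lit 0) [] (nat_lit 0) [] false,
   Spec.mk (nat_lit 1417) (nat_lit 0) [] (nat_lit 0) [] false,
   Spec.mk (nat_lit 1419) (nat_lit 0) [] (nat_lit 0) [] false,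
   Spec.mk (nat_lit 1423) (nat_lit 0) [] (nat_lit 0) [] false,
   Spec.mk (nat_lit 1425) (nat_lit 0) [] (nat_lit 0) [] false,
   Spec.mk (nat_lit 1433) (nat_lit 0) [] (nat_lit 0) [] false,
   Spec.mk (nat_lit 1435) (nat_lit 0) [] (nat_lit 0) [] false,
   Spec.mk (nat_lit 1437) (nat_lit 0) [] (nat_lit 0) [] false,
   Spec.mk (nat_lit 1441) (nat_lit 0) [] (nat_lit 0) [] false,
   Spec.mk (nat_lit 1443) (nat_lit 0) [] (nat_lit 0) [] false,
   Spec.mk (nat_lit 1449) (nat_lit 0) [] (nat_lit 0) [] false,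
   Spec.mk (nat_lit 1511) (nat_lit 0) [] (nat_lit 0) [] false,
   Spec.mk (nat_lit 1529) (nat_lit 0) [] (nat_lit 0) [] false,
   Spec.mk (nat_lit 1535) (nat_lit 0) [] (nat_lit 0) [] false,
   Spec.mk (nat_lit 1537) (nat_lit 0) [] (nat_lit 0) [] false,
   Spec.mk (nat_lit 1565) (nat_lit 0) [] (nat_lit 0) [] false,
   Spec.mk (nat_lit 1583) (nat_lit 0) [] (nat_lit 0) [] false,
   Spec.mk (nat_lit 1589) (nat_lit 0) [] (nat_lit 0) [] false,
   Spec.mk (nat_lit 1591) (nat_lit 0) [] (nat_lit 0) [] false,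
   Spec.mk (nat_lit 1601) (nat_lit 0) [] (nat_lit 0) [] false,
   Spec.mk (nat_lit 1607) (nat_lit 0) [] (nat_lit 0) [] false,
   Spec.mk (nat_lit 1609) (nat_lit 0) [] (nat_lit 0) [] false,
   Spec.mk (nat_lit 1613) (nat_lit 0) [] (nat_lit 0) [] false,
   Spec.mk (nat_lit 1615) (nat_lit 0) [] (nat_lit 0) [] false,
   Spec.mk (nat_lit 1617) (nat_lit 0) [] (nat_lit 0) [] false,
   Spec.mk (nat_lit 1637) (nat_lit 0) [] (nat_lit 0) [] false,
   Spec.mk (nat_lit 1643) (nat_lit 0) [] (nat_lit 0) [] false,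
   Spec.mk (nat_lit 1645) (nat_lit 0) [] (nat_lit 0) [] false,
   Spec.mk (nat_lit 1655) (nat_lit 0) [] (nat_lit 0) [] false,
   Spec.mk (nat_lit 1661) (nat_lit 0) [] (nat_lit 0) [] false,
   Spec.mk (nat_lit 1663) (nat_lit 0) [] (nat_lit 0) [] false,
   Spec.mk (nat_lit 1667) (nat_lit 0) [] (nat_lit 0) [] false,
   Spec.mk (nat_lit 1669) (nat_lit 0) [] (nat_lit 0) [] false,
   Spec.mk (nat_lit 1671) (nat_lit 0) [] (nat_lit 0) [] false,
   Spec.mk (nat_lit 1679) (nat_lit 0) [] (nat_lit 0) [] false,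
   Spec.mk (nat_lit 1681) (nat_lit 0) [] (nat_lit 0) [] false,
   Spec.mk (nat_lit 1685) (nat_lit 0) [] (nat_lit 0) [] false,
   Spec.mk (nat_lit 1687) (nat_lit 0) [] (nat_lit 0) [] false,
   Spec.mk (nat_lit 1689) (nat_lit 0) [] (nat_lit 0) [] false,
   Spec.mk (nat_lit 1693) (nat_lit 0) [] (nat_lit 0) [] false,
   Spec.mk (nat_lit 1695) (nat_lit 0) [] (nat_lit 0) [] false,
   Spec.mk (nat_lit 1727) (nat_lit 0) [] (nat_lit 0) [] false,
   Spec.mk (nat_lit 1745) (nat_lit 0) [] (nat_lit 0) [] false,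
   Spec.mk (nat_lit 1751) (nat_lit 0) [] (nat_lit 0) [] false,
   Spec.mk (nat_lit 1753) (nat_lit 0) [] (nat_lit 0) [] false,
   Spec.mk (nat_lit 1763) (nat_lit 0) [] (nat_lit 0) [] false,
   Spec.mk (nat_lit 1769) (nat_lit 0) [] (nat_lit 0) [] false,
   Spec.mk (nat_lit 1771) (nat_lit 0) [] (nat_lit 0) [] false,
   Spec.mk (nat_lit 1775) (nat_lit 0) [] (nat_lit 0) [] false,
   Spec.mk (nat_lit 1777) (nat_lit 0) [] (nat_lit 0) [] false,
   Spec.mk (nat_lit 1779) (nat_lit 0) [] (nat_lit 0) [] false]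

noncomputable def cd3 : List Spec :=
  [Spec.mk (nat_lit 1799) (nat_lit 0) [] (nat_lit 0) [] false,
   Spec.mk (nat_lit 1805) (nat_lit 0) [] (nat_lit 0) [] false,
   Spec.mk (nat_lit 1807) (nat_lit 0) [] (nat_lit 0) [] false,
   Spec.mk (nat_lit 1817) (nat_lit 0) [] (nat_lit 0) [] false,
   Spec.mk (nat_lit 1823) (nat_lit 0) [] (nat_lit 0) [] false,
   Spec.mk (nat_lit 1825) (nat_lit 0) [] (nat_lit 0) [] false,
   Spec.mk (nat_lit 1829) (nat_lit 0) [] (nat_lit 0) [] false,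
   Spec.mk (nat_lit 1831) (nat_lit 0) [] (nat_lit 0) [] false,
   Spec.mk (nat_lit 1833) (nat_lit 0) [] (nat_lit 0) [] false,
   Spec.mk (nat_lit 1841) (nat_lit 0) [] (nat_lit 0) [] false,
   Spec.mk (nat_lit 1843) (nat_lit 0) [] (nat_lit 0) [] false,
   Spec.mk (nat_lit 1847) (nat_lit 0) [] (nat_lit 0) [] false,
   Spec.mk (nat_lit 1849) (nat_lit 0) [] (nat_lit 0) [] false,
   Spec.mk (nat_lit 1851) (nat_lit 0) [] (nat_lit 0) [] false,
   Spec.mk (nat_lit 1855) (nat_lit 0) [] (nat_lit 0) [] false,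
   Spec.mk (nat_lit 1857) (nat_lit 0) [] (nat_lit 0) [] false,
   Spec.mk (nat_lit 1871) (nat_lit 0) [] (nat_lit 0) [] false,
   Spec.mk (nat_lit 1877) (nat_lit 0) [] (nat_lit 0) [] false,
   Spec.mk (nat_lit 1879) (nat_lit 0) [] (nat_lit 0) [] false,
   Spec.mk (nat_lit 1883) (nat_lit 0) [] (nat_lit 0) [] false,
   Spec.mk (nat_lit 1885) (nat_lit 0) [] (nat_lit 0) [] false,
   Spec.mk (nat_lit 1887) (nat_lit 0) [] (nat_lit 0) [] false,
   Spec.mk (nat_lit 1895) (nat_lit 0) [] (nat_lit 0) [] false,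
   Spec.mk (nat_lit 1897) (nat_lit 0) [] (nat_lit 0) [] false,
   Spec.mk (nat_lit 1901) (nat_lit 0) [] (nat_lit 0) [] false,
   Spec.mk (nat_lit 1903) (nat_lit 0) [] (nat_lit 0) [] false,
   Spec.mk (nat_lit 1905) (nat_lit 0) [] (nat_lit 0) [] false,
   Spec.mk (nat_lit 1909) (nat_lit 0) [] (nat_lit 0) [] false,
   Spec.mk (nat_lit 1911) (nat_lit 0) [] (nat_lit 0) [] false,
   Spec.mk (nat_lit 1919) (nat_lit 0) [] (nat_lit 0) [] false,
   Spec.mk (nat_lit 1921) (nat_lit 0) [] (nat_lit 0) [] false,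
   Spec.mk (nat_lit 1923) (nat_lit 0) [] (nat_lit 0) [] false,
   Spec.mk (nat_lit 1927) (nat_lit 0) [] (nat_lit 0) [] false,
   Spec.mk (nat_lit 1929) (nat_lit 0) [] (nat_lit 0) [] false,
   Spec.mk (nat_lit 1935) (nat_lit 0) [] (nat_lit 0) [] false,
   Spec.mk (nat_lit 1961) (nat_lit 0) [] (nat_lit 0) [] false,
   Spec.mk (nat_lit 1967) (nat_lit 0) [] (nat_lit 0) [] false,
   Spec.mk (nat_lit 1969) (nat_lit 0) [] (nat_lit 0) [] false,
   Spec.mk (nat_lit 1979) (nat_lit 0) [] (nat_lit 0) [] false,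
   Spec.mk (nat_lit 1985) (nat_lit 0) [] (nat_lit 0) [] false,
   Spec.mk (nat_lit 1987) (nat_lit 0) [] (nat_lit 0) [] false,
   Spec.mk (nat_lit 1991) (nat_lit 0) [] (nat_lit 0) [] false,
   Spec.mk (nat_lit 1993) (nat_lit 0) [] (nat_lit 0) [] false,
   Spec.mk (nat_lit 1995) (nat_lit 0) [] (nat_lit 0) [] false,
   Spec.mk (nat_lit 2003) (nat_lit 0) [] (nat_lit 0) [] false,
   Spec.mk (nat_lit 2005) (nat_lit 0) [] (nat_lit 0) [] false,
   Spec.mk (nat_lit 2009) (nat_lit 0) [] (nat_lit 0) [] false,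
   Spec.mk (nat_lit 2011) (nat_lit 0) [] (nat_lit 0) [] false,
   Spec.mk (nat_lit 2013) (nat_lit 0) [] (nat_lit 0) [] false,
   Spec.mk (nat_lit 2017) (nat_lit 0) [] (nat_lit 0) [] false,
   Spec.mk (nat_lit 2019) (nat_lit 0) [] (nat_lit 0) [] false,
   Spec.mk (nat_lit 2033) (nat_lit 0) [] (nat_lit 0) [] false,
   Spec.mk (nat_lit 2039) (nat_lit 0) [] (nat_lit 0) [] false,
   Spec.mk (nat_lit 2041) (nat_lit 0) [] (nat_lit 0) [] false,
   Spec.mk (nat_lit 2045) (nat_lit 0) [] (nat_lit 0) [] false,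
   Spec.mk (nat_lit 2047) (nat_lit 0) [] (nat_lit 0) [] false,
   Spec.mk (nat_lit 2049) (nat_lit 0) [] (nat_lit 0) [] false,
   Spec.mk (nat_lit 2057) (nat_lit 0) [] (nat_lit 0) [] false,
   Spec.mk (nat_lit 2059) (nat_lit 0) [] (nat_lit 0) [] false,
   Spec.mk (nat_lit 2063) (nat_lit 0) [] (nat_lit 0) [] false]

noncomputable def cd4 : List Spec :=
  [Spec.mk (nat_lit 2065) (nat_lit 0) [] (nat_lit 0) [] false,
   Spec.mk (nat_lit 2067) (nat_lit 0) [] (nat_lit 0) [] false,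
   Spec.mk (nat_lit 2071) (nat_lit 0) [] (nat_lit 0) [] false,
   Spec.mk (nat_lit 2073) (nat_lit 0) [] (nat_lit 0) [] false,
   Spec.mk (nat_lit 2081) (nat_lit 0) [] (nat_lit 0) [] false,
   Spec.mk (nat_lit 2083) (nat_lit 0) [] (nat_lit 0) [] false,
   Spec.mk (nat_lit 2085) (nat_lit 0) [] (nat_lit 0) [] false,
   Spec.mk (nat_lit 2089) (nat_lit 0) [] (nat_lit 0) [] false,
   Spec.mk (nat_lit 2091) (nat_lit 0) [] (nat_lit 0) [] false,
   Spec.mk (nat_lit 2097) (nat_lit 0) [] (nat_lit 0) [] false,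
   Spec.mk (nat_lit 2111) (nat_lit 0) [] (nat_lit 0) [] false,
   Spec.mk (nat_lit 2113) (nat_lit 0) [] (nat_lit 0) [] false,
   Spec.mk (nat_lit 2117) (nat_lit 0) [] (nat_lit 0) [] false,
   Spec.mk (nat_lit 2119) (nat_lit 0) [] (nat_lit 0) [] false,
   Spec.mk (nat_lit 2121) (nat_lit 0) [] (nat_lit 0) [] false,
   Spec.mk (nat_lit 2125) (nat_lit 0) [] (nat_lit 0) [] false,
   Spec.mk (nat_lit 2127) (nat_lit 0) [] (nat_lit 0) [] false,
   Spec.mk (nat_lit 2135) (nat_lit 0) [] (nat_lit 0) [] false,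
   Spec.mk (nat_lit 2137) (nat_lit 0) [] (nat_lit 0) [] false,
   Spec.mk (nat_lit 2139) (nat_lit 0) [] (nat_lit 0) [] false,
   Spec.mk (nat_lit 2143) (nat_lit 0) [] (nat_lit 0) [] false,
   Spec.mk (nat_lit 2145) (nat_lit 0) [] (nat_lit 0) [] false,
   Spec.mk (nat_lit 2151) (nat_lit 0) [] (nat_lit 0) [] false,
   Spec.mk (nat_lit 2161) (nat_lit 0) [] (nat_lit 0) [] false,
   Spec.mk (nat_lit 2163) (nat_lit 0) [] (nat_lit 0) [] false,
   Spec.mk (nat_lit 2169) (nat_lit 0) [] (nat_lit 0) [] false,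
   Spec.mk (nat_lit 2267) (nat_lit 0) [] (nat_lit 0) [] false,
   Spec.mk (nat_lit 2321) (nat_lit 0) [] (nat_lit 0) [] false,
   Spec.mk (nat_lit 2339) (nat_lit 0) [] (nat_lit 0) [] false,
   Spec.mk (nat_lit 2345) (nat_lit 0) [] (nat_lit 0) [] false,
   Spec.mk (nat_lit 2347) (nat_lit 0) [] (nat_lit 0) [] false,
   Spec.mk (nat_lit 2375) (nat_lit 0) [] (nat_lit 0) [] false,
   Spec.mk (nat_lit 2393) (nat_lit 0) [] (nat_lit 0) [] false,
   Spec.mk (nat_lit 2399) (nat_lit 0) [] (nat_lit 0) [] false,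
   Spec.mk (nat_lit 2401) (nat_lit 0) [] (nat_lit 0) [] false,
   Spec.mk (nat_lit 2411) (nat_lit 0) [] (nat_lit 0) [] false,
   Spec.mk (nat_lit 2417) (nat_lit 0) [] (nat_lit 0) [] false,
   Spec.mk (nat_lit 2419) (nat_lit 0) [] (nat_lit 0) [] false,
   Spec.mk (nat_lit 2423) (nat_lit 0) [] (nat_lit 0) [] false,
   Spec.mk (nat_lit 2425) (nat_lit 0) [] (nat_lit 0) [] false,
   Spec.mk (nat_lit 2427) (nat_lit 0) [] (nat_lit 0) [] false,
   Spec.mk (nat_lit 2483) (nat_lit 0) [] (nat_lit 0) [] false,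
   Spec.mk (nat_lit 2501) (nat_lit 0) [] (nat_lit 0) [] false,
   Spec.mk (nat_lit 2507) (nat_lit 0) [] (nat_lit 0) [] false,
   Spec.mk (nat_lit 2509) (nat_lit 0) [] (nat_lit 0) [] false,
   Spec.mk (nat_lit 2537) (nat_lit 0) [] (nat_lit 0) [] false,
   Spec.mk (nat_lit 2555) (nat_lit 0) [] (nat_lit 0) [] false,
   Spec.mk (nat_lit 2561) (nat_lit 0) [] (nat_lit 0) [] false,
   Spec.mk (nat_lit 2563) (nat_lit 0) [] (nat_lit 0) [] false,
   Spec.mk (nat_lit 2573) (nat_lit 0) [] (nat_lit 0) [] false,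
   Spec.mk (nat_lit 2579) (nat_lit 0) [] (nat_lit 0) [] false,
   Spec.mk (nat_lit 2581) (nat_lit 0) [] (nat_lit 0) [] false,
   Spec.mk (nat_lit 2585) (nat_lit 0) [] (nat_lit 0) [] false,
   Spec.mk (nat_lit 2587) (nat_lit 0) [] (nat_lit 0) [] false,
   Spec.mk (nat_lit 2589) (nat_lit 0) [] (nat_lit 0) [] false,
   Spec.mk (nat_lit 2609) (nat_lit 0) [] (nat_lit 0) [] false,
   Spec.mk (nat_lit 2615) (nat_lit 0) [] (nat_lit 0) [] false,
   Spec.mk (nat_lit 2617) (nat_lit 0) [] (nat_lit 0) [] false,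
   Spec.mk (nat_lit 2627) (nat_lit 0) [] (nat_lit 0) [] false,
   Spec.mk (nat_lit 2633) (nat_lit 0) [] (nat_lit 0) [] false]

noncomputable def cd5 : List Spec :=
  [Spec.mk (nat_lit 2635) (nat_lit 0) [] (nat_lit 0) [] false,
   Spec.mk (nat_lit 2639) (nat_lit 0) [] (nat_lit 0) [] false,
   Spec.mk (nat_lit 2641) (nat_lit 0) [] (nat_lit 0) [] false,
   Spec.mk (nat_lit 2643) (nat_lit 0) [] (nat_lit 0) [] false,
   Spec.mk (nat_lit 2651) (nat_lit 0) [] (nat_lit 0) [] false,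
   Spec.mk (nat_lit 2653) (nat_lit 0) [] (nat_lit 0) [] false,
   Spec.mk (nat_lit 2657) (nat_lit 0) [] (nat_lit 0) [] false,
   Spec.mk (nat_lit 2659) (nat_lit 0) [] (nat_lit 0) [] false,
   Spec.mk (nat_lit 2661) (nat_lit 0) [] (nat_lit 0) [] false,
   Spec.mk (nat_lit 2665) (nat_lit 0) [] (nat_lit 0) [] false,
   Spec.mk (nat_lit 2667) (nat_lit 0) [] (nat_lit 0) [] false,
   Spec.mk (nat_lit 2699) (nat_lit 0) [] (nat_lit 0) [] false,
   Spec.mk (nat_lit 2717) (nat_lit 0) [] (nat_lit 0) [] false,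
   Spec.mk (nat_lit 2723) (nat_lit 0) [] (nat_lit 0) [] false,
   Spec.mk (nat_lit 2725) (nat_lit 0) [] (nat_lit 0) [] false,
   Spec.mk (nat_lit 2735) (nat_lit 0) [] (nat_lit 0) [] false,
   Spec.mk (nat_lit 2741) (nat_lit 0) [] (nat_lit 0) [] false,
   Spec.mk (nat_lit 2743) (nat_lit 0) [] (nat_lit 0) [] false,
   Spec.mk (nat_lit 2747) (nat_lit 0) [] (nat_lit 0) [] false,
   Spec.mk (nat_lit 2749) (nat_lit 0) [] (nat_lit 0) [] false,
   Spec.mk (nat_lit 2751) (nat_lit 0) [] (nat_lit 0) [] false,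
   Spec.mk (nat_lit 2771) (nat_lit 0) [] (nat_lit 0) [] false,
   Spec.mk (nat_lit 2777) (nat_lit 0) [] (nat_lit 0) [] false,
   Spec.mk (nat_lit 2779) (nat_lit 0) [] (nat_lit 0) [] false,
   Spec.mk (nat_lit 2789) (nat_lit 0) [] (nat_lit 0) [] false,
   Spec.mk (nat_lit 2795) (nat_lit 0) [] (nat_lit 0) [] false,
   Spec.mk (nat_lit 2797) (nat_lit 0) [] (nat_lit 0) [] false,
   Spec.mk (nat_lit 2801) (nat_lit 0) [] (nat_lit 0) [] false,
   Spec.mk (nat_lit 2803) (nat_lit 0) [] (nat_lit 0) [] false,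
   Spec.mk (nat_lit 2805) (nat_lit 0) [] (nat_lit 0) [] false,
   Spec.mk (nat_lit 2813) (nat_lit 0) [] (nat_lit 0) [] false,
   Spec.mk (nat_lit 2815) (nat_lit 0) [] (nat_lit 0) [] false,
   Spec.mk (nat_lit 2819) (nat_lit 0) [] (nat_lit 0) [] false,
   Spec.mk (nat_lit 2821) (nat_lit 0) [] (nat_lit 0) [] false,
   Spec.mk (nat_lit 2823) (nat_lit 0) [] (nat_lit 0) [] false,
   Spec.mk (nat_lit 2827) (nat_lit 0) [] (nat_lit 0) [] false,
   Spec.mk (nat_lit 2829) (nat_lit 0) [] (nat_lit 0) [] false,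
   Spec.mk (nat_lit 2843) (nat_lit 0) [] (nat_lit 0) [] false,
   Spec.mk (nat_lit 2849) (nat_lit 0) [] (nat_lit 0) [] false,
   Spec.mk (nat_lit 2851) (nat_lit 0) [] (nat_lit 0) [] false,
   Spec.mk (nat_lit 2855) (nat_lit 0) [] (nat_lit 0) [] false,
   Spec.mk (nat_lit 2857) (nat_lit 0) [] (nat_lit 0) [] false,
   Spec.mk (nat_lit 2859) (nat_lit 0) [] (nat_lit 0) [] false,
   Spec.mk (nat_lit 2867) (nat_lit 0) [] (nat_lit 0) [] false,
   Spec.mk (nat_lit 2869) (nat_lit 0) [] (nat_lit 0) [] false,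
   Spec.mk (nat_lit 2873) (nat_lit 0) [] (nat_lit 0) [] false,
   Spec.mk (nat_lit 2875) (nat_lit 0) [] (nat_lit 0) [] false,
   Spec.mk (nat_lit 2877) (nat_lit 0) [] (nat_lit 0) [] false,
   Spec.mk (nat_lit 2881) (nat_lit 0) [] (nat_lit 0) [] false,
   Spec.mk (nat_lit 2883) (nat_lit 0) [] (nat_lit 0) [] false,
   Spec.mk (nat_lit 2891) (nat_lit 0) [] (nat_lit 0) [] false,
   Spec.mk (nat_lit 2893) (nat_lit 0) [] (nat_lit 0) [] false,
   Spec.mk (nat_lit 2895) (nat_lit 0) [] (nat_lit 0) [] false,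
   Spec.mk (nat_lit 2899) (nat_lit 0) [] (nat_lit 0) [] false,
   Spec.mk (nat_lit 2901) (nat_lit 0) [] (nat_lit 0) [] false,
   Spec.mk (nat_lit 2907) (nat_lit 0) [] (nat_lit 0) [] false,
   Spec.mk (nat_lit 2969) (nat_lit 0) [] (nat_lit 0) [] false,
   Spec.mk (nat_lit 2987) (nat_lit 0) [] (nat_lit 0) [] false,
   Spec.mk (nat_lit 2993) (nat_lit 0) [] (nat_lit 0) [] false,
   Spec.mk (nat_lit 2995) (nat_lit 0) [] (nat_lit 0) [] false]

noncomputable def cd6 : List Spec :=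
  [Spec.mk (nat_lit 3023) (nat_lit 0) [] (nat_lit 0) [] false,
   Spec.mk (nat_lit 3041) (nat_lit 0) [] (nat_lit 0) [] false,
   Spec.mk (nat_lit 3047) (nat_lit 0) [] (nat_lit 0) [] false,
   Spec.mk (nat_lit 3049) (nat_lit 0) [] (nat_lit 0) [] false,
   Spec.mk (nat_lit 3059) (nat_lit 0) [] (nat_lit 0) [] false,
   Spec.mk (nat_lit 3065) (nat_lit 0) [] (nat_lit 0) [] false,
   Spec.mk (nat_lit 3067) (nat_lit 0) [] (nat_lit 0) [] false,
   Spec.mk (nat_lit 3071) (nat_lit 0) [] (nat_lit 0) [] false,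
   Spec.mk (nat_lit 3073) (nat_lit 0) [] (nat_lit 0) [] false,
   Spec.mk (nat_lit 3075) (nat_lit 0) [] (nat_lit 0) [] false,
   Spec.mk (nat_lit 3095) (nat_lit 0) [] (nat_lit 0) [] false,
   Spec.mk (nat_lit 3101) (nat_lit 0) [] (nat_lit 0) [] false,
   Spec.mk (nat_lit 3103) (nat_lit 0) [] (nat_lit 0) [] false,
   Spec.mk (nat_lit 3113) (nat_lit 0) [] (nat_lit 0) [] false,
   Spec.mk (nat_lit 3119) (nat_lit 0) [] (nat_lit 0) [] false,
   Spec.mk (nat_lit 3121) (nat_lit 0) [] (nat_lit 0) [] false,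
   Spec.mk (nat_lit 3125) (nat_lit 0) [] (nat_lit 0) [] false,
   Spec.mk (nat_lit 3127) (nat_lit 0) [] (nat_lit 0) [] false,
   Spec.mk (nat_lit 3129) (nat_lit 0) [] (nat_lit 0) [] false,
   Spec.mk (nat_lit 3137) (nat_lit 0) [] (nat_lit 0) [] false,
   Spec.mk (nat_lit 3139) (nat_lit 0) [] (nat_lit 0) [] false,
   Spec.mk (nat_lit 3143) (nat_lit 0) [] (nat_lit 0) [] false,
   Spec.mk (nat_lit 3145) (nat_lit 0) [] (nat_lit 0) [] false,
   Spec.mk (nat_lit 3147) (nat_lit 0) [] (nat_lit 0) [] false,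
   Spec.mk (nat_lit 3151) (nat_lit 0) [] (nat_lit 0) [] false,
   Spec.mk (nat_lit 3153) (nat_lit 0) [] (nat_lit 0) [] false,
   Spec.mk (nat_lit 3185) (nat_lit 0) [] (nat_lit 0) [] false,
   Spec.mk (nat_lit 3203) (nat_lit 0) [] (nat_lit 0) [] false,
   Spec.mk (nat_lit 3209) (nat_lit 0) [] (nat_lit 0) [] false,
   Spec.mk (nat_lit 3211) (nat_lit 0) [] (nat_lit 0) [] false,
   Spec.mk (nat_lit 3221) (nat_lit 0) [] (nat_lit 0) [] false,
   Spec.mk (nat_lit 3227) (nat_lit 0) [] (nat_lit 0) [] false,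
   Spec.mk (nat_lit 3229) (nat_lit 0) [] (nat_lit 0) [] false,
   Spec.mk (nat_lit 3233) (nat_lit 0) [] (nat_lit 0) [] false,
   Spec.mk (nat_lit 3235) (nat_lit 0) [] (nat_lit 0) [] false,
   Spec.mk (nat_lit 3237) (nat_lit 0) [] (nat_lit 0) [] false,
   Spec.mk (nat_lit 3257) (nat_lit 0) [] (nat_lit 0) [] false,
   Spec.mk (nat_lit 3263) (nat_lit 0) [] (nat_lit 0) [] false,
   Spec.mk (nat_lit 3265) (nat_lit 0) [] (nat_lit 0) [] false,
   Spec.mk (nat_lit 3275) (nat_lit 0) [] (nat_lit 0) [] false,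
   Spec.mk (nat_lit 3281) (nat_lit 0) [] (nat_lit 0) [] false,
   Spec.mk (nat_lit 3283) (nat_lit 0) [] (nat_lit 0) [] false,
   Spec.mk (nat_lit 3287) (nat_lit 0) [] (nat_lit 0) [] false,
   Spec.mk (nat_lit 3289) (nat_lit 0) [] (nat_lit 0) [] false,
   Spec.mk (nat_lit 3291) (nat_lit 0) [] (nat_lit 0) [] false,
   Spec.mk (nat_lit 3299) (nat_lit 0) [] (nat_lit 0) [] false,
   Spec.mk (nat_lit 3301) (nat_lit 0) [] (nat_lit 0) [] false,
   Spec.mk (nat_lit 3305) (nat_lit 0) [] (nat_lit 0) [] false,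
   Spec.mk (nat_lit 3307) (nat_lit 0) [] (nat_lit 0) [] false,
   Spec.mk (nat_lit 3309) (nat_lit 0) [] (nat_lit 0) [] false,
   Spec.mk (nat_lit 3313) (nat_lit 0) [] (nat_lit 0) [] false,
   Spec.mk (nat_lit 3315) (nat_lit 0) [] (nat_lit 0) [] false,
   Spec.mk (nat_lit 3329) (nat_lit 0) [] (nat_lit 0) [] false,
   Spec.mk (nat_lit 3335) (nat_lit 0) [] (nat_lit 0) [] false,
   Spec.mk (nat_lit 3337) (nat_lit 0) [] (nat_lit 0) [] false,
   Spec.mk (nat_lit 3341) (nat_lit 0) [] (nat_lit 0) [] false,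
   Spec.mk (nat_lit 3343) (nat_lit 0) [] (nat_lit 0) [] false,
   Spec.mk (nat_lit 3345) (nat_lit 0) [] (nat_lit 0) [] false,
   Spec.mk (nat_lit 3353) (nat_lit 0) [] (nat_lit 0) [] false,
   Spec.mk (nat_lit 3355) (nat_lit 0) [] (nat_lit 0) [] false]

noncomputable def cd7 : List Spec :=
  [Spec.mk (nat_lit 3359) (nat_lit 0) [] (nat_lit 0) [] false,
   Spec.mk (nat_lit 3361) (nat_lit 0) [] (nat_lit 0) [] false,
   Spec.mk (nat_lit 3363) (nat_lit 0) [] (nat_lit 0) [] false,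
   Spec.mk (nat_lit 3367) (nat_lit 0) [] (nat_lit 0) [] false,
   Spec.mk (nat_lit 3369) (nat_lit 0) [] (nat_lit 0) [] false,
   Spec.mk (nat_lit 3377) (nat_lit 0) [] (nat_lit 0) [] false,
   Spec.mk (nat_lit 3379) (nat_lit 0) [] (nat_lit 0) [] false,
   Spec.mk (nat_lit 3381) (nat_lit 0) [] (nat_lit 0) [] false,
   Spec.mk (nat_lit 3385) (nat_lit 0) [] (nat_lit 0) [] false,
   Spec.mk (nat_lit 3387) (nat_lit 0) [] (nat_lit 0) [] false,
   Spec.mk (nat_lit 3393) (nat_lit 0) [] (nat_lit 0) [] false,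
   Spec.mk (nat_lit 3419) (nat_lit 0) [] (nat_lit 0) [] false,
   Spec.mk (nat_lit 3425) (nat_lit 0) [] (nat_lit 0) [] false,
   Spec.mk (nat_lit 3427) (nat_lit 0) [] (nat_lit 0) [] false,
   Spec.mk (nat_lit 3437) (nat_lit 0) [] (nat_lit 0) [] false,
   Spec.mk (nat_lit 3443) (nat_lit 0) [] (nat_lit 0) [] false,
   Spec.mk (nat_lit 3445) (nat_lit 0) [] (nat_lit 0) [] false,
   Spec.mk (nat_lit 3449) (nat_lit 0) [] (nat_lit 0) [] false,
   Spec.mk (nat_lit 3451) (nat_lit 0) [] (nat_lit 0) [] false,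
   Spec.mk (nat_lit 3453) (nat_lit 0) [] (nat_lit 0) [] false,
   Spec.mk (nat_lit 3461) (nat_lit 0) [] (nat_lit 0) [] false,
   Spec.mk (nat_lit 3463) (nat_lit 0) [] (nat_lit 0) [] false,
   Spec.mk (nat_lit 3467) (nat_lit 0) [] (nat_lit 0) [] false,
   Spec.mk (nat_lit 3469) (nat_lit 0) [] (nat_lit 0) [] false,
   Spec.mk (nat_lit 3471) (nat_lit 0) [] (nat_lit 0) [] false,
   Spec.mk (nat_lit 3475) (nat_lit 0) [] (nat_lit 0) [] false,
   Spec.mk (nat_lit 3477) (nat_lit 0) [] (nat_lit 0) [] false,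
   Spec.mk (nat_lit 3491) (nat_lit 0) [] (nat_lit 0) [] false,
   Spec.mk (nat_lit 3497) (nat_lit 0) [] (nat_lit 0) [] false,
   Spec.mk (nat_lit 3499) (nat_lit 0) [] (nat_lit 0) [] false,
   Spec.mk (nat_lit 3503) (nat_lit 0) [] (nat_lit 0) [] false,
   Spec.mk (nat_lit 3505) (nat_lit 0) [] (nat_lit 0) [] false,
   Spec.mk (nat_lit 3507) (nat_lit 0) [] (nat_lit 0) [] false,
   Spec.mk (nat_lit 3515) (nat_lit 0) [] (nat_lit 0) [] false,
   Spec.mk (nat_lit 3517) (nat_lit 0) [] (nat_lit 0) [] false,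
   Spec.mk (nat_lit 3521) (nat_lit 0) [] (nat_lit 0) [] false,
   Spec.mk (nat_lit 3523) (nat_lit 0) [] (nat_lit 0) [] false,
   Spec.mk (nat_lit 3525) (nat_lit 0) [] (nat_lit 0) [] false,
   Spec.mk (nat_lit 3529) (nat_lit 0) [] (nat_lit 0) [] false,
   Spec.mk (nat_lit 3531) (nat_lit 0) [] (nat_lit 0) [] false,
   Spec.mk (nat_lit 3539) (nat_lit 0) [] (nat_lit 0) [] false,
   Spec.mk (nat_lit 3541) (nat_lit 0) [] (nat_lit 0) [] false,
   Spec.mk (nat_lit 3543) (nat_lit 0) [] (nat_lit 0) [] false,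
   Spec.mk (nat_lit 3547) (nat_lit 0) [] (nat_lit 0) [] false,
   Spec.mk (nat_lit 3549) (nat_lit 0) [] (nat_lit 0) [] false,
   Spec.mk (nat_lit 3555) (nat_lit 0) [] (nat_lit 0) [] false,
   Spec.mk (nat_lit 3569) (nat_lit 0) [] (nat_lit 0) [] false,
   Spec.mk (nat_lit 3571) (nat_lit 0) [] (nat_lit 0) [] false,
   Spec.mk (nat_lit 3575) (nat_lit 0) [] (nat_lit 0) [] false,
   Spec.mk (nat_lit 3577) (nat_lit 0) [] (nat_lit 0) [] false,
   Spec.mk (nat_lit 3579) (nat_lit 0) [] (nat_lit 0) [] false,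
   Spec.mk (nat_lit 3583) (nat_lit 0) [] (nat_lit 0) [] false,
   Spec.mk (nat_lit 3585) (nat_lit 0) [] (nat_lit 0) [] false,
   Spec.mk (nat_lit 3593) (nat_lit 0) [] (nat_lit 0) [] false,
   Spec.mk (nat_lit 3595) (nat_lit 0) [] (nat_lit 0) [] false,
   Spec.mk (nat_lit 3597) (nat_lit 0) [] (nat_lit 0) [] false,
   Spec.mk (nat_lit 3601) (nat_lit 0) [] (nat_lit 0) [] false,
   Spec.mk (nat_lit 3603) (nat_lit 0) [] (nat_lit 0) [] false,
   Spec.mk (nat_lit 3609) (nat_lit 0) [] (nat_lit 0) [] false,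
   Spec.mk (nat_lit 3619) (nat_lit 0) [] (nat_lit 0) [] false]

noncomputable def cd8 : List Spec :=
  [Spec.mk (nat_lit 3621) (nat_lit 0) [] (nat_lit 0) [] false,
   Spec.mk (nat_lit 3627) (nat_lit 0) [] (nat_lit 0) [] false,
   Spec.mk (nat_lit 3671) (nat_lit 0) [] (nat_lit 0) [] false,
   Spec.mk (nat_lit 3689) (nat_lit 0) [] (nat_lit 0) [] false,
   Spec.mk (nat_lit 3695) (nat_lit 0) [] (nat_lit 0) [] false,
   Spec.mk (nat_lit 3697) (nat_lit 0) [] (nat_lit 0) [] false,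
   Spec.mk (nat_lit 3707) (nat_lit 0) [] (nat_lit 0) [] false,
   Spec.mk (nat_lit 3713) (nat_lit 0) [] (nat_lit 0) [] false,
   Spec.mk (nat_lit 3715) (nat_lit 0) [] (nat_lit 0) [] false,
   Spec.mk (nat_lit 3719) (nat_lit 0) [] (nat_lit 0) [] false,
   Spec.mk (nat_lit 3721) (nat_lit 0) [] (nat_lit 0) [] false,
   Spec.mk (nat_lit 3723) (nat_lit 0) [] (nat_lit 0) [] false,
   Spec.mk (nat_lit 3743) (nat_lit 0) [] (nat_lit 0) [] false,
   Spec.mk (nat_lit 3749) (nat_lit 0) [] (nat_lit 0) [] false,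
   Spec.mk (nat_lit 3751) (nat_lit 0) [] (nat_lit 0) [] false,
   Spec.mk (nat_lit 3761) (nat_lit 0) [] (nat_lit 0) [] false,
   Spec.mk (nat_lit 3767) (nat_lit 0) [] (nat_lit 0) [] false,
   Spec.mk (nat_lit 3769) (nat_lit 0) [] (nat_lit 0) [] false,
   Spec.mk (nat_lit 3773) (nat_lit 0) [] (nat_lit 0) [] false,
   Spec.mk (nat_lit 3775) (nat_lit 0) [] (nat_lit 0) [] false,
   Spec.mk (nat_lit 3777) (nat_lit 0) [] (nat_lit 0) [] false,
   Spec.mk (nat_lit 3785) (nat_lit 0) [] (nat_lit 0) [] false,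
   Spec.mk (nat_lit 3787) (nat_lit 0) [] (nat_lit 0) [] false,
   Spec.mk (nat_lit 3791) (nat_lit 0) [] (nat_lit 0) [] false,
   Spec.mk (nat_lit 3793) (nat_lit 0) [] (nat_lit 0) [] false,
   Spec.mk (nat_lit 3795) (nat_lit 0) [] (nat_lit 0) [] false,
   Spec.mk (nat_lit 3799) (nat_lit 0) [] (nat_lit 0) [] false,
   Spec.mk (nat_lit 3801) (nat_lit 0) [] (nat_lit 0) [] false,
   Spec.mk (nat_lit 3815) (nat_lit 0) [] (nat_lit 0) [] false,
   Spec.mk (nat_lit 3821) (nat_lit 0) [] (nat_lit 0) [] false,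
   Spec.mk (nat_lit 3823) (nat_lit 0) [] (nat_lit 0) [] false,
   Spec.mk (nat_lit 3827) (nat_lit 0) [] (nat_lit 0) [] false,
   Spec.mk (nat_lit 3829) (nat_lit 0) [] (nat_lit 0) [] false,
   Spec.mk (nat_lit 3831) (nat_lit 0) [] (nat_lit 0) [] false,
   Spec.mk (nat_lit 3839) (nat_lit 0) [] (nat_lit 0) [] false,
   Spec.mk (nat_lit 3841) (nat_lit 0) [] (nat_lit 0) [] false,
   Spec.mk (nat_lit 3845) (nat_lit 0) [] (nat_lit 0) [] false,
   Spec.mk (nat_lit 3847) (nat_lit 0) [] (nat_lit 0) [] false,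
   Spec.mk (nat_lit 3849) (nat_lit 0) [] (nat_lit 0) [] false,
   Spec.mk (nat_lit 3853) (nat_lit 0) [] (nat_lit 0) [] false,
   Spec.mk (nat_lit 3855) (nat_lit 0) [] (nat_lit 0) [] false,
   Spec.mk (nat_lit 3863) (nat_lit 0) [] (nat_lit 0) [] false,
   Spec.mk (nat_lit 3865) (nat_lit 0) [] (nat_lit 0) [] false,
   Spec.mk (nat_lit 3867) (nat_lit 0) [] (nat_lit 0) [] false,
   Spec.mk (nat_lit 3871) (nat_lit 0) [] (nat_lit 0) [] false,
   Spec.mk (nat_lit 3873) (nat_lit 0) [] (nat_lit 0) [] false,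
   Spec.mk (nat_lit 3879) (nat_lit 0) [] (nat_lit 0) [] false,
   Spec.mk (nat_lit 3905) (nat_lit 0) [] (nat_lit 0) [] false,
   Spec.mk (nat_lit 3911) (nat_lit 0) [] (nat_lit 0) [] false,
   Spec.mk (nat_lit 3913) (nat_lit 0) [] (nat_lit 0) [] false,
   Spec.mk (nat_lit 3923) (nat_lit 0) [] (nat_lit 0) [] false,
   Spec.mk (nat_lit 3929) (nat_lit 0) [] (nat_lit 0) [] false,
   Spec.mk (nat_lit 3931) (nat_lit 0) [] (nat_lit 0) [] false,
   Spec.mk (nat_lit 3935) (nat_lit 0) [] (nat_lit 0) [] false,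
   Spec.mk (nat_lit 3937) (nat_lit 0) [] (nat_lit 0) [] false,
   Spec.mk (nat_lit 3939) (nat_lit 0) [] (nat_lit 0) [] false,
   Spec.mk (nat_lit 3947) (nat_lit 0) [] (nat_lit 0) [] false,
   Spec.mk (nat_lit 3949) (nat_lit 0) [] (nat_lit 0) [] false,
   Spec.mk (nat_lit 3953) (nat_lit 0) [] (nat_lit 0) [] false,
   Spec.mk (nat_lit 3955) (nat_lit 0) [] (nat_lit 0) [] false]

noncomputable def cd9 : List Spec :=
  [Spec.mk (nat_lit 3957) (nat_lit 0) [] (nat_lit 0) [] false,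
   Spec.mk (nat_lit 3961) (nat_lit 0) [] (nat_lit 0) [] false,
   Spec.mk (nat_lit 3963) (nat_lit 0) [] (nat_lit 0) [] false,
   Spec.mk (nat_lit 3977) (nat_lit 0) [] (nat_lit 0) [] false,
   Spec.mk (nat_lit 3983) (nat_lit 0) [] (nat_lit 0) [] false,
   Spec.mk (nat_lit 3985) (nat_lit 0) [] (nat_lit 0) [] false,
   Spec.mk (nat_lit 3989) (nat_lit 0) [] (nat_lit 0) [] false,
   Spec.mk (nat_lit 3991) (nat_lit 0) [] (nat_lit 0) [] false,
   Spec.mk (nat_lit 3993) (nat_lit 0) [] (nat_lit 0) [] false,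
   Spec.mk (nat_lit 4001) (nat_lit 0) [] (nat_lit 0) [] false,
   Spec.mk (nat_lit 4003) (nat_lit 0) [] (nat_lit 0) [] false,
   Spec.mk (nat_lit 4007) (nat_lit 0) [] (nat_lit 0) [] false,
   Spec.mk (nat_lit 4009) (nat_lit 0) [] (nat_lit 0) [] false,
   Spec.mk (nat_lit 4011) (nat_lit 0) [] (nat_lit 0) [] false,
   Spec.mk (nat_lit 4015) (nat_lit 0) [] (nat_lit 0) [] false,
   Spec.mk (nat_lit 4017) (nat_lit 0) [] (nat_lit 0) [] false,
   Spec.mk (nat_lit 4025) (nat_lit 0) [] (nat_lit 0) [] false,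
   Spec.mk (nat_lit 4027) (nat_lit 0) [] (nat_lit 0) [] false,
   Spec.mk (nat_lit 4029) (nat_lit 0) [] (nat_lit 0) [] false,
   Spec.mk (nat_lit 4033) (nat_lit 0) [] (nat_lit 0) [] false,
   Spec.mk (nat_lit 4035) (nat_lit 0) [] (nat_lit 0) [] false,
   Spec.mk (nat_lit 4041) (nat_lit 0) [] (nat_lit 0) [] false,
   Spec.mk (nat_lit 4055) (nat_lit 0) [] (nat_lit 0) [] false,
   Spec.mk (nat_lit 4057) (nat_lit 0) [] (nat_lit 0) [] false,
   Spec.mk (nat_lit 4061) (nat_lit 0) [] (nat_lit 0) [] false,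
   Spec.mk (nat_lit 4063) (nat_lit 0) [] (nat_lit 0) [] false,
   Spec.mk (nat_lit 4065) (nat_lit 0) [] (nat_lit 0) [] false,
   Spec.mk (nat_lit 4069) (nat_lit 0) [] (nat_lit 0) [] false,
   Spec.mk (nat_lit 4071) (nat_lit 0) [] (nat_lit 0) [] false,
   Spec.mk (nat_lit 4079) (nat_lit 0) [] (nat_lit 0) [] false,
   Spec.mk (nat_lit 4081) (nat_lit 0) [] (nat_lit 0) [] false,
   Spec.mk (nat_lit 4083) (nat_lit 0) [] (nat_lit 0) [] false,
   Spec.mk (nat_lit 4087) (nat_lit 0) [] (nat_lit 0) [] false,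
   Spec.mk (nat_lit 4089) (nat_lit 0) [] (nat_lit 0) [] false,
   Spec.mk (nat_lit 4095) (nat_lit 0) [] (nat_lit 0) [] false,
   Spec.mk (nat_lit 4105) (nat_lit 0) [] (nat_lit 0) [] false,
   Spec.mk (nat_lit 4107) (nat_lit 0) [] (nat_lit 0) [] false,
   Spec.mk (nat_lit 4113) (nat_lit 0) [] (nat_lit 0) [] false,
   Spec.mk (nat_lit 4139) (nat_lit 0) [] (nat_lit 0) [] false,
   Spec.mk (nat_lit 4145) (nat_lit 0) [] (nat_lit 0) [] false,
   Spec.mk (nat_lit 4147) (nat_lit 0) [] (nat_lit 0) [] false,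
   Spec.mk (nat_lit 4151) (nat_lit 0) [] (nat_lit 0) [] false,
   Spec.mk (nat_lit 4153) (nat_lit 0) [] (nat_lit 0) [] false,
   Spec.mk (nat_lit 4155) (nat_lit 0) [] (nat_lit 0) [] false,
   Spec.mk (nat_lit 4163) (nat_lit 0) [] (nat_lit 0) [] false,
   Spec.mk (nat_lit 4165) (nat_lit 0) [] (nat_lit 0) [] false,
   Spec.mk (nat_lit 4169) (nat_lit 0) [] (nat_lit 0) [] false,
   Spec.mk (nat_lit 4171) (nat_lit 0) [] (nat_lit 0) [] false,
   Spec.mk (nat_lit 4173) (nat_lit 0) [] (nat_lit 0) [] false,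
   Spec.mk (nat_lit 4177) (nat_lit 0) [] (nat_lit 0) [] false,
   Spec.mk (nat_lit 4179) (nat_lit 0) [] (nat_lit 0) [] false,
   Spec.mk (nat_lit 4187) (nat_lit 0) [] (nat_lit 0) [] false,
   Spec.mk (nat_lit 4189) (nat_lit 0) [] (nat_lit 0) [] false,
   Spec.mk (nat_lit 4191) (nat_lit 0) [] (nat_lit 0) [] false,
   Spec.mk (nat_lit 4195) (nat_lit 0) [] (nat_lit 0) [] false,
   Spec.mk (nat_lit 4197) (nat_lit 0) [] (nat_lit 0) [] false,
   Spec.mk (nat_lit 4203) (nat_lit 0) [] (nat_lit 0) [] false,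
   Spec.mk (nat_lit 4217) (nat_lit 0) [] (nat_lit 0) [] false,
   Spec.mk (nat_lit 4219) (nat_lit 0) [] (nat_lit 0) [] false,
   Spec.mk (nat_lit 4223) (nat_lit 0) [] (nat_lit 0) [] false]

noncomputable def cd10 : List Spec :=
  [Spec.mk (nat_lit 4225) (nat_lit 0) [] (nat_lit 0) [] false,
   Spec.mk (nat_lit 4227) (nat_lit 0) [] (nat_lit 0) [] false,
   Spec.mk (nat_lit 4231) (nat_lit 0) [] (nat_lit 0) [] false,
   Spec.mk (nat_lit 4233) (nat_lit 0) [] (nat_lit 0) [] false,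
   Spec.mk (nat_lit 4241) (nat_lit 0) [] (nat_lit 0) [] false,
   Spec.mk (nat_lit 4243) (nat_lit 0) [] (nat_lit 0) [] false,
   Spec.mk (nat_lit 4245) (nat_lit 0) [] (nat_lit 0) [] false,
   Spec.mk (nat_lit 4249) (nat_lit 0) [] (nat_lit 0) [] false,
   Spec.mk (nat_lit 4251) (nat_lit 0) [] (nat_lit 0) [] false,
   Spec.mk (nat_lit 4257) (nat_lit 0) [] (nat_lit 0) [] false,
   Spec.mk (nat_lit 4267) (nat_lit 0) [] (nat_lit 0) [] false,
   Spec.mk (nat_lit 4269) (nat_lit 0) [] (nat_lit 0) [] false,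
   Spec.mk (nat_lit 4275) (nat_lit 0) [] (nat_lit 0) [] false,
   Spec.mk (nat_lit 4295) (nat_lit 0) [] (nat_lit 0) [] false,
   Spec.mk (nat_lit 4297) (nat_lit 0) [] (nat_lit 0) [] false,
   Spec.mk (nat_lit 4299) (nat_lit 0) [] (nat_lit 0) [] false,
   Spec.mk (nat_lit 4303) (nat_lit 0) [] (nat_lit 0) [] false,
   Spec.mk (nat_lit 4305) (nat_lit 0) [] (nat_lit 0) [] false,
   Spec.mk (nat_lit 4311) (nat_lit 0) [] (nat_lit 0) [] false,
   Spec.mk (nat_lit 4321) (nat_lit 0) [] (nat_lit 0) [] false,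
   Spec.mk (nat_lit 4323) (nat_lit 0) [] (nat_lit 0) [] false,
   Spec.mk (nat_lit 4329) (nat_lit 0) [] (nat_lit 0) [] false,
   Spec.mk (nat_lit 4347) (nat_lit 0) [] (nat_lit 0) [] false,
   Spec.mk (nat_lit 4427) (nat_lit 0) [] (nat_lit 0) [] false,
   Spec.mk (nat_lit 4445) (nat_lit 0) [] (nat_lit 0) [] false,
   Spec.mk (nat_lit 4451) (nat_lit 0) [] (nat_lit 0) [] false,
   Spec.mk (nat_lit 4453) (nat_lit 0) [] (nat_lit 0) [] false,
   Spec.mk (nat_lit 4481) (nat_lit 0) [] (nat_lit 0) [] false,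
   Spec.mk (nat_lit 4499) (nat_lit 0) [] (nat_lit 0) [] false,
   Spec.mk (nat_lit 4505) (nat_lit 0) [] (nat_lit 0) [] false,
   Spec.mk (nat_lit 4507) (nat_lit 0) [] (nat_lit 0) [] false,
   Spec.mk (nat_lit 4517) (nat_lit 0) [] (nat_lit 0) [] false,
   Spec.mk (nat_lit 4523) (nat_lit 0) [] (nat_lit 0) [] false,
   Spec.mk (nat_lit 4525) (nat_lit 0) [] (nat_lit 0) [] false,
   Spec.mk (nat_lit 4529) (nat_lit 0) [] (nat_lit 0) [] false,
   Spec.mk (nat_lit 4531) (nat_lit 0) [] (nat_lit 0) [] false,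
   Spec.mk (nat_lit 4533) (nat_lit 0) [] (nat_lit 0) [] false,
   Spec.mk (nat_lit 4553) (nat_lit 0) [] (nat_lit 0) [] false,
   Spec.mk (nat_lit 4559) (nat_lit 0) [] (nat_lit 0) [] false,
   Spec.mk (nat_lit 4561) (nat_lit 0) [] (nat_lit 0) [] false,
   Spec.mk (nat_lit 4571) (nat_lit 0) [] (nat_lit 0) [] false,
   Spec.mk (nat_lit 4577) (nat_lit 0) [] (nat_lit 0) [] false,
   Spec.mk (nat_lit 4579) (nat_lit 0) [] (nat_lit 0) [] false,
   Spec.mk (nat_lit 4583) (nat_lit 0) [] (nat_lit 0) [] false,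
   Spec.mk (nat_lit 4585) (nat_lit 0) [] (nat_lit 0) [] false,
   Spec.mk (nat_lit 4587) (nat_lit 0) [] (nat_lit 0) [] false,
   Spec.mk (nat_lit 4595) (nat_lit 0) [] (nat_lit 0) [] false,
   Spec.mk (nat_lit 4597) (nat_lit 0) [] (nat_lit 0) [] false,
   Spec.mk (nat_lit 4601) (nat_lit 0) [] (nat_lit 0) [] false,
   Spec.mk (nat_lit 4603) (nat_lit 0) [] (nat_lit 0) [] false,
   Spec.mk (nat_lit 4605) (nat_lit 0) [] (nat_lit 0) [] false,
   Spec.mk (nat_lit 4609) (nat_lit 0) [] (nat_lit 0) [] false,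
   Spec.mk (nat_lit 4611) (nat_lit 0) [] (nat_lit 0) [] false,
   Spec.mk (nat_lit 4643) (nat_lit 0) [] (nat_lit 0) [] false,
   Spec.mk (nat_lit 4661) (nat_lit 0) [] (nat_lit 0) [] false,
   Spec.mk (nat_lit 4667) (nat_lit 0) [] (nat_lit 0) [] false,
   Spec.mk (nat_lit 4669) (nat_lit 0) [] (nat_lit 0) [] false,
   Spec.mk (nat_lit 4679) (nat_lit 0) [] (nat_lit 0) [] false,
   Spec.mk (nat_lit 4685) (nat_lit 0) [] (nat_lit 0) [] false,
   Spec.mk (nat_lit 4687) (nat_lit 0) [] (nat_lit 0) [] false]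

noncomputable def cd11 : List Spec :=
  [Spec.mk (nat_lit 4691) (nat_lit 0) [] (nat_lit 0) [] false,
   Spec.mk (nat_lit 4693) (nat_lit 0) [] (nat_lit 0) [] false,
   Spec.mk (nat_lit 4695) (nat_lit 0) [] (nat_lit 0) [] false,
   Spec.mk (nat_lit 4715) (nat_lit 0) [] (nat_lit 0) [] false,
   Spec.mk (nat_lit 4721) (nat_lit 0) [] (nat_lit 0) [] false,
   Spec.mk (nat_lit 4723) (nat_lit 0) [] (nat_lit 0) [] false,
   Spec.mk (nat_lit 4733) (nat_lit 0) [] (nat_lit 0) [] false,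
   Spec.mk (nat_lit 4739) (nat_lit 0) [] (nat_lit 0) [] false,
   Spec.mk (nat_lit 4741) (nat_lit 0) [] (nat_lit 0) [] false,
   Spec.mk (nat_lit 4745) (nat_lit 0) [] (nat_lit 0) [] false,
   Spec.mk (nat_lit 4747) (nat_lit 0) [] (nat_lit 0) [] false,
   Spec.mk (nat_lit 4749) (nat_lit 0) [] (nat_lit 0) [] false,
   Spec.mk (nat_lit 4757) (nat_lit 0) [] (nat_lit 0) [] false,
   Spec.mk (nat_lit 4759) (nat_lit 0) [] (nat_lit 0) [] false,
   Spec.mk (nat_lit 4763) (nat_lit 0) [] (nat_lit 0) [] false,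
   Spec.mk (nat_lit 4765) (nat_lit 0) [] (nat_lit 0) [] false,
   Spec.mk (nat_lit 4767) (nat_lit 0) [] (nat_lit 0) [] false,
   Spec.mk (nat_lit 4771) (nat_lit 0) [] (nat_lit 0) [] false,
   Spec.mk (nat_lit 4773) (nat_lit 0) [] (nat_lit 0) [] false,
   Spec.mk (nat_lit 4787) (nat_lit 0) [] (nat_lit 0) [] false,
   Spec.mk (nat_lit 4793) (nat_lit 0) [] (nat_lit 0) [] false,
   Spec.mk (nat_lit 4795) (nat_lit 0) [] (nat_lit 0) [] false,
   Spec.mk (nat_lit 4799) (nat_lit 0) [] (nat_lit 0) [] false,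
   Spec.mk (nat_lit 4801) (nat_lit 0) [] (nat_lit 0) [] false,
   Spec.mk (nat_lit 4803) (nat_lit 0) [] (nat_lit 0) [] false,
   Spec.mk (nat_lit 4811) (nat_lit 0) [] (nat_lit 0) [] false,
   Spec.mk (nat_lit 4813) (nat_lit 0) [] (nat_lit 0) [] false,
   Spec.mk (nat_lit 4817) (nat_lit 0) [] (nat_lit 0) [] false,
   Spec.mk (nat_lit 4819) (nat_lit 0) [] (nat_lit 0) [] false,
   Spec.mk (nat_lit 4821) (nat_lit 0) [] (nat_lit 0) [] false,
   Spec.mk (nat_lit 4825) (nat_lit 0) [] (nat_lit 0) [] false,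
   Spec.mk (nat_lit 4827) (nat_lit 0) [] (nat_lit 0) [] false,
   Spec.mk (nat_lit 4835) (nat_lit 0) [] (nat_lit 0) [] false,
   Spec.mk (nat_lit 4837) (nat_lit 0) [] (nat_lit 0) [] false,
   Spec.mk (nat_lit 4839) (nat_lit 0) [] (nat_lit 0) [] false,
   Spec.mk (nat_lit 4843) (nat_lit 0) [] (nat_lit 0) [] false,
   Spec.mk (nat_lit 4845) (nat_lit 0) [] (nat_lit 0) [] false,
   Spec.mk (nat_lit 4851) (nat_lit 0) [] (nat_lit 0) [] false,
   Spec.mk (nat_lit 4877) (nat_lit 0) [] (nat_lit 0) [] false,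
   Spec.mk (nat_lit 4883) (nat_lit 0) [] (nat_lit 0) [] false,
   Spec.mk (nat_lit 4885) (nat_lit 0) [] (nat_lit 0) [] false,
   Spec.mk (nat_lit 4895) (nat_lit 0) [] (nat_lit 0) [] false,
   Spec.mk (nat_lit 4901) (nat_lit 0) [] (nat_lit 0) [] false,
   Spec.mk (nat_lit 4903) (nat_lit 0) [] (nat_lit 0) [] false,
   Spec.mk (nat_lit 4907) (nat_lit 0) [] (nat_lit 0) [] false,
   Spec.mk (nat_lit 4909) (nat_lit 0) [] (nat_lit 0) [] false,
   Spec.mk (nat_lit 4911) (nat_lit 0) [] (nat_lit 0) [] false,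
   Spec.mk (nat_lit 4919) (nat_lit 0) [] (nat_lit 0) [] false,
   Spec.mk (nat_lit 4921) (nat_lit 0) [] (nat_lit 0) [] false,
   Spec.mk (nat_lit 4925) (nat_lit 0) [] (nat_lit 0) [] false,
   Spec.mk (nat_lit 4927) (nat_lit 0) [] (nat_lit 0) [] false,
   Spec.mk (nat_lit 4929) (nat_lit 0) [] (nat_lit 0) [] false,
   Spec.mk (nat_lit 4933) (nat_lit 0) [] (nat_lit 0) [] false,
   Spec.mk (nat_lit 4935) (nat_lit 0) [] (nat_lit 0) [] false,
   Spec.mk (nat_lit 4949) (nat_lit 0) [] (nat_lit 0) [] false,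
   Spec.mk (nat_lit 4955) (nat_lit 0) [] (nat_lit 0) [] false,
   Spec.mk (nat_lit 4957) (nat_lit 0) [] (nat_lit 0) [] false,
   Spec.mk (nat_lit 4961) (nat_lit 0) [] (nat_lit 0) [] false,
   Spec.mk (nat_lit 4963) (nat_lit 0) [] (nat_lit 0) [] false,
   Spec.mk (nat_lit 4965) (nat_lit 0) [] (nat_lit 0) [] false]

noncomputable def cd12 : List Spec :=
  [Spec.mk (nat_lit 4973) (nat_lit 0) [] (nat_lit 0) [] false,
   Spec.mk (nat_lit 4975) (nat_lit 0) [] (nat_lit 0) [] false,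
   Spec.mk (nat_lit 4979) (nat_lit 0) [] (nat_lit 0) [] false,
   Spec.mk (nat_lit 4981) (nat_lit 0) [] (nat_lit 0) [] false,
   Spec.mk (nat_lit 4983) (nat_lit 0) [] (nat_lit 0) [] false,
   Spec.mk (nat_lit 4987) (nat_lit 0) [] (nat_lit 0) [] false,
   Spec.mk (nat_lit 4989) (nat_lit 0) [] (nat_lit 0) [] false,
   Spec.mk (nat_lit 4997) (nat_lit 0) [] (nat_lit 0) [] false,
   Spec.mk (nat_lit 4999) (nat_lit 0) [] (nat_lit 0) [] false,
   Spec.mk (nat_lit 5001) (nat_lit 0) [] (nat_lit 0) [] false,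
   Spec.mk (nat_lit 5005) (nat_lit 0) [] (nat_lit 0) [] false,
   Spec.mk (nat_lit 5007) (nat_lit 0) [] (nat_lit 0) [] false,
   Spec.mk (nat_lit 5013) (nat_lit 0) [] (nat_lit 0) [] false,
   Spec.mk (nat_lit 5027) (nat_lit 0) [] (nat_lit 0) [] false,
   Spec.mk (nat_lit 5029) (nat_lit 0) [] (nat_lit 0) [] false,
   Spec.mk (nat_lit 5033) (nat_lit 0) [] (nat_lit 0) [] false,
   Spec.mk (nat_lit 5035) (nat_lit 0) [] (nat_lit 0) [] false,
   Spec.mk (nat_lit 5037) (nat_lit 0) [] (nat_lit 0) [] false,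
   Spec.mk (nat_lit 5041) (nat_lit 0) [] (nat_lit 0) [] false,
   Spec.mk (nat_lit 5043) (nat_lit 0) [] (nat_lit 0) [] false,
   Spec.mk (nat_lit 5051) (nat_lit 0) [] (nat_lit 0) [] false,
   Spec.mk (nat_lit 5053) (nat_lit 0) [] (nat_lit 0) [] false,
   Spec.mk (nat_lit 5055) (nat_lit 0) [] (nat_lit 0) [] false,
   Spec.mk (nat_lit 5059) (nat_lit 0) [] (nat_lit 0) [] false,
   Spec.mk (nat_lit 5061) (nat_lit 0) [] (nat_lit 0) [] false,
   Spec.mk (nat_lit 5067) (nat_lit 0) [] (nat_lit 0) [] false,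
   Spec.mk (nat_lit 5077) (nat_lit 0) [] (nat_lit 0) [] false,
   Spec.mk (nat_lit 5079) (nat_lit 0) [] (nat_lit 0) [] false,
   Spec.mk (nat_lit 5085) (nat_lit 0) [] (nat_lit 0) [] false,
   Spec.mk (nat_lit 5129) (nat_lit 0) [] (nat_lit 0) [] false,
   Spec.mk (nat_lit 5147) (nat_lit 0) [] (nat_lit 0) [] false,
   Spec.mk (nat_lit 5153) (nat_lit 0) [] (nat_lit 0) [] false,
   Spec.mk (nat_lit 5155) (nat_lit 0) [] (nat_lit 0) [] false,
   Spec.mk (nat_lit 5165) (nat_lit 0) [] (nat_lit 0) [] false,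
   Spec.mk (nat_lit 5171) (nat_lit 0) [] (nat_lit 0) [] false,
   Spec.mk (nat_lit 5173) (nat_lit 0) [] (nat_lit 0) [] false,
   Spec.mk (nat_lit 5177) (nat_lit 0) [] (nat_lit 0) [] false,
   Spec.mk (nat_lit 5179) (nat_lit 0) [] (nat_lit 0) [] false,
   Spec.mk (nat_lit 5181) (nat_lit 0) [] (nat_lit 0) [] false,
   Spec.mk (nat_lit 5201) (nat_lit 0) [] (nat_lit 0) [] false,
   Spec.mk (nat_lit 5207) (nat_lit 0) [] (nat_lit 0) [] false,
   Spec.mk (nat_lit 5209) (nat_lit 0) [] (nat_lit 0) [] false,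
   Spec.mk (nat_lit 5219) (nat_lit 0) [] (nat_lit 0) [] false,
   Spec.mk (nat_lit 5225) (nat_lit 0) [] (nat_lit 0) [] false,
   Spec.mk (nat_lit 5227) (nat_lit 0) [] (nat_lit 0) [] false,
   Spec.mk (nat_lit 5231) (nat_lit 0) [] (nat_lit 0) [] false,
   Spec.mk (nat_lit 5233) (nat_lit 0) [] (nat_lit 0) [] false,
   Spec.mk (nat_lit 5235) (nat_lit 0) [] (nat_lit 0) [] false,
   Spec.mk (nat_lit 5243) (nat_lit 0) [] (nat_lit 0) [] false,
   Spec.mk (nat_lit 5245) (nat_lit 0) [] (nat_lit 0) [] false,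
   Spec.mk (nat_lit 5249) (nat_lit 0) [] (nat_lit 0) [] false,
   Spec.mk (nat_lit 5251) (nat_lit 0) [] (nat_lit 0) [] false,
   Spec.mk (nat_lit 5253) (nat_lit 0) [] (nat_lit 0) [] false,
   Spec.mk (nat_lit 5257) (nat_lit 0) [] (nat_lit 0) [] false,
   Spec.mk (nat_lit 5259) (nat_lit 0) [] (nat_lit 0) [] false,
   Spec.mk (nat_lit 5273) (nat_lit 0) [] (nat_lit 0) [] false,
   Spec.mk (nat_lit 5279) (nat_lit 0) [] (nat_lit 0) [] false,
   Spec.mk (nat_lit 5281) (nat_lit 0) [] (nat_lit 0) [] false,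
   Spec.mk (nat_lit 5285) (nat_lit 0) [] (nat_lit 0) [] false,
   Spec.mk (nat_lit 5287) (nat_lit 0) [] (nat_lit 0) [] false]

noncomputable def cd13 : List Spec :=
  [Spec.mk (nat_lit 5289) (nat_lit 0) [] (nat_lit 0) [] false,
   Spec.mk (nat_lit 5297) (nat_lit 0) [] (nat_lit 0) [] false,
   Spec.mk (nat_lit 5299) (nat_lit 0) [] (nat_lit 0) [] false,
   Spec.mk (nat_lit 5303) (nat_lit 0) [] (nat_lit 0) [] false,
   Spec.mk (nat_lit 5305) (nat_lit 0) [] (nat_lit 0) [] false,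
   Spec.mk (nat_lit 5307) (nat_lit 0) [] (nat_lit 0) [] false,
   Spec.mk (nat_lit 5311) (nat_lit 0) [] (nat_lit 0) [] false,
   Spec.mk (nat_lit 5313) (nat_lit 0) [] (nat_lit 0) [] false,
   Spec.mk (nat_lit 5321) (nat_lit 0) [] (nat_lit 0) [] false,
   Spec.mk (nat_lit 5323) (nat_lit 0) [] (nat_lit 0) [] false,
   Spec.mk (nat_lit 5325) (nat_lit 0) [] (nat_lit 0) [] false,
   Spec.mk (nat_lit 5329) (nat_lit 0) [] (nat_lit 0) [] false,
   Spec.mk (nat_lit 5331) (nat_lit 0) [] (nat_lit 0) [] false,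
   Spec.mk (nat_lit 5337) (nat_lit 0) [] (nat_lit 0) [] false,
   Spec.mk (nat_lit 5363) (nat_lit 0) [] (nat_lit 0) [] false,
   Spec.mk (nat_lit 5369) (nat_lit 0) [] (nat_lit 0) [] false,
   Spec.mk (nat_lit 5371) (nat_lit 0) [] (nat_lit 0) [] false,
   Spec.mk (nat_lit 5381) (nat_lit 0) [] (nat_lit 0) [] false,
   Spec.mk (nat_lit 5387) (nat_lit 0) [] (nat_lit 0) [] false,
   Spec.mk (nat_lit 5389) (nat_lit 0) [] (nat_lit 0) [] false,
   Spec.mk (nat_lit 5393) (nat_lit 0) [] (nat_lit 0) [] false,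
   Spec.mk (nat_lit 5395) (nat_lit 0) [] (nat_lit 0) [] false,
   Spec.mk (nat_lit 5397) (nat_lit 0) [] (nat_lit 0) [] false,
   Spec.mk (nat_lit 5405) (nat_lit 0) [] (nat_lit 0) [] false,
   Spec.mk (nat_lit 5407) (nat_lit 0) [] (nat_lit 0) [] false,
   Spec.mk (nat_lit 5411) (nat_lit 0) [] (nat_lit 0) [] false,
   Spec.mk (nat_lit 5413) (nat_lit 0) [] (nat_lit 0) [] false,
   Spec.mk (nat_lit 5415) (nat_lit 0) [] (nat_lit 0) [] false,
   Spec.mk (nat_lit 5419) (nat_lit 0) [] (nat_lit 0) [] false,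
   Spec.mk (nat_lit 5421) (nat_lit 0) [] (nat_lit 0) [] false,
   Spec.mk (nat_lit 5435) (nat_lit 0) [] (nat_lit 0) [] false,
   Spec.mk (nat_lit 5441) (nat_lit 0) [] (nat_lit 0) [] false,
   Spec.mk (nat_lit 5443) (nat_lit 0) [] (nat_lit 0) [] false,
   Spec.mk (nat_lit 5447) (nat_lit 0) [] (nat_lit 0) [] false,
   Spec.mk (nat_lit 5449) (nat_lit 0) [] (nat_lit 0) [] false,
   Spec.mk (nat_lit 5451) (nat_lit 0) [] (nat_lit 0) [] false,
   Spec.mk (nat_lit 5459) (nat_lit 0) [] (nat_lit 0) [] false,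
   Spec.mk (nat_lit 5461) (nat_lit 0) [] (nat_lit 0) [] false,
   Spec.mk (nat_lit 5465) (nat_lit 0) [] (nat_lit 0) [] false,
   Spec.mk (nat_lit 5467) (nat_lit 0) [] (nat_lit 0) [] false,
   Spec.mk (nat_lit 5469) (nat_lit 0) [] (nat_lit 0) [] false,
   Spec.mk (nat_lit 5473) (nat_lit 0) [] (nat_lit 0) [] false,
   Spec.mk (nat_lit 5475) (nat_lit 0) [] (nat_lit 0) [] false,
   Spec.mk (nat_lit 5483) (nat_lit 0) [] (nat_lit 0) [] false,
   Spec.mk (nat_lit 5485) (nat_lit 0) [] (nat_lit 0) [] false,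
   Spec.mk (nat_lit 5487) (nat_lit 0) [] (nat_lit 0) [] false,
   Spec.mk (nat_lit 5491) (nat_lit 0) [] (nat_lit 0) [] false,
   Spec.mk (nat_lit 5493) (nat_lit 0) [] (nat_lit 0) [] false,
   Spec.mk (nat_lit 5499) (nat_lit 0) [] (nat_lit 0) [] false,
   Spec.mk (nat_lit 5513) (nat_lit 0) [] (nat_lit 0) [] false,
   Spec.mk (nat_lit 5515) (nat_lit 0) [] (nat_lit 0) [] false,
   Spec.mk (nat_lit 5519) (nat_lit 0) [] (nat_lit 0) [] false,
   Spec.mk (nat_lit 5521) (nat_lit 0) [] (nat_lit 0) [] false,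
   Spec.mk (nat_lit 5523) (nat_lit 0) [] (nat_lit 0) [] false,
   Spec.mk (nat_lit 5527) (nat_lit 0) [] (nat_lit 0) [] false,
   Spec.mk (nat_lit 5529) (nat_lit 0) [] (nat_lit 0) [] false,
   Spec.mk (nat_lit 5537) (nat_lit 0) [] (nat_lit 0) [] false,
   Spec.mk (nat_lit 5539) (nat_lit 0) [] (nat_lit 0) [] false,
   Spec.mk (nat_lit 5541) (nat_lit 0) [] (nat_lit 0) [] false,
   Spec.mk (nat_lit 5545) (nat_lit 0) [] (nat_lit 0) [] false]

noncomputable def cd14 : List Spec :=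
  [Spec.mk (nat_lit 5547) (nat_lit 0) [] (nat_lit 0) [] false,
   Spec.mk (nat_lit 5553) (nat_lit 0) [] (nat_lit 0) [] false,
   Spec.mk (nat_lit 5563) (nat_lit 0) [] (nat_lit 0) [] false,
   Spec.mk (nat_lit 5565) (nat_lit 0) [] (nat_lit 0) [] false,
   Spec.mk (nat_lit 5571) (nat_lit 0) [] (nat_lit 0) [] false,
   Spec.mk (nat_lit 5597) (nat_lit 0) [] (nat_lit 0) [] false,
   Spec.mk (nat_lit 5603) (nat_lit 0) [] (nat_lit 0) [] false,
   Spec.mk (nat_lit 5605) (nat_lit 0) [] (nat_lit 0) [] false,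
   Spec.mk (nat_lit 5609) (nat_lit 0) [] (nat_lit 0) [] false,
   Spec.mk (nat_lit 5611) (nat_lit 0) [] (nat_lit 0) [] false,
   Spec.mk (nat_lit 5613) (nat_lit 0) [] (nat_lit 0) [] false,
   Spec.mk (nat_lit 5621) (nat_lit 0) [] (nat_lit 0) [] false,
   Spec.mk (nat_lit 5623) (nat_lit 0) [] (nat_lit 0) [] false,
   Spec.mk (nat_lit 5627) (nat_lit 0) [] (nat_lit 0) [] false,
   Spec.mk (nat_lit 5629) (nat_lit 0) [] (nat_lit 0) [] false,
   Spec.mk (nat_lit 5631) (nat_lit 0) [] (nat_lit 0) [] false,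
   Spec.mk (nat_lit 5635) (nat_lit 0) [] (nat_lit 0) [] false,
   Spec.mk (nat_lit 5637) (nat_lit 0) [] (nat_lit 0) [] false,
   Spec.mk (nat_lit 5645) (nat_lit 0) [] (nat_lit 0) [] false,
   Spec.mk (nat_lit 5647) (nat_lit 0) [] (nat_lit 0) [] false,
   Spec.mk (nat_lit 5649) (nat_lit 0) [] (nat_lit 0) [] false,
   Spec.mk (nat_lit 5653) (nat_lit 0) [] (nat_lit 0) [] false,
   Spec.mk (nat_lit 5655) (nat_lit 0) [] (nat_lit 0) [] false,
   Spec.mk (nat_lit 5661) (nat_lit 0) [] (nat_lit 0) [] false,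
   Spec.mk (nat_lit 5675) (nat_lit 0) [] (nat_lit 0) [] false,
   Spec.mk (nat_lit 5677) (nat_lit 0) [] (nat_lit 0) [] false,
   Spec.mk (nat_lit 5681) (nat_lit 0) [] (nat_lit 0) [] false,
   Spec.mk (nat_lit 5683) (nat_lit 0) [] (nat_lit 0) [] false,
   Spec.mk (nat_lit 5685) (nat_lit 0) [] (nat_lit 0) [] false,
   Spec.mk (nat_lit 5689) (nat_lit 0) [] (nat_lit 0) [] false,
   Spec.mk (nat_lit 5691) (nat_lit 0) [] (nat_lit 0) [] false,
   Spec.mk (nat_lit 5699) (nat_lit 0) [] (nat_lit 0) [] false,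
   Spec.mk (nat_lit 5701) (nat_lit 0) [] (nat_lit 0) [] false,
   Spec.mk (nat_lit 5703) (nat_lit 0) [] (nat_lit 0) [] false,
   Spec.mk (nat_lit 5707) (nat_lit 0) [] (nat_lit 0) [] false,
   Spec.mk (nat_lit 5709) (nat_lit 0) [] (nat_lit 0) [] false,
   Spec.mk (nat_lit 5715) (nat_lit 0) [] (nat_lit 0) [] false,
   Spec.mk (nat_lit 5725) (nat_lit 0) [] (nat_lit 0) [] false,
   Spec.mk (nat_lit 5727) (nat_lit 0) [] (nat_lit 0) [] false,
   Spec.mk (nat_lit 5733) (nat_lit 0) [] (nat_lit 0) [] false,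
   Spec.mk (nat_lit 5753) (nat_lit 0) [] (nat_lit 0) [] false,
   Spec.mk (nat_lit 5755) (nat_lit 0) [] (nat_lit 0) [] false,
   Spec.mk (nat_lit 5757) (nat_lit 0) [] (nat_lit 0) [] false,
   Spec.mk (nat_lit 5761) (nat_lit 0) [] (nat_lit 0) [] false,
   Spec.mk (nat_lit 5763) (nat_lit 0) [] (nat_lit 0) [] false,
   Spec.mk (nat_lit 5769) (nat_lit 0) [] (nat_lit 0) [] false,
   Spec.mk (nat_lit 5779) (nat_lit 0) [] (nat_lit 0) [] false,
   Spec.mk (nat_lit 5781) (nat_lit 0) [] (nat_lit 0) [] false,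
   Spec.mk (nat_lit 5787) (nat_lit 0) [] (nat_lit 0) [] false,
   Spec.mk (nat_lit 5805) (nat_lit 0) [] (nat_lit 0) [] false,
   Spec.mk (nat_lit 5849) (nat_lit 0) [] (nat_lit 0) [] false,
   Spec.mk (nat_lit 5855) (nat_lit 0) [] (nat_lit 0) [] false,
   Spec.mk (nat_lit 5857) (nat_lit 0) [] (nat_lit 0) [] false,
   Spec.mk (nat_lit 5867) (nat_lit 0) [] (nat_lit 0) [] false,
   Spec.mk (nat_lit 5873) (nat_lit 0) [] (nat_lit 0) [] false,
   Spec.mk (nat_lit 5875) (nat_lit 0) [] (nat_lit 0) [] false,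
   Spec.mk (nat_lit 5879) (nat_lit 0) [] (nat_lit 0) [] false,
   Spec.mk (nat_lit 5881) (nat_lit 0) [] (nat_lit 0) [] false,
   Spec.mk (nat_lit 5883) (nat_lit 0) [] (nat_lit 0) [] false,
   Spec.mk (nat_lit 5891) (nat_lit 0) [] (nat_lit 0) [] false]

noncomputable def cd15 : List Spec :=
  [Spec.mk (nat_lit 5893) (nat_lit 0) [] (nat_lit 0) [] false,
   Spec.mk (nat_lit 5897) (nat_lit 0) [] (nat_lit 0) [] false,
   Spec.mk (nat_lit 5899) (nat_lit 0) [] (nat_lit 0) [] false,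
   Spec.mk (nat_lit 5901) (nat_lit 0) [] (nat_lit 0) [] false,
   Spec.mk (nat_lit 5905) (nat_lit 0) [] (nat_lit 0) [] false,
   Spec.mk (nat_lit 5907) (nat_lit 0) [] (nat_lit 0) [] false,
   Spec.mk (nat_lit 5921) (nat_lit 0) [] (nat_lit 0) [] false,
   Spec.mk (nat_lit 5927) (nat_lit 0) [] (nat_lit 0) [] false,
   Spec.mk (nat_lit 5929) (nat_lit 0) [] (nat_lit 0) [] false,
   Spec.mk (nat_lit 5933) (nat_lit 0) [] (nat_lit 0) [] false,
   Spec.mk (nat_lit 5935) (nat_lit 0) [] (nat_lit 0) [] false,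
   Spec.mk (nat_lit 5937) (nat_lit 0) [] (nat_lit 0) [] false,
   Spec.mk (nat_lit 5945) (nat_lit 0) [] (nat_lit 0) [] false,
   Spec.mk (nat_lit 5947) (nat_lit 0) [] (nat_lit 0) [] false,
   Spec.mk (nat_lit 5951) (nat_lit 0) [] (nat_lit 0) [] false,
   Spec.mk (nat_lit 5953) (nat_lit 0) [] (nat_lit 0) [] false,
   Spec.mk (nat_lit 5955) (nat_lit 0) [] (nat_lit 0) [] false,
   Spec.mk (nat_lit 5959) (nat_lit 0) [] (nat_lit 0) [] false,
   Spec.mk (nat_lit 5961) (nat_lit 0) [] (nat_lit 0) [] false,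
   Spec.mk (nat_lit 5969) (nat_lit 0) [] (nat_lit 0) [] false,
   Spec.mk (nat_lit 5971) (nat_lit 0) [] (nat_lit 0) [] false,
   Spec.mk (nat_lit 5973) (nat_lit 0) [] (nat_lit 0) [] false,
   Spec.mk (nat_lit 5977) (nat_lit 0) [] (nat_lit 0) [] false,
   Spec.mk (nat_lit 5979) (nat_lit 0) [] (nat_lit 0) [] false,
   Spec.mk (nat_lit 5985) (nat_lit 0) [] (nat_lit 0) [] false,
   Spec.mk (nat_lit 5999) (nat_lit 0) [] (nat_lit 0) [] false,
   Spec.mk (nat_lit 6001) (nat_lit 0) [] (nat_lit 0) [] false,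
   Spec.mk (nat_lit 6005) (nat_lit 0) [] (nat_lit 0) [] false,
   Spec.mk (nat_lit 6007) (nat_lit 0) [] (nat_lit 0) [] false,
   Spec.mk (nat_lit 6009) (nat_lit 0) [] (nat_lit 0) [] false,
   Spec.mk (nat_lit 6013) (nat_lit 0) [] (nat_lit 0) [] false,
   Spec.mk (nat_lit 6015) (nat_lit 0) [] (nat_lit 0) [] false,
   Spec.mk (nat_lit 6023) (nat_lit 0) [] (nat_lit 0) [] false,
   Spec.mk (nat_lit 6025) (nat_lit 0) [] (nat_lit 0) [] false,
   Spec.mk (nat_lit 6027) (nat_lit 0) [] (nat_lit 0) [] false,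
   Spec.mk (nat_lit 6031) (nat_lit 0) [] (nat_lit 0) [] false,
   Spec.mk (nat_lit 6033) (nat_lit 0) [] (nat_lit 0) [] false,
   Spec.mk (nat_lit 6039) (nat_lit 0) [] (nat_lit 0) [] false,
   Spec.mk (nat_lit 6049) (nat_lit 0) [] (nat_lit 0) [] false,
   Spec.mk (nat_lit 6051) (nat_lit 0) [] (nat_lit 0) [] false,
   Spec.mk (nat_lit 6057) (nat_lit 0) [] (nat_lit 0) [] false,
   Spec.mk (nat_lit 6083) (nat_lit 0) [] (nat_lit 0) [] false,
   Spec.mk (nat_lit 6089) (nat_lit 0) [] (nat_lit 0) [] false,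
   Spec.mk (nat_lit 6091) (nat_lit 0) [] (nat_lit 0) [] false,
   Spec.mk (nat_lit 6095) (nat_lit 0) [] (nat_lit 0) [] false,
   Spec.mk (nat_lit 6097) (nat_lit 0) [] (nat_lit 0) [] false,
   Spec.mk (nat_lit 6099) (nat_lit 0) [] (nat_lit 0) [] false,
   Spec.mk (nat_lit 6107) (nat_lit 0) [] (nat_lit 0) [] false,
   Spec.mk (nat_lit 6109) (nat_lit 0) [] (nat_lit 0) [] false,
   Spec.mk (nat_lit 6113) (nat_lit 0) [] (nat_lit 0) [] false,
   Spec.mk (nat_lit 6115) (nat_lit 0) [] (nat_lit 0) [] false,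
   Spec.mk (nat_lit 6117) (nat_lit 0) [] (nat_lit 0) [] false,
   Spec.mk (nat_lit 6121) (nat_lit 0) [] (nat_lit 0) [] false,
   Spec.mk (nat_lit 6123) (nat_lit 0) [] (nat_lit 0) [] false,
   Spec.mk (nat_lit 6131) (nat_lit 0) [] (nat_lit 0) [] false,
   Spec.mk (nat_lit 6133) (nat_lit 0) [] (nat_lit 0) [] false,
   Spec.mk (nat_lit 6135) (nat_lit 0) [] (nat_lit 0) [] false,
   Spec.mk (nat_lit 6139) (nat_lit 0) [] (nat_lit 0) [] false,
   Spec.mk (nat_lit 6141) (nat_lit 0) [] (nat_lit 0) [] false,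
   Spec.mk (nat_lit 6147) (nat_lit 0) [] (nat_lit 0) [] false]

noncomputable def cd16 : List Spec :=
  [Spec.mk (nat_lit 6161) (nat_lit 0) [] (nat_lit 0) [] false,
   Spec.mk (nat_lit 6163) (nat_lit 0) [] (nat_lit 0) [] false,
   Spec.mk (nat_lit 6167) (nat_lit 0) [] (nat_lit 0) [] false,
   Spec.mk (nat_lit 6169) (nat_lit 0) [] (nat_lit 0) [] false,
   Spec.mk (nat_lit 6171) (nat_lit 0) [] (nat_lit 0) [] false,
   Spec.mk (nat_lit 6175) (nat_lit 0) [] (nat_lit 0) [] false,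
   Spec.mk (nat_lit 6177) (nat_lit 0) [] (nat_lit 0) [] false,
   Spec.mk (nat_lit 6185) (nat_lit 0) [] (nat_lit 0) [] false,
   Spec.mk (nat_lit 6187) (nat_lit 0) [] (nat_lit 0) [] false,
   Spec.mk (nat_lit 6189) (nat_lit 0) [] (nat_lit 0) [] false,
   Spec.mk (nat_lit 6193) (nat_lit 0) [] (nat_lit 0) [] false,
   Spec.mk (nat_lit 6195) (nat_lit 0) [] (nat_lit 0) [] false,
   Spec.mk (nat_lit 6201) (nat_lit 0) [] (nat_lit 0) [] false,
   Spec.mk (nat_lit 6211) (nat_lit 0) [] (nat_lit 0) [] false,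
   Spec.mk (nat_lit 6213) (nat_lit 0) [] (nat_lit 0) [] false,
   Spec.mk (nat_lit 6219) (nat_lit 0) [] (nat_lit 0) [] false,
   Spec.mk (nat_lit 6239) (nat_lit 0) [] (nat_lit 0) [] false,
   Spec.mk (nat_lit 6241) (nat_lit 0) [] (nat_lit 0) [] false,
   Spec.mk (nat_lit 6243) (nat_lit 0) [] (nat_lit 0) [] false,
   Spec.mk (nat_lit 6247) (nat_lit 0) [] (nat_lit 0) [] false,
   Spec.mk (nat_lit 6249) (nat_lit 0) [] (nat_lit 0) [] false,
   Spec.mk (nat_lit 6255) (nat_lit 0) [] (nat_lit 0) [] false,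
   Spec.mk (nat_lit 6265) (nat_lit 0) [] (nat_lit 0) [] false,
   Spec.mk (nat_lit 6267) (nat_lit 0) [] (nat_lit 0) [] false,
   Spec.mk (nat_lit 6273) (nat_lit 0) [] (nat_lit 0) [] false,
   Spec.mk (nat_lit 6291) (nat_lit 0) [] (nat_lit 0) [] false,
   Spec.mk (nat_lit 6323) (nat_lit 0) [] (nat_lit 0) [] false,
   Spec.mk (nat_lit 6325) (nat_lit 0) [] (nat_lit 0) [] false,
   Spec.mk (nat_lit 6329) (nat_lit 0) [] (nat_lit 0) [] false,
   Spec.mk (nat_lit 6331) (nat_lit 0) [] (nat_lit 0) [] false,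
   Spec.mk (nat_lit 6333) (nat_lit 0) [] (nat_lit 0) [] false,
   Spec.mk (nat_lit 6337) (nat_lit 0) [] (nat_lit 0) [] false,
   Spec.mk (nat_lit 6339) (nat_lit 0) [] (nat_lit 0) [] false,
   Spec.mk (nat_lit 6347) (nat_lit 0) [] (nat_lit 0) [] false,
   Spec.mk (nat_lit 6349) (nat_lit 0) [] (nat_lit 0) [] false,
   Spec.mk (nat_lit 6351) (nat_lit 0) [] (nat_lit 0) [] false,
   Spec.mk (nat_lit 6355) (nat_lit 0) [] (nat_lit 0) [] false,
   Spec.mk (nat_lit 6357) (nat_lit 0) [] (nat_lit 0) [] false,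
   Spec.mk (nat_lit 6363) (nat_lit 0) [] (nat_lit 0) [] false,
   Spec.mk (nat_lit 6373) (nat_lit 0) [] (nat_lit 0) [] false,
   Spec.mk (nat_lit 6375) (nat_lit 0) [] (nat_lit 0) [] false,
   Spec.mk (nat_lit 6381) (nat_lit 0) [] (nat_lit 0) [] false,
   Spec.mk (nat_lit 6401) (nat_lit 0) [] (nat_lit 0) [] false,
   Spec.mk (nat_lit 6403) (nat_lit 0) [] (nat_lit 0) [] false,
   Spec.mk (nat_lit 6405) (nat_lit 0) [] (nat_lit 0) [] false,
   Spec.mk (nat_lit 6409) (nat_lit 0) [] (nat_lit 0) [] false,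
   Spec.mk (nat_lit 6411) (nat_lit 0) [] (nat_lit 0) [] false,
   Spec.mk (nat_lit 6417) (nat_lit 0) [] (nat_lit 0) [] false,
   Spec.mk (nat_lit 6427) (nat_lit 0) [] (nat_lit 0) [] false,
   Spec.mk (nat_lit 6429) (nat_lit 0) [] (nat_lit 0) [] false,
   Spec.mk (nat_lit 6435) (nat_lit 0) [] (nat_lit 0) [] false,
   Spec.mk (nat_lit 6453) (nat_lit 0) [] (nat_lit 0) [] false,
   Spec.mk (nat_lit 6481) (nat_lit 0) [] (nat_lit 0) [] false,
   Spec.mk (nat_lit 6483) (nat_lit 0) [] (nat_lit 0) [] false,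
   Spec.mk (nat_lit 6489) (nat_lit 0) [] (nat_lit 0) [] false,
   Spec.mk (nat_lit 6507) (nat_lit 0) [] (nat_lit 0) [] false,
   Spec.mk (nat_lit 6641) (nat_lit 0) [] (nat_lit 0) [] false,
   Spec.mk (nat_lit 6695) (nat_lit 0) [] (nat_lit 0) [] false,
   Spec.mk (nat_lit 6713) (nat_lit 0) [] (nat_lit 0) [] false,
   Spec.mk (nat_lit 6719) (nat_lit 0) [] (nat_lit 0) [] false]

noncomputable def cd17 : List Spec :=
  [Spec.mk (nat_lit 6721) (nat_lit 0) [] (nat_lit 0) [] false,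
   Spec.mk (nat_lit 6749) (nat_lit 0) [] (nat_lit 0) [] false,
   Spec.mk (nat_lit 6767) (nat_lit 0) [] (nat_lit 0) [] false,
   Spec.mk (nat_lit 6773) (nat_lit 0) [] (nat_lit 0) [] false,
   Spec.mk (nat_lit 6775) (nat_lit 0) [] (nat_lit 0) [] false,
   Spec.mk (nat_lit 6785) (nat_lit 0) [] (nat_lit 0) [] false,
   Spec.mk (nat_lit 6791) (nat_lit 0) [] (nat_lit 0) [] false,
   Spec.mk (nat_lit 6793) (nat_lit 0) [] (nat_lit 0) [] false,
   Spec.mk (nat_lit 6797) (nat_lit 0) [] (nat_lit 0) [] false,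
   Spec.mk (nat_lit 6799) (nat_lit 0) [] (nat_lit 0) [] false,
   Spec.mk (nat_lit 6801) (nat_lit 0) [] (nat_lit 0) [] false,
   Spec.mk (nat_lit 6857) (nat_lit 0) [] (nat_lit 0) [] false,
   Spec.mk (nat_lit 6875) (nat_lit 0) [] (nat_lit 0) [] false,
   Spec.mk (nat_lit 6881) (nat_lit 0) [] (nat_lit 0) [] false,
   Spec.mk (nat_lit 6883) (nat_lit 0) [] (nat_lit 0) [] false,
   Spec.mk (nat_lit 6911) (nat_lit 0) [] (nat_lit 0) [] false,
   Spec.mk (nat_lit 6929) (nat_lit 0) [] (nat_lit 0) [] false,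
   Spec.mk (nat_lit 6935) (nat_lit 0) [] (nat_lit 0) [] false,
   Spec.mk (nat_lit 6937) (nat_lit 0) [] (nat_lit 0) [] false,
   Spec.mk (nat_lit 6947) (nat_lit 0) [] (nat_lit 0) [] false,
   Spec.mk (nat_lit 6953) (nat_lit 0) [] (nat_lit 0) [] false,
   Spec.mk (nat_lit 6955) (nat_lit 0) [] (nat_lit 0) [] false,
   Spec.mk (nat_lit 6959) (nat_lit 0) [] (nat_lit 0) [] false,
   Spec.mk (nat_lit 6961) (nat_lit 0) [] (nat_lit 0) [] false,
   Spec.mk (nat_lit 6963) (nat_lit 0) [] (nat_lit 0) [] false,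
   Spec.mk (nat_lit 6983) (nat_lit 0) [] (nat_lit 0) [] false,
   Spec.mk (nat_lit 6989) (nat_lit 0) [] (nat_lit 0) [] false,
   Spec.mk (nat_lit 6991) (nat_lit 0) [] (nat_lit 0) [] false,
   Spec.mk (nat_lit 7001) (nat_lit 0) [] (nat_lit 0) [] false,
   Spec.mk (nat_lit 7007) (nat_lit 0) [] (nat_lit 0) [] false,
   Spec.mk (nat_lit 7009) (nat_lit 0) [] (nat_lit 0) [] false,
   Spec.mk (nat_lit 7013) (nat_lit 0) [] (nat_lit 0) [] false,
   Spec.mk (nat_lit 7015) (nat_lit 0) [] (nat_lit 0) [] false,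
   Spec.mk (nat_lit 7017) (nat_lit 0) [] (nat_lit 0) [] false,
   Spec.mk (nat_lit 7025) (nat_lit 0) [] (nat_lit 0) [] false,
   Spec.mk (nat_lit 7027) (nat_lit 0) [] (nat_lit 0) [] false,
   Spec.mk (nat_lit 7031) (nat_lit 0) [] (nat_lit 0) [] false,
   Spec.mk (nat_lit 7033) (nat_lit 0) [] (nat_lit 0) [] false,
   Spec.mk (nat_lit 7035) (nat_lit 0) [] (nat_lit 0) [] false,
   Spec.mk (nat_lit 7039) (nat_lit 0) [] (nat_lit 0) [] false,
   Spec.mk (nat_lit 7041) (nat_lit 0) [] (nat_lit 0) [] false,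
   Spec.mk (nat_lit 7073) (nat_lit 0) [] (nat_lit 0) [] false,
   Spec.mk (nat_lit 7091) (nat_lit 0) [] (nat_lit 0) [] false,
   Spec.mk (nat_lit 7097) (nat_lit 0) [] (nat_lit 0) [] false,
   Spec.mk (nat_lit 7099) (nat_lit 0) [] (nat_lit 0) [] false,
   Spec.mk (nat_lit 7109) (nat_lit 0) [] (nat_lit 0) [] false,
   Spec.mk (nat_lit 7115) (nat_lit 0) [] (nat_lit 0) [] false,
   Spec.mk (nat_lit 7117) (nat_lit 0) [] (nat_lit 0) [] false,
   Spec.mk (nat_lit 7121) (nat_lit 0) [] (nat_lit 0) [] false,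
   Spec.mk (nat_lit 7123) (nat_lit 0) [] (nat_lit 0) [] false,
   Spec.mk (nat_lit 7125) (nat_lit 0) [] (nat_lit 0) [] false,
   Spec.mk (nat_lit 7145) (nat_lit 0) [] (nat_lit 0) [] false,
   Spec.mk (nat_lit 7151) (nat_lit 0) [] (nat_lit 0) [] false,
   Spec.mk (nat_lit 7153) (nat_lit 0) [] (nat_lit 0) [] false,
   Spec.mk (nat_lit 7163) (nat_lit 0) [] (nat_lit 0) [] false,
   Spec.mk (nat_lit 7169) (nat_lit 0) [] (nat_lit 0) [] false,
   Spec.mk (nat_lit 7171) (nat_lit 0) [] (nat_lit 0) [] false,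
   Spec.mk (nat_lit 7175) (nat_lit 0) [] (nat_lit 0) [] false,
   Spec.mk (nat_lit 7177) (nat_lit 0) [] (nat_lit 0) [] false,
   Spec.mk (nat_lit 7179) (nat_lit 0) [] (nat_lit 0) [] false]

noncomputable def cd18 : List Spec :=
  [Spec.mk (nat_lit 7187) (nat_lit 0) [] (nat_lit 0) [] false,
   Spec.mk (nat_lit 7189) (nat_lit 0) [] (nat_lit 0) [] false,
   Spec.mk (nat_lit 7193) (nat_lit 0) [] (nat_lit 0) [] false,
   Spec.mk (nat_lit 7195) (nat_lit 0) [] (nat_lit 0) [] false,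
   Spec.mk (nat_lit 7197) (nat_lit 0) [] (nat_lit 0) [] false,
   Spec.mk (nat_lit 7201) (nat_lit 0) [] (nat_lit 0) [] false,
   Spec.mk (nat_lit 7203) (nat_lit 0) [] (nat_lit 0) [] false,
   Spec.mk (nat_lit 7217) (nat_lit 0) [] (nat_lit 0) [] false,
   Spec.mk (nat_lit 7223) (nat_lit 0) [] (nat_lit 0) [] false,
   Spec.mk (nat_lit 7225) (nat_lit 0) [] (nat_lit 0) [] false,
   Spec.mk (nat_lit 7229) (nat_lit 0) [] (nat_lit 0) [] false,
   Spec.mk (nat_lit 7231) (nat_lit 0) [] (nat_lit 0) [] false,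
   Spec.mk (nat_lit 7233) (nat_lit 0) [] (nat_lit 0) [] false,
   Spec.mk (nat_lit 7241) (nat_lit 0) [] (nat_lit 0) [] false,
   Spec.mk (nat_lit 7243) (nat_lit 0) [] (nat_lit 0) [] false,
   Spec.mk (nat_lit 7247) (nat_lit 0) [] (nat_lit 0) [] false,
   Spec.mk (nat_lit 7249) (nat_lit 0) [] (nat_lit 0) [] false,
   Spec.mk (nat_lit 7251) (nat_lit 0) [] (nat_lit 0) [] false,
   Spec.mk (nat_lit 7255) (nat_lit 0) [] (nat_lit 0) [] false,
   Spec.mk (nat_lit 7257) (nat_lit 0) [] (nat_lit 0) [] false,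
   Spec.mk (nat_lit 7265) (nat_lit 0) [] (nat_lit 0) [] false,
   Spec.mk (nat_lit 7267) (nat_lit 0) [] (nat_lit 0) [] false,
   Spec.mk (nat_lit 7269) (nat_lit 0) [] (nat_lit 0) [] false,
   Spec.mk (nat_lit 7273) (nat_lit 0) [] (nat_lit 0) [] false,
   Spec.mk (nat_lit 7275) (nat_lit 0) [] (nat_lit 0) [] false,
   Spec.mk (nat_lit 7281) (nat_lit 0) [] (nat_lit 0) [] false,
   Spec.mk (nat_lit 7343) (nat_lit 0) [] (nat_lit 0) [] false,
   Spec.mk (nat_lit 7361) (nat_lit 0) [] (nat_lit 0) [] false,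
   Spec.mk (nat_lit 7367) (nat_lit 0) [] (nat_lit 0) [] false,
   Spec.mk (nat_lit 7369) (nat_lit 0) [] (nat_lit 0) [] false,
   Spec.mk (nat_lit 7397) (nat_lit 0) [] (nat_lit 0) [] false,
   Spec.mk (nat_lit 7415) (nat_lit 0) [] (nat_lit 0) [] false,
   Spec.mk (nat_lit 7421) (nat_lit 0) [] (nat_lit 0) [] false,
   Spec.mk (nat_lit 7423) (nat_lit 0) [] (nat_lit 0) [] false,
   Spec.mk (nat_lit 7433) (nat_lit 0) [] (nat_lit 0) [] false,
   Spec.mk (nat_lit 7439) (nat_lit 0) [] (nat_lit 0) [] false,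
   Spec.mk (nat_lit 7441) (nat_lit 0) [] (nat_lit 0) [] false,
   Spec.mk (nat_lit 7445) (nat_lit 0) [] (nat_lit 0) [] false,
   Spec.mk (nat_lit 7447) (nat_lit 0) [] (nat_lit 0) [] false,
   Spec.mk (nat_lit 7449) (nat_lit 0) [] (nat_lit 0) [] false,
   Spec.mk (nat_lit 7469) (nat_lit 0) [] (nat_lit 0) [] false,
   Spec.mk (nat_lit 7475) (nat_lit 0) [] (nat_lit 0) [] false,
   Spec.mk (nat_lit 7477) (nat_lit 0) [] (nat_lit 0) [] false,
   Spec.mk (nat_lit 7487) (nat_lit 0) [] (nat_lit 0) [] false,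
   Spec.mk (nat_lit 7493) (nat_lit 0) [] (nat_lit 0) [] false,
   Spec.mk (nat_lit 7495) (nat_lit 0) [] (nat_lit 0) [] false,
   Spec.mk (nat_lit 7499) (nat_lit 0) [] (nat_lit 0) [] false,
   Spec.mk (nat_lit 7501) (nat_lit 0) [] (nat_lit 0) [] false,
   Spec.mk (nat_lit 7503) (nat_lit 0) [] (nat_lit 0) [] false,
   Spec.mk (nat_lit 7511) (nat_lit 0) [] (nat_lit 0) [] false,
   Spec.mk (nat_lit 7513) (nat_lit 0) [] (nat_lit 0) [] false,
   Spec.mk (nat_lit 7517) (nat_lit 0) [] (nat_lit 0) [] false,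
   Spec.mk (nat_lit 7519) (nat_lit 0) [] (nat_lit 0) [] false,
   Spec.mk (nat_lit 7521) (nat_lit 0) [] (nat_lit 0) [] false,
   Spec.mk (nat_lit 7525) (nat_lit 0) [] (nat_lit 0) [] false,
   Spec.mk (nat_lit 7527) (nat_lit 0) [] (nat_lit 0) [] false,
   Spec.mk (nat_lit 7559) (nat_lit 0) [] (nat_lit 0) [] false,
   Spec.mk (nat_lit 7577) (nat_lit 0) [] (nat_lit 0) [] false,
   Spec.mk (nat_lit 7583) (nat_lit 0) [] (nat_lit 0) [] false,
   Spec.mk (nat_lit 7585) (nat_lit 0) [] (nat_lit 0) [] false]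

noncomputable def cd19 : List Spec :=
  [Spec.mk (nat_lit 7595) (nat_lit 0) [] (nat_lit 0) [] false,
   Spec.mk (nat_lit 7601) (nat_lit 0) [] (nat_lit 0) [] false,
   Spec.mk (nat_lit 7603) (nat_lit 0) [] (nat_lit 0) [] false,
   Spec.mk (nat_lit 7607) (nat_lit 0) [] (nat_lit 0) [] false,
   Spec.mk (nat_lit 7609) (nat_lit 0) [] (nat_lit 0) [] false,
   Spec.mk (nat_lit 7611) (nat_lit 0) [] (nat_lit 0) [] false,
   Spec.mk (nat_lit 7631) (nat_lit 0) [] (nat_lit 0) [] false,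
   Spec.mk (nat_lit 7637) (nat_lit 0) [] (nat_lit 0) [] false,
   Spec.mk (nat_lit 7639) (nat_lit 0) [] (nat_lit 0) [] false,
   Spec.mk (nat_lit 7649) (nat_lit 0) [] (nat_lit 0) [] false,
   Spec.mk (nat_lit 7655) (nat_lit 0) [] (nat_lit 0) [] false,
   Spec.mk (nat_lit 7657) (nat_lit 0) [] (nat_lit 0) [] false,
   Spec.mk (nat_lit 7661) (nat_lit 0) [] (nat_lit 0) [] false,
   Spec.mk (nat_lit 7663) (nat_lit 0) [] (nat_lit 0) [] false,
   Spec.mk (nat_lit 7665) (nat_lit 0) [] (nat_lit 0) [] false,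
   Spec.mk (nat_lit 7673) (nat_lit 0) [] (nat_lit 0) [] false,
   Spec.mk (nat_lit 7675) (nat_lit 0) [] (nat_lit 0) [] false,
   Spec.mk (nat_lit 7679) (nat_lit 0) [] (nat_lit 0) [] false,
   Spec.mk (nat_lit 7681) (nat_lit 0) [] (nat_lit 0) [] false,
   Spec.mk (nat_lit 7683) (nat_lit 0) [] (nat_lit 0) [] false,
   Spec.mk (nat_lit 7687) (nat_lit 0) [] (nat_lit 0) [] false,
   Spec.mk (nat_lit 7689) (nat_lit 0) [] (nat_lit 0) [] false,
   Spec.mk (nat_lit 7703) (nat_lit 0) [] (nat_lit 0) [] false,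
   Spec.mk (nat_lit 7709) (nat_lit 0) [] (nat_lit 0) [] false,
   Spec.mk (nat_lit 7711) (nat_lit 0) [] (nat_lit 0) [] false,
   Spec.mk (nat_lit 7715) (nat_lit 0) [] (nat_lit 0) [] false,
   Spec.mk (nat_lit 7717) (nat_lit 0) [] (nat_lit 0) [] false,
   Spec.mk (nat_lit 7719) (nat_lit 0) [] (nat_lit 0) [] false,
   Spec.mk (nat_lit 7727) (nat_lit 0) [] (nat_lit 0) [] false,
   Spec.mk (nat_lit 7729) (nat_lit 0) [] (nat_lit 0) [] false,
   Spec.mk (nat_lit 7733) (nat_lit 0) [] (nat_lit 0) [] false,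
   Spec.mk (nat_lit 7735) (nat_lit 0) [] (nat_lit 0) [] false,
   Spec.mk (nat_lit 7737) (nat_lit 0) [] (nat_lit 0) [] false,
   Spec.mk (nat_lit 7741) (nat_lit 0) [] (nat_lit 0) [] false,
   Spec.mk (nat_lit 7743) (nat_lit 0) [] (nat_lit 0) [] false,
   Spec.mk (nat_lit 7751) (nat_lit 0) [] (nat_lit 0) [] false,
   Spec.mk (nat_lit 7753) (nat_lit 0) [] (nat_lit 0) [] false,
   Spec.mk (nat_lit 7755) (nat_lit 0) [] (nat_lit 0) [] false,
   Spec.mk (nat_lit 7759) (nat_lit 0) [] (nat_lit 0) [] false,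
   Spec.mk (nat_lit 7761) (nat_lit 0) [] (nat_lit 0) [] false,
   Spec.mk (nat_lit 7767) (nat_lit 0) [] (nat_lit 0) [] false,
   Spec.mk (nat_lit 7793) (nat_lit 0) [] (nat_lit 0) [] false,
   Spec.mk (nat_lit 7799) (nat_lit 0) [] (nat_lit 0) [] false,
   Spec.mk (nat_lit 7801) (nat_lit 0) [] (nat_lit 0) [] false,
   Spec.mk (nat_lit 7811) (nat_lit 0) [] (nat_lit 0) [] false,
   Spec.mk (nat_lit 7817) (nat_lit 0) [] (nat_lit 0) [] false,
   Spec.mk (nat_lit 7819) (nat_lit 0) [] (nat_lit 0) [] false,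
   Spec.mk (nat_lit 7823) (nat_lit 0) [] (nat_lit 0) [] false,
   Spec.mk (nat_lit 7825) (nat_lit 0) [] (nat_lit 0) [] false,
   Spec.mk (nat_lit 7827) (nat_lit 0) [] (nat_lit 0) [] false,
   Spec.mk (nat_lit 7835) (nat_lit 0) [] (nat_lit 0) [] false,
   Spec.mk (nat_lit 7837) (nat_lit 0) [] (nat_lit 0) [] false,
   Spec.mk (nat_lit 7841) (nat_lit 0) [] (nat_lit 0) [] false,
   Spec.mk (nat_lit 7843) (nat_lit 0) [] (nat_lit 0) [] false,
   Spec.mk (nat_lit 7845) (nat_lit 0) [] (nat_lit 0) [] false,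
   Spec.mk (nat_lit 7849) (nat_lit 0) [] (nat_lit 0) [] false,
   Spec.mk (nat_lit 7851) (nat_lit 0) [] (nat_lit 0) [] false,
   Spec.mk (nat_lit 7865) (nat_lit 0) [] (nat_lit 0) [] false,
   Spec.mk (nat_lit 7871) (nat_lit 0) [] (nat_lit 0) [] false,
   Spec.mk (nat_lit 7873) (nat_lit 0) [] (nat_lit 0) [] false]

noncomputable def cd20 : List Spec :=
  [Spec.mk (nat_lit 7877) (nat_lit 0) [] (nat_lit 0) [] false,
   Spec.mk (nat_lit 7879) (nat_lit 0) [] (nat_lit 0) [] false,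
   Spec.mk (nat_lit 7881) (nat_lit 0) [] (nat_lit 0) [] false,
   Spec.mk (nat_lit 7889) (nat_lit 0) [] (nat_lit 0) [] false,
   Spec.mk (nat_lit 7891) (nat_lit 0) [] (nat_lit 0) [] false,
   Spec.mk (nat_lit 7895) (nat_lit 0) [] (nat_lit 0) [] false,
   Spec.mk (nat_lit 7897) (nat_lit 0) [] (nat_lit 0) [] false,
   Spec.mk (nat_lit 7899) (nat_lit 0) [] (nat_lit 0) [] false,
   Spec.mk (nat_lit 7903) (nat_lit 0) [] (nat_lit 0) [] false,
   Spec.mk (nat_lit 7905) (nat_lit 0) [] (nat_lit 0) [] false,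
   Spec.mk (nat_lit 7913) (nat_lit 0) [] (nat_lit 0) [] false,
   Spec.mk (nat_lit 7915) (nat_lit 0) [] (nat_lit 0) [] false,
   Spec.mk (nat_lit 7917) (nat_lit 0) [] (nat_lit 0) [] false,
   Spec.mk (nat_lit 7921) (nat_lit 0) [] (nat_lit 0) [] false,
   Spec.mk (nat_lit 7923) (nat_lit 0) [] (nat_lit 0) [] false,
   Spec.mk (nat_lit 7929) (nat_lit 0) [] (nat_lit 0) [] false,
   Spec.mk (nat_lit 7943) (nat_lit 0) [] (nat_lit 0) [] false,
   Spec.mk (nat_lit 7945) (nat_lit 0) [] (nat_lit 0) [] false,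
   Spec.mk (nat_lit 7949) (nat_lit 0) [] (nat_lit 0) [] false,
   Spec.mk (nat_lit 7951) (nat_lit 0) [] (nat_lit 0) [] false,
   Spec.mk (nat_lit 7953) (nat_lit 0) [] (nat_lit 0) [] false,
   Spec.mk (nat_lit 7957) (nat_lit 0) [] (nat_lit 0) [] false,
   Spec.mk (nat_lit 7959) (nat_lit 0) [] (nat_lit 0) [] false,
   Spec.mk (nat_lit 7967) (nat_lit 0) [] (nat_lit 0) [] false,
   Spec.mk (nat_lit 7969) (nat_lit 0) [] (nat_lit 0) [] false,
   Spec.mk (nat_lit 7971) (nat_lit 0) [] (nat_lit 0) [] false,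
   Spec.mk (nat_lit 7975) (nat_lit 0) [] (nat_lit 0) [] false,
   Spec.mk (nat_lit 7977) (nat_lit 0) [] (nat_lit 0) [] false,
   Spec.mk (nat_lit 7983) (nat_lit 0) [] (nat_lit 0) [] false,
   Spec.mk (nat_lit 7993) (nat_lit 0) [] (nat_lit 0) [] false,
   Spec.mk (nat_lit 7995) (nat_lit 0) [] (nat_lit 0) [] false,
   Spec.mk (nat_lit 8001) (nat_lit 0) [] (nat_lit 0) [] false,
   Spec.mk (nat_lit 8045) (nat_lit 0) [] (nat_lit 0) [] false,
   Spec.mk (nat_lit 8063) (nat_lit 0) [] (nat_lit 0) [] false,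
   Spec.mk (nat_lit 8069) (nat_lit 0) [] (nat_lit 0) [] false,
   Spec.mk (nat_lit 8071) (nat_lit 0) [] (nat_lit 0) [] false,
   Spec.mk (nat_lit 8081) (nat_lit 0) [] (nat_lit 0) [] false,
   Spec.mk (nat_lit 8087) (nat_lit 0) [] (nat_lit 0) [] false,
   Spec.mk (nat_lit 8089) (nat_lit 0) [] (nat_lit 0) [] false,
   Spec.mk (nat_lit 8093) (nat_lit 0) [] (nat_lit 0) [] false,
   Spec.mk (nat_lit 8095) (nat_lit 0) [] (nat_lit 0) [] false,
   Spec.mk (nat_lit 8097) (nat_lit 0) [] (nat_lit 0) [] false,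
   Spec.mk (nat_lit 8117) (nat_lit 0) [] (nat_lit 0) [] false,
   Spec.mk (nat_lit 8123) (nat_lit 0) [] (nat_lit 0) [] false,
   Spec.mk (nat_lit 8125) (nat_lit 0) [] (nat_lit 0) [] false,
   Spec.mk (nat_lit 8135) (nat_lit 0) [] (nat_lit 0) [] false,
   Spec.mk (nat_lit 8141) (nat_lit 0) [] (nat_lit 0) [] false,
   Spec.mk (nat_lit 8143) (nat_lit 0) [] (nat_lit 0) [] false,
   Spec.mk (nat_lit 8147) (nat_lit 0) [] (nat_lit 0) [] false,
   Spec.mk (nat_lit 8149) (nat_lit 0) [] (nat_lit 0) [] false,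
   Spec.mk (nat_lit 8151) (nat_lit 0) [] (nat_lit 0) [] false,
   Spec.mk (nat_lit 8159) (nat_lit 0) [] (nat_lit 0) [] false,
   Spec.mk (nat_lit 8161) (nat_lit 0) [] (nat_lit 0) [] false,
   Spec.mk (nat_lit 8165) (nat_lit 0) [] (nat_lit 0) [] false,
   Spec.mk (nat_lit 8167) (nat_lit 0) [] (nat_lit 0) [] false,
   Spec.mk (nat_lit 8169) (nat_lit 0) [] (nat_lit 0) [] false,
   Spec.mk (nat_lit 8173) (nat_lit 0) [] (nat_lit 0) [] false,
   Spec.mk (nat_lit 8175) (nat_lit 0) [] (nat_lit 0) [] false,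
   Spec.mk (nat_lit 8189) (nat_lit 0) [] (nat_lit 0) [] false,
   Spec.mk (nat_lit 8195) (nat_lit 0) [] (nat_lit 0) [] false]

noncomputable def cd21 : List Spec :=
  [Spec.mk (nat_lit 8197) (nat_lit 0) [] (nat_lit 0) [] false,
   Spec.mk (nat_lit 8201) (nat_lit 0) [] (nat_lit 0) [] false,
   Spec.mk (nat_lit 8203) (nat_lit 0) [] (nat_lit 0) [] false,
   Spec.mk (nat_lit 8205) (nat_lit 0) [] (nat_lit 0) [] false,
   Spec.mk (nat_lit 8213) (nat_lit 0) [] (nat_lit 0) [] false,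
   Spec.mk (nat_lit 8215) (nat_lit 0) [] (nat_lit 0) [] false,
   Spec.mk (nat_lit 8219) (nat_lit 0) [] (nat_lit 0) [] false,
   Spec.mk (nat_lit 8221) (nat_lit 0) [] (nat_lit 0) [] false,
   Spec.mk (nat_lit 8223) (nat_lit 0) [] (nat_lit 0) [] false,
   Spec.mk (nat_lit 8227) (nat_lit 0) [] (nat_lit 0) [] false,
   Spec.mk (nat_lit 8229) (nat_lit 0) [] (nat_lit 0) [] false,
   Spec.mk (nat_lit 8237) (nat_lit 0) [] (nat_lit 0) [] false,
   Spec.mk (nat_lit 8239) (nat_lit 0) [] (nat_lit 0) [] false,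
   Spec.mk (nat_lit 8241) (nat_lit 0) [] (nat_lit 0) [] false,
   Spec.mk (nat_lit 8245) (nat_lit 0) [] (nat_lit 0) [] false,
   Spec.mk (nat_lit 8247) (nat_lit 0) [] (nat_lit 0) [] false,
   Spec.mk (nat_lit 8253) (nat_lit 0) [] (nat_lit 0) [] false,
   Spec.mk (nat_lit 8279) (nat_lit 0) [] (nat_lit 0) [] false,
   Spec.mk (nat_lit 8285) (nat_lit 0) [] (nat_lit 0) [] false,
   Spec.mk (nat_lit 8287) (nat_lit 0) [] (nat_lit 0) [] false,
   Spec.mk (nat_lit 8297) (nat_lit 0) [] (nat_lit 0) [] false,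
   Spec.mk (nat_lit 8303) (nat_lit 0) [] (nat_lit 0) [] false,
   Spec.mk (nat_lit 8305) (nat_lit 0) [] (nat_lit 0) [] false,
   Spec.mk (nat_lit 8309) (nat_lit 0) [] (nat_lit 0) [] false,
   Spec.mk (nat_lit 8311) (nat_lit 0) [] (nat_lit 0) [] false,
   Spec.mk (nat_lit 8313) (nat_lit 0) [] (nat_lit 0) [] false,
   Spec.mk (nat_lit 8321) (nat_lit 0) [] (nat_lit 0) [] false,
   Spec.mk (nat_lit 8323) (nat_lit 0) [] (nat_lit 0) [] false,
   Spec.mk (nat_lit 8327) (nat_lit 0) [] (nat_lit 0) [] false,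
   Spec.mk (nat_lit 8329) (nat_lit 0) [] (nat_lit 0) [] false,
   Spec.mk (nat_lit 8331) (nat_lit 0) [] (nat_lit 0) [] false,
   Spec.mk (nat_lit 8335) (nat_lit 0) [] (nat_lit 0) [] false,
   Spec.mk (nat_lit 8337) (nat_lit 0) [] (nat_lit 0) [] false,
   Spec.mk (nat_lit 8351) (nat_lit 0) [] (nat_lit 0) [] false,
   Spec.mk (nat_lit 8357) (nat_lit 0) [] (nat_lit 0) [] false,
   Spec.mk (nat_lit 8359) (nat_lit 0) [] (nat_lit 0) [] false,
   Spec.mk (nat_lit 8363) (nat_lit 0) [] (nat_lit 0) [] false,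
   Spec.mk (nat_lit 8365) (nat_lit 0) [] (nat_lit 0) [] false,
   Spec.mk (nat_lit 8367) (nat_lit 0) [] (nat_lit 0) [] false,
   Spec.mk (nat_lit 8375) (nat_lit 0) [] (nat_lit 0) [] false,
   Spec.mk (nat_lit 8377) (nat_lit 0) [] (nat_lit 0) [] false,
   Spec.mk (nat_lit 8381) (nat_lit 0) [] (nat_lit 0) [] false,
   Spec.mk (nat_lit 8383) (nat_lit 0) [] (nat_lit 0) [] false,
   Spec.mk (nat_lit 8385) (nat_lit 0) [] (nat_lit 0) [] false,
   Spec.mk (nat_lit 8389) (nat_lit 0) [] (nat_lit 0) [] false,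
   Spec.mk (nat_lit 8391) (nat_lit 0) [] (nat_lit 0) [] false,
   Spec.mk (nat_lit 8399) (nat_lit 0) [] (nat_lit 0) [] false,
   Spec.mk (nat_lit 8401) (nat_lit 0) [] (nat_lit 0) [] false,
   Spec.mk (nat_lit 8403) (nat_lit 0) [] (nat_lit 0) [] false,
   Spec.mk (nat_lit 8407) (nat_lit 0) [] (nat_lit 0) [] false,
   Spec.mk (nat_lit 8409) (nat_lit 0) [] (nat_lit 0) [] false,
   Spec.mk (nat_lit 8415) (nat_lit 0) [] (nat_lit 0) [] false,
   Spec.mk (nat_lit 8429) (nat_lit 0) [] (nat_lit 0) [] false,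
   Spec.mk (nat_lit 8431) (nat_lit 0) [] (nat_lit 0) [] false,
   Spec.mk (nat_lit 8435) (nat_lit 0) [] (nat_lit 0) [] false,
   Spec.mk (nat_lit 8437) (nat_lit 0) [] (nat_lit 0) [] false,
   Spec.mk (nat_lit 8439) (nat_lit 0) [] (nat_lit 0) [] false,
   Spec.mk (nat_lit 8443) (nat_lit 0) [] (nat_lit 0) [] false,
   Spec.mk (nat_lit 8445) (nat_lit 0) [] (nat_lit 0) [] false,
   Spec.mk (nat_lit 8453) (nat_lit 0) [] (nat_lit 0) [] false]

noncomputable def cd22 : List Spec :=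
  [Spec.mk (nat_lit 8455) (nat_lit 0) [] (nat_lit 0) [] false,
   Spec.mk (nat_lit 8457) (nat_lit 0) [] (nat_lit 0) [] false,
   Spec.mk (nat_lit 8461) (nat_lit 0) [] (nat_lit 0) [] false,
   Spec.mk (nat_lit 8463) (nat_lit 0) [] (nat_lit 0) [] false,
   Spec.mk (nat_lit 8469) (nat_lit 0) [] (nat_lit 0) [] false,
   Spec.mk (nat_lit 8479) (nat_lit 0) [] (nat_lit 0) [] false,
   Spec.mk (nat_lit 8481) (nat_lit 0) [] (nat_lit 0) [] false,
   Spec.mk (nat_lit 8487) (nat_lit 0) [] (nat_lit 0) [] false,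
   Spec.mk (nat_lit 8513) (nat_lit 0) [] (nat_lit 0) [] false,
   Spec.mk (nat_lit 8519) (nat_lit 0) [] (nat_lit 0) [] false,
   Spec.mk (nat_lit 8521) (nat_lit 0) [] (nat_lit 0) [] false,
   Spec.mk (nat_lit 8525) (nat_lit 0) [] (nat_lit 0) [] false,
   Spec.mk (nat_lit 8527) (nat_lit 0) [] (nat_lit 0) [] false,
   Spec.mk (nat_lit 8529) (nat_lit 0) [] (nat_lit 0) [] false,
   Spec.mk (nat_lit 8537) (nat_lit 0) [] (nat_lit 0) [] false,
   Spec.mk (nat_lit 8539) (nat_lit 0) [] (nat_lit 0) [] false,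
   Spec.mk (nat_lit 8543) (nat_lit 0) [] (nat_lit 0) [] false,
   Spec.mk (nat_lit 8545) (nat_lit 0) [] (nat_lit 0) [] false,
   Spec.mk (nat_lit 8547) (nat_lit 0) [] (nat_lit 0) [] false,
   Spec.mk (nat_lit 8551) (nat_lit 0) [] (nat_lit 0) [] false,
   Spec.mk (nat_lit 8553) (nat_lit 0) [] (nat_lit 0) [] false,
   Spec.mk (nat_lit 8561) (nat_lit 0) [] (nat_lit 0) [] false,
   Spec.mk (nat_lit 8563) (nat_lit 0) [] (nat_lit 0) [] false,
   Spec.mk (nat_lit 8565) (nat_lit 0) [] (nat_lit 0) [] false,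
   Spec.mk (nat_lit 8569) (nat_lit 0) [] (nat_lit 0) [] false,
   Spec.mk (nat_lit 8571) (nat_lit 0) [] (nat_lit 0) [] false,
   Spec.mk (nat_lit 8577) (nat_lit 0) [] (nat_lit 0) [] false,
   Spec.mk (nat_lit 8591) (nat_lit 0) [] (nat_lit 0) [] false,
   Spec.mk (nat_lit 8593) (nat_lit 0) [] (nat_lit 0) [] false,
   Spec.mk (nat_lit 8597) (nat_lit 0) [] (nat_lit 0) [] false,
   Spec.mk (nat_lit 8599) (nat_lit 0) [] (nat_lit 0) [] false,
   Spec.mk (nat_lit 8601) (nat_lit 0) [] (nat_lit 0) [] false,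
   Spec.mk (nat_lit 8605) (nat_lit 0) [] (nat_lit 0) [] false,
   Spec.mk (nat_lit 8607) (nat_lit 0) [] (nat_lit 0) [] false,
   Spec.mk (nat_lit 8615) (nat_lit 0) [] (nat_lit 0) [] false,
   Spec.mk (nat_lit 8617) (nat_lit 0) [] (nat_lit 0) [] false,
   Spec.mk (nat_lit 8619) (nat_lit 0) [] (nat_lit 0) [] false,
   Spec.mk (nat_lit 8623) (nat_lit 0) [] (nat_lit 0) [] false,
   Spec.mk (nat_lit 8625) (nat_lit 0) [] (nat_lit 0) [] false,
   Spec.mk (nat_lit 8631) (nat_lit 0) [] (nat_lit 0) [] false,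
   Spec.mk (nat_lit 8641) (nat_lit 0) [] (nat_lit 0) [] false,
   Spec.mk (nat_lit 8643) (nat_lit 0) [] (nat_lit 0) [] false,
   Spec.mk (nat_lit 8649) (nat_lit 0) [] (nat_lit 0) [] false,
   Spec.mk (nat_lit 8669) (nat_lit 0) [] (nat_lit 0) [] false,
   Spec.mk (nat_lit 8671) (nat_lit 0) [] (nat_lit 0) [] false,
   Spec.mk (nat_lit 8673) (nat_lit 0) [] (nat_lit 0) [] false,
   Spec.mk (nat_lit 8677) (nat_lit 0) [] (nat_lit 0) [] false,
   Spec.mk (nat_lit 8679) (nat_lit 0) [] (nat_lit 0) [] false,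
   Spec.mk (nat_lit 8685) (nat_lit 0) [] (nat_lit 0) [] false,
   Spec.mk (nat_lit 8695) (nat_lit 0) [] (nat_lit 0) [] false,
   Spec.mk (nat_lit 8697) (nat_lit 0) [] (nat_lit 0) [] false,
   Spec.mk (nat_lit 8703) (nat_lit 0) [] (nat_lit 0) [] false,
   Spec.mk (nat_lit 8721) (nat_lit 0) [] (nat_lit 0) [] false,
   Spec.mk (nat_lit 8801) (nat_lit 0) [] (nat_lit 0) [] false,
   Spec.mk (nat_lit 8819) (nat_lit 0) [] (nat_lit 0) [] false,
   Spec.mk (nat_lit 8825) (nat_lit 0) [] (nat_lit 0) [] false,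
   Spec.mk (nat_lit 8827) (nat_lit 0) [] (nat_lit 0) [] false,
   Spec.mk (nat_lit 8855) (nat_lit 0) [] (nat_lit 0) [] false,
   Spec.mk (nat_lit 8873) (nat_lit 0) [] (nat_lit 0) [] false,
   Spec.mk (nat_lit 8879) (nat_lit 0) [] (nat_lit 0) [] false]

noncomputable def cd23 : List Spec :=
  [Spec.mk (nat_lit 8881) (nat_lit 0) [] (nat_lit 0) [] false,
   Spec.mk (nat_lit 8891) (nat_lit 0) [] (nat_lit 0) [] false,
   Spec.mk (nat_lit 8897) (nat_lit 0) [] (nat_lit 0) [] false,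
   Spec.mk (nat_lit 8899) (nat_lit 0) [] (nat_lit 0) [] false,
   Spec.mk (nat_lit 8903) (nat_lit 0) [] (nat_lit 0) [] false,
   Spec.mk (nat_lit 8905) (nat_lit 0) [] (nat_lit 0) [] false,
   Spec.mk (nat_lit 8907) (nat_lit 0) [] (nat_lit 0) [] false,
   Spec.mk (nat_lit 8927) (nat_lit 0) [] (nat_lit 0) [] false,
   Spec.mk (nat_lit 8933) (nat_lit 0) [] (nat_lit 0) [] false,
   Spec.mk (nat_lit 8935) (nat_lit 0) [] (nat_lit 0) [] false,
   Spec.mk (nat_lit 8945) (nat_lit 0) [] (nat_lit 0) [] false,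
   Spec.mk (nat_lit 8951) (nat_lit 0) [] (nat_lit 0) [] false,
   Spec.mk (nat_lit 8953) (nat_lit 0) [] (nat_lit 0) [] false,
   Spec.mk (nat_lit 8957) (nat_lit 0) [] (nat_lit 0) [] false,
   Spec.mk (nat_lit 8959) (nat_lit 0) [] (nat_lit 0) [] false,
   Spec.mk (nat_lit 8961) (nat_lit 0) [] (nat_lit 0) [] false,
   Spec.mk (nat_lit 8969) (nat_lit 0) [] (nat_lit 0) [] false,
   Spec.mk (nat_lit 8971) (nat_lit 0) [] (nat_lit 0) [] false,
   Spec.mk (nat_lit 8975) (nat_lit 0) [] (nat_lit 0) [] false,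
   Spec.mk (nat_lit 8977) (nat_lit 0) [] (nat_lit 0) [] false,
   Spec.mk (nat_lit 8979) (nat_lit 0) [] (nat_lit 0) [] false,
   Spec.mk (nat_lit 8983) (nat_lit 0) [] (nat_lit 0) [] false,
   Spec.mk (nat_lit 8985) (nat_lit 0) [] (nat_lit 0) [] false,
   Spec.mk (nat_lit 9017) (nat_lit 0) [] (nat_lit 0) [] false,
   Spec.mk (nat_lit 9035) (nat_lit 0) [] (nat_lit 0) [] false,
   Spec.mk (nat_lit 9041) (nat_lit 0) [] (nat_lit 0) [] false,
   Spec.mk (nat_lit 9043) (nat_lit 0) [] (nat_lit 0) [] false,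
   Spec.mk (nat_lit 9053) (nat_lit 0) [] (nat_lit 0) [] false,
   Spec.mk (nat_lit 9059) (nat_lit 0) [] (nat_lit 0) [] false,
   Spec.mk (nat_lit 9061) (nat_lit 0) [] (nat_lit 0) [] false,
   Spec.mk (nat_lit 9065) (nat_lit 0) [] (nat_lit 0) [] false,
   Spec.mk (nat_lit 9067) (nat_lit 0) [] (nat_lit 0) [] false,
   Spec.mk (nat_lit 9069) (nat_lit 0) [] (nat_lit 0) [] false,
   Spec.mk (nat_lit 9089) (nat_lit 0) [] (nat_lit 0) [] false,
   Spec.mk (nat_lit 9095) (nat_lit 0) [] (nat_lit 0) [] false,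
   Spec.mk (nat_lit 9097) (nat_lit 0) [] (nat_lit 0) [] false,
   Spec.mk (nat_lit 9107) (nat_lit 0) [] (nat_lit 0) [] false,
   Spec.mk (nat_lit 9113) (nat_lit 0) [] (nat_lit 0) [] false,
   Spec.mk (nat_lit 9115) (nat_lit 0) [] (nat_lit 0) [] false,
   Spec.mk (nat_lit 9119) (nat_lit 0) [] (nat_lit 0) [] false,
   Spec.mk (nat_lit 9121) (nat_lit 0) [] (nat_lit 0) [] false,
   Spec.mk (nat_lit 9123) (nat_lit 0) [] (nat_lit 0) [] false,
   Spec.mk (nat_lit 9131) (nat_lit 0) [] (nat_lit 0) [] false,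
   Spec.mk (nat_lit 9133) (nat_lit 0) [] (nat_lit 0) [] false,
   Spec.mk (nat_lit 9137) (nat_lit 0) [] (nat_lit 0) [] false,
   Spec.mk (nat_lit 9139) (nat_lit 0) [] (nat_lit 0) [] false,
   Spec.mk (nat_lit 9141) (nat_lit 0) [] (nat_lit 0) [] false,
   Spec.mk (nat_lit 9145) (nat_lit 0) [] (nat_lit 0) [] false,
   Spec.mk (nat_lit 9147) (nat_lit 0) [] (nat_lit 0) [] false,
   Spec.mk (nat_lit 9161) (nat_lit 0) [] (nat_lit 0) [] false,
   Spec.mk (nat_lit 9167) (nat_lit 0) [] (nat_lit 0) [] false,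
   Spec.mk (nat_lit 9169) (nat_lit 0) [] (nat_lit 0) [] false,
   Spec.mk (nat_lit 9173) (nat_lit 0) [] (nat_lit 0) [] false,
   Spec.mk (nat_lit 9175) (nat_lit 0) [] (nat_lit 0) [] false,
   Spec.mk (nat_lit 9177) (nat_lit 0) [] (nat_lit 0) [] false,
   Spec.mk (nat_lit 9185) (nat_lit 0) [] (nat_lit 0) [] false,
   Spec.mk (nat_lit 9187) (nat_lit 0) [] (nat_lit 0) [] false,
   Spec.mk (nat_lit 9191) (nat_lit 0) [] (nat_lit 0) [] false,
   Spec.mk (nat_lit 9193) (nat_lit 0) [] (nat_lit 0) [] false,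
   Spec.mk (nat_lit 9195) (nat_lit 0) [] (nat_lit 0) [] false]

noncomputable def cd24 : List Spec :=
  [Spec.mk (nat_lit 9199) (nat_lit 0) [] (nat_lit 0) [] false,
   Spec.mk (nat_lit 9201) (nat_lit 0) [] (nat_lit 0) [] false,
   Spec.mk (nat_lit 9209) (nat_lit 0) [] (nat_lit 0) [] false,
   Spec.mk (nat_lit 9211) (nat_lit 0) [] (nat_lit 0) [] false,
   Spec.mk (nat_lit 9213) (nat_lit 0) [] (nat_lit 0) [] false,
   Spec.mk (nat_lit 9217) (nat_lit 0) [] (nat_lit 0) [] false,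
   Spec.mk (nat_lit 9219) (nat_lit 0) [] (nat_lit 0) [] false,
   Spec.mk (nat_lit 9225) (nat_lit 0) [] (nat_lit 0) [] false,
   Spec.mk (nat_lit 9251) (nat_lit 0) [] (nat_lit 0) [] false,
   Spec.mk (nat_lit 9257) (nat_lit 0) [] (nat_lit 0) [] false,
   Spec.mk (nat_lit 9259) (nat_lit 0) [] (nat_lit 0) [] false,
   Spec.mk (nat_lit 9269) (nat_lit 0) [] (nat_lit 0) [] false,
   Spec.mk (nat_lit 9275) (nat_lit 0) [] (nat_lit 0) [] false,
   Spec.mk (nat_lit 9277) (nat_lit 0) [] (nat_lit 0) [] false,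
   Spec.mk (nat_lit 9281) (nat_lit 0) [] (nat_lit 0) [] false,
   Spec.mk (nat_lit 9283) (nat_lit 0) [] (nat_lit 0) [] false,
   Spec.mk (nat_lit 9285) (nat_lit 0) [] (nat_lit 0) [] false,
   Spec.mk (nat_lit 9293) (nat_lit 0) [] (nat_lit 0) [] false,
   Spec.mk (nat_lit 9295) (nat_lit 0) [] (nat_lit 0) [] false,
   Spec.mk (nat_lit 9299) (nat_lit 0) [] (nat_lit 0) [] false,
   Spec.mk (nat_lit 9301) (nat_lit 0) [] (nat_lit 0) [] false,
   Spec.mk (nat_lit 9303) (nat_lit 0) [] (nat_lit 0) [] false,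
   Spec.mk (nat_lit 9307) (nat_lit 0) [] (nat_lit 0) [] false,
   Spec.mk (nat_lit 9309) (nat_lit 0) [] (nat_lit 0) [] false,
   Spec.mk (nat_lit 9323) (nat_lit 0) [] (nat_lit 0) [] false,
   Spec.mk (nat_lit 9329) (nat_lit 0) [] (nat_lit 0) [] false,
   Spec.mk (nat_lit 9331) (nat_lit 0) [] (nat_lit 0) [] false,
   Spec.mk (nat_lit 9335) (nat_lit 0) [] (nat_lit 0) [] false,
   Spec.mk (nat_lit 9337) (nat_lit 0) [] (nat_lit 0) [] false,
   Spec.mk (nat_lit 9339) (nat_lit 0) [] (nat_lit 0) [] false,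
   Spec.mk (nat_lit 9347) (nat_lit 0) [] (nat_lit 0) [] false,
   Spec.mk (nat_lit 9349) (nat_lit 0) [] (nat_lit 0) [] false,
   Spec.mk (nat_lit 9353) (nat_lit 0) [] (nat_lit 0) [] false,
   Spec.mk (nat_lit 9355) (nat_lit 0) [] (nat_lit 0) [] false,
   Spec.mk (nat_lit 9357) (nat_lit 0) [] (nat_lit 0) [] false,
   Spec.mk (nat_lit 9361) (nat_lit 0) [] (nat_lit 0) [] false,
   Spec.mk (nat_lit 9363) (nat_lit 0) [] (nat_lit 0) [] false,
   Spec.mk (nat_lit 9371) (nat_lit 0) [] (nat_lit 0) [] false,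
   Spec.mk (nat_lit 9373) (nat_lit 0) [] (nat_lit 0) [] false,
   Spec.mk (nat_lit 9375) (nat_lit 0) [] (nat_lit 0) [] false,
   Spec.mk (nat_lit 9379) (nat_lit 0) [] (nat_lit 0) [] false,
   Spec.mk (nat_lit 9381) (nat_lit 0) [] (nat_lit 0) [] false,
   Spec.mk (nat_lit 9387) (nat_lit 0) [] (nat_lit 0) [] false,
   Spec.mk (nat_lit 9401) (nat_lit 0) [] (nat_lit 0) [] false,
   Spec.mk (nat_lit 9403) (nat_lit 0) [] (nat_lit 0) [] false,
   Spec.mk (nat_lit 9407) (nat_lit 0) [] (nat_lit 0) [] false,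
   Spec.mk (nat_lit 9409) (nat_lit 0) [] (nat_lit 0) [] false,
   Spec.mk (nat_lit 9411) (nat_lit 0) [] (nat_lit 0) [] false,
   Spec.mk (nat_lit 9415) (nat_lit 0) [] (nat_lit 0) [] false,
   Spec.mk (nat_lit 9417) (nat_lit 0) [] (nat_lit 0) [] false,
   Spec.mk (nat_lit 9425) (nat_lit 0) [] (nat_lit 0) [] false,
   Spec.mk (nat_lit 9427) (nat_lit 0) [] (nat_lit 0) [] false,
   Spec.mk (nat_lit 9429) (nat_lit 0) [] (nat_lit 0) [] false,
   Spec.mk (nat_lit 9433) (nat_lit 0) [] (nat_lit 0) [] false,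
   Spec.mk (nat_lit 9435) (nat_lit 0) [] (nat_lit 0) [] false,
   Spec.mk (nat_lit 9441) (nat_lit 0) [] (nat_lit 0) [] false,
   Spec.mk (nat_lit 9451) (nat_lit 0) [] (nat_lit 0) [] false,
   Spec.mk (nat_lit 9453) (nat_lit 0) [] (nat_lit 0) [] false,
   Spec.mk (nat_lit 9459) (nat_lit 0) [] (nat_lit 0) [] false,
   Spec.mk (nat_lit 9503) (nat_lit 0) [] (nat_lit 0) [] false]

noncomputable def cd25 : List Spec :=
  [Spec.mk (nat_lit 9521) (nat_lit 0) [] (nat_lit 0) [] false,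
   Spec.mk (nat_lit 9527) (nat_lit 0) [] (nat_lit 0) [] false,
   Spec.mk (nat_lit 9529) (nat_lit 0) [] (nat_lit 0) [] false,
   Spec.mk (nat_lit 9539) (nat_lit 0) [] (nat_lit 0) [] false,
   Spec.mk (nat_lit 9545) (nat_lit 0) [] (nat_lit 0) [] false,
   Spec.mk (nat_lit 9547) (nat_lit 0) [] (nat_lit 0) [] false,
   Spec.mk (nat_lit 9551) (nat_lit 0) [] (nat_lit 0) [] false,
   Spec.mk (nat_lit 9553) (nat_lit 0) [] (nat_lit 0) [] false,
   Spec.mk (nat_lit 9555) (nat_lit 0) [] (nat_lit 0) [] false,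
   Spec.mk (nat_lit 9575) (nat_lit 0) [] (nat_lit 0) [] false,
   Spec.mk (nat_lit 9581) (nat_lit 0) [] (nat_lit 0) [] false,
   Spec.mk (nat_lit 9583) (nat_lit 0) [] (nat_lit 0) [] false,
   Spec.mk (nat_lit 9593) (nat_lit 0) [] (nat_lit 0) [] false,
   Spec.mk (nat_lit 9599) (nat_lit 0) [] (nat_lit 0) [] false,
   Spec.mk (nat_lit 9601) (nat_lit 0) [] (nat_lit 0) [] false,
   Spec.mk (nat_lit 9605) (nat_lit 0) [] (nat_lit 0) [] false,
   Spec.mk (nat_lit 9607) (nat_lit 0) [] (nat_lit 0) [] false,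
   Spec.mk (nat_lit 9609) (nat_lit 0) [] (nat_lit 0) [] false,
   Spec.mk (nat_lit 9617) (nat_lit 0) [] (nat_lit 0) [] false,
   Spec.mk (nat_lit 9619) (nat_lit 0) [] (nat_lit 0) [] false,
   Spec.mk (nat_lit 9623) (nat_lit 0) [] (nat_lit 0) [] false,
   Spec.mk (nat_lit 9625) (nat_lit 0) [] (nat_lit 0) [] false,
   Spec.mk (nat_lit 9627) (nat_lit 0) [] (nat_lit 0) [] false,
   Spec.mk (nat_lit 9631) (nat_lit 0) [] (nat_lit 0) [] false,
   Spec.mk (nat_lit 9633) (nat_lit 0) [] (nat_lit 0) [] false,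
   Spec.mk (nat_lit 9647) (nat_lit 0) [] (nat_lit 0) [] false,
   Spec.mk (nat_lit 9653) (nat_lit 0) [] (nat_lit 0) [] false,
   Spec.mk (nat_lit 9655) (nat_lit 0) [] (nat_lit 0) [] false,
   Spec.mk (nat_lit 9659) (nat_lit 0) [] (nat_lit 0) [] false,
   Spec.mk (nat_lit 9661) (nat_lit 0) [] (nat_lit 0) [] false,
   Spec.mk (nat_lit 9663) (nat_lit 0) [] (nat_lit 0) [] false,
   Spec.mk (nat_lit 9671) (nat_lit 0) [] (nat_lit 0) [] false,
   Spec.mk (nat_lit 9673) (nat_lit 0) [] (nat_lit 0) [] false,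
   Spec.mk (nat_lit 9677) (nat_lit 0) [] (nat_lit 0) [] false,
   Spec.mk (nat_lit 9679) (nat_lit 0) [] (nat_lit 0) [] false,
   Spec.mk (nat_lit 9681) (nat_lit 0) [] (nat_lit 0) [] false,
   Spec.mk (nat_lit 9685) (nat_lit 0) [] (nat_lit 0) [] false,
   Spec.mk (nat_lit 9687) (nat_lit 0) [] (nat_lit 0) [] false,
   Spec.mk (nat_lit 9695) (nat_lit 0) [] (nat_lit 0) [] false,
   Spec.mk (nat_lit 9697) (nat_lit 0) [] (nat_lit 0) [] false,
   Spec.mk (nat_lit 9699) (nat_lit 0) [] (nat_lit 0) [] false,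
   Spec.mk (nat_lit 9703) (nat_lit 0) [] (nat_lit 0) [] false,
   Spec.mk (nat_lit 9705) (nat_lit 0) [] (nat_lit 0) [] false,
   Spec.mk (nat_lit 9711) (nat_lit 0) [] (nat_lit 0) [] false,
   Spec.mk (nat_lit 9737) (nat_lit 0) [] (nat_lit 0) [] false,
   Spec.mk (nat_lit 9743) (nat_lit 0) [] (nat_lit 0) [] false,
   Spec.mk (nat_lit 9745) (nat_lit 0) [] (nat_lit 0) [] false,
   Spec.mk (nat_lit 9755) (nat_lit 0) [] (nat_lit 0) [] false,
   Spec.mk (nat_lit 9761) (nat_lit 0) [] (nat_lit 0) [] false,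
   Spec.mk (nat_lit 9763) (nat_lit 0) [] (nat_lit 0) [] false,
   Spec.mk (nat_lit 9767) (nat_lit 0) [] (nat_lit 0) [] false,
   Spec.mk (nat_lit 9769) (nat_lit 0) [] (nat_lit 0) [] false,
   Spec.mk (nat_lit 9771) (nat_lit 0) [] (nat_lit 0) [] false,
   Spec.mk (nat_lit 9779) (nat_lit 0) [] (nat_lit 0) [] false,
   Spec.mk (nat_lit 9781) (nat_lit 0) [] (nat_lit 0) [] false,
   Spec.mk (nat_lit 9785) (nat_lit 0) [] (nat_lit 0) [] false,
   Spec.mk (nat_lit 9787) (nat_lit 0) [] (nat_lit 0) [] false,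
   Spec.mk (nat_lit 9789) (nat_lit 0) [] (nat_lit 0) [] false,
   Spec.mk (nat_lit 9793) (nat_lit 0) [] (nat_lit 0) [] false,
   Spec.mk (nat_lit 9795) (nat_lit 0) [] (nat_lit 0) [] false]

noncomputable def cd26 : List Spec :=
  [Spec.mk (nat_lit 9809) (nat_lit 0) [] (nat_lit 0) [] false,
   Spec.mk (nat_lit 9815) (nat_lit 0) [] (nat_lit 0) [] false,
   Spec.mk (nat_lit 9817) (nat_lit 0) [] (nat_lit 0) [] false,
   Spec.mk (nat_lit 9821) (nat_lit 0) [] (nat_lit 0) [] false,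
   Spec.mk (nat_lit 9823) (nat_lit 0) [] (nat_lit 0) [] false,
   Spec.mk (nat_lit 9825) (nat_lit 0) [] (nat_lit 0) [] false,
   Spec.mk (nat_lit 9833) (nat_lit 0) [] (nat_lit 0) [] false,
   Spec.mk (nat_lit 9835) (nat_lit 0) [] (nat_lit 0) [] false,
   Spec.mk (nat_lit 9839) (nat_lit 0) [] (nat_lit 0) [] false,
   Spec.mk (nat_lit 9841) (nat_lit 0) [] (nat_lit 0) [] false,
   Spec.mk (nat_lit 9843) (nat_lit 0) [] (nat_lit 0) [] false,
   Spec.mk (nat_lit 9847) (nat_lit 0) [] (nat_lit 0) [] false,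
   Spec.mk (nat_lit 9849) (nat_lit 0) [] (nat_lit 0) [] false,
   Spec.mk (nat_lit 9857) (nat_lit 0) [] (nat_lit 0) [] false,
   Spec.mk (nat_lit 9859) (nat_lit 0) [] (nat_lit 0) [] false,
   Spec.mk (nat_lit 9861) (nat_lit 0) [] (nat_lit 0) [] false,
   Spec.mk (nat_lit 9865) (nat_lit 0) [] (nat_lit 0) [] false,
   Spec.mk (nat_lit 9867) (nat_lit 0) [] (nat_lit 0) [] false,
   Spec.mk (nat_lit 9873) (nat_lit 0) [] (nat_lit 0) [] false,
   Spec.mk (nat_lit 9887) (nat_lit 0) [] (nat_lit 0) [] false,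
   Spec.mk (nat_lit 9889) (nat_lit 0) [] (nat_lit 0) [] false,
   Spec.mk (nat_lit 9893) (nat_lit 0) [] (nat_lit 0) [] false,
   Spec.mk (nat_lit 9895) (nat_lit 0) [] (nat_lit 0) [] false,
   Spec.mk (nat_lit 9897) (nat_lit 0) [] (nat_lit 0) [] false,
   Spec.mk (nat_lit 9901) (nat_lit 0) [] (nat_lit 0) [] false,
   Spec.mk (nat_lit 9903) (nat_lit 0) [] (nat_lit 0) [] false,
   Spec.mk (nat_lit 9911) (nat_lit 0) [] (nat_lit 0) [] false,
   Spec.mk (nat_lit 9913) (nat_lit 0) [] (nat_lit 0) [] false,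
   Spec.mk (nat_lit 9915) (nat_lit 0) [] (nat_lit 0) [] false,
   Spec.mk (nat_lit 9919) (nat_lit 0) [] (nat_lit 0) [] false,
   Spec.mk (nat_lit 9921) (nat_lit 0) [] (nat_lit 0) [] false,
   Spec.mk (nat_lit 9927) (nat_lit 0) [] (nat_lit 0) [] false,
   Spec.mk (nat_lit 9937) (nat_lit 0) [] (nat_lit 0) [] false,
   Spec.mk (nat_lit 9939) (nat_lit 0) [] (nat_lit 0) [] false,
   Spec.mk (nat_lit 9945) (nat_lit 0) [] (nat_lit 0) [] false,
   Spec.mk (nat_lit 9971) (nat_lit 0) [] (nat_lit 0) [] false,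
   Spec.mk (nat_lit 9977) (nat_lit 0) [] (nat_lit 0) [] false,
   Spec.mk (nat_lit 9979) (nat_lit 0) [] (nat_lit 0) [] false,
   Spec.mk (nat_lit 9983) (nat_lit 0) [] (nat_lit 0) [] false,
   Spec.mk (nat_lit 9985) (nat_lit 0) [] (nat_lit 0) [] false,
   Spec.mk (nat_lit 9987) (nat_lit 0) [] (nat_lit 0) [] false,
   Spec.mk (nat_lit 9995) (nat_lit 0) [] (nat_lit 0) [] false,
   Spec.mk (nat_lit 9997) (nat_lit 0) [] (nat_lit 0) [] false,
   Spec.mk (nat_lit 10001) (nat_lit 0) [] (nat_lit 0) [] false,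
   Spec.mk (nat_lit 10003) (nat_lit 0) [] (nat_lit 0) [] false,
   Spec.mk (nat_lit 10005) (nat_lit 0) [] (nat_lit 0) [] false,
   Spec.mk (nat_lit 10009) (nat_lit 0) [] (nat_lit 0) [] false,
   Spec.mk (nat_lit 10011) (nat_lit 0) [] (nat_lit 0) [] false,
   Spec.mk (nat_lit 10019) (nat_lit 0) [] (nat_lit 0) [] false,
   Spec.mk (nat_lit 10021) (nat_lit 0) [] (nat_lit 0) [] false,
   Spec.mk (nat_lit 10023) (nat_lit 0) [] (nat_lit 0) [] false,
   Spec.mk (nat_lit 10027) (nat_lit 0) [] (nat_lit 0) [] false,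
   Spec.mk (nat_lit 10029) (nat_lit 0) [] (nat_lit 0) [] false,
   Spec.mk (nat_lit 10035) (nat_lit 0) [] (nat_lit 0) [] false,
   Spec.mk (nat_lit 10049) (nat_lit 0) [] (nat_lit 0) [] false,
   Spec.mk (nat_lit 10051) (nat_lit 0) [] (nat_lit 0) [] false,
   Spec.mk (nat_lit 10055) (nat_lit 0) [] (nat_lit 0) [] false,
   Spec.mk (nat_lit 10057) (nat_lit 0) [] (nat_lit 0) [] false,
   Spec.mk (nat_lit 10059) (nat_lit 0) [] (nat_lit 0) [] false,
   Spec.mk (nat_lit 10063) (nat_lit 0) [] (nat_lit 0) [] false]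

noncomputable def cd27 : List Spec :=
  [Spec.mk (nat_lit 10065) (nat_lit 0) [] (nat_lit 0) [] false,
   Spec.mk (nat_lit 10073) (nat_lit 0) [] (nat_lit 0) [] false,
   Spec.mk (nat_lit 10075) (nat_lit 0) [] (nat_lit 0) [] false,
   Spec.mk (nat_lit 10077) (nat_lit 0) [] (nat_lit 0) [] false,
   Spec.mk (nat_lit 10081) (nat_lit 0) [] (nat_lit 0) [] false,
   Spec.mk (nat_lit 10083) (nat_lit 0) [] (nat_lit 0) [] false,
   Spec.mk (nat_lit 10089) (nat_lit 0) [] (nat_lit 0) [] false,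
   Spec.mk (nat_lit 10099) (nat_lit 0) [] (nat_lit 0) [] false,
   Spec.mk (nat_lit 10101) (nat_lit 0) [] (nat_lit 0) [] false,
   Spec.mk (nat_lit 10107) (nat_lit 0) [] (nat_lit 0) [] false,
   Spec.mk (nat_lit 10127) (nat_lit 0) [] (nat_lit 0) [] false,
   Spec.mk (nat_lit 10129) (nat_lit 0) [] (nat_lit 0) [] false,
   Spec.mk (nat_lit 10131) (nat_lit 0) [] (nat_lit 0) [] false,
   Spec.mk (nat_lit 10135) (nat_lit 0) [] (nat_lit 0) [] false,
   Spec.mk (nat_lit 10137) (nat_lit 0) [] (nat_lit 0) [] false,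
   Spec.mk (nat_lit 10143) (nat_lit 0) [] (nat_lit 0) [] false,
   Spec.mk (nat_lit 10153) (nat_lit 0) [] (nat_lit 0) [] false,
   Spec.mk (nat_lit 10155) (nat_lit 0) [] (nat_lit 0) [] false,
   Spec.mk (nat_lit 10161) (nat_lit 0) [] (nat_lit 0) [] false,
   Spec.mk (nat_lit 10179) (nat_lit 0) [] (nat_lit 0) [] false,
   Spec.mk (nat_lit 10223) (nat_lit 0) [] (nat_lit 0) [] false,
   Spec.mk (nat_lit 10229) (nat_lit 0) [] (nat_lit 0) [] false,
   Spec.mk (nat_lit 10231) (nat_lit 0) [] (nat_lit 0) [] false,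
   Spec.mk (nat_lit 10241) (nat_lit 0) [] (nat_lit 0) [] false,
   Spec.mk (nat_lit 10247) (nat_lit 0) [] (nat_lit 0) [] false,
   Spec.mk (nat_lit 10249) (nat_lit 0) [] (nat_lit 0) [] false,
   Spec.mk (nat_lit 10253) (nat_lit 0) [] (nat_lit 0) [] false,
   Spec.mk (nat_lit 10255) (nat_lit 0) [] (nat_lit 0) [] false,
   Spec.mk (nat_lit 10257) (nat_lit 0) [] (nat_lit 0) [] false,
   Spec.mk (nat_lit 10265) (nat_lit 0) [] (nat_lit 0) [] false,
   Spec.mk (nat_lit 10267) (nat_lit 0) [] (nat_lit 0) [] false,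
   Spec.mk (nat_lit 10271) (nat_lit 0) [] (nat_lit 0) [] false,
   Spec.mk (nat_lit 10273) (nat_lit 0) [] (nat_lit 0) [] false,
   Spec.mk (nat_lit 10275) (nat_lit 0) [] (nat_lit 0) [] false,
   Spec.mk (nat_lit 10279) (nat_lit 0) [] (nat_lit 0) [] false,
   Spec.mk (nat_lit 10281) (nat_lit 0) [] (nat_lit 0) [] false,
   Spec.mk (nat_lit 10295) (nat_lit 0) [] (nat_lit 0) [] false,
   Spec.mk (nat_lit 10301) (nat_lit 0) [] (nat_lit 0) [] false,
   Spec.mk (nat_lit 10303) (nat_lit 0) [] (nat_lit 0) [] false,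
   Spec.mk (nat_lit 10307) (nat_lit 0) [] (nat_lit 0) [] false,
   Spec.mk (nat_lit 10309) (nat_lit 0) [] (nat_lit 0) [] false,
   Spec.mk (nat_lit 10311) (nat_lit 0) [] (nat_lit 0) [] false,
   Spec.mk (nat_lit 10319) (nat_lit 0) [] (nat_lit 0) [] false,
   Spec.mk (nat_lit 10321) (nat_lit 0) [] (nat_lit 0) [] false,
   Spec.mk (nat_lit 10325) (nat_lit 0) [] (nat_lit 0) [] false,
   Spec.mk (nat_lit 10327) (nat_lit 0) [] (nat_lit 0) [] false,
   Spec.mk (nat_lit 10329) (nat_lit 0) [] (nat_lit 0) [] false,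
   Spec.mk (nat_lit 10333) (nat_lit 0) [] (nat_lit 0) [] false,
   Spec.mk (nat_lit 10335) (nat_lit 0) [] (nat_lit 0) [] false,
   Spec.mk (nat_lit 10343) (nat_lit 0) [] (nat_lit 0) [] false,
   Spec.mk (nat_lit 10345) (nat_lit 0) [] (nat_lit 0) [] false,
   Spec.mk (nat_lit 10347) (nat_lit 0) [] (nat_lit 0) [] false,
   Spec.mk (nat_lit 10351) (nat_lit 0) [] (nat_lit 0) [] false,
   Spec.mk (nat_lit 10353) (nat_lit 0) [] (nat_lit 0) [] false,
   Spec.mk (nat_lit 10359) (nat_lit 0) [] (nat_lit 0) [] false,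
   Spec.mk (nat_lit 10373) (nat_lit 0) [] (nat_lit 0) [] false,
   Spec.mk (nat_lit 10375) (nat_lit 0) [] (nat_lit 0) [] false,
   Spec.mk (nat_lit 10379) (nat_lit 0) [] (nat_lit 0) [] false,
   Spec.mk (nat_lit 10381) (nat_lit 0) [] (nat_lit 0) [] false,
   Spec.mk (nat_lit 10383) (nat_lit 0) [] (nat_lit 0) [] false]

noncomputable def cd28 : List Spec :=
  [Spec.mk (nat_lit 10387) (nat_lit 0) [] (nat_lit 0) [] false,
   Spec.mk (nat_lit 10389) (nat_lit 0) [] (nat_lit 0) [] false,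
   Spec.mk (nat_lit 10397) (nat_lit 0) [] (nat_lit 0) [] false,
   Spec.mk (nat_lit 10399) (nat_lit 0) [] (nat_lit 0) [] false,
   Spec.mk (nat_lit 10401) (nat_lit 0) [] (nat_lit 0) [] false,
   Spec.mk (nat_lit 10405) (nat_lit 0) [] (nat_lit 0) [] false,
   Spec.mk (nat_lit 10407) (nat_lit 0) [] (nat_lit 0) [] false,
   Spec.mk (nat_lit 10413) (nat_lit 0) [] (nat_lit 0) [] false,
   Spec.mk (nat_lit 10423) (nat_lit 0) [] (nat_lit 0) [] false,
   Spec.mk (nat_lit 10425) (nat_lit 0) [] (nat_lit 0) [] false,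
   Spec.mk (nat_lit 10431) (nat_lit 0) [] (nat_lit 0) [] false,
   Spec.mk (nat_lit 10457) (nat_lit 0) [] (nat_lit 0) [] false,
   Spec.mk (nat_lit 10463) (nat_lit 0) [] (nat_lit 0) [] false,
   Spec.mk (nat_lit 10465) (nat_lit 0) [] (nat_lit 0) [] false,
   Spec.mk (nat_lit 10469) (nat_lit 0) [] (nat_lit 0) [] false,
   Spec.mk (nat_lit 10471) (nat_lit 0) [] (nat_lit 0) [] false,
   Spec.mk (nat_lit 10473) (nat_lit 0) [] (nat_lit 0) [] false,
   Spec.mk (nat_lit 10481) (nat_lit 0) [] (nat_lit 0) [] false,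
   Spec.mk (nat_lit 10483) (nat_lit 0) [] (nat_lit 0) [] false,
   Spec.mk (nat_lit 10487) (nat_lit 0) [] (nat_lit 0) [] false,
   Spec.mk (nat_lit 10489) (nat_lit 0) [] (nat_lit 0) [] false,
   Spec.mk (nat_lit 10491) (nat_lit 0) [] (nat_lit 0) [] false,
   Spec.mk (nat_lit 10495) (nat_lit 0) [] (nat_lit 0) [] false,
   Spec.mk (nat_lit 10497) (nat_lit 0) [] (nat_lit 0) [] false,
   Spec.mk (nat_lit 10505) (nat_lit 0) [] (nat_lit 0) [] false,
   Spec.mk (nat_lit 10507) (nat_lit 0) [] (nat_lit 0) [] false,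
   Spec.mk (nat_lit 10509) (nat_lit 0) [] (nat_lit 0) [] false,
   Spec.mk (nat_lit 10513) (nat_lit 0) [] (nat_lit 0) [] false,
   Spec.mk (nat_lit 10515) (nat_lit 0) [] (nat_lit 0) [] false,
   Spec.mk (nat_lit 10521) (nat_lit 0) [] (nat_lit 0) [] false,
   Spec.mk (nat_lit 10535) (nat_lit 0) [] (nat_lit 0) [] false,
   Spec.mk (nat_lit 10537) (nat_lit 0) [] (nat_lit 0) [] false,
   Spec.mk (nat_lit 10541) (nat_lit 0) [] (nat_lit 0) [] false,
   Spec.mk (nat_lit 10543) (nat_lit 0) [] (nat_lit 0) [] false,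
   Spec.mk (nat_lit 10545) (nat_lit 0) [] (nat_lit 0) [] false,
   Spec.mk (nat_lit 10549) (nat_lit 0) [] (nat_lit 0) [] false,
   Spec.mk (nat_lit 10551) (nat_lit 0) [] (nat_lit 0) [] false,
   Spec.mk (nat_lit 10559) (nat_lit 0) [] (nat_lit 0) [] false,
   Spec.mk (nat_lit 10561) (nat_lit 0) [] (nat_lit 0) [] false,
   Spec.mk (nat_lit 10563) (nat_lit 0) [] (nat_lit 0) [] false,
   Spec.mk (nat_lit 10567) (nat_lit 0) [] (nat_lit 0) [] false,
   Spec.mk (nat_lit 10569) (nat_lit 0) [] (nat_lit 0) [] false,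
   Spec.mk (nat_lit 10575) (nat_lit 0) [] (nat_lit 0) [] false,
   Spec.mk (nat_lit 10585) (nat_lit 0) [] (nat_lit 0) [] false,
   Spec.mk (nat_lit 10587) (nat_lit 0) [] (nat_lit 0) [] false,
   Spec.mk (nat_lit 10593) (nat_lit 0) [] (nat_lit 0) [] false,
   Spec.mk (nat_lit 10613) (nat_lit 0) [] (nat_lit 0) [] false,
   Spec.mk (nat_lit 10615) (nat_lit 0) [] (nat_lit 0) [] false,
   Spec.mk (nat_lit 10617) (nat_lit 0) [] (nat_lit 0) [] false,
   Spec.mk (nat_lit 10621) (nat_lit 0) [] (nat_lit 0) [] false,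
   Spec.mk (nat_lit 10623) (nat_lit 0) [] (nat_lit 0) [] false,
   Spec.mk (nat_lit 10629) (nat_lit 0) [] (nat_lit 0) [] false,
   Spec.mk (nat_lit 10639) (nat_lit 0) [] (nat_lit 0) [] false,
   Spec.mk (nat_lit 10641) (nat_lit 0) [] (nat_lit 0) [] false,
   Spec.mk (nat_lit 10647) (nat_lit 0) [] (nat_lit 0) [] false,
   Spec.mk (nat_lit 10665) (nat_lit 0) [] (nat_lit 0) [] false,
   Spec.mk (nat_lit 10697) (nat_lit 0) [] (nat_lit 0) [] false,
   Spec.mk (nat_lit 10699) (nat_lit 0) [] (nat_lit 0) [] false,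
   Spec.mk (nat_lit 10703) (nat_lit 0) [] (nat_lit 0) [] false,
   Spec.mk (nat_lit 10705) (nat_lit 0) [] (nat_lit 0) [] false]

noncomputable def cd29 : List Spec :=
  [Spec.mk (nat_lit 10707) (nat_lit 0) [] (nat_lit 0) [] false,
   Spec.mk (nat_lit 10711) (nat_lit 0) [] (nat_lit 0) [] false,
   Spec.mk (nat_lit 10713) (nat_lit 0) [] (nat_lit 0) [] false,
   Spec.mk (nat_lit 10721) (nat_lit 0) [] (nat_lit 0) [] false,
   Spec.mk (nat_lit 10723) (nat_lit 0) [] (nat_lit 0) [] false,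
   Spec.mk (nat_lit 10725) (nat_lit 0) [] (nat_lit 0) [] false,
   Spec.mk (nat_lit 10729) (nat_lit 0) [] (nat_lit 0) [] false,
   Spec.mk (nat_lit 10731) (nat_lit 0) [] (nat_lit 0) [] false,
   Spec.mk (nat_lit 10737) (nat_lit 0) [] (nat_lit 0) [] false,
   Spec.mk (nat_lit 10747) (nat_lit 0) [] (nat_lit 0) [] false,
   Spec.mk (nat_lit 10749) (nat_lit 0) [] (nat_lit 0) [] false,
   Spec.mk (nat_lit 10755) (nat_lit 0) [] (nat_lit 0) [] false,
   Spec.mk (nat_lit 10775) (nat_lit 0) [] (nat_lit 0) [] false,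
   Spec.mk (nat_lit 10777) (nat_lit 0) [] (nat_lit 0) [] false,
   Spec.mk (nat_lit 10779) (nat_lit 0) [] (nat_lit 0) [] false,
   Spec.mk (nat_lit 10783) (nat_lit 0) [] (nat_lit 0) [] false,
   Spec.mk (nat_lit 10785) (nat_lit 0) [] (nat_lit 0) [] false,
   Spec.mk (nat_lit 10791) (nat_lit 0) [] (nat_lit 0) [] false,
   Spec.mk (nat_lit 10801) (nat_lit 0) [] (nat_lit 0) [] false,
   Spec.mk (nat_lit 10803) (nat_lit 0) [] (nat_lit 0) [] false,
   Spec.mk (nat_lit 10809) (nat_lit 0) [] (nat_lit 0) [] false,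
   Spec.mk (nat_lit 10827) (nat_lit 0) [] (nat_lit 0) [] false,
   Spec.mk (nat_lit 10855) (nat_lit 0) [] (nat_lit 0) [] false,
   Spec.mk (nat_lit 10857) (nat_lit 0) [] (nat_lit 0) [] false,
   Spec.mk (nat_lit 10863) (nat_lit 0) [] (nat_lit 0) [] false,
   Spec.mk (nat_lit 10881) (nat_lit 0) [] (nat_lit 0) [] false,
   Spec.mk (nat_lit 10961) (nat_lit 0) [] (nat_lit 0) [] false,
   Spec.mk (nat_lit 10979) (nat_lit 0) [] (nat_lit 0) [] false,
   Spec.mk (nat_lit 10985) (nat_lit 0) [] (nat_lit 0) [] false,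
   Spec.mk (nat_lit 10987) (nat_lit 0) [] (nat_lit 0) [] false,
   Spec.mk (nat_lit 10997) (nat_lit 0) [] (nat_lit 0) [] false,
   Spec.mk (nat_lit 11003) (nat_lit 0) [] (nat_lit 0) [] false,
   Spec.mk (nat_lit 11005) (nat_lit 0) [] (nat_lit 0) [] false,
   Spec.mk (nat_lit 11009) (nat_lit 0) [] (nat_lit 0) [] false,
   Spec.mk (nat_lit 11011) (nat_lit 0) [] (nat_lit 0) [] false,
   Spec.mk (nat_lit 11013) (nat_lit 0) [] (nat_lit 0) [] false,
   Spec.mk (nat_lit 11033) (nat_lit 0) [] (nat_lit 0) [] false,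
   Spec.mk (nat_lit 11039) (nat_lit 0) [] (nat_lit 0) [] false,
   Spec.mk (nat_lit 11041) (nat_lit 0) [] (nat_lit 0) [] false,
   Spec.mk (nat_lit 11051) (nat_lit 0) [] (nat_lit 0) [] false,
   Spec.mk (nat_lit 11057) (nat_lit 0) [] (nat_lit 0) [] false,
   Spec.mk (nat_lit 11059) (nat_lit 0) [] (nat_lit 0) [] false,
   Spec.mk (nat_lit 11063) (nat_lit 0) [] (nat_lit 0) [] false,
   Spec.mk (nat_lit 11065) (nat_lit 0) [] (nat_lit 0) [] false,
   Spec.mk (nat_lit 11067) (nat_lit 0) [] (nat_lit 0) [] false,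
   Spec.mk (nat_lit 11075) (nat_lit 0) [] (nat_lit 0) [] false,
   Spec.mk (nat_lit 11077) (nat_lit 0) [] (nat_lit 0) [] false,
   Spec.mk (nat_lit 11081) (nat_lit 0) [] (nat_lit 0) [] false,
   Spec.mk (nat_lit 11083) (nat_lit 0) [] (nat_lit 0) [] false,
   Spec.mk (nat_lit 11085) (nat_lit 0) [] (nat_lit 0) [] false,
   Spec.mk (nat_lit 11089) (nat_lit 0) [] (nat_lit 0) [] false,
   Spec.mk (nat_lit 11091) (nat_lit 0) [] (nat_lit 0) [] false,
   Spec.mk (nat_lit 11105) (nat_lit 0) [] (nat_lit 0) [] false,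
   Spec.mk (nat_lit 11111) (nat_lit 0) [] (nat_lit 0) [] false,
   Spec.mk (nat_lit 11113) (nat_lit 0) [] (nat_lit 0) [] false,
   Spec.mk (nat_lit 11117) (nat_lit 0) [] (nat_lit 0) [] false,
   Spec.mk (nat_lit 11119) (nat_lit 0) [] (nat_lit 0) [] false,
   Spec.mk (nat_lit 11121) (nat_lit 0) [] (nat_lit 0) [] false,
   Spec.mk (nat_lit 11129) (nat_lit 0) [] (nat_lit 0) [] false,
   Spec.mk (nat_lit 11131) (nat_lit 0) [] (nat_lit 0) [] false]

noncomputable def cd30 : List Spec :=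
  [Spec.mk (nat_lit 11135) (nat_lit 0) [] (nat_lit 0) [] false,
   Spec.mk (nat_lit 11137) (nat_lit 0) [] (nat_lit 0) [] false,
   Spec.mk (nat_lit 11139) (nat_lit 0) [] (nat_lit 0) [] false,
   Spec.mk (nat_lit 11143) (nat_lit 0) [] (nat_lit 0) [] false,
   Spec.mk (nat_lit 11145) (nat_lit 0) [] (nat_lit 0) [] false,
   Spec.mk (nat_lit 11153) (nat_lit 0) [] (nat_lit 0) [] false,
   Spec.mk (nat_lit 11155) (nat_lit 0) [] (nat_lit 0) [] false,
   Spec.mk (nat_lit 11157) (nat_lit 0) [] (nat_lit 0) [] false,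
   Spec.mk (nat_lit 11161) (nat_lit 0) [] (nat_lit 0) [] false,
   Spec.mk (nat_lit 11163) (nat_lit 0) [] (nat_lit 0) [] false,
   Spec.mk (nat_lit 11169) (nat_lit 0) [] (nat_lit 0) [] false,
   Spec.mk (nat_lit 11195) (nat_lit 0) [] (nat_lit 0) [] false,
   Spec.mk (nat_lit 11201) (nat_lit 0) [] (nat_lit 0) [] false,
   Spec.mk (nat_lit 11203) (nat_lit 0) [] (nat_lit 0) [] false,
   Spec.mk (nat_lit 11213) (nat_lit 0) [] (nat_lit 0) [] false,
   Spec.mk (nat_lit 11219) (nat_lit 0) [] (nat_lit 0) [] false,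
   Spec.mk (nat_lit 11221) (nat_lit 0) [] (nat_lit 0) [] false,
   Spec.mk (nat_lit 11225) (nat_lit 0) [] (nat_lit 0) [] false,
   Spec.mk (nat_lit 11227) (nat_lit 0) [] (nat_lit 0) [] false,
   Spec.mk (nat_lit 11229) (nat_lit 0) [] (nat_lit 0) [] false,
   Spec.mk (nat_lit 11237) (nat_lit 0) [] (nat_lit 0) [] false,
   Spec.mk (nat_lit 11239) (nat_lit 0) [] (nat_lit 0) [] false,
   Spec.mk (nat_lit 11243) (nat_lit 0) [] (nat_lit 0) [] false,
   Spec.mk (nat_lit 11245) (nat_lit 0) [] (nat_lit 0) [] false,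
   Spec.mk (nat_lit 11247) (nat_lit 0) [] (nat_lit 0) [] false,
   Spec.mk (nat_lit 11251) (nat_lit 0) [] (nat_lit 0) [] false,
   Spec.mk (nat_lit 11253) (nat_lit 0) [] (nat_lit 0) [] false,
   Spec.mk (nat_lit 11267) (nat_lit 0) [] (nat_lit 0) [] false,
   Spec.mk (nat_lit 11273) (nat_lit 0) [] (nat_lit 0) [] false,
   Spec.mk (nat_lit 11275) (nat_lit 0) [] (nat_lit 0) [] false,
   Spec.mk (nat_lit 11279) (nat_lit 0) [] (nat_lit 0) [] false,
   Spec.mk (nat_lit 11281) (nat_lit 0) [] (nat_lit 0) [] false,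
   Spec.mk (nat_lit 11283) (nat_lit 0) [] (nat_lit 0) [] false,
   Spec.mk (nat_lit 11291) (nat_lit 0) [] (nat_lit 0) [] false,
   Spec.mk (nat_lit 11293) (nat_lit 0) [] (nat_lit 0) [] false,
   Spec.mk (nat_lit 11297) (nat_lit 0) [] (nat_lit 0) [] false,
   Spec.mk (nat_lit 11299) (nat_lit 0) [] (nat_lit 0) [] false,
   Spec.mk (nat_lit 11301) (nat_lit 0) [] (nat_lit 0) [] false,
   Spec.mk (nat_lit 11305) (nat_lit 0) [] (nat_lit 0) [] false,
   Spec.mk (nat_lit 11307) (nat_lit 0) [] (nat_lit 0) [] false,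
   Spec.mk (nat_lit 11315) (nat_lit 0) [] (nat_lit 0) [] false,
   Spec.mk (nat_lit 11317) (nat_lit 0) [] (nat_lit 0) [] false,
   Spec.mk (nat_lit 11319) (nat_lit 0) [] (nat_lit 0) [] false,
   Spec.mk (nat_lit 11323) (nat_lit 0) [] (nat_lit 0) [] false,
   Spec.mk (nat_lit 11325) (nat_lit 0) [] (nat_lit 0) [] false,
   Spec.mk (nat_lit 11331) (nat_lit 0) [] (nat_lit 0) [] false,
   Spec.mk (nat_lit 11345) (nat_lit 0) [] (nat_lit 0) [] false,
   Spec.mk (nat_lit 11347) (nat_lit 0) [] (nat_lit 0) [] false,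
   Spec.mk (nat_lit 11351) (nat_lit 0) [] (nat_lit 0) [] false,
   Spec.mk (nat_lit 11353) (nat_lit 0) [] (nat_lit 0) [] false,
   Spec.mk (nat_lit 11355) (nat_lit 0) [] (nat_lit 0) [] false,
   Spec.mk (nat_lit 11359) (nat_lit 0) [] (nat_lit 0) [] false,
   Spec.mk (nat_lit 11361) (nat_lit 0) [] (nat_lit 0) [] false,
   Spec.mk (nat_lit 11369) (nat_lit 0) [] (nat_lit 0) [] false,
   Spec.mk (nat_lit 11371) (nat_lit 0) [] (nat_lit 0) [] false,
   Spec.mk (nat_lit 11373) (nat_lit 0) [] (nat_lit 0) [] false,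
   Spec.mk (nat_lit 11377) (nat_lit 0) [] (nat_lit 0) [] false,
   Spec.mk (nat_lit 11379) (nat_lit 0) [] (nat_lit 0) [] false,
   Spec.mk (nat_lit 11385) (nat_lit 0) [] (nat_lit 0) [] false,
   Spec.mk (nat_lit 11395) (nat_lit 0) [] (nat_lit 0) [] false]

noncomputable def cd31 : List Spec :=
  [Spec.mk (nat_lit 11397) (nat_lit 0) [] (nat_lit 0) [] false,
   Spec.mk (nat_lit 11403) (nat_lit 0) [] (nat_lit 0) [] false,
   Spec.mk (nat_lit 11429) (nat_lit 0) [] (nat_lit 0) [] false,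
   Spec.mk (nat_lit 11435) (nat_lit 0) [] (nat_lit 0) [] false,
   Spec.mk (nat_lit 11437) (nat_lit 0) [] (nat_lit 0) [] false,
   Spec.mk (nat_lit 11441) (nat_lit 0) [] (nat_lit 0) [] false,
   Spec.mk (nat_lit 11443) (nat_lit 0) [] (nat_lit 0) [] false,
   Spec.mk (nat_lit 11445) (nat_lit 0) [] (nat_lit 0) [] false,
   Spec.mk (nat_lit 11453) (nat_lit 0) [] (nat_lit 0) [] false,
   Spec.mk (nat_lit 11455) (nat_lit 0) [] (nat_lit 0) [] false,
   Spec.mk (nat_lit 11459) (nat_lit 0) [] (nat_lit 0) [] false,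
   Spec.mk (nat_lit 11461) (nat_lit 0) [] (nat_lit 0) [] false,
   Spec.mk (nat_lit 11463) (nat_lit 0) [] (nat_lit 0) [] false,
   Spec.mk (nat_lit 11467) (nat_lit 0) [] (nat_lit 0) [] false,
   Spec.mk (nat_lit 11469) (nat_lit 0) [] (nat_lit 0) [] false,
   Spec.mk (nat_lit 11477) (nat_lit 0) [] (nat_lit 0) [] false,
   Spec.mk (nat_lit 11479) (nat_lit 0) [] (nat_lit 0) [] false,
   Spec.mk (nat_lit 11481) (nat_lit 0) [] (nat_lit 0) [] false,
   Spec.mk (nat_lit 11485) (nat_lit 0) [] (nat_lit 0) [] false,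
   Spec.mk (nat_lit 11487) (nat_lit 0) [] (nat_lit 0) [] false,
   Spec.mk (nat_lit 11493) (nat_lit 0) [] (nat_lit 0) [] false,
   Spec.mk (nat_lit 11507) (nat_lit 0) [] (nat_lit 0) [] false,
   Spec.mk (nat_lit 11509) (nat_lit 0) [] (nat_lit 0) [] false,
   Spec.mk (nat_lit 11513) (nat_lit 0) [] (nat_lit 0) [] false,
   Spec.mk (nat_lit 11515) (nat_lit 0) [] (nat_lit 0) [] false,
   Spec.mk (nat_lit 11517) (nat_lit 0) [] (nat_lit 0) [] false,
   Spec.mk (nat_lit 11521) (nat_lit 0) [] (nat_lit 0) [] false,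
   Spec.mk (nat_lit 11523) (nat_lit 0) [] (nat_lit 0) [] false,
   Spec.mk (nat_lit 11531) (nat_lit 0) [] (nat_lit 0) [] false,
   Spec.mk (nat_lit 11533) (nat_lit 0) [] (nat_lit 0) [] false,
   Spec.mk (nat_lit 11535) (nat_lit 0) [] (nat_lit 0) [] false,
   Spec.mk (nat_lit 11539) (nat_lit 0) [] (nat_lit 0) [] false,
   Spec.mk (nat_lit 11541) (nat_lit 0) [] (nat_lit 0) [] false,
   Spec.mk (nat_lit 11547) (nat_lit 0) [] (nat_lit 0) [] false,
   Spec.mk (nat_lit 11557) (nat_lit 0) [] (nat_lit 0) [] false,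
   Spec.mk (nat_lit 11559) (nat_lit 0) [] (nat_lit 0) [] false,
   Spec.mk (nat_lit 11565) (nat_lit 0) [] (nat_lit 0) [] false,
   Spec.mk (nat_lit 11585) (nat_lit 0) [] (nat_lit 0) [] false,
   Spec.mk (nat_lit 11587) (nat_lit 0) [] (nat_lit 0) [] false,
   Spec.mk (nat_lit 11589) (nat_lit 0) [] (nat_lit 0) [] false,
   Spec.mk (nat_lit 11593) (nat_lit 0) [] (nat_lit 0) [] false,
   Spec.mk (nat_lit 11595) (nat_lit 0) [] (nat_lit 0) [] false,
   Spec.mk (nat_lit 11601) (nat_lit 0) [] (nat_lit 0) [] false,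
   Spec.mk (nat_lit 11611) (nat_lit 0) [] (nat_lit 0) [] false,
   Spec.mk (nat_lit 11613) (nat_lit 0) [] (nat_lit 0) [] false,
   Spec.mk (nat_lit 11619) (nat_lit 0) [] (nat_lit 0) [] false,
   Spec.mk (nat_lit 11637) (nat_lit 0) [] (nat_lit 0) [] false,
   Spec.mk (nat_lit 11681) (nat_lit 0) [] (nat_lit 0) [] false,
   Spec.mk (nat_lit 11687) (nat_lit 0) [] (nat_lit 0) [] false,
   Spec.mk (nat_lit 11689) (nat_lit 0) [] (nat_lit 0) [] false,
   Spec.mk (nat_lit 11699) (nat_lit 0) [] (nat_lit 0) [] false,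
   Spec.mk (nat_lit 11705) (nat_lit 0) [] (nat_lit 0) [] false,
   Spec.mk (nat_lit 11707) (nat_lit 0) [] (nat_lit 0) [] false,
   Spec.mk (nat_lit 11711) (nat_lit 0) [] (nat_lit 0) [] false,
   Spec.mk (nat_lit 11713) (nat_lit 0) [] (nat_lit 0) [] false,
   Spec.mk (nat_lit 11715) (nat_lit 0) [] (nat_lit 0) [] false,
   Spec.mk (nat_lit 11723) (nat_lit 0) [] (nat_lit 0) [] false,
   Spec.mk (nat_lit 11725) (nat_lit 0) [] (nat_lit 0) [] false,
   Spec.mk (nat_lit 11729) (nat_lit 0) [] (nat_lit 0) [] false,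
   Spec.mk (nat_lit 11731) (nat_lit 0) [] (nat_lit 0) [] false]

noncomputable def cd32 : List Spec :=
  [Spec.mk (nat_lit 11733) (nat_lit 0) [] (nat_lit 0) [] false,
   Spec.mk (nat_lit 11737) (nat_lit 0) [] (nat_lit 0) [] false,
   Spec.mk (nat_lit 11739) (nat_lit 0) [] (nat_lit 0) [] false,
   Spec.mk (nat_lit 11753) (nat_lit 0) [] (nat_lit 0) [] false,
   Spec.mk (nat_lit 11759) (nat_lit 0) [] (nat_lit 0) [] false,
   Spec.mk (nat_lit 11761) (nat_lit 0) [] (nat_lit 0) [] false,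
   Spec.mk (nat_lit 11765) (nat_lit 0) [] (nat_lit 0) [] false,
   Spec.mk (nat_lit 11767) (nat_lit 0) [] (nat_lit 0) [] false,
   Spec.mk (nat_lit 11769) (nat_lit 0) [] (nat_lit 0) [] false,
   Spec.mk (nat_lit 11777) (nat_lit 0) [] (nat_lit 0) [] false,
   Spec.mk (nat_lit 11779) (nat_lit 0) [] (nat_lit 0) [] false,
   Spec.mk (nat_lit 11783) (nat_lit 0) [] (nat_lit 0) [] false,
   Spec.mk (nat_lit 11785) (nat_lit 0) [] (nat_lit 0) [] false,
   Spec.mk (nat_lit 11787) (nat_lit 0) [] (nat_lit 0) [] false,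
   Spec.mk (nat_lit 11791) (nat_lit 0) [] (nat_lit 0) [] false,
   Spec.mk (nat_lit 11793) (nat_lit 0) [] (nat_lit 0) [] false,
   Spec.mk (nat_lit 11801) (nat_lit 0) [] (nat_lit 0) [] false,
   Spec.mk (nat_lit 11803) (nat_lit 0) [] (nat_lit 0) [] false,
   Spec.mk (nat_lit 11805) (nat_lit 0) [] (nat_lit 0) [] false,
   Spec.mk (nat_lit 11809) (nat_lit 0) [] (nat_lit 0) [] false,
   Spec.mk (nat_lit 11811) (nat_lit 0) [] (nat_lit 0) [] false,
   Spec.mk (nat_lit 11817) (nat_lit 0) [] (nat_lit 0) [] false,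
   Spec.mk (nat_lit 11831) (nat_lit 0) [] (nat_lit 0) [] false,
   Spec.mk (nat_lit 11833) (nat_lit 0) [] (nat_lit 0) [] false,
   Spec.mk (nat_lit 11837) (nat_lit 0) [] (nat_lit 0) [] false,
   Spec.mk (nat_lit 11839) (nat_lit 0) [] (nat_lit 0) [] false,
   Spec.mk (nat_lit 11841) (nat_lit 0) [] (nat_lit 0) [] false,
   Spec.mk (nat_lit 11845) (nat_lit 0) [] (nat_lit 0) [] false,
   Spec.mk (nat_lit 11847) (nat_lit 0) [] (nat_lit 0) [] false,
   Spec.mk (nat_lit 11855) (nat_lit 0) [] (nat_lit 0) [] false,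
   Spec.mk (nat_lit 11857) (nat_lit 0) [] (nat_lit 0) [] false,
   Spec.mk (nat_lit 11859) (nat_lit 0) [] (nat_lit 0) [] false,
   Spec.mk (nat_lit 11863) (nat_lit 0) [] (nat_lit 0) [] false,
   Spec.mk (nat_lit 11865) (nat_lit 0) [] (nat_lit 0) [] false,
   Spec.mk (nat_lit 11871) (nat_lit 0) [] (nat_lit 0) [] false,
   Spec.mk (nat_lit 11881) (nat_lit 0) [] (nat_lit 0) [] false,
   Spec.mk (nat_lit 11883) (nat_lit 0) [] (nat_lit 0) [] false,
   Spec.mk (nat_lit 11889) (nat_lit 0) [] (nat_lit 0) [] false,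
   Spec.mk (nat_lit 11915) (nat_lit 0) [] (nat_lit 0) [] false,
   Spec.mk (nat_lit 11921) (nat_lit 0) [] (nat_lit 0) [] false,
   Spec.mk (nat_lit 11923) (nat_lit 0) [] (nat_lit 0) [] false,
   Spec.mk (nat_lit 11927) (nat_lit 0) [] (nat_lit 0) [] false,
   Spec.mk (nat_lit 11929) (nat_lit 0) [] (nat_lit 0) [] false,
   Spec.mk (nat_lit 11931) (nat_lit 0) [] (nat_lit 0) [] false,
   Spec.mk (nat_lit 11939) (nat_lit 0) [] (nat_lit 0) [] false,
   Spec.mk (nat_lit 11941) (nat_lit 0) [] (nat_lit 0) [] false,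
   Spec.mk (nat_lit 11945) (nat_lit 0) [] (nat_lit 0) [] false,
   Spec.mk (nat_lit 11947) (nat_lit 0) [] (nat_lit 0) [] false,
   Spec.mk (nat_lit 11949) (nat_lit 0) [] (nat_lit 0) [] false,
   Spec.mk (nat_lit 11953) (nat_lit 0) [] (nat_lit 0) [] false,
   Spec.mk (nat_lit 11955) (nat_lit 0) [] (nat_lit 0) [] false,
   Spec.mk (nat_lit 11963) (nat_lit 0) [] (nat_lit 0) [] false,
   Spec.mk (nat_lit 11965) (nat_lit 0) [] (nat_lit 0) [] false,
   Spec.mk (nat_lit 11967) (nat_lit 0) [] (nat_lit 0) [] false,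
   Spec.mk (nat_lit 11971) (nat_lit 0) [] (nat_lit 0) [] false,
   Spec.mk (nat_lit 11973) (nat_lit 0) [] (nat_lit 0) [] false,
   Spec.mk (nat_lit 11979) (nat_lit 0) [] (nat_lit 0) [] false,
   Spec.mk (nat_lit 11993) (nat_lit 0) [] (nat_lit 0) [] false,
   Spec.mk (nat_lit 11995) (nat_lit 0) [] (nat_lit 0) [] false,
   Spec.mk (nat_lit 11999) (nat_lit 0) [] (nat_lit 0) [] false]

noncomputable def cd33 : List Spec :=
  [Spec.mk (nat_lit 12001) (nat_lit 0) [] (nat_lit 0) [] false,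
   Spec.mk (nat_lit 12003) (nat_lit 0) [] (nat_lit 0) [] false,
   Spec.mk (nat_lit 12007) (nat_lit 0) [] (nat_lit 0) [] false,
   Spec.mk (nat_lit 12009) (nat_lit 0) [] (nat_lit 0) [] false,
   Spec.mk (nat_lit 12017) (nat_lit 0) [] (nat_lit 0) [] false,
   Spec.mk (nat_lit 12019) (nat_lit 0) [] (nat_lit 0) [] false,
   Spec.mk (nat_lit 12021) (nat_lit 0) [] (nat_lit 0) [] false,
   Spec.mk (nat_lit 12025) (nat_lit 0) [] (nat_lit 0) [] false,
   Spec.mk (nat_lit 12027) (nat_lit 0) [] (nat_lit 0) [] false,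
   Spec.mk (nat_lit 12033) (nat_lit 0) [] (nat_lit 0) [] false,
   Spec.mk (nat_lit 12043) (nat_lit 0) [] (nat_lit 0) [] false,
   Spec.mk (nat_lit 12045) (nat_lit 0) [] (nat_lit 0) [] false,
   Spec.mk (nat_lit 12051) (nat_lit 0) [] (nat_lit 0) [] false,
   Spec.mk (nat_lit 12071) (nat_lit 0) [] (nat_lit 0) [] false,
   Spec.mk (nat_lit 12073) (nat_lit 0) [] (nat_lit 0) [] false,
   Spec.mk (nat_lit 12075) (nat_lit 0) [] (nat_lit 0) [] false,
   Spec.mk (nat_lit 12079) (nat_lit 0) [] (nat_lit 0) [] false,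
   Spec.mk (nat_lit 12081) (nat_lit 0) [] (nat_lit 0) [] false,
   Spec.mk (nat_lit 12087) (nat_lit 0) [] (nat_lit 0) [] false,
   Spec.mk (nat_lit 12097) (nat_lit 0) [] (nat_lit 0) [] false,
   Spec.mk (nat_lit 12099) (nat_lit 0) [] (nat_lit 0) [] false,
   Spec.mk (nat_lit 12105) (nat_lit 0) [] (nat_lit 0) [] false,
   Spec.mk (nat_lit 12123) (nat_lit 0) [] (nat_lit 0) [] false,
   Spec.mk (nat_lit 12155) (nat_lit 0) [] (nat_lit 0) [] false,
   Spec.mk (nat_lit 12157) (nat_lit 0) [] (nat_lit 0) [] false,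
   Spec.mk (nat_lit 12161) (nat_lit 0) [] (nat_lit 0) [] false,
   Spec.mk (nat_lit 12163) (nat_lit 0) [] (nat_lit 0) [] false,
   Spec.mk (nat_lit 12165) (nat_lit 0) [] (nat_lit 0) [] false,
   Spec.mk (nat_lit 12169) (nat_lit 0) [] (nat_lit 0) [] false,
   Spec.mk (nat_lit 12171) (nat_lit 0) [] (nat_lit 0) [] false,
   Spec.mk (nat_lit 12179) (nat_lit 0) [] (nat_lit 0) [] false,
   Spec.mk (nat_lit 12181) (nat_lit 0) [] (nat_lit 0) [] false,
   Spec.mk (nat_lit 12183) (nat_lit 0) [] (nat_lit 0) [] false,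
   Spec.mk (nat_lit 12187) (nat_lit 0) [] (nat_lit 0) [] false,
   Spec.mk (nat_lit 12189) (nat_lit 0) [] (nat_lit 0) [] false,
   Spec.mk (nat_lit 12195) (nat_lit 0) [] (nat_lit 0) [] false,
   Spec.mk (nat_lit 12205) (nat_lit 0) [] (nat_lit 0) [] false,
   Spec.mk (nat_lit 12207) (nat_lit 0) [] (nat_lit 0) [] false,
   Spec.mk (nat_lit 12213) (nat_lit 0) [] (nat_lit 0) [] false,
   Spec.mk (nat_lit 12233) (nat_lit 0) [] (nat_lit 0) [] false,
   Spec.mk (nat_lit 12235) (nat_lit 0) [] (nat_lit 0) [] false,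
   Spec.mk (nat_lit 12237) (nat_lit 0) [] (nat_lit 0) [] false,
   Spec.mk (nat_lit 12241) (nat_lit 0) [] (nat_lit 0) [] false,
   Spec.mk (nat_lit 12243) (nat_lit 0) [] (nat_lit 0) [] false,
   Spec.mk (nat_lit 12249) (nat_lit 0) [] (nat_lit 0) [] false,
   Spec.mk (nat_lit 12259) (nat_lit 0) [] (nat_lit 0) [] false,
   Spec.mk (nat_lit 12261) (nat_lit 0) [] (nat_lit 0) [] false,
   Spec.mk (nat_lit 12267) (nat_lit 0) [] (nat_lit 0) [] false,
   Spec.mk (nat_lit 12285) (nat_lit 0) [] (nat_lit 0) [] false,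
   Spec.mk (nat_lit 12313) (nat_lit 0) [] (nat_lit 0) [] false,
   Spec.mk (nat_lit 12315) (nat_lit 0) [] (nat_lit 0) [] false,
   Spec.mk (nat_lit 12321) (nat_lit 0) [] (nat_lit 0) [] false,
   Spec.mk (nat_lit 12339) (nat_lit 0) [] (nat_lit 0) [] false,
   Spec.mk (nat_lit 12401) (nat_lit 0) [] (nat_lit 0) [] false,
   Spec.mk (nat_lit 12407) (nat_lit 0) [] (nat_lit 0) [] false,
   Spec.mk (nat_lit 12409) (nat_lit 0) [] (nat_lit 0) [] false,
   Spec.mk (nat_lit 12413) (nat_lit 0) [] (nat_lit 0) [] false,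
   Spec.mk (nat_lit 12415) (nat_lit 0) [] (nat_lit 0) [] false,
   Spec.mk (nat_lit 12417) (nat_lit 0) [] (nat_lit 0) [] false,
   Spec.mk (nat_lit 12425) (nat_lit 0) [] (nat_lit 0) [] false]

noncomputable def cd34 : List Spec :=
  [Spec.mk (nat_lit 12427) (nat_lit 0) [] (nat_lit 0) [] false,
   Spec.mk (nat_lit 12431) (nat_lit 0) [] (nat_lit 0) [] false,
   Spec.mk (nat_lit 12433) (nat_lit 0) [] (nat_lit 0) [] false,
   Spec.mk (nat_lit 12435) (nat_lit 0) [] (nat_lit 0) [] false,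
   Spec.mk (nat_lit 12439) (nat_lit 0) [] (nat_lit 0) [] false,
   Spec.mk (nat_lit 12441) (nat_lit 0) [] (nat_lit 0) [] false,
   Spec.mk (nat_lit 12449) (nat_lit 0) [] (nat_lit 0) [] false,
   Spec.mk (nat_lit 12451) (nat_lit 0) [] (nat_lit 0) [] false,
   Spec.mk (nat_lit 12453) (nat_lit 0) [] (nat_lit 0) [] false,
   Spec.mk (nat_lit 12457) (nat_lit 0) [] (nat_lit 0) [] false,
   Spec.mk (nat_lit 12459) (nat_lit 0) [] (nat_lit 0) [] false,
   Spec.mk (nat_lit 12465) (nat_lit 0) [] (nat_lit 0) [] false,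
   Spec.mk (nat_lit 12479) (nat_lit 0) [] (nat_lit 0) [] false,
   Spec.mk (nat_lit 12481) (nat_lit 0) [] (nat_lit 0) [] false,
   Spec.mk (nat_lit 12485) (nat_lit 0) [] (nat_lit 0) [] false,
   Spec.mk (nat_lit 12487) (nat_lit 0) [] (nat_lit 0) [] false,
   Spec.mk (nat_lit 12489) (nat_lit 0) [] (nat_lit 0) [] false,
   Spec.mk (nat_lit 12493) (nat_lit 0) [] (nat_lit 0) [] false,
   Spec.mk (nat_lit 12495) (nat_lit 0) [] (nat_lit 0) [] false,
   Spec.mk (nat_lit 12503) (nat_lit 0) [] (nat_lit 0) [] false,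
   Spec.mk (nat_lit 12505) (nat_lit 0) [] (nat_lit 0) [] false,
   Spec.mk (nat_lit 12507) (nat_lit 0) [] (nat_lit 0) [] false,
   Spec.mk (nat_lit 12511) (nat_lit 0) [] (nat_lit 0) [] false,
   Spec.mk (nat_lit 12513) (nat_lit 0) [] (nat_lit 0) [] false,
   Spec.mk (nat_lit 12519) (nat_lit 0) [] (nat_lit 0) [] false,
   Spec.mk (nat_lit 12529) (nat_lit 0) [] (nat_lit 0) [] false,
   Spec.mk (nat_lit 12531) (nat_lit 0) [] (nat_lit 0) [] false,
   Spec.mk (nat_lit 12537) (nat_lit 0) [] (nat_lit 0) [] false,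
   Spec.mk (nat_lit 12557) (nat_lit 0) [] (nat_lit 0) [] false,
   Spec.mk (nat_lit 12559) (nat_lit 0) [] (nat_lit 0) [] false,
   Spec.mk (nat_lit 12561) (nat_lit 0) [] (nat_lit 0) [] false,
   Spec.mk (nat_lit 12565) (nat_lit 0) [] (nat_lit 0) [] false,
   Spec.mk (nat_lit 12567) (nat_lit 0) [] (nat_lit 0) [] false,
   Spec.mk (nat_lit 12573) (nat_lit 0) [] (nat_lit 0) [] false,
   Spec.mk (nat_lit 12583) (nat_lit 0) [] (nat_lit 0) [] false,
   Spec.mk (nat_lit 12585) (nat_lit 0) [] (nat_lit 0) [] false,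
   Spec.mk (nat_lit 12591) (nat_lit 0) [] (nat_lit 0) [] false,
   Spec.mk (nat_lit 12609) (nat_lit 0) [] (nat_lit 0) [] false,
   Spec.mk (nat_lit 12641) (nat_lit 0) [] (nat_lit 0) [] false,
   Spec.mk (nat_lit 12643) (nat_lit 0) [] (nat_lit 0) [] false,
   Spec.mk (nat_lit 12647) (nat_lit 0) [] (nat_lit 0) [] false,
   Spec.mk (nat_lit 12649) (nat_lit 0) [] (nat_lit 0) [] false,
   Spec.mk (nat_lit 12651) (nat_lit 0) [] (nat_lit 0) [] false,
   Spec.mk (nat_lit 12655) (nat_lit 0) [] (nat_lit 0) [] false,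
   Spec.mk (nat_lit 12657) (nat_lit 0) [] (nat_lit 0) [] false,
   Spec.mk (nat_lit 12665) (nat_lit 0) [] (nat_lit 0) [] false,
   Spec.mk (nat_lit 12667) (nat_lit 0) [] (nat_lit 0) [] false,
   Spec.mk (nat_lit 12669) (nat_lit 0) [] (nat_lit 0) [] false,
   Spec.mk (nat_lit 12673) (nat_lit 0) [] (nat_lit 0) [] false,
   Spec.mk (nat_lit 12675) (nat_lit 0) [] (nat_lit 0) [] false,
   Spec.mk (nat_lit 12681) (nat_lit 0) [] (nat_lit 0) [] false,
   Spec.mk (nat_lit 12691) (nat_lit 0) [] (nat_lit 0) [] false,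
   Spec.mk (nat_lit 12693) (nat_lit 0) [] (nat_lit 0) [] false,
   Spec.mk (nat_lit 12699) (nat_lit 0) [] (nat_lit 0) [] false,
   Spec.mk (nat_lit 12719) (nat_lit 0) [] (nat_lit 0) [] false,
   Spec.mk (nat_lit 12721) (nat_lit 0) [] (nat_lit 0) [] false,
   Spec.mk (nat_lit 12723) (nat_lit 0) [] (nat_lit 0) [] false,
   Spec.mk (nat_lit 12727) (nat_lit 0) [] (nat_lit 0) [] false,
   Spec.mk (nat_lit 12729) (nat_lit 0) [] (nat_lit 0) [] false,
   Spec.mk (nat_lit 12735) (nat_lit 0) [] (nat_lit 0) [] false]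

noncomputable def cd35 : List Spec :=
  [Spec.mk (nat_lit 12745) (nat_lit 0) [] (nat_lit 0) [] false,
   Spec.mk (nat_lit 12747) (nat_lit 0) [] (nat_lit 0) [] false,
   Spec.mk (nat_lit 12753) (nat_lit 0) [] (nat_lit 0) [] false,
   Spec.mk (nat_lit 12771) (nat_lit 0) [] (nat_lit 0) [] false,
   Spec.mk (nat_lit 12799) (nat_lit 0) [] (nat_lit 0) [] false,
   Spec.mk (nat_lit 12801) (nat_lit 0) [] (nat_lit 0) [] false,
   Spec.mk (nat_lit 12807) (nat_lit 0) [] (nat_lit 0) [] false,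
   Spec.mk (nat_lit 12825) (nat_lit 0) [] (nat_lit 0) [] false,
   Spec.mk (nat_lit 12881) (nat_lit 0) [] (nat_lit 0) [] false,
   Spec.mk (nat_lit 12883) (nat_lit 0) [] (nat_lit 0) [] false,
   Spec.mk (nat_lit 12885) (nat_lit 0) [] (nat_lit 0) [] false,
   Spec.mk (nat_lit 12889) (nat_lit 0) [] (nat_lit 0) [] false,
   Spec.mk (nat_lit 12891) (nat_lit 0) [] (nat_lit 0) [] false,
   Spec.mk (nat_lit 12897) (nat_lit 0) [] (nat_lit 0) [] false,
   Spec.mk (nat_lit 12907) (nat_lit 0) [] (nat_lit 0) [] false,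
   Spec.mk (nat_lit 12909) (nat_lit 0) [] (nat_lit 0) [] false,
   Spec.mk (nat_lit 12915) (nat_lit 0) [] (nat_lit 0) [] false,
   Spec.mk (nat_lit 12933) (nat_lit 0) [] (nat_lit 0) [] false,
   Spec.mk (nat_lit 12961) (nat_lit 0) [] (nat_lit 0) [] false,
   Spec.mk (nat_lit 12963) (nat_lit 0) [] (nat_lit 0) [] false,
   Spec.mk (nat_lit 12969) (nat_lit 0) [] (nat_lit 0) [] false,
   Spec.mk (nat_lit 12987) (nat_lit 0) [] (nat_lit 0) [] false,
   Spec.mk (nat_lit 13041) (nat_lit 0) [] (nat_lit 0) [] false,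
   Spec.mk (nat_lit 13175) (nat_lit 0) [] (nat_lit 0) [] false,
   Spec.mk (nat_lit 13193) (nat_lit 0) [] (nat_lit 0) [] false,
   Spec.mk (nat_lit 13199) (nat_lit 0) [] (nat_lit 0) [] false,
   Spec.mk (nat_lit 13201) (nat_lit 0) [] (nat_lit 0) [] false,
   Spec.mk (nat_lit 13229) (nat_lit 0) [] (nat_lit 0) [] false,
   Spec.mk (nat_lit 13247) (nat_lit 0) [] (nat_lit 0) [] false,
   Spec.mk (nat_lit 13253) (nat_lit 0) [] (nat_lit 0) [] false,
   Spec.mk (nat_lit 13255) (nat_lit 0) [] (nat_lit 0) [] false,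
   Spec.mk (nat_lit 13265) (nat_lit 0) [] (nat_lit 0) [] false,
   Spec.mk (nat_lit 13271) (nat_lit 0) [] (nat_lit 0) [] false,
   Spec.mk (nat_lit 13273) (nat_lit 0) [] (nat_lit 0) [] false,
   Spec.mk (nat_lit 13277) (nat_lit 0) [] (nat_lit 0) [] false,
   Spec.mk (nat_lit 13279) (nat_lit 0) [] (nat_lit 0) [] false,
   Spec.mk (nat_lit 13281) (nat_lit 0) [] (nat_lit 0) [] false,
   Spec.mk (nat_lit 13301) (nat_lit 0) [] (nat_lit 0) [] false,
   Spec.mk (nat_lit 13307) (nat_lit 0) [] (nat_lit 0) [] false,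
   Spec.mk (nat_lit 13309) (nat_lit 0) [] (nat_lit 0) [] false,
   Spec.mk (nat_lit 13319) (nat_lit 0) [] (nat_lit 0) [] false,
   Spec.mk (nat_lit 13325) (nat_lit 0) [] (nat_lit 0) [] false,
   Spec.mk (nat_lit 13327) (nat_lit 0) [] (nat_lit 0) [] false,
   Spec.mk (nat_lit 13331) (nat_lit 0) [] (nat_lit 0) [] false,
   Spec.mk (nat_lit 13333) (nat_lit 0) [] (nat_lit 0) [] false,
   Spec.mk (nat_lit 13335) (nat_lit 0) [] (nat_lit 0) [] false,
   Spec.mk (nat_lit 13343) (nat_lit 0) [] (nat_lit 0) [] false,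
   Spec.mk (nat_lit 13345) (nat_lit 0) [] (nat_lit 0) [] false,
   Spec.mk (nat_lit 13349) (nat_lit 0) [] (nat_lit 0) [] false,
   Spec.mk (nat_lit 13351) (nat_lit 0) [] (nat_lit 0) [] false,
   Spec.mk (nat_lit 13353) (nat_lit 0) [] (nat_lit 0) [] false,
   Spec.mk (nat_lit 13357) (nat_lit 0) [] (nat_lit 0) [] false,
   Spec.mk (nat_lit 13359) (nat_lit 0) [] (nat_lit 0) [] false,
   Spec.mk (nat_lit 13391) (nat_lit 0) [] (nat_lit 0) [] false,
   Spec.mk (nat_lit 13409) (nat_lit 0) [] (nat_lit 0) [] false,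
   Spec.mk (nat_lit 13415) (nat_lit 0) [] (nat_lit 0) [] false,
   Spec.mk (nat_lit 13417) (nat_lit 0) [] (nat_lit 0) [] false,
   Spec.mk (nat_lit 13427) (nat_lit 0) [] (nat_lit 0) [] false,
   Spec.mk (nat_lit 13433) (nat_lit 0) [] (nat_lit 0) [] false,
   Spec.mk (nat_lit 13435) (nat_lit 0) [] (nat_lit 0) [] false]

noncomputable def cd36 : List Spec :=
  [Spec.mk (nat_lit 13439) (nat_lit 0) [] (nat_lit 0) [] false,
   Spec.mk (nat_lit 13441) (nat_lit 0) [] (nat_lit 0) [] false,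
   Spec.mk (nat_lit 13443) (nat_lit 0) [] (nat_lit 0) [] false,
   Spec.mk (nat_lit 13463) (nat_lit 0) [] (nat_lit 0) [] false,
   Spec.mk (nat_lit 13469) (nat_lit 0) [] (nat_lit 0) [] false,
   Spec.mk (nat_lit 13471) (nat_lit 0) [] (nat_lit 0) [] false,
   Spec.mk (nat_lit 13481) (nat_lit 0) [] (nat_lit 0) [] false,
   Spec.mk (nat_lit 13487) (nat_lit 0) [] (nat_lit 0) [] false,
   Spec.mk (nat_lit 13489) (nat_lit 0) [] (nat_lit 0) [] false,
   Spec.mk (nat_lit 13493) (nat_lit 0) [] (nat_lit 0) [] false,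
   Spec.mk (nat_lit 13495) (nat_lit 0) [] (nat_lit 0) [] false,
   Spec.mk (nat_lit 13497) (nat_lit 0) [] (nat_lit 0) [] false,
   Spec.mk (nat_lit 13505) (nat_lit 0) [] (nat_lit 0) [] false,
   Spec.mk (nat_lit 13507) (nat_lit 0) [] (nat_lit 0) [] false,
   Spec.mk (nat_lit 13511) (nat_lit 0) [] (nat_lit 0) [] false,
   Spec.mk (nat_lit 13513) (nat_lit 0) [] (nat_lit 0) [] false,
   Spec.mk (nat_lit 13515) (nat_lit 0) [] (nat_lit 0) [] false,
   Spec.mk (nat_lit 13519) (nat_lit 0) [] (nat_lit 0) [] false,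
   Spec.mk (nat_lit 13521) (nat_lit 0) [] (nat_lit 0) [] false,
   Spec.mk (nat_lit 13535) (nat_lit 0) [] (nat_lit 0) [] false,
   Spec.mk (nat_lit 13541) (nat_lit 0) [] (nat_lit 0) [] false,
   Spec.mk (nat_lit 13543) (nat_lit 0) [] (nat_lit 0) [] false,
   Spec.mk (nat_lit 13547) (nat_lit 0) [] (nat_lit 0) [] false,
   Spec.mk (nat_lit 13549) (nat_lit 0) [] (nat_lit 0) [] false,
   Spec.mk (nat_lit 13551) (nat_lit 0) [] (nat_lit 0) [] false,
   Spec.mk (nat_lit 13559) (nat_lit 0) [] (nat_lit 0) [] false,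
   Spec.mk (nat_lit 13561) (nat_lit 0) [] (nat_lit 0) [] false,
   Spec.mk (nat_lit 13565) (nat_lit 0) [] (nat_lit 0) [] false,
   Spec.mk (nat_lit 13567) (nat_lit 0) [] (nat_lit 0) [] false,
   Spec.mk (nat_lit 13569) (nat_lit 0) [] (nat_lit 0) [] false,
   Spec.mk (nat_lit 13573) (nat_lit 0) [] (nat_lit 0) [] false,
   Spec.mk (nat_lit 13575) (nat_lit 0) [] (nat_lit 0) [] false,
   Spec.mk (nat_lit 13583) (nat_lit 0) [] (nat_lit 0) [] false,
   Spec.mk (nat_lit 13585) (nat_lit 0) [] (nat_lit 0) [] false,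
   Spec.mk (nat_lit 13587) (nat_lit 0) [] (nat_lit 0) [] false,
   Spec.mk (nat_lit 13591) (nat_lit 0) [] (nat_lit 0) [] false,
   Spec.mk (nat_lit 13593) (nat_lit 0) [] (nat_lit 0) [] false,
   Spec.mk (nat_lit 13599) (nat_lit 0) [] (nat_lit 0) [] false,
   Spec.mk (nat_lit 13625) (nat_lit 0) [] (nat_lit 0) [] false,
   Spec.mk (nat_lit 13631) (nat_lit 0) [] (nat_lit 0) [] false,
   Spec.mk (nat_lit 13633) (nat_lit 0) [] (nat_lit 0) [] false,
   Spec.mk (nat_lit 13643) (nat_lit 0) [] (nat_lit 0) [] false,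
   Spec.mk (nat_lit 13649) (nat_lit 0) [] (nat_lit 0) [] false,
   Spec.mk (nat_lit 13651) (nat_lit 0) [] (nat_lit 0) [] false,
   Spec.mk (nat_lit 13655) (nat_lit 0) [] (nat_lit 0) [] false,
   Spec.mk (nat_lit 13657) (nat_lit 0) [] (nat_lit 0) [] false,
   Spec.mk (nat_lit 13659) (nat_lit 0) [] (nat_lit 0) [] false,
   Spec.mk (nat_lit 13667) (nat_lit 0) [] (nat_lit 0) [] false,
   Spec.mk (nat_lit 13669) (nat_lit 0) [] (nat_lit 0) [] false,
   Spec.mk (nat_lit 13673) (nat_lit 0) [] (nat_lit 0) [] false,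
   Spec.mk (nat_lit 13675) (nat_lit 0) [] (nat_lit 0) [] false,
   Spec.mk (nat_lit 13677) (nat_lit 0) [] (nat_lit 0) [] false,
   Spec.mk (nat_lit 13681) (nat_lit 0) [] (nat_lit 0) [] false,
   Spec.mk (nat_lit 13683) (nat_lit 0) [] (nat_lit 0) [] false,
   Spec.mk (nat_lit 13697) (nat_lit 0) [] (nat_lit 0) [] false,
   Spec.mk (nat_lit 13703) (nat_lit 0) [] (nat_lit 0) [] false,
   Spec.mk (nat_lit 13705) (nat_lit 0) [] (nat_lit 0) [] false,
   Spec.mk (nat_lit 13709) (nat_lit 0) [] (nat_lit 0) [] false,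
   Spec.mk (nat_lit 13711) (nat_lit 0) [] (nat_lit 0) [] false,
   Spec.mk (nat_lit 13713) (nat_lit 0) [] (nat_lit 0) [] false]

noncomputable def cd37 : List Spec :=
  [Spec.mk (nat_lit 13721) (nat_lit 0) [] (nat_lit 0) [] false,
   Spec.mk (nat_lit 13723) (nat_lit 0) [] (nat_lit 0) [] false,
   Spec.mk (nat_lit 13727) (nat_lit 0) [] (nat_lit 0) [] false,
   Spec.mk (nat_lit 13729) (nat_lit 0) [] (nat_lit 0) [] false,
   Spec.mk (nat_lit 13731) (nat_lit 0) [] (nat_lit 0) [] false,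
   Spec.mk (nat_lit 13735) (nat_lit 0) [] (nat_lit 0) [] false,
   Spec.mk (nat_lit 13737) (nat_lit 0) [] (nat_lit 0) [] false,
   Spec.mk (nat_lit 13745) (nat_lit 0) [] (nat_lit 0) [] false,
   Spec.mk (nat_lit 13747) (nat_lit 0) [] (nat_lit 0) [] false,
   Spec.mk (nat_lit 13749) (nat_lit 0) [] (nat_lit 0) [] false,
   Spec.mk (nat_lit 13753) (nat_lit 0) [] (nat_lit 0) [] false,
   Spec.mk (nat_lit 13755) (nat_lit 0) [] (nat_lit 0) [] false,
   Spec.mk (nat_lit 13761) (nat_lit 0) [] (nat_lit 0) [] false,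
   Spec.mk (nat_lit 13775) (nat_lit 0) [] (nat_lit 0) [] false,
   Spec.mk (nat_lit 13777) (nat_lit 0) [] (nat_lit 0) [] false,
   Spec.mk (nat_lit 13781) (nat_lit 0) [] (nat_lit 0) [] false,
   Spec.mk (nat_lit 13783) (nat_lit 0) [] (nat_lit 0) [] false,
   Spec.mk (nat_lit 13785) (nat_lit 0) [] (nat_lit 0) [] false,
   Spec.mk (nat_lit 13789) (nat_lit 0) [] (nat_lit 0) [] false,
   Spec.mk (nat_lit 13791) (nat_lit 0) [] (nat_lit 0) [] false,
   Spec.mk (nat_lit 13799) (nat_lit 0) [] (nat_lit 0) [] false,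
   Spec.mk (nat_lit 13801) (nat_lit 0) [] (nat_lit 0) [] false,
   Spec.mk (nat_lit 13803) (nat_lit 0) [] (nat_lit 0) [] false,
   Spec.mk (nat_lit 13807) (nat_lit 0) [] (nat_lit 0) [] false,
   Spec.mk (nat_lit 13809) (nat_lit 0) [] (nat_lit 0) [] false,
   Spec.mk (nat_lit 13815) (nat_lit 0) [] (nat_lit 0) [] false,
   Spec.mk (nat_lit 13825) (nat_lit 0) [] (nat_lit 0) [] false,
   Spec.mk (nat_lit 13827) (nat_lit 0) [] (nat_lit 0) [] false,
   Spec.mk (nat_lit 13833) (nat_lit 0) [] (nat_lit 0) [] false,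
   Spec.mk (nat_lit 13877) (nat_lit 0) [] (nat_lit 0) [] false,
   Spec.mk (nat_lit 13895) (nat_lit 0) [] (nat_lit 0) [] false,
   Spec.mk (nat_lit 13901) (nat_lit 0) [] (nat_lit 0) [] false,
   Spec.mk (nat_lit 13903) (nat_lit 0) [] (nat_lit 0) [] false,
   Spec.mk (nat_lit 13913) (nat_lit 0) [] (nat_lit 0) [] false,
   Spec.mk (nat_lit 13919) (nat_lit 0) [] (nat_lit 0) [] false,
   Spec.mk (nat_lit 13921) (nat_lit 0) [] (nat_lit 0) [] false,
   Spec.mk (nat_lit 13925) (nat_lit 0) [] (nat_lit 0) [] false,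
   Spec.mk (nat_lit 13927) (nat_lit 0) [] (nat_lit 0) [] false,
   Spec.mk (nat_lit 13929) (nat_lit 0) [] (nat_lit 0) [] false,
   Spec.mk (nat_lit 13949) (nat_lit 0) [] (nat_lit 0) [] false,
   Spec.mk (nat_lit 13955) (nat_lit 0) [] (nat_lit 0) [] false,
   Spec.mk (nat_lit 13957) (nat_lit 0) [] (nat_lit 0) [] false,
   Spec.mk (nat_lit 13967) (nat_lit 0) [] (nat_lit 0) [] false,
   Spec.mk (nat_lit 13973) (nat_lit 0) [] (nat_lit 0) [] false,
   Spec.mk (nat_lit 13975) (nat_lit 0) [] (nat_lit 0) [] false,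
   Spec.mk (nat_lit 13979) (nat_lit 0) [] (nat_lit 0) [] false,
   Spec.mk (nat_lit 13981) (nat_lit 0) [] (nat_lit 0) [] false,
   Spec.mk (nat_lit 13983) (nat_lit 0) [] (nat_lit 0) [] false,
   Spec.mk (nat_lit 13991) (nat_lit 0) [] (nat_lit 0) [] false,
   Spec.mk (nat_lit 13993) (nat_lit 0) [] (nat_lit 0) [] false,
   Spec.mk (nat_lit 13997) (nat_lit 0) [] (nat_lit 0) [] false,
   Spec.mk (nat_lit 13999) (nat_lit 0) [] (nat_lit 0) [] false,
   Spec.mk (nat_lit 14001) (nat_lit 0) [] (nat_lit 0) [] false,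
   Spec.mk (nat_lit 14005) (nat_lit 0) [] (nat_lit 0) [] false,
   Spec.mk (nat_lit 14007) (nat_lit 0) [] (nat_lit 0) [] false,
   Spec.mk (nat_lit 14021) (nat_lit 0) [] (nat_lit 0) [] false,
   Spec.mk (nat_lit 14027) (nat_lit 0) [] (nat_lit 0) [] false,
   Spec.mk (nat_lit 14029) (nat_lit 0) [] (nat_lit 0) [] false,
   Spec.mk (nat_lit 14033) (nat_lit 0) [] (nat_lit 0) [] false,
   Spec.mk (nat_lit 14035) (nat_lit 0) [] (nat_lit 0) [] false]

noncomputable def cd38 : List Spec :=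
  [Spec.mk (nat_lit 14037) (nat_lit 0) [] (nat_lit 0) [] false,
   Spec.mk (nat_lit 14045) (nat_lit 0) [] (nat_lit 0) [] false,
   Spec.mk (nat_lit 14047) (nat_lit 0) [] (nat_lit 0) [] false,
   Spec.mk (nat_lit 14051) (nat_lit 0) [] (nat_lit 0) [] false,
   Spec.mk (nat_lit 14053) (nat_lit 0) [] (nat_lit 0) [] false,
   Spec.mk (nat_lit 14055) (nat_lit 0) [] (nat_lit 0) [] false,
   Spec.mk (nat_lit 14059) (nat_lit 0) [] (nat_lit 0) [] false,
   Spec.mk (nat_lit 14061) (nat_lit 0) [] (nat_lit 0) [] false,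
   Spec.mk (nat_lit 14069) (nat_lit 0) [] (nat_lit 0) [] false,
   Spec.mk (nat_lit 14071) (nat_lit 0) [] (nat_lit 0) [] false,
   Spec.mk (nat_lit 14073) (nat_lit 0) [] (nat_lit 0) [] false,
   Spec.mk (nat_lit 14077) (nat_lit 0) [] (nat_lit 0) [] false,
   Spec.mk (nat_lit 14079) (nat_lit 0) [] (nat_lit 0) [] false,
   Spec.mk (nat_lit 14085) (nat_lit 0) [] (nat_lit 0) [] false,
   Spec.mk (nat_lit 14111) (nat_lit 0) [] (nat_lit 0) [] false,
   Spec.mk (nat_lit 14117) (nat_lit 0) [] (nat_lit 0) [] false,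
   Spec.mk (nat_lit 14119) (nat_lit 0) [] (nat_lit 0) [] false,
   Spec.mk (nat_lit 14129) (nat_lit 0) [] (nat_lit 0) [] false,
   Spec.mk (nat_lit 14135) (nat_lit 0) [] (nat_lit 0) [] false,
   Spec.mk (nat_lit 14137) (nat_lit 0) [] (nat_lit 0) [] false,
   Spec.mk (nat_lit 14141) (nat_lit 0) [] (nat_lit 0) [] false,
   Spec.mk (nat_lit 14143) (nat_lit 0) [] (nat_lit 0) [] false,
   Spec.mk (nat_lit 14145) (nat_lit 0) [] (nat_lit 0) [] false,
   Spec.mk (nat_lit 14153) (nat_lit 0) [] (nat_lit 0) [] false,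
   Spec.mk (nat_lit 14155) (nat_lit 0) [] (nat_lit 0) [] false,
   Spec.mk (nat_lit 14159) (nat_lit 0) [] (nat_lit 0) [] false,
   Spec.mk (nat_lit 14161) (nat_lit 0) [] (nat_lit 0) [] false,
   Spec.mk (nat_lit 14163) (nat_lit 0) [] (nat_lit 0) [] false,
   Spec.mk (nat_lit 14167) (nat_lit 0) [] (nat_lit 0) [] false,
   Spec.mk (nat_lit 14169) (nat_lit 0) [] (nat_lit 0) [] false,
   Spec.mk (nat_lit 14183) (nat_lit 0) [] (nat_lit 0) [] false,
   Spec.mk (nat_lit 14189) (nat_lit 0) [] (nat_lit 0) [] false,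
   Spec.mk (nat_lit 14191) (nat_lit 0) [] (nat_lit 0) [] false,
   Spec.mk (nat_lit 14195) (nat_lit 0) [] (nat_lit 0) [] false,
   Spec.mk (nat_lit 14197) (nat_lit 0) [] (nat_lit 0) [] false,
   Spec.mk (nat_lit 14199) (nat_lit 0) [] (nat_lit 0) [] false,
   Spec.mk (nat_lit 14207) (nat_lit 0) [] (nat_lit 0) [] false,
   Spec.mk (nat_lit 14209) (nat_lit 0) [] (nat_lit 0) [] false,
   Spec.mk (nat_lit 14213) (nat_lit 0) [] (nat_lit 0) [] false,
   Spec.mk (nat_lit 14215) (nat_lit 0) [] (nat_lit 0) [] false,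
   Spec.mk (nat_lit 14217) (nat_lit 0) [] (nat_lit 0) [] false,
   Spec.mk (nat_lit 14221) (nat_lit 0) [] (nat_lit 0) [] false,
   Spec.mk (nat_lit 14223) (nat_lit 0) [] (nat_lit 0) [] false,
   Spec.mk (nat_lit 14231) (nat_lit 0) [] (nat_lit 0) [] false,
   Spec.mk (nat_lit 14233) (nat_lit 0) [] (nat_lit 0) [] false,
   Spec.mk (nat_lit 14235) (nat_lit 0) [] (nat_lit 0) [] false,
   Spec.mk (nat_lit 14239) (nat_lit 0) [] (nat_lit 0) [] false,
   Spec.mk (nat_lit 14241) (nat_lit 0) [] (nat_lit 0) [] false,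
   Spec.mk (nat_lit 14247) (nat_lit 0) [] (nat_lit 0) [] false,
   Spec.mk (nat_lit 14261) (nat_lit 0) [] (nat_lit 0) [] false,
   Spec.mk (nat_lit 14263) (nat_lit 0) [] (nat_lit 0) [] false,
   Spec.mk (nat_lit 14267) (nat_lit 0) [] (nat_lit 0) [] false,
   Spec.mk (nat_lit 14269) (nat_lit 0) [] (nat_lit 0) [] false,
   Spec.mk (nat_lit 14271) (nat_lit 0) [] (nat_lit 0) [] false,
   Spec.mk (nat_lit 14275) (nat_lit 0) [] (nat_lit 0) [] false,
   Spec.mk (nat_lit 14277) (nat_lit 0) [] (nat_lit 0) [] false,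
   Spec.mk (nat_lit 14285) (nat_lit 0) [] (nat_lit 0) [] false,
   Spec.mk (nat_lit 14287) (nat_lit 0) [] (nat_lit 0) [] false,
   Spec.mk (nat_lit 14289) (nat_lit 0) [] (nat_lit 0) [] false,
   Spec.mk (nat_lit 14293) (nat_lit 0) [] (nat_lit 0) [] false]

noncomputable def cd39 : List Spec :=
  [Spec.mk (nat_lit 14295) (nat_lit 0) [] (nat_lit 0) [] false,
   Spec.mk (nat_lit 14301) (nat_lit 0) [] (nat_lit 0) [] false,
   Spec.mk (nat_lit 14311) (nat_lit 0) [] (nat_lit 0) [] false,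
   Spec.mk (nat_lit 14313) (nat_lit 0) [] (nat_lit 0) [] false,
   Spec.mk (nat_lit 14319) (nat_lit 0) [] (nat_lit 0) [] false,
   Spec.mk (nat_lit 14345) (nat_lit 0) [] (nat_lit 0) [] false,
   Spec.mk (nat_lit 14351) (nat_lit 0) [] (nat_lit 0) [] false,
   Spec.mk (nat_lit 14353) (nat_lit 0) [] (nat_lit 0) [] false,
   Spec.mk (nat_lit 14357) (nat_lit 0) [] (nat_lit 0) [] false,
   Spec.mk (nat_lit 14359) (nat_lit 0) [] (nat_lit 0) [] false,
   Spec.mk (nat_lit 14361) (nat_lit 0) [] (nat_lit 0) [] false,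
   Spec.mk (nat_lit 14369) (nat_lit 0) [] (nat_lit 0) [] false,
   Spec.mk (nat_lit 14371) (nat_lit 0) [] (nat_lit 0) [] false,
   Spec.mk (nat_lit 14375) (nat_lit 0) [] (nat_lit 0) [] false,
   Spec.mk (nat_lit 14377) (nat_lit 0) [] (nat_lit 0) [] false,
   Spec.mk (nat_lit 14379) (nat_lit 0) [] (nat_lit 0) [] false,
   Spec.mk (nat_lit 14383) (nat_lit 0) [] (nat_lit 0) [] false,
   Spec.mk (nat_lit 14385) (nat_lit 0) [] (nat_lit 0) [] false,
   Spec.mk (nat_lit 14393) (nat_lit 0) [] (nat_lit 0) [] false,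
   Spec.mk (nat_lit 14395) (nat_lit 0) [] (nat_lit 0) [] false,
   Spec.mk (nat_lit 14397) (nat_lit 0) [] (nat_lit 0) [] false,
   Spec.mk (nat_lit 14401) (nat_lit 0) [] (nat_lit 0) [] false,
   Spec.mk (nat_lit 14403) (nat_lit 0) [] (nat_lit 0) [] false,
   Spec.mk (nat_lit 14409) (nat_lit 0) [] (nat_lit 0) [] false,
   Spec.mk (nat_lit 14423) (nat_lit 0) [] (nat_lit 0) [] false,
   Spec.mk (nat_lit 14425) (nat_lit 0) [] (nat_lit 0) [] false,
   Spec.mk (nat_lit 14429) (nat_lit 0) [] (nat_lit 0) [] false,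
   Spec.mk (nat_lit 14431) (nat_lit 0) [] (nat_lit 0) [] false,
   Spec.mk (nat_lit 14433) (nat_lit 0) [] (nat_lit 0) [] false,
   Spec.mk (nat_lit 14437) (nat_lit 0) [] (nat_lit 0) [] false,
   Spec.mk (nat_lit 14439) (nat_lit 0) [] (nat_lit 0) [] false,
   Spec.mk (nat_lit 14447) (nat_lit 0) [] (nat_lit 0) [] false,
   Spec.mk (nat_lit 14449) (nat_lit 0) [] (nat_lit 0) [] false,
   Spec.mk (nat_lit 14451) (nat_lit 0) [] (nat_lit 0) [] false,
   Spec.mk (nat_lit 14455) (nat_lit 0) [] (nat_lit 0) [] false,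
   Spec.mk (nat_lit 14457) (nat_lit 0) [] (nat_lit 0) [] false,
   Spec.mk (nat_lit 14463) (nat_lit 0) [] (nat_lit 0) [] false,
   Spec.mk (nat_lit 14473) (nat_lit 0) [] (nat_lit 0) [] false,
   Spec.mk (nat_lit 14475) (nat_lit 0) [] (nat_lit 0) [] false,
   Spec.mk (nat_lit 14481) (nat_lit 0) [] (nat_lit 0) [] false,
   Spec.mk (nat_lit 14501) (nat_lit 0) [] (nat_lit 0) [] false,
   Spec.mk (nat_lit 14503) (nat_lit 0) [] (nat_lit 0) [] false,
   Spec.mk (nat_lit 14505) (nat_lit 0) [] (nat_lit 0) [] false,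
   Spec.mk (nat_lit 14509) (nat_lit 0) [] (nat_lit 0) [] false,
   Spec.mk (nat_lit 14511) (nat_lit 0) [] (nat_lit 0) [] false,
   Spec.mk (nat_lit 14517) (nat_lit 0) [] (nat_lit 0) [] false,
   Spec.mk (nat_lit 14527) (nat_lit 0) [] (nat_lit 0) [] false,
   Spec.mk (nat_lit 14529) (nat_lit 0) [] (nat_lit 0) [] false,
   Spec.mk (nat_lit 14535) (nat_lit 0) [] (nat_lit 0) [] false,
   Spec.mk (nat_lit 14553) (nat_lit 0) [] (nat_lit 0) [] false,
   Spec.mk (nat_lit 14597) (nat_lit 0) [] (nat_lit 0) [] false,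
   Spec.mk (nat_lit 14603) (nat_lit 0) [] (nat_lit 0) [] false,
   Spec.mk (nat_lit 14605) (nat_lit 0) [] (nat_lit 0) [] false,
   Spec.mk (nat_lit 14615) (nat_lit 0) [] (nat_lit 0) [] false,
   Spec.mk (nat_lit 14621) (nat_lit 0) [] (nat_lit 0) [] false,
   Spec.mk (nat_lit 14623) (nat_lit 0) [] (nat_lit 0) [] false,
   Spec.mk (nat_lit 14627) (nat_lit 0) [] (nat_lit 0) [] false,
   Spec.mk (nat_lit 14629) (nat_lit 0) [] (nat_lit 0) [] false,
   Spec.mk (nat_lit 14631) (nat_lit 0) [] (nat_lit 0) [] false,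
   Spec.mk (nat_lit 14639) (nat_lit 0) [] (nat_lit 0) [] false]

noncomputable def cd40 : List Spec :=
  [Spec.mk (nat_lit 14641) (nat_lit 0) [] (nat_lit 0) [] false,
   Spec.mk (nat_lit 14645) (nat_lit 0) [] (nat_lit 0) [] false,
   Spec.mk (nat_lit 14647) (nat_lit 0) [] (nat_lit 0) [] false,
   Spec.mk (nat_lit 14649) (nat_lit 0) [] (nat_lit 0) [] false,
   Spec.mk (nat_lit 14653) (nat_lit 0) [] (nat_lit 0) [] false,
   Spec.mk (nat_lit 14655) (nat_lit 0) [] (nat_lit 0) [] false,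
   Spec.mk (nat_lit 14669) (nat_lit 0) [] (nat_lit 0) [] false,
   Spec.mk (nat_lit 14675) (nat_lit 0) [] (nat_lit 0) [] false,
   Spec.mk (nat_lit 14677) (nat_lit 0) [] (nat_lit 0) [] false,
   Spec.mk (nat_lit 14681) (nat_lit 0) [] (nat_lit 0) [] false,
   Spec.mk (nat_lit 14683) (nat_lit 0) [] (nat_lit 0) [] false,
   Spec.mk (nat_lit 14685) (nat_lit 0) [] (nat_lit 0) [] false,
   Spec.mk (nat_lit 14693) (nat_lit 0) [] (nat_lit 0) [] false,
   Spec.mk (nat_lit 14695) (nat_lit 0) [] (nat_lit 0) [] false,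
   Spec.mk (nat_lit 14699) (nat_lit 0) [] (nat_lit 0) [] false,
   Spec.mk (nat_lit 14701) (nat_lit 0) [] (nat_lit 0) [] false,
   Spec.mk (nat_lit 14703) (nat_lit 0) [] (nat_lit 0) [] false,
   Spec.mk (nat_lit 14707) (nat_lit 0) [] (nat_lit 0) [] false,
   Spec.mk (nat_lit 14709) (nat_lit 0) [] (nat_lit 0) [] false,
   Spec.mk (nat_lit 14717) (nat_lit 0) [] (nat_lit 0) [] false,
   Spec.mk (nat_lit 14719) (nat_lit 0) [] (nat_lit 0) [] false,
   Spec.mk (nat_lit 14721) (nat_lit 0) [] (nat_lit 0) [] false,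
   Spec.mk (nat_lit 14725) (nat_lit 0) [] (nat_lit 0) [] false,
   Spec.mk (nat_lit 14727) (nat_lit 0) [] (nat_lit 0) [] false,
   Spec.mk (nat_lit 14733) (nat_lit 0) [] (nat_lit 0) [] false,
   Spec.mk (nat_lit 14747) (nat_lit 0) [] (nat_lit 0) [] false,
   Spec.mk (nat_lit 14749) (nat_lit 0) [] (nat_lit 0) [] false,
   Spec.mk (nat_lit 14753) (nat_lit 0) [] (nat_lit 0) [] false,
   Spec.mk (nat_lit 14755) (nat_lit 0) [] (nat_lit 0) [] false,
   Spec.mk (nat_lit 14757) (nat_lit 0) [] (nat_lit 0) [] false,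
   Spec.mk (nat_lit 14761) (nat_lit 0) [] (nat_lit 0) [] false,
   Spec.mk (nat_lit 14763) (nat_lit 0) [] (nat_lit 0) [] false,
   Spec.mk (nat_lit 14771) (nat_lit 0) [] (nat_lit 0) [] false,
   Spec.mk (nat_lit 14773) (nat_lit 0) [] (nat_lit 0) [] false,
   Spec.mk (nat_lit 14775) (nat_lit 0) [] (nat_lit 0) [] false,
   Spec.mk (nat_lit 14779) (nat_lit 0) [] (nat_lit 0) [] false,
   Spec.mk (nat_lit 14781) (nat_lit 0) [] (nat_lit 0) [] false,
   Spec.mk (nat_lit 14787) (nat_lit 0) [] (nat_lit 0) [] false,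
   Spec.mk (nat_lit 14797) (nat_lit 0) [] (nat_lit 0) [] false,
   Spec.mk (nat_lit 14799) (nat_lit 0) [] (nat_lit 0) [] false,
   Spec.mk (nat_lit 14805) (nat_lit 0) [] (nat_lit 0) [] false,
   Spec.mk (nat_lit 14831) (nat_lit 0) [] (nat_lit 0) [] false,
   Spec.mk (nat_lit 14837) (nat_lit 0) [] (nat_lit 0) [] false,
   Spec.mk (nat_lit 14839) (nat_lit 0) [] (nat_lit 0) [] false,
   Spec.mk (nat_lit 14843) (nat_lit 0) [] (nat_lit 0) [] false,
   Spec.mk (nat_lit 14845) (nat_lit 0) [] (nat_lit 0) [] false,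
   Spec.mk (nat_lit 14847) (nat_lit 0) [] (nat_lit 0) [] false,
   Spec.mk (nat_lit 14855) (nat_lit 0) [] (nat_lit 0) [] false,
   Spec.mk (nat_lit 14857) (nat_lit 0) [] (nat_lit 0) [] false,
   Spec.mk (nat_lit 14861) (nat_lit 0) [] (nat_lit 0) [] false,
   Spec.mk (nat_lit 14863) (nat_lit 0) [] (nat_lit 0) [] false,
   Spec.mk (nat_lit 14865) (nat_lit 0) [] (nat_lit 0) [] false,
   Spec.mk (nat_lit 14869) (nat_lit 0) [] (nat_lit 0) [] false,
   Spec.mk (nat_lit 14871) (nat_lit 0) [] (nat_lit 0) [] false,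
   Spec.mk (nat_lit 14879) (nat_lit 0) [] (nat_lit 0) [] false,
   Spec.mk (nat_lit 14881) (nat_lit 0) [] (nat_lit 0) [] false,
   Spec.mk (nat_lit 14883) (nat_lit 0) [] (nat_lit 0) [] false,
   Spec.mk (nat_lit 14887) (nat_lit 0) [] (nat_lit 0) [] false,
   Spec.mk (nat_lit 14889) (nat_lit 0) [] (nat_lit 0) [] false,
   Spec.mk (nat_lit 14895) (nat_lit 0) [] (nat_lit 0) [] false]

noncomputable def cd41 : List Spec :=
  [Spec.mk (nat_lit 14909) (nat_lit 0) [] (nat_lit 0) [] false,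
   Spec.mk (nat_lit 14911) (nat_lit 0) [] (nat_lit 0) [] false,
   Spec.mk (nat_lit 14915) (nat_lit 0) [] (nat_lit 0) [] false,
   Spec.mk (nat_lit 14917) (nat_lit 0) [] (nat_lit 0) [] false,
   Spec.mk (nat_lit 14919) (nat_lit 0) [] (nat_lit 0) [] false,
   Spec.mk (nat_lit 14923) (nat_lit 0) [] (nat_lit 0) [] false,
   Spec.mk (nat_lit 14925) (nat_lit 0) [] (nat_lit 0) [] false,
   Spec.mk (nat_lit 14933) (nat_lit 0) [] (nat_lit 0) [] false,
   Spec.mk (nat_lit 14935) (nat_lit 0) [] (nat_lit 0) [] false,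
   Spec.mk (nat_lit 14937) (nat_lit 0) [] (nat_lit 0) [] false,
   Spec.mk (nat_lit 14941) (nat_lit 0) [] (nat_lit 0) [] false,
   Spec.mk (nat_lit 14943) (nat_lit 0) [] (nat_lit 0) [] false,
   Spec.mk (nat_lit 14949) (nat_lit 0) [] (nat_lit 0) [] false,
   Spec.mk (nat_lit 14959) (nat_lit 0) [] (nat_lit 0) [] false,
   Spec.mk (nat_lit 14961) (nat_lit 0) [] (nat_lit 0) [] false,
   Spec.mk (nat_lit 14967) (nat_lit 0) [] (nat_lit 0) [] false,
   Spec.mk (nat_lit 14987) (nat_lit 0) [] (nat_lit 0) [] false,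
   Spec.mk (nat_lit 14989) (nat_lit 0) [] (nat_lit 0) [] false,
   Spec.mk (nat_lit 14991) (nat_lit 0) [] (nat_lit 0) [] false,
   Spec.mk (nat_lit 14995) (nat_lit 0) [] (nat_lit 0) [] false,
   Spec.mk (nat_lit 14997) (nat_lit 0) [] (nat_lit 0) [] false,
   Spec.mk (nat_lit 15003) (nat_lit 0) [] (nat_lit 0) [] false,
   Spec.mk (nat_lit 15013) (nat_lit 0) [] (nat_lit 0) [] false,
   Spec.mk (nat_lit 15015) (nat_lit 0) [] (nat_lit 0) [] false,
   Spec.mk (nat_lit 15021) (nat_lit 0) [] (nat_lit 0) [] false,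
   Spec.mk (nat_lit 15039) (nat_lit 0) [] (nat_lit 0) [] false,
   Spec.mk (nat_lit 15071) (nat_lit 0) [] (nat_lit 0) [] false,
   Spec.mk (nat_lit 15073) (nat_lit 0) [] (nat_lit 0) [] false,
   Spec.mk (nat_lit 15077) (nat_lit 0) [] (nat_lit 0) [] false,
   Spec.mk (nat_lit 15079) (nat_lit 0) [] (nat_lit 0) [] false,
   Spec.mk (nat_lit 15081) (nat_lit 0) [] (nat_lit 0) [] false,
   Spec.mk (nat_lit 15085) (nat_lit 0) [] (nat_lit 0) [] false,
   Spec.mk (nat_lit 15087) (nat_lit 0) [] (nat_lit 0) [] false,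
   Spec.mk (nat_lit 15095) (nat_lit 0) [] (nat_lit 0) [] false,
   Spec.mk (nat_lit 15097) (nat_lit 0) [] (nat_lit 0) [] false,
   Spec.mk (nat_lit 15099) (nat_lit 0) [] (nat_lit 0) [] false,
   Spec.mk (nat_lit 15103) (nat_lit 0) [] (nat_lit 0) [] false,
   Spec.mk (nat_lit 15105) (nat_lit 0) [] (nat_lit 0) [] false,
   Spec.mk (nat_lit 15111) (nat_lit 0) [] (nat_lit 0) [] false,
   Spec.mk (nat_lit 15121) (nat_lit 0) [] (nat_lit 0) [] false,
   Spec.mk (nat_lit 15123) (nat_lit 0) [] (nat_lit 0) [] false,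
   Spec.mk (nat_lit 15129) (nat_lit 0) [] (nat_lit 0) [] false,
   Spec.mk (nat_lit 15149) (nat_lit 0) [] (nat_lit 0) [] false,
   Spec.mk (nat_lit 15151) (nat_lit 0) [] (nat_lit 0) [] false,
   Spec.mk (nat_lit 15153) (nat_lit 0) [] (nat_lit 0) [] false,
   Spec.mk (nat_lit 15157) (nat_lit 0) [] (nat_lit 0) [] false,
   Spec.mk (nat_lit 15159) (nat_lit 0) [] (nat_lit 0) [] false,
   Spec.mk (nat_lit 15165) (nat_lit 0) [] (nat_lit 0) [] false,
   Spec.mk (nat_lit 15175) (nat_lit 0) [] (nat_lit 0) [] false,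
   Spec.mk (nat_lit 15177) (nat_lit 0) [] (nat_lit 0) [] false,
   Spec.mk (nat_lit 15183) (nat_lit 0) [] (nat_lit 0) [] false,
   Spec.mk (nat_lit 15201) (nat_lit 0) [] (nat_lit 0) [] false,
   Spec.mk (nat_lit 15229) (nat_lit 0) [] (nat_lit 0) [] false,
   Spec.mk (nat_lit 15231) (nat_lit 0) [] (nat_lit 0) [] false,
   Spec.mk (nat_lit 15237) (nat_lit 0) [] (nat_lit 0) [] false,
   Spec.mk (nat_lit 15255) (nat_lit 0) [] (nat_lit 0) [] false,
   Spec.mk (nat_lit 15335) (nat_lit 0) [] (nat_lit 0) [] false,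
   Spec.mk (nat_lit 15353) (nat_lit 0) [] (nat_lit 0) [] false,
   Spec.mk (nat_lit 15359) (nat_lit 0) [] (nat_lit 0) [] false,
   Spec.mk (nat_lit 15361) (nat_lit 0) [] (nat_lit 0) [] false]

noncomputable def cd42 : List Spec :=
  [Spec.mk (nat_lit 15371) (nat_lit 0) [] (nat_lit 0) [] false,
   Spec.mk (nat_lit 15377) (nat_lit 0) [] (nat_lit 0) [] false,
   Spec.mk (nat_lit 15379) (nat_lit 0) [] (nat_lit 0) [] false,
   Spec.mk (nat_lit 15383) (nat_lit 0) [] (nat_lit 0) [] false,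
   Spec.mk (nat_lit 15385) (nat_lit 0) [] (nat_lit 0) [] false,
   Spec.mk (nat_lit 15387) (nat_lit 0) [] (nat_lit 0) [] false,
   Spec.mk (nat_lit 15407) (nat_lit 0) [] (nat_lit 0) [] false,
   Spec.mk (nat_lit 15413) (nat_lit 0) [] (nat_lit 0) [] false,
   Spec.mk (nat_lit 15415) (nat_lit 0) [] (nat_lit 0) [] false,
   Spec.mk (nat_lit 15425) (nat_lit 0) [] (nat_lit 0) [] false,
   Spec.mk (nat_lit 15431) (nat_lit 0) [] (nat_lit 0) [] false,
   Spec.mk (nat_lit 15433) (nat_lit 0) [] (nat_lit 0) [] false,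
   Spec.mk (nat_lit 15437) (nat_lit 0) [] (nat_lit 0) [] false,
   Spec.mk (nat_lit 15439) (nat_lit 0) [] (nat_lit 0) [] false,
   Spec.mk (nat_lit 15441) (nat_lit 0) [] (nat_lit 0) [] false,
   Spec.mk (nat_lit 15449) (nat_lit 0) [] (nat_lit 0) [] false,
   Spec.mk (nat_lit 15451) (nat_lit 0) [] (nat_lit 0) [] false,
   Spec.mk (nat_lit 15455) (nat_lit 0) [] (nat_lit 0) [] false,
   Spec.mk (nat_lit 15457) (nat_lit 0) [] (nat_lit 0) [] false,
   Spec.mk (nat_lit 15459) (nat_lit 0) [] (nat_lit 0) [] false,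
   Spec.mk (nat_lit 15463) (nat_lit 0) [] (nat_lit 0) [] false,
   Spec.mk (nat_lit 15465) (nat_lit 0) [] (nat_lit 0) [] false,
   Spec.mk (nat_lit 15479) (nat_lit 0) [] (nat_lit 0) [] false,
   Spec.mk (nat_lit 15485) (nat_lit 0) [] (nat_lit 0) [] false,
   Spec.mk (nat_lit 15487) (nat_lit 0) [] (nat_lit 0) [] false,
   Spec.mk (nat_lit 15491) (nat_lit 0) [] (nat_lit 0) [] false,
   Spec.mk (nat_lit 15493) (nat_lit 0) [] (nat_lit 0) [] false,
   Spec.mk (nat_lit 15495) (nat_lit 0) [] (nat_lit 0) [] false,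
   Spec.mk (nat_lit 15503) (nat_lit 0) [] (nat_lit 0) [] false,
   Spec.mk (nat_lit 15505) (nat_lit 0) [] (nat_lit 0) [] false,
   Spec.mk (nat_lit 15509) (nat_lit 0) [] (nat_lit 0) [] false,
   Spec.mk (nat_lit 15511) (nat_lit 0) [] (nat_lit 0) [] false,
   Spec.mk (nat_lit 15513) (nat_lit 0) [] (nat_lit 0) [] false,
   Spec.mk (nat_lit 15517) (nat_lit 0) [] (nat_lit 0) [] false,
   Spec.mk (nat_lit 15519) (nat_lit 0) [] (nat_lit 0) [] false,
   Spec.mk (nat_lit 15527) (nat_lit 0) [] (nat_lit 0) [] false,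
   Spec.mk (nat_lit 15529) (nat_lit 0) [] (nat_lit 0) [] false,
   Spec.mk (nat_lit 15531) (nat_lit 0) [] (nat_lit 0) [] false,
   Spec.mk (nat_lit 15535) (nat_lit 0) [] (nat_lit 0) [] false,
   Spec.mk (nat_lit 15537) (nat_lit 0) [] (nat_lit 0) [] false,
   Spec.mk (nat_lit 15543) (nat_lit 0) [] (nat_lit 0) [] false,
   Spec.mk (nat_lit 15569) (nat_lit 0) [] (nat_lit 0) [] false,
   Spec.mk (nat_lit 15575) (nat_lit 0) [] (nat_lit 0) [] false,
   Spec.mk (nat_lit 15577) (nat_lit 0) [] (nat_lit 0) [] false,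
   Spec.mk (nat_lit 15587) (nat_lit 0) [] (nat_lit 0) [] false,
   Spec.mk (nat_lit 15593) (nat_lit 0) [] (nat_lit 0) [] false,
   Spec.mk (nat_lit 15595) (nat_lit 0) [] (nat_lit 0) [] false,
   Spec.mk (nat_lit 15599) (nat_lit 0) [] (nat_lit 0) [] false,
   Spec.mk (nat_lit 15601) (nat_lit 0) [] (nat_lit 0) [] false,
   Spec.mk (nat_lit 15603) (nat_lit 0) [] (nat_lit 0) [] false,
   Spec.mk (nat_lit 15611) (nat_lit 0) [] (nat_lit 0) [] false,
   Spec.mk (nat_lit 15613) (nat_lit 0) [] (nat_lit 0) [] false,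
   Spec.mk (nat_lit 15617) (nat_lit 0) [] (nat_lit 0) [] false,
   Spec.mk (nat_lit 15619) (nat_lit 0) [] (nat_lit 0) [] false,
   Spec.mk (nat_lit 15621) (nat_lit 0) [] (nat_lit 0) [] false,
   Spec.mk (nat_lit 15625) (nat_lit 0) [] (nat_lit 0) [] false,
   Spec.mk (nat_lit 15627) (nat_lit 0) [] (nat_lit 0) [] false,
   Spec.mk (nat_lit 15641) (nat_lit 0) [] (nat_lit 0) [] false,
   Spec.mk (nat_lit 15647) (nat_lit 0) [] (nat_lit 0) [] false,
   Spec.mk (nat_lit 15649) (nat_lit 0) [] (nat_lit 0) [] false]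

noncomputable def cd43 : List Spec :=
  [Spec.mk (nat_lit 15653) (nat_lit 0) [] (nat_lit 0) [] false,
   Spec.mk (nat_lit 15655) (nat_lit 0) [] (nat_lit 0) [] false,
   Spec.mk (nat_lit 15657) (nat_lit 0) [] (nat_lit 0) [] false,
   Spec.mk (nat_lit 15665) (nat_lit 0) [] (nat_lit 0) [] false,
   Spec.mk (nat_lit 15667) (nat_lit 0) [] (nat_lit 0) [] false,
   Spec.mk (nat_lit 15671) (nat_lit 0) [] (nat_lit 0) [] false,
   Spec.mk (nat_lit 15673) (nat_lit 0) [] (nat_lit 0) [] false,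
   Spec.mk (nat_lit 15675) (nat_lit 0) [] (nat_lit 0) [] false,
   Spec.mk (nat_lit 15679) (nat_lit 0) [] (nat_lit 0) [] false,
   Spec.mk (nat_lit 15681) (nat_lit 0) [] (nat_lit 0) [] false,
   Spec.mk (nat_lit 15689) (nat_lit 0) [] (nat_lit 0) [] false,
   Spec.mk (nat_lit 15691) (nat_lit 0) [] (nat_lit 0) [] false,
   Spec.mk (nat_lit 15693) (nat_lit 0) [] (nat_lit 0) [] false,
   Spec.mk (nat_lit 15697) (nat_lit 0) [] (nat_lit 0) [] false,
   Spec.mk (nat_lit 15699) (nat_lit 0) [] (nat_lit 0) [] false,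
   Spec.mk (nat_lit 15705) (nat_lit 0) [] (nat_lit 0) [] false,
   Spec.mk (nat_lit 15719) (nat_lit 0) [] (nat_lit 0) [] false,
   Spec.mk (nat_lit 15721) (nat_lit 0) [] (nat_lit 0) [] false,
   Spec.mk (nat_lit 15725) (nat_lit 0) [] (nat_lit 0) [] false,
   Spec.mk (nat_lit 15727) (nat_lit 0) [] (nat_lit 0) [] false,
   Spec.mk (nat_lit 15729) (nat_lit 0) [] (nat_lit 0) [] false,
   Spec.mk (nat_lit 15733) (nat_lit 0) [] (nat_lit 0) [] false,
   Spec.mk (nat_lit 15735) (nat_lit 0) [] (nat_lit 0) [] false,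
   Spec.mk (nat_lit 15743) (nat_lit 0) [] (nat_lit 0) [] false,
   Spec.mk (nat_lit 15745) (nat_lit 0) [] (nat_lit 0) [] false,
   Spec.mk (nat_lit 15747) (nat_lit 0) [] (nat_lit 0) [] false,
   Spec.mk (nat_lit 15751) (nat_lit 0) [] (nat_lit 0) [] false,
   Spec.mk (nat_lit 15753) (nat_lit 0) [] (nat_lit 0) [] false,
   Spec.mk (nat_lit 15759) (nat_lit 0) [] (nat_lit 0) [] false,
   Spec.mk (nat_lit 15769) (nat_lit 0) [] (nat_lit 0) [] false,
   Spec.mk (nat_lit 15771) (nat_lit 0) [] (nat_lit 0) [] false,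
   Spec.mk (nat_lit 15777) (nat_lit 0) [] (nat_lit 0) [] false,
   Spec.mk (nat_lit 15803) (nat_lit 0) [] (nat_lit 0) [] false,
   Spec.mk (nat_lit 15809) (nat_lit 0) [] (nat_lit 0) [] false,
   Spec.mk (nat_lit 15811) (nat_lit 0) [] (nat_lit 0) [] false,
   Spec.mk (nat_lit 15815) (nat_lit 0) [] (nat_lit 0) [] false,
   Spec.mk (nat_lit 15817) (nat_lit 0) [] (nat_lit 0) [] false,
   Spec.mk (nat_lit 15819) (nat_lit 0) [] (nat_lit 0) [] false,
   Spec.mk (nat_lit 15827) (nat_lit 0) [] (nat_lit 0) [] false,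
   Spec.mk (nat_lit 15829) (nat_lit 0) [] (nat_lit 0) [] false,
   Spec.mk (nat_lit 15833) (nat_lit 0) [] (nat_lit 0) [] false,
   Spec.mk (nat_lit 15835) (nat_lit 0) [] (nat_lit 0) [] false,
   Spec.mk (nat_lit 15837) (nat_lit 0) [] (nat_lit 0) [] false,
   Spec.mk (nat_lit 15841) (nat_lit 0) [] (nat_lit 0) [] false,
   Spec.mk (nat_lit 15843) (nat_lit 0) [] (nat_lit 0) [] false,
   Spec.mk (nat_lit 15851) (nat_lit 0) [] (nat_lit 0) [] false,
   Spec.mk (nat_lit 15853) (nat_lit 0) [] (nat_lit 0) [] false,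
   Spec.mk (nat_lit 15855) (nat_lit 0) [] (nat_lit 0) [] false,
   Spec.mk (nat_lit 15859) (nat_lit 0) [] (nat_lit 0) [] false,
   Spec.mk (nat_lit 15861) (nat_lit 0) [] (nat_lit 0) [] false,
   Spec.mk (nat_lit 15867) (nat_lit 0) [] (nat_lit 0) [] false,
   Spec.mk (nat_lit 15881) (nat_lit 0) [] (nat_lit 0) [] false,
   Spec.mk (nat_lit 15883) (nat_lit 0) [] (nat_lit 0) [] false,
   Spec.mk (nat_lit 15887) (nat_lit 0) [] (nat_lit 0) [] false,
   Spec.mk (nat_lit 15889) (nat_lit 0) [] (nat_lit 0) [] false,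
   Spec.mk (nat_lit 15891) (nat_lit 0) [] (nat_lit 0) [] false,
   Spec.mk (nat_lit 15895) (nat_lit 0) [] (nat_lit 0) [] false,
   Spec.mk (nat_lit 15897) (nat_lit 0) [] (nat_lit 0) [] false,
   Spec.mk (nat_lit 15905) (nat_lit 0) [] (nat_lit 0) [] false,
   Spec.mk (nat_lit 15907) (nat_lit 0) [] (nat_lit 0) [] false]

noncomputable def cd44 : List Spec :=
  [Spec.mk (nat_lit 15909) (nat_lit 0) [] (nat_lit 0) [] false,
   Spec.mk (nat_lit 15913) (nat_lit 0) [] (nat_lit 0) [] false,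
   Spec.mk (nat_lit 15915) (nat_lit 0) [] (nat_lit 0) [] false,
   Spec.mk (nat_lit 15921) (nat_lit 0) [] (nat_lit 0) [] false,
   Spec.mk (nat_lit 15931) (nat_lit 0) [] (nat_lit 0) [] false,
   Spec.mk (nat_lit 15933) (nat_lit 0) [] (nat_lit 0) [] false,
   Spec.mk (nat_lit 15939) (nat_lit 0) [] (nat_lit 0) [] false,
   Spec.mk (nat_lit 15959) (nat_lit 0) [] (nat_lit 0) [] false,
   Spec.mk (nat_lit 15961) (nat_lit 0) [] (nat_lit 0) [] false,
   Spec.mk (nat_lit 15963) (nat_lit 0) [] (nat_lit 0) [] false,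
   Spec.mk (nat_lit 15967) (nat_lit 0) [] (nat_lit 0) [] false,
   Spec.mk (nat_lit 15969) (nat_lit 0) [] (nat_lit 0) [] false,
   Spec.mk (nat_lit 15975) (nat_lit 0) [] (nat_lit 0) [] false,
   Spec.mk (nat_lit 15985) (nat_lit 0) [] (nat_lit 0) [] false,
   Spec.mk (nat_lit 15987) (nat_lit 0) [] (nat_lit 0) [] false,
   Spec.mk (nat_lit 15993) (nat_lit 0) [] (nat_lit 0) [] false,
   Spec.mk (nat_lit 16011) (nat_lit 0) [] (nat_lit 0) [] false,
   Spec.mk (nat_lit 16055) (nat_lit 0) [] (nat_lit 0) [] false,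
   Spec.mk (nat_lit 16061) (nat_lit 0) [] (nat_lit 0) [] false,
   Spec.mk (nat_lit 16063) (nat_lit 0) [] (nat_lit 0) [] false,
   Spec.mk (nat_lit 16073) (nat_lit 0) [] (nat_lit 0) [] false,
   Spec.mk (nat_lit 16079) (nat_lit 0) [] (nat_lit 0) [] false,
   Spec.mk (nat_lit 16081) (nat_lit 0) [] (nat_lit 0) [] false,
   Spec.mk (nat_lit 16085) (nat_lit 0) [] (nat_lit 0) [] false,
   Spec.mk (nat_lit 16087) (nat_lit 0) [] (nat_lit 0) [] false,
   Spec.mk (nat_lit 16089) (nat_lit 0) [] (nat_lit 0) [] false,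
   Spec.mk (nat_lit 16097) (nat_lit 0) [] (nat_lit 0) [] false,
   Spec.mk (nat_lit 16099) (nat_lit 0) [] (nat_lit 0) [] false,
   Spec.mk (nat_lit 16103) (nat_lit 0) [] (nat_lit 0) [] false,
   Spec.mk (nat_lit 16105) (nat_lit 0) [] (nat_lit 0) [] false,
   Spec.mk (nat_lit 16107) (nat_lit 0) [] (nat_lit 0) [] false,
   Spec.mk (nat_lit 16111) (nat_lit 0) [] (nat_lit 0) [] false,
   Spec.mk (nat_lit 16113) (nat_lit 0) [] (nat_lit 0) [] false,
   Spec.mk (nat_lit 16127) (nat_lit 0) [] (nat_lit 0) [] false,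
   Spec.mk (nat_lit 16133) (nat_lit 0) [] (nat_lit 0) [] false,
   Spec.mk (nat_lit 16135) (nat_lit 0) [] (nat_lit 0) [] false,
   Spec.mk (nat_lit 16139) (nat_lit 0) [] (nat_lit 0) [] false,
   Spec.mk (nat_lit 16141) (nat_lit 0) [] (nat_lit 0) [] false,
   Spec.mk (nat_lit 16143) (nat_lit 0) [] (nat_lit 0) [] false,
   Spec.mk (nat_lit 16151) (nat_lit 0) [] (nat_lit 0) [] false,
   Spec.mk (nat_lit 16153) (nat_lit 0) [] (nat_lit 0) [] false,
   Spec.mk (nat_lit 16157) (nat_lit 0) [] (nat_lit 0) [] false,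
   Spec.mk (nat_lit 16159) (nat_lit 0) [] (nat_lit 0) [] false,
   Spec.mk (nat_lit 16161) (nat_lit 0) [] (nat_lit 0) [] false,
   Spec.mk (nat_lit 16165) (nat_lit 0) [] (nat_lit 0) [] false,
   Spec.mk (nat_lit 16167) (nat_lit 0) [] (nat_lit 0) [] false,
   Spec.mk (nat_lit 16175) (nat_lit 0) [] (nat_lit 0) [] false,
   Spec.mk (nat_lit 16177) (nat_lit 0) [] (nat_lit 0) [] false,
   Spec.mk (nat_lit 16179) (nat_lit 0) [] (nat_lit 0) [] false,
   Spec.mk (nat_lit 16183) (nat_lit 0) [] (nat_lit 0) [] false,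
   Spec.mk (nat_lit 16185) (nat_lit 0) [] (nat_lit 0) [] false,
   Spec.mk (nat_lit 16191) (nat_lit 0) [] (nat_lit 0) [] false,
   Spec.mk (nat_lit 16205) (nat_lit 0) [] (nat_lit 0) [] false,
   Spec.mk (nat_lit 16207) (nat_lit 0) [] (nat_lit 0) [] false,
   Spec.mk (nat_lit 16211) (nat_lit 0) [] (nat_lit 0) [] false,
   Spec.mk (nat_lit 16213) (nat_lit 0) [] (nat_lit 0) [] false,
   Spec.mk (nat_lit 16215) (nat_lit 0) [] (nat_lit 0) [] false,
   Spec.mk (nat_lit 16219) (nat_lit 0) [] (nat_lit 0) [] false,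
   Spec.mk (nat_lit 16221) (nat_lit 0) [] (nat_lit 0) [] false,
   Spec.mk (nat_lit 16229) (nat_lit 0) [] (nat_lit 0) [] false]

noncomputable def cd45 : List Spec :=
  [Spec.mk (nat_lit 16231) (nat_lit 0) [] (nat_lit 0) [] false,
   Spec.mk (nat_lit 16233) (nat_lit 0) [] (nat_lit 0) [] false,
   Spec.mk (nat_lit 16237) (nat_lit 0) [] (nat_lit 0) [] false,
   Spec.mk (nat_lit 16239) (nat_lit 0) [] (nat_lit 0) [] false,
   Spec.mk (nat_lit 16245) (nat_lit 0) [] (nat_lit 0) [] false,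
   Spec.mk (nat_lit 16255) (nat_lit 0) [] (nat_lit 0) [] false,
   Spec.mk (nat_lit 16257) (nat_lit 0) [] (nat_lit 0) [] false,
   Spec.mk (nat_lit 16263) (nat_lit 0) [] (nat_lit 0) [] false,
   Spec.mk (nat_lit 16289) (nat_lit 0) [] (nat_lit 0) [] false,
   Spec.mk (nat_lit 16295) (nat_lit 0) [] (nat_lit 0) [] false,
   Spec.mk (nat_lit 16297) (nat_lit 0) [] (nat_lit 0) [] false,
   Spec.mk (nat_lit 16301) (nat_lit 0) [] (nat_lit 0) [] false,
   Spec.mk (nat_lit 16303) (nat_lit 0) [] (nat_lit 0) [] false,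
   Spec.mk (nat_lit 16305) (nat_lit 0) [] (nat_lit 0) [] false,
   Spec.mk (nat_lit 16313) (nat_lit 0) [] (nat_lit 0) [] false,
   Spec.mk (nat_lit 16315) (nat_lit 0) [] (nat_lit 0) [] false,
   Spec.mk (nat_lit 16319) (nat_lit 0) [] (nat_lit 0) [] false,
   Spec.mk (nat_lit 16321) (nat_lit 0) [] (nat_lit 0) [] false,
   Spec.mk (nat_lit 16323) (nat_lit 0) [] (nat_lit 0) [] false,
   Spec.mk (nat_lit 16327) (nat_lit 0) [] (nat_lit 0) [] false,
   Spec.mk (nat_lit 16329) (nat_lit 0) [] (nat_lit 0) [] false,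
   Spec.mk (nat_lit 16337) (nat_lit 0) [] (nat_lit 0) [] false,
   Spec.mk (nat_lit 16339) (nat_lit 0) [] (nat_lit 0) [] false,
   Spec.mk (nat_lit 16341) (nat_lit 0) [] (nat_lit 0) [] false,
   Spec.mk (nat_lit 16345) (nat_lit 0) [] (nat_lit 0) [] false,
   Spec.mk (nat_lit 16347) (nat_lit 0) [] (nat_lit 0) [] false,
   Spec.mk (nat_lit 16353) (nat_lit 0) [] (nat_lit 0) [] false,
   Spec.mk (nat_lit 16367) (nat_lit 0) [] (nat_lit 0) [] false,
   Spec.mk (nat_lit 16369) (nat_lit 0) [] (nat_lit 0) [] false,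
   Spec.mk (nat_lit 16373) (nat_lit 0) [] (nat_lit 0) [] false,
   Spec.mk (nat_lit 16375) (nat_lit 0) [] (nat_lit 0) [] false,
   Spec.mk (nat_lit 16377) (nat_lit 0) [] (nat_lit 0) [] false,
   Spec.mk (nat_lit 16381) (nat_lit 0) [] (nat_lit 0) [] false,
   Spec.mk (nat_lit 16383) (nat_lit 0) [] (nat_lit 0) [] false,
   Spec.mk (nat_lit 16391) (nat_lit 0) [] (nat_lit 0) [] false,
   Spec.mk (nat_lit 16393) (nat_lit 0) [] (nat_lit 0) [] false,
   Spec.mk (nat_lit 16395) (nat_lit 0) [] (nat_lit 0) [] false,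
   Spec.mk (nat_lit 16399) (nat_lit 0) [] (nat_lit 0) [] false,
   Spec.mk (nat_lit 16401) (nat_lit 0) [] (nat_lit 0) [] false,
   Spec.mk (nat_lit 16407) (nat_lit 0) [] (nat_lit 0) [] false,
   Spec.mk (nat_lit 16417) (nat_lit 0) [] (nat_lit 0) [] false,
   Spec.mk (nat_lit 16419) (nat_lit 0) [] (nat_lit 0) [] false,
   Spec.mk (nat_lit 16425) (nat_lit 0) [] (nat_lit 0) [] false,
   Spec.mk (nat_lit 16445) (nat_lit 0) [] (nat_lit 0) [] false,
   Spec.mk (nat_lit 16447) (nat_lit 0) [] (nat_lit 0) [] false,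
   Spec.mk (nat_lit 16449) (nat_lit 0) [] (nat_lit 0) [] false,
   Spec.mk (nat_lit 16453) (nat_lit 0) [] (nat_lit 0) [] false,
   Spec.mk (nat_lit 16455) (nat_lit 0) [] (nat_lit 0) [] false,
   Spec.mk (nat_lit 16461) (nat_lit 0) [] (nat_lit 0) [] false,
   Spec.mk (nat_lit 16471) (nat_lit 0) [] (nat_lit 0) [] false,
   Spec.mk (nat_lit 16473) (nat_lit 0) [] (nat_lit 0) [] false,
   Spec.mk (nat_lit 16479) (nat_lit 0) [] (nat_lit 0) [] false,
   Spec.mk (nat_lit 16497) (nat_lit 0) [] (nat_lit 0) [] false,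
   Spec.mk (nat_lit 16529) (nat_lit 0) [] (nat_lit 0) [] false,
   Spec.mk (nat_lit 16531) (nat_lit 0) [] (nat_lit 0) [] false,
   Spec.mk (nat_lit 16535) (nat_lit 0) [] (nat_lit 0) [] false,
   Spec.mk (nat_lit 16537) (nat_lit 0) [] (nat_lit 0) [] false,
   Spec.mk (nat_lit 16539) (nat_lit 0) [] (nat_lit 0) [] false,
   Spec.mk (nat_lit 16543) (nat_lit 0) [] (nat_lit 0) [] false,
   Spec.mk (nat_lit 16545) (nat_lit 0) [] (nat_lit 0) [] false]

noncomputable def cd46 : List Spec :=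
  [Spec.mk (nat_lit 16553) (nat_lit 0) [] (nat_lit 0) [] false,
   Spec.mk (nat_lit 16555) (nat_lit 0) [] (nat_lit 0) [] false,
   Spec.mk (nat_lit 16557) (nat_lit 0) [] (nat_lit 0) [] false,
   Spec.mk (nat_lit 16561) (nat_lit 0) [] (nat_lit 0) [] false,
   Spec.mk (nat_lit 16563) (nat_lit 0) [] (nat_lit 0) [] false,
   Spec.mk (nat_lit 16569) (nat_lit 0) [] (nat_lit 0) [] false,
   Spec.mk (nat_lit 16579) (nat_lit 0) [] (nat_lit 0) [] false,
   Spec.mk (nat_lit 16581) (nat_lit 0) [] (nat_lit 0) [] false,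
   Spec.mk (nat_lit 16587) (nat_lit 0) [] (nat_lit 0) [] false,
   Spec.mk (nat_lit 16607) (nat_lit 0) [] (nat_lit 0) [] false,
   Spec.mk (nat_lit 16609) (nat_lit 0) [] (nat_lit 0) [] false,
   Spec.mk (nat_lit 16611) (nat_lit 0) [] (nat_lit 0) [] false,
   Spec.mk (nat_lit 16615) (nat_lit 0) [] (nat_lit 0) [] false,
   Spec.mk (nat_lit 16617) (nat_lit 0) [] (nat_lit 0) [] false,
   Spec.mk (nat_lit 16623) (nat_lit 0) [] (nat_lit 0) [] false,
   Spec.mk (nat_lit 16633) (nat_lit 0) [] (nat_lit 0) [] false,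
   Spec.mk (nat_lit 16635) (nat_lit 0) [] (nat_lit 0) [] false,
   Spec.mk (nat_lit 16641) (nat_lit 0) [] (nat_lit 0) [] false,
   Spec.mk (nat_lit 16659) (nat_lit 0) [] (nat_lit 0) [] false,
   Spec.mk (nat_lit 16687) (nat_lit 0) [] (nat_lit 0) [] false,
   Spec.mk (nat_lit 16689) (nat_lit 0) [] (nat_lit 0) [] false,
   Spec.mk (nat_lit 16695) (nat_lit 0) [] (nat_lit 0) [] false,
   Spec.mk (nat_lit 16713) (nat_lit 0) [] (nat_lit 0) [] false,
   Spec.mk (nat_lit 16775) (nat_lit 0) [] (nat_lit 0) [] false,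
   Spec.mk (nat_lit 16781) (nat_lit 0) [] (nat_lit 0) [] false,
   Spec.mk (nat_lit 16783) (nat_lit 0) [] (nat_lit 0) [] false,
   Spec.mk (nat_lit 16787) (nat_lit 0) [] (nat_lit 0) [] false,
   Spec.mk (nat_lit 16789) (nat_lit 0) [] (nat_lit 0) [] false,
   Spec.mk (nat_lit 16791) (nat_lit 0) [] (nat_lit 0) [] false,
   Spec.mk (nat_lit 16799) (nat_lit 0) [] (nat_lit 0) [] false,
   Spec.mk (nat_lit 16801) (nat_lit 0) [] (nat_lit 0) [] false,
   Spec.mk (nat_lit 16805) (nat_lit 0) [] (nat_lit 0) [] false,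
   Spec.mk (nat_lit 16807) (nat_lit 0) [] (nat_lit 0) [] false,
   Spec.mk (nat_lit 16809) (nat_lit 0) [] (nat_lit 0) [] false,
   Spec.mk (nat_lit 16813) (nat_lit 0) [] (nat_lit 0) [] false,
   Spec.mk (nat_lit 16815) (nat_lit 0) [] (nat_lit 0) [] false,
   Spec.mk (nat_lit 16823) (nat_lit 0) [] (nat_lit 0) [] false,
   Spec.mk (nat_lit 16825) (nat_lit 0) [] (nat_lit 0) [] false,
   Spec.mk (nat_lit 16827) (nat_lit 0) [] (nat_lit 0) [] false,
   Spec.mk (nat_lit 16831) (nat_lit 0) [] (nat_lit 0) [] false,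
   Spec.mk (nat_lit 16833) (nat_lit 0) [] (nat_lit 0) [] false,
   Spec.mk (nat_lit 16839) (nat_lit 0) [] (nat_lit 0) [] false,
   Spec.mk (nat_lit 16853) (nat_lit 0) [] (nat_lit 0) [] false,
   Spec.mk (nat_lit 16855) (nat_lit 0) [] (nat_lit 0) [] false,
   Spec.mk (nat_lit 16859) (nat_lit 0) [] (nat_lit 0) [] false,
   Spec.mk (nat_lit 16861) (nat_lit 0) [] (nat_lit 0) [] false,
   Spec.mk (nat_lit 16863) (nat_lit 0) [] (nat_lit 0) [] false,
   Spec.mk (nat_lit 16867) (nat_lit 0) [] (nat_lit 0) [] false,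
   Spec.mk (nat_lit 16869) (nat_lit 0) [] (nat_lit 0) [] false,
   Spec.mk (nat_lit 16877) (nat_lit 0) [] (nat_lit 0) [] false,
   Spec.mk (nat_lit 16879) (nat_lit 0) [] (nat_lit 0) [] false,
   Spec.mk (nat_lit 16881) (nat_lit 0) [] (nat_lit 0) [] false,
   Spec.mk (nat_lit 16885) (nat_lit 0) [] (nat_lit 0) [] false,
   Spec.mk (nat_lit 16887) (nat_lit 0) [] (nat_lit 0) [] false,
   Spec.mk (nat_lit 16893) (nat_lit 0) [] (nat_lit 0) [] false,
   Spec.mk (nat_lit 16903) (nat_lit 0) [] (nat_lit 0) [] false,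
   Spec.mk (nat_lit 16905) (nat_lit 0) [] (nat_lit 0) [] false,
   Spec.mk (nat_lit 16911) (nat_lit 0) [] (nat_lit 0) [] false,
   Spec.mk (nat_lit 16931) (nat_lit 0) [] (nat_lit 0) [] false,
   Spec.mk (nat_lit 16933) (nat_lit 0) [] (nat_lit 0) [] false]

noncomputable def cd47 : List Spec :=
  [Spec.mk (nat_lit 16935) (nat_lit 0) [] (nat_lit 0) [] false,
   Spec.mk (nat_lit 16939) (nat_lit 0) [] (nat_lit 0) [] false,
   Spec.mk (nat_lit 16941) (nat_lit 0) [] (nat_lit 0) [] false,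
   Spec.mk (nat_lit 16947) (nat_lit 0) [] (nat_lit 0) [] false,
   Spec.mk (nat_lit 16957) (nat_lit 0) [] (nat_lit 0) [] false,
   Spec.mk (nat_lit 16959) (nat_lit 0) [] (nat_lit 0) [] false,
   Spec.mk (nat_lit 16965) (nat_lit 0) [] (nat_lit 0) [] false,
   Spec.mk (nat_lit 16983) (nat_lit 0) [] (nat_lit 0) [] false,
   Spec.mk (nat_lit 17015) (nat_lit 0) [] (nat_lit 0) [] false,
   Spec.mk (nat_lit 17017) (nat_lit 0) [] (nat_lit 0) [] false,
   Spec.mk (nat_lit 17021) (nat_lit 0) [] (nat_lit 0) [] false,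
   Spec.mk (nat_lit 17023) (nat_lit 0) [] (nat_lit 0) [] false,
   Spec.mk (nat_lit 17025) (nat_lit 0) [] (nat_lit 0) [] false,
   Spec.mk (nat_lit 17029) (nat_lit 0) [] (nat_lit 0) [] false,
   Spec.mk (nat_lit 17031) (nat_lit 0) [] (nat_lit 0) [] false,
   Spec.mk (nat_lit 17039) (nat_lit 0) [] (nat_lit 0) [] false,
   Spec.mk (nat_lit 17041) (nat_lit 0) [] (nat_lit 0) [] false,
   Spec.mk (nat_lit 17043) (nat_lit 0) [] (nat_lit 0) [] false,
   Spec.mk (nat_lit 17047) (nat_lit 0) [] (nat_lit 0) [] false,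
   Spec.mk (nat_lit 17049) (nat_lit 0) [] (nat_lit 0) [] false,
   Spec.mk (nat_lit 17055) (nat_lit 0) [] (nat_lit 0) [] false,
   Spec.mk (nat_lit 17065) (nat_lit 0) [] (nat_lit 0) [] false,
   Spec.mk (nat_lit 17067) (nat_lit 0) [] (nat_lit 0) [] false,
   Spec.mk (nat_lit 17073) (nat_lit 0) [] (nat_lit 0) [] false,
   Spec.mk (nat_lit 17093) (nat_lit 0) [] (nat_lit 0) [] false,
   Spec.mk (nat_lit 17095) (nat_lit 0) [] (nat_lit 0) [] false,
   Spec.mk (nat_lit 17097) (nat_lit 0) [] (nat_lit 0) [] false,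
   Spec.mk (nat_lit 17101) (nat_lit 0) [] (nat_lit 0) [] false,
   Spec.mk (nat_lit 17103) (nat_lit 0) [] (nat_lit 0) [] false,
   Spec.mk (nat_lit 17109) (nat_lit 0) [] (nat_lit 0) [] false,
   Spec.mk (nat_lit 17119) (nat_lit 0) [] (nat_lit 0) [] false,
   Spec.mk (nat_lit 17121) (nat_lit 0) [] (nat_lit 0) [] false,
   Spec.mk (nat_lit 17127) (nat_lit 0) [] (nat_lit 0) [] false,
   Spec.mk (nat_lit 17145) (nat_lit 0) [] (nat_lit 0) [] false,
   Spec.mk (nat_lit 17173) (nat_lit 0) [] (nat_lit 0) [] false,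
   Spec.mk (nat_lit 17175) (nat_lit 0) [] (nat_lit 0) [] false,
   Spec.mk (nat_lit 17181) (nat_lit 0) [] (nat_lit 0) [] false,
   Spec.mk (nat_lit 17199) (nat_lit 0) [] (nat_lit 0) [] false,
   Spec.mk (nat_lit 17255) (nat_lit 0) [] (nat_lit 0) [] false,
   Spec.mk (nat_lit 17257) (nat_lit 0) [] (nat_lit 0) [] false,
   Spec.mk (nat_lit 17259) (nat_lit 0) [] (nat_lit 0) [] false,
   Spec.mk (nat_lit 17263) (nat_lit 0) [] (nat_lit 0) [] false,
   Spec.mk (nat_lit 17265) (nat_lit 0) [] (nat_lit 0) [] false,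
   Spec.mk (nat_lit 17271) (nat_lit 0) [] (nat_lit 0) [] false,
   Spec.mk (nat_lit 17281) (nat_lit 0) [] (nat_lit 0) [] false,
   Spec.mk (nat_lit 17283) (nat_lit 0) [] (nat_lit 0) [] false,
   Spec.mk (nat_lit 17289) (nat_lit 0) [] (nat_lit 0) [] false,
   Spec.mk (nat_lit 17307) (nat_lit 0) [] (nat_lit 0) [] false,
   Spec.mk (nat_lit 17335) (nat_lit 0) [] (nat_lit 0) [] false,
   Spec.mk (nat_lit 17337) (nat_lit 0) [] (nat_lit 0) [] false,
   Spec.mk (nat_lit 17343) (nat_lit 0) [] (nat_lit 0) [] false,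
   Spec.mk (nat_lit 17361) (nat_lit 0) [] (nat_lit 0) [] false,
   Spec.mk (nat_lit 17415) (nat_lit 0) [] (nat_lit 0) [] false,
   Spec.mk (nat_lit 17513) (nat_lit 0) [] (nat_lit 0) [] false,
   Spec.mk (nat_lit 17519) (nat_lit 0) [] (nat_lit 0) [] false,
   Spec.mk (nat_lit 17521) (nat_lit 0) [] (nat_lit 0) [] false,
   Spec.mk (nat_lit 17531) (nat_lit 0) [] (nat_lit 0) [] false,
   Spec.mk (nat_lit 17537) (nat_lit 0) [] (nat_lit 0) [] false,
   Spec.mk (nat_lit 17539) (nat_lit 0) [] (nat_lit 0) [] false,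
   Spec.mk (nat_lit 17543) (nat_lit 0) [] (nat_lit 0) [] false]

noncomputable def cd48 : List Spec :=
  [Spec.mk (nat_lit 17545) (nat_lit 0) [] (nat_lit 0) [] false,
   Spec.mk (nat_lit 17547) (nat_lit 0) [] (nat_lit 0) [] false,
   Spec.mk (nat_lit 17555) (nat_lit 0) [] (nat_lit 0) [] false,
   Spec.mk (nat_lit 17557) (nat_lit 0) [] (nat_lit 0) [] false,
   Spec.mk (nat_lit 17561) (nat_lit 0) [] (nat_lit 0) [] false,
   Spec.mk (nat_lit 17563) (nat_lit 0) [] (nat_lit 0) [] false,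
   Spec.mk (nat_lit 17565) (nat_lit 0) [] (nat_lit 0) [] false,
   Spec.mk (nat_lit 17569) (nat_lit 0) [] (nat_lit 0) [] false,
   Spec.mk (nat_lit 17571) (nat_lit 0) [] (nat_lit 0) [] false,
   Spec.mk (nat_lit 17585) (nat_lit 0) [] (nat_lit 0) [] false,
   Spec.mk (nat_lit 17591) (nat_lit 0) [] (nat_lit 0) [] false,
   Spec.mk (nat_lit 17593) (nat_lit 0) [] (nat_lit 0) [] false,
   Spec.mk (nat_lit 17597) (nat_lit 0) [] (nat_lit 0) [] false,
   Spec.mk (nat_lit 17599) (nat_lit 0) [] (nat_lit 0) [] false,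
   Spec.mk (nat_lit 17601) (nat_lit 0) [] (nat_lit 0) [] false,
   Spec.mk (nat_lit 17609) (nat_lit 0) [] (nat_lit 0) [] false,
   Spec.mk (nat_lit 17611) (nat_lit 0) [] (nat_lit 0) [] false,
   Spec.mk (nat_lit 17615) (nat_lit 0) [] (nat_lit 0) [] false,
   Spec.mk (nat_lit 17617) (nat_lit 0) [] (nat_lit 0) [] false,
   Spec.mk (nat_lit 17619) (nat_lit 0) [] (nat_lit 0) [] false,
   Spec.mk (nat_lit 17623) (nat_lit 0) [] (nat_lit 0) [] false,
   Spec.mk (nat_lit 17625) (nat_lit 0) [] (nat_lit 0) [] false,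
   Spec.mk (nat_lit 17633) (nat_lit 0) [] (nat_lit 0) [] false,
   Spec.mk (nat_lit 17635) (nat_lit 0) [] (nat_lit 0) [] false,
   Spec.mk (nat_lit 17637) (nat_lit 0) [] (nat_lit 0) [] false,
   Spec.mk (nat_lit 17641) (nat_lit 0) [] (nat_lit 0) [] false,
   Spec.mk (nat_lit 17643) (nat_lit 0) [] (nat_lit 0) [] false,
   Spec.mk (nat_lit 17649) (nat_lit 0) [] (nat_lit 0) [] false,
   Spec.mk (nat_lit 17663) (nat_lit 0) [] (nat_lit 0) [] false,
   Spec.mk (nat_lit 17665) (nat_lit 0) [] (nat_lit 0) [] false,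
   Spec.mk (nat_lit 17669) (nat_lit 0) [] (nat_lit 0) [] false,
   Spec.mk (nat_lit 17671) (nat_lit 0) [] (nat_lit 0) [] false,
   Spec.mk (nat_lit 17673) (nat_lit 0) [] (nat_lit 0) [] false,
   Spec.mk (nat_lit 17677) (nat_lit 0) [] (nat_lit 0) [] false,
   Spec.mk (nat_lit 17679) (nat_lit 0) [] (nat_lit 0) [] false,
   Spec.mk (nat_lit 17687) (nat_lit 0) [] (nat_lit 0) [] false,
   Spec.mk (nat_lit 17689) (nat_lit 0) [] (nat_lit 0) [] false,
   Spec.mk (nat_lit 17691) (nat_lit 0) [] (nat_lit 0) [] false,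
   Spec.mk (nat_lit 17695) (nat_lit 0) [] (nat_lit 0) [] false,
   Spec.mk (nat_lit 17697) (nat_lit 0) [] (nat_lit 0) [] false,
   Spec.mk (nat_lit 17703) (nat_lit 0) [] (nat_lit 0) [] false,
   Spec.mk (nat_lit 17713) (nat_lit 0) [] (nat_lit 0) [] false,
   Spec.mk (nat_lit 17715) (nat_lit 0) [] (nat_lit 0) [] false,
   Spec.mk (nat_lit 17721) (nat_lit 0) [] (nat_lit 0) [] false,
   Spec.mk (nat_lit 17747) (nat_lit 0) [] (nat_lit 0) [] false,
   Spec.mk (nat_lit 17753) (nat_lit 0) [] (nat_lit 0) [] false,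
   Spec.mk (nat_lit 17755) (nat_lit 0) [] (nat_lit 0) [] false,
   Spec.mk (nat_lit 17759) (nat_lit 0) [] (nat_lit 0) [] false,
   Spec.mk (nat_lit 17761) (nat_lit 0) [] (nat_lit 0) [] false,
   Spec.mk (nat_lit 17763) (nat_lit 0) [] (nat_lit 0) [] false,
   Spec.mk (nat_lit 17771) (nat_lit 0) [] (nat_lit 0) [] false,
   Spec.mk (nat_lit 17773) (nat_lit 0) [] (nat_lit 0) [] false,
   Spec.mk (nat_lit 17777) (nat_lit 0) [] (nat_lit 0) [] false,
   Spec.mk (nat_lit 17779) (nat_lit 0) [] (nat_lit 0) [] false,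
   Spec.mk (nat_lit 17781) (nat_lit 0) [] (nat_lit 0) [] false,
   Spec.mk (nat_lit 17785) (nat_lit 0) [] (nat_lit 0) [] false,
   Spec.mk (nat_lit 17787) (nat_lit 0) [] (nat_lit 0) [] false,
   Spec.mk (nat_lit 17795) (nat_lit 0) [] (nat_lit 0) [] false,
   Spec.mk (nat_lit 17797) (nat_lit 0) [] (nat_lit 0) [] false,
   Spec.mk (nat_lit 17799) (nat_lit 0) [] (nat_lit 0) [] false]

noncomputable def cd49 : List Spec :=
  [Spec.mk (nat_lit 17803) (nat_lit 0) [] (nat_lit 0) [] false,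
   Spec.mk (nat_lit 17805) (nat_lit 0) [] (nat_lit 0) [] false,
   Spec.mk (nat_lit 17811) (nat_lit 0) [] (nat_lit 0) [] false,
   Spec.mk (nat_lit 17825) (nat_lit 0) [] (nat_lit 0) [] false,
   Spec.mk (nat_lit 17827) (nat_lit 0) [] (nat_lit 0) [] false,
   Spec.mk (nat_lit 17831) (nat_lit 0) [] (nat_lit 0) [] false,
   Spec.mk (nat_lit 17833) (nat_lit 0) [] (nat_lit 0) [] false,
   Spec.mk (nat_lit 17835) (nat_lit 0) [] (nat_lit 0) [] false,
   Spec.mk (nat_lit 17839) (nat_lit 0) [] (nat_lit 0) [] false,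
   Spec.mk (nat_lit 17841) (nat_lit 0) [] (nat_lit 0) [] false,
   Spec.mk (nat_lit 17849) (nat_lit 0) [] (nat_lit 0) [] false,
   Spec.mk (nat_lit 17851) (nat_lit 0) [] (nat_lit 0) [] false,
   Spec.mk (nat_lit 17853) (nat_lit 0) [] (nat_lit 0) [] false,
   Spec.mk (nat_lit 17857) (nat_lit 0) [] (nat_lit 0) [] false,
   Spec.mk (nat_lit 17859) (nat_lit 0) [] (nat_lit 0) [] false,
   Spec.mk (nat_lit 17865) (nat_lit 0) [] (nat_lit 0) [] false,
   Spec.mk (nat_lit 17875) (nat_lit 0) [] (nat_lit 0) [] false,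
   Spec.mk (nat_lit 17877) (nat_lit 0) [] (nat_lit 0) [] false,
   Spec.mk (nat_lit 17883) (nat_lit 0) [] (nat_lit 0) [] false,
   Spec.mk (nat_lit 17903) (nat_lit 0) [] (nat_lit 0) [] false,
   Spec.mk (nat_lit 17905) (nat_lit 0) [] (nat_lit 0) [] false,
   Spec.mk (nat_lit 17907) (nat_lit 0) [] (nat_lit 0) [] false,
   Spec.mk (nat_lit 17911) (nat_lit 0) [] (nat_lit 0) [] false,
   Spec.mk (nat_lit 17913) (nat_lit 0) [] (nat_lit 0) [] false,
   Spec.mk (nat_lit 17919) (nat_lit 0) [] (nat_lit 0) [] false,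
   Spec.mk (nat_lit 17929) (nat_lit 0) [] (nat_lit 0) [] false,
   Spec.mk (nat_lit 17931) (nat_lit 0) [] (nat_lit 0) [] false,
   Spec.mk (nat_lit 17937) (nat_lit 0) [] (nat_lit 0) [] false,
   Spec.mk (nat_lit 17955) (nat_lit 0) [] (nat_lit 0) [] false,
   Spec.mk (nat_lit 17987) (nat_lit 0) [] (nat_lit 0) [] false,
   Spec.mk (nat_lit 17989) (nat_lit 0) [] (nat_lit 0) [] false,
   Spec.mk (nat_lit 17993) (nat_lit 0) [] (nat_lit 0) [] false,
   Spec.mk (nat_lit 17995) (nat_lit 0) [] (nat_lit 0) [] false,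
   Spec.mk (nat_lit 17997) (nat_lit 0) [] (nat_lit 0) [] false,
   Spec.mk (nat_lit 18001) (nat_lit 0) [] (nat_lit 0) [] false,
   Spec.mk (nat_lit 18003) (nat_lit 0) [] (nat_lit 0) [] false,
   Spec.mk (nat_lit 18011) (nat_lit 0) [] (nat_lit 0) [] false,
   Spec.mk (nat_lit 18013) (nat_lit 0) [] (nat_lit 0) [] false,
   Spec.mk (nat_lit 18015) (nat_lit 0) [] (nat_lit 0) [] false,
   Spec.mk (nat_lit 18019) (nat_lit 0) [] (nat_lit 0) [] false,
   Spec.mk (nat_lit 18021) (nat_lit 0) [] (nat_lit 0) [] false,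
   Spec.mk (nat_lit 18027) (nat_lit 0) [] (nat_lit 0) [] false,
   Spec.mk (nat_lit 18037) (nat_lit 0) [] (nat_lit 0) [] false,
   Spec.mk (nat_lit 18039) (nat_lit 0) [] (nat_lit 0) [] false,
   Spec.mk (nat_lit 18045) (nat_lit 0) [] (nat_lit 0) [] false,
   Spec.mk (nat_lit 18065) (nat_lit 0) [] (nat_lit 0) [] false,
   Spec.mk (nat_lit 18067) (nat_lit 0) [] (nat_lit 0) [] false,
   Spec.mk (nat_lit 18069) (nat_lit 0) [] (nat_lit 0) [] false,
   Spec.mk (nat_lit 18073) (nat_lit 0) [] (nat_lit 0) [] false,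
   Spec.mk (nat_lit 18075) (nat_lit 0) [] (nat_lit 0) [] false,
   Spec.mk (nat_lit 18081) (nat_lit 0) [] (nat_lit 0) [] false,
   Spec.mk (nat_lit 18091) (nat_lit 0) [] (nat_lit 0) [] false,
   Spec.mk (nat_lit 18093) (nat_lit 0) [] (nat_lit 0) [] false,
   Spec.mk (nat_lit 18099) (nat_lit 0) [] (nat_lit 0) [] false,
   Spec.mk (nat_lit 18117) (nat_lit 0) [] (nat_lit 0) [] false,
   Spec.mk (nat_lit 18145) (nat_lit 0) [] (nat_lit 0) [] false,
   Spec.mk (nat_lit 18147) (nat_lit 0) [] (nat_lit 0) [] false,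
   Spec.mk (nat_lit 18153) (nat_lit 0) [] (nat_lit 0) [] false,
   Spec.mk (nat_lit 18171) (nat_lit 0) [] (nat_lit 0) [] false,
   Spec.mk (nat_lit 18233) (nat_lit 0) [] (nat_lit 0) [] false]

noncomputable def cd50 : List Spec :=
  [Spec.mk (nat_lit 18239) (nat_lit 0) [] (nat_lit 0) [] false,
   Spec.mk (nat_lit 18241) (nat_lit 0) [] (nat_lit 0) [] false,
   Spec.mk (nat_lit 18245) (nat_lit 0) [] (nat_lit 0) [] false,
   Spec.mk (nat_lit 18247) (nat_lit 0) [] (nat_lit 0) [] false,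
   Spec.mk (nat_lit 18249) (nat_lit 0) [] (nat_lit 0) [] false,
   Spec.mk (nat_lit 18257) (nat_lit 0) [] (nat_lit 0) [] false,
   Spec.mk (nat_lit 18259) (nat_lit 0) [] (nat_lit 0) [] false,
   Spec.mk (nat_lit 18263) (nat_lit 0) [] (nat_lit 0) [] false,
   Spec.mk (nat_lit 18265) (nat_lit 0) [] (nat_lit 0) [] false,
   Spec.mk (nat_lit 18267) (nat_lit 0) [] (nat_lit 0) [] false,
   Spec.mk (nat_lit 18271) (nat_lit 0) [] (nat_lit 0) [] false,
   Spec.mk (nat_lit 18273) (nat_lit 0) [] (nat_lit 0) [] false,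
   Spec.mk (nat_lit 18281) (nat_lit 0) [] (nat_lit 0) [] false,
   Spec.mk (nat_lit 18283) (nat_lit 0) [] (nat_lit 0) [] false,
   Spec.mk (nat_lit 18285) (nat_lit 0) [] (nat_lit 0) [] false,
   Spec.mk (nat_lit 18289) (nat_lit 0) [] (nat_lit 0) [] false,
   Spec.mk (nat_lit 18291) (nat_lit 0) [] (nat_lit 0) [] false,
   Spec.mk (nat_lit 18297) (nat_lit 0) [] (nat_lit 0) [] false,
   Spec.mk (nat_lit 18311) (nat_lit 0) [] (nat_lit 0) [] false,
   Spec.mk (nat_lit 18313) (nat_lit 0) [] (nat_lit 0) [] false,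
   Spec.mk (nat_lit 18317) (nat_lit 0) [] (nat_lit 0) [] false,
   Spec.mk (nat_lit 18319) (nat_lit 0) [] (nat_lit 0) [] false,
   Spec.mk (nat_lit 18321) (nat_lit 0) [] (nat_lit 0) [] false,
   Spec.mk (nat_lit 18325) (nat_lit 0) [] (nat_lit 0) [] false,
   Spec.mk (nat_lit 18327) (nat_lit 0) [] (nat_lit 0) [] false,
   Spec.mk (nat_lit 18335) (nat_lit 0) [] (nat_lit 0) [] false,
   Spec.mk (nat_lit 18337) (nat_lit 0) [] (nat_lit 0) [] false,
   Spec.mk (nat_lit 18339) (nat_lit 0) [] (nat_lit 0) [] false,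
   Spec.mk (nat_lit 18343) (nat_lit 0) [] (nat_lit 0) [] false,
   Spec.mk (nat_lit 18345) (nat_lit 0) [] (nat_lit 0) [] false,
   Spec.mk (nat_lit 18351) (nat_lit 0) [] (nat_lit 0) [] false,
   Spec.mk (nat_lit 18361) (nat_lit 0) [] (nat_lit 0) [] false,
   Spec.mk (nat_lit 18363) (nat_lit 0) [] (nat_lit 0) [] false,
   Spec.mk (nat_lit 18369) (nat_lit 0) [] (nat_lit 0) [] false,
   Spec.mk (nat_lit 18389) (nat_lit 0) [] (nat_lit 0) [] false,
   Spec.mk (nat_lit 18391) (nat_lit 0) [] (nat_lit 0) [] false,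
   Spec.mk (nat_lit 18393) (nat_lit 0) [] (nat_lit 0) [] false,
   Spec.mk (nat_lit 18397) (nat_lit 0) [] (nat_lit 0) [] false,
   Spec.mk (nat_lit 18399) (nat_lit 0) [] (nat_lit 0) [] false,
   Spec.mk (nat_lit 18405) (nat_lit 0) [] (nat_lit 0) [] false,
   Spec.mk (nat_lit 18415) (nat_lit 0) [] (nat_lit 0) [] false,
   Spec.mk (nat_lit 18417) (nat_lit 0) [] (nat_lit 0) [] false,
   Spec.mk (nat_lit 18423) (nat_lit 0) [] (nat_lit 0) [] false,
   Spec.mk (nat_lit 18441) (nat_lit 0) [] (nat_lit 0) [] false,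
   Spec.mk (nat_lit 18473) (nat_lit 0) [] (nat_lit 0) [] false,
   Spec.mk (nat_lit 18475) (nat_lit 0) [] (nat_lit 0) [] false,
   Spec.mk (nat_lit 18479) (nat_lit 0) [] (nat_lit 0) [] false,
   Spec.mk (nat_lit 18481) (nat_lit 0) [] (nat_lit 0) [] false,
   Spec.mk (nat_lit 18483) (nat_lit 0) [] (nat_lit 0) [] false,
   Spec.mk (nat_lit 18487) (nat_lit 0) [] (nat_lit 0) [] false,
   Spec.mk (nat_lit 18489) (nat_lit 0) [] (nat_lit 0) [] false,
   Spec.mk (nat_lit 18497) (nat_lit 0) [] (nat_lit 0) [] false,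
   Spec.mk (nat_lit 18499) (nat_lit 0) [] (nat_lit 0) [] false,
   Spec.mk (nat_lit 18501) (nat_lit 0) [] (nat_lit 0) [] false,
   Spec.mk (nat_lit 18505) (nat_lit 0) [] (nat_lit 0) [] false,
   Spec.mk (nat_lit 18507) (nat_lit 0) [] (nat_lit 0) [] false,
   Spec.mk (nat_lit 18513) (nat_lit 0) [] (nat_lit 0) [] false,
   Spec.mk (nat_lit 18523) (nat_lit 0) [] (nat_lit 0) [] false,
   Spec.mk (nat_lit 18525) (nat_lit 0) [] (nat_lit 0) [] false,
   Spec.mk (nat_lit 18531) (nat_lit 0) [] (nat_lit 0) [] false]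

noncomputable def cd51 : List Spec :=
  [Spec.mk (nat_lit 18551) (nat_lit 0) [] (nat_lit 0) [] false,
   Spec.mk (nat_lit 18553) (nat_lit 0) [] (nat_lit 0) [] false,
   Spec.mk (nat_lit 18555) (nat_lit 0) [] (nat_lit 0) [] false,
   Spec.mk (nat_lit 18559) (nat_lit 0) [] (nat_lit 0) [] false,
   Spec.mk (nat_lit 18561) (nat_lit 0) [] (nat_lit 0) [] false,
   Spec.mk (nat_lit 18567) (nat_lit 0) [] (nat_lit 0) [] false,
   Spec.mk (nat_lit 18577) (nat_lit 0) [] (nat_lit 0) [] false,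
   Spec.mk (nat_lit 18579) (nat_lit 0) [] (nat_lit 0) [] false,
   Spec.mk (nat_lit 18585) (nat_lit 0) [] (nat_lit 0) [] false,
   Spec.mk (nat_lit 18603) (nat_lit 0) [] (nat_lit 0) [] false,
   Spec.mk (nat_lit 18631) (nat_lit 0) [] (nat_lit 0) [] false,
   Spec.mk (nat_lit 18633) (nat_lit 0) [] (nat_lit 0) [] false,
   Spec.mk (nat_lit 18639) (nat_lit 0) [] (nat_lit 0) [] false,
   Spec.mk (nat_lit 18657) (nat_lit 0) [] (nat_lit 0) [] false,
   Spec.mk (nat_lit 18713) (nat_lit 0) [] (nat_lit 0) [] false,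
   Spec.mk (nat_lit 18715) (nat_lit 0) [] (nat_lit 0) [] false,
   Spec.mk (nat_lit 18717) (nat_lit 0) [] (nat_lit 0) [] false,
   Spec.mk (nat_lit 18721) (nat_lit 0) [] (nat_lit 0) [] false,
   Spec.mk (nat_lit 18723) (nat_lit 0) [] (nat_lit 0) [] false,
   Spec.mk (nat_lit 18729) (nat_lit 0) [] (nat_lit 0) [] false,
   Spec.mk (nat_lit 18739) (nat_lit 0) [] (nat_lit 0) [] false,
   Spec.mk (nat_lit 18741) (nat_lit 0) [] (nat_lit 0) [] false,
   Spec.mk (nat_lit 18747) (nat_lit 0) [] (nat_lit 0) [] false,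
   Spec.mk (nat_lit 18765) (nat_lit 0) [] (nat_lit 0) [] false,
   Spec.mk (nat_lit 18793) (nat_lit 0) [] (nat_lit 0) [] false,
   Spec.mk (nat_lit 18795) (nat_lit 0) [] (nat_lit 0) [] false,
   Spec.mk (nat_lit 18801) (nat_lit 0) [] (nat_lit 0) [] false,
   Spec.mk (nat_lit 18819) (nat_lit 0) [] (nat_lit 0) [] false,
   Spec.mk (nat_lit 18873) (nat_lit 0) [] (nat_lit 0) [] false,
   Spec.mk (nat_lit 18959) (nat_lit 0) [] (nat_lit 0) [] false,
   Spec.mk (nat_lit 18961) (nat_lit 0) [] (nat_lit 0) [] false,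
   Spec.mk (nat_lit 18965) (nat_lit 0) [] (nat_lit 0) [] false,
   Spec.mk (nat_lit 18967) (nat_lit 0) [] (nat_lit 0) [] false,
   Spec.mk (nat_lit 18969) (nat_lit 0) [] (nat_lit 0) [] false,
   Spec.mk (nat_lit 18973) (nat_lit 0) [] (nat_lit 0) [] false,
   Spec.mk (nat_lit 18975) (nat_lit 0) [] (nat_lit 0) [] false,
   Spec.mk (nat_lit 18983) (nat_lit 0) [] (nat_lit 0) [] false,
   Spec.mk (nat_lit 18985) (nat_lit 0) [] (nat_lit 0) [] false,
   Spec.mk (nat_lit 18987) (nat_lit 0) [] (nat_lit 0) [] false,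
   Spec.mk (nat_lit 18991) (nat_lit 0) [] (nat_lit 0) [] false,
   Spec.mk (nat_lit 18993) (nat_lit 0) [] (nat_lit 0) [] false,
   Spec.mk (nat_lit 18999) (nat_lit 0) [] (nat_lit 0) [] false,
   Spec.mk (nat_lit 19009) (nat_lit 0) [] (nat_lit 0) [] false,
   Spec.mk (nat_lit 19011) (nat_lit 0) [] (nat_lit 0) [] false,
   Spec.mk (nat_lit 19017) (nat_lit 0) [] (nat_lit 0) [] false,
   Spec.mk (nat_lit 19037) (nat_lit 0) [] (nat_lit 0) [] false,
   Spec.mk (nat_lit 19039) (nat_lit 0) [] (nat_lit 0) [] false,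
   Spec.mk (nat_lit 19041) (nat_lit 0) [] (nat_lit 0) [] false,
   Spec.mk (nat_lit 19045) (nat_lit 0) [] (nat_lit 0) [] false,
   Spec.mk (nat_lit 19047) (nat_lit 0) [] (nat_lit 0) [] false,
   Spec.mk (nat_lit 19053) (nat_lit 0) [] (nat_lit 0) [] false,
   Spec.mk (nat_lit 19063) (nat_lit 0) [] (nat_lit 0) [] false,
   Spec.mk (nat_lit 19065) (nat_lit 0) [] (nat_lit 0) [] false,
   Spec.mk (nat_lit 19071) (nat_lit 0) [] (nat_lit 0) [] false,
   Spec.mk (nat_lit 19089) (nat_lit 0) [] (nat_lit 0) [] false,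
   Spec.mk (nat_lit 19117) (nat_lit 0) [] (nat_lit 0) [] false,
   Spec.mk (nat_lit 19119) (nat_lit 0) [] (nat_lit 0) [] false,
   Spec.mk (nat_lit 19125) (nat_lit 0) [] (nat_lit 0) [] false,
   Spec.mk (nat_lit 19143) (nat_lit 0) [] (nat_lit 0) [] false,
   Spec.mk (nat_lit 19199) (nat_lit 0) [] (nat_lit 0) [] false]

noncomputable def cd52 : List Spec :=
  [Spec.mk (nat_lit 19201) (nat_lit 0) [] (nat_lit 0) [] false,
   Spec.mk (nat_lit 19203) (nat_lit 0) [] (nat_lit 0) [] false,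
   Spec.mk (nat_lit 19207) (nat_lit 0) [] (nat_lit 0) [] false,
   Spec.mk (nat_lit 19209) (nat_lit 0) [] (nat_lit 0) [] false,
   Spec.mk (nat_lit 19215) (nat_lit 0) [] (nat_lit 0) [] false,
   Spec.mk (nat_lit 19225) (nat_lit 0) [] (nat_lit 0) [] false,
   Spec.mk (nat_lit 19227) (nat_lit 0) [] (nat_lit 0) [] false,
   Spec.mk (nat_lit 19233) (nat_lit 0) [] (nat_lit 0) [] false,
   Spec.mk (nat_lit 19251) (nat_lit 0) [] (nat_lit 0) [] false,
   Spec.mk (nat_lit 19279) (nat_lit 0) [] (nat_lit 0) [] false,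
   Spec.mk (nat_lit 19281) (nat_lit 0) [] (nat_lit 0) [] false,
   Spec.mk (nat_lit 19287) (nat_lit 0) [] (nat_lit 0) [] false,
   Spec.mk (nat_lit 19305) (nat_lit 0) [] (nat_lit 0) [] false,
   Spec.mk (nat_lit 19359) (nat_lit 0) [] (nat_lit 0) [] false,
   Spec.mk (nat_lit 19441) (nat_lit 0) [] (nat_lit 0) [] false,
   Spec.mk (nat_lit 19443) (nat_lit 0) [] (nat_lit 0) [] false,
   Spec.mk (nat_lit 19449) (nat_lit 0) [] (nat_lit 0) [] false,
   Spec.mk (nat_lit 19467) (nat_lit 0) [] (nat_lit 0) [] false,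
   Spec.mk (nat_lit 19521) (nat_lit 0) [] (nat_lit 0) [] false]

noncomputable def cds : List (List Spec) :=
    cd0 :: cd1 :: cd2 :: cd3 :: cd4 :: cd5 :: cd6 :: cd7 :: cd8 :: cd9 :: cd10 :: cd11 :: cd12 ::
    cd13 :: cd14 :: cd15 :: cd16 :: cd17 :: cd18 :: cd19 :: cd20 :: cd21 :: cd22 :: cd23 :: cd24 ::
    cd25 :: cd26 :: cd27 :: cd28 :: cd29 :: cd30 :: cd31 :: cd32 :: cd33 :: cd34 :: cd35 :: cd36 ::
    cd37 :: cd38 :: cd39 :: cd40 :: cd41 :: cd42 :: cd43 :: cd44 :: cd45 :: cd46 :: cd47 :: cd48 ::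
    cd49 :: cd50 :: cd51 :: cd52 :: []

noncomputable def ap (x : Nat → Nat) (k :
    Nat → Nat → Nat → Nat → Nat → Nat → Nat → Nat → Nat → Nat → Nat → Nat → Nat → Nat → Nat → Nat →
    Nat → Nat → Nat → Nat → Nat → Nat → Nat → Nat → Nat → Nat → Nat → Nat → Nat → Nat → Nat → Nat →
    Nat → Nat → Nat → Nat → Nat → Nat → Nat → Nat → Nat → Nat → Nat → Nat → Nat → Nat → Nat → Nat →
    Nat → Nat → Nat → Nat → Nat → Nat → Nat → Nat → Nat → Nat → Nat → Nat → Nat → Nat → Nat → Nat →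
    Nat → Nat → Nat → Nat → Nat → Nat → Nat → Nat → Nat → Nat → Nat → Nat → Nat → Nat → Nat → Nat →
    Nat → Nat → Nat → Nat → Nat → Nat → Nat → Nat → Nat → Nat → Nat → Nat → Nat → Nat → Nat → Nat →
    Nat → Nat → Nat → Nat → Nat → Nat → Nat → Nat → Nat → Nat → Nat → Nat → Nat → Nat → Nat → Nat →
    Nat → Nat → Nat → Nat → Nat → Nat → Nat → Nat → Nat → Nat → Nat → Nat → Nat → Nat → Nat → Nat →
    Nat → Nat → Nat → Nat → Nat → Nat → Nat → Nat → Nat → Nat → Nat → Nat → Nat → Nat → Nat → Nat →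
    Nat → Nat → Nat → Nat → Nat → Nat → Nat → Nat → Nat → Nat → Nat → Nat → Nat → Nat → Nat → Nat →
    Nat → Nat → Nat → Nat → Nat → Nat → Nat → Nat → Nat → Nat → Nat → Nat → Nat → Nat → Nat → Nat →
    Nat → Nat → Nat → Nat → Nat → Nat → Nat → Nat → Nat → Nat → Nat → Nat → Nat → Nat → Nat → Nat →
    Nat → Nat → Nat → Nat → Nat → Nat → Nat → Nat → Nat → Nat → Nat → Nat → Nat → Nat → Nat → Nat →
    Nat → Nat → Nat → Nat → Nat → Nat → Nat → Nat → Nat → Nat → Nat → Nat → Nat → Nat → Nat → Nat →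
    Nat → Nat → Nat → Nat → Nat → Nat → Nat → Nat → Nat → Nat → Nat → Nat → Nat → Nat → Nat → Nat →
    Nat → Nat → Nat → Nat → Nat → Nat → Nat → Nat → Nat → Nat → Nat → Nat → Nat → Nat → Nat → Nat →
    Nat → Nat → Nat → Nat → Nat → Nat → Nat → Nat → Nat → Nat → Nat → Nat → Nat → Nat → Nat → Nat →
    Nat → Nat → Nat → Nat → Nat → Nat → Nat → Nat → Nat → Nat → Nat → Nat → Nat → Nat → Nat → Nat →
    Nat → Nat → Nat → Nat → Nat → Nat → Nat → Nat → Nat → Nat → Nat → Nat → Nat → Nat → Nat → Nat →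
    Nat → Nat → Nat → Nat → Nat → Nat → Nat → Nat → Nat → Nat → Nat → Nat → Nat → Nat → Nat → Nat →
    Nat → Nat → Nat → Nat → Nat → Nat → Nat → Nat → Nat → Nat → Nat → Nat → Nat → Nat → Nat → Nat →
    Nat → Nat → Nat → Nat → Nat → Nat → Nat → Nat → Nat → Nat → Nat → Nat → Nat → Nat → Nat → Nat →
    Nat → Nat → Nat → Nat → Nat → Nat → Nat → Nat → Nat → Nat → Nat → Nat → Nat → Nat → Nat → Nat →
    Nat → Nat → Nat → Nat → Nat → Nat → Nat → Nat → Nat → Nat → Nat → Nat → Nat → Nat → Nat → Nat →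
    Nat → Nat → Nat → Nat → Nat → Nat → Nat → Nat → Nat → Nat → Nat → Nat → Nat → Nat → Nat → Nat →
    Nat → Nat → Nat → Nat → Nat → Nat → Nat → Nat → Nat → Nat → Nat → Nat → Nat → Nat → Nat → Nat →
    Nat → Nat → Nat → Nat → Nat → Nat → Nat → Nat → Nat → Nat → Nat → Nat → Nat → Nat → Nat → Nat →
    Nat → Nat → Nat → Nat → Nat → Nat → Nat → Nat → Nat → Nat → Nat → Nat → Nat → Nat → Nat → Nat →
    Nat → Nat → Nat → Nat → Nat → Nat → Nat → Nat → Nat → Nat → Nat → Nat → Nat → Nat → Nat → Nat →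
    Nat → Nat → Nat → Nat → Nat → Nat → Nat → Nat → Nat → Nat → Nat → Nat → Nat → Nat → Nat → Nat →
    Nat → Nat → Nat → Nat → Nat → Nat → Nat → Nat → Nat → Nat → Nat → Nat → Nat → Nat → Nat → Nat →
    Nat → Nat → Nat → Nat → Nat → Nat → Nat → Nat → Nat → Nat → Nat → Nat → Nat → Nat → Nat → Nat →
    Nat → Nat → Nat → Nat → Nat → Nat → Nat → Nat → Nat → Nat → Nat → Nat → Nat → Nat → Nat → Nat →
    Nat → Nat → Nat → Nat → Nat → Nat → Nat → Nat → Nat → Nat → Nat → Nat → Nat → Nat → Nat → Nat →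
    Nat → Nat → Nat → Nat → Nat → Nat → Nat → Nat → Nat → Nat → Nat → Nat → Nat → Nat → Nat → Nat →
    Nat → Nat → Nat → Nat → Nat → Nat → Nat → Nat → Nat → Nat → Nat → Nat → Nat → Nat → Nat → Nat →
    Nat → Nat → Nat → Nat → Nat → Nat → Nat → Nat → Nat → Nat → Nat → Nat → Nat → Nat → Nat → Nat →
    Nat → Nat → Nat → Nat → Nat → Nat → Nat → Nat → Nat → Nat → Nat → Nat → Nat → Nat → Nat → Nat →
    Nat → Nat → Nat → Nat → Nat → Nat → Nat → Nat → Nat → Nat → Nat → Nat → Nat → Nat → Nat → Nat →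
    Nat → Nat → Nat → Nat → Nat → Nat → Nat → Nat → Nat → Nat → Nat → Nat → Nat → Nat → Nat → Nat →
    Nat → Nat → Nat → Nat → Nat → Nat → Nat → Nat → Nat → Nat → Nat → Nat → Nat → Nat → Nat → Nat →
    Nat → Nat → Nat → Nat → Nat → Nat → Nat → Nat → Nat → Nat → Nat → Nat → Nat → Nat → Nat → Nat →
    Nat → Nat → Nat → Nat → Nat → Nat → Nat → Nat → Nat → Nat → Nat → Nat → Nat → Nat → Nat → Nat →
    Nat → Nat → Nat → Nat → Nat → Nat → Nat → Nat → Nat → Nat → Nat → Nat → Nat → Nat → Nat → Nat →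
    Nat → Nat → Nat → Nat → Nat → Nat → Nat → Nat → Nat → Nat → Nat → Nat → Nat → Nat → Nat → Nat →
    Nat → Nat → Nat → Nat → Nat → Nat → Nat → Nat → Nat → Nat → Nat → Nat → Nat → Nat → Nat → Nat →
    Nat → Nat → Nat → Nat → Nat → Nat → Nat → Nat → Nat → Nat → Nat → Nat → Nat → Nat → Nat → Nat →
    Nat → Nat → Nat → Nat → Nat → Nat → Nat → Nat → Nat → Nat → Nat → Nat → Nat → Nat → Nat → Nat →
    Nat → Nat → Nat → Nat → Nat → Nat → Nat → Nat → Nat → Nat → Nat → Nat → Nat → Nat → Nat → Nat →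
    Nat → Nat → Nat → Nat → Nat → Nat → Nat → Nat → Nat → Nat → Nat → Nat → Nat → Nat → Nat → Nat →
    Nat → Nat → Nat → Nat → Nat → Nat → Nat → Nat → Nat → Nat → Nat → Nat → Nat → Nat → Nat → Nat →
    Nat → Nat → Nat → Nat → Nat → Nat → Nat → Nat → Nat → Nat → Nat → Nat → Nat → Nat → Nat → Nat →
    Nat → Nat → Nat → Nat → Nat → Nat → Nat → Nat → Nat → Nat → Nat → Nat → Nat → Nat → Nat → Nat →
    Nat → Nat → Nat → Nat → Nat → Nat → Nat → Nat → Nat → Nat → Nat → Nat → Nat → Nat → Nat → Nat →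
    Nat → Nat → Nat → Nat → Nat → Nat → Nat → Nat → Nat → Nat → Nat → Nat → Nat → Nat → Nat → Nat →
    Nat → Nat → Nat → Nat → Nat → Nat → Nat → Nat → Nat → Nat → Nat → Nat → Nat → Nat → Nat → Nat →
    Nat → Nat → Nat → Nat → Nat → Nat → Nat → Nat → Nat → Nat → Nat → Nat → Nat → Nat → Nat → Nat →
    Nat → Nat → Nat → Nat → Nat → Nat → Nat → Nat → Nat → Nat → Nat → Nat → Nat → Nat → Nat → Nat →
    Nat → Nat → Nat → Nat → Nat → Nat → Nat → Nat → Nat → Nat → Nat → Nat → Nat → Nat → Nat → Nat →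
    Nat → Nat → Nat → Nat → Nat → Nat → Nat → Nat → Nat → Nat → Nat → Nat → Nat → Nat → Nat → Nat →
    Nat → Nat → Nat → Nat → Nat → Nat → Nat → Nat → Nat → Nat → Nat → Nat → Nat → Nat → Nat → Nat →
    Nat → Nat → Nat → Nat → Nat → Nat → Nat → Nat → Nat → Nat → Nat → Nat → Nat → Nat → Nat → Nat →
    Nat → Nat → Nat → Nat → Nat → Nat → Nat → Nat → Nat → Nat → Nat → Nat → Nat → Nat → Nat → Nat →
    Nat → Nat → Nat → Nat → Nat → Nat → Nat → Nat → Nat → Nat → Nat → Nat → Nat → Nat → Nat → Nat →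
    Nat → Nat → Nat → Nat → Nat → Nat → Nat → Nat → Nat → Nat → Nat → Nat → Nat → Nat → Nat → Nat →
    Nat → Nat → Nat → Nat → Nat → Nat → Nat → Nat → Nat → Nat → Nat → Nat → Nat → Nat → Nat → Nat →
    Nat → Nat → Nat → Nat → Nat → Nat → Nat → Nat → Nat → Nat → Nat → Nat → Nat → Nat → Nat → Nat →
    Nat → Nat → Nat → Nat → Nat → Nat → Nat → Nat → Nat → Nat → Nat → Nat → Nat → Nat → Nat → Nat →
    Nat → Nat → Nat → Nat → Nat → Nat → Nat → Nat → Nat → Nat → Nat → Nat → Nat → Nat → Nat → Nat →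
    Nat → Nat → Nat → Nat → Nat → Nat → Nat → Nat → Nat → Nat → Nat → Nat → Nat → Nat → Nat → Nat →
    Nat → Nat → Nat → Nat → Nat → Nat → Nat → Nat → Nat → Nat → Nat → Nat → Nat → Nat → Nat → Nat →
    Nat → Nat → Nat → Nat → Nat → Nat → Nat → Nat → Nat → Nat → Nat → Nat → Nat → Nat → Nat → Nat →
    Nat → Nat → Nat → Nat → Nat → Nat → Nat → Nat → Nat → Nat → Nat → Nat → Nat → Nat → Nat → Nat →
    Nat → Nat → Nat → Nat → Nat → Nat → Nat → Nat → Nat → Nat → Nat → Nat → Nat → Nat → Nat → Nat →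
    Nat → Nat → Nat → Nat → Nat → Nat → Nat → Nat → Nat → Nat → Nat → Nat → Nat → Nat → Nat → Nat →
    Nat → Nat → Nat → Nat → Nat → Nat → Nat → Nat → Nat → Nat → Nat → Nat → Nat → Nat → Nat → Nat →
    Nat → Nat → Nat → Nat → Nat → Nat → Nat → Nat → Nat → Nat → Nat → Nat → Nat → Nat → Nat → Nat →
    Nat → Nat → Nat → Nat → Nat → Nat → Nat → Nat → Nat → Nat → Nat → Nat → Nat → Nat → Nat → Nat →
    Nat → Nat → Nat → Nat → Nat → Nat → Nat → Nat → Nat → Nat → Nat → Nat → Nat → Nat → Nat → Nat →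
    Nat → Nat → Nat → Nat → Nat → Nat → Nat → Nat → Nat → Nat → Nat → Nat → Nat → Nat → Nat → Nat →
    Nat → Nat → Nat → Nat → Nat → Nat → Nat → Nat → Nat → Nat → Nat → Nat → Nat → Nat → Nat → Nat →
    Nat → Nat → Nat → Nat → Nat → Nat → Nat → Nat → Nat → Nat → Nat → Nat → Nat → Nat → Nat → Nat →
    Nat → Nat → Nat → Nat → Nat → Nat → Nat → Nat → Nat → Nat → Nat → Nat → Nat → Nat → Nat → Nat →
    Nat → Nat → Nat → Nat → Nat → Nat → Nat → Nat → Nat → Nat → Nat → Nat → Nat → Nat → Nat → Nat →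
    Nat → Nat → Nat → Nat → Nat → Nat → Nat → Nat → Nat → Nat → Nat → Nat → Nat → Nat → Nat → Nat →
    Nat → Nat → Nat → Nat → Nat → Nat → Nat → Nat → Nat → Nat → Nat → Nat → Nat → Nat → Nat → Nat →
    Nat → Nat → Nat → Nat → Nat → Nat → Nat → Nat → Nat → Nat → Nat → Nat → Nat → Nat → Nat → Nat →
    Nat → Nat → Nat → Nat → Nat → Nat → Nat → Nat → Nat → Nat → Nat → Nat → Nat → Nat → Nat → Nat →
    Nat → Nat → Nat → Nat → Nat → Nat → Nat → Nat → Nat → Nat → Nat → Nat → Nat → Nat → Nat → Nat →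
    Nat → Nat → Nat → Nat → Nat → Nat → Nat → Nat → Nat → Nat → Nat → Nat → Nat → Nat → Nat → Nat →
    Nat → Nat → Nat → Nat → Nat → Nat → Nat → Nat → Nat → Nat → Nat → Nat → Nat → Nat → Nat → Nat →
    Nat → Nat → Nat → Nat → Nat → Nat → Nat → Nat → Nat → Nat → Nat → Nat → Nat → Nat → Nat → Nat →
    Nat → Nat → Nat → Nat → Nat → Nat → Nat → Nat → Nat → Nat → Nat → Nat → Nat → Nat → Nat → Nat →
    Nat → Nat → Nat → Nat → Nat → Nat → Nat → Nat → Nat → Nat → Nat → Nat → Nat → Nat → Nat → Nat →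
    Nat → Nat → Nat → Nat → Nat → Nat → Nat → Nat → Nat → Nat → Nat → Nat → Nat → Nat → Nat → Nat →
    Nat → Nat → Nat → Nat → Nat → Nat → Nat → Nat → Nat → Nat → Nat → Nat → Nat → Nat → Nat → Nat →
    Nat → Nat → Nat → Nat → Nat → Nat → Nat → Nat → Nat → Nat → Nat → Nat → Nat → Nat → Nat → Nat →
    Nat → Nat → Nat → Nat → Nat → Nat → Nat → Nat → Nat → Nat → Nat → Nat → Nat → Nat → Nat → Nat →
    Nat → Nat → Nat → Nat → Nat → Nat → Nat → Nat → Nat → Nat → Nat → Nat → Nat → Nat → Nat → Nat →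
    Nat → Nat → Nat → Nat → Nat → Nat → Nat → Nat → Nat → Nat → Nat → Nat → Nat → Nat → Nat → Nat →
    Nat → Nat → Nat → Nat → Nat → Nat → Nat → Nat → Nat → Nat → Nat → Nat → Nat → Nat → Nat → Nat →
    Nat → Nat → Nat → Nat → Nat → Nat → Nat → Nat → Nat → Nat → Nat → Nat → Nat → Nat → Nat → Nat →
    Nat → Nat → Nat → Nat → Nat → Nat → Nat → Nat → Nat → Nat → Nat → Nat → Nat → Nat → Nat → Nat →
    Nat → Nat → Nat → Nat → Nat → Nat → Nat → Nat → Nat → Nat → Nat → Nat → Nat → Nat → Nat → Nat →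
    Nat → Nat → Nat → Nat → Nat → Nat → Nat → Nat → Nat → Nat → Nat → Nat → Nat → Nat → Nat → Nat →
    Nat → Nat → Nat → Nat → Nat → Nat → Nat → Nat → Nat → Nat → Nat → Nat → Nat → Nat → Nat → Nat →
    Nat → Nat → Nat → Nat → Nat → Nat → Nat → Nat → Nat → Nat → Nat → Nat → Nat → Nat → Nat → Nat →
    Nat → Nat → Nat → Nat → Nat → Nat → Nat → Nat → Nat → Nat → Nat → Nat → Nat → Nat → Nat → Nat →
    Nat → Nat → Nat → Nat → Nat → Nat → Nat → Nat → Nat → Nat → Nat → Nat → Nat → Nat → Nat → Nat →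
    Nat → Nat → Nat → Nat → Nat → Nat → Nat → Nat → Nat → Nat → Nat → Nat → Nat → Nat → Nat → Nat →
    Nat → Nat → Nat → Nat → Nat → Nat → Nat → Nat → Nat → Nat → Nat → Nat → Nat → Nat → Nat → Nat →
    Nat → Nat → Nat → Nat → Nat → Nat → Nat → Nat → Nat → Nat → Nat → Nat → Nat → Nat → Nat → Nat →
    Nat → Nat → Nat → Nat → Nat → Nat → Nat → Nat → Nat → Nat → Nat → Nat → Nat → Nat → Nat → Nat →
    Nat → Nat → Nat → Nat → Nat → Nat → Nat → Nat → Nat → Nat → Nat → Nat → Nat → Nat → Nat → Nat →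
    Nat → Nat → Nat → Nat → Nat → Nat → Nat → Nat → Nat → Nat → Nat → Nat → Nat → Nat → Nat → Nat →
    Nat → Nat → Nat → Nat → Nat → Nat → Nat → Nat → Nat → Nat → Nat → Nat → Nat → Nat → Nat → Nat →
    Nat → Nat → Nat → Nat → Nat → Nat → Nat → Nat → Nat → Nat → Nat → Nat → Nat → Nat → Nat → Nat →
    Nat → Nat → Nat → Nat → Nat → Nat → Nat → Nat → Nat → Nat → Nat → Nat → Nat → Nat → Nat → Nat →
    Nat → Nat → Nat → Nat → Nat → Nat → Nat → Nat → Nat → Nat → Nat → Nat → Nat → Nat → Nat → Nat →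
    Nat → Nat → Nat → Nat → Nat → Nat → Nat → Nat → Nat → Nat → Nat → Nat → Nat → Nat → Nat → Nat →
    Nat → Nat → Nat → Nat → Nat → Nat → Nat → Nat → Nat → Nat → Nat → Nat → Nat → Nat → Nat → Nat →
    Nat → Nat → Nat → Nat → Nat → Nat → Nat → Nat → Nat → Nat → Nat → Nat → Nat → Nat → Nat → Nat →
    Nat → Nat → Nat → Nat → Nat → Nat → Nat → Nat → Nat → Nat → Nat → Nat → Nat → Nat → Nat → Nat →
    Nat → Nat → Nat → Nat → Nat → Nat → Nat → Nat → Nat → Nat → Nat → Nat → Nat → Nat → Nat → Nat →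
    Nat → Nat → Nat → Nat → Nat → Nat → Nat → Nat → Nat → Nat → Nat → Nat → Nat → Nat → Nat → Nat →
    Nat → Nat → Nat → Nat → Nat → Nat → Nat → Nat → Nat → Nat → Nat → Nat → Nat → Nat → Nat → Nat →
    Nat → Nat → Nat → Nat → Nat → Nat → Nat → Nat → Nat → Nat → Nat → Nat → Nat → Nat → Nat → Nat →
    Nat → Nat → Nat → Nat → Nat → Nat → Nat → Nat → Nat → Nat → Nat → Nat → Nat → Nat → Nat → Nat →
    Nat → Nat → Nat → Nat → Nat → Nat → Nat → Nat → Nat → Nat → Nat → Nat → Nat → Nat → Nat → Nat →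
    Nat → Nat → Nat → Nat → Nat → Nat → Nat → Nat → Nat → Nat → Nat → Nat → Nat → Nat → Nat → Nat →
    Nat → Nat → Nat → Nat → Nat → Nat → Nat → Nat → Nat → Nat → Nat → Nat → Nat → Nat → Nat → Nat →
    Nat → Nat → Nat → Nat → Nat → Nat → Nat → Nat → Nat → Nat → Nat → Nat → Nat → Nat → Nat → Nat →
    Nat → Nat → Nat → Nat → Nat → Nat → Nat → Nat → Nat → Nat → Nat → Nat → Nat → Nat → Nat → Nat →
    Nat → Nat → Nat → Nat → Nat → Nat → Nat → Nat → Nat → Nat → Nat → Nat → Nat → Nat → Nat → Nat →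
    Nat → Nat → Nat → Nat → Nat → Nat → Nat → Nat → Nat → Nat → Nat → Nat → Nat → Nat → Nat → Nat →
    Nat → Nat → Nat → Nat → Nat → Nat → Nat → Nat → Nat → Nat → Nat → Nat → Nat → Nat → Nat → Nat →
    Nat → Nat → Nat → Nat → Nat → Nat → Nat → Nat → Nat → Nat → Nat → Nat → Nat → Nat → Nat → Nat →
    Nat → Nat → Nat → Nat → Nat → Nat → Nat → Nat → Nat → Nat → Nat → Nat → Nat → Nat → Nat → Nat →
    Nat → Nat → Nat → Nat → Nat → Nat → Nat → Nat → Nat → Nat → Nat → Nat → Nat → Nat → Nat → Nat →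
    Nat → Nat → Nat → Nat → Nat → Nat → Nat → Nat → Nat → Nat → Nat → Nat → Nat → Nat → Nat → Nat →
    Nat → Nat → Nat → Nat → Nat → Nat → Nat → Nat → Nat → Nat → Nat → Nat → Nat → Nat → Nat → Nat →
    Nat → Nat → Nat → Nat → Nat → Nat → Nat → Nat → Nat → Nat → Nat → Nat → Nat → Nat → Nat → Nat →
    Nat → Nat → Nat → Nat → Nat → Nat → Nat → Nat → Nat → Nat → Nat → Nat → Nat → Nat → Nat → Nat →
    Nat → Nat → Nat → Nat → Nat → Nat → Nat → Nat → Nat → Nat → Nat → Nat → Nat → Nat → Nat → Nat →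
    Nat → Nat → Nat → Nat → Nat → Nat → Nat → Nat → Nat → Nat → Nat → Nat → Nat → Nat → Nat → Nat →
    Nat → Nat → Nat → Nat → Nat → Nat → Nat → Nat → Nat → Nat → Nat → Nat → Nat → Nat → Nat → Nat →
    Nat → Nat → Nat → Nat → Nat → Nat → Nat → Nat → Nat → Nat → Nat → Nat → Nat → Nat → Nat → Nat →
    Nat → Nat → Nat → Nat → Nat → Nat → Nat → Nat → Nat → Nat → Nat → Nat → Nat → Nat → Nat → Nat →
    Nat → Nat → Nat → Nat → Nat → Nat → Nat → Nat → Nat → Nat → Nat → Nat → Nat → Nat → Nat → Nat →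
    Nat → Nat → Nat → Nat → Nat → Nat → Nat → Nat → Nat → Nat → Nat → Nat → Nat → Nat → Nat → Nat →
    Nat → Nat → Nat → Nat → Nat → Nat → Nat → Nat → Nat → Nat → Nat → Nat → Nat → Nat → Nat → Nat →
    Nat → Nat → Nat → Nat → Nat → Nat → Nat → Nat → Nat → Nat → Nat → Nat → Nat → Nat → Nat → Nat →
    Nat → Nat → Nat → Nat → Nat → Nat → Nat → Nat → Nat → Nat → Nat → Nat → Nat → Nat → Nat → Nat →
    Nat → Nat → Nat → Nat → Nat → Nat → Nat → Nat → Nat → Nat → Nat → Nat → Nat → Nat → Nat → Nat →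
    Nat → Nat → Nat → Nat → Nat → Nat → Nat → Nat → Nat → Nat → Nat → Nat → Nat → Nat → Nat → Nat →
    Nat → Nat → Nat → Nat → Nat → Nat → Nat → Nat → Nat → Nat → Nat → Nat → Nat → Nat → Nat → Nat →
    Nat → Nat → Nat → Nat → Nat → Nat → Nat → Nat → Nat → Nat → Nat → Nat → Nat → Nat → Nat → Nat →
    Nat → Nat → Nat → Nat → Nat → Nat → Nat → Nat → Nat → Nat → Nat → Nat → Nat → Nat → Nat → Nat →
    Nat → Nat → Nat → Nat → Nat → Nat → Nat → Nat → Nat → Nat → Nat → Nat → Nat → Nat → Nat → Nat →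
    Nat → Nat → Nat → Nat → Nat → Nat → Nat → Nat → Nat → Nat → Nat → Nat → Nat → Nat → Nat → Nat →
    Nat → Nat → Nat → Nat → Nat → Nat → Nat → Nat → Nat → Nat → Nat → Nat → Nat → Nat → Nat → Nat →
    Nat → Nat → Nat → Nat → Nat → Nat → Nat → Nat → Nat → Nat → Nat → Nat → Nat → Nat → Nat → Nat →
    Nat → Nat → Nat → Nat → Nat → Nat → Nat → Nat → Nat → Nat → Nat → Nat → Nat → Nat → Nat → Nat →
    Nat → Nat → Nat → Nat → Nat → Nat → Nat → Nat → Nat → Nat → Nat → Nat → Nat → Nat → Nat → Nat →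
    Nat → Nat → Nat → Nat → Nat → Nat → Nat → Nat → Nat → Nat → Nat → Nat → Nat → Nat → Nat → Nat →
    Nat → Nat → Nat → Nat → Nat → Nat → Nat → Nat → Nat → Nat → Nat → Nat → Nat → Nat → Nat → Nat →
    Nat → Nat → Nat → Nat → Nat → Nat → Nat → Nat → Nat → Nat → Nat → Nat → Nat → Nat → Nat → Nat →
    Nat → Nat → Nat → Nat → Nat → Nat → Nat → Nat → Nat → Nat → Nat → Nat → Nat → Nat → Nat → Nat →
    Nat → Nat → Nat → Nat → Nat → Nat → Nat → Nat → Nat → Nat → Nat → Nat → Nat → Nat → Nat → Nat →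
    Nat → Nat → Nat → Nat → Nat → Nat → Nat → Nat → Nat → Nat → Nat → Nat → Nat → Nat → Nat → Nat →
    Nat → Nat → Nat → Nat → Nat → Nat → Nat → Nat → Nat → Nat → Nat → Nat → Nat → Nat → Nat → Nat →
    Nat → Nat → Nat → Nat → Nat → Nat → Nat → Nat → Nat → Nat → Nat → Nat → Nat → Nat → Nat → Nat →
    Nat → Nat → Nat → Nat → Nat → Nat → Nat → Nat → Nat → Nat → Nat → Nat → Nat → Nat → Nat → Nat →
    Nat → Nat → Nat → Nat → Nat → Nat → Nat → Nat → Nat → Nat → Nat → Nat → Nat → Nat → Nat → Nat →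
    Nat → Nat → Nat → Nat → Nat → Nat → Nat → Nat → Nat → Nat → Nat → Nat → Nat → Nat → Nat → Nat →
    Nat → Nat → Nat → Nat → Nat → Nat → Nat → Nat → Nat → Nat → Nat → Nat → Nat → Nat → Nat → Nat →
    Nat → Nat → Nat → Nat → Nat → Nat → Nat → Nat → Nat → Nat → Nat → Nat → Nat → Nat → Nat → Nat →
    Nat → Nat → Nat → Nat → Nat → Nat → Nat → Nat → Nat → Nat → Nat → Nat → Nat → Nat → Nat → Nat →
    Nat → Nat → Nat → Nat → Nat → Nat → Nat → Nat → Nat → Nat → Nat → Nat → Nat → Nat → Nat → Nat →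
    Nat → Nat → Nat → Nat → Nat → Nat → Nat → Nat → Nat → Nat → Nat → Nat → Nat → Nat → Nat → Nat →
    Nat → Nat → Nat → Nat → Nat → Nat → Nat → Nat → Nat → Nat → Nat → Nat → Nat → Nat → Nat → Nat →
    Nat → Nat → Nat → Nat → Nat → Nat → Nat → Nat → Nat → Nat → Nat → Nat → Nat → Nat → Nat → Nat →
    Nat → Nat → Nat → Nat → Nat → Nat → Nat → Nat → Nat → Nat → Nat → Nat → Nat → Nat → Nat → Nat →
    Nat → Nat → Nat → Nat → Nat → Nat → Nat → Nat → Nat → Nat → Nat → Nat → Nat → Nat → Nat → Nat →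
    Nat → Nat → Nat → Nat → Nat → Nat → Nat → Nat → Nat → Nat → Nat → Nat → Nat → Nat → Nat → Nat →
    Nat → Nat → Nat → Nat → Nat → Nat → Nat → Nat → Nat → Nat → Nat → Nat → Nat → Nat → Nat → Nat →
    Nat → Nat → Nat → Nat → Nat → Nat → Nat → Nat → Nat → Nat → Nat → Nat → Nat → Nat → Nat → Nat →
    Nat → Nat → Nat → Nat → Nat → Nat → Nat → Nat → Nat → Nat → Nat → Nat → Nat → Nat → Nat → Nat →
    Nat → Nat → Nat → Nat → Nat → Nat → Nat → Nat → Nat → Nat → Nat → Nat → Nat → Nat → Nat → Nat →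
    Nat → Nat → Nat → Nat → Nat → Nat → Nat → Nat → Nat → Nat → Nat → Nat → Nat → Nat → Nat → Nat →
    Nat → Nat → Nat → Nat → Nat → Nat → Nat → Nat → Nat → Nat → Nat → Nat → Nat → Nat → Nat → Nat →
    Nat → Nat → Nat → Nat → Nat → Nat → Nat → Nat → Nat → Nat → Nat → Nat → Nat → Nat → Nat → Nat →
    Nat → Nat → Nat → Nat → Nat → Nat → Nat → Nat → Nat → Nat → Nat → Nat → Nat → Nat → Nat → Nat →
    Nat → Nat → Nat → Nat → Nat → Nat → Nat → Nat → Nat → Nat → Nat → Nat → Nat → Nat → Nat → Nat →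
    Nat → Nat → Nat → Nat → Nat → Nat → Nat → Nat → Nat → Nat → Nat → Nat → Nat → Nat → Nat → Nat →
    Nat → Nat → Nat → Nat → Nat → Nat → Nat → Nat → Nat → Nat → Nat → Nat → Nat → Nat → Nat → Nat →
    Nat → Nat → Nat → Bool) : Bool :=
  k
    (x (nat_lit 161)) (x (nat_lit 215)) (x (nat_lit 233)) (x (nat_lit 239)) (x (nat_lit 241))
    (x (nat_lit 323)) (x (nat_lit 377)) (x (nat_lit 395)) (x (nat_lit 401)) (x (nat_lit 403))
    (x (nat_lit 431)) (x (nat_lit 449)) (x (nat_lit 455)) (x (nat_lit 457)) (x (nat_lit 467))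
    (x (nat_lit 473)) (x (nat_lit 475)) (x (nat_lit 479)) (x (nat_lit 481)) (x (nat_lit 483))
    (x (nat_lit 539)) (x (nat_lit 557)) (x (nat_lit 563)) (x (nat_lit 565)) (x (nat_lit 593))
    (x (nat_lit 611)) (x (nat_lit 617)) (x (nat_lit 619)) (x (nat_lit 629)) (x (nat_lit 635))
    (x (nat_lit 637)) (x (nat_lit 641)) (x (nat_lit 643)) (x (nat_lit 645)) (x (nat_lit 665))
    (x (nat_lit 671)) (x (nat_lit 673)) (x (nat_lit 683)) (x (nat_lit 689)) (x (nat_lit 691))
    (x (nat_lit 695)) (x (nat_lit 697)) (x (nat_lit 699)) (x (nat_lit 707)) (x (nat_lit 709))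
    (x (nat_lit 713)) (x (nat_lit 715)) (x (nat_lit 717)) (x (nat_lit 721)) (x (nat_lit 723))
    (x (nat_lit 809)) (x (nat_lit 863)) (x (nat_lit 881)) (x (nat_lit 887)) (x (nat_lit 889))
    (x (nat_lit 917)) (x (nat_lit 935)) (x (nat_lit 941)) (x (nat_lit 943)) (x (nat_lit 953))
    (x (nat_lit 959)) (x (nat_lit 961)) (x (nat_lit 965)) (x (nat_lit 967)) (x (nat_lit 969))
    (x (nat_lit 1025)) (x (nat_lit 1043)) (x (nat_lit 1049)) (x (nat_lit 1051)) (x (nat_lit 1079))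
    (x (nat_lit 1097)) (x (nat_lit 1103)) (x (nat_lit 1105)) (x (nat_lit 1115)) (x (nat_lit 1121))
    (x (nat_lit 1123)) (x (nat_lit 1127)) (x (nat_lit 1129)) (x (nat_lit 1131)) (x (nat_lit 1151))
    (x (nat_lit 1157)) (x (nat_lit 1159)) (x (nat_lit 1169)) (x (nat_lit 1175)) (x (nat_lit 1177))
    (x (nat_lit 1181)) (x (nat_lit 1183)) (x (nat_lit 1185)) (x (nat_lit 1193)) (x (nat_lit 1195))
    (x (nat_lit 1199)) (x (nat_lit 1201)) (x (nat_lit 1203)) (x (nat_lit 1207)) (x (nat_lit 1209))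
    (x (nat_lit 1241)) (x (nat_lit 1259)) (x (nat_lit 1265)) (x (nat_lit 1267)) (x (nat_lit 1277))
    (x (nat_lit 1283)) (x (nat_lit 1285)) (x (nat_lit 1289)) (x (nat_lit 1291)) (x (nat_lit 1293))
    (x (nat_lit 1313)) (x (nat_lit 1319)) (x (nat_lit 1321)) (x (nat_lit 1331)) (x (nat_lit 1337))
    (x (nat_lit 1339)) (x (nat_lit 1343)) (x (nat_lit 1345)) (x (nat_lit 1347)) (x (nat_lit 1355))
    (x (nat_lit 1357)) (x (nat_lit 1361)) (x (nat_lit 1363)) (x (nat_lit 1365)) (x (nat_lit 1369))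
    (x (nat_lit 1371)) (x (nat_lit 1385)) (x (nat_lit 1391)) (x (nat_lit 1393)) (x (nat_lit 1397))
    (x (nat_lit 1399)) (x (nat_lit 1401)) (x (nat_lit 1409)) (x (nat_lit 1411)) (x (nat_lit 1415))
    (x (nat_lit 1417)) (x (nat_lit 1419)) (x (nat_lit 1423)) (x (nat_lit 1425)) (x (nat_lit 1433))
    (x (nat_lit 1435)) (x (nat_lit 1437)) (x (nat_lit 1441)) (x (nat_lit 1443)) (x (nat_lit 1449))
    (x (nat_lit 1511)) (x (nat_lit 1529)) (x (nat_lit 1535)) (x (nat_lit 1537)) (x (nat_lit 1565))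
    (x (nat_lit 1583)) (x (nat_lit 1589)) (x (nat_lit 1591)) (x (nat_lit 1601)) (x (nat_lit 1607))
    (x (nat_lit 1609)) (x (nat_lit 1613)) (x (nat_lit 1615)) (x (nat_lit 1617)) (x (nat_lit 1637))
    (x (nat_lit 1643)) (x (nat_lit 1645)) (x (nat_lit 1655)) (x (nat_lit 1661)) (x (nat_lit 1663))
    (x (nat_lit 1667)) (x (nat_lit 1669)) (x (nat_lit 1671)) (x (nat_lit 1679)) (x (nat_lit 1681))
    (x (nat_lit 1685)) (x (nat_lit 1687)) (x (nat_lit 1689)) (x (nat_lit 1693)) (x (nat_lit 1695))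
    (x (nat_lit 1727)) (x (nat_lit 1745)) (x (nat_lit 1751)) (x (nat_lit 1753)) (x (nat_lit 1763))
    (x (nat_lit 1769)) (x (nat_lit 1771)) (x (nat_lit 1775)) (x (nat_lit 1777)) (x (nat_lit 1779))
    (x (nat_lit 1799)) (x (nat_lit 1805)) (x (nat_lit 1807)) (x (nat_lit 1817)) (x (nat_lit 1823))
    (x (nat_lit 1825)) (x (nat_lit 1829)) (x (nat_lit 1831)) (x (nat_lit 1833)) (x (nat_lit 1841))
    (x (nat_lit 1843)) (x (nat_lit 1847)) (x (nat_lit 1849)) (x (nat_lit 1851)) (x (nat_lit 1855))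
    (x (nat_lit 1857)) (x (nat_lit 1871)) (x (nat_lit 1877)) (x (nat_lit 1879)) (x (nat_lit 1883))
    (x (nat_lit 1885)) (x (nat_lit 1887)) (x (nat_lit 1895)) (x (nat_lit 1897)) (x (nat_lit 1901))
    (x (nat_lit 1903)) (x (nat_lit 1905)) (x (nat_lit 1909)) (x (nat_lit 1911)) (x (nat_lit 1919))
    (x (nat_lit 1921)) (x (nat_lit 1923)) (x (nat_lit 1927)) (x (nat_lit 1929)) (x (nat_lit 1935))
    (x (nat_lit 1961)) (x (nat_lit 1967)) (x (nat_lit 1969)) (x (nat_lit 1979)) (x (nat_lit 1985))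
    (x (nat_lit 1987)) (x (nat_lit 1991)) (x (nat_lit 1993)) (x (nat_lit 1995)) (x (nat_lit 2003))
    (x (nat_lit 2005)) (x (nat_lit 2009)) (x (nat_lit 2011)) (x (nat_lit 2013)) (x (nat_lit 2017))
    (x (nat_lit 2019)) (x (nat_lit 2033)) (x (nat_lit 2039)) (x (nat_lit 2041)) (x (nat_lit 2045))
    (x (nat_lit 2047)) (x (nat_lit 2049)) (x (nat_lit 2057)) (x (nat_lit 2059)) (x (nat_lit 2063))
    (x (nat_lit 2065)) (x (nat_lit 2067)) (x (nat_lit 2071)) (x (nat_lit 2073)) (x (nat_lit 2081))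
    (x (nat_lit 2083)) (x (nat_lit 2085)) (x (nat_lit 2089)) (x (nat_lit 2091)) (x (nat_lit 2097))
    (x (nat_lit 2111)) (x (nat_lit 2113)) (x (nat_lit 2117)) (x (nat_lit 2119)) (x (nat_lit 2121))
    (x (nat_lit 2125)) (x (nat_lit 2127)) (x (nat_lit 2135)) (x (nat_lit 2137)) (x (nat_lit 2139))
    (x (nat_lit 2143)) (x (nat_lit 2145)) (x (nat_lit 2151)) (x (nat_lit 2161)) (x (nat_lit 2163))
    (x (nat_lit 2169)) (x (nat_lit 2267)) (x (nat_lit 2321)) (x (nat_lit 2339)) (x (nat_lit 2345))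
    (x (nat_lit 2347)) (x (nat_lit 2375)) (x (nat_lit 2393)) (x (nat_lit 2399)) (x (nat_lit 2401))
    (x (nat_lit 2411)) (x (nat_lit 2417)) (x (nat_lit 2419)) (x (nat_lit 2423)) (x (nat_lit 2425))
    (x (nat_lit 2427)) (x (nat_lit 2483)) (x (nat_lit 2501)) (x (nat_lit 2507)) (x (nat_lit 2509))
    (x (nat_lit 2537)) (x (nat_lit 2555)) (x (nat_lit 2561)) (x (nat_lit 2563)) (x (nat_lit 2573))
    (x (nat_lit 2579)) (x (nat_lit 2581)) (x (nat_lit 2585)) (x (nat_lit 2587)) (x (nat_lit 2589))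
    (x (nat_lit 2609)) (x (nat_lit 2615)) (x (nat_lit 2617)) (x (nat_lit 2627)) (x (nat_lit 2633))
    (x (nat_lit 2635)) (x (nat_lit 2639)) (x (nat_lit 2641)) (x (nat_lit 2643)) (x (nat_lit 2651))
    (x (nat_lit 2653)) (x (nat_lit 2657)) (x (nat_lit 2659)) (x (nat_lit 2661)) (x (nat_lit 2665))
    (x (nat_lit 2667)) (x (nat_lit 2699)) (x (nat_lit 2717)) (x (nat_lit 2723)) (x (nat_lit 2725))
    (x (nat_lit 2735)) (x (nat_lit 2741)) (x (nat_lit 2743)) (x (nat_lit 2747)) (x (nat_lit 2749))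
    (x (nat_lit 2751)) (x (nat_lit 2771)) (x (nat_lit 2777)) (x (nat_lit 2779)) (x (nat_lit 2789))
    (x (nat_lit 2795)) (x (nat_lit 2797)) (x (nat_lit 2801)) (x (nat_lit 2803)) (x (nat_lit 2805))
    (x (nat_lit 2813)) (x (nat_lit 2815)) (x (nat_lit 2819)) (x (nat_lit 2821)) (x (nat_lit 2823))
    (x (nat_lit 2827)) (x (nat_lit 2829)) (x (nat_lit 2843)) (x (nat_lit 2849)) (x (nat_lit 2851))
    (x (nat_lit 2855)) (x (nat_lit 2857)) (x (nat_lit 2859)) (x (nat_lit 2867)) (x (nat_lit 2869))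
    (x (nat_lit 2873)) (x (nat_lit 2875)) (x (nat_lit 2877)) (x (nat_lit 2881)) (x (nat_lit 2883))
    (x (nat_lit 2891)) (x (nat_lit 2893)) (x (nat_lit 2895)) (x (nat_lit 2899)) (x (nat_lit 2901))
    (x (nat_lit 2907)) (x (nat_lit 2969)) (x (nat_lit 2987)) (x (nat_lit 2993)) (x (nat_lit 2995))
    (x (nat_lit 3023)) (x (nat_lit 3041)) (x (nat_lit 3047)) (x (nat_lit 3049)) (x (nat_lit 3059))
    (x (nat_lit 3065)) (x (nat_lit 3067)) (x (nat_lit 3071)) (x (nat_lit 3073)) (x (nat_lit 3075))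
    (x (nat_lit 3095)) (x (nat_lit 3101)) (x (nat_lit 3103)) (x (nat_lit 3113)) (x (nat_lit 3119))
    (x (nat_lit 3121)) (x (nat_lit 3125)) (x (nat_lit 3127)) (x (nat_lit 3129)) (x (nat_lit 3137))
    (x (nat_lit 3139)) (x (nat_lit 3143)) (x (nat_lit 3145)) (x (nat_lit 3147)) (x (nat_lit 3151))
    (x (nat_lit 3153)) (x (nat_lit 3185)) (x (nat_lit 3203)) (x (nat_lit 3209)) (x (nat_lit 3211))
    (x (nat_lit 3221)) (x (nat_lit 3227)) (x (nat_lit 3229)) (x (nat_lit 3233)) (x (nat_lit 3235))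
    (x (nat_lit 3237)) (x (nat_lit 3257)) (x (nat_lit 3263)) (x (nat_lit 3265)) (x (nat_lit 3275))
    (x (nat_lit 3281)) (x (nat_lit 3283)) (x (nat_lit 3287)) (x (nat_lit 3289)) (x (nat_lit 3291))
    (x (nat_lit 3299)) (x (nat_lit 3301)) (x (nat_lit 3305)) (x (nat_lit 3307)) (x (nat_lit 3309))
    (x (nat_lit 3313)) (x (nat_lit 3315)) (x (nat_lit 3329)) (x (nat_lit 3335)) (x (nat_lit 3337))
    (x (nat_lit 3341)) (x (nat_lit 3343)) (x (nat_lit 3345)) (x (nat_lit 3353)) (x (nat_lit 3355))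
    (x (nat_lit 3359)) (x (nat_lit 3361)) (x (nat_lit 3363)) (x (nat_lit 3367)) (x (nat_lit 3369))
    (x (nat_lit 3377)) (x (nat_lit 3379)) (x (nat_lit 3381)) (x (nat_lit 3385)) (x (nat_lit 3387))
    (x (nat_lit 3393)) (x (nat_lit 3419)) (x (nat_lit 3425)) (x (nat_lit 3427)) (x (nat_lit 3437))
    (x (nat_lit 3443)) (x (nat_lit 3445)) (x (nat_lit 3449)) (x (nat_lit 3451)) (x (nat_lit 3453))
    (x (nat_lit 3461)) (x (nat_lit 3463)) (x (nat_lit 3467)) (x (nat_lit 3469)) (x (nat_lit 3471))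
    (x (nat_lit 3475)) (x (nat_lit 3477)) (x (nat_lit 3491)) (x (nat_lit 3497)) (x (nat_lit 3499))
    (x (nat_lit 3503)) (x (nat_lit 3505)) (x (nat_lit 3507)) (x (nat_lit 3515)) (x (nat_lit 3517))
    (x (nat_lit 3521)) (x (nat_lit 3523)) (x (nat_lit 3525)) (x (nat_lit 3529)) (x (nat_lit 3531))
    (x (nat_lit 3539)) (x (nat_lit 3541)) (x (nat_lit 3543)) (x (nat_lit 3547)) (x (nat_lit 3549))
    (x (nat_lit 3555)) (x (nat_lit 3569)) (x (nat_lit 3571)) (x (nat_lit 3575)) (x (nat_lit 3577))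
    (x (nat_lit 3579)) (x (nat_lit 3583)) (x (nat_lit 3585)) (x (nat_lit 3593)) (x (nat_lit 3595))
    (x (nat_lit 3597)) (x (nat_lit 3601)) (x (nat_lit 3603)) (x (nat_lit 3609)) (x (nat_lit 3619))
    (x (nat_lit 3621)) (x (nat_lit 3627)) (x (nat_lit 3671)) (x (nat_lit 3689)) (x (nat_lit 3695))
    (x (nat_lit 3697)) (x (nat_lit 3707)) (x (nat_lit 3713)) (x (nat_lit 3715)) (x (nat_lit 3719))
    (x (nat_lit 3721)) (x (nat_lit 3723)) (x (nat_lit 3743)) (x (nat_lit 3749)) (x (nat_lit 3751))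
    (x (nat_lit 3761)) (x (nat_lit 3767)) (x (nat_lit 3769)) (x (nat_lit 3773)) (x (nat_lit 3775))
    (x (nat_lit 3777)) (x (nat_lit 3785)) (x (nat_lit 3787)) (x (nat_lit 3791)) (x (nat_lit 3793))
    (x (nat_lit 3795)) (x (nat_lit 3799)) (x (nat_lit 3801)) (x (nat_lit 3815)) (x (nat_lit 3821))
    (x (nat_lit 3823)) (x (nat_lit 3827)) (x (nat_lit 3829)) (x (nat_lit 3831)) (x (nat_lit 3839))
    (x (nat_lit 3841)) (x (nat_lit 3845)) (x (nat_lit 3847)) (x (nat_lit 3849)) (x (nat_lit 3853))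
    (x (nat_lit 3855)) (x (nat_lit 3863)) (x (nat_lit 3865)) (x (nat_lit 3867)) (x (nat_lit 3871))
    (x (nat_lit 3873)) (x (nat_lit 3879)) (x (nat_lit 3905)) (x (nat_lit 3911)) (x (nat_lit 3913))
    (x (nat_lit 3923)) (x (nat_lit 3929)) (x (nat_lit 3931)) (x (nat_lit 3935)) (x (nat_lit 3937))
    (x (nat_lit 3939)) (x (nat_lit 3947)) (x (nat_lit 3949)) (x (nat_lit 3953)) (x (nat_lit 3955))
    (x (nat_lit 3957)) (x (nat_lit 3961)) (x (nat_lit 3963)) (x (nat_lit 3977)) (x (nat_lit 3983))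
    (x (nat_lit 3985)) (x (nat_lit 3989)) (x (nat_lit 3991)) (x (nat_lit 3993)) (x (nat_lit 4001))
    (x (nat_lit 4003)) (x (nat_lit 4007)) (x (nat_lit 4009)) (x (nat_lit 4011)) (x (nat_lit 4015))
    (x (nat_lit 4017)) (x (nat_lit 4025)) (x (nat_lit 4027)) (x (nat_lit 4029)) (x (nat_lit 4033))
    (x (nat_lit 4035)) (x (nat_lit 4041)) (x (nat_lit 4055)) (x (nat_lit 4057)) (x (nat_lit 4061))
    (x (nat_lit 4063)) (x (nat_lit 4065)) (x (nat_lit 4069)) (x (nat_lit 4071)) (x (nat_lit 4079))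
    (x (nat_lit 4081)) (x (nat_lit 4083)) (x (nat_lit 4087)) (x (nat_lit 4089)) (x (nat_lit 4095))
    (x (nat_lit 4105)) (x (nat_lit 4107)) (x (nat_lit 4113)) (x (nat_lit 4139)) (x (nat_lit 4145))
    (x (nat_lit 4147)) (x (nat_lit 4151)) (x (nat_lit 4153)) (x (nat_lit 4155)) (x (nat_lit 4163))
    (x (nat_lit 4165)) (x (nat_lit 4169)) (x (nat_lit 4171)) (x (nat_lit 4173)) (x (nat_lit 4177))
    (x (nat_lit 4179)) (x (nat_lit 4187)) (x (nat_lit 4189)) (x (nat_lit 4191)) (x (nat_lit 4195))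
    (x (nat_lit 4197)) (x (nat_lit 4203)) (x (nat_lit 4217)) (x (nat_lit 4219)) (x (nat_lit 4223))
    (x (nat_lit 4225)) (x (nat_lit 4227)) (x (nat_lit 4231)) (x (nat_lit 4233)) (x (nat_lit 4241))
    (x (nat_lit 4243)) (x (nat_lit 4245)) (x (nat_lit 4249)) (x (nat_lit 4251)) (x (nat_lit 4257))
    (x (nat_lit 4267)) (x (nat_lit 4269)) (x (nat_lit 4275)) (x (nat_lit 4295)) (x (nat_lit 4297))
    (x (nat_lit 4299)) (x (nat_lit 4303)) (x (nat_lit 4305)) (x (nat_lit 4311)) (x (nat_lit 4321))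
    (x (nat_lit 4323)) (x (nat_lit 4329)) (x (nat_lit 4347)) (x (nat_lit 4427)) (x (nat_lit 4445))
    (x (nat_lit 4451)) (x (nat_lit 4453)) (x (nat_lit 4481)) (x (nat_lit 4499)) (x (nat_lit 4505))
    (x (nat_lit 4507)) (x (nat_lit 4517)) (x (nat_lit 4523)) (x (nat_lit 4525)) (x (nat_lit 4529))
    (x (nat_lit 4531)) (x (nat_lit 4533)) (x (nat_lit 4553)) (x (nat_lit 4559)) (x (nat_lit 4561))
    (x (nat_lit 4571)) (x (nat_lit 4577)) (x (nat_lit 4579)) (x (nat_lit 4583)) (x (nat_lit 4585))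
    (x (nat_lit 4587)) (x (nat_lit 4595)) (x (nat_lit 4597)) (x (nat_lit 4601)) (x (nat_lit 4603))
    (x (nat_lit 4605)) (x (nat_lit 4609)) (x (nat_lit 4611)) (x (nat_lit 4643)) (x (nat_lit 4661))
    (x (nat_lit 4667)) (x (nat_lit 4669)) (x (nat_lit 4679)) (x (nat_lit 4685)) (x (nat_lit 4687))
    (x (nat_lit 4691)) (x (nat_lit 4693)) (x (nat_lit 4695)) (x (nat_lit 4715)) (x (nat_lit 4721))
    (x (nat_lit 4723)) (x (nat_lit 4733)) (x (nat_lit 4739)) (x (nat_lit 4741)) (x (nat_lit 4745))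
    (x (nat_lit 4747)) (x (nat_lit 4749)) (x (nat_lit 4757)) (x (nat_lit 4759)) (x (nat_lit 4763))
    (x (nat_lit 4765)) (x (nat_lit 4767)) (x (nat_lit 4771)) (x (nat_lit 4773)) (x (nat_lit 4787))
    (x (nat_lit 4793)) (x (nat_lit 4795)) (x (nat_lit 4799)) (x (nat_lit 4801)) (x (nat_lit 4803))
    (x (nat_lit 4811)) (x (nat_lit 4813)) (x (nat_lit 4817)) (x (nat_lit 4819)) (x (nat_lit 4821))
    (x (nat_lit 4825)) (x (nat_lit 4827)) (x (nat_lit 4835)) (x (nat_lit 4837)) (x (nat_lit 4839))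
    (x (nat_lit 4843)) (x (nat_lit 4845)) (x (nat_lit 4851)) (x (nat_lit 4877)) (x (nat_lit 4883))
    (x (nat_lit 4885)) (x (nat_lit 4895)) (x (nat_lit 4901)) (x (nat_lit 4903)) (x (nat_lit 4907))
    (x (nat_lit 4909)) (x (nat_lit 4911)) (x (nat_lit 4919)) (x (nat_lit 4921)) (x (nat_lit 4925))
    (x (nat_lit 4927)) (x (nat_lit 4929)) (x (nat_lit 4933)) (x (nat_lit 4935)) (x (nat_lit 4949))
    (x (nat_lit 4955)) (x (nat_lit 4957)) (x (nat_lit 4961)) (x (nat_lit 4963)) (x (nat_lit 4965))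
    (x (nat_lit 4973)) (x (nat_lit 4975)) (x (nat_lit 4979)) (x (nat_lit 4981)) (x (nat_lit 4983))
    (x (nat_lit 4987)) (x (nat_lit 4989)) (x (nat_lit 4997)) (x (nat_lit 4999)) (x (nat_lit 5001))
    (x (nat_lit 5005)) (x (nat_lit 5007)) (x (nat_lit 5013)) (x (nat_lit 5027)) (x (nat_lit 5029))
    (x (nat_lit 5033)) (x (nat_lit 5035)) (x (nat_lit 5037)) (x (nat_lit 5041)) (x (nat_lit 5043))
    (x (nat_lit 5051)) (x (nat_lit 5053)) (x (nat_lit 5055)) (x (nat_lit 5059)) (x (nat_lit 5061))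
    (x (nat_lit 5067)) (x (nat_lit 5077)) (x (nat_lit 5079)) (x (nat_lit 5085)) (x (nat_lit 5129))
    (x (nat_lit 5147)) (x (nat_lit 5153)) (x (nat_lit 5155)) (x (nat_lit 5165)) (x (nat_lit 5171))
    (x (nat_lit 5173)) (x (nat_lit 5177)) (x (nat_lit 5179)) (x (nat_lit 5181)) (x (nat_lit 5201))
    (x (nat_lit 5207)) (x (nat_lit 5209)) (x (nat_lit 5219)) (x (nat_lit 5225)) (x (nat_lit 5227))
    (x (nat_lit 5231)) (x (nat_lit 5233)) (x (nat_lit 5235)) (x (nat_lit 5243)) (x (nat_lit 5245))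
    (x (nat_lit 5249)) (x (nat_lit 5251)) (x (nat_lit 5253)) (x (nat_lit 5257)) (x (nat_lit 5259))
    (x (nat_lit 5273)) (x (nat_lit 5279)) (x (nat_lit 5281)) (x (nat_lit 5285)) (x (nat_lit 5287))
    (x (nat_lit 5289)) (x (nat_lit 5297)) (x (nat_lit 5299)) (x (nat_lit 5303)) (x (nat_lit 5305))
    (x (nat_lit 5307)) (x (nat_lit 5311)) (x (nat_lit 5313)) (x (nat_lit 5321)) (x (nat_lit 5323))
    (x (nat_lit 5325)) (x (nat_lit 5329)) (x (nat_lit 5331)) (x (nat_lit 5337)) (x (nat_lit 5363))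
    (x (nat_lit 5369)) (x (nat_lit 5371)) (x (nat_lit 5381)) (x (nat_lit 5387)) (x (nat_lit 5389))
    (x (nat_lit 5393)) (x (nat_lit 5395)) (x (nat_lit 5397)) (x (nat_lit 5405)) (x (nat_lit 5407))
    (x (nat_lit 5411)) (x (nat_lit 5413)) (x (nat_lit 5415)) (x (nat_lit 5419)) (x (nat_lit 5421))
    (x (nat_lit 5435)) (x (nat_lit 5441)) (x (nat_lit 5443)) (x (nat_lit 5447)) (x (nat_lit 5449))
    (x (nat_lit 5451)) (x (nat_lit 5459)) (x (nat_lit 5461)) (x (nat_lit 5465)) (x (nat_lit 5467))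
    (x (nat_lit 5469)) (x (nat_lit 5473)) (x (nat_lit 5475)) (x (nat_lit 5483)) (x (nat_lit 5485))
    (x (nat_lit 5487)) (x (nat_lit 5491)) (x (nat_lit 5493)) (x (nat_lit 5499)) (x (nat_lit 5513))
    (x (nat_lit 5515)) (x (nat_lit 5519)) (x (nat_lit 5521)) (x (nat_lit 5523)) (x (nat_lit 5527))
    (x (nat_lit 5529)) (x (nat_lit 5537)) (x (nat_lit 5539)) (x (nat_lit 5541)) (x (nat_lit 5545))
    (x (nat_lit 5547)) (x (nat_lit 5553)) (x (nat_lit 5563)) (x (nat_lit 5565)) (x (nat_lit 5571))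
    (x (nat_lit 5597)) (x (nat_lit 5603)) (x (nat_lit 5605)) (x (nat_lit 5609)) (x (nat_lit 5611))
    (x (nat_lit 5613)) (x (nat_lit 5621)) (x (nat_lit 5623)) (x (nat_lit 5627)) (x (nat_lit 5629))
    (x (nat_lit 5631)) (x (nat_lit 5635)) (x (nat_lit 5637)) (x (nat_lit 5645)) (x (nat_lit 5647))
    (x (nat_lit 5649)) (x (nat_lit 5653)) (x (nat_lit 5655)) (x (nat_lit 5661)) (x (nat_lit 5675))
    (x (nat_lit 5677)) (x (nat_lit 5681)) (x (nat_lit 5683)) (x (nat_lit 5685)) (x (nat_lit 5689))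
    (x (nat_lit 5691)) (x (nat_lit 5699)) (x (nat_lit 5701)) (x (nat_lit 5703)) (x (nat_lit 5707))
    (x (nat_lit 5709)) (x (nat_lit 5715)) (x (nat_lit 5725)) (x (nat_lit 5727)) (x (nat_lit 5733))
    (x (nat_lit 5753)) (x (nat_lit 5755)) (x (nat_lit 5757)) (x (nat_lit 5761)) (x (nat_lit 5763))
    (x (nat_lit 5769)) (x (nat_lit 5779)) (x (nat_lit 5781)) (x (nat_lit 5787)) (x (nat_lit 5805))
    (x (nat_lit 5849)) (x (nat_lit 5855)) (x (nat_lit 5857)) (x (nat_lit 5867)) (x (nat_lit 5873))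
    (x (nat_lit 5875)) (x (nat_lit 5879)) (x (nat_lit 5881)) (x (nat_lit 5883)) (x (nat_lit 5891))
    (x (nat_lit 5893)) (x (nat_lit 5897)) (x (nat_lit 5899)) (x (nat_lit 5901)) (x (nat_lit 5905))
    (x (nat_lit 5907)) (x (nat_lit 5921)) (x (nat_lit 5927)) (x (nat_lit 5929)) (x (nat_lit 5933))
    (x (nat_lit 5935)) (x (nat_lit 5937)) (x (nat_lit 5945)) (x (nat_lit 5947)) (x (nat_lit 5951))
    (x (nat_lit 5953)) (x (nat_lit 5955)) (x (nat_lit 5959)) (x (nat_lit 5961)) (x (nat_lit 5969))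
    (x (nat_lit 5971)) (x (nat_lit 5973)) (x (nat_lit 5977)) (x (nat_lit 5979)) (x (nat_lit 5985))
    (x (nat_lit 5999)) (x (nat_lit 6001)) (x (nat_lit 6005)) (x (nat_lit 6007)) (x (nat_lit 6009))
    (x (nat_lit 6013)) (x (nat_lit 6015)) (x (nat_lit 6023)) (x (nat_lit 6025)) (x (nat_lit 6027))
    (x (nat_lit 6031)) (x (nat_lit 6033)) (x (nat_lit 6039)) (x (nat_lit 6049)) (x (nat_lit 6051))
    (x (nat_lit 6057)) (x (nat_lit 6083)) (x (nat_lit 6089)) (x (nat_lit 6091)) (x (nat_lit 6095))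
    (x (nat_lit 6097)) (x (nat_lit 6099)) (x (nat_lit 6107)) (x (nat_lit 6109)) (x (nat_lit 6113))
    (x (nat_lit 6115)) (x (nat_lit 6117)) (x (nat_lit 6121)) (x (nat_lit 6123)) (x (nat_lit 6131))
    (x (nat_lit 6133)) (x (nat_lit 6135)) (x (nat_lit 6139)) (x (nat_lit 6141)) (x (nat_lit 6147))
    (x (nat_lit 6161)) (x (nat_lit 6163)) (x (nat_lit 6167)) (x (nat_lit 6169)) (x (nat_lit 6171))
    (x (nat_lit 6175)) (x (nat_lit 6177)) (x (nat_lit 6185)) (x (nat_lit 6187)) (x (nat_lit 6189))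
    (x (nat_lit 6193)) (x (nat_lit 6195)) (x (nat_lit 6201)) (x (nat_lit 6211)) (x (nat_lit 6213))
    (x (nat_lit 6219)) (x (nat_lit 6239)) (x (nat_lit 6241)) (x (nat_lit 6243)) (x (nat_lit 6247))
    (x (nat_lit 6249)) (x (nat_lit 6255)) (x (nat_lit 6265)) (x (nat_lit 6267)) (x (nat_lit 6273))
    (x (nat_lit 6291)) (x (nat_lit 6323)) (x (nat_lit 6325)) (x (nat_lit 6329)) (x (nat_lit 6331))
    (x (nat_lit 6333)) (x (nat_lit 6337)) (x (nat_lit 6339)) (x (nat_lit 6347)) (x (nat_lit 6349))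
    (x (nat_lit 6351)) (x (nat_lit 6355)) (x (nat_lit 6357)) (x (nat_lit 6363)) (x (nat_lit 6373))
    (x (nat_lit 6375)) (x (nat_lit 6381)) (x (nat_lit 6401)) (x (nat_lit 6403)) (x (nat_lit 6405))
    (x (nat_lit 6409)) (x (nat_lit 6411)) (x (nat_lit 6417)) (x (nat_lit 6427)) (x (nat_lit 6429))
    (x (nat_lit 6435)) (x (nat_lit 6453)) (x (nat_lit 6481)) (x (nat_lit 6483)) (x (nat_lit 6489))
    (x (nat_lit 6507)) (x (nat_lit 6641)) (x (nat_lit 6695)) (x (nat_lit 6713)) (x (nat_lit 6719))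
    (x (nat_lit 6721)) (x (nat_lit 6749)) (x (nat_lit 6767)) (x (nat_lit 6773)) (x (nat_lit 6775))
    (x (nat_lit 6785)) (x (nat_lit 6791)) (x (nat_lit 6793)) (x (nat_lit 6797)) (x (nat_lit 6799))
    (x (nat_lit 6801)) (x (nat_lit 6857)) (x (nat_lit 6875)) (x (nat_lit 6881)) (x (nat_lit 6883))
    (x (nat_lit 6911)) (x (nat_lit 6929)) (x (nat_lit 6935)) (x (nat_lit 6937)) (x (nat_lit 6947))
    (x (nat_lit 6953)) (x (nat_lit 6955)) (x (nat_lit 6959)) (x (nat_lit 6961)) (x (nat_lit 6963))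
    (x (nat_lit 6983)) (x (nat_lit 6989)) (x (nat_lit 6991)) (x (nat_lit 7001)) (x (nat_lit 7007))
    (x (nat_lit 7009)) (x (nat_lit 7013)) (x (nat_lit 7015)) (x (nat_lit 7017)) (x (nat_lit 7025))
    (x (nat_lit 7027)) (x (nat_lit 7031)) (x (nat_lit 7033)) (x (nat_lit 7035)) (x (nat_lit 7039))
    (x (nat_lit 7041)) (x (nat_lit 7073)) (x (nat_lit 7091)) (x (nat_lit 7097)) (x (nat_lit 7099))
    (x (nat_lit 7109)) (x (nat_lit 7115)) (x (nat_lit 7117)) (x (nat_lit 7121)) (x (nat_lit 7123))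
    (x (nat_lit 7125)) (x (nat_lit 7145)) (x (nat_lit 7151)) (x (nat_lit 7153)) (x (nat_lit 7163))
    (x (nat_lit 7169)) (x (nat_lit 7171)) (x (nat_lit 7175)) (x (nat_lit 7177)) (x (nat_lit 7179))
    (x (nat_lit 7187)) (x (nat_lit 7189)) (x (nat_lit 7193)) (x (nat_lit 7195)) (x (nat_lit 7197))
    (x (nat_lit 7201)) (x (nat_lit 7203)) (x (nat_lit 7217)) (x (nat_lit 7223)) (x (nat_lit 7225))
    (x (nat_lit 7229)) (x (nat_lit 7231)) (x (nat_lit 7233)) (x (nat_lit 7241)) (x (nat_lit 7243))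
    (x (nat_lit 7247)) (x (nat_lit 7249)) (x (nat_lit 7251)) (x (nat_lit 7255)) (x (nat_lit 7257))
    (x (nat_lit 7265)) (x (nat_lit 7267)) (x (nat_lit 7269)) (x (nat_lit 7273)) (x (nat_lit 7275))
    (x (nat_lit 7281)) (x (nat_lit 7343)) (x (nat_lit 7361)) (x (nat_lit 7367)) (x (nat_lit 7369))
    (x (nat_lit 7397)) (x (nat_lit 7415)) (x (nat_lit 7421)) (x (nat_lit 7423)) (x (nat_lit 7433))
    (x (nat_lit 7439)) (x (nat_lit 7441)) (x (nat_lit 7445)) (x (nat_lit 7447)) (x (nat_lit 7449))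
    (x (nat_lit 7469)) (x (nat_lit 7475)) (x (nat_lit 7477)) (x (nat_lit 7487)) (x (nat_lit 7493))
    (x (nat_lit 7495)) (x (nat_lit 7499)) (x (nat_lit 7501)) (x (nat_lit 7503)) (x (nat_lit 7511))
    (x (nat_lit 7513)) (x (nat_lit 7517)) (x (nat_lit 7519)) (x (nat_lit 7521)) (x (nat_lit 7525))
    (x (nat_lit 7527)) (x (nat_lit 7559)) (x (nat_lit 7577)) (x (nat_lit 7583)) (x (nat_lit 7585))
    (x (nat_lit 7595)) (x (nat_lit 7601)) (x (nat_lit 7603)) (x (nat_lit 7607)) (x (nat_lit 7609))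
    (x (nat_lit 7611)) (x (nat_lit 7631)) (x (nat_lit 7637)) (x (nat_lit 7639)) (x (nat_lit 7649))
    (x (nat_lit 7655)) (x (nat_lit 7657)) (x (nat_lit 7661)) (x (nat_lit 7663)) (x (nat_lit 7665))
    (x (nat_lit 7673)) (x (nat_lit 7675)) (x (nat_lit 7679)) (x (nat_lit 7681)) (x (nat_lit 7683))
    (x (nat_lit 7687)) (x (nat_lit 7689)) (x (nat_lit 7703)) (x (nat_lit 7709)) (x (nat_lit 7711))
    (x (nat_lit 7715)) (x (nat_lit 7717)) (x (nat_lit 7719)) (x (nat_lit 7727)) (x (nat_lit 7729))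
    (x (nat_lit 7733)) (x (nat_lit 7735)) (x (nat_lit 7737)) (x (nat_lit 7741)) (x (nat_lit 7743))
    (x (nat_lit 7751)) (x (nat_lit 7753)) (x (nat_lit 7755)) (x (nat_lit 7759)) (x (nat_lit 7761))
    (x (nat_lit 7767)) (x (nat_lit 7793)) (x (nat_lit 7799)) (x (nat_lit 7801)) (x (nat_lit 7811))
    (x (nat_lit 7817)) (x (nat_lit 7819)) (x (nat_lit 7823)) (x (nat_lit 7825)) (x (nat_lit 7827))
    (x (nat_lit 7835)) (x (nat_lit 7837)) (x (nat_lit 7841)) (x (nat_lit 7843)) (x (nat_lit 7845))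
    (x (nat_lit 7849)) (x (nat_lit 7851)) (x (nat_lit 7865)) (x (nat_lit 7871)) (x (nat_lit 7873))
    (x (nat_lit 7877)) (x (nat_lit 7879)) (x (nat_lit 7881)) (x (nat_lit 7889)) (x (nat_lit 7891))
    (x (nat_lit 7895)) (x (nat_lit 7897)) (x (nat_lit 7899)) (x (nat_lit 7903)) (x (nat_lit 7905))
    (x (nat_lit 7913)) (x (nat_lit 7915)) (x (nat_lit 7917)) (x (nat_lit 7921)) (x (nat_lit 7923))
    (x (nat_lit 7929)) (x (nat_lit 7943)) (x (nat_lit 7945)) (x (nat_lit 7949)) (x (nat_lit 7951))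
    (x (nat_lit 7953)) (x (nat_lit 7957)) (x (nat_lit 7959)) (x (nat_lit 7967)) (x (nat_lit 7969))
    (x (nat_lit 7971)) (x (nat_lit 7975)) (x (nat_lit 7977)) (x (nat_lit 7983)) (x (nat_lit 7993))
    (x (nat_lit 7995)) (x (nat_lit 8001)) (x (nat_lit 8045)) (x (nat_lit 8063)) (x (nat_lit 8069))
    (x (nat_lit 8071)) (x (nat_lit 8081)) (x (nat_lit 8087)) (x (nat_lit 8089)) (x (nat_lit 8093))
    (x (nat_lit 8095)) (x (nat_lit 8097)) (x (nat_lit 8117)) (x (nat_lit 8123)) (x (nat_lit 8125))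
    (x (nat_lit 8135)) (x (nat_lit 8141)) (x (nat_lit 8143)) (x (nat_lit 8147)) (x (nat_lit 8149))
    (x (nat_lit 8151)) (x (nat_lit 8159)) (x (nat_lit 8161)) (x (nat_lit 8165)) (x (nat_lit 8167))
    (x (nat_lit 8169)) (x (nat_lit 8173)) (x (nat_lit 8175)) (x (nat_lit 8189)) (x (nat_lit 8195))
    (x (nat_lit 8197)) (x (nat_lit 8201)) (x (nat_lit 8203)) (x (nat_lit 8205)) (x (nat_lit 8213))
    (x (nat_lit 8215)) (x (nat_lit 8219)) (x (nat_lit 8221)) (x (nat_lit 8223)) (x (nat_lit 8227))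
    (x (nat_lit 8229)) (x (nat_lit 8237)) (x (nat_lit 8239)) (x (nat_lit 8241)) (x (nat_lit 8245))
    (x (nat_lit 8247)) (x (nat_lit 8253)) (x (nat_lit 8279)) (x (nat_lit 8285)) (x (nat_lit 8287))
    (x (nat_lit 8297)) (x (nat_lit 8303)) (x (nat_lit 8305)) (x (nat_lit 8309)) (x (nat_lit 8311))
    (x (nat_lit 8313)) (x (nat_lit 8321)) (x (nat_lit 8323)) (x (nat_lit 8327)) (x (nat_lit 8329))
    (x (nat_lit 8331)) (x (nat_lit 8335)) (x (nat_lit 8337)) (x (nat_lit 8351)) (x (nat_lit 8357))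
    (x (nat_lit 8359)) (x (nat_lit 8363)) (x (nat_lit 8365)) (x (nat_lit 8367)) (x (nat_lit 8375))
    (x (nat_lit 8377)) (x (nat_lit 8381)) (x (nat_lit 8383)) (x (nat_lit 8385)) (x (nat_lit 8389))
    (x (nat_lit 8391)) (x (nat_lit 8399)) (x (nat_lit 8401)) (x (nat_lit 8403)) (x (nat_lit 8407))
    (x (nat_lit 8409)) (x (nat_lit 8415)) (x (nat_lit 8429)) (x (nat_lit 8431)) (x (nat_lit 8435))
    (x (nat_lit 8437)) (x (nat_lit 8439)) (x (nat_lit 8443)) (x (nat_lit 8445)) (x (nat_lit 8453))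
    (x (nat_lit 8455)) (x (nat_lit 8457)) (x (nat_lit 8461)) (x (nat_lit 8463)) (x (nat_lit 8469))
    (x (nat_lit 8479)) (x (nat_lit 8481)) (x (nat_lit 8487)) (x (nat_lit 8513)) (x (nat_lit 8519))
    (x (nat_lit 8521)) (x (nat_lit 8525)) (x (nat_lit 8527)) (x (nat_lit 8529)) (x (nat_lit 8537))
    (x (nat_lit 8539)) (x (nat_lit 8543)) (x (nat_lit 8545)) (x (nat_lit 8547)) (x (nat_lit 8551))
    (x (nat_lit 8553)) (x (nat_lit 8561)) (x (nat_lit 8563)) (x (nat_lit 8565)) (x (nat_lit 8569))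
    (x (nat_lit 8571)) (x (nat_lit 8577)) (x (nat_lit 8591)) (x (nat_lit 8593)) (x (nat_lit 8597))
    (x (nat_lit 8599)) (x (nat_lit 8601)) (x (nat_lit 8605)) (x (nat_lit 8607)) (x (nat_lit 8615))
    (x (nat_lit 8617)) (x (nat_lit 8619)) (x (nat_lit 8623)) (x (nat_lit 8625)) (x (nat_lit 8631))
    (x (nat_lit 8641)) (x (nat_lit 8643)) (x (nat_lit 8649)) (x (nat_lit 8669)) (x (nat_lit 8671))
    (x (nat_lit 8673)) (x (nat_lit 8677)) (x (nat_lit 8679)) (x (nat_lit 8685)) (x (nat_lit 8695))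
    (x (nat_lit 8697)) (x (nat_lit 8703)) (x (nat_lit 8721)) (x (nat_lit 8801)) (x (nat_lit 8819))
    (x (nat_lit 8825)) (x (nat_lit 8827)) (x (nat_lit 8855)) (x (nat_lit 8873)) (x (nat_lit 8879))
    (x (nat_lit 8881)) (x (nat_lit 8891)) (x (nat_lit 8897)) (x (nat_lit 8899)) (x (nat_lit 8903))
    (x (nat_lit 8905)) (x (nat_lit 8907)) (x (nat_lit 8927)) (x (nat_lit 8933)) (x (nat_lit 8935))
    (x (nat_lit 8945)) (x (nat_lit 8951)) (x (nat_lit 8953)) (x (nat_lit 8957)) (x (nat_lit 8959))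
    (x (nat_lit 8961)) (x (nat_lit 8969)) (x (nat_lit 8971)) (x (nat_lit 8975)) (x (nat_lit 8977))
    (x (nat_lit 8979)) (x (nat_lit 8983)) (x (nat_lit 8985)) (x (nat_lit 9017)) (x (nat_lit 9035))
    (x (nat_lit 9041)) (x (nat_lit 9043)) (x (nat_lit 9053)) (x (nat_lit 9059)) (x (nat_lit 9061))
    (x (nat_lit 9065)) (x (nat_lit 9067)) (x (nat_lit 9069)) (x (nat_lit 9089)) (x (nat_lit 9095))
    (x (nat_lit 9097)) (x (nat_lit 9107)) (x (nat_lit 9113)) (x (nat_lit 9115)) (x (nat_lit 9119))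
    (x (nat_lit 9121)) (x (nat_lit 9123)) (x (nat_lit 9131)) (x (nat_lit 9133)) (x (nat_lit 9137))
    (x (nat_lit 9139)) (x (nat_lit 9141)) (x (nat_lit 9145)) (x (nat_lit 9147)) (x (nat_lit 9161))
    (x (nat_lit 9167)) (x (nat_lit 9169)) (x (nat_lit 9173)) (x (nat_lit 9175)) (x (nat_lit 9177))
    (x (nat_lit 9185)) (x (nat_lit 9187)) (x (nat_lit 9191)) (x (nat_lit 9193)) (x (nat_lit 9195))
    (x (nat_lit 9199)) (x (nat_lit 9201)) (x (nat_lit 9209)) (x (nat_lit 9211)) (x (nat_lit 9213))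
    (x (nat_lit 9217)) (x (nat_lit 9219)) (x (nat_lit 9225)) (x (nat_lit 9251)) (x (nat_lit 9257))
    (x (nat_lit 9259)) (x (nat_lit 9269)) (x (nat_lit 9275)) (x (nat_lit 9277)) (x (nat_lit 9281))
    (x (nat_lit 9283)) (x (nat_lit 9285)) (x (nat_lit 9293)) (x (nat_lit 9295)) (x (nat_lit 9299))
    (x (nat_lit 9301)) (x (nat_lit 9303)) (x (nat_lit 9307)) (x (nat_lit 9309)) (x (nat_lit 9323))
    (x (nat_lit 9329)) (x (nat_lit 9331)) (x (nat_lit 9335)) (x (nat_lit 9337)) (x (nat_lit 9339))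
    (x (nat_lit 9347)) (x (nat_lit 9349)) (x (nat_lit 9353)) (x (nat_lit 9355)) (x (nat_lit 9357))
    (x (nat_lit 9361)) (x (nat_lit 9363)) (x (nat_lit 9371)) (x (nat_lit 9373)) (x (nat_lit 9375))
    (x (nat_lit 9379)) (x (nat_lit 9381)) (x (nat_lit 9387)) (x (nat_lit 9401)) (x (nat_lit 9403))
    (x (nat_lit 9407)) (x (nat_lit 9409)) (x (nat_lit 9411)) (x (nat_lit 9415)) (x (nat_lit 9417))
    (x (nat_lit 9425)) (x (nat_lit 9427)) (x (nat_lit 9429)) (x (nat_lit 9433)) (x (nat_lit 9435))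
    (x (nat_lit 9441)) (x (nat_lit 9451)) (x (nat_lit 9453)) (x (nat_lit 9459)) (x (nat_lit 9503))
    (x (nat_lit 9521)) (x (nat_lit 9527)) (x (nat_lit 9529)) (x (nat_lit 9539)) (x (nat_lit 9545))
    (x (nat_lit 9547)) (x (nat_lit 9551)) (x (nat_lit 9553)) (x (nat_lit 9555)) (x (nat_lit 9575))
    (x (nat_lit 9581)) (x (nat_lit 9583)) (x (nat_lit 9593)) (x (nat_lit 9599)) (x (nat_lit 9601))
    (x (nat_lit 9605)) (x (nat_lit 9607)) (x (nat_lit 9609)) (x (nat_lit 9617)) (x (nat_lit 9619))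
    (x (nat_lit 9623)) (x (nat_lit 9625)) (x (nat_lit 9627)) (x (nat_lit 9631)) (x (nat_lit 9633))
    (x (nat_lit 9647)) (x (nat_lit 9653)) (x (nat_lit 9655)) (x (nat_lit 9659)) (x (nat_lit 9661))
    (x (nat_lit 9663)) (x (nat_lit 9671)) (x (nat_lit 9673)) (x (nat_lit 9677)) (x (nat_lit 9679))
    (x (nat_lit 9681)) (x (nat_lit 9685)) (x (nat_lit 9687)) (x (nat_lit 9695)) (x (nat_lit 9697))
    (x (nat_lit 9699)) (x (nat_lit 9703)) (x (nat_lit 9705)) (x (nat_lit 9711)) (x (nat_lit 9737))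
    (x (nat_lit 9743)) (x (nat_lit 9745)) (x (nat_lit 9755)) (x (nat_lit 9761)) (x (nat_lit 9763))
    (x (nat_lit 9767)) (x (nat_lit 9769)) (x (nat_lit 9771)) (x (nat_lit 9779)) (x (nat_lit 9781))
    (x (nat_lit 9785)) (x (nat_lit 9787)) (x (nat_lit 9789)) (x (nat_lit 9793)) (x (nat_lit 9795))
    (x (nat_lit 9809)) (x (nat_lit 9815)) (x (nat_lit 9817)) (x (nat_lit 9821)) (x (nat_lit 9823))
    (x (nat_lit 9825)) (x (nat_lit 9833)) (x (nat_lit 9835)) (x (nat_lit 9839)) (x (nat_lit 9841))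
    (x (nat_lit 9843)) (x (nat_lit 9847)) (x (nat_lit 9849)) (x (nat_lit 9857)) (x (nat_lit 9859))
    (x (nat_lit 9861)) (x (nat_lit 9865)) (x (nat_lit 9867)) (x (nat_lit 9873)) (x (nat_lit 9887))
    (x (nat_lit 9889)) (x (nat_lit 9893)) (x (nat_lit 9895)) (x (nat_lit 9897)) (x (nat_lit 9901))
    (x (nat_lit 9903)) (x (nat_lit 9911)) (x (nat_lit 9913)) (x (nat_lit 9915)) (x (nat_lit 9919))
    (x (nat_lit 9921)) (x (nat_lit 9927)) (x (nat_lit 9937)) (x (nat_lit 9939)) (x (nat_lit 9945))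
    (x (nat_lit 9971)) (x (nat_lit 9977)) (x (nat_lit 9979)) (x (nat_lit 9983)) (x (nat_lit 9985))
    (x (nat_lit 9987)) (x (nat_lit 9995)) (x (nat_lit 9997)) (x (nat_lit 10001))
    (x (nat_lit 10003)) (x (nat_lit 10005)) (x (nat_lit 10009)) (x (nat_lit 10011))
    (x (nat_lit 10019)) (x (nat_lit 10021)) (x (nat_lit 10023)) (x (nat_lit 10027))
    (x (nat_lit 10029)) (x (nat_lit 10035)) (x (nat_lit 10049)) (x (nat_lit 10051))
    (x (nat_lit 10055)) (x (nat_lit 10057)) (x (nat_lit 10059)) (x (nat_lit 10063))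
    (x (nat_lit 10065)) (x (nat_lit 10073)) (x (nat_lit 10075)) (x (nat_lit 10077))
    (x (nat_lit 10081)) (x (nat_lit 10083)) (x (nat_lit 10089)) (x (nat_lit 10099))
    (x (nat_lit 10101)) (x (nat_lit 10107)) (x (nat_lit 10127)) (x (nat_lit 10129))
    (x (nat_lit 10131)) (x (nat_lit 10135)) (x (nat_lit 10137)) (x (nat_lit 10143))
    (x (nat_lit 10153)) (x (nat_lit 10155)) (x (nat_lit 10161)) (x (nat_lit 10179))
    (x (nat_lit 10223)) (x (nat_lit 10229)) (x (nat_lit 10231)) (x (nat_lit 10241))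
    (x (nat_lit 10247)) (x (nat_lit 10249)) (x (nat_lit 10253)) (x (nat_lit 10255))
    (x (nat_lit 10257)) (x (nat_lit 10265)) (x (nat_lit 10267)) (x (nat_lit 10271))
    (x (nat_lit 10273)) (x (nat_lit 10275)) (x (nat_lit 10279)) (x (nat_lit 10281))
    (x (nat_lit 10295)) (x (nat_lit 10301)) (x (nat_lit 10303)) (x (nat_lit 10307))
    (x (nat_lit 10309)) (x (nat_lit 10311)) (x (nat_lit 10319)) (x (nat_lit 10321))
    (x (nat_lit 10325)) (x (nat_lit 10327)) (x (nat_lit 10329)) (x (nat_lit 10333))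
    (x (nat_lit 10335)) (x (nat_lit 10343)) (x (nat_lit 10345)) (x (nat_lit 10347))
    (x (nat_lit 10351)) (x (nat_lit 10353)) (x (nat_lit 10359)) (x (nat_lit 10373))
    (x (nat_lit 10375)) (x (nat_lit 10379)) (x (nat_lit 10381)) (x (nat_lit 10383))
    (x (nat_lit 10387)) (x (nat_lit 10389)) (x (nat_lit 10397)) (x (nat_lit 10399))
    (x (nat_lit 10401)) (x (nat_lit 10405)) (x (nat_lit 10407)) (x (nat_lit 10413))
    (x (nat_lit 10423)) (x (nat_lit 10425)) (x (nat_lit 10431)) (x (nat_lit 10457))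
    (x (nat_lit 10463)) (x (nat_lit 10465)) (x (nat_lit 10469)) (x (nat_lit 10471))
    (x (nat_lit 10473)) (x (nat_lit 10481)) (x (nat_lit 10483)) (x (nat_lit 10487))
    (x (nat_lit 10489)) (x (nat_lit 10491)) (x (nat_lit 10495)) (x (nat_lit 10497))
    (x (nat_lit 10505)) (x (nat_lit 10507)) (x (nat_lit 10509)) (x (nat_lit 10513))
    (x (nat_lit 10515)) (x (nat_lit 10521)) (x (nat_lit 10535)) (x (nat_lit 10537))
    (x (nat_lit 10541)) (x (nat_lit 10543)) (x (nat_lit 10545)) (x (nat_lit 10549))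
    (x (nat_lit 10551)) (x (nat_lit 10559)) (x (nat_lit 10561)) (x (nat_lit 10563))
    (x (nat_lit 10567)) (x (nat_lit 10569)) (x (nat_lit 10575)) (x (nat_lit 10585))
    (x (nat_lit 10587)) (x (nat_lit 10593)) (x (nat_lit 10613)) (x (nat_lit 10615))
    (x (nat_lit 10617)) (x (nat_lit 10621)) (x (nat_lit 10623)) (x (nat_lit 10629))
    (x (nat_lit 10639)) (x (nat_lit 10641)) (x (nat_lit 10647)) (x (nat_lit 10665))
    (x (nat_lit 10697)) (x (nat_lit 10699)) (x (nat_lit 10703)) (x (nat_lit 10705))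
    (x (nat_lit 10707)) (x (nat_lit 10711)) (x (nat_lit 10713)) (x (nat_lit 10721))
    (x (nat_lit 10723)) (x (nat_lit 10725)) (x (nat_lit 10729)) (x (nat_lit 10731))
    (x (nat_lit 10737)) (x (nat_lit 10747)) (x (nat_lit 10749)) (x (nat_lit 10755))
    (x (nat_lit 10775)) (x (nat_lit 10777)) (x (nat_lit 10779)) (x (nat_lit 10783))
    (x (nat_lit 10785)) (x (nat_lit 10791)) (x (nat_lit 10801)) (x (nat_lit 10803))
    (x (nat_lit 10809)) (x (nat_lit 10827)) (x (nat_lit 10855)) (x (nat_lit 10857))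
    (x (nat_lit 10863)) (x (nat_lit 10881)) (x (nat_lit 10961)) (x (nat_lit 10979))
    (x (nat_lit 10985)) (x (nat_lit 10987)) (x (nat_lit 10997)) (x (nat_lit 11003))
    (x (nat_lit 11005)) (x (nat_lit 11009)) (x (nat_lit 11011)) (x (nat_lit 11013))
    (x (nat_lit 11033)) (x (nat_lit 11039)) (x (nat_lit 11041)) (x (nat_lit 11051))
    (x (nat_lit 11057)) (x (nat_lit 11059)) (x (nat_lit 11063)) (x (nat_lit 11065))
    (x (nat_lit 11067)) (x (nat_lit 11075)) (x (nat_lit 11077)) (x (nat_lit 11081))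
    (x (nat_lit 11083)) (x (nat_lit 11085)) (x (nat_lit 11089)) (x (nat_lit 11091))
    (x (nat_lit 11105)) (x (nat_lit 11111)) (x (nat_lit 11113)) (x (nat_lit 11117))
    (x (nat_lit 11119)) (x (nat_lit 11121)) (x (nat_lit 11129)) (x (nat_lit 11131))
    (x (nat_lit 11135)) (x (nat_lit 11137)) (x (nat_lit 11139)) (x (nat_lit 11143))
    (x (nat_lit 11145)) (x (nat_lit 11153)) (x (nat_lit 11155)) (x (nat_lit 11157))
    (x (nat_lit 11161)) (x (nat_lit 11163)) (x (nat_lit 11169)) (x (nat_lit 11195))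
    (x (nat_lit 11201)) (x (nat_lit 11203)) (x (nat_lit 11213)) (x (nat_lit 11219))
    (x (nat_lit 11221)) (x (nat_lit 11225)) (x (nat_lit 11227)) (x (nat_lit 11229))
    (x (nat_lit 11237)) (x (nat_lit 11239)) (x (nat_lit 11243)) (x (nat_lit 11245))
    (x (nat_lit 11247)) (x (nat_lit 11251)) (x (nat_lit 11253)) (x (nat_lit 11267))
    (x (nat_lit 11273)) (x (nat_lit 11275)) (x (nat_lit 11279)) (x (nat_lit 11281))
    (x (nat_lit 11283)) (x (nat_lit 11291)) (x (nat_lit 11293)) (x (nat_lit 11297))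
    (x (nat_lit 11299)) (x (nat_lit 11301)) (x (nat_lit 11305)) (x (nat_lit 11307))
    (x (nat_lit 11315)) (x (nat_lit 11317)) (x (nat_lit 11319)) (x (nat_lit 11323))
    (x (nat_lit 11325)) (x (nat_lit 11331)) (x (nat_lit 11345)) (x (nat_lit 11347))
    (x (nat_lit 11351)) (x (nat_lit 11353)) (x (nat_lit 11355)) (x (nat_lit 11359))
    (x (nat_lit 11361)) (x (nat_lit 11369)) (x (nat_lit 11371)) (x (nat_lit 11373))
    (x (nat_lit 11377)) (x (nat_lit 11379)) (x (nat_lit 11385)) (x (nat_lit 11395))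
    (x (nat_lit 11397)) (x (nat_lit 11403)) (x (nat_lit 11429)) (x (nat_lit 11435))
    (x (nat_lit 11437)) (x (nat_lit 11441)) (x (nat_lit 11443)) (x (nat_lit 11445))
    (x (nat_lit 11453)) (x (nat_lit 11455)) (x (nat_lit 11459)) (x (nat_lit 11461))
    (x (nat_lit 11463)) (x (nat_lit 11467)) (x (nat_lit 11469)) (x (nat_lit 11477))
    (x (nat_lit 11479)) (x (nat_lit 11481)) (x (nat_lit 11485)) (x (nat_lit 11487))
    (x (nat_lit 11493)) (x (nat_lit 11507)) (x (nat_lit 11509)) (x (nat_lit 11513))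
    (x (nat_lit 11515)) (x (nat_lit 11517)) (x (nat_lit 11521)) (x (nat_lit 11523))
    (x (nat_lit 11531)) (x (nat_lit 11533)) (x (nat_lit 11535)) (x (nat_lit 11539))
    (x (nat_lit 11541)) (x (nat_lit 11547)) (x (nat_lit 11557)) (x (nat_lit 11559))
    (x (nat_lit 11565)) (x (nat_lit 11585)) (x (nat_lit 11587)) (x (nat_lit 11589))
    (x (nat_lit 11593)) (x (nat_lit 11595)) (x (nat_lit 11601)) (x (nat_lit 11611))
    (x (nat_lit 11613)) (x (nat_lit 11619)) (x (nat_lit 11637)) (x (nat_lit 11681))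
    (x (nat_lit 11687)) (x (nat_lit 11689)) (x (nat_lit 11699)) (x (nat_lit 11705))
    (x (nat_lit 11707)) (x (nat_lit 11711)) (x (nat_lit 11713)) (x (nat_lit 11715))
    (x (nat_lit 11723)) (x (nat_lit 11725)) (x (nat_lit 11729)) (x (nat_lit 11731))
    (x (nat_lit 11733)) (x (nat_lit 11737)) (x (nat_lit 11739)) (x (nat_lit 11753))
    (x (nat_lit 11759)) (x (nat_lit 11761)) (x (nat_lit 11765)) (x (nat_lit 11767))
    (x (nat_lit 11769)) (x (nat_lit 11777)) (x (nat_lit 11779)) (x (nat_lit 11783))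
    (x (nat_lit 11785)) (x (nat_lit 11787)) (x (nat_lit 11791)) (x (nat_lit 11793))
    (x (nat_lit 11801)) (x (nat_lit 11803)) (x (nat_lit 11805)) (x (nat_lit 11809))
    (x (nat_lit 11811)) (x (nat_lit 11817)) (x (nat_lit 11831)) (x (nat_lit 11833))
    (x (nat_lit 11837)) (x (nat_lit 11839)) (x (nat_lit 11841)) (x (nat_lit 11845))
    (x (nat_lit 11847)) (x (nat_lit 11855)) (x (nat_lit 11857)) (x (nat_lit 11859))
    (x (nat_lit 11863)) (x (nat_lit 11865)) (x (nat_lit 11871)) (x (nat_lit 11881))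
    (x (nat_lit 11883)) (x (nat_lit 11889)) (x (nat_lit 11915)) (x (nat_lit 11921))
    (x (nat_lit 11923)) (x (nat_lit 11927)) (x (nat_lit 11929)) (x (nat_lit 11931))
    (x (nat_lit 11939)) (x (nat_lit 11941)) (x (nat_lit 11945)) (x (nat_lit 11947))
    (x (nat_lit 11949)) (x (nat_lit 11953)) (x (nat_lit 11955)) (x (nat_lit 11963))
    (x (nat_lit 11965)) (x (nat_lit 11967)) (x (nat_lit 11971)) (x (nat_lit 11973))
    (x (nat_lit 11979)) (x (nat_lit 11993)) (x (nat_lit 11995)) (x (nat_lit 11999))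
    (x (nat_lit 12001)) (x (nat_lit 12003)) (x (nat_lit 12007)) (x (nat_lit 12009))
    (x (nat_lit 12017)) (x (nat_lit 12019)) (x (nat_lit 12021)) (x (nat_lit 12025))
    (x (nat_lit 12027)) (x (nat_lit 12033)) (x (nat_lit 12043)) (x (nat_lit 12045))
    (x (nat_lit 12051)) (x (nat_lit 12071)) (x (nat_lit 12073)) (x (nat_lit 12075))
    (x (nat_lit 12079)) (x (nat_lit 12081)) (x (nat_lit 12087)) (x (nat_lit 12097))
    (x (nat_lit 12099)) (x (nat_lit 12105)) (x (nat_lit 12123)) (x (nat_lit 12155))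
    (x (nat_lit 12157)) (x (nat_lit 12161)) (x (nat_lit 12163)) (x (nat_lit 12165))
    (x (nat_lit 12169)) (x (nat_lit 12171)) (x (nat_lit 12179)) (x (nat_lit 12181))
    (x (nat_lit 12183)) (x (nat_lit 12187)) (x (nat_lit 12189)) (x (nat_lit 12195))
    (x (nat_lit 12205)) (x (nat_lit 12207)) (x (nat_lit 12213)) (x (nat_lit 12233))
    (x (nat_lit 12235)) (x (nat_lit 12237)) (x (nat_lit 12241)) (x (nat_lit 12243))
    (x (nat_lit 12249)) (x (nat_lit 12259)) (x (nat_lit 12261)) (x (nat_lit 12267))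
    (x (nat_lit 12285)) (x (nat_lit 12313)) (x (nat_lit 12315)) (x (nat_lit 12321))
    (x (nat_lit 12339)) (x (nat_lit 12401)) (x (nat_lit 12407)) (x (nat_lit 12409))
    (x (nat_lit 12413)) (x (nat_lit 12415)) (x (nat_lit 12417)) (x (nat_lit 12425))
    (x (nat_lit 12427)) (x (nat_lit 12431)) (x (nat_lit 12433)) (x (nat_lit 12435))
    (x (nat_lit 12439)) (x (nat_lit 12441)) (x (nat_lit 12449)) (x (nat_lit 12451))
    (x (nat_lit 12453)) (x (nat_lit 12457)) (x (nat_lit 12459)) (x (nat_lit 12465))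
    (x (nat_lit 12479)) (x (nat_lit 12481)) (x (nat_lit 12485)) (x (nat_lit 12487))
    (x (nat_lit 12489)) (x (nat_lit 12493)) (x (nat_lit 12495)) (x (nat_lit 12503))
    (x (nat_lit 12505)) (x (nat_lit 12507)) (x (nat_lit 12511)) (x (nat_lit 12513))
    (x (nat_lit 12519)) (x (nat_lit 12529)) (x (nat_lit 12531)) (x (nat_lit 12537))
    (x (nat_lit 12557)) (x (nat_lit 12559)) (x (nat_lit 12561)) (x (nat_lit 12565))
    (x (nat_lit 12567)) (x (nat_lit 12573)) (x (nat_lit 12583)) (x (nat_lit 12585))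
    (x (nat_lit 12591)) (x (nat_lit 12609)) (x (nat_lit 12641)) (x (nat_lit 12643))
    (x (nat_lit 12647)) (x (nat_lit 12649)) (x (nat_lit 12651)) (x (nat_lit 12655))
    (x (nat_lit 12657)) (x (nat_lit 12665)) (x (nat_lit 12667)) (x (nat_lit 12669))
    (x (nat_lit 12673)) (x (nat_lit 12675)) (x (nat_lit 12681)) (x (nat_lit 12691))
    (x (nat_lit 12693)) (x (nat_lit 12699)) (x (nat_lit 12719)) (x (nat_lit 12721))
    (x (nat_lit 12723)) (x (nat_lit 12727)) (x (nat_lit 12729)) (x (nat_lit 12735))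
    (x (nat_lit 12745)) (x (nat_lit 12747)) (x (nat_lit 12753)) (x (nat_lit 12771))
    (x (nat_lit 12799)) (x (nat_lit 12801)) (x (nat_lit 12807)) (x (nat_lit 12825))
    (x (nat_lit 12881)) (x (nat_lit 12883)) (x (nat_lit 12885)) (x (nat_lit 12889))
    (x (nat_lit 12891)) (x (nat_lit 12897)) (x (nat_lit 12907)) (x (nat_lit 12909))
    (x (nat_lit 12915)) (x (nat_lit 12933)) (x (nat_lit 12961)) (x (nat_lit 12963))
    (x (nat_lit 12969)) (x (nat_lit 12987)) (x (nat_lit 13041)) (x (nat_lit 13175))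
    (x (nat_lit 13193)) (x (nat_lit 13199)) (x (nat_lit 13201)) (x (nat_lit 13229))
    (x (nat_lit 13247)) (x (nat_lit 13253)) (x (nat_lit 13255)) (x (nat_lit 13265))
    (x (nat_lit 13271)) (x (nat_lit 13273)) (x (nat_lit 13277)) (x (nat_lit 13279))
    (x (nat_lit 13281)) (x (nat_lit 13301)) (x (nat_lit 13307)) (x (nat_lit 13309))
    (x (nat_lit 13319)) (x (nat_lit 13325)) (x (nat_lit 13327)) (x (nat_lit 13331))
    (x (nat_lit 13333)) (x (nat_lit 13335)) (x (nat_lit 13343)) (x (nat_lit 13345))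
    (x (nat_lit 13349)) (x (nat_lit 13351)) (x (nat_lit 13353)) (x (nat_lit 13357))
    (x (nat_lit 13359)) (x (nat_lit 13391)) (x (nat_lit 13409)) (x (nat_lit 13415))
    (x (nat_lit 13417)) (x (nat_lit 13427)) (x (nat_lit 13433)) (x (nat_lit 13435))
    (x (nat_lit 13439)) (x (nat_lit 13441)) (x (nat_lit 13443)) (x (nat_lit 13463))
    (x (nat_lit 13469)) (x (nat_lit 13471)) (x (nat_lit 13481)) (x (nat_lit 13487))
    (x (nat_lit 13489)) (x (nat_lit 13493)) (x (nat_lit 13495)) (x (nat_lit 13497))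
    (x (nat_lit 13505)) (x (nat_lit 13507)) (x (nat_lit 13511)) (x (nat_lit 13513))
    (x (nat_lit 13515)) (x (nat_lit 13519)) (x (nat_lit 13521)) (x (nat_lit 13535))
    (x (nat_lit 13541)) (x (nat_lit 13543)) (x (nat_lit 13547)) (x (nat_lit 13549))
    (x (nat_lit 13551)) (x (nat_lit 13559)) (x (nat_lit 13561)) (x (nat_lit 13565))
    (x (nat_lit 13567)) (x (nat_lit 13569)) (x (nat_lit 13573)) (x (nat_lit 13575))
    (x (nat_lit 13583)) (x (nat_lit 13585)) (x (nat_lit 13587)) (x (nat_lit 13591))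
    (x (nat_lit 13593)) (x (nat_lit 13599)) (x (nat_lit 13625)) (x (nat_lit 13631))
    (x (nat_lit 13633)) (x (nat_lit 13643)) (x (nat_lit 13649)) (x (nat_lit 13651))
    (x (nat_lit 13655)) (x (nat_lit 13657)) (x (nat_lit 13659)) (x (nat_lit 13667))
    (x (nat_lit 13669)) (x (nat_lit 13673)) (x (nat_lit 13675)) (x (nat_lit 13677))
    (x (nat_lit 13681)) (x (nat_lit 13683)) (x (nat_lit 13697)) (x (nat_lit 13703))
    (x (nat_lit 13705)) (x (nat_lit 13709)) (x (nat_lit 13711)) (x (nat_lit 13713))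
    (x (nat_lit 13721)) (x (nat_lit 13723)) (x (nat_lit 13727)) (x (nat_lit 13729))
    (x (nat_lit 13731)) (x (nat_lit 13735)) (x (nat_lit 13737)) (x (nat_lit 13745))
    (x (nat_lit 13747)) (x (nat_lit 13749)) (x (nat_lit 13753)) (x (nat_lit 13755))
    (x (nat_lit 13761)) (x (nat_lit 13775)) (x (nat_lit 13777)) (x (nat_lit 13781))
    (x (nat_lit 13783)) (x (nat_lit 13785)) (x (nat_lit 13789)) (x (nat_lit 13791))
    (x (nat_lit 13799)) (x (nat_lit 13801)) (x (nat_lit 13803)) (x (nat_lit 13807))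
    (x (nat_lit 13809)) (x (nat_lit 13815)) (x (nat_lit 13825)) (x (nat_lit 13827))
    (x (nat_lit 13833)) (x (nat_lit 13877)) (x (nat_lit 13895)) (x (nat_lit 13901))
    (x (nat_lit 13903)) (x (nat_lit 13913)) (x (nat_lit 13919)) (x (nat_lit 13921))
    (x (nat_lit 13925)) (x (nat_lit 13927)) (x (nat_lit 13929)) (x (nat_lit 13949))
    (x (nat_lit 13955)) (x (nat_lit 13957)) (x (nat_lit 13967)) (x (nat_lit 13973))
    (x (nat_lit 13975)) (x (nat_lit 13979)) (x (nat_lit 13981)) (x (nat_lit 13983))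
    (x (nat_lit 13991)) (x (nat_lit 13993)) (x (nat_lit 13997)) (x (nat_lit 13999))
    (x (nat_lit 14001)) (x (nat_lit 14005)) (x (nat_lit 14007)) (x (nat_lit 14021))
    (x (nat_lit 14027)) (x (nat_lit 14029)) (x (nat_lit 14033)) (x (nat_lit 14035))
    (x (nat_lit 14037)) (x (nat_lit 14045)) (x (nat_lit 14047)) (x (nat_lit 14051))
    (x (nat_lit 14053)) (x (nat_lit 14055)) (x (nat_lit 14059)) (x (nat_lit 14061))
    (x (nat_lit 14069)) (x (nat_lit 14071)) (x (nat_lit 14073)) (x (nat_lit 14077))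
    (x (nat_lit 14079)) (x (nat_lit 14085)) (x (nat_lit 14111)) (x (nat_lit 14117))
    (x (nat_lit 14119)) (x (nat_lit 14129)) (x (nat_lit 14135)) (x (nat_lit 14137))
    (x (nat_lit 14141)) (x (nat_lit 14143)) (x (nat_lit 14145)) (x (nat_lit 14153))
    (x (nat_lit 14155)) (x (nat_lit 14159)) (x (nat_lit 14161)) (x (nat_lit 14163))
    (x (nat_lit 14167)) (x (nat_lit 14169)) (x (nat_lit 14183)) (x (nat_lit 14189))
    (x (nat_lit 14191)) (x (nat_lit 14195)) (x (nat_lit 14197)) (x (nat_lit 14199))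
    (x (nat_lit 14207)) (x (nat_lit 14209)) (x (nat_lit 14213)) (x (nat_lit 14215))
    (x (nat_lit 14217)) (x (nat_lit 14221)) (x (nat_lit 14223)) (x (nat_lit 14231))
    (x (nat_lit 14233)) (x (nat_lit 14235)) (x (nat_lit 14239)) (x (nat_lit 14241))
    (x (nat_lit 14247)) (x (nat_lit 14261)) (x (nat_lit 14263)) (x (nat_lit 14267))
    (x (nat_lit 14269)) (x (nat_lit 14271)) (x (nat_lit 14275)) (x (nat_lit 14277))
    (x (nat_lit 14285)) (x (nat_lit 14287)) (x (nat_lit 14289)) (x (nat_lit 14293))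
    (x (nat_lit 14295)) (x (nat_lit 14301)) (x (nat_lit 14311)) (x (nat_lit 14313))
    (x (nat_lit 14319)) (x (nat_lit 14345)) (x (nat_lit 14351)) (x (nat_lit 14353))
    (x (nat_lit 14357)) (x (nat_lit 14359)) (x (nat_lit 14361)) (x (nat_lit 14369))
    (x (nat_lit 14371)) (x (nat_lit 14375)) (x (nat_lit 14377)) (x (nat_lit 14379))
    (x (nat_lit 14383)) (x (nat_lit 14385)) (x (nat_lit 14393)) (x (nat_lit 14395))
    (x (nat_lit 14397)) (x (nat_lit 14401)) (x (nat_lit 14403)) (x (nat_lit 14409))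
    (x (nat_lit 14423)) (x (nat_lit 14425)) (x (nat_lit 14429)) (x (nat_lit 14431))
    (x (nat_lit 14433)) (x (nat_lit 14437)) (x (nat_lit 14439)) (x (nat_lit 14447))
    (x (nat_lit 14449)) (x (nat_lit 14451)) (x (nat_lit 14455)) (x (nat_lit 14457))
    (x (nat_lit 14463)) (x (nat_lit 14473)) (x (nat_lit 14475)) (x (nat_lit 14481))
    (x (nat_lit 14501)) (x (nat_lit 14503)) (x (nat_lit 14505)) (x (nat_lit 14509))
    (x (nat_lit 14511)) (x (nat_lit 14517)) (x (nat_lit 14527)) (x (nat_lit 14529))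
    (x (nat_lit 14535)) (x (nat_lit 14553)) (x (nat_lit 14597)) (x (nat_lit 14603))
    (x (nat_lit 14605)) (x (nat_lit 14615)) (x (nat_lit 14621)) (x (nat_lit 14623))
    (x (nat_lit 14627)) (x (nat_lit 14629)) (x (nat_lit 14631)) (x (nat_lit 14639))
    (x (nat_lit 14641)) (x (nat_lit 14645)) (x (nat_lit 14647)) (x (nat_lit 14649))
    (x (nat_lit 14653)) (x (nat_lit 14655)) (x (nat_lit 14669)) (x (nat_lit 14675))
    (x (nat_lit 14677)) (x (nat_lit 14681)) (x (nat_lit 14683)) (x (nat_lit 14685))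
    (x (nat_lit 14693)) (x (nat_lit 14695)) (x (nat_lit 14699)) (x (nat_lit 14701))
    (x (nat_lit 14703)) (x (nat_lit 14707)) (x (nat_lit 14709)) (x (nat_lit 14717))
    (x (nat_lit 14719)) (x (nat_lit 14721)) (x (nat_lit 14725)) (x (nat_lit 14727))
    (x (nat_lit 14733)) (x (nat_lit 14747)) (x (nat_lit 14749)) (x (nat_lit 14753))
    (x (nat_lit 14755)) (x (nat_lit 14757)) (x (nat_lit 14761)) (x (nat_lit 14763))
    (x (nat_lit 14771)) (x (nat_lit 14773)) (x (nat_lit 14775)) (x (nat_lit 14779))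
    (x (nat_lit 14781)) (x (nat_lit 14787)) (x (nat_lit 14797)) (x (nat_lit 14799))
    (x (nat_lit 14805)) (x (nat_lit 14831)) (x (nat_lit 14837)) (x (nat_lit 14839))
    (x (nat_lit 14843)) (x (nat_lit 14845)) (x (nat_lit 14847)) (x (nat_lit 14855))
    (x (nat_lit 14857)) (x (nat_lit 14861)) (x (nat_lit 14863)) (x (nat_lit 14865))
    (x (nat_lit 14869)) (x (nat_lit 14871)) (x (nat_lit 14879)) (x (nat_lit 14881))
    (x (nat_lit 14883)) (x (nat_lit 14887)) (x (nat_lit 14889)) (x (nat_lit 14895))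
    (x (nat_lit 14909)) (x (nat_lit 14911)) (x (nat_lit 14915)) (x (nat_lit 14917))
    (x (nat_lit 14919)) (x (nat_lit 14923)) (x (nat_lit 14925)) (x (nat_lit 14933))
    (x (nat_lit 14935)) (x (nat_lit 14937)) (x (nat_lit 14941)) (x (nat_lit 14943))
    (x (nat_lit 14949)) (x (nat_lit 14959)) (x (nat_lit 14961)) (x (nat_lit 14967))
    (x (nat_lit 14987)) (x (nat_lit 14989)) (x (nat_lit 14991)) (x (nat_lit 14995))
    (x (nat_lit 14997)) (x (nat_lit 15003)) (x (nat_lit 15013)) (x (nat_lit 15015))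
    (x (nat_lit 15021)) (x (nat_lit 15039)) (x (nat_lit 15071)) (x (nat_lit 15073))
    (x (nat_lit 15077)) (x (nat_lit 15079)) (x (nat_lit 15081)) (x (nat_lit 15085))
    (x (nat_lit 15087)) (x (nat_lit 15095)) (x (nat_lit 15097)) (x (nat_lit 15099))
    (x (nat_lit 15103)) (x (nat_lit 15105)) (x (nat_lit 15111)) (x (nat_lit 15121))
    (x (nat_lit 15123)) (x (nat_lit 15129)) (x (nat_lit 15149)) (x (nat_lit 15151))
    (x (nat_lit 15153)) (x (nat_lit 15157)) (x (nat_lit 15159)) (x (nat_lit 15165))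
    (x (nat_lit 15175)) (x (nat_lit 15177)) (x (nat_lit 15183)) (x (nat_lit 15201))
    (x (nat_lit 15229)) (x (nat_lit 15231)) (x (nat_lit 15237)) (x (nat_lit 15255))
    (x (nat_lit 15335)) (x (nat_lit 15353)) (x (nat_lit 15359)) (x (nat_lit 15361))
    (x (nat_lit 15371)) (x (nat_lit 15377)) (x (nat_lit 15379)) (x (nat_lit 15383))
    (x (nat_lit 15385)) (x (nat_lit 15387)) (x (nat_lit 15407)) (x (nat_lit 15413))
    (x (nat_lit 15415)) (x (nat_lit 15425)) (x (nat_lit 15431)) (x (nat_lit 15433))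
    (x (nat_lit 15437)) (x (nat_lit 15439)) (x (nat_lit 15441)) (x (nat_lit 15449))
    (x (nat_lit 15451)) (x (nat_lit 15455)) (x (nat_lit 15457)) (x (nat_lit 15459))
    (x (nat_lit 15463)) (x (nat_lit 15465)) (x (nat_lit 15479)) (x (nat_lit 15485))
    (x (nat_lit 15487)) (x (nat_lit 15491)) (x (nat_lit 15493)) (x (nat_lit 15495))
    (x (nat_lit 15503)) (x (nat_lit 15505)) (x (nat_lit 15509)) (x (nat_lit 15511))
    (x (nat_lit 15513)) (x (nat_lit 15517)) (x (nat_lit 15519)) (x (nat_lit 15527))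
    (x (nat_lit 15529)) (x (nat_lit 15531)) (x (nat_lit 15535)) (x (nat_lit 15537))
    (x (nat_lit 15543)) (x (nat_lit 15569)) (x (nat_lit 15575)) (x (nat_lit 15577))
    (x (nat_lit 15587)) (x (nat_lit 15593)) (x (nat_lit 15595)) (x (nat_lit 15599))
    (x (nat_lit 15601)) (x (nat_lit 15603)) (x (nat_lit 15611)) (x (nat_lit 15613))
    (x (nat_lit 15617)) (x (nat_lit 15619)) (x (nat_lit 15621)) (x (nat_lit 15625))
    (x (nat_lit 15627)) (x (nat_lit 15641)) (x (nat_lit 15647)) (x (nat_lit 15649))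
    (x (nat_lit 15653)) (x (nat_lit 15655)) (x (nat_lit 15657)) (x (nat_lit 15665))
    (x (nat_lit 15667)) (x (nat_lit 15671)) (x (nat_lit 15673)) (x (nat_lit 15675))
    (x (nat_lit 15679)) (x (nat_lit 15681)) (x (nat_lit 15689)) (x (nat_lit 15691))
    (x (nat_lit 15693)) (x (nat_lit 15697)) (x (nat_lit 15699)) (x (nat_lit 15705))
    (x (nat_lit 15719)) (x (nat_lit 15721)) (x (nat_lit 15725)) (x (nat_lit 15727))
    (x (nat_lit 15729)) (x (nat_lit 15733)) (x (nat_lit 15735)) (x (nat_lit 15743))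
    (x (nat_lit 15745)) (x (nat_lit 15747)) (x (nat_lit 15751)) (x (nat_lit 15753))
    (x (nat_lit 15759)) (x (nat_lit 15769)) (x (nat_lit 15771)) (x (nat_lit 15777))
    (x (nat_lit 15803)) (x (nat_lit 15809)) (x (nat_lit 15811)) (x (nat_lit 15815))
    (x (nat_lit 15817)) (x (nat_lit 15819)) (x (nat_lit 15827)) (x (nat_lit 15829))
    (x (nat_lit 15833)) (x (nat_lit 15835)) (x (nat_lit 15837)) (x (nat_lit 15841))
    (x (nat_lit 15843)) (x (nat_lit 15851)) (x (nat_lit 15853)) (x (nat_lit 15855))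
    (x (nat_lit 15859)) (x (nat_lit 15861)) (x (nat_lit 15867)) (x (nat_lit 15881))
    (x (nat_lit 15883)) (x (nat_lit 15887)) (x (nat_lit 15889)) (x (nat_lit 15891))
    (x (nat_lit 15895)) (x (nat_lit 15897)) (x (nat_lit 15905)) (x (nat_lit 15907))
    (x (nat_lit 15909)) (x (nat_lit 15913)) (x (nat_lit 15915)) (x (nat_lit 15921))
    (x (nat_lit 15931)) (x (nat_lit 15933)) (x (nat_lit 15939)) (x (nat_lit 15959))
    (x (nat_lit 15961)) (x (nat_lit 15963)) (x (nat_lit 15967)) (x (nat_lit 15969))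
    (x (nat_lit 15975)) (x (nat_lit 15985)) (x (nat_lit 15987)) (x (nat_lit 15993))
    (x (nat_lit 16011)) (x (nat_lit 16055)) (x (nat_lit 16061)) (x (nat_lit 16063))
    (x (nat_lit 16073)) (x (nat_lit 16079)) (x (nat_lit 16081)) (x (nat_lit 16085))
    (x (nat_lit 16087)) (x (nat_lit 16089)) (x (nat_lit 16097)) (x (nat_lit 16099))
    (x (nat_lit 16103)) (x (nat_lit 16105)) (x (nat_lit 16107)) (x (nat_lit 16111))
    (x (nat_lit 16113)) (x (nat_lit 16127)) (x (nat_lit 16133)) (x (nat_lit 16135))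
    (x (nat_lit 16139)) (x (nat_lit 16141)) (x (nat_lit 16143)) (x (nat_lit 16151))
    (x (nat_lit 16153)) (x (nat_lit 16157)) (x (nat_lit 16159)) (x (nat_lit 16161))
    (x (nat_lit 16165)) (x (nat_lit 16167)) (x (nat_lit 16175)) (x (nat_lit 16177))
    (x (nat_lit 16179)) (x (nat_lit 16183)) (x (nat_lit 16185)) (x (nat_lit 16191))
    (x (nat_lit 16205)) (x (nat_lit 16207)) (x (nat_lit 16211)) (x (nat_lit 16213))
    (x (nat_lit 16215)) (x (nat_lit 16219)) (x (nat_lit 16221)) (x (nat_lit 16229))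
    (x (nat_lit 16231)) (x (nat_lit 16233)) (x (nat_lit 16237)) (x (nat_lit 16239))
    (x (nat_lit 16245)) (x (nat_lit 16255)) (x (nat_lit 16257)) (x (nat_lit 16263))
    (x (nat_lit 16289)) (x (nat_lit 16295)) (x (nat_lit 16297)) (x (nat_lit 16301))
    (x (nat_lit 16303)) (x (nat_lit 16305)) (x (nat_lit 16313)) (x (nat_lit 16315))
    (x (nat_lit 16319)) (x (nat_lit 16321)) (x (nat_lit 16323)) (x (nat_lit 16327))
    (x (nat_lit 16329)) (x (nat_lit 16337)) (x (nat_lit 16339)) (x (nat_lit 16341))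
    (x (nat_lit 16345)) (x (nat_lit 16347)) (x (nat_lit 16353)) (x (nat_lit 16367))
    (x (nat_lit 16369)) (x (nat_lit 16373)) (x (nat_lit 16375)) (x (nat_lit 16377))
    (x (nat_lit 16381)) (x (nat_lit 16383)) (x (nat_lit 16391)) (x (nat_lit 16393))
    (x (nat_lit 16395)) (x (nat_lit 16399)) (x (nat_lit 16401)) (x (nat_lit 16407))
    (x (nat_lit 16417)) (x (nat_lit 16419)) (x (nat_lit 16425)) (x (nat_lit 16445))
    (x (nat_lit 16447)) (x (nat_lit 16449)) (x (nat_lit 16453)) (x (nat_lit 16455))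
    (x (nat_lit 16461)) (x (nat_lit 16471)) (x (nat_lit 16473)) (x (nat_lit 16479))
    (x (nat_lit 16497)) (x (nat_lit 16529)) (x (nat_lit 16531)) (x (nat_lit 16535))
    (x (nat_lit 16537)) (x (nat_lit 16539)) (x (nat_lit 16543)) (x (nat_lit 16545))
    (x (nat_lit 16553)) (x (nat_lit 16555)) (x (nat_lit 16557)) (x (nat_lit 16561))
    (x (nat_lit 16563)) (x (nat_lit 16569)) (x (nat_lit 16579)) (x (nat_lit 16581))
    (x (nat_lit 16587)) (x (nat_lit 16607)) (x (nat_lit 16609)) (x (nat_lit 16611))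
    (x (nat_lit 16615)) (x (nat_lit 16617)) (x (nat_lit 16623)) (x (nat_lit 16633))
    (x (nat_lit 16635)) (x (nat_lit 16641)) (x (nat_lit 16659)) (x (nat_lit 16687))
    (x (nat_lit 16689)) (x (nat_lit 16695)) (x (nat_lit 16713)) (x (nat_lit 16775))
    (x (nat_lit 16781)) (x (nat_lit 16783)) (x (nat_lit 16787)) (x (nat_lit 16789))
    (x (nat_lit 16791)) (x (nat_lit 16799)) (x (nat_lit 16801)) (x (nat_lit 16805))
    (x (nat_lit 16807)) (x (nat_lit 16809)) (x (nat_lit 16813)) (x (nat_lit 16815))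
    (x (nat_lit 16823)) (x (nat_lit 16825)) (x (nat_lit 16827)) (x (nat_lit 16831))
    (x (nat_lit 16833)) (x (nat_lit 16839)) (x (nat_lit 16853)) (x (nat_lit 16855))
    (x (nat_lit 16859)) (x (nat_lit 16861)) (x (nat_lit 16863)) (x (nat_lit 16867))
    (x (nat_lit 16869)) (x (nat_lit 16877)) (x (nat_lit 16879)) (x (nat_lit 16881))
    (x (nat_lit 16885)) (x (nat_lit 16887)) (x (nat_lit 16893)) (x (nat_lit 16903))
    (x (nat_lit 16905)) (x (nat_lit 16911)) (x (nat_lit 16931)) (x (nat_lit 16933))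
    (x (nat_lit 16935)) (x (nat_lit 16939)) (x (nat_lit 16941)) (x (nat_lit 16947))
    (x (nat_lit 16957)) (x (nat_lit 16959)) (x (nat_lit 16965)) (x (nat_lit 16983))
    (x (nat_lit 17015)) (x (nat_lit 17017)) (x (nat_lit 17021)) (x (nat_lit 17023))
    (x (nat_lit 17025)) (x (nat_lit 17029)) (x (nat_lit 17031)) (x (nat_lit 17039))
    (x (nat_lit 17041)) (x (nat_lit 17043)) (x (nat_lit 17047)) (x (nat_lit 17049))
    (x (nat_lit 17055)) (x (nat_lit 17065)) (x (nat_lit 17067)) (x (nat_lit 17073))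
    (x (nat_lit 17093)) (x (nat_lit 17095)) (x (nat_lit 17097)) (x (nat_lit 17101))
    (x (nat_lit 17103)) (x (nat_lit 17109)) (x (nat_lit 17119)) (x (nat_lit 17121))
    (x (nat_lit 17127)) (x (nat_lit 17145)) (x (nat_lit 17173)) (x (nat_lit 17175))
    (x (nat_lit 17181)) (x (nat_lit 17199)) (x (nat_lit 17255)) (x (nat_lit 17257))
    (x (nat_lit 17259)) (x (nat_lit 17263)) (x (nat_lit 17265)) (x (nat_lit 17271))
    (x (nat_lit 17281)) (x (nat_lit 17283)) (x (nat_lit 17289)) (x (nat_lit 17307))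
    (x (nat_lit 17335)) (x (nat_lit 17337)) (x (nat_lit 17343)) (x (nat_lit 17361))
    (x (nat_lit 17415)) (x (nat_lit 17513)) (x (nat_lit 17519)) (x (nat_lit 17521))
    (x (nat_lit 17531)) (x (nat_lit 17537)) (x (nat_lit 17539)) (x (nat_lit 17543))
    (x (nat_lit 17545)) (x (nat_lit 17547)) (x (nat_lit 17555)) (x (nat_lit 17557))
    (x (nat_lit 17561)) (x (nat_lit 17563)) (x (nat_lit 17565)) (x (nat_lit 17569))
    (x (nat_lit 17571)) (x (nat_lit 17585)) (x (nat_lit 17591)) (x (nat_lit 17593))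
    (x (nat_lit 17597)) (x (nat_lit 17599)) (x (nat_lit 17601)) (x (nat_lit 17609))
    (x (nat_lit 17611)) (x (nat_lit 17615)) (x (nat_lit 17617)) (x (nat_lit 17619))
    (x (nat_lit 17623)) (x (nat_lit 17625)) (x (nat_lit 17633)) (x (nat_lit 17635))
    (x (nat_lit 17637)) (x (nat_lit 17641)) (x (nat_lit 17643)) (x (nat_lit 17649))
    (x (nat_lit 17663)) (x (nat_lit 17665)) (x (nat_lit 17669)) (x (nat_lit 17671))
    (x (nat_lit 17673)) (x (nat_lit 17677)) (x (nat_lit 17679)) (x (nat_lit 17687))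
    (x (nat_lit 17689)) (x (nat_lit 17691)) (x (nat_lit 17695)) (x (nat_lit 17697))
    (x (nat_lit 17703)) (x (nat_lit 17713)) (x (nat_lit 17715)) (x (nat_lit 17721))
    (x (nat_lit 17747)) (x (nat_lit 17753)) (x (nat_lit 17755)) (x (nat_lit 17759))
    (x (nat_lit 17761)) (x (nat_lit 17763)) (x (nat_lit 17771)) (x (nat_lit 17773))
    (x (nat_lit 17777)) (x (nat_lit 17779)) (x (nat_lit 17781)) (x (nat_lit 17785))
    (x (nat_lit 17787)) (x (nat_lit 17795)) (x (nat_lit 17797)) (x (nat_lit 17799))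
    (x (nat_lit 17803)) (x (nat_lit 17805)) (x (nat_lit 17811)) (x (nat_lit 17825))
    (x (nat_lit 17827)) (x (nat_lit 17831)) (x (nat_lit 17833)) (x (nat_lit 17835))
    (x (nat_lit 17839)) (x (nat_lit 17841)) (x (nat_lit 17849)) (x (nat_lit 17851))
    (x (nat_lit 17853)) (x (nat_lit 17857)) (x (nat_lit 17859)) (x (nat_lit 17865))
    (x (nat_lit 17875)) (x (nat_lit 17877)) (x (nat_lit 17883)) (x (nat_lit 17903))
    (x (nat_lit 17905)) (x (nat_lit 17907)) (x (nat_lit 17911)) (x (nat_lit 17913))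
    (x (nat_lit 17919)) (x (nat_lit 17929)) (x (nat_lit 17931)) (x (nat_lit 17937))
    (x (nat_lit 17955)) (x (nat_lit 17987)) (x (nat_lit 17989)) (x (nat_lit 17993))
    (x (nat_lit 17995)) (x (nat_lit 17997)) (x (nat_lit 18001)) (x (nat_lit 18003))
    (x (nat_lit 18011)) (x (nat_lit 18013)) (x (nat_lit 18015)) (x (nat_lit 18019))
    (x (nat_lit 18021)) (x (nat_lit 18027)) (x (nat_lit 18037)) (x (nat_lit 18039))
    (x (nat_lit 18045)) (x (nat_lit 18065)) (x (nat_lit 18067)) (x (nat_lit 18069))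
    (x (nat_lit 18073)) (x (nat_lit 18075)) (x (nat_lit 18081)) (x (nat_lit 18091))
    (x (nat_lit 18093)) (x (nat_lit 18099)) (x (nat_lit 18117)) (x (nat_lit 18145))
    (x (nat_lit 18147)) (x (nat_lit 18153)) (x (nat_lit 18171)) (x (nat_lit 18233))
    (x (nat_lit 18239)) (x (nat_lit 18241)) (x (nat_lit 18245)) (x (nat_lit 18247))
    (x (nat_lit 18249)) (x (nat_lit 18257)) (x (nat_lit 18259)) (x (nat_lit 18263))
    (x (nat_lit 18265)) (x (nat_lit 18267)) (x (nat_lit 18271)) (x (nat_lit 18273))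
    (x (nat_lit 18281)) (x (nat_lit 18283)) (x (nat_lit 18285)) (x (nat_lit 18289))
    (x (nat_lit 18291)) (x (nat_lit 18297)) (x (nat_lit 18311)) (x (nat_lit 18313))
    (x (nat_lit 18317)) (x (nat_lit 18319)) (x (nat_lit 18321)) (x (nat_lit 18325))
    (x (nat_lit 18327)) (x (nat_lit 18335)) (x (nat_lit 18337)) (x (nat_lit 18339))
    (x (nat_lit 18343)) (x (nat_lit 18345)) (x (nat_lit 18351)) (x (nat_lit 18361))
    (x (nat_lit 18363)) (x (nat_lit 18369)) (x (nat_lit 18389)) (x (nat_lit 18391))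
    (x (nat_lit 18393)) (x (nat_lit 18397)) (x (nat_lit 18399)) (x (nat_lit 18405))
    (x (nat_lit 18415)) (x (nat_lit 18417)) (x (nat_lit 18423)) (x (nat_lit 18441))
    (x (nat_lit 18473)) (x (nat_lit 18475)) (x (nat_lit 18479)) (x (nat_lit 18481))
    (x (nat_lit 18483)) (x (nat_lit 18487)) (x (nat_lit 18489)) (x (nat_lit 18497))
    (x (nat_lit 18499)) (x (nat_lit 18501)) (x (nat_lit 18505)) (x (nat_lit 18507))
    (x (nat_lit 18513)) (x (nat_lit 18523)) (x (nat_lit 18525)) (x (nat_lit 18531))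
    (x (nat_lit 18551)) (x (nat_lit 18553)) (x (nat_lit 18555)) (x (nat_lit 18559))
    (x (nat_lit 18561)) (x (nat_lit 18567)) (x (nat_lit 18577)) (x (nat_lit 18579))
    (x (nat_lit 18585)) (x (nat_lit 18603)) (x (nat_lit 18631)) (x (nat_lit 18633))
    (x (nat_lit 18639)) (x (nat_lit 18657)) (x (nat_lit 18713)) (x (nat_lit 18715))
    (x (nat_lit 18717)) (x (nat_lit 18721)) (x (nat_lit 18723)) (x (nat_lit 18729))
    (x (nat_lit 18739)) (x (nat_lit 18741)) (x (nat_lit 18747)) (x (nat_lit 18765))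
    (x (nat_lit 18793)) (x (nat_lit 18795)) (x (nat_lit 18801)) (x (nat_lit 18819))
    (x (nat_lit 18873)) (x (nat_lit 18959)) (x (nat_lit 18961)) (x (nat_lit 18965))
    (x (nat_lit 18967)) (x (nat_lit 18969)) (x (nat_lit 18973)) (x (nat_lit 18975))
    (x (nat_lit 18983)) (x (nat_lit 18985)) (x (nat_lit 18987)) (x (nat_lit 18991))
    (x (nat_lit 18993)) (x (nat_lit 18999)) (x (nat_lit 19009)) (x (nat_lit 19011))
    (x (nat_lit 19017)) (x (nat_lit 19037)) (x (nat_lit 19039)) (x (nat_lit 19041))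
    (x (nat_lit 19045)) (x (nat_lit 19047)) (x (nat_lit 19053)) (x (nat_lit 19063))
    (x (nat_lit 19065)) (x (nat_lit 19071)) (x (nat_lit 19089)) (x (nat_lit 19117))
    (x (nat_lit 19119)) (x (nat_lit 19125)) (x (nat_lit 19143)) (x (nat_lit 19199))
    (x (nat_lit 19201)) (x (nat_lit 19203)) (x (nat_lit 19207)) (x (nat_lit 19209))
    (x (nat_lit 19215)) (x (nat_lit 19225)) (x (nat_lit 19227)) (x (nat_lit 19233))
    (x (nat_lit 19251)) (x (nat_lit 19279)) (x (nat_lit 19281)) (x (nat_lit 19287))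
    (x (nat_lit 19305)) (x (nat_lit 19359)) (x (nat_lit 19441)) (x (nat_lit 19443))
    (x (nat_lit 19449)) (x (nat_lit 19467)) (x (nat_lit 19521))

theorem ap_eq (x : Nat → Nat) (k : FnLL cds) : apLL (fun t => x t.cd) cds k = ap x k :=
  Eq.refl (ap x k)

theorem codes_ok : beqL (codes cds) (secL 9 9 0 []) = true := by decide +kernel

noncomputable def fin (f : Nat → Nat) (v1 : Nat) (
    x161 x215 x233 x239 x241 x323 x377 x395 x401 x403 x431 x449 x455 x457 x467 x473 x475 x479 x481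
    x483 x539 x557 x563 x565 x593 x611 x617 x619 x629 x635 x637 x641 x643 x645 x665 x671 x673 x683
    x689 x691 x695 x697 x699 x707 x709 x713 x715 x717 x721 x723 x809 x863 x881 x887 x889 x917 x935
    x941 x943 x953 x959 x961 x965 x967 x969 x1025 x1043 x1049 x1051 x1079 x1097 x1103 x1105 x1115
    x1121 x1123 x1127 x1129 x1131 x1151 x1157 x1159 x1169 x1175 x1177 x1181 x1183 x1185 x1193 x1195
    x1199 x1201 x1203 x1207 x1209 x1241 x1259 x1265 x1267 x1277 x1283 x1285 x1289 x1291 x1293 x1313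
    x1319 x1321 x1331 x1337 x1339 x1343 x1345 x1347 x1355 x1357 x1361 x1363 x1365 x1369 x1371 x1385
    x1391 x1393 x1397 x1399 x1401 x1409 x1411 x1415 x1417 x1419 x1423 x1425 x1433 x1435 x1437 x1441
    x1443 x1449 x1511 x1529 x1535 x1537 x1565 x1583 x1589 x1591 x1601 x1607 x1609 x1613 x1615 x1617
    x1637 x1643 x1645 x1655 x1661 x1663 x1667 x1669 x1671 x1679 x1681 x1685 x1687 x1689 x1693 x1695
    x1727 x1745 x1751 x1753 x1763 x1769 x1771 x1775 x1777 x1779 x1799 x1805 x1807 x1817 x1823 x1825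
    x1829 x1831 x1833 x1841 x1843 x1847 x1849 x1851 x1855 x1857 x1871 x1877 x1879 x1883 x1885 x1887
    x1895 x1897 x1901 x1903 x1905 x1909 x1911 x1919 x1921 x1923 x1927 x1929 x1935 x1961 x1967 x1969
    x1979 x1985 x1987 x1991 x1993 x1995 x2003 x2005 x2009 x2011 x2013 x2017 x2019 x2033 x2039 x2041
    x2045 x2047 x2049 x2057 x2059 x2063 x2065 x2067 x2071 x2073 x2081 x2083 x2085 x2089 x2091 x2097
    x2111 x2113 x2117 x2119 x2121 x2125 x2127 x2135 x2137 x2139 x2143 x2145 x2151 x2161 x2163 x2169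
    x2267 x2321 x2339 x2345 x2347 x2375 x2393 x2399 x2401 x2411 x2417 x2419 x2423 x2425 x2427 x2483
    x2501 x2507 x2509 x2537 x2555 x2561 x2563 x2573 x2579 x2581 x2585 x2587 x2589 x2609 x2615 x2617
    x2627 x2633 x2635 x2639 x2641 x2643 x2651 x2653 x2657 x2659 x2661 x2665 x2667 x2699 x2717 x2723
    x2725 x2735 x2741 x2743 x2747 x2749 x2751 x2771 x2777 x2779 x2789 x2795 x2797 x2801 x2803 x2805
    x2813 x2815 x2819 x2821 x2823 x2827 x2829 x2843 x2849 x2851 x2855 x2857 x2859 x2867 x2869 x2873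
    x2875 x2877 x2881 x2883 x2891 x2893 x2895 x2899 x2901 x2907 x2969 x2987 x2993 x2995 x3023 x3041
    x3047 x3049 x3059 x3065 x3067 x3071 x3073 x3075 x3095 x3101 x3103 x3113 x3119 x3121 x3125 x3127
    x3129 x3137 x3139 x3143 x3145 x3147 x3151 x3153 x3185 x3203 x3209 x3211 x3221 x3227 x3229 x3233
    x3235 x3237 x3257 x3263 x3265 x3275 x3281 x3283 x3287 x3289 x3291 x3299 x3301 x3305 x3307 x3309
    x3313 x3315 x3329 x3335 x3337 x3341 x3343 x3345 x3353 x3355 x3359 x3361 x3363 x3367 x3369 x3377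
    x3379 x3381 x3385 x3387 x3393 x3419 x3425 x3427 x3437 x3443 x3445 x3449 x3451 x3453 x3461 x3463
    x3467 x3469 x3471 x3475 x3477 x3491 x3497 x3499 x3503 x3505 x3507 x3515 x3517 x3521 x3523 x3525
    x3529 x3531 x3539 x3541 x3543 x3547 x3549 x3555 x3569 x3571 x3575 x3577 x3579 x3583 x3585 x3593
    x3595 x3597 x3601 x3603 x3609 x3619 x3621 x3627 x3671 x3689 x3695 x3697 x3707 x3713 x3715 x3719
    x3721 x3723 x3743 x3749 x3751 x3761 x3767 x3769 x3773 x3775 x3777 x3785 x3787 x3791 x3793 x3795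
    x3799 x3801 x3815 x3821 x3823 x3827 x3829 x3831 x3839 x3841 x3845 x3847 x3849 x3853 x3855 x3863
    x3865 x3867 x3871 x3873 x3879 x3905 x3911 x3913 x3923 x3929 x3931 x3935 x3937 x3939 x3947 x3949
    x3953 x3955 x3957 x3961 x3963 x3977 x3983 x3985 x3989 x3991 x3993 x4001 x4003 x4007 x4009 x4011
    x4015 x4017 x4025 x4027 x4029 x4033 x4035 x4041 x4055 x4057 x4061 x4063 x4065 x4069 x4071 x4079
    x4081 x4083 x4087 x4089 x4095 x4105 x4107 x4113 x4139 x4145 x4147 x4151 x4153 x4155 x4163 x4165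
    x4169 x4171 x4173 x4177 x4179 x4187 x4189 x4191 x4195 x4197 x4203 x4217 x4219 x4223 x4225 x4227
    x4231 x4233 x4241 x4243 x4245 x4249 x4251 x4257 x4267 x4269 x4275 x4295 x4297 x4299 x4303 x4305
    x4311 x4321 x4323 x4329 x4347 x4427 x4445 x4451 x4453 x4481 x4499 x4505 x4507 x4517 x4523 x4525
    x4529 x4531 x4533 x4553 x4559 x4561 x4571 x4577 x4579 x4583 x4585 x4587 x4595 x4597 x4601 x4603
    x4605 x4609 x4611 x4643 x4661 x4667 x4669 x4679 x4685 x4687 x4691 x4693 x4695 x4715 x4721 x4723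
    x4733 x4739 x4741 x4745 x4747 x4749 x4757 x4759 x4763 x4765 x4767 x4771 x4773 x4787 x4793 x4795
    x4799 x4801 x4803 x4811 x4813 x4817 x4819 x4821 x4825 x4827 x4835 x4837 x4839 x4843 x4845 x4851
    x4877 x4883 x4885 x4895 x4901 x4903 x4907 x4909 x4911 x4919 x4921 x4925 x4927 x4929 x4933 x4935
    x4949 x4955 x4957 x4961 x4963 x4965 x4973 x4975 x4979 x4981 x4983 x4987 x4989 x4997 x4999 x5001
    x5005 x5007 x5013 x5027 x5029 x5033 x5035 x5037 x5041 x5043 x5051 x5053 x5055 x5059 x5061 x5067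
    x5077 x5079 x5085 x5129 x5147 x5153 x5155 x5165 x5171 x5173 x5177 x5179 x5181 x5201 x5207 x5209
    x5219 x5225 x5227 x5231 x5233 x5235 x5243 x5245 x5249 x5251 x5253 x5257 x5259 x5273 x5279 x5281
    x5285 x5287 x5289 x5297 x5299 x5303 x5305 x5307 x5311 x5313 x5321 x5323 x5325 x5329 x5331 x5337
    x5363 x5369 x5371 x5381 x5387 x5389 x5393 x5395 x5397 x5405 x5407 x5411 x5413 x5415 x5419 x5421
    x5435 x5441 x5443 x5447 x5449 x5451 x5459 x5461 x5465 x5467 x5469 x5473 x5475 x5483 x5485 x5487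
    x5491 x5493 x5499 x5513 x5515 x5519 x5521 x5523 x5527 x5529 x5537 x5539 x5541 x5545 x5547 x5553
    x5563 x5565 x5571 x5597 x5603 x5605 x5609 x5611 x5613 x5621 x5623 x5627 x5629 x5631 x5635 x5637
    x5645 x5647 x5649 x5653 x5655 x5661 x5675 x5677 x5681 x5683 x5685 x5689 x5691 x5699 x5701 x5703
    x5707 x5709 x5715 x5725 x5727 x5733 x5753 x5755 x5757 x5761 x5763 x5769 x5779 x5781 x5787 x5805
    x5849 x5855 x5857 x5867 x5873 x5875 x5879 x5881 x5883 x5891 x5893 x5897 x5899 x5901 x5905 x5907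
    x5921 x5927 x5929 x5933 x5935 x5937 x5945 x5947 x5951 x5953 x5955 x5959 x5961 x5969 x5971 x5973
    x5977 x5979 x5985 x5999 x6001 x6005 x6007 x6009 x6013 x6015 x6023 x6025 x6027 x6031 x6033 x6039
    x6049 x6051 x6057 x6083 x6089 x6091 x6095 x6097 x6099 x6107 x6109 x6113 x6115 x6117 x6121 x6123
    x6131 x6133 x6135 x6139 x6141 x6147 x6161 x6163 x6167 x6169 x6171 x6175 x6177 x6185 x6187 x6189
    x6193 x6195 x6201 x6211 x6213 x6219 x6239 x6241 x6243 x6247 x6249 x6255 x6265 x6267 x6273 x6291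
    x6323 x6325 x6329 x6331 x6333 x6337 x6339 x6347 x6349 x6351 x6355 x6357 x6363 x6373 x6375 x6381
    x6401 x6403 x6405 x6409 x6411 x6417 x6427 x6429 x6435 x6453 x6481 x6483 x6489 x6507 x6641 x6695
    x6713 x6719 x6721 x6749 x6767 x6773 x6775 x6785 x6791 x6793 x6797 x6799 x6801 x6857 x6875 x6881
    x6883 x6911 x6929 x6935 x6937 x6947 x6953 x6955 x6959 x6961 x6963 x6983 x6989 x6991 x7001 x7007
    x7009 x7013 x7015 x7017 x7025 x7027 x7031 x7033 x7035 x7039 x7041 x7073 x7091 x7097 x7099 x7109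
    x7115 x7117 x7121 x7123 x7125 x7145 x7151 x7153 x7163 x7169 x7171 x7175 x7177 x7179 x7187 x7189
    x7193 x7195 x7197 x7201 x7203 x7217 x7223 x7225 x7229 x7231 x7233 x7241 x7243 x7247 x7249 x7251
    x7255 x7257 x7265 x7267 x7269 x7273 x7275 x7281 x7343 x7361 x7367 x7369 x7397 x7415 x7421 x7423
    x7433 x7439 x7441 x7445 x7447 x7449 x7469 x7475 x7477 x7487 x7493 x7495 x7499 x7501 x7503 x7511
    x7513 x7517 x7519 x7521 x7525 x7527 x7559 x7577 x7583 x7585 x7595 x7601 x7603 x7607 x7609 x7611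
    x7631 x7637 x7639 x7649 x7655 x7657 x7661 x7663 x7665 x7673 x7675 x7679 x7681 x7683 x7687 x7689
    x7703 x7709 x7711 x7715 x7717 x7719 x7727 x7729 x7733 x7735 x7737 x7741 x7743 x7751 x7753 x7755
    x7759 x7761 x7767 x7793 x7799 x7801 x7811 x7817 x7819 x7823 x7825 x7827 x7835 x7837 x7841 x7843
    x7845 x7849 x7851 x7865 x7871 x7873 x7877 x7879 x7881 x7889 x7891 x7895 x7897 x7899 x7903 x7905
    x7913 x7915 x7917 x7921 x7923 x7929 x7943 x7945 x7949 x7951 x7953 x7957 x7959 x7967 x7969 x7971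
    x7975 x7977 x7983 x7993 x7995 x8001 x8045 x8063 x8069 x8071 x8081 x8087 x8089 x8093 x8095 x8097
    x8117 x8123 x8125 x8135 x8141 x8143 x8147 x8149 x8151 x8159 x8161 x8165 x8167 x8169 x8173 x8175
    x8189 x8195 x8197 x8201 x8203 x8205 x8213 x8215 x8219 x8221 x8223 x8227 x8229 x8237 x8239 x8241
    x8245 x8247 x8253 x8279 x8285 x8287 x8297 x8303 x8305 x8309 x8311 x8313 x8321 x8323 x8327 x8329
    x8331 x8335 x8337 x8351 x8357 x8359 x8363 x8365 x8367 x8375 x8377 x8381 x8383 x8385 x8389 x8391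
    x8399 x8401 x8403 x8407 x8409 x8415 x8429 x8431 x8435 x8437 x8439 x8443 x8445 x8453 x8455 x8457
    x8461 x8463 x8469 x8479 x8481 x8487 x8513 x8519 x8521 x8525 x8527 x8529 x8537 x8539 x8543 x8545
    x8547 x8551 x8553 x8561 x8563 x8565 x8569 x8571 x8577 x8591 x8593 x8597 x8599 x8601 x8605 x8607
    x8615 x8617 x8619 x8623 x8625 x8631 x8641 x8643 x8649 x8669 x8671 x8673 x8677 x8679 x8685 x8695
    x8697 x8703 x8721 x8801 x8819 x8825 x8827 x8855 x8873 x8879 x8881 x8891 x8897 x8899 x8903 x8905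
    x8907 x8927 x8933 x8935 x8945 x8951 x8953 x8957 x8959 x8961 x8969 x8971 x8975 x8977 x8979 x8983
    x8985 x9017 x9035 x9041 x9043 x9053 x9059 x9061 x9065 x9067 x9069 x9089 x9095 x9097 x9107 x9113
    x9115 x9119 x9121 x9123 x9131 x9133 x9137 x9139 x9141 x9145 x9147 x9161 x9167 x9169 x9173 x9175
    x9177 x9185 x9187 x9191 x9193 x9195 x9199 x9201 x9209 x9211 x9213 x9217 x9219 x9225 x9251 x9257
    x9259 x9269 x9275 x9277 x9281 x9283 x9285 x9293 x9295 x9299 x9301 x9303 x9307 x9309 x9323 x9329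
    x9331 x9335 x9337 x9339 x9347 x9349 x9353 x9355 x9357 x9361 x9363 x9371 x9373 x9375 x9379 x9381
    x9387 x9401 x9403 x9407 x9409 x9411 x9415 x9417 x9425 x9427 x9429 x9433 x9435 x9441 x9451 x9453
    x9459 x9503 x9521 x9527 x9529 x9539 x9545 x9547 x9551 x9553 x9555 x9575 x9581 x9583 x9593 x9599
    x9601 x9605 x9607 x9609 x9617 x9619 x9623 x9625 x9627 x9631 x9633 x9647 x9653 x9655 x9659 x9661
    x9663 x9671 x9673 x9677 x9679 x9681 x9685 x9687 x9695 x9697 x9699 x9703 x9705 x9711 x9737 x9743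
    x9745 x9755 x9761 x9763 x9767 x9769 x9771 x9779 x9781 x9785 x9787 x9789 x9793 x9795 x9809 x9815
    x9817 x9821 x9823 x9825 x9833 x9835 x9839 x9841 x9843 x9847 x9849 x9857 x9859 x9861 x9865 x9867
    x9873 x9887 x9889 x9893 x9895 x9897 x9901 x9903 x9911 x9913 x9915 x9919 x9921 x9927 x9937 x9939
    x9945 x9971 x9977 x9979 x9983 x9985 x9987 x9995 x9997 x10001 x10003 x10005 x10009 x10011 x10019
    x10021 x10023 x10027 x10029 x10035 x10049 x10051 x10055 x10057 x10059 x10063 x10065 x10073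
    x10075 x10077 x10081 x10083 x10089 x10099 x10101 x10107 x10127 x10129 x10131 x10135 x10137
    x10143 x10153 x10155 x10161 x10179 x10223 x10229 x10231 x10241 x10247 x10249 x10253 x10255
    x10257 x10265 x10267 x10271 x10273 x10275 x10279 x10281 x10295 x10301 x10303 x10307 x10309
    x10311 x10319 x10321 x10325 x10327 x10329 x10333 x10335 x10343 x10345 x10347 x10351 x10353
    x10359 x10373 x10375 x10379 x10381 x10383 x10387 x10389 x10397 x10399 x10401 x10405 x10407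
    x10413 x10423 x10425 x10431 x10457 x10463 x10465 x10469 x10471 x10473 x10481 x10483 x10487
    x10489 x10491 x10495 x10497 x10505 x10507 x10509 x10513 x10515 x10521 x10535 x10537 x10541
    x10543 x10545 x10549 x10551 x10559 x10561 x10563 x10567 x10569 x10575 x10585 x10587 x10593
    x10613 x10615 x10617 x10621 x10623 x10629 x10639 x10641 x10647 x10665 x10697 x10699 x10703
    x10705 x10707 x10711 x10713 x10721 x10723 x10725 x10729 x10731 x10737 x10747 x10749 x10755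
    x10775 x10777 x10779 x10783 x10785 x10791 x10801 x10803 x10809 x10827 x10855 x10857 x10863
    x10881 x10961 x10979 x10985 x10987 x10997 x11003 x11005 x11009 x11011 x11013 x11033 x11039
    x11041 x11051 x11057 x11059 x11063 x11065 x11067 x11075 x11077 x11081 x11083 x11085 x11089
    x11091 x11105 x11111 x11113 x11117 x11119 x11121 x11129 x11131 x11135 x11137 x11139 x11143
    x11145 x11153 x11155 x11157 x11161 x11163 x11169 x11195 x11201 x11203 x11213 x11219 x11221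
    x11225 x11227 x11229 x11237 x11239 x11243 x11245 x11247 x11251 x11253 x11267 x11273 x11275
    x11279 x11281 x11283 x11291 x11293 x11297 x11299 x11301 x11305 x11307 x11315 x11317 x11319
    x11323 x11325 x11331 x11345 x11347 x11351 x11353 x11355 x11359 x11361 x11369 x11371 x11373
    x11377 x11379 x11385 x11395 x11397 x11403 x11429 x11435 x11437 x11441 x11443 x11445 x11453
    x11455 x11459 x11461 x11463 x11467 x11469 x11477 x11479 x11481 x11485 x11487 x11493 x11507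
    x11509 x11513 x11515 x11517 x11521 x11523 x11531 x11533 x11535 x11539 x11541 x11547 x11557
    x11559 x11565 x11585 x11587 x11589 x11593 x11595 x11601 x11611 x11613 x11619 x11637 x11681
    x11687 x11689 x11699 x11705 x11707 x11711 x11713 x11715 x11723 x11725 x11729 x11731 x11733
    x11737 x11739 x11753 x11759 x11761 x11765 x11767 x11769 x11777 x11779 x11783 x11785 x11787
    x11791 x11793 x11801 x11803 x11805 x11809 x11811 x11817 x11831 x11833 x11837 x11839 x11841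
    x11845 x11847 x11855 x11857 x11859 x11863 x11865 x11871 x11881 x11883 x11889 x11915 x11921
    x11923 x11927 x11929 x11931 x11939 x11941 x11945 x11947 x11949 x11953 x11955 x11963 x11965
    x11967 x11971 x11973 x11979 x11993 x11995 x11999 x12001 x12003 x12007 x12009 x12017 x12019
    x12021 x12025 x12027 x12033 x12043 x12045 x12051 x12071 x12073 x12075 x12079 x12081 x12087
    x12097 x12099 x12105 x12123 x12155 x12157 x12161 x12163 x12165 x12169 x12171 x12179 x12181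
    x12183 x12187 x12189 x12195 x12205 x12207 x12213 x12233 x12235 x12237 x12241 x12243 x12249
    x12259 x12261 x12267 x12285 x12313 x12315 x12321 x12339 x12401 x12407 x12409 x12413 x12415
    x12417 x12425 x12427 x12431 x12433 x12435 x12439 x12441 x12449 x12451 x12453 x12457 x12459
    x12465 x12479 x12481 x12485 x12487 x12489 x12493 x12495 x12503 x12505 x12507 x12511 x12513
    x12519 x12529 x12531 x12537 x12557 x12559 x12561 x12565 x12567 x12573 x12583 x12585 x12591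
    x12609 x12641 x12643 x12647 x12649 x12651 x12655 x12657 x12665 x12667 x12669 x12673 x12675
    x12681 x12691 x12693 x12699 x12719 x12721 x12723 x12727 x12729 x12735 x12745 x12747 x12753
    x12771 x12799 x12801 x12807 x12825 x12881 x12883 x12885 x12889 x12891 x12897 x12907 x12909
    x12915 x12933 x12961 x12963 x12969 x12987 x13041 x13175 x13193 x13199 x13201 x13229 x13247
    x13253 x13255 x13265 x13271 x13273 x13277 x13279 x13281 x13301 x13307 x13309 x13319 x13325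
    x13327 x13331 x13333 x13335 x13343 x13345 x13349 x13351 x13353 x13357 x13359 x13391 x13409
    x13415 x13417 x13427 x13433 x13435 x13439 x13441 x13443 x13463 x13469 x13471 x13481 x13487
    x13489 x13493 x13495 x13497 x13505 x13507 x13511 x13513 x13515 x13519 x13521 x13535 x13541
    x13543 x13547 x13549 x13551 x13559 x13561 x13565 x13567 x13569 x13573 x13575 x13583 x13585
    x13587 x13591 x13593 x13599 x13625 x13631 x13633 x13643 x13649 x13651 x13655 x13657 x13659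
    x13667 x13669 x13673 x13675 x13677 x13681 x13683 x13697 x13703 x13705 x13709 x13711 x13713
    x13721 x13723 x13727 x13729 x13731 x13735 x13737 x13745 x13747 x13749 x13753 x13755 x13761
    x13775 x13777 x13781 x13783 x13785 x13789 x13791 x13799 x13801 x13803 x13807 x13809 x13815
    x13825 x13827 x13833 x13877 x13895 x13901 x13903 x13913 x13919 x13921 x13925 x13927 x13929
    x13949 x13955 x13957 x13967 x13973 x13975 x13979 x13981 x13983 x13991 x13993 x13997 x13999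
    x14001 x14005 x14007 x14021 x14027 x14029 x14033 x14035 x14037 x14045 x14047 x14051 x14053
    x14055 x14059 x14061 x14069 x14071 x14073 x14077 x14079 x14085 x14111 x14117 x14119 x14129
    x14135 x14137 x14141 x14143 x14145 x14153 x14155 x14159 x14161 x14163 x14167 x14169 x14183
    x14189 x14191 x14195 x14197 x14199 x14207 x14209 x14213 x14215 x14217 x14221 x14223 x14231
    x14233 x14235 x14239 x14241 x14247 x14261 x14263 x14267 x14269 x14271 x14275 x14277 x14285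
    x14287 x14289 x14293 x14295 x14301 x14311 x14313 x14319 x14345 x14351 x14353 x14357 x14359
    x14361 x14369 x14371 x14375 x14377 x14379 x14383 x14385 x14393 x14395 x14397 x14401 x14403
    x14409 x14423 x14425 x14429 x14431 x14433 x14437 x14439 x14447 x14449 x14451 x14455 x14457
    x14463 x14473 x14475 x14481 x14501 x14503 x14505 x14509 x14511 x14517 x14527 x14529 x14535
    x14553 x14597 x14603 x14605 x14615 x14621 x14623 x14627 x14629 x14631 x14639 x14641 x14645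
    x14647 x14649 x14653 x14655 x14669 x14675 x14677 x14681 x14683 x14685 x14693 x14695 x14699
    x14701 x14703 x14707 x14709 x14717 x14719 x14721 x14725 x14727 x14733 x14747 x14749 x14753
    x14755 x14757 x14761 x14763 x14771 x14773 x14775 x14779 x14781 x14787 x14797 x14799 x14805
    x14831 x14837 x14839 x14843 x14845 x14847 x14855 x14857 x14861 x14863 x14865 x14869 x14871
    x14879 x14881 x14883 x14887 x14889 x14895 x14909 x14911 x14915 x14917 x14919 x14923 x14925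
    x14933 x14935 x14937 x14941 x14943 x14949 x14959 x14961 x14967 x14987 x14989 x14991 x14995
    x14997 x15003 x15013 x15015 x15021 x15039 x15071 x15073 x15077 x15079 x15081 x15085 x15087
    x15095 x15097 x15099 x15103 x15105 x15111 x15121 x15123 x15129 x15149 x15151 x15153 x15157
    x15159 x15165 x15175 x15177 x15183 x15201 x15229 x15231 x15237 x15255 x15335 x15353 x15359
    x15361 x15371 x15377 x15379 x15383 x15385 x15387 x15407 x15413 x15415 x15425 x15431 x15433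
    x15437 x15439 x15441 x15449 x15451 x15455 x15457 x15459 x15463 x15465 x15479 x15485 x15487
    x15491 x15493 x15495 x15503 x15505 x15509 x15511 x15513 x15517 x15519 x15527 x15529 x15531
    x15535 x15537 x15543 x15569 x15575 x15577 x15587 x15593 x15595 x15599 x15601 x15603 x15611
    x15613 x15617 x15619 x15621 x15625 x15627 x15641 x15647 x15649 x15653 x15655 x15657 x15665
    x15667 x15671 x15673 x15675 x15679 x15681 x15689 x15691 x15693 x15697 x15699 x15705 x15719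
    x15721 x15725 x15727 x15729 x15733 x15735 x15743 x15745 x15747 x15751 x15753 x15759 x15769
    x15771 x15777 x15803 x15809 x15811 x15815 x15817 x15819 x15827 x15829 x15833 x15835 x15837
    x15841 x15843 x15851 x15853 x15855 x15859 x15861 x15867 x15881 x15883 x15887 x15889 x15891
    x15895 x15897 x15905 x15907 x15909 x15913 x15915 x15921 x15931 x15933 x15939 x15959 x15961
    x15963 x15967 x15969 x15975 x15985 x15987 x15993 x16011 x16055 x16061 x16063 x16073 x16079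
    x16081 x16085 x16087 x16089 x16097 x16099 x16103 x16105 x16107 x16111 x16113 x16127 x16133
    x16135 x16139 x16141 x16143 x16151 x16153 x16157 x16159 x16161 x16165 x16167 x16175 x16177
    x16179 x16183 x16185 x16191 x16205 x16207 x16211 x16213 x16215 x16219 x16221 x16229 x16231
    x16233 x16237 x16239 x16245 x16255 x16257 x16263 x16289 x16295 x16297 x16301 x16303 x16305
    x16313 x16315 x16319 x16321 x16323 x16327 x16329 x16337 x16339 x16341 x16345 x16347 x16353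
    x16367 x16369 x16373 x16375 x16377 x16381 x16383 x16391 x16393 x16395 x16399 x16401 x16407
    x16417 x16419 x16425 x16445 x16447 x16449 x16453 x16455 x16461 x16471 x16473 x16479 x16497
    x16529 x16531 x16535 x16537 x16539 x16543 x16545 x16553 x16555 x16557 x16561 x16563 x16569
    x16579 x16581 x16587 x16607 x16609 x16611 x16615 x16617 x16623 x16633 x16635 x16641 x16659
    x16687 x16689 x16695 x16713 x16775 x16781 x16783 x16787 x16789 x16791 x16799 x16801 x16805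
    x16807 x16809 x16813 x16815 x16823 x16825 x16827 x16831 x16833 x16839 x16853 x16855 x16859
    x16861 x16863 x16867 x16869 x16877 x16879 x16881 x16885 x16887 x16893 x16903 x16905 x16911
    x16931 x16933 x16935 x16939 x16941 x16947 x16957 x16959 x16965 x16983 x17015 x17017 x17021
    x17023 x17025 x17029 x17031 x17039 x17041 x17043 x17047 x17049 x17055 x17065 x17067 x17073
    x17093 x17095 x17097 x17101 x17103 x17109 x17119 x17121 x17127 x17145 x17173 x17175 x17181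
    x17199 x17255 x17257 x17259 x17263 x17265 x17271 x17281 x17283 x17289 x17307 x17335 x17337
    x17343 x17361 x17415 x17513 x17519 x17521 x17531 x17537 x17539 x17543 x17545 x17547 x17555
    x17557 x17561 x17563 x17565 x17569 x17571 x17585 x17591 x17593 x17597 x17599 x17601 x17609
    x17611 x17615 x17617 x17619 x17623 x17625 x17633 x17635 x17637 x17641 x17643 x17649 x17663
    x17665 x17669 x17671 x17673 x17677 x17679 x17687 x17689 x17691 x17695 x17697 x17703 x17713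
    x17715 x17721 x17747 x17753 x17755 x17759 x17761 x17763 x17771 x17773 x17777 x17779 x17781
    x17785 x17787 x17795 x17797 x17799 x17803 x17805 x17811 x17825 x17827 x17831 x17833 x17835
    x17839 x17841 x17849 x17851 x17853 x17857 x17859 x17865 x17875 x17877 x17883 x17903 x17905
    x17907 x17911 x17913 x17919 x17929 x17931 x17937 x17955 x17987 x17989 x17993 x17995 x17997
    x18001 x18003 x18011 x18013 x18015 x18019 x18021 x18027 x18037 x18039 x18045 x18065 x18067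
    x18069 x18073 x18075 x18081 x18091 x18093 x18099 x18117 x18145 x18147 x18153 x18171 x18233
    x18239 x18241 x18245 x18247 x18249 x18257 x18259 x18263 x18265 x18267 x18271 x18273 x18281
    x18283 x18285 x18289 x18291 x18297 x18311 x18313 x18317 x18319 x18321 x18325 x18327 x18335
    x18337 x18339 x18343 x18345 x18351 x18361 x18363 x18369 x18389 x18391 x18393 x18397 x18399
    x18405 x18415 x18417 x18423 x18441 x18473 x18475 x18479 x18481 x18483 x18487 x18489 x18497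
    x18499 x18501 x18505 x18507 x18513 x18523 x18525 x18531 x18551 x18553 x18555 x18559 x18561
    x18567 x18577 x18579 x18585 x18603 x18631 x18633 x18639 x18657 x18713 x18715 x18717 x18721
    x18723 x18729 x18739 x18741 x18747 x18765 x18793 x18795 x18801 x18819 x18873 x18959 x18961
    x18965 x18967 x18969 x18973 x18975 x18983 x18985 x18987 x18991 x18993 x18999 x19009 x19011
    x19017 x19037 x19039 x19041 x19045 x19047 x19053 x19063 x19065 x19071 x19089 x19117 x19119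
    x19125 x19143 x19199 x19201 x19203 x19207 x19209 x19215 x19225 x19227 x19233 x19251 x19279
    x19281 x19287 x19305 x19359 x19441 x19443 x19449 x19467 x19521 : Nat) : Bool :=
  Nat.beq
    (Nat.add (Nat.add (f x161) (Nat.add (f x215) (Nat.add (f x233) (Nat.add (f x239) (Nat.add
    (f x241) (Nat.add (f x323) (Nat.add (f x377) (Nat.add (f x395) (Nat.add (f x401) (Nat.add
    (f x403) (Nat.add (f x431) (Nat.add (f x449) (Nat.add (f x455) (Nat.add (f x457) (Nat.add
    (f x467) (Nat.add (f x473) (Nat.add (f x475) (Nat.add (f x479) (Nat.add (f x481) (Nat.add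
    (f x483) (Nat.add (f x539) (Nat.add (f x557) (Nat.add (f x563) (Nat.add (f x565) (Nat.add
    (f x593) (Nat.add (f x611) (Nat.add (f x617) (Nat.add (f x619) (Nat.add (f x629) (Nat.add
    (f x635) (Nat.add (f x637) (Nat.add (f x641) (Nat.add (f x643) (Nat.add (f x645) (Nat.add
    (f x665) (Nat.add (f x671) (Nat.add (f x673) (Nat.add (f x683) (Nat.add (f x689) (Nat.add
    (f x691) (Nat.add (f x695) (Nat.add (f x697) (Nat.add (f x699) (Nat.add (f x707) (Nat.add
    (f x709) (Nat.add (f x713) (Nat.add (f x715) (Nat.add (f x717) (Nat.add (f x721) (Nat.add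
    (f x723) (Nat.add (f x809) (Nat.add (f x863) (Nat.add (f x881) (Nat.add (f x887) (Nat.add
    (f x889) (Nat.add (f x917) (Nat.add (f x935) (Nat.add (f x941) (Nat.add (f x943) (Nat.add
    (f x953) 0)))))))))))))))))))))))))))))))))))))))))))))))))))))))))))) (Nat.add (Nat.add
    (f x959) (Nat.add (f x961) (Nat.add (f x965) (Nat.add (f x967) (Nat.add (f x969) (Nat.add
    (f x1025) (Nat.add (f x1043) (Nat.add (f x1049) (Nat.add (f x1051) (Nat.add (f x1079) (Nat.add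
    (f x1097) (Nat.add (f x1103) (Nat.add (f x1105) (Nat.add (f x1115) (Nat.add (f x1121) (Nat.add
    (f x1123) (Nat.add (f x1127) (Nat.add (f x1129) (Nat.add (f x1131) (Nat.add (f x1151) (Nat.add
    (f x1157) (Nat.add (f x1159) (Nat.add (f x1169) (Nat.add (f x1175) (Nat.add (f x1177) (Nat.add
    (f x1181) (Nat.add (f x1183) (Nat.add (f x1185) (Nat.add (f x1193) (Nat.add (f x1195) (Nat.add
    (f x1199) (Nat.add (f x1201) (Nat.add (f x1203) (Nat.add (f x1207) (Nat.add (f x1209) (Nat.add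
    (f x1241) (Nat.add (f x1259) (Nat.add (f x1265) (Nat.add (f x1267) (Nat.add (f x1277) (Nat.add
    (f x1283) (Nat.add (f x1285) (Nat.add (f x1289) (Nat.add (f x1291) (Nat.add (f x1293) (Nat.add
    (f x1313) (Nat.add (f x1319) (Nat.add (f x1321) (Nat.add (f x1331) (Nat.add (f x1337) (Nat.add
    (f x1339) (Nat.add (f x1343) (Nat.add (f x1345) (Nat.add (f x1347) (Nat.add (f x1355) (Nat.add
    (f x1357) (Nat.add (f x1361) (Nat.add (f x1363) (Nat.add (f x1365) (Nat.add (f x1369)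
    0)))))))))))))))))))))))))))))))))))))))))))))))))))))))))))) (Nat.add (Nat.add (f x1371)
    (Nat.add (f x1385) (Nat.add (f x1391) (Nat.add (f x1393) (Nat.add (f x1397) (Nat.add (f x1399)
    (Nat.add (f x1401) (Nat.add (f x1409) (Nat.add (f x1411) (Nat.add (f x1415) (Nat.add (f x1417)
    (Nat.add (f x1419) (Nat.add (f x1423) (Nat.add (f x1425) (Nat.add (f x1433) (Nat.add (f x1435)
    (Nat.add (f x1437) (Nat.add (f x1441) (Nat.add (f x1443) (Nat.add (f x1449) (Nat.add (f x1511)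
    (Nat.add (f x1529) (Nat.add (f x1535) (Nat.add (f x1537) (Nat.add (f x1565) (Nat.add (f x1583)
    (Nat.add (f x1589) (Nat.add (f x1591) (Nat.add (f x1601) (Nat.add (f x1607) (Nat.add (f x1609)
    (Nat.add (f x1613) (Nat.add (f x1615) (Nat.add (f x1617) (Nat.add (f x1637) (Nat.add (f x1643)
    (Nat.add (f x1645) (Nat.add (f x1655) (Nat.add (f x1661) (Nat.add (f x1663) (Nat.add (f x1667)
    (Nat.add (f x1669) (Nat.add (f x1671) (Nat.add (f x1679) (Nat.add (f x1681) (Nat.add (f x1685)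
    (Nat.add (f x1687) (Nat.add (f x1689) (Nat.add (f x1693) (Nat.add (f x1695) (Nat.add (f x1727)
    (Nat.add (f x1745) (Nat.add (f x1751) (Nat.add (f x1753) (Nat.add (f x1763) (Nat.add (f x1769)
    (Nat.add (f x1771) (Nat.add (f x1775) (Nat.add (f x1777) (Nat.add (f x1779)
    0)))))))))))))))))))))))))))))))))))))))))))))))))))))))))))) (Nat.add (Nat.add (f x1799)
    (Nat.add (f x1805) (Nat.add (f x1807) (Nat.add (f x1817) (Nat.add (f x1823) (Nat.add (f x1825)
    (Nat.add (f x1829) (Nat.add (f x1831) (Nat.add (f x1833) (Nat.add (f x1841) (Nat.add (f x1843)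
    (Nat.add (f x1847) (Nat.add (f x1849) (Nat.add (f x1851) (Nat.add (f x1855) (Nat.add (f x1857)
    (Nat.add (f x1871) (Nat.add (f x1877) (Nat.add (f x1879) (Nat.add (f x1883) (Nat.add (f x1885)
    (Nat.add (f x1887) (Nat.add (f x1895) (Nat.add (f x1897) (Nat.add (f x1901) (Nat.add (f x1903)
    (Nat.add (f x1905) (Nat.add (f x1909) (Nat.add (f x1911) (Nat.add (f x1919) (Nat.add (f x1921)
    (Nat.add (f x1923) (Nat.add (f x1927) (Nat.add (f x1929) (Nat.add (f x1935) (Nat.add (f x1961)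
    (Nat.add (f x1967) (Nat.add (f x1969) (Nat.add (f x1979) (Nat.add (f x1985) (Nat.add (f x1987)
    (Nat.add (f x1991) (Nat.add (f x1993) (Nat.add (f x1995) (Nat.add (f x2003) (Nat.add (f x2005)
    (Nat.add (f x2009) (Nat.add (f x2011) (Nat.add (f x2013) (Nat.add (f x2017) (Nat.add (f x2019)
    (Nat.add (f x2033) (Nat.add (f x2039) (Nat.add (f x2041) (Nat.add (f x2045) (Nat.add (f x2047)
    (Nat.add (f x2049) (Nat.add (f x2057) (Nat.add (f x2059) (Nat.add (f x2063)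
    0)))))))))))))))))))))))))))))))))))))))))))))))))))))))))))) (Nat.add (Nat.add (f x2065)
    (Nat.add (f x2067) (Nat.add (f x2071) (Nat.add (f x2073) (Nat.add (f x2081) (Nat.add (f x2083)
    (Nat.add (f x2085) (Nat.add (f x2089) (Nat.add (f x2091) (Nat.add (f x2097) (Nat.add (f x2111)
    (Nat.add (f x2113) (Nat.add (f x2117) (Nat.add (f x2119) (Nat.add (f x2121) (Nat.add (f x2125)
    (Nat.add (f x2127) (Nat.add (f x2135) (Nat.add (f x2137) (Nat.add (f x2139) (Nat.add (f x2143)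
    (Nat.add (f x2145) (Nat.add (f x2151) (Nat.add (f x2161) (Nat.add (f x2163) (Nat.add (f x2169)
    (Nat.add (f x2267) (Nat.add (f x2321) (Nat.add (f x2339) (Nat.add (f x2345) (Nat.add (f x2347)
    (Nat.add (f x2375) (Nat.add (f x2393) (Nat.add (f x2399) (Nat.add (f x2401) (Nat.add (f x2411)
    (Nat.add (f x2417) (Nat.add (f x2419) (Nat.add (f x2423) (Nat.add (f x2425) (Nat.add (f x2427)
    (Nat.add (f x2483) (Nat.add (f x2501) (Nat.add (f x2507) (Nat.add (f x2509) (Nat.add (f x2537)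
    (Nat.add (f x2555) (Nat.add (f x2561) (Nat.add (f x2563) (Nat.add (f x2573) (Nat.add (f x2579)
    (Nat.add (f x2581) (Nat.add (f x2585) (Nat.add (f x2587) (Nat.add (f x2589) (Nat.add (f x2609)
    (Nat.add (f x2615) (Nat.add (f x2617) (Nat.add (f x2627) (Nat.add (f x2633)
    0)))))))))))))))))))))))))))))))))))))))))))))))))))))))))))) (Nat.add (Nat.add (f x2635)
    (Nat.add (f x2639) (Nat.add (f x2641) (Nat.add (f x2643) (Nat.add (f x2651) (Nat.add (f x2653)
    (Nat.add (f x2657) (Nat.add (f x2659) (Nat.add (f x2661) (Nat.add (f x2665) (Nat.add (f x2667)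
    (Nat.add (f x2699) (Nat.add (f x2717) (Nat.add (f x2723) (Nat.add (f x2725) (Nat.add (f x2735)
    (Nat.add (f x2741) (Nat.add (f x2743) (Nat.add (f x2747) (Nat.add (f x2749) (Nat.add (f x2751)
    (Nat.add (f x2771) (Nat.add (f x2777) (Nat.add (f x2779) (Nat.add (f x2789) (Nat.add (f x2795)
    (Nat.add (f x2797) (Nat.add (f x2801) (Nat.add (f x2803) (Nat.add (f x2805) (Nat.add (f x2813)
    (Nat.add (f x2815) (Nat.add (f x2819) (Nat.add (f x2821) (Nat.add (f x2823) (Nat.add (f x2827)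
    (Nat.add (f x2829) (Nat.add (f x2843) (Nat.add (f x2849) (Nat.add (f x2851) (Nat.add (f x2855)
    (Nat.add (f x2857) (Nat.add (f x2859) (Nat.add (f x2867) (Nat.add (f x2869) (Nat.add (f x2873)
    (Nat.add (f x2875) (Nat.add (f x2877) (Nat.add (f x2881) (Nat.add (f x2883) (Nat.add (f x2891)
    (Nat.add (f x2893) (Nat.add (f x2895) (Nat.add (f x2899) (Nat.add (f x2901) (Nat.add (f x2907)
    (Nat.add (f x2969) (Nat.add (f x2987) (Nat.add (f x2993) (Nat.add (f x2995)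
    0)))))))))))))))))))))))))))))))))))))))))))))))))))))))))))) (Nat.add (Nat.add (f x3023)
    (Nat.add (f x3041) (Nat.add (f x3047) (Nat.add (f x3049) (Nat.add (f x3059) (Nat.add (f x3065)
    (Nat.add (f x3067) (Nat.add (f x3071) (Nat.add (f x3073) (Nat.add (f x3075) (Nat.add (f x3095)
    (Nat.add (f x3101) (Nat.add (f x3103) (Nat.add (f x3113) (Nat.add (f x3119) (Nat.add (f x3121)
    (Nat.add (f x3125) (Nat.add (f x3127) (Nat.add (f x3129) (Nat.add (f x3137) (Nat.add (f x3139)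
    (Nat.add (f x3143) (Nat.add (f x3145) (Nat.add (f x3147) (Nat.add (f x3151) (Nat.add (f x3153)
    (Nat.add (f x3185) (Nat.add (f x3203) (Nat.add (f x3209) (Nat.add (f x3211) (Nat.add (f x3221)
    (Nat.add (f x3227) (Nat.add (f x3229) (Nat.add (f x3233) (Nat.add (f x3235) (Nat.add (f x3237)
    (Nat.add (f x3257) (Nat.add (f x3263) (Nat.add (f x3265) (Nat.add (f x3275) (Nat.add (f x3281)
    (Nat.add (f x3283) (Nat.add (f x3287) (Nat.add (f x3289) (Nat.add (f x3291) (Nat.add (f x3299)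
    (Nat.add (f x3301) (Nat.add (f x3305) (Nat.add (f x3307) (Nat.add (f x3309) (Nat.add (f x3313)
    (Nat.add (f x3315) (Nat.add (f x3329) (Nat.add (f x3335) (Nat.add (f x3337) (Nat.add (f x3341)
    (Nat.add (f x3343) (Nat.add (f x3345) (Nat.add (f x3353) (Nat.add (f x3355)
    0)))))))))))))))))))))))))))))))))))))))))))))))))))))))))))) (Nat.add (Nat.add (f x3359)
    (Nat.add (f x3361) (Nat.add (f x3363) (Nat.add (f x3367) (Nat.add (f x3369) (Nat.add (f x3377)
    (Nat.add (f x3379) (Nat.add (f x3381) (Nat.add (f x3385) (Nat.add (f x3387) (Nat.add (f x3393)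
    (Nat.add (f x3419) (Nat.add (f x3425) (Nat.add (f x3427) (Nat.add (f x3437) (Nat.add (f x3443)
    (Nat.add (f x3445) (Nat.add (f x3449) (Nat.add (f x3451) (Nat.add (f x3453) (Nat.add (f x3461)
    (Nat.add (f x3463) (Nat.add (f x3467) (Nat.add (f x3469) (Nat.add (f x3471) (Nat.add (f x3475)
    (Nat.add (f x3477) (Nat.add (f x3491) (Nat.add (f x3497) (Nat.add (f x3499) (Nat.add (f x3503)
    (Nat.add (f x3505) (Nat.add (f x3507) (Nat.add (f x3515) (Nat.add (f x3517) (Nat.add (f x3521)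
    (Nat.add (f x3523) (Nat.add (f x3525) (Nat.add (f x3529) (Nat.add (f x3531) (Nat.add (f x3539)
    (Nat.add (f x3541) (Nat.add (f x3543) (Nat.add (f x3547) (Nat.add (f x3549) (Nat.add (f x3555)
    (Nat.add (f x3569) (Nat.add (f x3571) (Nat.add (f x3575) (Nat.add (f x3577) (Nat.add (f x3579)
    (Nat.add (f x3583) (Nat.add (f x3585) (Nat.add (f x3593) (Nat.add (f x3595) (Nat.add (f x3597)
    (Nat.add (f x3601) (Nat.add (f x3603) (Nat.add (f x3609) (Nat.add (f x3619)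
    0)))))))))))))))))))))))))))))))))))))))))))))))))))))))))))) (Nat.add (Nat.add (f x3621)
    (Nat.add (f x3627) (Nat.add (f x3671) (Nat.add (f x3689) (Nat.add (f x3695) (Nat.add (f x3697)
    (Nat.add (f x3707) (Nat.add (f x3713) (Nat.add (f x3715) (Nat.add (f x3719) (Nat.add (f x3721)
    (Nat.add (f x3723) (Nat.add (f x3743) (Nat.add (f x3749) (Nat.add (f x3751) (Nat.add (f x3761)
    (Nat.add (f x3767) (Nat.add (f x3769) (Nat.add (f x3773) (Nat.add (f x3775) (Nat.add (f x3777)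
    (Nat.add (f x3785) (Nat.add (f x3787) (Nat.add (f x3791) (Nat.add (f x3793) (Nat.add (f x3795)
    (Nat.add (f x3799) (Nat.add (f x3801) (Nat.add (f x3815) (Nat.add (f x3821) (Nat.add (f x3823)
    (Nat.add (f x3827) (Nat.add (f x3829) (Nat.add (f x3831) (Nat.add (f x3839) (Nat.add (f x3841)
    (Nat.add (f x3845) (Nat.add (f x3847) (Nat.add (f x3849) (Nat.add (f x3853) (Nat.add (f x3855)
    (Nat.add (f x3863) (Nat.add (f x3865) (Nat.add (f x3867) (Nat.add (f x3871) (Nat.add (f x3873)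
    (Nat.add (f x3879) (Nat.add (f x3905) (Nat.add (f x3911) (Nat.add (f x3913) (Nat.add (f x3923)
    (Nat.add (f x3929) (Nat.add (f x3931) (Nat.add (f x3935) (Nat.add (f x3937) (Nat.add (f x3939)
    (Nat.add (f x3947) (Nat.add (f x3949) (Nat.add (f x3953) (Nat.add (f x3955)
    0)))))))))))))))))))))))))))))))))))))))))))))))))))))))))))) (Nat.add (Nat.add (f x3957)
    (Nat.add (f x3961) (Nat.add (f x3963) (Nat.add (f x3977) (Nat.add (f x3983) (Nat.add (f x3985)
    (Nat.add (f x3989) (Nat.add (f x3991) (Nat.add (f x3993) (Nat.add (f x4001) (Nat.add (f x4003)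
    (Nat.add (f x4007) (Nat.add (f x4009) (Nat.add (f x4011) (Nat.add (f x4015) (Nat.add (f x4017)
    (Nat.add (f x4025) (Nat.add (f x4027) (Nat.add (f x4029) (Nat.add (f x4033) (Nat.add (f x4035)
    (Nat.add (f x4041) (Nat.add (f x4055) (Nat.add (f x4057) (Nat.add (f x4061) (Nat.add (f x4063)
    (Nat.add (f x4065) (Nat.add (f x4069) (Nat.add (f x4071) (Nat.add (f x4079) (Nat.add (f x4081)
    (Nat.add (f x4083) (Nat.add (f x4087) (Nat.add (f x4089) (Nat.add (f x4095) (Nat.add (f x4105)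
    (Nat.add (f x4107) (Nat.add (f x4113) (Nat.add (f x4139) (Nat.add (f x4145) (Nat.add (f x4147)
    (Nat.add (f x4151) (Nat.add (f x4153) (Nat.add (f x4155) (Nat.add (f x4163) (Nat.add (f x4165)
    (Nat.add (f x4169) (Nat.add (f x4171) (Nat.add (f x4173) (Nat.add (f x4177) (Nat.add (f x4179)
    (Nat.add (f x4187) (Nat.add (f x4189) (Nat.add (f x4191) (Nat.add (f x4195) (Nat.add (f x4197)
    (Nat.add (f x4203) (Nat.add (f x4217) (Nat.add (f x4219) (Nat.add (f x4223)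
    0)))))))))))))))))))))))))))))))))))))))))))))))))))))))))))) (Nat.add (Nat.add (f x4225)
    (Nat.add (f x4227) (Nat.add (f x4231) (Nat.add (f x4233) (Nat.add (f x4241) (Nat.add (f x4243)
    (Nat.add (f x4245) (Nat.add (f x4249) (Nat.add (f x4251) (Nat.add (f x4257) (Nat.add (f x4267)
    (Nat.add (f x4269) (Nat.add (f x4275) (Nat.add (f x4295) (Nat.add (f x4297) (Nat.add (f x4299)
    (Nat.add (f x4303) (Nat.add (f x4305) (Nat.add (f x4311) (Nat.add (f x4321) (Nat.add (f x4323)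
    (Nat.add (f x4329) (Nat.add (f x4347) (Nat.add (f x4427) (Nat.add (f x4445) (Nat.add (f x4451)
    (Nat.add (f x4453) (Nat.add (f x4481) (Nat.add (f x4499) (Nat.add (f x4505) (Nat.add (f x4507)
    (Nat.add (f x4517) (Nat.add (f x4523) (Nat.add (f x4525) (Nat.add (f x4529) (Nat.add (f x4531)
    (Nat.add (f x4533) (Nat.add (f x4553) (Nat.add (f x4559) (Nat.add (f x4561) (Nat.add (f x4571)
    (Nat.add (f x4577) (Nat.add (f x4579) (Nat.add (f x4583) (Nat.add (f x4585) (Nat.add (f x4587)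
    (Nat.add (f x4595) (Nat.add (f x4597) (Nat.add (f x4601) (Nat.add (f x4603) (Nat.add (f x4605)
    (Nat.add (f x4609) (Nat.add (f x4611) (Nat.add (f x4643) (Nat.add (f x4661) (Nat.add (f x4667)
    (Nat.add (f x4669) (Nat.add (f x4679) (Nat.add (f x4685) (Nat.add (f x4687)
    0)))))))))))))))))))))))))))))))))))))))))))))))))))))))))))) (Nat.add (Nat.add (f x4691)
    (Nat.add (f x4693) (Nat.add (f x4695) (Nat.add (f x4715) (Nat.add (f x4721) (Nat.add (f x4723)
    (Nat.add (f x4733) (Nat.add (f x4739) (Nat.add (f x4741) (Nat.add (f x4745) (Nat.add (f x4747)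
    (Nat.add (f x4749) (Nat.add (f x4757) (Nat.add (f x4759) (Nat.add (f x4763) (Nat.add (f x4765)
    (Nat.add (f x4767) (Nat.add (f x4771) (Nat.add (f x4773) (Nat.add (f x4787) (Nat.add (f x4793)
    (Nat.add (f x4795) (Nat.add (f x4799) (Nat.add (f x4801) (Nat.add (f x4803) (Nat.add (f x4811)
    (Nat.add (f x4813) (Nat.add (f x4817) (Nat.add (f x4819) (Nat.add (f x4821) (Nat.add (f x4825)
    (Nat.add (f x4827) (Nat.add (f x4835) (Nat.add (f x4837) (Nat.add (f x4839) (Nat.add (f x4843)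
    (Nat.add (f x4845) (Nat.add (f x4851) (Nat.add (f x4877) (Nat.add (f x4883) (Nat.add (f x4885)
    (Nat.add (f x4895) (Nat.add (f x4901) (Nat.add (f x4903) (Nat.add (f x4907) (Nat.add (f x4909)
    (Nat.add (f x4911) (Nat.add (f x4919) (Nat.add (f x4921) (Nat.add (f x4925) (Nat.add (f x4927)
    (Nat.add (f x4929) (Nat.add (f x4933) (Nat.add (f x4935) (Nat.add (f x4949) (Nat.add (f x4955)
    (Nat.add (f x4957) (Nat.add (f x4961) (Nat.add (f x4963) (Nat.add (f x4965)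
    0)))))))))))))))))))))))))))))))))))))))))))))))))))))))))))) (Nat.add (Nat.add (f x4973)
    (Nat.add (f x4975) (Nat.add (f x4979) (Nat.add (f x4981) (Nat.add (f x4983) (Nat.add (f x4987)
    (Nat.add (f x4989) (Nat.add (f x4997) (Nat.add (f x4999) (Nat.add (f x5001) (Nat.add (f x5005)
    (Nat.add (f x5007) (Nat.add (f x5013) (Nat.add (f x5027) (Nat.add (f x5029) (Nat.add (f x5033)
    (Nat.add (f x5035) (Nat.add (f x5037) (Nat.add (f x5041) (Nat.add (f x5043) (Nat.add (f x5051)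
    (Nat.add (f x5053) (Nat.add (f x5055) (Nat.add (f x5059) (Nat.add (f x5061) (Nat.add (f x5067)
    (Nat.add (f x5077) (Nat.add (f x5079) (Nat.add (f x5085) (Nat.add (f x5129) (Nat.add (f x5147)
    (Nat.add (f x5153) (Nat.add (f x5155) (Nat.add (f x5165) (Nat.add (f x5171) (Nat.add (f x5173)
    (Nat.add (f x5177) (Nat.add (f x5179) (Nat.add (f x5181) (Nat.add (f x5201) (Nat.add (f x5207)
    (Nat.add (f x5209) (Nat.add (f x5219) (Nat.add (f x5225) (Nat.add (f x5227) (Nat.add (f x5231)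
    (Nat.add (f x5233) (Nat.add (f x5235) (Nat.add (f x5243) (Nat.add (f x5245) (Nat.add (f x5249)
    (Nat.add (f x5251) (Nat.add (f x5253) (Nat.add (f x5257) (Nat.add (f x5259) (Nat.add (f x5273)
    (Nat.add (f x5279) (Nat.add (f x5281) (Nat.add (f x5285) (Nat.add (f x5287)
    0)))))))))))))))))))))))))))))))))))))))))))))))))))))))))))) (Nat.add (Nat.add (f x5289)
    (Nat.add (f x5297) (Nat.add (f x5299) (Nat.add (f x5303) (Nat.add (f x5305) (Nat.add (f x5307)
    (Nat.add (f x5311) (Nat.add (f x5313) (Nat.add (f x5321) (Nat.add (f x5323) (Nat.add (f x5325)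
    (Nat.add (f x5329) (Nat.add (f x5331) (Nat.add (f x5337) (Nat.add (f x5363) (Nat.add (f x5369)
    (Nat.add (f x5371) (Nat.add (f x5381) (Nat.add (f x5387) (Nat.add (f x5389) (Nat.add (f x5393)
    (Nat.add (f x5395) (Nat.add (f x5397) (Nat.add (f x5405) (Nat.add (f x5407) (Nat.add (f x5411)
    (Nat.add (f x5413) (Nat.add (f x5415) (Nat.add (f x5419) (Nat.add (f x5421) (Nat.add (f x5435)
    (Nat.add (f x5441) (Nat.add (f x5443) (Nat.add (f x5447) (Nat.add (f x5449) (Nat.add (f x5451)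
    (Nat.add (f x5459) (Nat.add (f x5461) (Nat.add (f x5465) (Nat.add (f x5467) (Nat.add (f x5469)
    (Nat.add (f x5473) (Nat.add (f x5475) (Nat.add (f x5483) (Nat.add (f x5485) (Nat.add (f x5487)
    (Nat.add (f x5491) (Nat.add (f x5493) (Nat.add (f x5499) (Nat.add (f x5513) (Nat.add (f x5515)
    (Nat.add (f x5519) (Nat.add (f x5521) (Nat.add (f x5523) (Nat.add (f x5527) (Nat.add (f x5529)
    (Nat.add (f x5537) (Nat.add (f x5539) (Nat.add (f x5541) (Nat.add (f x5545)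
    0)))))))))))))))))))))))))))))))))))))))))))))))))))))))))))) (Nat.add (Nat.add (f x5547)
    (Nat.add (f x5553) (Nat.add (f x5563) (Nat.add (f x5565) (Nat.add (f x5571) (Nat.add (f x5597)
    (Nat.add (f x5603) (Nat.add (f x5605) (Nat.add (f x5609) (Nat.add (f x5611) (Nat.add (f x5613)
    (Nat.add (f x5621) (Nat.add (f x5623) (Nat.add (f x5627) (Nat.add (f x5629) (Nat.add (f x5631)
    (Nat.add (f x5635) (Nat.add (f x5637) (Nat.add (f x5645) (Nat.add (f x5647) (Nat.add (f x5649)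
    (Nat.add (f x5653) (Nat.add (f x5655) (Nat.add (f x5661) (Nat.add (f x5675) (Nat.add (f x5677)
    (Nat.add (f x5681) (Nat.add (f x5683) (Nat.add (f x5685) (Nat.add (f x5689) (Nat.add (f x5691)
    (Nat.add (f x5699) (Nat.add (f x5701) (Nat.add (f x5703) (Nat.add (f x5707) (Nat.add (f x5709)
    (Nat.add (f x5715) (Nat.add (f x5725) (Nat.add (f x5727) (Nat.add (f x5733) (Nat.add (f x5753)
    (Nat.add (f x5755) (Nat.add (f x5757) (Nat.add (f x5761) (Nat.add (f x5763) (Nat.add (f x5769)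
    (Nat.add (f x5779) (Nat.add (f x5781) (Nat.add (f x5787) (Nat.add (f x5805) (Nat.add (f x5849)
    (Nat.add (f x5855) (Nat.add (f x5857) (Nat.add (f x5867) (Nat.add (f x5873) (Nat.add (f x5875)
    (Nat.add (f x5879) (Nat.add (f x5881) (Nat.add (f x5883) (Nat.add (f x5891)
    0)))))))))))))))))))))))))))))))))))))))))))))))))))))))))))) (Nat.add (Nat.add (f x5893)
    (Nat.add (f x5897) (Nat.add (f x5899) (Nat.add (f x5901) (Nat.add (f x5905) (Nat.add (f x5907)
    (Nat.add (f x5921) (Nat.add (f x5927) (Nat.add (f x5929) (Nat.add (f x5933) (Nat.add (f x5935)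
    (Nat.add (f x5937) (Nat.add (f x5945) (Nat.add (f x5947) (Nat.add (f x5951) (Nat.add (f x5953)
    (Nat.add (f x5955) (Nat.add (f x5959) (Nat.add (f x5961) (Nat.add (f x5969) (Nat.add (f x5971)
    (Nat.add (f x5973) (Nat.add (f x5977) (Nat.add (f x5979) (Nat.add (f x5985) (Nat.add (f x5999)
    (Nat.add (f x6001) (Nat.add (f x6005) (Nat.add (f x6007) (Nat.add (f x6009) (Nat.add (f x6013)
    (Nat.add (f x6015) (Nat.add (f x6023) (Nat.add (f x6025) (Nat.add (f x6027) (Nat.add (f x6031)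
    (Nat.add (f x6033) (Nat.add (f x6039) (Nat.add (f x6049) (Nat.add (f x6051) (Nat.add (f x6057)
    (Nat.add (f x6083) (Nat.add (f x6089) (Nat.add (f x6091) (Nat.add (f x6095) (Nat.add (f x6097)
    (Nat.add (f x6099) (Nat.add (f x6107) (Nat.add (f x6109) (Nat.add (f x6113) (Nat.add (f x6115)
    (Nat.add (f x6117) (Nat.add (f x6121) (Nat.add (f x6123) (Nat.add (f x6131) (Nat.add (f x6133)
    (Nat.add (f x6135) (Nat.add (f x6139) (Nat.add (f x6141) (Nat.add (f x6147)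
    0)))))))))))))))))))))))))))))))))))))))))))))))))))))))))))) (Nat.add (Nat.add (f x6161)
    (Nat.add (f x6163) (Nat.add (f x6167) (Nat.add (f x6169) (Nat.add (f x6171) (Nat.add (f x6175)
    (Nat.add (f x6177) (Nat.add (f x6185) (Nat.add (f x6187) (Nat.add (f x6189) (Nat.add (f x6193)
    (Nat.add (f x6195) (Nat.add (f x6201) (Nat.add (f x6211) (Nat.add (f x6213) (Nat.add (f x6219)
    (Nat.add (f x6239) (Nat.add (f x6241) (Nat.add (f x6243) (Nat.add (f x6247) (Nat.add (f x6249)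
    (Nat.add (f x6255) (Nat.add (f x6265) (Nat.add (f x6267) (Nat.add (f x6273) (Nat.add (f x6291)
    (Nat.add (f x6323) (Nat.add (f x6325) (Nat.add (f x6329) (Nat.add (f x6331) (Nat.add (f x6333)
    (Nat.add (f x6337) (Nat.add (f x6339) (Nat.add (f x6347) (Nat.add (f x6349) (Nat.add (f x6351)
    (Nat.add (f x6355) (Nat.add (f x6357) (Nat.add (f x6363) (Nat.add (f x6373) (Nat.add (f x6375)
    (Nat.add (f x6381) (Nat.add (f x6401) (Nat.add (f x6403) (Nat.add (f x6405) (Nat.add (f x6409)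
    (Nat.add (f x6411) (Nat.add (f x6417) (Nat.add (f x6427) (Nat.add (f x6429) (Nat.add (f x6435)
    (Nat.add (f x6453) (Nat.add (f x6481) (Nat.add (f x6483) (Nat.add (f x6489) (Nat.add (f x6507)
    (Nat.add (f x6641) (Nat.add (f x6695) (Nat.add (f x6713) (Nat.add (f x6719)
    0)))))))))))))))))))))))))))))))))))))))))))))))))))))))))))) (Nat.add (Nat.add (f x6721)
    (Nat.add (f x6749) (Nat.add (f x6767) (Nat.add (f x6773) (Nat.add (f x6775) (Nat.add (f x6785)
    (Nat.add (f x6791) (Nat.add (f x6793) (Nat.add (f x6797) (Nat.add (f x6799) (Nat.add (f x6801)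
    (Nat.add (f x6857) (Nat.add (f x6875) (Nat.add (f x6881) (Nat.add (f x6883) (Nat.add (f x6911)
    (Nat.add (f x6929) (Nat.add (f x6935) (Nat.add (f x6937) (Nat.add (f x6947) (Nat.add (f x6953)
    (Nat.add (f x6955) (Nat.add (f x6959) (Nat.add (f x6961) (Nat.add (f x6963) (Nat.add (f x6983)
    (Nat.add (f x6989) (Nat.add (f x6991) (Nat.add (f x7001) (Nat.add (f x7007) (Nat.add (f x7009)
    (Nat.add (f x7013) (Nat.add (f x7015) (Nat.add (f x7017) (Nat.add (f x7025) (Nat.add (f x7027)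
    (Nat.add (f x7031) (Nat.add (f x7033) (Nat.add (f x7035) (Nat.add (f x7039) (Nat.add (f x7041)
    (Nat.add (f x7073) (Nat.add (f x7091) (Nat.add (f x7097) (Nat.add (f x7099) (Nat.add (f x7109)
    (Nat.add (f x7115) (Nat.add (f x7117) (Nat.add (f x7121) (Nat.add (f x7123) (Nat.add (f x7125)
    (Nat.add (f x7145) (Nat.add (f x7151) (Nat.add (f x7153) (Nat.add (f x7163) (Nat.add (f x7169)
    (Nat.add (f x7171) (Nat.add (f x7175) (Nat.add (f x7177) (Nat.add (f x7179)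
    0)))))))))))))))))))))))))))))))))))))))))))))))))))))))))))) (Nat.add (Nat.add (f x7187)
    (Nat.add (f x7189) (Nat.add (f x7193) (Nat.add (f x7195) (Nat.add (f x7197) (Nat.add (f x7201)
    (Nat.add (f x7203) (Nat.add (f x7217) (Nat.add (f x7223) (Nat.add (f x7225) (Nat.add (f x7229)
    (Nat.add (f x7231) (Nat.add (f x7233) (Nat.add (f x7241) (Nat.add (f x7243) (Nat.add (f x7247)
    (Nat.add (f x7249) (Nat.add (f x7251) (Nat.add (f x7255) (Nat.add (f x7257) (Nat.add (f x7265)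
    (Nat.add (f x7267) (Nat.add (f x7269) (Nat.add (f x7273) (Nat.add (f x7275) (Nat.add (f x7281)
    (Nat.add (f x7343) (Nat.add (f x7361) (Nat.add (f x7367) (Nat.add (f x7369) (Nat.add (f x7397)
    (Nat.add (f x7415) (Nat.add (f x7421) (Nat.add (f x7423) (Nat.add (f x7433) (Nat.add (f x7439)
    (Nat.add (f x7441) (Nat.add (f x7445) (Nat.add (f x7447) (Nat.add (f x7449) (Nat.add (f x7469)
    (Nat.add (f x7475) (Nat.add (f x7477) (Nat.add (f x7487) (Nat.add (f x7493) (Nat.add (f x7495)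
    (Nat.add (f x7499) (Nat.add (f x7501) (Nat.add (f x7503) (Nat.add (f x7511) (Nat.add (f x7513)
    (Nat.add (f x7517) (Nat.add (f x7519) (Nat.add (f x7521) (Nat.add (f x7525) (Nat.add (f x7527)
    (Nat.add (f x7559) (Nat.add (f x7577) (Nat.add (f x7583) (Nat.add (f x7585)
    0)))))))))))))))))))))))))))))))))))))))))))))))))))))))))))) (Nat.add (Nat.add (f x7595)
    (Nat.add (f x7601) (Nat.add (f x7603) (Nat.add (f x7607) (Nat.add (f x7609) (Nat.add (f x7611)
    (Nat.add (f x7631) (Nat.add (f x7637) (Nat.add (f x7639) (Nat.add (f x7649) (Nat.add (f x7655)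
    (Nat.add (f x7657) (Nat.add (f x7661) (Nat.add (f x7663) (Nat.add (f x7665) (Nat.add (f x7673)
    (Nat.add (f x7675) (Nat.add (f x7679) (Nat.add (f x7681) (Nat.add (f x7683) (Nat.add (f x7687)
    (Nat.add (f x7689) (Nat.add (f x7703) (Nat.add (f x7709) (Nat.add (f x7711) (Nat.add (f x7715)
    (Nat.add (f x7717) (Nat.add (f x7719) (Nat.add (f x7727) (Nat.add (f x7729) (Nat.add (f x7733)
    (Nat.add (f x7735) (Nat.add (f x7737) (Nat.add (f x7741) (Nat.add (f x7743) (Nat.add (f x7751)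
    (Nat.add (f x7753) (Nat.add (f x7755) (Nat.add (f x7759) (Nat.add (f x7761) (Nat.add (f x7767)
    (Nat.add (f x7793) (Nat.add (f x7799) (Nat.add (f x7801) (Nat.add (f x7811) (Nat.add (f x7817)
    (Nat.add (f x7819) (Nat.add (f x7823) (Nat.add (f x7825) (Nat.add (f x7827) (Nat.add (f x7835)
    (Nat.add (f x7837) (Nat.add (f x7841) (Nat.add (f x7843) (Nat.add (f x7845) (Nat.add (f x7849)
    (Nat.add (f x7851) (Nat.add (f x7865) (Nat.add (f x7871) (Nat.add (f x7873)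
    0)))))))))))))))))))))))))))))))))))))))))))))))))))))))))))) (Nat.add (Nat.add (f x7877)
    (Nat.add (f x7879) (Nat.add (f x7881) (Nat.add (f x7889) (Nat.add (f x7891) (Nat.add (f x7895)
    (Nat.add (f x7897) (Nat.add (f x7899) (Nat.add (f x7903) (Nat.add (f x7905) (Nat.add (f x7913)
    (Nat.add (f x7915) (Nat.add (f x7917) (Nat.add (f x7921) (Nat.add (f x7923) (Nat.add (f x7929)
    (Nat.add (f x7943) (Nat.add (f x7945) (Nat.add (f x7949) (Nat.add (f x7951) (Nat.add (f x7953)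
    (Nat.add (f x7957) (Nat.add (f x7959) (Nat.add (f x7967) (Nat.add (f x7969) (Nat.add (f x7971)
    (Nat.add (f x7975) (Nat.add (f x7977) (Nat.add (f x7983) (Nat.add (f x7993) (Nat.add (f x7995)
    (Nat.add (f x8001) (Nat.add (f x8045) (Nat.add (f x8063) (Nat.add (f x8069) (Nat.add (f x8071)
    (Nat.add (f x8081) (Nat.add (f x8087) (Nat.add (f x8089) (Nat.add (f x8093) (Nat.add (f x8095)
    (Nat.add (f x8097) (Nat.add (f x8117) (Nat.add (f x8123) (Nat.add (f x8125) (Nat.add (f x8135)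
    (Nat.add (f x8141) (Nat.add (f x8143) (Nat.add (f x8147) (Nat.add (f x8149) (Nat.add (f x8151)
    (Nat.add (f x8159) (Nat.add (f x8161) (Nat.add (f x8165) (Nat.add (f x8167) (Nat.add (f x8169)
    (Nat.add (f x8173) (Nat.add (f x8175) (Nat.add (f x8189) (Nat.add (f x8195)
    0)))))))))))))))))))))))))))))))))))))))))))))))))))))))))))) (Nat.add (Nat.add (f x8197)
    (Nat.add (f x8201) (Nat.add (f x8203) (Nat.add (f x8205) (Nat.add (f x8213) (Nat.add (f x8215)
    (Nat.add (f x8219) (Nat.add (f x8221) (Nat.add (f x8223) (Nat.add (f x8227) (Nat.add (f x8229)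
    (Nat.add (f x8237) (Nat.add (f x8239) (Nat.add (f x8241) (Nat.add (f x8245) (Nat.add (f x8247)
    (Nat.add (f x8253) (Nat.add (f x8279) (Nat.add (f x8285) (Nat.add (f x8287) (Nat.add (f x8297)
    (Nat.add (f x8303) (Nat.add (f x8305) (Nat.add (f x8309) (Nat.add (f x8311) (Nat.add (f x8313)
    (Nat.add (f x8321) (Nat.add (f x8323) (Nat.add (f x8327) (Nat.add (f x8329) (Nat.add (f x8331)
    (Nat.add (f x8335) (Nat.add (f x8337) (Nat.add (f x8351) (Nat.add (f x8357) (Nat.add (f x8359)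
    (Nat.add (f x8363) (Nat.add (f x8365) (Nat.add (f x8367) (Nat.add (f x8375) (Nat.add (f x8377)
    (Nat.add (f x8381) (Nat.add (f x8383) (Nat.add (f x8385) (Nat.add (f x8389) (Nat.add (f x8391)
    (Nat.add (f x8399) (Nat.add (f x8401) (Nat.add (f x8403) (Nat.add (f x8407) (Nat.add (f x8409)
    (Nat.add (f x8415) (Nat.add (f x8429) (Nat.add (f x8431) (Nat.add (f x8435) (Nat.add (f x8437)
    (Nat.add (f x8439) (Nat.add (f x8443) (Nat.add (f x8445) (Nat.add (f x8453)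
    0)))))))))))))))))))))))))))))))))))))))))))))))))))))))))))) (Nat.add (Nat.add (f x8455)
    (Nat.add (f x8457) (Nat.add (f x8461) (Nat.add (f x8463) (Nat.add (f x8469) (Nat.add (f x8479)
    (Nat.add (f x8481) (Nat.add (f x8487) (Nat.add (f x8513) (Nat.add (f x8519) (Nat.add (f x8521)
    (Nat.add (f x8525) (Nat.add (f x8527) (Nat.add (f x8529) (Nat.add (f x8537) (Nat.add (f x8539)
    (Nat.add (f x8543) (Nat.add (f x8545) (Nat.add (f x8547) (Nat.add (f x8551) (Nat.add (f x8553)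
    (Nat.add (f x8561) (Nat.add (f x8563) (Nat.add (f x8565) (Nat.add (f x8569) (Nat.add (f x8571)
    (Nat.add (f x8577) (Nat.add (f x8591) (Nat.add (f x8593) (Nat.add (f x8597) (Nat.add (f x8599)
    (Nat.add (f x8601) (Nat.add (f x8605) (Nat.add (f x8607) (Nat.add (f x8615) (Nat.add (f x8617)
    (Nat.add (f x8619) (Nat.add (f x8623) (Nat.add (f x8625) (Nat.add (f x8631) (Nat.add (f x8641)
    (Nat.add (f x8643) (Nat.add (f x8649) (Nat.add (f x8669) (Nat.add (f x8671) (Nat.add (f x8673)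
    (Nat.add (f x8677) (Nat.add (f x8679) (Nat.add (f x8685) (Nat.add (f x8695) (Nat.add (f x8697)
    (Nat.add (f x8703) (Nat.add (f x8721) (Nat.add (f x8801) (Nat.add (f x8819) (Nat.add (f x8825)
    (Nat.add (f x8827) (Nat.add (f x8855) (Nat.add (f x8873) (Nat.add (f x8879)
    0)))))))))))))))))))))))))))))))))))))))))))))))))))))))))))) (Nat.add (Nat.add (f x8881)
    (Nat.add (f x8891) (Nat.add (f x8897) (Nat.add (f x8899) (Nat.add (f x8903) (Nat.add (f x8905)
    (Nat.add (f x8907) (Nat.add (f x8927) (Nat.add (f x8933) (Nat.add (f x8935) (Nat.add (f x8945)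
    (Nat.add (f x8951) (Nat.add (f x8953) (Nat.add (f x8957) (Nat.add (f x8959) (Nat.add (f x8961)
    (Nat.add (f x8969) (Nat.add (f x8971) (Nat.add (f x8975) (Nat.add (f x8977) (Nat.add (f x8979)
    (Nat.add (f x8983) (Nat.add (f x8985) (Nat.add (f x9017) (Nat.add (f x9035) (Nat.add (f x9041)
    (Nat.add (f x9043) (Nat.add (f x9053) (Nat.add (f x9059) (Nat.add (f x9061) (Nat.add (f x9065)
    (Nat.add (f x9067) (Nat.add (f x9069) (Nat.add (f x9089) (Nat.add (f x9095) (Nat.add (f x9097)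
    (Nat.add (f x9107) (Nat.add (f x9113) (Nat.add (f x9115) (Nat.add (f x9119) (Nat.add (f x9121)
    (Nat.add (f x9123) (Nat.add (f x9131) (Nat.add (f x9133) (Nat.add (f x9137) (Nat.add (f x9139)
    (Nat.add (f x9141) (Nat.add (f x9145) (Nat.add (f x9147) (Nat.add (f x9161) (Nat.add (f x9167)
    (Nat.add (f x9169) (Nat.add (f x9173) (Nat.add (f x9175) (Nat.add (f x9177) (Nat.add (f x9185)
    (Nat.add (f x9187) (Nat.add (f x9191) (Nat.add (f x9193) (Nat.add (f x9195)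
    0)))))))))))))))))))))))))))))))))))))))))))))))))))))))))))) (Nat.add (Nat.add (f x9199)
    (Nat.add (f x9201) (Nat.add (f x9209) (Nat.add (f x9211) (Nat.add (f x9213) (Nat.add (f x9217)
    (Nat.add (f x9219) (Nat.add (f x9225) (Nat.add (f x9251) (Nat.add (f x9257) (Nat.add (f x9259)
    (Nat.add (f x9269) (Nat.add (f x9275) (Nat.add (f x9277) (Nat.add (f x9281) (Nat.add (f x9283)
    (Nat.add (f x9285) (Nat.add (f x9293) (Nat.add (f x9295) (Nat.add (f x9299) (Nat.add (f x9301)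
    (Nat.add (f x9303) (Nat.add (f x9307) (Nat.add (f x9309) (Nat.add (f x9323) (Nat.add (f x9329)
    (Nat.add (f x9331) (Nat.add (f x9335) (Nat.add (f x9337) (Nat.add (f x9339) (Nat.add (f x9347)
    (Nat.add (f x9349) (Nat.add (f x9353) (Nat.add (f x9355) (Nat.add (f x9357) (Nat.add (f x9361)
    (Nat.add (f x9363) (Nat.add (f x9371) (Nat.add (f x9373) (Nat.add (f x9375) (Nat.add (f x9379)
    (Nat.add (f x9381) (Nat.add (f x9387) (Nat.add (f x9401) (Nat.add (f x9403) (Nat.add (f x9407)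
    (Nat.add (f x9409) (Nat.add (f x9411) (Nat.add (f x9415) (Nat.add (f x9417) (Nat.add (f x9425)
    (Nat.add (f x9427) (Nat.add (f x9429) (Nat.add (f x9433) (Nat.add (f x9435) (Nat.add (f x9441)
    (Nat.add (f x9451) (Nat.add (f x9453) (Nat.add (f x9459) (Nat.add (f x9503)
    0)))))))))))))))))))))))))))))))))))))))))))))))))))))))))))) (Nat.add (Nat.add (f x9521)
    (Nat.add (f x9527) (Nat.add (f x9529) (Nat.add (f x9539) (Nat.add (f x9545) (Nat.add (f x9547)
    (Nat.add (f x9551) (Nat.add (f x9553) (Nat.add (f x9555) (Nat.add (f x9575) (Nat.add (f x9581)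
    (Nat.add (f x9583) (Nat.add (f x9593) (Nat.add (f x9599) (Nat.add (f x9601) (Nat.add (f x9605)
    (Nat.add (f x9607) (Nat.add (f x9609) (Nat.add (f x9617) (Nat.add (f x9619) (Nat.add (f x9623)
    (Nat.add (f x9625) (Nat.add (f x9627) (Nat.add (f x9631) (Nat.add (f x9633) (Nat.add (f x9647)
    (Nat.add (f x9653) (Nat.add (f x9655) (Nat.add (f x9659) (Nat.add (f x9661) (Nat.add (f x9663)
    (Nat.add (f x9671) (Nat.add (f x9673) (Nat.add (f x9677) (Nat.add (f x9679) (Nat.add (f x9681)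
    (Nat.add (f x9685) (Nat.add (f x9687) (Nat.add (f x9695) (Nat.add (f x9697) (Nat.add (f x9699)
    (Nat.add (f x9703) (Nat.add (f x9705) (Nat.add (f x9711) (Nat.add (f x9737) (Nat.add (f x9743)
    (Nat.add (f x9745) (Nat.add (f x9755) (Nat.add (f x9761) (Nat.add (f x9763) (Nat.add (f x9767)
    (Nat.add (f x9769) (Nat.add (f x9771) (Nat.add (f x9779) (Nat.add (f x9781) (Nat.add (f x9785)
    (Nat.add (f x9787) (Nat.add (f x9789) (Nat.add (f x9793) (Nat.add (f x9795)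
    0)))))))))))))))))))))))))))))))))))))))))))))))))))))))))))) (Nat.add (Nat.add (f x9809)
    (Nat.add (f x9815) (Nat.add (f x9817) (Nat.add (f x9821) (Nat.add (f x9823) (Nat.add (f x9825)
    (Nat.add (f x9833) (Nat.add (f x9835) (Nat.add (f x9839) (Nat.add (f x9841) (Nat.add (f x9843)
    (Nat.add (f x9847) (Nat.add (f x9849) (Nat.add (f x9857) (Nat.add (f x9859) (Nat.add (f x9861)
    (Nat.add (f x9865) (Nat.add (f x9867) (Nat.add (f x9873) (Nat.add (f x9887) (Nat.add (f x9889)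
    (Nat.add (f x9893) (Nat.add (f x9895) (Nat.add (f x9897) (Nat.add (f x9901) (Nat.add (f x9903)
    (Nat.add (f x9911) (Nat.add (f x9913) (Nat.add (f x9915) (Nat.add (f x9919) (Nat.add (f x9921)
    (Nat.add (f x9927) (Nat.add (f x9937) (Nat.add (f x9939) (Nat.add (f x9945) (Nat.add (f x9971)
    (Nat.add (f x9977) (Nat.add (f x9979) (Nat.add (f x9983) (Nat.add (f x9985) (Nat.add (f x9987)
    (Nat.add (f x9995) (Nat.add (f x9997) (Nat.add (f x10001) (Nat.add (f x10003) (Nat.add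
    (f x10005) (Nat.add (f x10009) (Nat.add (f x10011) (Nat.add (f x10019) (Nat.add (f x10021)
    (Nat.add (f x10023) (Nat.add (f x10027) (Nat.add (f x10029) (Nat.add (f x10035) (Nat.add
    (f x10049) (Nat.add (f x10051) (Nat.add (f x10055) (Nat.add (f x10057) (Nat.add (f x10059)
    (Nat.add (f x10063) 0)))))))))))))))))))))))))))))))))))))))))))))))))))))))))))) (Nat.add
    (Nat.add (f x10065) (Nat.add (f x10073) (Nat.add (f x10075) (Nat.add (f x10077) (Nat.add
    (f x10081) (Nat.add (f x10083) (Nat.add (f x10089) (Nat.add (f x10099) (Nat.add (f x10101)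
    (Nat.add (f x10107) (Nat.add (f x10127) (Nat.add (f x10129) (Nat.add (f x10131) (Nat.add
    (f x10135) (Nat.add (f x10137) (Nat.add (f x10143) (Nat.add (f x10153) (Nat.add (f x10155)
    (Nat.add (f x10161) (Nat.add (f x10179) (Nat.add (f x10223) (Nat.add (f x10229) (Nat.add
    (f x10231) (Nat.add (f x10241) (Nat.add (f x10247) (Nat.add (f x10249) (Nat.add (f x10253)
    (Nat.add (f x10255) (Nat.add (f x10257) (Nat.add (f x10265) (Nat.add (f x10267) (Nat.add
    (f x10271) (Nat.add (f x10273) (Nat.add (f x10275) (Nat.add (f x10279) (Nat.add (f x10281)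
    (Nat.add (f x10295) (Nat.add (f x10301) (Nat.add (f x10303) (Nat.add (f x10307) (Nat.add
    (f x10309) (Nat.add (f x10311) (Nat.add (f x10319) (Nat.add (f x10321) (Nat.add (f x10325)
    (Nat.add (f x10327) (Nat.add (f x10329) (Nat.add (f x10333) (Nat.add (f x10335) (Nat.add
    (f x10343) (Nat.add (f x10345) (Nat.add (f x10347) (Nat.add (f x10351) (Nat.add (f x10353)
    (Nat.add (f x10359) (Nat.add (f x10373) (Nat.add (f x10375) (Nat.add (f x10379) (Nat.add
    (f x10381) (Nat.add (f x10383) 0))))))))))))))))))))))))))))))))))))))))))))))))))))))))))))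
    (Nat.add (Nat.add (f x10387) (Nat.add (f x10389) (Nat.add (f x10397) (Nat.add (f x10399)
    (Nat.add (f x10401) (Nat.add (f x10405) (Nat.add (f x10407) (Nat.add (f x10413) (Nat.add
    (f x10423) (Nat.add (f x10425) (Nat.add (f x10431) (Nat.add (f x10457) (Nat.add (f x10463)
    (Nat.add (f x10465) (Nat.add (f x10469) (Nat.add (f x10471) (Nat.add (f x10473) (Nat.add
    (f x10481) (Nat.add (f x10483) (Nat.add (f x10487) (Nat.add (f x10489) (Nat.add (f x10491)
    (Nat.add (f x10495) (Nat.add (f x10497) (Nat.add (f x10505) (Nat.add (f x10507) (Nat.add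
    (f x10509) (Nat.add (f x10513) (Nat.add (f x10515) (Nat.add (f x10521) (Nat.add (f x10535)
    (Nat.add (f x10537) (Nat.add (f x10541) (Nat.add (f x10543) (Nat.add (f x10545) (Nat.add
    (f x10549) (Nat.add (f x10551) (Nat.add (f x10559) (Nat.add (f x10561) (Nat.add (f x10563)
    (Nat.add (f x10567) (Nat.add (f x10569) (Nat.add (f x10575) (Nat.add (f x10585) (Nat.add
    (f x10587) (Nat.add (f x10593) (Nat.add (f x10613) (Nat.add (f x10615) (Nat.add (f x10617)
    (Nat.add (f x10621) (Nat.add (f x10623) (Nat.add (f x10629) (Nat.add (f x10639) (Nat.add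
    (f x10641) (Nat.add (f x10647) (Nat.add (f x10665) (Nat.add (f x10697) (Nat.add (f x10699)
    (Nat.add (f x10703) (Nat.add (f x10705)
    0)))))))))))))))))))))))))))))))))))))))))))))))))))))))))))) (Nat.add (Nat.add (f x10707)
    (Nat.add (f x10711) (Nat.add (f x10713) (Nat.add (f x10721) (Nat.add (f x10723) (Nat.add
    (f x10725) (Nat.add (f x10729) (Nat.add (f x10731) (Nat.add (f x10737) (Nat.add (f x10747)
    (Nat.add (f x10749) (Nat.add (f x10755) (Nat.add (f x10775) (Nat.add (f x10777) (Nat.add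
    (f x10779) (Nat.add (f x10783) (Nat.add (f x10785) (Nat.add (f x10791) (Nat.add (f x10801)
    (Nat.add (f x10803) (Nat.add (f x10809) (Nat.add (f x10827) (Nat.add (f x10855) (Nat.add
    (f x10857) (Nat.add (f x10863) (Nat.add (f x10881) (Nat.add (f x10961) (Nat.add (f x10979)
    (Nat.add (f x10985) (Nat.add (f x10987) (Nat.add (f x10997) (Nat.add (f x11003) (Nat.add
    (f x11005) (Nat.add (f x11009) (Nat.add (f x11011) (Nat.add (f x11013) (Nat.add (f x11033)
    (Nat.add (f x11039) (Nat.add (f x11041) (Nat.add (f x11051) (Nat.add (f x11057) (Nat.add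
    (f x11059) (Nat.add (f x11063) (Nat.add (f x11065) (Nat.add (f x11067) (Nat.add (f x11075)
    (Nat.add (f x11077) (Nat.add (f x11081) (Nat.add (f x11083) (Nat.add (f x11085) (Nat.add
    (f x11089) (Nat.add (f x11091) (Nat.add (f x11105) (Nat.add (f x11111) (Nat.add (f x11113)
    (Nat.add (f x11117) (Nat.add (f x11119) (Nat.add (f x11121) (Nat.add (f x11129) (Nat.add
    (f x11131) 0)))))))))))))))))))))))))))))))))))))))))))))))))))))))))))) (Nat.add (Nat.add
    (f x11135) (Nat.add (f x11137) (Nat.add (f x11139) (Nat.add (f x11143) (Nat.add (f x11145)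
    (Nat.add (f x11153) (Nat.add (f x11155) (Nat.add (f x11157) (Nat.add (f x11161) (Nat.add
    (f x11163) (Nat.add (f x11169) (Nat.add (f x11195) (Nat.add (f x11201) (Nat.add (f x11203)
    (Nat.add (f x11213) (Nat.add (f x11219) (Nat.add (f x11221) (Nat.add (f x11225) (Nat.add
    (f x11227) (Nat.add (f x11229) (Nat.add (f x11237) (Nat.add (f x11239) (Nat.add (f x11243)
    (Nat.add (f x11245) (Nat.add (f x11247) (Nat.add (f x11251) (Nat.add (f x11253) (Nat.add
    (f x11267) (Nat.add (f x11273) (Nat.add (f x11275) (Nat.add (f x11279) (Nat.add (f x11281)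
    (Nat.add (f x11283) (Nat.add (f x11291) (Nat.add (f x11293) (Nat.add (f x11297) (Nat.add
    (f x11299) (Nat.add (f x11301) (Nat.add (f x11305) (Nat.add (f x11307) (Nat.add (f x11315)
    (Nat.add (f x11317) (Nat.add (f x11319) (Nat.add (f x11323) (Nat.add (f x11325) (Nat.add
    (f x11331) (Nat.add (f x11345) (Nat.add (f x11347) (Nat.add (f x11351) (Nat.add (f x11353)
    (Nat.add (f x11355) (Nat.add (f x11359) (Nat.add (f x11361) (Nat.add (f x11369) (Nat.add
    (f x11371) (Nat.add (f x11373) (Nat.add (f x11377) (Nat.add (f x11379) (Nat.add (f x11385)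
    (Nat.add (f x11395) 0)))))))))))))))))))))))))))))))))))))))))))))))))))))))))))) (Nat.add
    (Nat.add (f x11397) (Nat.add (f x11403) (Nat.add (f x11429) (Nat.add (f x11435) (Nat.add
    (f x11437) (Nat.add (f x11441) (Nat.add (f x11443) (Nat.add (f x11445) (Nat.add (f x11453)
    (Nat.add (f x11455) (Nat.add (f x11459) (Nat.add (f x11461) (Nat.add (f x11463) (Nat.add
    (f x11467) (Nat.add (f x11469) (Nat.add (f x11477) (Nat.add (f x11479) (Nat.add (f x11481)
    (Nat.add (f x11485) (Nat.add (f x11487) (Nat.add (f x11493) (Nat.add (f x11507) (Nat.add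
    (f x11509) (Nat.add (f x11513) (Nat.add (f x11515) (Nat.add (f x11517) (Nat.add (f x11521)
    (Nat.add (f x11523) (Nat.add (f x11531) (Nat.add (f x11533) (Nat.add (f x11535) (Nat.add
    (f x11539) (Nat.add (f x11541) (Nat.add (f x11547) (Nat.add (f x11557) (Nat.add (f x11559)
    (Nat.add (f x11565) (Nat.add (f x11585) (Nat.add (f x11587) (Nat.add (f x11589) (Nat.add
    (f x11593) (Nat.add (f x11595) (Nat.add (f x11601) (Nat.add (f x11611) (Nat.add (f x11613)
    (Nat.add (f x11619) (Nat.add (f x11637) (Nat.add (f x11681) (Nat.add (f x11687) (Nat.add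
    (f x11689) (Nat.add (f x11699) (Nat.add (f x11705) (Nat.add (f x11707) (Nat.add (f x11711)
    (Nat.add (f x11713) (Nat.add (f x11715) (Nat.add (f x11723) (Nat.add (f x11725) (Nat.add
    (f x11729) (Nat.add (f x11731) 0))))))))))))))))))))))))))))))))))))))))))))))))))))))))))))
    (Nat.add (Nat.add (f x11733) (Nat.add (f x11737) (Nat.add (f x11739) (Nat.add (f x11753)
    (Nat.add (f x11759) (Nat.add (f x11761) (Nat.add (f x11765) (Nat.add (f x11767) (Nat.add
    (f x11769) (Nat.add (f x11777) (Nat.add (f x11779) (Nat.add (f x11783) (Nat.add (f x11785)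
    (Nat.add (f x11787) (Nat.add (f x11791) (Nat.add (f x11793) (Nat.add (f x11801) (Nat.add
    (f x11803) (Nat.add (f x11805) (Nat.add (f x11809) (Nat.add (f x11811) (Nat.add (f x11817)
    (Nat.add (f x11831) (Nat.add (f x11833) (Nat.add (f x11837) (Nat.add (f x11839) (Nat.add
    (f x11841) (Nat.add (f x11845) (Nat.add (f x11847) (Nat.add (f x11855) (Nat.add (f x11857)
    (Nat.add (f x11859) (Nat.add (f x11863) (Nat.add (f x11865) (Nat.add (f x11871) (Nat.add
    (f x11881) (Nat.add (f x11883) (Nat.add (f x11889) (Nat.add (f x11915) (Nat.add (f x11921)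
    (Nat.add (f x11923) (Nat.add (f x11927) (Nat.add (f x11929) (Nat.add (f x11931) (Nat.add
    (f x11939) (Nat.add (f x11941) (Nat.add (f x11945) (Nat.add (f x11947) (Nat.add (f x11949)
    (Nat.add (f x11953) (Nat.add (f x11955) (Nat.add (f x11963) (Nat.add (f x11965) (Nat.add
    (f x11967) (Nat.add (f x11971) (Nat.add (f x11973) (Nat.add (f x11979) (Nat.add (f x11993)
    (Nat.add (f x11995) (Nat.add (f x11999)
    0)))))))))))))))))))))))))))))))))))))))))))))))))))))))))))) (Nat.add (Nat.add (f x12001)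
    (Nat.add (f x12003) (Nat.add (f x12007) (Nat.add (f x12009) (Nat.add (f x12017) (Nat.add
    (f x12019) (Nat.add (f x12021) (Nat.add (f x12025) (Nat.add (f x12027) (Nat.add (f x12033)
    (Nat.add (f x12043) (Nat.add (f x12045) (Nat.add (f x12051) (Nat.add (f x12071) (Nat.add
    (f x12073) (Nat.add (f x12075) (Nat.add (f x12079) (Nat.add (f x12081) (Nat.add (f x12087)
    (Nat.add (f x12097) (Nat.add (f x12099) (Nat.add (f x12105) (Nat.add (f x12123) (Nat.add
    (f x12155) (Nat.add (f x12157) (Nat.add (f x12161) (Nat.add (f x12163) (Nat.add (f x12165)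
    (Nat.add (f x12169) (Nat.add (f x12171) (Nat.add (f x12179) (Nat.add (f x12181) (Nat.add
    (f x12183) (Nat.add (f x12187) (Nat.add (f x12189) (Nat.add (f x12195) (Nat.add (f x12205)
    (Nat.add (f x12207) (Nat.add (f x12213) (Nat.add (f x12233) (Nat.add (f x12235) (Nat.add
    (f x12237) (Nat.add (f x12241) (Nat.add (f x12243) (Nat.add (f x12249) (Nat.add (f x12259)
    (Nat.add (f x12261) (Nat.add (f x12267) (Nat.add (f x12285) (Nat.add (f x12313) (Nat.add
    (f x12315) (Nat.add (f x12321) (Nat.add (f x12339) (Nat.add (f x12401) (Nat.add (f x12407)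
    (Nat.add (f x12409) (Nat.add (f x12413) (Nat.add (f x12415) (Nat.add (f x12417) (Nat.add
    (f x12425) 0)))))))))))))))))))))))))))))))))))))))))))))))))))))))))))) (Nat.add (Nat.add
    (f x12427) (Nat.add (f x12431) (Nat.add (f x12433) (Nat.add (f x12435) (Nat.add (f x12439)
    (Nat.add (f x12441) (Nat.add (f x12449) (Nat.add (f x12451) (Nat.add (f x12453) (Nat.add
    (f x12457) (Nat.add (f x12459) (Nat.add (f x12465) (Nat.add (f x12479) (Nat.add (f x12481)
    (Nat.add (f x12485) (Nat.add (f x12487) (Nat.add (f x12489) (Nat.add (f x12493) (Nat.add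
    (f x12495) (Nat.add (f x12503) (Nat.add (f x12505) (Nat.add (f x12507) (Nat.add (f x12511)
    (Nat.add (f x12513) (Nat.add (f x12519) (Nat.add (f x12529) (Nat.add (f x12531) (Nat.add
    (f x12537) (Nat.add (f x12557) (Nat.add (f x12559) (Nat.add (f x12561) (Nat.add (f x12565)
    (Nat.add (f x12567) (Nat.add (f x12573) (Nat.add (f x12583) (Nat.add (f x12585) (Nat.add
    (f x12591) (Nat.add (f x12609) (Nat.add (f x12641) (Nat.add (f x12643) (Nat.add (f x12647)
    (Nat.add (f x12649) (Nat.add (f x12651) (Nat.add (f x12655) (Nat.add (f x12657) (Nat.add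
    (f x12665) (Nat.add (f x12667) (Nat.add (f x12669) (Nat.add (f x12673) (Nat.add (f x12675)
    (Nat.add (f x12681) (Nat.add (f x12691) (Nat.add (f x12693) (Nat.add (f x12699) (Nat.add
    (f x12719) (Nat.add (f x12721) (Nat.add (f x12723) (Nat.add (f x12727) (Nat.add (f x12729)
    (Nat.add (f x12735) 0)))))))))))))))))))))))))))))))))))))))))))))))))))))))))))) (Nat.add
    (Nat.add (f x12745) (Nat.add (f x12747) (Nat.add (f x12753) (Nat.add (f x12771) (Nat.add
    (f x12799) (Nat.add (f x12801) (Nat.add (f x12807) (Nat.add (f x12825) (Nat.add (f x12881)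
    (Nat.add (f x12883) (Nat.add (f x12885) (Nat.add (f x12889) (Nat.add (f x12891) (Nat.add
    (f x12897) (Nat.add (f x12907) (Nat.add (f x12909) (Nat.add (f x12915) (Nat.add (f x12933)
    (Nat.add (f x12961) (Nat.add (f x12963) (Nat.add (f x12969) (Nat.add (f x12987) (Nat.add
    (f x13041) (Nat.add (f x13175) (Nat.add (f x13193) (Nat.add (f x13199) (Nat.add (f x13201)
    (Nat.add (f x13229) (Nat.add (f x13247) (Nat.add (f x13253) (Nat.add (f x13255) (Nat.add
    (f x13265) (Nat.add (f x13271) (Nat.add (f x13273) (Nat.add (f x13277) (Nat.add (f x13279)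
    (Nat.add (f x13281) (Nat.add (f x13301) (Nat.add (f x13307) (Nat.add (f x13309) (Nat.add
    (f x13319) (Nat.add (f x13325) (Nat.add (f x13327) (Nat.add (f x13331) (Nat.add (f x13333)
    (Nat.add (f x13335) (Nat.add (f x13343) (Nat.add (f x13345) (Nat.add (f x13349) (Nat.add
    (f x13351) (Nat.add (f x13353) (Nat.add (f x13357) (Nat.add (f x13359) (Nat.add (f x13391)
    (Nat.add (f x13409) (Nat.add (f x13415) (Nat.add (f x13417) (Nat.add (f x13427) (Nat.add
    (f x13433) (Nat.add (f x13435) 0))))))))))))))))))))))))))))))))))))))))))))))))))))))))))))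
    (Nat.add (Nat.add (f x13439) (Nat.add (f x13441) (Nat.add (f x13443) (Nat.add (f x13463)
    (Nat.add (f x13469) (Nat.add (f x13471) (Nat.add (f x13481) (Nat.add (f x13487) (Nat.add
    (f x13489) (Nat.add (f x13493) (Nat.add (f x13495) (Nat.add (f x13497) (Nat.add (f x13505)
    (Nat.add (f x13507) (Nat.add (f x13511) (Nat.add (f x13513) (Nat.add (f x13515) (Nat.add
    (f x13519) (Nat.add (f x13521) (Nat.add (f x13535) (Nat.add (f x13541) (Nat.add (f x13543)
    (Nat.add (f x13547) (Nat.add (f x13549) (Nat.add (f x13551) (Nat.add (f x13559) (Nat.add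
    (f x13561) (Nat.add (f x13565) (Nat.add (f x13567) (Nat.add (f x13569) (Nat.add (f x13573)
    (Nat.add (f x13575) (Nat.add (f x13583) (Nat.add (f x13585) (Nat.add (f x13587) (Nat.add
    (f x13591) (Nat.add (f x13593) (Nat.add (f x13599) (Nat.add (f x13625) (Nat.add (f x13631)
    (Nat.add (f x13633) (Nat.add (f x13643) (Nat.add (f x13649) (Nat.add (f x13651) (Nat.add
    (f x13655) (Nat.add (f x13657) (Nat.add (f x13659) (Nat.add (f x13667) (Nat.add (f x13669)
    (Nat.add (f x13673) (Nat.add (f x13675) (Nat.add (f x13677) (Nat.add (f x13681) (Nat.add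
    (f x13683) (Nat.add (f x13697) (Nat.add (f x13703) (Nat.add (f x13705) (Nat.add (f x13709)
    (Nat.add (f x13711) (Nat.add (f x13713)
    0)))))))))))))))))))))))))))))))))))))))))))))))))))))))))))) (Nat.add (Nat.add (f x13721)
    (Nat.add (f x13723) (Nat.add (f x13727) (Nat.add (f x13729) (Nat.add (f x13731) (Nat.add
    (f x13735) (Nat.add (f x13737) (Nat.add (f x13745) (Nat.add (f x13747) (Nat.add (f x13749)
    (Nat.add (f x13753) (Nat.add (f x13755) (Nat.add (f x13761) (Nat.add (f x13775) (Nat.add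
    (f x13777) (Nat.add (f x13781) (Nat.add (f x13783) (Nat.add (f x13785) (Nat.add (f x13789)
    (Nat.add (f x13791) (Nat.add (f x13799) (Nat.add (f x13801) (Nat.add (f x13803) (Nat.add
    (f x13807) (Nat.add (f x13809) (Nat.add (f x13815) (Nat.add (f x13825) (Nat.add (f x13827)
    (Nat.add (f x13833) (Nat.add (f x13877) (Nat.add (f x13895) (Nat.add (f x13901) (Nat.add
    (f x13903) (Nat.add (f x13913) (Nat.add (f x13919) (Nat.add (f x13921) (Nat.add (f x13925)
    (Nat.add (f x13927) (Nat.add (f x13929) (Nat.add (f x13949) (Nat.add (f x13955) (Nat.add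
    (f x13957) (Nat.add (f x13967) (Nat.add (f x13973) (Nat.add (f x13975) (Nat.add (f x13979)
    (Nat.add (f x13981) (Nat.add (f x13983) (Nat.add (f x13991) (Nat.add (f x13993) (Nat.add
    (f x13997) (Nat.add (f x13999) (Nat.add (f x14001) (Nat.add (f x14005) (Nat.add (f x14007)
    (Nat.add (f x14021) (Nat.add (f x14027) (Nat.add (f x14029) (Nat.add (f x14033) (Nat.add
    (f x14035) 0)))))))))))))))))))))))))))))))))))))))))))))))))))))))))))) (Nat.add (Nat.add
    (f x14037) (Nat.add (f x14045) (Nat.add (f x14047) (Nat.add (f x14051) (Nat.add (f x14053)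
    (Nat.add (f x14055) (Nat.add (f x14059) (Nat.add (f x14061) (Nat.add (f x14069) (Nat.add
    (f x14071) (Nat.add (f x14073) (Nat.add (f x14077) (Nat.add (f x14079) (Nat.add (f x14085)
    (Nat.add (f x14111) (Nat.add (f x14117) (Nat.add (f x14119) (Nat.add (f x14129) (Nat.add
    (f x14135) (Nat.add (f x14137) (Nat.add (f x14141) (Nat.add (f x14143) (Nat.add (f x14145)
    (Nat.add (f x14153) (Nat.add (f x14155) (Nat.add (f x14159) (Nat.add (f x14161) (Nat.add
    (f x14163) (Nat.add (f x14167) (Nat.add (f x14169) (Nat.add (f x14183) (Nat.add (f x14189)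
    (Nat.add (f x14191) (Nat.add (f x14195) (Nat.add (f x14197) (Nat.add (f x14199) (Nat.add
    (f x14207) (Nat.add (f x14209) (Nat.add (f x14213) (Nat.add (f x14215) (Nat.add (f x14217)
    (Nat.add (f x14221) (Nat.add (f x14223) (Nat.add (f x14231) (Nat.add (f x14233) (Nat.add
    (f x14235) (Nat.add (f x14239) (Nat.add (f x14241) (Nat.add (f x14247) (Nat.add (f x14261)
    (Nat.add (f x14263) (Nat.add (f x14267) (Nat.add (f x14269) (Nat.add (f x14271) (Nat.add
    (f x14275) (Nat.add (f x14277) (Nat.add (f x14285) (Nat.add (f x14287) (Nat.add (f x14289)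
    (Nat.add (f x14293) 0)))))))))))))))))))))))))))))))))))))))))))))))))))))))))))) (Nat.add
    (Nat.add (f x14295) (Nat.add (f x14301) (Nat.add (f x14311) (Nat.add (f x14313) (Nat.add
    (f x14319) (Nat.add (f x14345) (Nat.add (f x14351) (Nat.add (f x14353) (Nat.add (f x14357)
    (Nat.add (f x14359) (Nat.add (f x14361) (Nat.add (f x14369) (Nat.add (f x14371) (Nat.add
    (f x14375) (Nat.add (f x14377) (Nat.add (f x14379) (Nat.add (f x14383) (Nat.add (f x14385)
    (Nat.add (f x14393) (Nat.add (f x14395) (Nat.add (f x14397) (Nat.add (f x14401) (Nat.add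
    (f x14403) (Nat.add (f x14409) (Nat.add (f x14423) (Nat.add (f x14425) (Nat.add (f x14429)
    (Nat.add (f x14431) (Nat.add (f x14433) (Nat.add (f x14437) (Nat.add (f x14439) (Nat.add
    (f x14447) (Nat.add (f x14449) (Nat.add (f x14451) (Nat.add (f x14455) (Nat.add (f x14457)
    (Nat.add (f x14463) (Nat.add (f x14473) (Nat.add (f x14475) (Nat.add (f x14481) (Nat.add
    (f x14501) (Nat.add (f x14503) (Nat.add (f x14505) (Nat.add (f x14509) (Nat.add (f x14511)
    (Nat.add (f x14517) (Nat.add (f x14527) (Nat.add (f x14529) (Nat.add (f x14535) (Nat.add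
    (f x14553) (Nat.add (f x14597) (Nat.add (f x14603) (Nat.add (f x14605) (Nat.add (f x14615)
    (Nat.add (f x14621) (Nat.add (f x14623) (Nat.add (f x14627) (Nat.add (f x14629) (Nat.add
    (f x14631) (Nat.add (f x14639) 0))))))))))))))))))))))))))))))))))))))))))))))))))))))))))))
    (Nat.add (Nat.add (f x14641) (Nat.add (f x14645) (Nat.add (f x14647) (Nat.add (f x14649)
    (Nat.add (f x14653) (Nat.add (f x14655) (Nat.add (f x14669) (Nat.add (f x14675) (Nat.add
    (f x14677) (Nat.add (f x14681) (Nat.add (f x14683) (Nat.add (f x14685) (Nat.add (f x14693)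
    (Nat.add (f x14695) (Nat.add (f x14699) (Nat.add (f x14701) (Nat.add (f x14703) (Nat.add
    (f x14707) (Nat.add (f x14709) (Nat.add (f x14717) (Nat.add (f x14719) (Nat.add (f x14721)
    (Nat.add (f x14725) (Nat.add (f x14727) (Nat.add (f x14733) (Nat.add (f x14747) (Nat.add
    (f x14749) (Nat.add (f x14753) (Nat.add (f x14755) (Nat.add (f x14757) (Nat.add (f x14761)
    (Nat.add (f x14763) (Nat.add (f x14771) (Nat.add (f x14773) (Nat.add (f x14775) (Nat.add
    (f x14779) (Nat.add (f x14781) (Nat.add (f x14787) (Nat.add (f x14797) (Nat.add (f x14799)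
    (Nat.add (f x14805) (Nat.add (f x14831) (Nat.add (f x14837) (Nat.add (f x14839) (Nat.add
    (f x14843) (Nat.add (f x14845) (Nat.add (f x14847) (Nat.add (f x14855) (Nat.add (f x14857)
    (Nat.add (f x14861) (Nat.add (f x14863) (Nat.add (f x14865) (Nat.add (f x14869) (Nat.add
    (f x14871) (Nat.add (f x14879) (Nat.add (f x14881) (Nat.add (f x14883) (Nat.add (f x14887)
    (Nat.add (f x14889) (Nat.add (f x14895)
    0)))))))))))))))))))))))))))))))))))))))))))))))))))))))))))) (Nat.add (Nat.add (f x14909)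
    (Nat.add (f x14911) (Nat.add (f x14915) (Nat.add (f x14917) (Nat.add (f x14919) (Nat.add
    (f x14923) (Nat.add (f x14925) (Nat.add (f x14933) (Nat.add (f x14935) (Nat.add (f x14937)
    (Nat.add (f x14941) (Nat.add (f x14943) (Nat.add (f x14949) (Nat.add (f x14959) (Nat.add
    (f x14961) (Nat.add (f x14967) (Nat.add (f x14987) (Nat.add (f x14989) (Nat.add (f x14991)
    (Nat.add (f x14995) (Nat.add (f x14997) (Nat.add (f x15003) (Nat.add (f x15013) (Nat.add
    (f x15015) (Nat.add (f x15021) (Nat.add (f x15039) (Nat.add (f x15071) (Nat.add (f x15073)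
    (Nat.add (f x15077) (Nat.add (f x15079) (Nat.add (f x15081) (Nat.add (f x15085) (Nat.add
    (f x15087) (Nat.add (f x15095) (Nat.add (f x15097) (Nat.add (f x15099) (Nat.add (f x15103)
    (Nat.add (f x15105) (Nat.add (f x15111) (Nat.add (f x15121) (Nat.add (f x15123) (Nat.add
    (f x15129) (Nat.add (f x15149) (Nat.add (f x15151) (Nat.add (f x15153) (Nat.add (f x15157)
    (Nat.add (f x15159) (Nat.add (f x15165) (Nat.add (f x15175) (Nat.add (f x15177) (Nat.add
    (f x15183) (Nat.add (f x15201) (Nat.add (f x15229) (Nat.add (f x15231) (Nat.add (f x15237)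
    (Nat.add (f x15255) (Nat.add (f x15335) (Nat.add (f x15353) (Nat.add (f x15359) (Nat.add
    (f x15361) 0)))))))))))))))))))))))))))))))))))))))))))))))))))))))))))) (Nat.add (Nat.add
    (f x15371) (Nat.add (f x15377) (Nat.add (f x15379) (Nat.add (f x15383) (Nat.add (f x15385)
    (Nat.add (f x15387) (Nat.add (f x15407) (Nat.add (f x15413) (Nat.add (f x15415) (Nat.add
    (f x15425) (Nat.add (f x15431) (Nat.add (f x15433) (Nat.add (f x15437) (Nat.add (f x15439)
    (Nat.add (f x15441) (Nat.add (f x15449) (Nat.add (f x15451) (Nat.add (f x15455) (Nat.add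
    (f x15457) (Nat.add (f x15459) (Nat.add (f x15463) (Nat.add (f x15465) (Nat.add (f x15479)
    (Nat.add (f x15485) (Nat.add (f x15487) (Nat.add (f x15491) (Nat.add (f x15493) (Nat.add
    (f x15495) (Nat.add (f x15503) (Nat.add (f x15505) (Nat.add (f x15509) (Nat.add (f x15511)
    (Nat.add (f x15513) (Nat.add (f x15517) (Nat.add (f x15519) (Nat.add (f x15527) (Nat.add
    (f x15529) (Nat.add (f x15531) (Nat.add (f x15535) (Nat.add (f x15537) (Nat.add (f x15543)
    (Nat.add (f x15569) (Nat.add (f x15575) (Nat.add (f x15577) (Nat.add (f x15587) (Nat.add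
    (f x15593) (Nat.add (f x15595) (Nat.add (f x15599) (Nat.add (f x15601) (Nat.add (f x15603)
    (Nat.add (f x15611) (Nat.add (f x15613) (Nat.add (f x15617) (Nat.add (f x15619) (Nat.add
    (f x15621) (Nat.add (f x15625) (Nat.add (f x15627) (Nat.add (f x15641) (Nat.add (f x15647)
    (Nat.add (f x15649) 0)))))))))))))))))))))))))))))))))))))))))))))))))))))))))))) (Nat.add
    (Nat.add (f x15653) (Nat.add (f x15655) (Nat.add (f x15657) (Nat.add (f x15665) (Nat.add
    (f x15667) (Nat.add (f x15671) (Nat.add (f x15673) (Nat.add (f x15675) (Nat.add (f x15679)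
    (Nat.add (f x15681) (Nat.add (f x15689) (Nat.add (f x15691) (Nat.add (f x15693) (Nat.add
    (f x15697) (Nat.add (f x15699) (Nat.add (f x15705) (Nat.add (f x15719) (Nat.add (f x15721)
    (Nat.add (f x15725) (Nat.add (f x15727) (Nat.add (f x15729) (Nat.add (f x15733) (Nat.add
    (f x15735) (Nat.add (f x15743) (Nat.add (f x15745) (Nat.add (f x15747) (Nat.add (f x15751)
    (Nat.add (f x15753) (Nat.add (f x15759) (Nat.add (f x15769) (Nat.add (f x15771) (Nat.add
    (f x15777) (Nat.add (f x15803) (Nat.add (f x15809) (Nat.add (f x15811) (Nat.add (f x15815)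
    (Nat.add (f x15817) (Nat.add (f x15819) (Nat.add (f x15827) (Nat.add (f x15829) (Nat.add
    (f x15833) (Nat.add (f x15835) (Nat.add (f x15837) (Nat.add (f x15841) (Nat.add (f x15843)
    (Nat.add (f x15851) (Nat.add (f x15853) (Nat.add (f x15855) (Nat.add (f x15859) (Nat.add
    (f x15861) (Nat.add (f x15867) (Nat.add (f x15881) (Nat.add (f x15883) (Nat.add (f x15887)
    (Nat.add (f x15889) (Nat.add (f x15891) (Nat.add (f x15895) (Nat.add (f x15897) (Nat.add
    (f x15905) (Nat.add (f x15907) 0))))))))))))))))))))))))))))))))))))))))))))))))))))))))))))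
    (Nat.add (Nat.add (f x15909) (Nat.add (f x15913) (Nat.add (f x15915) (Nat.add (f x15921)
    (Nat.add (f x15931) (Nat.add (f x15933) (Nat.add (f x15939) (Nat.add (f x15959) (Nat.add
    (f x15961) (Nat.add (f x15963) (Nat.add (f x15967) (Nat.add (f x15969) (Nat.add (f x15975)
    (Nat.add (f x15985) (Nat.add (f x15987) (Nat.add (f x15993) (Nat.add (f x16011) (Nat.add
    (f x16055) (Nat.add (f x16061) (Nat.add (f x16063) (Nat.add (f x16073) (Nat.add (f x16079)
    (Nat.add (f x16081) (Nat.add (f x16085) (Nat.add (f x16087) (Nat.add (f x16089) (Nat.add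
    (f x16097) (Nat.add (f x16099) (Nat.add (f x16103) (Nat.add (f x16105) (Nat.add (f x16107)
    (Nat.add (f x16111) (Nat.add (f x16113) (Nat.add (f x16127) (Nat.add (f x16133) (Nat.add
    (f x16135) (Nat.add (f x16139) (Nat.add (f x16141) (Nat.add (f x16143) (Nat.add (f x16151)
    (Nat.add (f x16153) (Nat.add (f x16157) (Nat.add (f x16159) (Nat.add (f x16161) (Nat.add
    (f x16165) (Nat.add (f x16167) (Nat.add (f x16175) (Nat.add (f x16177) (Nat.add (f x16179)
    (Nat.add (f x16183) (Nat.add (f x16185) (Nat.add (f x16191) (Nat.add (f x16205) (Nat.add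
    (f x16207) (Nat.add (f x16211) (Nat.add (f x16213) (Nat.add (f x16215) (Nat.add (f x16219)
    (Nat.add (f x16221) (Nat.add (f x16229)
    0)))))))))))))))))))))))))))))))))))))))))))))))))))))))))))) (Nat.add (Nat.add (f x16231)
    (Nat.add (f x16233) (Nat.add (f x16237) (Nat.add (f x16239) (Nat.add (f x16245) (Nat.add
    (f x16255) (Nat.add (f x16257) (Nat.add (f x16263) (Nat.add (f x16289) (Nat.add (f x16295)
    (Nat.add (f x16297) (Nat.add (f x16301) (Nat.add (f x16303) (Nat.add (f x16305) (Nat.add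
    (f x16313) (Nat.add (f x16315) (Nat.add (f x16319) (Nat.add (f x16321) (Nat.add (f x16323)
    (Nat.add (f x16327) (Nat.add (f x16329) (Nat.add (f x16337) (Nat.add (f x16339) (Nat.add
    (f x16341) (Nat.add (f x16345) (Nat.add (f x16347) (Nat.add (f x16353) (Nat.add (f x16367)
    (Nat.add (f x16369) (Nat.add (f x16373) (Nat.add (f x16375) (Nat.add (f x16377) (Nat.add
    (f x16381) (Nat.add (f x16383) (Nat.add (f x16391) (Nat.add (f x16393) (Nat.add (f x16395)
    (Nat.add (f x16399) (Nat.add (f x16401) (Nat.add (f x16407) (Nat.add (f x16417) (Nat.add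
    (f x16419) (Nat.add (f x16425) (Nat.add (f x16445) (Nat.add (f x16447) (Nat.add (f x16449)
    (Nat.add (f x16453) (Nat.add (f x16455) (Nat.add (f x16461) (Nat.add (f x16471) (Nat.add
    (f x16473) (Nat.add (f x16479) (Nat.add (f x16497) (Nat.add (f x16529) (Nat.add (f x16531)
    (Nat.add (f x16535) (Nat.add (f x16537) (Nat.add (f x16539) (Nat.add (f x16543) (Nat.add
    (f x16545) 0)))))))))))))))))))))))))))))))))))))))))))))))))))))))))))) (Nat.add (Nat.add
    (f x16553) (Nat.add (f x16555) (Nat.add (f x16557) (Nat.add (f x16561) (Nat.add (f x16563)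
    (Nat.add (f x16569) (Nat.add (f x16579) (Nat.add (f x16581) (Nat.add (f x16587) (Nat.add
    (f x16607) (Nat.add (f x16609) (Nat.add (f x16611) (Nat.add (f x16615) (Nat.add (f x16617)
    (Nat.add (f x16623) (Nat.add (f x16633) (Nat.add (f x16635) (Nat.add (f x16641) (Nat.add
    (f x16659) (Nat.add (f x16687) (Nat.add (f x16689) (Nat.add (f x16695) (Nat.add (f x16713)
    (Nat.add (f x16775) (Nat.add (f x16781) (Nat.add (f x16783) (Nat.add (f x16787) (Nat.add
    (f x16789) (Nat.add (f x16791) (Nat.add (f x16799) (Nat.add (f x16801) (Nat.add (f x16805)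
    (Nat.add (f x16807) (Nat.add (f x16809) (Nat.add (f x16813) (Nat.add (f x16815) (Nat.add
    (f x16823) (Nat.add (f x16825) (Nat.add (f x16827) (Nat.add (f x16831) (Nat.add (f x16833)
    (Nat.add (f x16839) (Nat.add (f x16853) (Nat.add (f x16855) (Nat.add (f x16859) (Nat.add
    (f x16861) (Nat.add (f x16863) (Nat.add (f x16867) (Nat.add (f x16869) (Nat.add (f x16877)
    (Nat.add (f x16879) (Nat.add (f x16881) (Nat.add (f x16885) (Nat.add (f x16887) (Nat.add
    (f x16893) (Nat.add (f x16903) (Nat.add (f x16905) (Nat.add (f x16911) (Nat.add (f x16931)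
    (Nat.add (f x16933) 0)))))))))))))))))))))))))))))))))))))))))))))))))))))))))))) (Nat.add
    (Nat.add (f x16935) (Nat.add (f x16939) (Nat.add (f x16941) (Nat.add (f x16947) (Nat.add
    (f x16957) (Nat.add (f x16959) (Nat.add (f x16965) (Nat.add (f x16983) (Nat.add (f x17015)
    (Nat.add (f x17017) (Nat.add (f x17021) (Nat.add (f x17023) (Nat.add (f x17025) (Nat.add
    (f x17029) (Nat.add (f x17031) (Nat.add (f x17039) (Nat.add (f x17041) (Nat.add (f x17043)
    (Nat.add (f x17047) (Nat.add (f x17049) (Nat.add (f x17055) (Nat.add (f x17065) (Nat.add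
    (f x17067) (Nat.add (f x17073) (Nat.add (f x17093) (Nat.add (f x17095) (Nat.add (f x17097)
    (Nat.add (f x17101) (Nat.add (f x17103) (Nat.add (f x17109) (Nat.add (f x17119) (Nat.add
    (f x17121) (Nat.add (f x17127) (Nat.add (f x17145) (Nat.add (f x17173) (Nat.add (f x17175)
    (Nat.add (f x17181) (Nat.add (f x17199) (Nat.add (f x17255) (Nat.add (f x17257) (Nat.add
    (f x17259) (Nat.add (f x17263) (Nat.add (f x17265) (Nat.add (f x17271) (Nat.add (f x17281)
    (Nat.add (f x17283) (Nat.add (f x17289) (Nat.add (f x17307) (Nat.add (f x17335) (Nat.add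
    (f x17337) (Nat.add (f x17343) (Nat.add (f x17361) (Nat.add (f x17415) (Nat.add (f x17513)
    (Nat.add (f x17519) (Nat.add (f x17521) (Nat.add (f x17531) (Nat.add (f x17537) (Nat.add
    (f x17539) (Nat.add (f x17543) 0))))))))))))))))))))))))))))))))))))))))))))))))))))))))))))
    (Nat.add (Nat.add (f x17545) (Nat.add (f x17547) (Nat.add (f x17555) (Nat.add (f x17557)
    (Nat.add (f x17561) (Nat.add (f x17563) (Nat.add (f x17565) (Nat.add (f x17569) (Nat.add
    (f x17571) (Nat.add (f x17585) (Nat.add (f x17591) (Nat.add (f x17593) (Nat.add (f x17597)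
    (Nat.add (f x17599) (Nat.add (f x17601) (Nat.add (f x17609) (Nat.add (f x17611) (Nat.add
    (f x17615) (Nat.add (f x17617) (Nat.add (f x17619) (Nat.add (f x17623) (Nat.add (f x17625)
    (Nat.add (f x17633) (Nat.add (f x17635) (Nat.add (f x17637) (Nat.add (f x17641) (Nat.add
    (f x17643) (Nat.add (f x17649) (Nat.add (f x17663) (Nat.add (f x17665) (Nat.add (f x17669)
    (Nat.add (f x17671) (Nat.add (f x17673) (Nat.add (f x17677) (Nat.add (f x17679) (Nat.add
    (f x17687) (Nat.add (f x17689) (Nat.add (f x17691) (Nat.add (f x17695) (Nat.add (f x17697)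
    (Nat.add (f x17703) (Nat.add (f x17713) (Nat.add (f x17715) (Nat.add (f x17721) (Nat.add
    (f x17747) (Nat.add (f x17753) (Nat.add (f x17755) (Nat.add (f x17759) (Nat.add (f x17761)
    (Nat.add (f x17763) (Nat.add (f x17771) (Nat.add (f x17773) (Nat.add (f x17777) (Nat.add
    (f x17779) (Nat.add (f x17781) (Nat.add (f x17785) (Nat.add (f x17787) (Nat.add (f x17795)
    (Nat.add (f x17797) (Nat.add (f x17799)
    0)))))))))))))))))))))))))))))))))))))))))))))))))))))))))))) (Nat.add (Nat.add (f x17803)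
    (Nat.add (f x17805) (Nat.add (f x17811) (Nat.add (f x17825) (Nat.add (f x17827) (Nat.add
    (f x17831) (Nat.add (f x17833) (Nat.add (f x17835) (Nat.add (f x17839) (Nat.add (f x17841)
    (Nat.add (f x17849) (Nat.add (f x17851) (Nat.add (f x17853) (Nat.add (f x17857) (Nat.add
    (f x17859) (Nat.add (f x17865) (Nat.add (f x17875) (Nat.add (f x17877) (Nat.add (f x17883)
    (Nat.add (f x17903) (Nat.add (f x17905) (Nat.add (f x17907) (Nat.add (f x17911) (Nat.add
    (f x17913) (Nat.add (f x17919) (Nat.add (f x17929) (Nat.add (f x17931) (Nat.add (f x17937)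
    (Nat.add (f x17955) (Nat.add (f x17987) (Nat.add (f x17989) (Nat.add (f x17993) (Nat.add
    (f x17995) (Nat.add (f x17997) (Nat.add (f x18001) (Nat.add (f x18003) (Nat.add (f x18011)
    (Nat.add (f x18013) (Nat.add (f x18015) (Nat.add (f x18019) (Nat.add (f x18021) (Nat.add
    (f x18027) (Nat.add (f x18037) (Nat.add (f x18039) (Nat.add (f x18045) (Nat.add (f x18065)
    (Nat.add (f x18067) (Nat.add (f x18069) (Nat.add (f x18073) (Nat.add (f x18075) (Nat.add
    (f x18081) (Nat.add (f x18091) (Nat.add (f x18093) (Nat.add (f x18099) (Nat.add (f x18117)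
    (Nat.add (f x18145) (Nat.add (f x18147) (Nat.add (f x18153) (Nat.add (f x18171) (Nat.add
    (f x18233) 0)))))))))))))))))))))))))))))))))))))))))))))))))))))))))))) (Nat.add (Nat.add
    (f x18239) (Nat.add (f x18241) (Nat.add (f x18245) (Nat.add (f x18247) (Nat.add (f x18249)
    (Nat.add (f x18257) (Nat.add (f x18259) (Nat.add (f x18263) (Nat.add (f x18265) (Nat.add
    (f x18267) (Nat.add (f x18271) (Nat.add (f x18273) (Nat.add (f x18281) (Nat.add (f x18283)
    (Nat.add (f x18285) (Nat.add (f x18289) (Nat.add (f x18291) (Nat.add (f x18297) (Nat.add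
    (f x18311) (Nat.add (f x18313) (Nat.add (f x18317) (Nat.add (f x18319) (Nat.add (f x18321)
    (Nat.add (f x18325) (Nat.add (f x18327) (Nat.add (f x18335) (Nat.add (f x18337) (Nat.add
    (f x18339) (Nat.add (f x18343) (Nat.add (f x18345) (Nat.add (f x18351) (Nat.add (f x18361)
    (Nat.add (f x18363) (Nat.add (f x18369) (Nat.add (f x18389) (Nat.add (f x18391) (Nat.add
    (f x18393) (Nat.add (f x18397) (Nat.add (f x18399) (Nat.add (f x18405) (Nat.add (f x18415)
    (Nat.add (f x18417) (Nat.add (f x18423) (Nat.add (f x18441) (Nat.add (f x18473) (Nat.add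
    (f x18475) (Nat.add (f x18479) (Nat.add (f x18481) (Nat.add (f x18483) (Nat.add (f x18487)
    (Nat.add (f x18489) (Nat.add (f x18497) (Nat.add (f x18499) (Nat.add (f x18501) (Nat.add
    (f x18505) (Nat.add (f x18507) (Nat.add (f x18513) (Nat.add (f x18523) (Nat.add (f x18525)
    (Nat.add (f x18531) 0)))))))))))))))))))))))))))))))))))))))))))))))))))))))))))) (Nat.add
    (Nat.add (f x18551) (Nat.add (f x18553) (Nat.add (f x18555) (Nat.add (f x18559) (Nat.add
    (f x18561) (Nat.add (f x18567) (Nat.add (f x18577) (Nat.add (f x18579) (Nat.add (f x18585)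
    (Nat.add (f x18603) (Nat.add (f x18631) (Nat.add (f x18633) (Nat.add (f x18639) (Nat.add
    (f x18657) (Nat.add (f x18713) (Nat.add (f x18715) (Nat.add (f x18717) (Nat.add (f x18721)
    (Nat.add (f x18723) (Nat.add (f x18729) (Nat.add (f x18739) (Nat.add (f x18741) (Nat.add
    (f x18747) (Nat.add (f x18765) (Nat.add (f x18793) (Nat.add (f x18795) (Nat.add (f x18801)
    (Nat.add (f x18819) (Nat.add (f x18873) (Nat.add (f x18959) (Nat.add (f x18961) (Nat.add
    (f x18965) (Nat.add (f x18967) (Nat.add (f x18969) (Nat.add (f x18973) (Nat.add (f x18975)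
    (Nat.add (f x18983) (Nat.add (f x18985) (Nat.add (f x18987) (Nat.add (f x18991) (Nat.add
    (f x18993) (Nat.add (f x18999) (Nat.add (f x19009) (Nat.add (f x19011) (Nat.add (f x19017)
    (Nat.add (f x19037) (Nat.add (f x19039) (Nat.add (f x19041) (Nat.add (f x19045) (Nat.add
    (f x19047) (Nat.add (f x19053) (Nat.add (f x19063) (Nat.add (f x19065) (Nat.add (f x19071)
    (Nat.add (f x19089) (Nat.add (f x19117) (Nat.add (f x19119) (Nat.add (f x19125) (Nat.add
    (f x19143) (Nat.add (f x19199) 0))))))))))))))))))))))))))))))))))))))))))))))))))))))))))))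
    (Nat.add (Nat.add (f x19201) (Nat.add (f x19203) (Nat.add (f x19207) (Nat.add (f x19209)
    (Nat.add (f x19215) (Nat.add (f x19225) (Nat.add (f x19227) (Nat.add (f x19233) (Nat.add
    (f x19251) (Nat.add (f x19279) (Nat.add (f x19281) (Nat.add (f x19287) (Nat.add (f x19305)
    (Nat.add (f x19359) (Nat.add (f x19441) (Nat.add (f x19443) (Nat.add (f x19449) (Nat.add
    (f x19467) (Nat.add (f x19521) 0)))))))))))))))))))
    0))))))))))))))))))))))))))))))))))))))))))))))))))))) v1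

theorem fin_eq0 (f : Nat → Nat) (v1 : Nat) (x : Nat → Nat) :
    apLL (fun t => x t.cd) cds (fin f v1) = Nat.beq (sum2 (fun t => f (x t.cd)) cds) v1 :=
  Eq.refl (apLL (fun t => x t.cd) cds (fin f v1))

theorem fin_eq (f : Nat → Nat) (v1 : Nat) (x : Nat → Nat) :
    ap x (fin f v1) = Nat.beq (sumL (fun s => f (x s)) (secL 9 9 0 [])) v1 :=
  ((ap_eq x (fin f v1)).symm.trans (fin_eq0 f v1 x)).trans
    (congrArg (fun z => Nat.beq z v1) (sum2_eq cds _ codes_ok (fun s => f (x s))))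

noncomputable def fin2 (f : Nat → Nat) (v1 v2 : Nat) (
    x161 x215 x233 x239 x241 x323 x377 x395 x401 x403 x431 x449 x455 x457 x467 x473 x475 x479 x481
    x483 x539 x557 x563 x565 x593 x611 x617 x619 x629 x635 x637 x641 x643 x645 x665 x671 x673 x683
    x689 x691 x695 x697 x699 x707 x709 x713 x715 x717 x721 x723 x809 x863 x881 x887 x889 x917 x935
    x941 x943 x953 x959 x961 x965 x967 x969 x1025 x1043 x1049 x1051 x1079 x1097 x1103 x1105 x1115
    x1121 x1123 x1127 x1129 x1131 x1151 x1157 x1159 x1169 x1175 x1177 x1181 x1183 x1185 x1193 x1195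
    x1199 x1201 x1203 x1207 x1209 x1241 x1259 x1265 x1267 x1277 x1283 x1285 x1289 x1291 x1293 x1313
    x1319 x1321 x1331 x1337 x1339 x1343 x1345 x1347 x1355 x1357 x1361 x1363 x1365 x1369 x1371 x1385
    x1391 x1393 x1397 x1399 x1401 x1409 x1411 x1415 x1417 x1419 x1423 x1425 x1433 x1435 x1437 x1441
    x1443 x1449 x1511 x1529 x1535 x1537 x1565 x1583 x1589 x1591 x1601 x1607 x1609 x1613 x1615 x1617
    x1637 x1643 x1645 x1655 x1661 x1663 x1667 x1669 x1671 x1679 x1681 x1685 x1687 x1689 x1693 x1695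
    x1727 x1745 x1751 x1753 x1763 x1769 x1771 x1775 x1777 x1779 x1799 x1805 x1807 x1817 x1823 x1825
    x1829 x1831 x1833 x1841 x1843 x1847 x1849 x1851 x1855 x1857 x1871 x1877 x1879 x1883 x1885 x1887
    x1895 x1897 x1901 x1903 x1905 x1909 x1911 x1919 x1921 x1923 x1927 x1929 x1935 x1961 x1967 x1969
    x1979 x1985 x1987 x1991 x1993 x1995 x2003 x2005 x2009 x2011 x2013 x2017 x2019 x2033 x2039 x2041
    x2045 x2047 x2049 x2057 x2059 x2063 x2065 x2067 x2071 x2073 x2081 x2083 x2085 x2089 x2091 x2097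
    x2111 x2113 x2117 x2119 x2121 x2125 x2127 x2135 x2137 x2139 x2143 x2145 x2151 x2161 x2163 x2169
    x2267 x2321 x2339 x2345 x2347 x2375 x2393 x2399 x2401 x2411 x2417 x2419 x2423 x2425 x2427 x2483
    x2501 x2507 x2509 x2537 x2555 x2561 x2563 x2573 x2579 x2581 x2585 x2587 x2589 x2609 x2615 x2617
    x2627 x2633 x2635 x2639 x2641 x2643 x2651 x2653 x2657 x2659 x2661 x2665 x2667 x2699 x2717 x2723
    x2725 x2735 x2741 x2743 x2747 x2749 x2751 x2771 x2777 x2779 x2789 x2795 x2797 x2801 x2803 x2805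
    x2813 x2815 x2819 x2821 x2823 x2827 x2829 x2843 x2849 x2851 x2855 x2857 x2859 x2867 x2869 x2873
    x2875 x2877 x2881 x2883 x2891 x2893 x2895 x2899 x2901 x2907 x2969 x2987 x2993 x2995 x3023 x3041
    x3047 x3049 x3059 x3065 x3067 x3071 x3073 x3075 x3095 x3101 x3103 x3113 x3119 x3121 x3125 x3127
    x3129 x3137 x3139 x3143 x3145 x3147 x3151 x3153 x3185 x3203 x3209 x3211 x3221 x3227 x3229 x3233
    x3235 x3237 x3257 x3263 x3265 x3275 x3281 x3283 x3287 x3289 x3291 x3299 x3301 x3305 x3307 x3309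
    x3313 x3315 x3329 x3335 x3337 x3341 x3343 x3345 x3353 x3355 x3359 x3361 x3363 x3367 x3369 x3377
    x3379 x3381 x3385 x3387 x3393 x3419 x3425 x3427 x3437 x3443 x3445 x3449 x3451 x3453 x3461 x3463
    x3467 x3469 x3471 x3475 x3477 x3491 x3497 x3499 x3503 x3505 x3507 x3515 x3517 x3521 x3523 x3525
    x3529 x3531 x3539 x3541 x3543 x3547 x3549 x3555 x3569 x3571 x3575 x3577 x3579 x3583 x3585 x3593
    x3595 x3597 x3601 x3603 x3609 x3619 x3621 x3627 x3671 x3689 x3695 x3697 x3707 x3713 x3715 x3719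
    x3721 x3723 x3743 x3749 x3751 x3761 x3767 x3769 x3773 x3775 x3777 x3785 x3787 x3791 x3793 x3795
    x3799 x3801 x3815 x3821 x3823 x3827 x3829 x3831 x3839 x3841 x3845 x3847 x3849 x3853 x3855 x3863
    x3865 x3867 x3871 x3873 x3879 x3905 x3911 x3913 x3923 x3929 x3931 x3935 x3937 x3939 x3947 x3949
    x3953 x3955 x3957 x3961 x3963 x3977 x3983 x3985 x3989 x3991 x3993 x4001 x4003 x4007 x4009 x4011
    x4015 x4017 x4025 x4027 x4029 x4033 x4035 x4041 x4055 x4057 x4061 x4063 x4065 x4069 x4071 x4079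
    x4081 x4083 x4087 x4089 x4095 x4105 x4107 x4113 x4139 x4145 x4147 x4151 x4153 x4155 x4163 x4165
    x4169 x4171 x4173 x4177 x4179 x4187 x4189 x4191 x4195 x4197 x4203 x4217 x4219 x4223 x4225 x4227
    x4231 x4233 x4241 x4243 x4245 x4249 x4251 x4257 x4267 x4269 x4275 x4295 x4297 x4299 x4303 x4305
    x4311 x4321 x4323 x4329 x4347 x4427 x4445 x4451 x4453 x4481 x4499 x4505 x4507 x4517 x4523 x4525
    x4529 x4531 x4533 x4553 x4559 x4561 x4571 x4577 x4579 x4583 x4585 x4587 x4595 x4597 x4601 x4603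
    x4605 x4609 x4611 x4643 x4661 x4667 x4669 x4679 x4685 x4687 x4691 x4693 x4695 x4715 x4721 x4723
    x4733 x4739 x4741 x4745 x4747 x4749 x4757 x4759 x4763 x4765 x4767 x4771 x4773 x4787 x4793 x4795
    x4799 x4801 x4803 x4811 x4813 x4817 x4819 x4821 x4825 x4827 x4835 x4837 x4839 x4843 x4845 x4851
    x4877 x4883 x4885 x4895 x4901 x4903 x4907 x4909 x4911 x4919 x4921 x4925 x4927 x4929 x4933 x4935
    x4949 x4955 x4957 x4961 x4963 x4965 x4973 x4975 x4979 x4981 x4983 x4987 x4989 x4997 x4999 x5001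
    x5005 x5007 x5013 x5027 x5029 x5033 x5035 x5037 x5041 x5043 x5051 x5053 x5055 x5059 x5061 x5067
    x5077 x5079 x5085 x5129 x5147 x5153 x5155 x5165 x5171 x5173 x5177 x5179 x5181 x5201 x5207 x5209
    x5219 x5225 x5227 x5231 x5233 x5235 x5243 x5245 x5249 x5251 x5253 x5257 x5259 x5273 x5279 x5281
    x5285 x5287 x5289 x5297 x5299 x5303 x5305 x5307 x5311 x5313 x5321 x5323 x5325 x5329 x5331 x5337
    x5363 x5369 x5371 x5381 x5387 x5389 x5393 x5395 x5397 x5405 x5407 x5411 x5413 x5415 x5419 x5421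
    x5435 x5441 x5443 x5447 x5449 x5451 x5459 x5461 x5465 x5467 x5469 x5473 x5475 x5483 x5485 x5487
    x5491 x5493 x5499 x5513 x5515 x5519 x5521 x5523 x5527 x5529 x5537 x5539 x5541 x5545 x5547 x5553
    x5563 x5565 x5571 x5597 x5603 x5605 x5609 x5611 x5613 x5621 x5623 x5627 x5629 x5631 x5635 x5637
    x5645 x5647 x5649 x5653 x5655 x5661 x5675 x5677 x5681 x5683 x5685 x5689 x5691 x5699 x5701 x5703
    x5707 x5709 x5715 x5725 x5727 x5733 x5753 x5755 x5757 x5761 x5763 x5769 x5779 x5781 x5787 x5805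
    x5849 x5855 x5857 x5867 x5873 x5875 x5879 x5881 x5883 x5891 x5893 x5897 x5899 x5901 x5905 x5907
    x5921 x5927 x5929 x5933 x5935 x5937 x5945 x5947 x5951 x5953 x5955 x5959 x5961 x5969 x5971 x5973
    x5977 x5979 x5985 x5999 x6001 x6005 x6007 x6009 x6013 x6015 x6023 x6025 x6027 x6031 x6033 x6039
    x6049 x6051 x6057 x6083 x6089 x6091 x6095 x6097 x6099 x6107 x6109 x6113 x6115 x6117 x6121 x6123
    x6131 x6133 x6135 x6139 x6141 x6147 x6161 x6163 x6167 x6169 x6171 x6175 x6177 x6185 x6187 x6189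
    x6193 x6195 x6201 x6211 x6213 x6219 x6239 x6241 x6243 x6247 x6249 x6255 x6265 x6267 x6273 x6291
    x6323 x6325 x6329 x6331 x6333 x6337 x6339 x6347 x6349 x6351 x6355 x6357 x6363 x6373 x6375 x6381
    x6401 x6403 x6405 x6409 x6411 x6417 x6427 x6429 x6435 x6453 x6481 x6483 x6489 x6507 x6641 x6695
    x6713 x6719 x6721 x6749 x6767 x6773 x6775 x6785 x6791 x6793 x6797 x6799 x6801 x6857 x6875 x6881
    x6883 x6911 x6929 x6935 x6937 x6947 x6953 x6955 x6959 x6961 x6963 x6983 x6989 x6991 x7001 x7007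
    x7009 x7013 x7015 x7017 x7025 x7027 x7031 x7033 x7035 x7039 x7041 x7073 x7091 x7097 x7099 x7109
    x7115 x7117 x7121 x7123 x7125 x7145 x7151 x7153 x7163 x7169 x7171 x7175 x7177 x7179 x7187 x7189
    x7193 x7195 x7197 x7201 x7203 x7217 x7223 x7225 x7229 x7231 x7233 x7241 x7243 x7247 x7249 x7251
    x7255 x7257 x7265 x7267 x7269 x7273 x7275 x7281 x7343 x7361 x7367 x7369 x7397 x7415 x7421 x7423
    x7433 x7439 x7441 x7445 x7447 x7449 x7469 x7475 x7477 x7487 x7493 x7495 x7499 x7501 x7503 x7511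
    x7513 x7517 x7519 x7521 x7525 x7527 x7559 x7577 x7583 x7585 x7595 x7601 x7603 x7607 x7609 x7611
    x7631 x7637 x7639 x7649 x7655 x7657 x7661 x7663 x7665 x7673 x7675 x7679 x7681 x7683 x7687 x7689
    x7703 x7709 x7711 x7715 x7717 x7719 x7727 x7729 x7733 x7735 x7737 x7741 x7743 x7751 x7753 x7755
    x7759 x7761 x7767 x7793 x7799 x7801 x7811 x7817 x7819 x7823 x7825 x7827 x7835 x7837 x7841 x7843
    x7845 x7849 x7851 x7865 x7871 x7873 x7877 x7879 x7881 x7889 x7891 x7895 x7897 x7899 x7903 x7905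
    x7913 x7915 x7917 x7921 x7923 x7929 x7943 x7945 x7949 x7951 x7953 x7957 x7959 x7967 x7969 x7971
    x7975 x7977 x7983 x7993 x7995 x8001 x8045 x8063 x8069 x8071 x8081 x8087 x8089 x8093 x8095 x8097
    x8117 x8123 x8125 x8135 x8141 x8143 x8147 x8149 x8151 x8159 x8161 x8165 x8167 x8169 x8173 x8175
    x8189 x8195 x8197 x8201 x8203 x8205 x8213 x8215 x8219 x8221 x8223 x8227 x8229 x8237 x8239 x8241
    x8245 x8247 x8253 x8279 x8285 x8287 x8297 x8303 x8305 x8309 x8311 x8313 x8321 x8323 x8327 x8329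
    x8331 x8335 x8337 x8351 x8357 x8359 x8363 x8365 x8367 x8375 x8377 x8381 x8383 x8385 x8389 x8391
    x8399 x8401 x8403 x8407 x8409 x8415 x8429 x8431 x8435 x8437 x8439 x8443 x8445 x8453 x8455 x8457
    x8461 x8463 x8469 x8479 x8481 x8487 x8513 x8519 x8521 x8525 x8527 x8529 x8537 x8539 x8543 x8545
    x8547 x8551 x8553 x8561 x8563 x8565 x8569 x8571 x8577 x8591 x8593 x8597 x8599 x8601 x8605 x8607
    x8615 x8617 x8619 x8623 x8625 x8631 x8641 x8643 x8649 x8669 x8671 x8673 x8677 x8679 x8685 x8695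
    x8697 x8703 x8721 x8801 x8819 x8825 x8827 x8855 x8873 x8879 x8881 x8891 x8897 x8899 x8903 x8905
    x8907 x8927 x8933 x8935 x8945 x8951 x8953 x8957 x8959 x8961 x8969 x8971 x8975 x8977 x8979 x8983
    x8985 x9017 x9035 x9041 x9043 x9053 x9059 x9061 x9065 x9067 x9069 x9089 x9095 x9097 x9107 x9113
    x9115 x9119 x9121 x9123 x9131 x9133 x9137 x9139 x9141 x9145 x9147 x9161 x9167 x9169 x9173 x9175
    x9177 x9185 x9187 x9191 x9193 x9195 x9199 x9201 x9209 x9211 x9213 x9217 x9219 x9225 x9251 x9257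
    x9259 x9269 x9275 x9277 x9281 x9283 x9285 x9293 x9295 x9299 x9301 x9303 x9307 x9309 x9323 x9329
    x9331 x9335 x9337 x9339 x9347 x9349 x9353 x9355 x9357 x9361 x9363 x9371 x9373 x9375 x9379 x9381
    x9387 x9401 x9403 x9407 x9409 x9411 x9415 x9417 x9425 x9427 x9429 x9433 x9435 x9441 x9451 x9453
    x9459 x9503 x9521 x9527 x9529 x9539 x9545 x9547 x9551 x9553 x9555 x9575 x9581 x9583 x9593 x9599
    x9601 x9605 x9607 x9609 x9617 x9619 x9623 x9625 x9627 x9631 x9633 x9647 x9653 x9655 x9659 x9661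
    x9663 x9671 x9673 x9677 x9679 x9681 x9685 x9687 x9695 x9697 x9699 x9703 x9705 x9711 x9737 x9743
    x9745 x9755 x9761 x9763 x9767 x9769 x9771 x9779 x9781 x9785 x9787 x9789 x9793 x9795 x9809 x9815
    x9817 x9821 x9823 x9825 x9833 x9835 x9839 x9841 x9843 x9847 x9849 x9857 x9859 x9861 x9865 x9867
    x9873 x9887 x9889 x9893 x9895 x9897 x9901 x9903 x9911 x9913 x9915 x9919 x9921 x9927 x9937 x9939
    x9945 x9971 x9977 x9979 x9983 x9985 x9987 x9995 x9997 x10001 x10003 x10005 x10009 x10011 x10019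
    x10021 x10023 x10027 x10029 x10035 x10049 x10051 x10055 x10057 x10059 x10063 x10065 x10073
    x10075 x10077 x10081 x10083 x10089 x10099 x10101 x10107 x10127 x10129 x10131 x10135 x10137
    x10143 x10153 x10155 x10161 x10179 x10223 x10229 x10231 x10241 x10247 x10249 x10253 x10255
    x10257 x10265 x10267 x10271 x10273 x10275 x10279 x10281 x10295 x10301 x10303 x10307 x10309
    x10311 x10319 x10321 x10325 x10327 x10329 x10333 x10335 x10343 x10345 x10347 x10351 x10353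
    x10359 x10373 x10375 x10379 x10381 x10383 x10387 x10389 x10397 x10399 x10401 x10405 x10407
    x10413 x10423 x10425 x10431 x10457 x10463 x10465 x10469 x10471 x10473 x10481 x10483 x10487
    x10489 x10491 x10495 x10497 x10505 x10507 x10509 x10513 x10515 x10521 x10535 x10537 x10541
    x10543 x10545 x10549 x10551 x10559 x10561 x10563 x10567 x10569 x10575 x10585 x10587 x10593
    x10613 x10615 x10617 x10621 x10623 x10629 x10639 x10641 x10647 x10665 x10697 x10699 x10703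
    x10705 x10707 x10711 x10713 x10721 x10723 x10725 x10729 x10731 x10737 x10747 x10749 x10755
    x10775 x10777 x10779 x10783 x10785 x10791 x10801 x10803 x10809 x10827 x10855 x10857 x10863
    x10881 x10961 x10979 x10985 x10987 x10997 x11003 x11005 x11009 x11011 x11013 x11033 x11039
    x11041 x11051 x11057 x11059 x11063 x11065 x11067 x11075 x11077 x11081 x11083 x11085 x11089
    x11091 x11105 x11111 x11113 x11117 x11119 x11121 x11129 x11131 x11135 x11137 x11139 x11143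
    x11145 x11153 x11155 x11157 x11161 x11163 x11169 x11195 x11201 x11203 x11213 x11219 x11221
    x11225 x11227 x11229 x11237 x11239 x11243 x11245 x11247 x11251 x11253 x11267 x11273 x11275
    x11279 x11281 x11283 x11291 x11293 x11297 x11299 x11301 x11305 x11307 x11315 x11317 x11319
    x11323 x11325 x11331 x11345 x11347 x11351 x11353 x11355 x11359 x11361 x11369 x11371 x11373
    x11377 x11379 x11385 x11395 x11397 x11403 x11429 x11435 x11437 x11441 x11443 x11445 x11453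
    x11455 x11459 x11461 x11463 x11467 x11469 x11477 x11479 x11481 x11485 x11487 x11493 x11507
    x11509 x11513 x11515 x11517 x11521 x11523 x11531 x11533 x11535 x11539 x11541 x11547 x11557
    x11559 x11565 x11585 x11587 x11589 x11593 x11595 x11601 x11611 x11613 x11619 x11637 x11681
    x11687 x11689 x11699 x11705 x11707 x11711 x11713 x11715 x11723 x11725 x11729 x11731 x11733
    x11737 x11739 x11753 x11759 x11761 x11765 x11767 x11769 x11777 x11779 x11783 x11785 x11787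
    x11791 x11793 x11801 x11803 x11805 x11809 x11811 x11817 x11831 x11833 x11837 x11839 x11841
    x11845 x11847 x11855 x11857 x11859 x11863 x11865 x11871 x11881 x11883 x11889 x11915 x11921
    x11923 x11927 x11929 x11931 x11939 x11941 x11945 x11947 x11949 x11953 x11955 x11963 x11965
    x11967 x11971 x11973 x11979 x11993 x11995 x11999 x12001 x12003 x12007 x12009 x12017 x12019
    x12021 x12025 x12027 x12033 x12043 x12045 x12051 x12071 x12073 x12075 x12079 x12081 x12087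
    x12097 x12099 x12105 x12123 x12155 x12157 x12161 x12163 x12165 x12169 x12171 x12179 x12181
    x12183 x12187 x12189 x12195 x12205 x12207 x12213 x12233 x12235 x12237 x12241 x12243 x12249
    x12259 x12261 x12267 x12285 x12313 x12315 x12321 x12339 x12401 x12407 x12409 x12413 x12415
    x12417 x12425 x12427 x12431 x12433 x12435 x12439 x12441 x12449 x12451 x12453 x12457 x12459
    x12465 x12479 x12481 x12485 x12487 x12489 x12493 x12495 x12503 x12505 x12507 x12511 x12513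
    x12519 x12529 x12531 x12537 x12557 x12559 x12561 x12565 x12567 x12573 x12583 x12585 x12591
    x12609 x12641 x12643 x12647 x12649 x12651 x12655 x12657 x12665 x12667 x12669 x12673 x12675
    x12681 x12691 x12693 x12699 x12719 x12721 x12723 x12727 x12729 x12735 x12745 x12747 x12753
    x12771 x12799 x12801 x12807 x12825 x12881 x12883 x12885 x12889 x12891 x12897 x12907 x12909
    x12915 x12933 x12961 x12963 x12969 x12987 x13041 x13175 x13193 x13199 x13201 x13229 x13247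
    x13253 x13255 x13265 x13271 x13273 x13277 x13279 x13281 x13301 x13307 x13309 x13319 x13325
    x13327 x13331 x13333 x13335 x13343 x13345 x13349 x13351 x13353 x13357 x13359 x13391 x13409
    x13415 x13417 x13427 x13433 x13435 x13439 x13441 x13443 x13463 x13469 x13471 x13481 x13487
    x13489 x13493 x13495 x13497 x13505 x13507 x13511 x13513 x13515 x13519 x13521 x13535 x13541
    x13543 x13547 x13549 x13551 x13559 x13561 x13565 x13567 x13569 x13573 x13575 x13583 x13585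
    x13587 x13591 x13593 x13599 x13625 x13631 x13633 x13643 x13649 x13651 x13655 x13657 x13659
    x13667 x13669 x13673 x13675 x13677 x13681 x13683 x13697 x13703 x13705 x13709 x13711 x13713
    x13721 x13723 x13727 x13729 x13731 x13735 x13737 x13745 x13747 x13749 x13753 x13755 x13761
    x13775 x13777 x13781 x13783 x13785 x13789 x13791 x13799 x13801 x13803 x13807 x13809 x13815
    x13825 x13827 x13833 x13877 x13895 x13901 x13903 x13913 x13919 x13921 x13925 x13927 x13929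
    x13949 x13955 x13957 x13967 x13973 x13975 x13979 x13981 x13983 x13991 x13993 x13997 x13999
    x14001 x14005 x14007 x14021 x14027 x14029 x14033 x14035 x14037 x14045 x14047 x14051 x14053
    x14055 x14059 x14061 x14069 x14071 x14073 x14077 x14079 x14085 x14111 x14117 x14119 x14129
    x14135 x14137 x14141 x14143 x14145 x14153 x14155 x14159 x14161 x14163 x14167 x14169 x14183
    x14189 x14191 x14195 x14197 x14199 x14207 x14209 x14213 x14215 x14217 x14221 x14223 x14231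
    x14233 x14235 x14239 x14241 x14247 x14261 x14263 x14267 x14269 x14271 x14275 x14277 x14285
    x14287 x14289 x14293 x14295 x14301 x14311 x14313 x14319 x14345 x14351 x14353 x14357 x14359
    x14361 x14369 x14371 x14375 x14377 x14379 x14383 x14385 x14393 x14395 x14397 x14401 x14403
    x14409 x14423 x14425 x14429 x14431 x14433 x14437 x14439 x14447 x14449 x14451 x14455 x14457
    x14463 x14473 x14475 x14481 x14501 x14503 x14505 x14509 x14511 x14517 x14527 x14529 x14535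
    x14553 x14597 x14603 x14605 x14615 x14621 x14623 x14627 x14629 x14631 x14639 x14641 x14645
    x14647 x14649 x14653 x14655 x14669 x14675 x14677 x14681 x14683 x14685 x14693 x14695 x14699
    x14701 x14703 x14707 x14709 x14717 x14719 x14721 x14725 x14727 x14733 x14747 x14749 x14753
    x14755 x14757 x14761 x14763 x14771 x14773 x14775 x14779 x14781 x14787 x14797 x14799 x14805
    x14831 x14837 x14839 x14843 x14845 x14847 x14855 x14857 x14861 x14863 x14865 x14869 x14871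
    x14879 x14881 x14883 x14887 x14889 x14895 x14909 x14911 x14915 x14917 x14919 x14923 x14925
    x14933 x14935 x14937 x14941 x14943 x14949 x14959 x14961 x14967 x14987 x14989 x14991 x14995
    x14997 x15003 x15013 x15015 x15021 x15039 x15071 x15073 x15077 x15079 x15081 x15085 x15087
    x15095 x15097 x15099 x15103 x15105 x15111 x15121 x15123 x15129 x15149 x15151 x15153 x15157
    x15159 x15165 x15175 x15177 x15183 x15201 x15229 x15231 x15237 x15255 x15335 x15353 x15359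
    x15361 x15371 x15377 x15379 x15383 x15385 x15387 x15407 x15413 x15415 x15425 x15431 x15433
    x15437 x15439 x15441 x15449 x15451 x15455 x15457 x15459 x15463 x15465 x15479 x15485 x15487
    x15491 x15493 x15495 x15503 x15505 x15509 x15511 x15513 x15517 x15519 x15527 x15529 x15531
    x15535 x15537 x15543 x15569 x15575 x15577 x15587 x15593 x15595 x15599 x15601 x15603 x15611
    x15613 x15617 x15619 x15621 x15625 x15627 x15641 x15647 x15649 x15653 x15655 x15657 x15665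
    x15667 x15671 x15673 x15675 x15679 x15681 x15689 x15691 x15693 x15697 x15699 x15705 x15719
    x15721 x15725 x15727 x15729 x15733 x15735 x15743 x15745 x15747 x15751 x15753 x15759 x15769
    x15771 x15777 x15803 x15809 x15811 x15815 x15817 x15819 x15827 x15829 x15833 x15835 x15837
    x15841 x15843 x15851 x15853 x15855 x15859 x15861 x15867 x15881 x15883 x15887 x15889 x15891
    x15895 x15897 x15905 x15907 x15909 x15913 x15915 x15921 x15931 x15933 x15939 x15959 x15961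
    x15963 x15967 x15969 x15975 x15985 x15987 x15993 x16011 x16055 x16061 x16063 x16073 x16079
    x16081 x16085 x16087 x16089 x16097 x16099 x16103 x16105 x16107 x16111 x16113 x16127 x16133
    x16135 x16139 x16141 x16143 x16151 x16153 x16157 x16159 x16161 x16165 x16167 x16175 x16177
    x16179 x16183 x16185 x16191 x16205 x16207 x16211 x16213 x16215 x16219 x16221 x16229 x16231
    x16233 x16237 x16239 x16245 x16255 x16257 x16263 x16289 x16295 x16297 x16301 x16303 x16305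
    x16313 x16315 x16319 x16321 x16323 x16327 x16329 x16337 x16339 x16341 x16345 x16347 x16353
    x16367 x16369 x16373 x16375 x16377 x16381 x16383 x16391 x16393 x16395 x16399 x16401 x16407
    x16417 x16419 x16425 x16445 x16447 x16449 x16453 x16455 x16461 x16471 x16473 x16479 x16497
    x16529 x16531 x16535 x16537 x16539 x16543 x16545 x16553 x16555 x16557 x16561 x16563 x16569
    x16579 x16581 x16587 x16607 x16609 x16611 x16615 x16617 x16623 x16633 x16635 x16641 x16659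
    x16687 x16689 x16695 x16713 x16775 x16781 x16783 x16787 x16789 x16791 x16799 x16801 x16805
    x16807 x16809 x16813 x16815 x16823 x16825 x16827 x16831 x16833 x16839 x16853 x16855 x16859
    x16861 x16863 x16867 x16869 x16877 x16879 x16881 x16885 x16887 x16893 x16903 x16905 x16911
    x16931 x16933 x16935 x16939 x16941 x16947 x16957 x16959 x16965 x16983 x17015 x17017 x17021
    x17023 x17025 x17029 x17031 x17039 x17041 x17043 x17047 x17049 x17055 x17065 x17067 x17073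
    x17093 x17095 x17097 x17101 x17103 x17109 x17119 x17121 x17127 x17145 x17173 x17175 x17181
    x17199 x17255 x17257 x17259 x17263 x17265 x17271 x17281 x17283 x17289 x17307 x17335 x17337
    x17343 x17361 x17415 x17513 x17519 x17521 x17531 x17537 x17539 x17543 x17545 x17547 x17555
    x17557 x17561 x17563 x17565 x17569 x17571 x17585 x17591 x17593 x17597 x17599 x17601 x17609
    x17611 x17615 x17617 x17619 x17623 x17625 x17633 x17635 x17637 x17641 x17643 x17649 x17663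
    x17665 x17669 x17671 x17673 x17677 x17679 x17687 x17689 x17691 x17695 x17697 x17703 x17713
    x17715 x17721 x17747 x17753 x17755 x17759 x17761 x17763 x17771 x17773 x17777 x17779 x17781
    x17785 x17787 x17795 x17797 x17799 x17803 x17805 x17811 x17825 x17827 x17831 x17833 x17835
    x17839 x17841 x17849 x17851 x17853 x17857 x17859 x17865 x17875 x17877 x17883 x17903 x17905
    x17907 x17911 x17913 x17919 x17929 x17931 x17937 x17955 x17987 x17989 x17993 x17995 x17997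
    x18001 x18003 x18011 x18013 x18015 x18019 x18021 x18027 x18037 x18039 x18045 x18065 x18067
    x18069 x18073 x18075 x18081 x18091 x18093 x18099 x18117 x18145 x18147 x18153 x18171 x18233
    x18239 x18241 x18245 x18247 x18249 x18257 x18259 x18263 x18265 x18267 x18271 x18273 x18281
    x18283 x18285 x18289 x18291 x18297 x18311 x18313 x18317 x18319 x18321 x18325 x18327 x18335
    x18337 x18339 x18343 x18345 x18351 x18361 x18363 x18369 x18389 x18391 x18393 x18397 x18399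
    x18405 x18415 x18417 x18423 x18441 x18473 x18475 x18479 x18481 x18483 x18487 x18489 x18497
    x18499 x18501 x18505 x18507 x18513 x18523 x18525 x18531 x18551 x18553 x18555 x18559 x18561
    x18567 x18577 x18579 x18585 x18603 x18631 x18633 x18639 x18657 x18713 x18715 x18717 x18721
    x18723 x18729 x18739 x18741 x18747 x18765 x18793 x18795 x18801 x18819 x18873 x18959 x18961
    x18965 x18967 x18969 x18973 x18975 x18983 x18985 x18987 x18991 x18993 x18999 x19009 x19011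
    x19017 x19037 x19039 x19041 x19045 x19047 x19053 x19063 x19065 x19071 x19089 x19117 x19119
    x19125 x19143 x19199 x19201 x19203 x19207 x19209 x19215 x19225 x19227 x19233 x19251 x19279
    x19281 x19287 x19305 x19359 x19441 x19443 x19449 x19467 x19521 : Nat) : Bool :=
  and (Nat.beq
    (Nat.add (Nat.add (f x161) (Nat.add (f x215) (Nat.add (f x233) (Nat.add (f x239) (Nat.add
    (f x241) (Nat.add (f x323) (Nat.add (f x377) (Nat.add (f x395) (Nat.add (f x401) (Nat.add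
    (f x403) (Nat.add (f x431) (Nat.add (f x449) (Nat.add (f x455) (Nat.add (f x457) (Nat.add
    (f x467) (Nat.add (f x473) (Nat.add (f x475) (Nat.add (f x479) (Nat.add (f x481) (Nat.add
    (f x483) (Nat.add (f x539) (Nat.add (f x557) (Nat.add (f x563) (Nat.add (f x565) (Nat.add
    (f x593) (Nat.add (f x611) (Nat.add (f x617) (Nat.add (f x619) (Nat.add (f x629) (Nat.add
    (f x635) (Nat.add (f x637) (Nat.add (f x641) (Nat.add (f x643) (Nat.add (f x645) (Nat.add
    (f x665) (Nat.add (f x671) (Nat.add (f x673) (Nat.add (f x683) (Nat.add (f x689) (Nat.add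
    (f x691) (Nat.add (f x695) (Nat.add (f x697) (Nat.add (f x699) (Nat.add (f x707) (Nat.add
    (f x709) (Nat.add (f x713) (Nat.add (f x715) (Nat.add (f x717) (Nat.add (f x721) (Nat.add
    (f x723) (Nat.add (f x809) (Nat.add (f x863) (Nat.add (f x881) (Nat.add (f x887) (Nat.add
    (f x889) (Nat.add (f x917) (Nat.add (f x935) (Nat.add (f x941) (Nat.add (f x943) (Nat.add
    (f x953) 0)))))))))))))))))))))))))))))))))))))))))))))))))))))))))))) (Nat.add (Nat.add
    (f x959) (Nat.add (f x961) (Nat.add (f x965) (Nat.add (f x967) (Nat.add (f x969) (Nat.add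
    (f x1025) (Nat.add (f x1043) (Nat.add (f x1049) (Nat.add (f x1051) (Nat.add (f x1079) (Nat.add
    (f x1097) (Nat.add (f x1103) (Nat.add (f x1105) (Nat.add (f x1115) (Nat.add (f x1121) (Nat.add
    (f x1123) (Nat.add (f x1127) (Nat.add (f x1129) (Nat.add (f x1131) (Nat.add (f x1151) (Nat.add
    (f x1157) (Nat.add (f x1159) (Nat.add (f x1169) (Nat.add (f x1175) (Nat.add (f x1177) (Nat.add
    (f x1181) (Nat.add (f x1183) (Nat.add (f x1185) (Nat.add (f x1193) (Nat.add (f x1195) (Nat.add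
    (f x1199) (Nat.add (f x1201) (Nat.add (f x1203) (Nat.add (f x1207) (Nat.add (f x1209) (Nat.add
    (f x1241) (Nat.add (f x1259) (Nat.add (f x1265) (Nat.add (f x1267) (Nat.add (f x1277) (Nat.add
    (f x1283) (Nat.add (f x1285) (Nat.add (f x1289) (Nat.add (f x1291) (Nat.add (f x1293) (Nat.add
    (f x1313) (Nat.add (f x1319) (Nat.add (f x1321) (Nat.add (f x1331) (Nat.add (f x1337) (Nat.add
    (f x1339) (Nat.add (f x1343) (Nat.add (f x1345) (Nat.add (f x1347) (Nat.add (f x1355) (Nat.add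
    (f x1357) (Nat.add (f x1361) (Nat.add (f x1363) (Nat.add (f x1365) (Nat.add (f x1369)
    0)))))))))))))))))))))))))))))))))))))))))))))))))))))))))))) (Nat.add (Nat.add (f x1371)
    (Nat.add (f x1385) (Nat.add (f x1391) (Nat.add (f x1393) (Nat.add (f x1397) (Nat.add (f x1399)
    (Nat.add (f x1401) (Nat.add (f x1409) (Nat.add (f x1411) (Nat.add (f x1415) (Nat.add (f x1417)
    (Nat.add (f x1419) (Nat.add (f x1423) (Nat.add (f x1425) (Nat.add (f x1433) (Nat.add (f x1435)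
    (Nat.add (f x1437) (Nat.add (f x1441) (Nat.add (f x1443) (Nat.add (f x1449) (Nat.add (f x1511)
    (Nat.add (f x1529) (Nat.add (f x1535) (Nat.add (f x1537) (Nat.add (f x1565) (Nat.add (f x1583)
    (Nat.add (f x1589) (Nat.add (f x1591) (Nat.add (f x1601) (Nat.add (f x1607) (Nat.add (f x1609)
    (Nat.add (f x1613) (Nat.add (f x1615) (Nat.add (f x1617) (Nat.add (f x1637) (Nat.add (f x1643)
    (Nat.add (f x1645) (Nat.add (f x1655) (Nat.add (f x1661) (Nat.add (f x1663) (Nat.add (f x1667)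
    (Nat.add (f x1669) (Nat.add (f x1671) (Nat.add (f x1679) (Nat.add (f x1681) (Nat.add (f x1685)
    (Nat.add (f x1687) (Nat.add (f x1689) (Nat.add (f x1693) (Nat.add (f x1695) (Nat.add (f x1727)
    (Nat.add (f x1745) (Nat.add (f x1751) (Nat.add (f x1753) (Nat.add (f x1763) (Nat.add (f x1769)
    (Nat.add (f x1771) (Nat.add (f x1775) (Nat.add (f x1777) (Nat.add (f x1779)
    0)))))))))))))))))))))))))))))))))))))))))))))))))))))))))))) (Nat.add (Nat.add (f x1799)
    (Nat.add (f x1805) (Nat.add (f x1807) (Nat.add (f x1817) (Nat.add (f x1823) (Nat.add (f x1825)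
    (Nat.add (f x1829) (Nat.add (f x1831) (Nat.add (f x1833) (Nat.add (f x1841) (Nat.add (f x1843)
    (Nat.add (f x1847) (Nat.add (f x1849) (Nat.add (f x1851) (Nat.add (f x1855) (Nat.add (f x1857)
    (Nat.add (f x1871) (Nat.add (f x1877) (Nat.add (f x1879) (Nat.add (f x1883) (Nat.add (f x1885)
    (Nat.add (f x1887) (Nat.add (f x1895) (Nat.add (f x1897) (Nat.add (f x1901) (Nat.add (f x1903)
    (Nat.add (f x1905) (Nat.add (f x1909) (Nat.add (f x1911) (Nat.add (f x1919) (Nat.add (f x1921)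
    (Nat.add (f x1923) (Nat.add (f x1927) (Nat.add (f x1929) (Nat.add (f x1935) (Nat.add (f x1961)
    (Nat.add (f x1967) (Nat.add (f x1969) (Nat.add (f x1979) (Nat.add (f x1985) (Nat.add (f x1987)
    (Nat.add (f x1991) (Nat.add (f x1993) (Nat.add (f x1995) (Nat.add (f x2003) (Nat.add (f x2005)
    (Nat.add (f x2009) (Nat.add (f x2011) (Nat.add (f x2013) (Nat.add (f x2017) (Nat.add (f x2019)
    (Nat.add (f x2033) (Nat.add (f x2039) (Nat.add (f x2041) (Nat.add (f x2045) (Nat.add (f x2047)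
    (Nat.add (f x2049) (Nat.add (f x2057) (Nat.add (f x2059) (Nat.add (f x2063)
    0)))))))))))))))))))))))))))))))))))))))))))))))))))))))))))) (Nat.add (Nat.add (f x2065)
    (Nat.add (f x2067) (Nat.add (f x2071) (Nat.add (f x2073) (Nat.add (f x2081) (Nat.add (f x2083)
    (Nat.add (f x2085) (Nat.add (f x2089) (Nat.add (f x2091) (Nat.add (f x2097) (Nat.add (f x2111)
    (Nat.add (f x2113) (Nat.add (f x2117) (Nat.add (f x2119) (Nat.add (f x2121) (Nat.add (f x2125)
    (Nat.add (f x2127) (Nat.add (f x2135) (Nat.add (f x2137) (Nat.add (f x2139) (Nat.add (f x2143)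
    (Nat.add (f x2145) (Nat.add (f x2151) (Nat.add (f x2161) (Nat.add (f x2163) (Nat.add (f x2169)
    (Nat.add (f x2267) (Nat.add (f x2321) (Nat.add (f x2339) (Nat.add (f x2345) (Nat.add (f x2347)
    (Nat.add (f x2375) (Nat.add (f x2393) (Nat.add (f x2399) (Nat.add (f x2401) (Nat.add (f x2411)
    (Nat.add (f x2417) (Nat.add (f x2419) (Nat.add (f x2423) (Nat.add (f x2425) (Nat.add (f x2427)
    (Nat.add (f x2483) (Nat.add (f x2501) (Nat.add (f x2507) (Nat.add (f x2509) (Nat.add (f x2537)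
    (Nat.add (f x2555) (Nat.add (f x2561) (Nat.add (f x2563) (Nat.add (f x2573) (Nat.add (f x2579)
    (Nat.add (f x2581) (Nat.add (f x2585) (Nat.add (f x2587) (Nat.add (f x2589) (Nat.add (f x2609)
    (Nat.add (f x2615) (Nat.add (f x2617) (Nat.add (f x2627) (Nat.add (f x2633)
    0)))))))))))))))))))))))))))))))))))))))))))))))))))))))))))) (Nat.add (Nat.add (f x2635)
    (Nat.add (f x2639) (Nat.add (f x2641) (Nat.add (f x2643) (Nat.add (f x2651) (Nat.add (f x2653)
    (Nat.add (f x2657) (Nat.add (f x2659) (Nat.add (f x2661) (Nat.add (f x2665) (Nat.add (f x2667)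
    (Nat.add (f x2699) (Nat.add (f x2717) (Nat.add (f x2723) (Nat.add (f x2725) (Nat.add (f x2735)
    (Nat.add (f x2741) (Nat.add (f x2743) (Nat.add (f x2747) (Nat.add (f x2749) (Nat.add (f x2751)
    (Nat.add (f x2771) (Nat.add (f x2777) (Nat.add (f x2779) (Nat.add (f x2789) (Nat.add (f x2795)
    (Nat.add (f x2797) (Nat.add (f x2801) (Nat.add (f x2803) (Nat.add (f x2805) (Nat.add (f x2813)
    (Nat.add (f x2815) (Nat.add (f x2819) (Nat.add (f x2821) (Nat.add (f x2823) (Nat.add (f x2827)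
    (Nat.add (f x2829) (Nat.add (f x2843) (Nat.add (f x2849) (Nat.add (f x2851) (Nat.add (f x2855)
    (Nat.add (f x2857) (Nat.add (f x2859) (Nat.add (f x2867) (Nat.add (f x2869) (Nat.add (f x2873)
    (Nat.add (f x2875) (Nat.add (f x2877) (Nat.add (f x2881) (Nat.add (f x2883) (Nat.add (f x2891)
    (Nat.add (f x2893) (Nat.add (f x2895) (Nat.add (f x2899) (Nat.add (f x2901) (Nat.add (f x2907)
    (Nat.add (f x2969) (Nat.add (f x2987) (Nat.add (f x2993) (Nat.add (f x2995)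
    0)))))))))))))))))))))))))))))))))))))))))))))))))))))))))))) (Nat.add (Nat.add (f x3023)
    (Nat.add (f x3041) (Nat.add (f x3047) (Nat.add (f x3049) (Nat.add (f x3059) (Nat.add (f x3065)
    (Nat.add (f x3067) (Nat.add (f x3071) (Nat.add (f x3073) (Nat.add (f x3075) (Nat.add (f x3095)
    (Nat.add (f x3101) (Nat.add (f x3103) (Nat.add (f x3113) (Nat.add (f x3119) (Nat.add (f x3121)
    (Nat.add (f x3125) (Nat.add (f x3127) (Nat.add (f x3129) (Nat.add (f x3137) (Nat.add (f x3139)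
    (Nat.add (f x3143) (Nat.add (f x3145) (Nat.add (f x3147) (Nat.add (f x3151) (Nat.add (f x3153)
    (Nat.add (f x3185) (Nat.add (f x3203) (Nat.add (f x3209) (Nat.add (f x3211) (Nat.add (f x3221)
    (Nat.add (f x3227) (Nat.add (f x3229) (Nat.add (f x3233) (Nat.add (f x3235) (Nat.add (f x3237)
    (Nat.add (f x3257) (Nat.add (f x3263) (Nat.add (f x3265) (Nat.add (f x3275) (Nat.add (f x3281)
    (Nat.add (f x3283) (Nat.add (f x3287) (Nat.add (f x3289) (Nat.add (f x3291) (Nat.add (f x3299)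
    (Nat.add (f x3301) (Nat.add (f x3305) (Nat.add (f x3307) (Nat.add (f x3309) (Nat.add (f x3313)
    (Nat.add (f x3315) (Nat.add (f x3329) (Nat.add (f x3335) (Nat.add (f x3337) (Nat.add (f x3341)
    (Nat.add (f x3343) (Nat.add (f x3345) (Nat.add (f x3353) (Nat.add (f x3355)
    0)))))))))))))))))))))))))))))))))))))))))))))))))))))))))))) (Nat.add (Nat.add (f x3359)
    (Nat.add (f x3361) (Nat.add (f x3363) (Nat.add (f x3367) (Nat.add (f x3369) (Nat.add (f x3377)
    (Nat.add (f x3379) (Nat.add (f x3381) (Nat.add (f x3385) (Nat.add (f x3387) (Nat.add (f x3393)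
    (Nat.add (f x3419) (Nat.add (f x3425) (Nat.add (f x3427) (Nat.add (f x3437) (Nat.add (f x3443)
    (Nat.add (f x3445) (Nat.add (f x3449) (Nat.add (f x3451) (Nat.add (f x3453) (Nat.add (f x3461)
    (Nat.add (f x3463) (Nat.add (f x3467) (Nat.add (f x3469) (Nat.add (f x3471) (Nat.add (f x3475)
    (Nat.add (f x3477) (Nat.add (f x3491) (Nat.add (f x3497) (Nat.add (f x3499) (Nat.add (f x3503)
    (Nat.add (f x3505) (Nat.add (f x3507) (Nat.add (f x3515) (Nat.add (f x3517) (Nat.add (f x3521)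
    (Nat.add (f x3523) (Nat.add (f x3525) (Nat.add (f x3529) (Nat.add (f x3531) (Nat.add (f x3539)
    (Nat.add (f x3541) (Nat.add (f x3543) (Nat.add (f x3547) (Nat.add (f x3549) (Nat.add (f x3555)
    (Nat.add (f x3569) (Nat.add (f x3571) (Nat.add (f x3575) (Nat.add (f x3577) (Nat.add (f x3579)
    (Nat.add (f x3583) (Nat.add (f x3585) (Nat.add (f x3593) (Nat.add (f x3595) (Nat.add (f x3597)
    (Nat.add (f x3601) (Nat.add (f x3603) (Nat.add (f x3609) (Nat.add (f x3619)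
    0)))))))))))))))))))))))))))))))))))))))))))))))))))))))))))) (Nat.add (Nat.add (f x3621)
    (Nat.add (f x3627) (Nat.add (f x3671) (Nat.add (f x3689) (Nat.add (f x3695) (Nat.add (f x3697)
    (Nat.add (f x3707) (Nat.add (f x3713) (Nat.add (f x3715) (Nat.add (f x3719) (Nat.add (f x3721)
    (Nat.add (f x3723) (Nat.add (f x3743) (Nat.add (f x3749) (Nat.add (f x3751) (Nat.add (f x3761)
    (Nat.add (f x3767) (Nat.add (f x3769) (Nat.add (f x3773) (Nat.add (f x3775) (Nat.add (f x3777)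
    (Nat.add (f x3785) (Nat.add (f x3787) (Nat.add (f x3791) (Nat.add (f x3793) (Nat.add (f x3795)
    (Nat.add (f x3799) (Nat.add (f x3801) (Nat.add (f x3815) (Nat.add (f x3821) (Nat.add (f x3823)
    (Nat.add (f x3827) (Nat.add (f x3829) (Nat.add (f x3831) (Nat.add (f x3839) (Nat.add (f x3841)
    (Nat.add (f x3845) (Nat.add (f x3847) (Nat.add (f x3849) (Nat.add (f x3853) (Nat.add (f x3855)
    (Nat.add (f x3863) (Nat.add (f x3865) (Nat.add (f x3867) (Nat.add (f x3871) (Nat.add (f x3873)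
    (Nat.add (f x3879) (Nat.add (f x3905) (Nat.add (f x3911) (Nat.add (f x3913) (Nat.add (f x3923)
    (Nat.add (f x3929) (Nat.add (f x3931) (Nat.add (f x3935) (Nat.add (f x3937) (Nat.add (f x3939)
    (Nat.add (f x3947) (Nat.add (f x3949) (Nat.add (f x3953) (Nat.add (f x3955)
    0)))))))))))))))))))))))))))))))))))))))))))))))))))))))))))) (Nat.add (Nat.add (f x3957)
    (Nat.add (f x3961) (Nat.add (f x3963) (Nat.add (f x3977) (Nat.add (f x3983) (Nat.add (f x3985)
    (Nat.add (f x3989) (Nat.add (f x3991) (Nat.add (f x3993) (Nat.add (f x4001) (Nat.add (f x4003)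
    (Nat.add (f x4007) (Nat.add (f x4009) (Nat.add (f x4011) (Nat.add (f x4015) (Nat.add (f x4017)
    (Nat.add (f x4025) (Nat.add (f x4027) (Nat.add (f x4029) (Nat.add (f x4033) (Nat.add (f x4035)
    (Nat.add (f x4041) (Nat.add (f x4055) (Nat.add (f x4057) (Nat.add (f x4061) (Nat.add (f x4063)
    (Nat.add (f x4065) (Nat.add (f x4069) (Nat.add (f x4071) (Nat.add (f x4079) (Nat.add (f x4081)
    (Nat.add (f x4083) (Nat.add (f x4087) (Nat.add (f x4089) (Nat.add (f x4095) (Nat.add (f x4105)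
    (Nat.add (f x4107) (Nat.add (f x4113) (Nat.add (f x4139) (Nat.add (f x4145) (Nat.add (f x4147)
    (Nat.add (f x4151) (Nat.add (f x4153) (Nat.add (f x4155) (Nat.add (f x4163) (Nat.add (f x4165)
    (Nat.add (f x4169) (Nat.add (f x4171) (Nat.add (f x4173) (Nat.add (f x4177) (Nat.add (f x4179)
    (Nat.add (f x4187) (Nat.add (f x4189) (Nat.add (f x4191) (Nat.add (f x4195) (Nat.add (f x4197)
    (Nat.add (f x4203) (Nat.add (f x4217) (Nat.add (f x4219) (Nat.add (f x4223)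
    0)))))))))))))))))))))))))))))))))))))))))))))))))))))))))))) (Nat.add (Nat.add (f x4225)
    (Nat.add (f x4227) (Nat.add (f x4231) (Nat.add (f x4233) (Nat.add (f x4241) (Nat.add (f x4243)
    (Nat.add (f x4245) (Nat.add (f x4249) (Nat.add (f x4251) (Nat.add (f x4257) (Nat.add (f x4267)
    (Nat.add (f x4269) (Nat.add (f x4275) (Nat.add (f x4295) (Nat.add (f x4297) (Nat.add (f x4299)
    (Nat.add (f x4303) (Nat.add (f x4305) (Nat.add (f x4311) (Nat.add (f x4321) (Nat.add (f x4323)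
    (Nat.add (f x4329) (Nat.add (f x4347) (Nat.add (f x4427) (Nat.add (f x4445) (Nat.add (f x4451)
    (Nat.add (f x4453) (Nat.add (f x4481) (Nat.add (f x4499) (Nat.add (f x4505) (Nat.add (f x4507)
    (Nat.add (f x4517) (Nat.add (f x4523) (Nat.add (f x4525) (Nat.add (f x4529) (Nat.add (f x4531)
    (Nat.add (f x4533) (Nat.add (f x4553) (Nat.add (f x4559) (Nat.add (f x4561) (Nat.add (f x4571)
    (Nat.add (f x4577) (Nat.add (f x4579) (Nat.add (f x4583) (Nat.add (f x4585) (Nat.add (f x4587)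
    (Nat.add (f x4595) (Nat.add (f x4597) (Nat.add (f x4601) (Nat.add (f x4603) (Nat.add (f x4605)
    (Nat.add (f x4609) (Nat.add (f x4611) (Nat.add (f x4643) (Nat.add (f x4661) (Nat.add (f x4667)
    (Nat.add (f x4669) (Nat.add (f x4679) (Nat.add (f x4685) (Nat.add (f x4687)
    0)))))))))))))))))))))))))))))))))))))))))))))))))))))))))))) (Nat.add (Nat.add (f x4691)
    (Nat.add (f x4693) (Nat.add (f x4695) (Nat.add (f x4715) (Nat.add (f x4721) (Nat.add (f x4723)
    (Nat.add (f x4733) (Nat.add (f x4739) (Nat.add (f x4741) (Nat.add (f x4745) (Nat.add (f x4747)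
    (Nat.add (f x4749) (Nat.add (f x4757) (Nat.add (f x4759) (Nat.add (f x4763) (Nat.add (f x4765)
    (Nat.add (f x4767) (Nat.add (f x4771) (Nat.add (f x4773) (Nat.add (f x4787) (Nat.add (f x4793)
    (Nat.add (f x4795) (Nat.add (f x4799) (Nat.add (f x4801) (Nat.add (f x4803) (Nat.add (f x4811)
    (Nat.add (f x4813) (Nat.add (f x4817) (Nat.add (f x4819) (Nat.add (f x4821) (Nat.add (f x4825)
    (Nat.add (f x4827) (Nat.add (f x4835) (Nat.add (f x4837) (Nat.add (f x4839) (Nat.add (f x4843)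
    (Nat.add (f x4845) (Nat.add (f x4851) (Nat.add (f x4877) (Nat.add (f x4883) (Nat.add (f x4885)
    (Nat.add (f x4895) (Nat.add (f x4901) (Nat.add (f x4903) (Nat.add (f x4907) (Nat.add (f x4909)
    (Nat.add (f x4911) (Nat.add (f x4919) (Nat.add (f x4921) (Nat.add (f x4925) (Nat.add (f x4927)
    (Nat.add (f x4929) (Nat.add (f x4933) (Nat.add (f x4935) (Nat.add (f x4949) (Nat.add (f x4955)
    (Nat.add (f x4957) (Nat.add (f x4961) (Nat.add (f x4963) (Nat.add (f x4965)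
    0)))))))))))))))))))))))))))))))))))))))))))))))))))))))))))) (Nat.add (Nat.add (f x4973)
    (Nat.add (f x4975) (Nat.add (f x4979) (Nat.add (f x4981) (Nat.add (f x4983) (Nat.add (f x4987)
    (Nat.add (f x4989) (Nat.add (f x4997) (Nat.add (f x4999) (Nat.add (f x5001) (Nat.add (f x5005)
    (Nat.add (f x5007) (Nat.add (f x5013) (Nat.add (f x5027) (Nat.add (f x5029) (Nat.add (f x5033)
    (Nat.add (f x5035) (Nat.add (f x5037) (Nat.add (f x5041) (Nat.add (f x5043) (Nat.add (f x5051)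
    (Nat.add (f x5053) (Nat.add (f x5055) (Nat.add (f x5059) (Nat.add (f x5061) (Nat.add (f x5067)
    (Nat.add (f x5077) (Nat.add (f x5079) (Nat.add (f x5085) (Nat.add (f x5129) (Nat.add (f x5147)
    (Nat.add (f x5153) (Nat.add (f x5155) (Nat.add (f x5165) (Nat.add (f x5171) (Nat.add (f x5173)
    (Nat.add (f x5177) (Nat.add (f x5179) (Nat.add (f x5181) (Nat.add (f x5201) (Nat.add (f x5207)
    (Nat.add (f x5209) (Nat.add (f x5219) (Nat.add (f x5225) (Nat.add (f x5227) (Nat.add (f x5231)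
    (Nat.add (f x5233) (Nat.add (f x5235) (Nat.add (f x5243) (Nat.add (f x5245) (Nat.add (f x5249)
    (Nat.add (f x5251) (Nat.add (f x5253) (Nat.add (f x5257) (Nat.add (f x5259) (Nat.add (f x5273)
    (Nat.add (f x5279) (Nat.add (f x5281) (Nat.add (f x5285) (Nat.add (f x5287)
    0)))))))))))))))))))))))))))))))))))))))))))))))))))))))))))) (Nat.add (Nat.add (f x5289)
    (Nat.add (f x5297) (Nat.add (f x5299) (Nat.add (f x5303) (Nat.add (f x5305) (Nat.add (f x5307)
    (Nat.add (f x5311) (Nat.add (f x5313) (Nat.add (f x5321) (Nat.add (f x5323) (Nat.add (f x5325)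
    (Nat.add (f x5329) (Nat.add (f x5331) (Nat.add (f x5337) (Nat.add (f x5363) (Nat.add (f x5369)
    (Nat.add (f x5371) (Nat.add (f x5381) (Nat.add (f x5387) (Nat.add (f x5389) (Nat.add (f x5393)
    (Nat.add (f x5395) (Nat.add (f x5397) (Nat.add (f x5405) (Nat.add (f x5407) (Nat.add (f x5411)
    (Nat.add (f x5413) (Nat.add (f x5415) (Nat.add (f x5419) (Nat.add (f x5421) (Nat.add (f x5435)
    (Nat.add (f x5441) (Nat.add (f x5443) (Nat.add (f x5447) (Nat.add (f x5449) (Nat.add (f x5451)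
    (Nat.add (f x5459) (Nat.add (f x5461) (Nat.add (f x5465) (Nat.add (f x5467) (Nat.add (f x5469)
    (Nat.add (f x5473) (Nat.add (f x5475) (Nat.add (f x5483) (Nat.add (f x5485) (Nat.add (f x5487)
    (Nat.add (f x5491) (Nat.add (f x5493) (Nat.add (f x5499) (Nat.add (f x5513) (Nat.add (f x5515)
    (Nat.add (f x5519) (Nat.add (f x5521) (Nat.add (f x5523) (Nat.add (f x5527) (Nat.add (f x5529)
    (Nat.add (f x5537) (Nat.add (f x5539) (Nat.add (f x5541) (Nat.add (f x5545)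
    0)))))))))))))))))))))))))))))))))))))))))))))))))))))))))))) (Nat.add (Nat.add (f x5547)
    (Nat.add (f x5553) (Nat.add (f x5563) (Nat.add (f x5565) (Nat.add (f x5571) (Nat.add (f x5597)
    (Nat.add (f x5603) (Nat.add (f x5605) (Nat.add (f x5609) (Nat.add (f x5611) (Nat.add (f x5613)
    (Nat.add (f x5621) (Nat.add (f x5623) (Nat.add (f x5627) (Nat.add (f x5629) (Nat.add (f x5631)
    (Nat.add (f x5635) (Nat.add (f x5637) (Nat.add (f x5645) (Nat.add (f x5647) (Nat.add (f x5649)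
    (Nat.add (f x5653) (Nat.add (f x5655) (Nat.add (f x5661) (Nat.add (f x5675) (Nat.add (f x5677)
    (Nat.add (f x5681) (Nat.add (f x5683) (Nat.add (f x5685) (Nat.add (f x5689) (Nat.add (f x5691)
    (Nat.add (f x5699) (Nat.add (f x5701) (Nat.add (f x5703) (Nat.add (f x5707) (Nat.add (f x5709)
    (Nat.add (f x5715) (Nat.add (f x5725) (Nat.add (f x5727) (Nat.add (f x5733) (Nat.add (f x5753)
    (Nat.add (f x5755) (Nat.add (f x5757) (Nat.add (f x5761) (Nat.add (f x5763) (Nat.add (f x5769)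
    (Nat.add (f x5779) (Nat.add (f x5781) (Nat.add (f x5787) (Nat.add (f x5805) (Nat.add (f x5849)
    (Nat.add (f x5855) (Nat.add (f x5857) (Nat.add (f x5867) (Nat.add (f x5873) (Nat.add (f x5875)
    (Nat.add (f x5879) (Nat.add (f x5881) (Nat.add (f x5883) (Nat.add (f x5891)
    0)))))))))))))))))))))))))))))))))))))))))))))))))))))))))))) (Nat.add (Nat.add (f x5893)
    (Nat.add (f x5897) (Nat.add (f x5899) (Nat.add (f x5901) (Nat.add (f x5905) (Nat.add (f x5907)
    (Nat.add (f x5921) (Nat.add (f x5927) (Nat.add (f x5929) (Nat.add (f x5933) (Nat.add (f x5935)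
    (Nat.add (f x5937) (Nat.add (f x5945) (Nat.add (f x5947) (Nat.add (f x5951) (Nat.add (f x5953)
    (Nat.add (f x5955) (Nat.add (f x5959) (Nat.add (f x5961) (Nat.add (f x5969) (Nat.add (f x5971)
    (Nat.add (f x5973) (Nat.add (f x5977) (Nat.add (f x5979) (Nat.add (f x5985) (Nat.add (f x5999)
    (Nat.add (f x6001) (Nat.add (f x6005) (Nat.add (f x6007) (Nat.add (f x6009) (Nat.add (f x6013)
    (Nat.add (f x6015) (Nat.add (f x6023) (Nat.add (f x6025) (Nat.add (f x6027) (Nat.add (f x6031)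
    (Nat.add (f x6033) (Nat.add (f x6039) (Nat.add (f x6049) (Nat.add (f x6051) (Nat.add (f x6057)
    (Nat.add (f x6083) (Nat.add (f x6089) (Nat.add (f x6091) (Nat.add (f x6095) (Nat.add (f x6097)
    (Nat.add (f x6099) (Nat.add (f x6107) (Nat.add (f x6109) (Nat.add (f x6113) (Nat.add (f x6115)
    (Nat.add (f x6117) (Nat.add (f x6121) (Nat.add (f x6123) (Nat.add (f x6131) (Nat.add (f x6133)
    (Nat.add (f x6135) (Nat.add (f x6139) (Nat.add (f x6141) (Nat.add (f x6147)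
    0)))))))))))))))))))))))))))))))))))))))))))))))))))))))))))) (Nat.add (Nat.add (f x6161)
    (Nat.add (f x6163) (Nat.add (f x6167) (Nat.add (f x6169) (Nat.add (f x6171) (Nat.add (f x6175)
    (Nat.add (f x6177) (Nat.add (f x6185) (Nat.add (f x6187) (Nat.add (f x6189) (Nat.add (f x6193)
    (Nat.add (f x6195) (Nat.add (f x6201) (Nat.add (f x6211) (Nat.add (f x6213) (Nat.add (f x6219)
    (Nat.add (f x6239) (Nat.add (f x6241) (Nat.add (f x6243) (Nat.add (f x6247) (Nat.add (f x6249)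
    (Nat.add (f x6255) (Nat.add (f x6265) (Nat.add (f x6267) (Nat.add (f x6273) (Nat.add (f x6291)
    (Nat.add (f x6323) (Nat.add (f x6325) (Nat.add (f x6329) (Nat.add (f x6331) (Nat.add (f x6333)
    (Nat.add (f x6337) (Nat.add (f x6339) (Nat.add (f x6347) (Nat.add (f x6349) (Nat.add (f x6351)
    (Nat.add (f x6355) (Nat.add (f x6357) (Nat.add (f x6363) (Nat.add (f x6373) (Nat.add (f x6375)
    (Nat.add (f x6381) (Nat.add (f x6401) (Nat.add (f x6403) (Nat.add (f x6405) (Nat.add (f x6409)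
    (Nat.add (f x6411) (Nat.add (f x6417) (Nat.add (f x6427) (Nat.add (f x6429) (Nat.add (f x6435)
    (Nat.add (f x6453) (Nat.add (f x6481) (Nat.add (f x6483) (Nat.add (f x6489) (Nat.add (f x6507)
    (Nat.add (f x6641) (Nat.add (f x6695) (Nat.add (f x6713) (Nat.add (f x6719)
    0)))))))))))))))))))))))))))))))))))))))))))))))))))))))))))) (Nat.add (Nat.add (f x6721)
    (Nat.add (f x6749) (Nat.add (f x6767) (Nat.add (f x6773) (Nat.add (f x6775) (Nat.add (f x6785)
    (Nat.add (f x6791) (Nat.add (f x6793) (Nat.add (f x6797) (Nat.add (f x6799) (Nat.add (f x6801)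
    (Nat.add (f x6857) (Nat.add (f x6875) (Nat.add (f x6881) (Nat.add (f x6883) (Nat.add (f x6911)
    (Nat.add (f x6929) (Nat.add (f x6935) (Nat.add (f x6937) (Nat.add (f x6947) (Nat.add (f x6953)
    (Nat.add (f x6955) (Nat.add (f x6959) (Nat.add (f x6961) (Nat.add (f x6963) (Nat.add (f x6983)
    (Nat.add (f x6989) (Nat.add (f x6991) (Nat.add (f x7001) (Nat.add (f x7007) (Nat.add (f x7009)
    (Nat.add (f x7013) (Nat.add (f x7015) (Nat.add (f x7017) (Nat.add (f x7025) (Nat.add (f x7027)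
    (Nat.add (f x7031) (Nat.add (f x7033) (Nat.add (f x7035) (Nat.add (f x7039) (Nat.add (f x7041)
    (Nat.add (f x7073) (Nat.add (f x7091) (Nat.add (f x7097) (Nat.add (f x7099) (Nat.add (f x7109)
    (Nat.add (f x7115) (Nat.add (f x7117) (Nat.add (f x7121) (Nat.add (f x7123) (Nat.add (f x7125)
    (Nat.add (f x7145) (Nat.add (f x7151) (Nat.add (f x7153) (Nat.add (f x7163) (Nat.add (f x7169)
    (Nat.add (f x7171) (Nat.add (f x7175) (Nat.add (f x7177) (Nat.add (f x7179)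
    0)))))))))))))))))))))))))))))))))))))))))))))))))))))))))))) (Nat.add (Nat.add (f x7187)
    (Nat.add (f x7189) (Nat.add (f x7193) (Nat.add (f x7195) (Nat.add (f x7197) (Nat.add (f x7201)
    (Nat.add (f x7203) (Nat.add (f x7217) (Nat.add (f x7223) (Nat.add (f x7225) (Nat.add (f x7229)
    (Nat.add (f x7231) (Nat.add (f x7233) (Nat.add (f x7241) (Nat.add (f x7243) (Nat.add (f x7247)
    (Nat.add (f x7249) (Nat.add (f x7251) (Nat.add (f x7255) (Nat.add (f x7257) (Nat.add (f x7265)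
    (Nat.add (f x7267) (Nat.add (f x7269) (Nat.add (f x7273) (Nat.add (f x7275) (Nat.add (f x7281)
    (Nat.add (f x7343) (Nat.add (f x7361) (Nat.add (f x7367) (Nat.add (f x7369) (Nat.add (f x7397)
    (Nat.add (f x7415) (Nat.add (f x7421) (Nat.add (f x7423) (Nat.add (f x7433) (Nat.add (f x7439)
    (Nat.add (f x7441) (Nat.add (f x7445) (Nat.add (f x7447) (Nat.add (f x7449) (Nat.add (f x7469)
    (Nat.add (f x7475) (Nat.add (f x7477) (Nat.add (f x7487) (Nat.add (f x7493) (Nat.add (f x7495)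
    (Nat.add (f x7499) (Nat.add (f x7501) (Nat.add (f x7503) (Nat.add (f x7511) (Nat.add (f x7513)
    (Nat.add (f x7517) (Nat.add (f x7519) (Nat.add (f x7521) (Nat.add (f x7525) (Nat.add (f x7527)
    (Nat.add (f x7559) (Nat.add (f x7577) (Nat.add (f x7583) (Nat.add (f x7585)
    0)))))))))))))))))))))))))))))))))))))))))))))))))))))))))))) (Nat.add (Nat.add (f x7595)
    (Nat.add (f x7601) (Nat.add (f x7603) (Nat.add (f x7607) (Nat.add (f x7609) (Nat.add (f x7611)
    (Nat.add (f x7631) (Nat.add (f x7637) (Nat.add (f x7639) (Nat.add (f x7649) (Nat.add (f x7655)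
    (Nat.add (f x7657) (Nat.add (f x7661) (Nat.add (f x7663) (Nat.add (f x7665) (Nat.add (f x7673)
    (Nat.add (f x7675) (Nat.add (f x7679) (Nat.add (f x7681) (Nat.add (f x7683) (Nat.add (f x7687)
    (Nat.add (f x7689) (Nat.add (f x7703) (Nat.add (f x7709) (Nat.add (f x7711) (Nat.add (f x7715)
    (Nat.add (f x7717) (Nat.add (f x7719) (Nat.add (f x7727) (Nat.add (f x7729) (Nat.add (f x7733)
    (Nat.add (f x7735) (Nat.add (f x7737) (Nat.add (f x7741) (Nat.add (f x7743) (Nat.add (f x7751)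
    (Nat.add (f x7753) (Nat.add (f x7755) (Nat.add (f x7759) (Nat.add (f x7761) (Nat.add (f x7767)
    (Nat.add (f x7793) (Nat.add (f x7799) (Nat.add (f x7801) (Nat.add (f x7811) (Nat.add (f x7817)
    (Nat.add (f x7819) (Nat.add (f x7823) (Nat.add (f x7825) (Nat.add (f x7827) (Nat.add (f x7835)
    (Nat.add (f x7837) (Nat.add (f x7841) (Nat.add (f x7843) (Nat.add (f x7845) (Nat.add (f x7849)
    (Nat.add (f x7851) (Nat.add (f x7865) (Nat.add (f x7871) (Nat.add (f x7873)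
    0)))))))))))))))))))))))))))))))))))))))))))))))))))))))))))) (Nat.add (Nat.add (f x7877)
    (Nat.add (f x7879) (Nat.add (f x7881) (Nat.add (f x7889) (Nat.add (f x7891) (Nat.add (f x7895)
    (Nat.add (f x7897) (Nat.add (f x7899) (Nat.add (f x7903) (Nat.add (f x7905) (Nat.add (f x7913)
    (Nat.add (f x7915) (Nat.add (f x7917) (Nat.add (f x7921) (Nat.add (f x7923) (Nat.add (f x7929)
    (Nat.add (f x7943) (Nat.add (f x7945) (Nat.add (f x7949) (Nat.add (f x7951) (Nat.add (f x7953)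
    (Nat.add (f x7957) (Nat.add (f x7959) (Nat.add (f x7967) (Nat.add (f x7969) (Nat.add (f x7971)
    (Nat.add (f x7975) (Nat.add (f x7977) (Nat.add (f x7983) (Nat.add (f x7993) (Nat.add (f x7995)
    (Nat.add (f x8001) (Nat.add (f x8045) (Nat.add (f x8063) (Nat.add (f x8069) (Nat.add (f x8071)
    (Nat.add (f x8081) (Nat.add (f x8087) (Nat.add (f x8089) (Nat.add (f x8093) (Nat.add (f x8095)
    (Nat.add (f x8097) (Nat.add (f x8117) (Nat.add (f x8123) (Nat.add (f x8125) (Nat.add (f x8135)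
    (Nat.add (f x8141) (Nat.add (f x8143) (Nat.add (f x8147) (Nat.add (f x8149) (Nat.add (f x8151)
    (Nat.add (f x8159) (Nat.add (f x8161) (Nat.add (f x8165) (Nat.add (f x8167) (Nat.add (f x8169)
    (Nat.add (f x8173) (Nat.add (f x8175) (Nat.add (f x8189) (Nat.add (f x8195)
    0)))))))))))))))))))))))))))))))))))))))))))))))))))))))))))) (Nat.add (Nat.add (f x8197)
    (Nat.add (f x8201) (Nat.add (f x8203) (Nat.add (f x8205) (Nat.add (f x8213) (Nat.add (f x8215)
    (Nat.add (f x8219) (Nat.add (f x8221) (Nat.add (f x8223) (Nat.add (f x8227) (Nat.add (f x8229)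
    (Nat.add (f x8237) (Nat.add (f x8239) (Nat.add (f x8241) (Nat.add (f x8245) (Nat.add (f x8247)
    (Nat.add (f x8253) (Nat.add (f x8279) (Nat.add (f x8285) (Nat.add (f x8287) (Nat.add (f x8297)
    (Nat.add (f x8303) (Nat.add (f x8305) (Nat.add (f x8309) (Nat.add (f x8311) (Nat.add (f x8313)
    (Nat.add (f x8321) (Nat.add (f x8323) (Nat.add (f x8327) (Nat.add (f x8329) (Nat.add (f x8331)
    (Nat.add (f x8335) (Nat.add (f x8337) (Nat.add (f x8351) (Nat.add (f x8357) (Nat.add (f x8359)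
    (Nat.add (f x8363) (Nat.add (f x8365) (Nat.add (f x8367) (Nat.add (f x8375) (Nat.add (f x8377)
    (Nat.add (f x8381) (Nat.add (f x8383) (Nat.add (f x8385) (Nat.add (f x8389) (Nat.add (f x8391)
    (Nat.add (f x8399) (Nat.add (f x8401) (Nat.add (f x8403) (Nat.add (f x8407) (Nat.add (f x8409)
    (Nat.add (f x8415) (Nat.add (f x8429) (Nat.add (f x8431) (Nat.add (f x8435) (Nat.add (f x8437)
    (Nat.add (f x8439) (Nat.add (f x8443) (Nat.add (f x8445) (Nat.add (f x8453)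
    0)))))))))))))))))))))))))))))))))))))))))))))))))))))))))))) (Nat.add (Nat.add (f x8455)
    (Nat.add (f x8457) (Nat.add (f x8461) (Nat.add (f x8463) (Nat.add (f x8469) (Nat.add (f x8479)
    (Nat.add (f x8481) (Nat.add (f x8487) (Nat.add (f x8513) (Nat.add (f x8519) (Nat.add (f x8521)
    (Nat.add (f x8525) (Nat.add (f x8527) (Nat.add (f x8529) (Nat.add (f x8537) (Nat.add (f x8539)
    (Nat.add (f x8543) (Nat.add (f x8545) (Nat.add (f x8547) (Nat.add (f x8551) (Nat.add (f x8553)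
    (Nat.add (f x8561) (Nat.add (f x8563) (Nat.add (f x8565) (Nat.add (f x8569) (Nat.add (f x8571)
    (Nat.add (f x8577) (Nat.add (f x8591) (Nat.add (f x8593) (Nat.add (f x8597) (Nat.add (f x8599)
    (Nat.add (f x8601) (Nat.add (f x8605) (Nat.add (f x8607) (Nat.add (f x8615) (Nat.add (f x8617)
    (Nat.add (f x8619) (Nat.add (f x8623) (Nat.add (f x8625) (Nat.add (f x8631) (Nat.add (f x8641)
    (Nat.add (f x8643) (Nat.add (f x8649) (Nat.add (f x8669) (Nat.add (f x8671) (Nat.add (f x8673)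
    (Nat.add (f x8677) (Nat.add (f x8679) (Nat.add (f x8685) (Nat.add (f x8695) (Nat.add (f x8697)
    (Nat.add (f x8703) (Nat.add (f x8721) (Nat.add (f x8801) (Nat.add (f x8819) (Nat.add (f x8825)
    (Nat.add (f x8827) (Nat.add (f x8855) (Nat.add (f x8873) (Nat.add (f x8879)
    0)))))))))))))))))))))))))))))))))))))))))))))))))))))))))))) (Nat.add (Nat.add (f x8881)
    (Nat.add (f x8891) (Nat.add (f x8897) (Nat.add (f x8899) (Nat.add (f x8903) (Nat.add (f x8905)
    (Nat.add (f x8907) (Nat.add (f x8927) (Nat.add (f x8933) (Nat.add (f x8935) (Nat.add (f x8945)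
    (Nat.add (f x8951) (Nat.add (f x8953) (Nat.add (f x8957) (Nat.add (f x8959) (Nat.add (f x8961)
    (Nat.add (f x8969) (Nat.add (f x8971) (Nat.add (f x8975) (Nat.add (f x8977) (Nat.add (f x8979)
    (Nat.add (f x8983) (Nat.add (f x8985) (Nat.add (f x9017) (Nat.add (f x9035) (Nat.add (f x9041)
    (Nat.add (f x9043) (Nat.add (f x9053) (Nat.add (f x9059) (Nat.add (f x9061) (Nat.add (f x9065)
    (Nat.add (f x9067) (Nat.add (f x9069) (Nat.add (f x9089) (Nat.add (f x9095) (Nat.add (f x9097)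
    (Nat.add (f x9107) (Nat.add (f x9113) (Nat.add (f x9115) (Nat.add (f x9119) (Nat.add (f x9121)
    (Nat.add (f x9123) (Nat.add (f x9131) (Nat.add (f x9133) (Nat.add (f x9137) (Nat.add (f x9139)
    (Nat.add (f x9141) (Nat.add (f x9145) (Nat.add (f x9147) (Nat.add (f x9161) (Nat.add (f x9167)
    (Nat.add (f x9169) (Nat.add (f x9173) (Nat.add (f x9175) (Nat.add (f x9177) (Nat.add (f x9185)
    (Nat.add (f x9187) (Nat.add (f x9191) (Nat.add (f x9193) (Nat.add (f x9195)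
    0)))))))))))))))))))))))))))))))))))))))))))))))))))))))))))) (Nat.add (Nat.add (f x9199)
    (Nat.add (f x9201) (Nat.add (f x9209) (Nat.add (f x9211) (Nat.add (f x9213) (Nat.add (f x9217)
    (Nat.add (f x9219) (Nat.add (f x9225) (Nat.add (f x9251) (Nat.add (f x9257) (Nat.add (f x9259)
    (Nat.add (f x9269) (Nat.add (f x9275) (Nat.add (f x9277) (Nat.add (f x9281) (Nat.add (f x9283)
    (Nat.add (f x9285) (Nat.add (f x9293) (Nat.add (f x9295) (Nat.add (f x9299) (Nat.add (f x9301)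
    (Nat.add (f x9303) (Nat.add (f x9307) (Nat.add (f x9309) (Nat.add (f x9323) (Nat.add (f x9329)
    (Nat.add (f x9331) (Nat.add (f x9335) (Nat.add (f x9337) (Nat.add (f x9339) (Nat.add (f x9347)
    (Nat.add (f x9349) (Nat.add (f x9353) (Nat.add (f x9355) (Nat.add (f x9357) (Nat.add (f x9361)
    (Nat.add (f x9363) (Nat.add (f x9371) (Nat.add (f x9373) (Nat.add (f x9375) (Nat.add (f x9379)
    (Nat.add (f x9381) (Nat.add (f x9387) (Nat.add (f x9401) (Nat.add (f x9403) (Nat.add (f x9407)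
    (Nat.add (f x9409) (Nat.add (f x9411) (Nat.add (f x9415) (Nat.add (f x9417) (Nat.add (f x9425)
    (Nat.add (f x9427) (Nat.add (f x9429) (Nat.add (f x9433) (Nat.add (f x9435) (Nat.add (f x9441)
    (Nat.add (f x9451) (Nat.add (f x9453) (Nat.add (f x9459) (Nat.add (f x9503)
    0)))))))))))))))))))))))))))))))))))))))))))))))))))))))))))) (Nat.add (Nat.add (f x9521)
    (Nat.add (f x9527) (Nat.add (f x9529) (Nat.add (f x9539) (Nat.add (f x9545) (Nat.add (f x9547)
    (Nat.add (f x9551) (Nat.add (f x9553) (Nat.add (f x9555) (Nat.add (f x9575) (Nat.add (f x9581)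
    (Nat.add (f x9583) (Nat.add (f x9593) (Nat.add (f x9599) (Nat.add (f x9601) (Nat.add (f x9605)
    (Nat.add (f x9607) (Nat.add (f x9609) (Nat.add (f x9617) (Nat.add (f x9619) (Nat.add (f x9623)
    (Nat.add (f x9625) (Nat.add (f x9627) (Nat.add (f x9631) (Nat.add (f x9633) (Nat.add (f x9647)
    (Nat.add (f x9653) (Nat.add (f x9655) (Nat.add (f x9659) (Nat.add (f x9661) (Nat.add (f x9663)
    (Nat.add (f x9671) (Nat.add (f x9673) (Nat.add (f x9677) (Nat.add (f x9679) (Nat.add (f x9681)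
    (Nat.add (f x9685) (Nat.add (f x9687) (Nat.add (f x9695) (Nat.add (f x9697) (Nat.add (f x9699)
    (Nat.add (f x9703) (Nat.add (f x9705) (Nat.add (f x9711) (Nat.add (f x9737) (Nat.add (f x9743)
    (Nat.add (f x9745) (Nat.add (f x9755) (Nat.add (f x9761) (Nat.add (f x9763) (Nat.add (f x9767)
    (Nat.add (f x9769) (Nat.add (f x9771) (Nat.add (f x9779) (Nat.add (f x9781) (Nat.add (f x9785)
    (Nat.add (f x9787) (Nat.add (f x9789) (Nat.add (f x9793) (Nat.add (f x9795)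
    0)))))))))))))))))))))))))))))))))))))))))))))))))))))))))))) (Nat.add (Nat.add (f x9809)
    (Nat.add (f x9815) (Nat.add (f x9817) (Nat.add (f x9821) (Nat.add (f x9823) (Nat.add (f x9825)
    (Nat.add (f x9833) (Nat.add (f x9835) (Nat.add (f x9839) (Nat.add (f x9841) (Nat.add (f x9843)
    (Nat.add (f x9847) (Nat.add (f x9849) (Nat.add (f x9857) (Nat.add (f x9859) (Nat.add (f x9861)
    (Nat.add (f x9865) (Nat.add (f x9867) (Nat.add (f x9873) (Nat.add (f x9887) (Nat.add (f x9889)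
    (Nat.add (f x9893) (Nat.add (f x9895) (Nat.add (f x9897) (Nat.add (f x9901) (Nat.add (f x9903)
    (Nat.add (f x9911) (Nat.add (f x9913) (Nat.add (f x9915) (Nat.add (f x9919) (Nat.add (f x9921)
    (Nat.add (f x9927) (Nat.add (f x9937) (Nat.add (f x9939) (Nat.add (f x9945) (Nat.add (f x9971)
    (Nat.add (f x9977) (Nat.add (f x9979) (Nat.add (f x9983) (Nat.add (f x9985) (Nat.add (f x9987)
    (Nat.add (f x9995) (Nat.add (f x9997) (Nat.add (f x10001) (Nat.add (f x10003) (Nat.add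
    (f x10005) (Nat.add (f x10009) (Nat.add (f x10011) (Nat.add (f x10019) (Nat.add (f x10021)
    (Nat.add (f x10023) (Nat.add (f x10027) (Nat.add (f x10029) (Nat.add (f x10035) (Nat.add
    (f x10049) (Nat.add (f x10051) (Nat.add (f x10055) (Nat.add (f x10057) (Nat.add (f x10059)
    (Nat.add (f x10063) 0)))))))))))))))))))))))))))))))))))))))))))))))))))))))))))) (Nat.add
    (Nat.add (f x10065) (Nat.add (f x10073) (Nat.add (f x10075) (Nat.add (f x10077) (Nat.add
    (f x10081) (Nat.add (f x10083) (Nat.add (f x10089) (Nat.add (f x10099) (Nat.add (f x10101)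
    (Nat.add (f x10107) (Nat.add (f x10127) (Nat.add (f x10129) (Nat.add (f x10131) (Nat.add
    (f x10135) (Nat.add (f x10137) (Nat.add (f x10143) (Nat.add (f x10153) (Nat.add (f x10155)
    (Nat.add (f x10161) (Nat.add (f x10179) (Nat.add (f x10223) (Nat.add (f x10229) (Nat.add
    (f x10231) (Nat.add (f x10241) (Nat.add (f x10247) (Nat.add (f x10249) (Nat.add (f x10253)
    (Nat.add (f x10255) (Nat.add (f x10257) (Nat.add (f x10265) (Nat.add (f x10267) (Nat.add
    (f x10271) (Nat.add (f x10273) (Nat.add (f x10275) (Nat.add (f x10279) (Nat.add (f x10281)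
    (Nat.add (f x10295) (Nat.add (f x10301) (Nat.add (f x10303) (Nat.add (f x10307) (Nat.add
    (f x10309) (Nat.add (f x10311) (Nat.add (f x10319) (Nat.add (f x10321) (Nat.add (f x10325)
    (Nat.add (f x10327) (Nat.add (f x10329) (Nat.add (f x10333) (Nat.add (f x10335) (Nat.add
    (f x10343) (Nat.add (f x10345) (Nat.add (f x10347) (Nat.add (f x10351) (Nat.add (f x10353)
    (Nat.add (f x10359) (Nat.add (f x10373) (Nat.add (f x10375) (Nat.add (f x10379) (Nat.add
    (f x10381) (Nat.add (f x10383) 0))))))))))))))))))))))))))))))))))))))))))))))))))))))))))))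
    (Nat.add (Nat.add (f x10387) (Nat.add (f x10389) (Nat.add (f x10397) (Nat.add (f x10399)
    (Nat.add (f x10401) (Nat.add (f x10405) (Nat.add (f x10407) (Nat.add (f x10413) (Nat.add
    (f x10423) (Nat.add (f x10425) (Nat.add (f x10431) (Nat.add (f x10457) (Nat.add (f x10463)
    (Nat.add (f x10465) (Nat.add (f x10469) (Nat.add (f x10471) (Nat.add (f x10473) (Nat.add
    (f x10481) (Nat.add (f x10483) (Nat.add (f x10487) (Nat.add (f x10489) (Nat.add (f x10491)
    (Nat.add (f x10495) (Nat.add (f x10497) (Nat.add (f x10505) (Nat.add (f x10507) (Nat.add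
    (f x10509) (Nat.add (f x10513) (Nat.add (f x10515) (Nat.add (f x10521) (Nat.add (f x10535)
    (Nat.add (f x10537) (Nat.add (f x10541) (Nat.add (f x10543) (Nat.add (f x10545) (Nat.add
    (f x10549) (Nat.add (f x10551) (Nat.add (f x10559) (Nat.add (f x10561) (Nat.add (f x10563)
    (Nat.add (f x10567) (Nat.add (f x10569) (Nat.add (f x10575) (Nat.add (f x10585) (Nat.add
    (f x10587) (Nat.add (f x10593) (Nat.add (f x10613) (Nat.add (f x10615) (Nat.add (f x10617)
    (Nat.add (f x10621) (Nat.add (f x10623) (Nat.add (f x10629) (Nat.add (f x10639) (Nat.add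
    (f x10641) (Nat.add (f x10647) (Nat.add (f x10665) (Nat.add (f x10697) (Nat.add (f x10699)
    (Nat.add (f x10703) (Nat.add (f x10705)
    0)))))))))))))))))))))))))))))))))))))))))))))))))))))))))))) (Nat.add (Nat.add (f x10707)
    (Nat.add (f x10711) (Nat.add (f x10713) (Nat.add (f x10721) (Nat.add (f x10723) (Nat.add
    (f x10725) (Nat.add (f x10729) (Nat.add (f x10731) (Nat.add (f x10737) (Nat.add (f x10747)
    (Nat.add (f x10749) (Nat.add (f x10755) (Nat.add (f x10775) (Nat.add (f x10777) (Nat.add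
    (f x10779) (Nat.add (f x10783) (Nat.add (f x10785) (Nat.add (f x10791) (Nat.add (f x10801)
    (Nat.add (f x10803) (Nat.add (f x10809) (Nat.add (f x10827) (Nat.add (f x10855) (Nat.add
    (f x10857) (Nat.add (f x10863) (Nat.add (f x10881) (Nat.add (f x10961) (Nat.add (f x10979)
    (Nat.add (f x10985) (Nat.add (f x10987) (Nat.add (f x10997) (Nat.add (f x11003) (Nat.add
    (f x11005) (Nat.add (f x11009) (Nat.add (f x11011) (Nat.add (f x11013) (Nat.add (f x11033)
    (Nat.add (f x11039) (Nat.add (f x11041) (Nat.add (f x11051) (Nat.add (f x11057) (Nat.add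
    (f x11059) (Nat.add (f x11063) (Nat.add (f x11065) (Nat.add (f x11067) (Nat.add (f x11075)
    (Nat.add (f x11077) (Nat.add (f x11081) (Nat.add (f x11083) (Nat.add (f x11085) (Nat.add
    (f x11089) (Nat.add (f x11091) (Nat.add (f x11105) (Nat.add (f x11111) (Nat.add (f x11113)
    (Nat.add (f x11117) (Nat.add (f x11119) (Nat.add (f x11121) (Nat.add (f x11129) (Nat.add
    (f x11131) 0)))))))))))))))))))))))))))))))))))))))))))))))))))))))))))) (Nat.add (Nat.add
    (f x11135) (Nat.add (f x11137) (Nat.add (f x11139) (Nat.add (f x11143) (Nat.add (f x11145)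
    (Nat.add (f x11153) (Nat.add (f x11155) (Nat.add (f x11157) (Nat.add (f x11161) (Nat.add
    (f x11163) (Nat.add (f x11169) (Nat.add (f x11195) (Nat.add (f x11201) (Nat.add (f x11203)
    (Nat.add (f x11213) (Nat.add (f x11219) (Nat.add (f x11221) (Nat.add (f x11225) (Nat.add
    (f x11227) (Nat.add (f x11229) (Nat.add (f x11237) (Nat.add (f x11239) (Nat.add (f x11243)
    (Nat.add (f x11245) (Nat.add (f x11247) (Nat.add (f x11251) (Nat.add (f x11253) (Nat.add
    (f x11267) (Nat.add (f x11273) (Nat.add (f x11275) (Nat.add (f x11279) (Nat.add (f x11281)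
    (Nat.add (f x11283) (Nat.add (f x11291) (Nat.add (f x11293) (Nat.add (f x11297) (Nat.add
    (f x11299) (Nat.add (f x11301) (Nat.add (f x11305) (Nat.add (f x11307) (Nat.add (f x11315)
    (Nat.add (f x11317) (Nat.add (f x11319) (Nat.add (f x11323) (Nat.add (f x11325) (Nat.add
    (f x11331) (Nat.add (f x11345) (Nat.add (f x11347) (Nat.add (f x11351) (Nat.add (f x11353)
    (Nat.add (f x11355) (Nat.add (f x11359) (Nat.add (f x11361) (Nat.add (f x11369) (Nat.add
    (f x11371) (Nat.add (f x11373) (Nat.add (f x11377) (Nat.add (f x11379) (Nat.add (f x11385)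
    (Nat.add (f x11395) 0)))))))))))))))))))))))))))))))))))))))))))))))))))))))))))) (Nat.add
    (Nat.add (f x11397) (Nat.add (f x11403) (Nat.add (f x11429) (Nat.add (f x11435) (Nat.add
    (f x11437) (Nat.add (f x11441) (Nat.add (f x11443) (Nat.add (f x11445) (Nat.add (f x11453)
    (Nat.add (f x11455) (Nat.add (f x11459) (Nat.add (f x11461) (Nat.add (f x11463) (Nat.add
    (f x11467) (Nat.add (f x11469) (Nat.add (f x11477) (Nat.add (f x11479) (Nat.add (f x11481)
    (Nat.add (f x11485) (Nat.add (f x11487) (Nat.add (f x11493) (Nat.add (f x11507) (Nat.add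
    (f x11509) (Nat.add (f x11513) (Nat.add (f x11515) (Nat.add (f x11517) (Nat.add (f x11521)
    (Nat.add (f x11523) (Nat.add (f x11531) (Nat.add (f x11533) (Nat.add (f x11535) (Nat.add
    (f x11539) (Nat.add (f x11541) (Nat.add (f x11547) (Nat.add (f x11557) (Nat.add (f x11559)
    (Nat.add (f x11565) (Nat.add (f x11585) (Nat.add (f x11587) (Nat.add (f x11589) (Nat.add
    (f x11593) (Nat.add (f x11595) (Nat.add (f x11601) (Nat.add (f x11611) (Nat.add (f x11613)
    (Nat.add (f x11619) (Nat.add (f x11637) (Nat.add (f x11681) (Nat.add (f x11687) (Nat.add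
    (f x11689) (Nat.add (f x11699) (Nat.add (f x11705) (Nat.add (f x11707) (Nat.add (f x11711)
    (Nat.add (f x11713) (Nat.add (f x11715) (Nat.add (f x11723) (Nat.add (f x11725) (Nat.add
    (f x11729) (Nat.add (f x11731) 0))))))))))))))))))))))))))))))))))))))))))))))))))))))))))))
    (Nat.add (Nat.add (f x11733) (Nat.add (f x11737) (Nat.add (f x11739) (Nat.add (f x11753)
    (Nat.add (f x11759) (Nat.add (f x11761) (Nat.add (f x11765) (Nat.add (f x11767) (Nat.add
    (f x11769) (Nat.add (f x11777) (Nat.add (f x11779) (Nat.add (f x11783) (Nat.add (f x11785)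
    (Nat.add (f x11787) (Nat.add (f x11791) (Nat.add (f x11793) (Nat.add (f x11801) (Nat.add
    (f x11803) (Nat.add (f x11805) (Nat.add (f x11809) (Nat.add (f x11811) (Nat.add (f x11817)
    (Nat.add (f x11831) (Nat.add (f x11833) (Nat.add (f x11837) (Nat.add (f x11839) (Nat.add
    (f x11841) (Nat.add (f x11845) (Nat.add (f x11847) (Nat.add (f x11855) (Nat.add (f x11857)
    (Nat.add (f x11859) (Nat.add (f x11863) (Nat.add (f x11865) (Nat.add (f x11871) (Nat.add
    (f x11881) (Nat.add (f x11883) (Nat.add (f x11889) (Nat.add (f x11915) (Nat.add (f x11921)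
    (Nat.add (f x11923) (Nat.add (f x11927) (Nat.add (f x11929) (Nat.add (f x11931) (Nat.add
    (f x11939) (Nat.add (f x11941) (Nat.add (f x11945) (Nat.add (f x11947) (Nat.add (f x11949)
    (Nat.add (f x11953) (Nat.add (f x11955) (Nat.add (f x11963) (Nat.add (f x11965) (Nat.add
    (f x11967) (Nat.add (f x11971) (Nat.add (f x11973) (Nat.add (f x11979) (Nat.add (f x11993)
    (Nat.add (f x11995) (Nat.add (f x11999)
    0)))))))))))))))))))))))))))))))))))))))))))))))))))))))))))) (Nat.add (Nat.add (f x12001)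
    (Nat.add (f x12003) (Nat.add (f x12007) (Nat.add (f x12009) (Nat.add (f x12017) (Nat.add
    (f x12019) (Nat.add (f x12021) (Nat.add (f x12025) (Nat.add (f x12027) (Nat.add (f x12033)
    (Nat.add (f x12043) (Nat.add (f x12045) (Nat.add (f x12051) (Nat.add (f x12071) (Nat.add
    (f x12073) (Nat.add (f x12075) (Nat.add (f x12079) (Nat.add (f x12081) (Nat.add (f x12087)
    (Nat.add (f x12097) (Nat.add (f x12099) (Nat.add (f x12105) (Nat.add (f x12123) (Nat.add
    (f x12155) (Nat.add (f x12157) (Nat.add (f x12161) (Nat.add (f x12163) (Nat.add (f x12165)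
    (Nat.add (f x12169) (Nat.add (f x12171) (Nat.add (f x12179) (Nat.add (f x12181) (Nat.add
    (f x12183) (Nat.add (f x12187) (Nat.add (f x12189) (Nat.add (f x12195) (Nat.add (f x12205)
    (Nat.add (f x12207) (Nat.add (f x12213) (Nat.add (f x12233) (Nat.add (f x12235) (Nat.add
    (f x12237) (Nat.add (f x12241) (Nat.add (f x12243) (Nat.add (f x12249) (Nat.add (f x12259)
    (Nat.add (f x12261) (Nat.add (f x12267) (Nat.add (f x12285) (Nat.add (f x12313) (Nat.add
    (f x12315) (Nat.add (f x12321) (Nat.add (f x12339) (Nat.add (f x12401) (Nat.add (f x12407)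
    (Nat.add (f x12409) (Nat.add (f x12413) (Nat.add (f x12415) (Nat.add (f x12417) (Nat.add
    (f x12425) 0)))))))))))))))))))))))))))))))))))))))))))))))))))))))))))) (Nat.add (Nat.add
    (f x12427) (Nat.add (f x12431) (Nat.add (f x12433) (Nat.add (f x12435) (Nat.add (f x12439)
    (Nat.add (f x12441) (Nat.add (f x12449) (Nat.add (f x12451) (Nat.add (f x12453) (Nat.add
    (f x12457) (Nat.add (f x12459) (Nat.add (f x12465) (Nat.add (f x12479) (Nat.add (f x12481)
    (Nat.add (f x12485) (Nat.add (f x12487) (Nat.add (f x12489) (Nat.add (f x12493) (Nat.add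
    (f x12495) (Nat.add (f x12503) (Nat.add (f x12505) (Nat.add (f x12507) (Nat.add (f x12511)
    (Nat.add (f x12513) (Nat.add (f x12519) (Nat.add (f x12529) (Nat.add (f x12531) (Nat.add
    (f x12537) (Nat.add (f x12557) (Nat.add (f x12559) (Nat.add (f x12561) (Nat.add (f x12565)
    (Nat.add (f x12567) (Nat.add (f x12573) (Nat.add (f x12583) (Nat.add (f x12585) (Nat.add
    (f x12591) (Nat.add (f x12609) (Nat.add (f x12641) (Nat.add (f x12643) (Nat.add (f x12647)
    (Nat.add (f x12649) (Nat.add (f x12651) (Nat.add (f x12655) (Nat.add (f x12657) (Nat.add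
    (f x12665) (Nat.add (f x12667) (Nat.add (f x12669) (Nat.add (f x12673) (Nat.add (f x12675)
    (Nat.add (f x12681) (Nat.add (f x12691) (Nat.add (f x12693) (Nat.add (f x12699) (Nat.add
    (f x12719) (Nat.add (f x12721) (Nat.add (f x12723) (Nat.add (f x12727) (Nat.add (f x12729)
    (Nat.add (f x12735) 0)))))))))))))))))))))))))))))))))))))))))))))))))))))))))))) (Nat.add
    (Nat.add (f x12745) (Nat.add (f x12747) (Nat.add (f x12753) (Nat.add (f x12771) (Nat.add
    (f x12799) (Nat.add (f x12801) (Nat.add (f x12807) (Nat.add (f x12825) (Nat.add (f x12881)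
    (Nat.add (f x12883) (Nat.add (f x12885) (Nat.add (f x12889) (Nat.add (f x12891) (Nat.add
    (f x12897) (Nat.add (f x12907) (Nat.add (f x12909) (Nat.add (f x12915) (Nat.add (f x12933)
    (Nat.add (f x12961) (Nat.add (f x12963) (Nat.add (f x12969) (Nat.add (f x12987) (Nat.add
    (f x13041) (Nat.add (f x13175) (Nat.add (f x13193) (Nat.add (f x13199) (Nat.add (f x13201)
    (Nat.add (f x13229) (Nat.add (f x13247) (Nat.add (f x13253) (Nat.add (f x13255) (Nat.add
    (f x13265) (Nat.add (f x13271) (Nat.add (f x13273) (Nat.add (f x13277) (Nat.add (f x13279)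
    (Nat.add (f x13281) (Nat.add (f x13301) (Nat.add (f x13307) (Nat.add (f x13309) (Nat.add
    (f x13319) (Nat.add (f x13325) (Nat.add (f x13327) (Nat.add (f x13331) (Nat.add (f x13333)
    (Nat.add (f x13335) (Nat.add (f x13343) (Nat.add (f x13345) (Nat.add (f x13349) (Nat.add
    (f x13351) (Nat.add (f x13353) (Nat.add (f x13357) (Nat.add (f x13359) (Nat.add (f x13391)
    (Nat.add (f x13409) (Nat.add (f x13415) (Nat.add (f x13417) (Nat.add (f x13427) (Nat.add
    (f x13433) (Nat.add (f x13435) 0))))))))))))))))))))))))))))))))))))))))))))))))))))))))))))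
    (Nat.add (Nat.add (f x13439) (Nat.add (f x13441) (Nat.add (f x13443) (Nat.add (f x13463)
    (Nat.add (f x13469) (Nat.add (f x13471) (Nat.add (f x13481) (Nat.add (f x13487) (Nat.add
    (f x13489) (Nat.add (f x13493) (Nat.add (f x13495) (Nat.add (f x13497) (Nat.add (f x13505)
    (Nat.add (f x13507) (Nat.add (f x13511) (Nat.add (f x13513) (Nat.add (f x13515) (Nat.add
    (f x13519) (Nat.add (f x13521) (Nat.add (f x13535) (Nat.add (f x13541) (Nat.add (f x13543)
    (Nat.add (f x13547) (Nat.add (f x13549) (Nat.add (f x13551) (Nat.add (f x13559) (Nat.add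
    (f x13561) (Nat.add (f x13565) (Nat.add (f x13567) (Nat.add (f x13569) (Nat.add (f x13573)
    (Nat.add (f x13575) (Nat.add (f x13583) (Nat.add (f x13585) (Nat.add (f x13587) (Nat.add
    (f x13591) (Nat.add (f x13593) (Nat.add (f x13599) (Nat.add (f x13625) (Nat.add (f x13631)
    (Nat.add (f x13633) (Nat.add (f x13643) (Nat.add (f x13649) (Nat.add (f x13651) (Nat.add
    (f x13655) (Nat.add (f x13657) (Nat.add (f x13659) (Nat.add (f x13667) (Nat.add (f x13669)
    (Nat.add (f x13673) (Nat.add (f x13675) (Nat.add (f x13677) (Nat.add (f x13681) (Nat.add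
    (f x13683) (Nat.add (f x13697) (Nat.add (f x13703) (Nat.add (f x13705) (Nat.add (f x13709)
    (Nat.add (f x13711) (Nat.add (f x13713)
    0)))))))))))))))))))))))))))))))))))))))))))))))))))))))))))) (Nat.add (Nat.add (f x13721)
    (Nat.add (f x13723) (Nat.add (f x13727) (Nat.add (f x13729) (Nat.add (f x13731) (Nat.add
    (f x13735) (Nat.add (f x13737) (Nat.add (f x13745) (Nat.add (f x13747) (Nat.add (f x13749)
    (Nat.add (f x13753) (Nat.add (f x13755) (Nat.add (f x13761) (Nat.add (f x13775) (Nat.add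
    (f x13777) (Nat.add (f x13781) (Nat.add (f x13783) (Nat.add (f x13785) (Nat.add (f x13789)
    (Nat.add (f x13791) (Nat.add (f x13799) (Nat.add (f x13801) (Nat.add (f x13803) (Nat.add
    (f x13807) (Nat.add (f x13809) (Nat.add (f x13815) (Nat.add (f x13825) (Nat.add (f x13827)
    (Nat.add (f x13833) (Nat.add (f x13877) (Nat.add (f x13895) (Nat.add (f x13901) (Nat.add
    (f x13903) (Nat.add (f x13913) (Nat.add (f x13919) (Nat.add (f x13921) (Nat.add (f x13925)
    (Nat.add (f x13927) (Nat.add (f x13929) (Nat.add (f x13949) (Nat.add (f x13955) (Nat.add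
    (f x13957) (Nat.add (f x13967) (Nat.add (f x13973) (Nat.add (f x13975) (Nat.add (f x13979)
    (Nat.add (f x13981) (Nat.add (f x13983) (Nat.add (f x13991) (Nat.add (f x13993) (Nat.add
    (f x13997) (Nat.add (f x13999) (Nat.add (f x14001) (Nat.add (f x14005) (Nat.add (f x14007)
    (Nat.add (f x14021) (Nat.add (f x14027) (Nat.add (f x14029) (Nat.add (f x14033) (Nat.add
    (f x14035) 0)))))))))))))))))))))))))))))))))))))))))))))))))))))))))))) (Nat.add (Nat.add
    (f x14037) (Nat.add (f x14045) (Nat.add (f x14047) (Nat.add (f x14051) (Nat.add (f x14053)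
    (Nat.add (f x14055) (Nat.add (f x14059) (Nat.add (f x14061) (Nat.add (f x14069) (Nat.add
    (f x14071) (Nat.add (f x14073) (Nat.add (f x14077) (Nat.add (f x14079) (Nat.add (f x14085)
    (Nat.add (f x14111) (Nat.add (f x14117) (Nat.add (f x14119) (Nat.add (f x14129) (Nat.add
    (f x14135) (Nat.add (f x14137) (Nat.add (f x14141) (Nat.add (f x14143) (Nat.add (f x14145)
    (Nat.add (f x14153) (Nat.add (f x14155) (Nat.add (f x14159) (Nat.add (f x14161) (Nat.add
    (f x14163) (Nat.add (f x14167) (Nat.add (f x14169) (Nat.add (f x14183) (Nat.add (f x14189)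
    (Nat.add (f x14191) (Nat.add (f x14195) (Nat.add (f x14197) (Nat.add (f x14199) (Nat.add
    (f x14207) (Nat.add (f x14209) (Nat.add (f x14213) (Nat.add (f x14215) (Nat.add (f x14217)
    (Nat.add (f x14221) (Nat.add (f x14223) (Nat.add (f x14231) (Nat.add (f x14233) (Nat.add
    (f x14235) (Nat.add (f x14239) (Nat.add (f x14241) (Nat.add (f x14247) (Nat.add (f x14261)
    (Nat.add (f x14263) (Nat.add (f x14267) (Nat.add (f x14269) (Nat.add (f x14271) (Nat.add
    (f x14275) (Nat.add (f x14277) (Nat.add (f x14285) (Nat.add (f x14287) (Nat.add (f x14289)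
    (Nat.add (f x14293) 0)))))))))))))))))))))))))))))))))))))))))))))))))))))))))))) (Nat.add
    (Nat.add (f x14295) (Nat.add (f x14301) (Nat.add (f x14311) (Nat.add (f x14313) (Nat.add
    (f x14319) (Nat.add (f x14345) (Nat.add (f x14351) (Nat.add (f x14353) (Nat.add (f x14357)
    (Nat.add (f x14359) (Nat.add (f x14361) (Nat.add (f x14369) (Nat.add (f x14371) (Nat.add
    (f x14375) (Nat.add (f x14377) (Nat.add (f x14379) (Nat.add (f x14383) (Nat.add (f x14385)
    (Nat.add (f x14393) (Nat.add (f x14395) (Nat.add (f x14397) (Nat.add (f x14401) (Nat.add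
    (f x14403) (Nat.add (f x14409) (Nat.add (f x14423) (Nat.add (f x14425) (Nat.add (f x14429)
    (Nat.add (f x14431) (Nat.add (f x14433) (Nat.add (f x14437) (Nat.add (f x14439) (Nat.add
    (f x14447) (Nat.add (f x14449) (Nat.add (f x14451) (Nat.add (f x14455) (Nat.add (f x14457)
    (Nat.add (f x14463) (Nat.add (f x14473) (Nat.add (f x14475) (Nat.add (f x14481) (Nat.add
    (f x14501) (Nat.add (f x14503) (Nat.add (f x14505) (Nat.add (f x14509) (Nat.add (f x14511)
    (Nat.add (f x14517) (Nat.add (f x14527) (Nat.add (f x14529) (Nat.add (f x14535) (Nat.add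
    (f x14553) (Nat.add (f x14597) (Nat.add (f x14603) (Nat.add (f x14605) (Nat.add (f x14615)
    (Nat.add (f x14621) (Nat.add (f x14623) (Nat.add (f x14627) (Nat.add (f x14629) (Nat.add
    (f x14631) (Nat.add (f x14639) 0))))))))))))))))))))))))))))))))))))))))))))))))))))))))))))
    (Nat.add (Nat.add (f x14641) (Nat.add (f x14645) (Nat.add (f x14647) (Nat.add (f x14649)
    (Nat.add (f x14653) (Nat.add (f x14655) (Nat.add (f x14669) (Nat.add (f x14675) (Nat.add
    (f x14677) (Nat.add (f x14681) (Nat.add (f x14683) (Nat.add (f x14685) (Nat.add (f x14693)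
    (Nat.add (f x14695) (Nat.add (f x14699) (Nat.add (f x14701) (Nat.add (f x14703) (Nat.add
    (f x14707) (Nat.add (f x14709) (Nat.add (f x14717) (Nat.add (f x14719) (Nat.add (f x14721)
    (Nat.add (f x14725) (Nat.add (f x14727) (Nat.add (f x14733) (Nat.add (f x14747) (Nat.add
    (f x14749) (Nat.add (f x14753) (Nat.add (f x14755) (Nat.add (f x14757) (Nat.add (f x14761)
    (Nat.add (f x14763) (Nat.add (f x14771) (Nat.add (f x14773) (Nat.add (f x14775) (Nat.add
    (f x14779) (Nat.add (f x14781) (Nat.add (f x14787) (Nat.add (f x14797) (Nat.add (f x14799)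
    (Nat.add (f x14805) (Nat.add (f x14831) (Nat.add (f x14837) (Nat.add (f x14839) (Nat.add
    (f x14843) (Nat.add (f x14845) (Nat.add (f x14847) (Nat.add (f x14855) (Nat.add (f x14857)
    (Nat.add (f x14861) (Nat.add (f x14863) (Nat.add (f x14865) (Nat.add (f x14869) (Nat.add
    (f x14871) (Nat.add (f x14879) (Nat.add (f x14881) (Nat.add (f x14883) (Nat.add (f x14887)
    (Nat.add (f x14889) (Nat.add (f x14895)
    0)))))))))))))))))))))))))))))))))))))))))))))))))))))))))))) (Nat.add (Nat.add (f x14909)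
    (Nat.add (f x14911) (Nat.add (f x14915) (Nat.add (f x14917) (Nat.add (f x14919) (Nat.add
    (f x14923) (Nat.add (f x14925) (Nat.add (f x14933) (Nat.add (f x14935) (Nat.add (f x14937)
    (Nat.add (f x14941) (Nat.add (f x14943) (Nat.add (f x14949) (Nat.add (f x14959) (Nat.add
    (f x14961) (Nat.add (f x14967) (Nat.add (f x14987) (Nat.add (f x14989) (Nat.add (f x14991)
    (Nat.add (f x14995) (Nat.add (f x14997) (Nat.add (f x15003) (Nat.add (f x15013) (Nat.add
    (f x15015) (Nat.add (f x15021) (Nat.add (f x15039) (Nat.add (f x15071) (Nat.add (f x15073)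
    (Nat.add (f x15077) (Nat.add (f x15079) (Nat.add (f x15081) (Nat.add (f x15085) (Nat.add
    (f x15087) (Nat.add (f x15095) (Nat.add (f x15097) (Nat.add (f x15099) (Nat.add (f x15103)
    (Nat.add (f x15105) (Nat.add (f x15111) (Nat.add (f x15121) (Nat.add (f x15123) (Nat.add
    (f x15129) (Nat.add (f x15149) (Nat.add (f x15151) (Nat.add (f x15153) (Nat.add (f x15157)
    (Nat.add (f x15159) (Nat.add (f x15165) (Nat.add (f x15175) (Nat.add (f x15177) (Nat.add
    (f x15183) (Nat.add (f x15201) (Nat.add (f x15229) (Nat.add (f x15231) (Nat.add (f x15237)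
    (Nat.add (f x15255) (Nat.add (f x15335) (Nat.add (f x15353) (Nat.add (f x15359) (Nat.add
    (f x15361) 0)))))))))))))))))))))))))))))))))))))))))))))))))))))))))))) (Nat.add (Nat.add
    (f x15371) (Nat.add (f x15377) (Nat.add (f x15379) (Nat.add (f x15383) (Nat.add (f x15385)
    (Nat.add (f x15387) (Nat.add (f x15407) (Nat.add (f x15413) (Nat.add (f x15415) (Nat.add
    (f x15425) (Nat.add (f x15431) (Nat.add (f x15433) (Nat.add (f x15437) (Nat.add (f x15439)
    (Nat.add (f x15441) (Nat.add (f x15449) (Nat.add (f x15451) (Nat.add (f x15455) (Nat.add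
    (f x15457) (Nat.add (f x15459) (Nat.add (f x15463) (Nat.add (f x15465) (Nat.add (f x15479)
    (Nat.add (f x15485) (Nat.add (f x15487) (Nat.add (f x15491) (Nat.add (f x15493) (Nat.add
    (f x15495) (Nat.add (f x15503) (Nat.add (f x15505) (Nat.add (f x15509) (Nat.add (f x15511)
    (Nat.add (f x15513) (Nat.add (f x15517) (Nat.add (f x15519) (Nat.add (f x15527) (Nat.add
    (f x15529) (Nat.add (f x15531) (Nat.add (f x15535) (Nat.add (f x15537) (Nat.add (f x15543)
    (Nat.add (f x15569) (Nat.add (f x15575) (Nat.add (f x15577) (Nat.add (f x15587) (Nat.add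
    (f x15593) (Nat.add (f x15595) (Nat.add (f x15599) (Nat.add (f x15601) (Nat.add (f x15603)
    (Nat.add (f x15611) (Nat.add (f x15613) (Nat.add (f x15617) (Nat.add (f x15619) (Nat.add
    (f x15621) (Nat.add (f x15625) (Nat.add (f x15627) (Nat.add (f x15641) (Nat.add (f x15647)
    (Nat.add (f x15649) 0)))))))))))))))))))))))))))))))))))))))))))))))))))))))))))) (Nat.add
    (Nat.add (f x15653) (Nat.add (f x15655) (Nat.add (f x15657) (Nat.add (f x15665) (Nat.add
    (f x15667) (Nat.add (f x15671) (Nat.add (f x15673) (Nat.add (f x15675) (Nat.add (f x15679)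
    (Nat.add (f x15681) (Nat.add (f x15689) (Nat.add (f x15691) (Nat.add (f x15693) (Nat.add
    (f x15697) (Nat.add (f x15699) (Nat.add (f x15705) (Nat.add (f x15719) (Nat.add (f x15721)
    (Nat.add (f x15725) (Nat.add (f x15727) (Nat.add (f x15729) (Nat.add (f x15733) (Nat.add
    (f x15735) (Nat.add (f x15743) (Nat.add (f x15745) (Nat.add (f x15747) (Nat.add (f x15751)
    (Nat.add (f x15753) (Nat.add (f x15759) (Nat.add (f x15769) (Nat.add (f x15771) (Nat.add
    (f x15777) (Nat.add (f x15803) (Nat.add (f x15809) (Nat.add (f x15811) (Nat.add (f x15815)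
    (Nat.add (f x15817) (Nat.add (f x15819) (Nat.add (f x15827) (Nat.add (f x15829) (Nat.add
    (f x15833) (Nat.add (f x15835) (Nat.add (f x15837) (Nat.add (f x15841) (Nat.add (f x15843)
    (Nat.add (f x15851) (Nat.add (f x15853) (Nat.add (f x15855) (Nat.add (f x15859) (Nat.add
    (f x15861) (Nat.add (f x15867) (Nat.add (f x15881) (Nat.add (f x15883) (Nat.add (f x15887)
    (Nat.add (f x15889) (Nat.add (f x15891) (Nat.add (f x15895) (Nat.add (f x15897) (Nat.add
    (f x15905) (Nat.add (f x15907) 0))))))))))))))))))))))))))))))))))))))))))))))))))))))))))))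
    (Nat.add (Nat.add (f x15909) (Nat.add (f x15913) (Nat.add (f x15915) (Nat.add (f x15921)
    (Nat.add (f x15931) (Nat.add (f x15933) (Nat.add (f x15939) (Nat.add (f x15959) (Nat.add
    (f x15961) (Nat.add (f x15963) (Nat.add (f x15967) (Nat.add (f x15969) (Nat.add (f x15975)
    (Nat.add (f x15985) (Nat.add (f x15987) (Nat.add (f x15993) (Nat.add (f x16011) (Nat.add
    (f x16055) (Nat.add (f x16061) (Nat.add (f x16063) (Nat.add (f x16073) (Nat.add (f x16079)
    (Nat.add (f x16081) (Nat.add (f x16085) (Nat.add (f x16087) (Nat.add (f x16089) (Nat.add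
    (f x16097) (Nat.add (f x16099) (Nat.add (f x16103) (Nat.add (f x16105) (Nat.add (f x16107)
    (Nat.add (f x16111) (Nat.add (f x16113) (Nat.add (f x16127) (Nat.add (f x16133) (Nat.add
    (f x16135) (Nat.add (f x16139) (Nat.add (f x16141) (Nat.add (f x16143) (Nat.add (f x16151)
    (Nat.add (f x16153) (Nat.add (f x16157) (Nat.add (f x16159) (Nat.add (f x16161) (Nat.add
    (f x16165) (Nat.add (f x16167) (Nat.add (f x16175) (Nat.add (f x16177) (Nat.add (f x16179)
    (Nat.add (f x16183) (Nat.add (f x16185) (Nat.add (f x16191) (Nat.add (f x16205) (Nat.add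
    (f x16207) (Nat.add (f x16211) (Nat.add (f x16213) (Nat.add (f x16215) (Nat.add (f x16219)
    (Nat.add (f x16221) (Nat.add (f x16229)
    0)))))))))))))))))))))))))))))))))))))))))))))))))))))))))))) (Nat.add (Nat.add (f x16231)
    (Nat.add (f x16233) (Nat.add (f x16237) (Nat.add (f x16239) (Nat.add (f x16245) (Nat.add
    (f x16255) (Nat.add (f x16257) (Nat.add (f x16263) (Nat.add (f x16289) (Nat.add (f x16295)
    (Nat.add (f x16297) (Nat.add (f x16301) (Nat.add (f x16303) (Nat.add (f x16305) (Nat.add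
    (f x16313) (Nat.add (f x16315) (Nat.add (f x16319) (Nat.add (f x16321) (Nat.add (f x16323)
    (Nat.add (f x16327) (Nat.add (f x16329) (Nat.add (f x16337) (Nat.add (f x16339) (Nat.add
    (f x16341) (Nat.add (f x16345) (Nat.add (f x16347) (Nat.add (f x16353) (Nat.add (f x16367)
    (Nat.add (f x16369) (Nat.add (f x16373) (Nat.add (f x16375) (Nat.add (f x16377) (Nat.add
    (f x16381) (Nat.add (f x16383) (Nat.add (f x16391) (Nat.add (f x16393) (Nat.add (f x16395)
    (Nat.add (f x16399) (Nat.add (f x16401) (Nat.add (f x16407) (Nat.add (f x16417) (Nat.add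
    (f x16419) (Nat.add (f x16425) (Nat.add (f x16445) (Nat.add (f x16447) (Nat.add (f x16449)
    (Nat.add (f x16453) (Nat.add (f x16455) (Nat.add (f x16461) (Nat.add (f x16471) (Nat.add
    (f x16473) (Nat.add (f x16479) (Nat.add (f x16497) (Nat.add (f x16529) (Nat.add (f x16531)
    (Nat.add (f x16535) (Nat.add (f x16537) (Nat.add (f x16539) (Nat.add (f x16543) (Nat.add
    (f x16545) 0)))))))))))))))))))))))))))))))))))))))))))))))))))))))))))) (Nat.add (Nat.add
    (f x16553) (Nat.add (f x16555) (Nat.add (f x16557) (Nat.add (f x16561) (Nat.add (f x16563)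
    (Nat.add (f x16569) (Nat.add (f x16579) (Nat.add (f x16581) (Nat.add (f x16587) (Nat.add
    (f x16607) (Nat.add (f x16609) (Nat.add (f x16611) (Nat.add (f x16615) (Nat.add (f x16617)
    (Nat.add (f x16623) (Nat.add (f x16633) (Nat.add (f x16635) (Nat.add (f x16641) (Nat.add
    (f x16659) (Nat.add (f x16687) (Nat.add (f x16689) (Nat.add (f x16695) (Nat.add (f x16713)
    (Nat.add (f x16775) (Nat.add (f x16781) (Nat.add (f x16783) (Nat.add (f x16787) (Nat.add
    (f x16789) (Nat.add (f x16791) (Nat.add (f x16799) (Nat.add (f x16801) (Nat.add (f x16805)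
    (Nat.add (f x16807) (Nat.add (f x16809) (Nat.add (f x16813) (Nat.add (f x16815) (Nat.add
    (f x16823) (Nat.add (f x16825) (Nat.add (f x16827) (Nat.add (f x16831) (Nat.add (f x16833)
    (Nat.add (f x16839) (Nat.add (f x16853) (Nat.add (f x16855) (Nat.add (f x16859) (Nat.add
    (f x16861) (Nat.add (f x16863) (Nat.add (f x16867) (Nat.add (f x16869) (Nat.add (f x16877)
    (Nat.add (f x16879) (Nat.add (f x16881) (Nat.add (f x16885) (Nat.add (f x16887) (Nat.add
    (f x16893) (Nat.add (f x16903) (Nat.add (f x16905) (Nat.add (f x16911) (Nat.add (f x16931)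
    (Nat.add (f x16933) 0)))))))))))))))))))))))))))))))))))))))))))))))))))))))))))) (Nat.add
    (Nat.add (f x16935) (Nat.add (f x16939) (Nat.add (f x16941) (Nat.add (f x16947) (Nat.add
    (f x16957) (Nat.add (f x16959) (Nat.add (f x16965) (Nat.add (f x16983) (Nat.add (f x17015)
    (Nat.add (f x17017) (Nat.add (f x17021) (Nat.add (f x17023) (Nat.add (f x17025) (Nat.add
    (f x17029) (Nat.add (f x17031) (Nat.add (f x17039) (Nat.add (f x17041) (Nat.add (f x17043)
    (Nat.add (f x17047) (Nat.add (f x17049) (Nat.add (f x17055) (Nat.add (f x17065) (Nat.add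
    (f x17067) (Nat.add (f x17073) (Nat.add (f x17093) (Nat.add (f x17095) (Nat.add (f x17097)
    (Nat.add (f x17101) (Nat.add (f x17103) (Nat.add (f x17109) (Nat.add (f x17119) (Nat.add
    (f x17121) (Nat.add (f x17127) (Nat.add (f x17145) (Nat.add (f x17173) (Nat.add (f x17175)
    (Nat.add (f x17181) (Nat.add (f x17199) (Nat.add (f x17255) (Nat.add (f x17257) (Nat.add
    (f x17259) (Nat.add (f x17263) (Nat.add (f x17265) (Nat.add (f x17271) (Nat.add (f x17281)
    (Nat.add (f x17283) (Nat.add (f x17289) (Nat.add (f x17307) (Nat.add (f x17335) (Nat.add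
    (f x17337) (Nat.add (f x17343) (Nat.add (f x17361) (Nat.add (f x17415) (Nat.add (f x17513)
    (Nat.add (f x17519) (Nat.add (f x17521) (Nat.add (f x17531) (Nat.add (f x17537) (Nat.add
    (f x17539) (Nat.add (f x17543) 0))))))))))))))))))))))))))))))))))))))))))))))))))))))))))))
    (Nat.add (Nat.add (f x17545) (Nat.add (f x17547) (Nat.add (f x17555) (Nat.add (f x17557)
    (Nat.add (f x17561) (Nat.add (f x17563) (Nat.add (f x17565) (Nat.add (f x17569) (Nat.add
    (f x17571) (Nat.add (f x17585) (Nat.add (f x17591) (Nat.add (f x17593) (Nat.add (f x17597)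
    (Nat.add (f x17599) (Nat.add (f x17601) (Nat.add (f x17609) (Nat.add (f x17611) (Nat.add
    (f x17615) (Nat.add (f x17617) (Nat.add (f x17619) (Nat.add (f x17623) (Nat.add (f x17625)
    (Nat.add (f x17633) (Nat.add (f x17635) (Nat.add (f x17637) (Nat.add (f x17641) (Nat.add
    (f x17643) (Nat.add (f x17649) (Nat.add (f x17663) (Nat.add (f x17665) (Nat.add (f x17669)
    (Nat.add (f x17671) (Nat.add (f x17673) (Nat.add (f x17677) (Nat.add (f x17679) (Nat.add
    (f x17687) (Nat.add (f x17689) (Nat.add (f x17691) (Nat.add (f x17695) (Nat.add (f x17697)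
    (Nat.add (f x17703) (Nat.add (f x17713) (Nat.add (f x17715) (Nat.add (f x17721) (Nat.add
    (f x17747) (Nat.add (f x17753) (Nat.add (f x17755) (Nat.add (f x17759) (Nat.add (f x17761)
    (Nat.add (f x17763) (Nat.add (f x17771) (Nat.add (f x17773) (Nat.add (f x17777) (Nat.add
    (f x17779) (Nat.add (f x17781) (Nat.add (f x17785) (Nat.add (f x17787) (Nat.add (f x17795)
    (Nat.add (f x17797) (Nat.add (f x17799)
    0)))))))))))))))))))))))))))))))))))))))))))))))))))))))))))) (Nat.add (Nat.add (f x17803)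
    (Nat.add (f x17805) (Nat.add (f x17811) (Nat.add (f x17825) (Nat.add (f x17827) (Nat.add
    (f x17831) (Nat.add (f x17833) (Nat.add (f x17835) (Nat.add (f x17839) (Nat.add (f x17841)
    (Nat.add (f x17849) (Nat.add (f x17851) (Nat.add (f x17853) (Nat.add (f x17857) (Nat.add
    (f x17859) (Nat.add (f x17865) (Nat.add (f x17875) (Nat.add (f x17877) (Nat.add (f x17883)
    (Nat.add (f x17903) (Nat.add (f x17905) (Nat.add (f x17907) (Nat.add (f x17911) (Nat.add
    (f x17913) (Nat.add (f x17919) (Nat.add (f x17929) (Nat.add (f x17931) (Nat.add (f x17937)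
    (Nat.add (f x17955) (Nat.add (f x17987) (Nat.add (f x17989) (Nat.add (f x17993) (Nat.add
    (f x17995) (Nat.add (f x17997) (Nat.add (f x18001) (Nat.add (f x18003) (Nat.add (f x18011)
    (Nat.add (f x18013) (Nat.add (f x18015) (Nat.add (f x18019) (Nat.add (f x18021) (Nat.add
    (f x18027) (Nat.add (f x18037) (Nat.add (f x18039) (Nat.add (f x18045) (Nat.add (f x18065)
    (Nat.add (f x18067) (Nat.add (f x18069) (Nat.add (f x18073) (Nat.add (f x18075) (Nat.add
    (f x18081) (Nat.add (f x18091) (Nat.add (f x18093) (Nat.add (f x18099) (Nat.add (f x18117)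
    (Nat.add (f x18145) (Nat.add (f x18147) (Nat.add (f x18153) (Nat.add (f x18171) (Nat.add
    (f x18233) 0)))))))))))))))))))))))))))))))))))))))))))))))))))))))))))) (Nat.add (Nat.add
    (f x18239) (Nat.add (f x18241) (Nat.add (f x18245) (Nat.add (f x18247) (Nat.add (f x18249)
    (Nat.add (f x18257) (Nat.add (f x18259) (Nat.add (f x18263) (Nat.add (f x18265) (Nat.add
    (f x18267) (Nat.add (f x18271) (Nat.add (f x18273) (Nat.add (f x18281) (Nat.add (f x18283)
    (Nat.add (f x18285) (Nat.add (f x18289) (Nat.add (f x18291) (Nat.add (f x18297) (Nat.add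
    (f x18311) (Nat.add (f x18313) (Nat.add (f x18317) (Nat.add (f x18319) (Nat.add (f x18321)
    (Nat.add (f x18325) (Nat.add (f x18327) (Nat.add (f x18335) (Nat.add (f x18337) (Nat.add
    (f x18339) (Nat.add (f x18343) (Nat.add (f x18345) (Nat.add (f x18351) (Nat.add (f x18361)
    (Nat.add (f x18363) (Nat.add (f x18369) (Nat.add (f x18389) (Nat.add (f x18391) (Nat.add
    (f x18393) (Nat.add (f x18397) (Nat.add (f x18399) (Nat.add (f x18405) (Nat.add (f x18415)
    (Nat.add (f x18417) (Nat.add (f x18423) (Nat.add (f x18441) (Nat.add (f x18473) (Nat.add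
    (f x18475) (Nat.add (f x18479) (Nat.add (f x18481) (Nat.add (f x18483) (Nat.add (f x18487)
    (Nat.add (f x18489) (Nat.add (f x18497) (Nat.add (f x18499) (Nat.add (f x18501) (Nat.add
    (f x18505) (Nat.add (f x18507) (Nat.add (f x18513) (Nat.add (f x18523) (Nat.add (f x18525)
    (Nat.add (f x18531) 0)))))))))))))))))))))))))))))))))))))))))))))))))))))))))))) (Nat.add
    (Nat.add (f x18551) (Nat.add (f x18553) (Nat.add (f x18555) (Nat.add (f x18559) (Nat.add
    (f x18561) (Nat.add (f x18567) (Nat.add (f x18577) (Nat.add (f x18579) (Nat.add (f x18585)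
    (Nat.add (f x18603) (Nat.add (f x18631) (Nat.add (f x18633) (Nat.add (f x18639) (Nat.add
    (f x18657) (Nat.add (f x18713) (Nat.add (f x18715) (Nat.add (f x18717) (Nat.add (f x18721)
    (Nat.add (f x18723) (Nat.add (f x18729) (Nat.add (f x18739) (Nat.add (f x18741) (Nat.add
    (f x18747) (Nat.add (f x18765) (Nat.add (f x18793) (Nat.add (f x18795) (Nat.add (f x18801)
    (Nat.add (f x18819) (Nat.add (f x18873) (Nat.add (f x18959) (Nat.add (f x18961) (Nat.add
    (f x18965) (Nat.add (f x18967) (Nat.add (f x18969) (Nat.add (f x18973) (Nat.add (f x18975)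
    (Nat.add (f x18983) (Nat.add (f x18985) (Nat.add (f x18987) (Nat.add (f x18991) (Nat.add
    (f x18993) (Nat.add (f x18999) (Nat.add (f x19009) (Nat.add (f x19011) (Nat.add (f x19017)
    (Nat.add (f x19037) (Nat.add (f x19039) (Nat.add (f x19041) (Nat.add (f x19045) (Nat.add
    (f x19047) (Nat.add (f x19053) (Nat.add (f x19063) (Nat.add (f x19065) (Nat.add (f x19071)
    (Nat.add (f x19089) (Nat.add (f x19117) (Nat.add (f x19119) (Nat.add (f x19125) (Nat.add
    (f x19143) (Nat.add (f x19199) 0))))))))))))))))))))))))))))))))))))))))))))))))))))))))))))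
    (Nat.add (Nat.add (f x19201) (Nat.add (f x19203) (Nat.add (f x19207) (Nat.add (f x19209)
    (Nat.add (f x19215) (Nat.add (f x19225) (Nat.add (f x19227) (Nat.add (f x19233) (Nat.add
    (f x19251) (Nat.add (f x19279) (Nat.add (f x19281) (Nat.add (f x19287) (Nat.add (f x19305)
    (Nat.add (f x19359) (Nat.add (f x19441) (Nat.add (f x19443) (Nat.add (f x19449) (Nat.add
    (f x19467) (Nat.add (f x19521) 0)))))))))))))))))))
    0))))))))))))))))))))))))))))))))))))))))))))))))))))) v1) (Nat.beq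
    (Nat.add (Nat.add (f (Nat.add x161 x19521)) (Nat.add (f (Nat.add x215 x19467)) (Nat.add
    (f (Nat.add x233 x19449)) (Nat.add (f (Nat.add x239 x19443)) (Nat.add (f (Nat.add x241 x19441))
    (Nat.add (f (Nat.add x323 x19359)) (Nat.add (f (Nat.add x377 x19305)) (Nat.add
    (f (Nat.add x395 x19287)) (Nat.add (f (Nat.add x401 x19281)) (Nat.add (f (Nat.add x403 x19279))
    (Nat.add (f (Nat.add x431 x19251)) (Nat.add (f (Nat.add x449 x19233)) (Nat.add
    (f (Nat.add x455 x19227)) (Nat.add (f (Nat.add x457 x19225)) (Nat.add (f (Nat.add x467 x19215))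
    (Nat.add (f (Nat.add x473 x19209)) (Nat.add (f (Nat.add x475 x19207)) (Nat.add
    (f (Nat.add x479 x19203)) (Nat.add (f (Nat.add x481 x19201)) (Nat.add (f (Nat.add x483 x19199))
    (Nat.add (f (Nat.add x539 x19143)) (Nat.add (f (Nat.add x557 x19125)) (Nat.add
    (f (Nat.add x563 x19119)) (Nat.add (f (Nat.add x565 x19117)) (Nat.add (f (Nat.add x593 x19089))
    (Nat.add (f (Nat.add x611 x19071)) (Nat.add (f (Nat.add x617 x19065)) (Nat.add
    (f (Nat.add x619 x19063)) (Nat.add (f (Nat.add x629 x19053)) (Nat.add (f (Nat.add x635 x19047))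
    (Nat.add (f (Nat.add x637 x19045)) (Nat.add (f (Nat.add x641 x19041)) (Nat.add
    (f (Nat.add x643 x19039)) (Nat.add (f (Nat.add x645 x19037)) (Nat.add (f (Nat.add x665 x19017))
    (Nat.add (f (Nat.add x671 x19011)) (Nat.add (f (Nat.add x673 x19009)) (Nat.add
    (f (Nat.add x683 x18999)) (Nat.add (f (Nat.add x689 x18993)) (Nat.add (f (Nat.add x691 x18991))
    (Nat.add (f (Nat.add x695 x18987)) (Nat.add (f (Nat.add x697 x18985)) (Nat.add
    (f (Nat.add x699 x18983)) (Nat.add (f (Nat.add x707 x18975)) (Nat.add (f (Nat.add x709 x18973))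
    (Nat.add (f (Nat.add x713 x18969)) (Nat.add (f (Nat.add x715 x18967)) (Nat.add
    (f (Nat.add x717 x18965)) (Nat.add (f (Nat.add x721 x18961)) (Nat.add (f (Nat.add x723 x18959))
    (Nat.add (f (Nat.add x809 x18873)) (Nat.add (f (Nat.add x863 x18819)) (Nat.add
    (f (Nat.add x881 x18801)) (Nat.add (f (Nat.add x887 x18795)) (Nat.add (f (Nat.add x889 x18793))
    (Nat.add (f (Nat.add x917 x18765)) (Nat.add (f (Nat.add x935 x18747)) (Nat.add
    (f (Nat.add x941 x18741)) (Nat.add (f (Nat.add x943 x18739)) (Nat.add (f (Nat.add x953 x18729))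
    0)))))))))))))))))))))))))))))))))))))))))))))))))))))))))))) (Nat.add (Nat.add
    (f (Nat.add x959 x18723)) (Nat.add (f (Nat.add x961 x18721)) (Nat.add (f (Nat.add x965 x18717))
    (Nat.add (f (Nat.add x967 x18715)) (Nat.add (f (Nat.add x969 x18713)) (Nat.add
    (f (Nat.add x1025 x18657)) (Nat.add (f (Nat.add x1043 x18639)) (Nat.add
    (f (Nat.add x1049 x18633)) (Nat.add (f (Nat.add x1051 x18631)) (Nat.add
    (f (Nat.add x1079 x18603)) (Nat.add (f (Nat.add x1097 x18585)) (Nat.add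
    (f (Nat.add x1103 x18579)) (Nat.add (f (Nat.add x1105 x18577)) (Nat.add
    (f (Nat.add x1115 x18567)) (Nat.add (f (Nat.add x1121 x18561)) (Nat.add
    (f (Nat.add x1123 x18559)) (Nat.add (f (Nat.add x1127 x18555)) (Nat.add
    (f (Nat.add x1129 x18553)) (Nat.add (f (Nat.add x1131 x18551)) (Nat.add
    (f (Nat.add x1151 x18531)) (Nat.add (f (Nat.add x1157 x18525)) (Nat.add
    (f (Nat.add x1159 x18523)) (Nat.add (f (Nat.add x1169 x18513)) (Nat.add
    (f (Nat.add x1175 x18507)) (Nat.add (f (Nat.add x1177 x18505)) (Nat.add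
    (f (Nat.add x1181 x18501)) (Nat.add (f (Nat.add x1183 x18499)) (Nat.add
    (f (Nat.add x1185 x18497)) (Nat.add (f (Nat.add x1193 x18489)) (Nat.add
    (f (Nat.add x1195 x18487)) (Nat.add (f (Nat.add x1199 x18483)) (Nat.add
    (f (Nat.add x1201 x18481)) (Nat.add (f (Nat.add x1203 x18479)) (Nat.add
    (f (Nat.add x1207 x18475)) (Nat.add (f (Nat.add x1209 x18473)) (Nat.add
    (f (Nat.add x1241 x18441)) (Nat.add (f (Nat.add x1259 x18423)) (Nat.add
    (f (Nat.add x1265 x18417)) (Nat.add (f (Nat.add x1267 x18415)) (Nat.add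
    (f (Nat.add x1277 x18405)) (Nat.add (f (Nat.add x1283 x18399)) (Nat.add
    (f (Nat.add x1285 x18397)) (Nat.add (f (Nat.add x1289 x18393)) (Nat.add
    (f (Nat.add x1291 x18391)) (Nat.add (f (Nat.add x1293 x18389)) (Nat.add
    (f (Nat.add x1313 x18369)) (Nat.add (f (Nat.add x1319 x18363)) (Nat.add
    (f (Nat.add x1321 x18361)) (Nat.add (f (Nat.add x1331 x18351)) (Nat.add
    (f (Nat.add x1337 x18345)) (Nat.add (f (Nat.add x1339 x18343)) (Nat.add
    (f (Nat.add x1343 x18339)) (Nat.add (f (Nat.add x1345 x18337)) (Nat.add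
    (f (Nat.add x1347 x18335)) (Nat.add (f (Nat.add x1355 x18327)) (Nat.add
    (f (Nat.add x1357 x18325)) (Nat.add (f (Nat.add x1361 x18321)) (Nat.add
    (f (Nat.add x1363 x18319)) (Nat.add (f (Nat.add x1365 x18317)) (Nat.add
    (f (Nat.add x1369 x18313)) 0))))))))))))))))))))))))))))))))))))))))))))))))))))))))))))
    (Nat.add (Nat.add (f (Nat.add x1371 x18311)) (Nat.add (f (Nat.add x1385 x18297)) (Nat.add
    (f (Nat.add x1391 x18291)) (Nat.add (f (Nat.add x1393 x18289)) (Nat.add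
    (f (Nat.add x1397 x18285)) (Nat.add (f (Nat.add x1399 x18283)) (Nat.add
    (f (Nat.add x1401 x18281)) (Nat.add (f (Nat.add x1409 x18273)) (Nat.add
    (f (Nat.add x1411 x18271)) (Nat.add (f (Nat.add x1415 x18267)) (Nat.add
    (f (Nat.add x1417 x18265)) (Nat.add (f (Nat.add x1419 x18263)) (Nat.add
    (f (Nat.add x1423 x18259)) (Nat.add (f (Nat.add x1425 x18257)) (Nat.add
    (f (Nat.add x1433 x18249)) (Nat.add (f (Nat.add x1435 x18247)) (Nat.add
    (f (Nat.add x1437 x18245)) (Nat.add (f (Nat.add x1441 x18241)) (Nat.add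
    (f (Nat.add x1443 x18239)) (Nat.add (f (Nat.add x1449 x18233)) (Nat.add
    (f (Nat.add x1511 x18171)) (Nat.add (f (Nat.add x1529 x18153)) (Nat.add
    (f (Nat.add x1535 x18147)) (Nat.add (f (Nat.add x1537 x18145)) (Nat.add
    (f (Nat.add x1565 x18117)) (Nat.add (f (Nat.add x1583 x18099)) (Nat.add
    (f (Nat.add x1589 x18093)) (Nat.add (f (Nat.add x1591 x18091)) (Nat.add
    (f (Nat.add x1601 x18081)) (Nat.add (f (Nat.add x1607 x18075)) (Nat.add
    (f (Nat.add x1609 x18073)) (Nat.add (f (Nat.add x1613 x18069)) (Nat.add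
    (f (Nat.add x1615 x18067)) (Nat.add (f (Nat.add x1617 x18065)) (Nat.add
    (f (Nat.add x1637 x18045)) (Nat.add (f (Nat.add x1643 x18039)) (Nat.add
    (f (Nat.add x1645 x18037)) (Nat.add (f (Nat.add x1655 x18027)) (Nat.add
    (f (Nat.add x1661 x18021)) (Nat.add (f (Nat.add x1663 x18019)) (Nat.add
    (f (Nat.add x1667 x18015)) (Nat.add (f (Nat.add x1669 x18013)) (Nat.add
    (f (Nat.add x1671 x18011)) (Nat.add (f (Nat.add x1679 x18003)) (Nat.add
    (f (Nat.add x1681 x18001)) (Nat.add (f (Nat.add x1685 x17997)) (Nat.add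
    (f (Nat.add x1687 x17995)) (Nat.add (f (Nat.add x1689 x17993)) (Nat.add
    (f (Nat.add x1693 x17989)) (Nat.add (f (Nat.add x1695 x17987)) (Nat.add
    (f (Nat.add x1727 x17955)) (Nat.add (f (Nat.add x1745 x17937)) (Nat.add
    (f (Nat.add x1751 x17931)) (Nat.add (f (Nat.add x1753 x17929)) (Nat.add
    (f (Nat.add x1763 x17919)) (Nat.add (f (Nat.add x1769 x17913)) (Nat.add
    (f (Nat.add x1771 x17911)) (Nat.add (f (Nat.add x1775 x17907)) (Nat.add
    (f (Nat.add x1777 x17905)) (Nat.add (f (Nat.add x1779 x17903))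
    0)))))))))))))))))))))))))))))))))))))))))))))))))))))))))))) (Nat.add (Nat.add
    (f (Nat.add x1799 x17883)) (Nat.add (f (Nat.add x1805 x17877)) (Nat.add
    (f (Nat.add x1807 x17875)) (Nat.add (f (Nat.add x1817 x17865)) (Nat.add
    (f (Nat.add x1823 x17859)) (Nat.add (f (Nat.add x1825 x17857)) (Nat.add
    (f (Nat.add x1829 x17853)) (Nat.add (f (Nat.add x1831 x17851)) (Nat.add
    (f (Nat.add x1833 x17849)) (Nat.add (f (Nat.add x1841 x17841)) (Nat.add
    (f (Nat.add x1843 x17839)) (Nat.add (f (Nat.add x1847 x17835)) (Nat.add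
    (f (Nat.add x1849 x17833)) (Nat.add (f (Nat.add x1851 x17831)) (Nat.add
    (f (Nat.add x1855 x17827)) (Nat.add (f (Nat.add x1857 x17825)) (Nat.add
    (f (Nat.add x1871 x17811)) (Nat.add (f (Nat.add x1877 x17805)) (Nat.add
    (f (Nat.add x1879 x17803)) (Nat.add (f (Nat.add x1883 x17799)) (Nat.add
    (f (Nat.add x1885 x17797)) (Nat.add (f (Nat.add x1887 x17795)) (Nat.add
    (f (Nat.add x1895 x17787)) (Nat.add (f (Nat.add x1897 x17785)) (Nat.add
    (f (Nat.add x1901 x17781)) (Nat.add (f (Nat.add x1903 x17779)) (Nat.add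
    (f (Nat.add x1905 x17777)) (Nat.add (f (Nat.add x1909 x17773)) (Nat.add
    (f (Nat.add x1911 x17771)) (Nat.add (f (Nat.add x1919 x17763)) (Nat.add
    (f (Nat.add x1921 x17761)) (Nat.add (f (Nat.add x1923 x17759)) (Nat.add
    (f (Nat.add x1927 x17755)) (Nat.add (f (Nat.add x1929 x17753)) (Nat.add
    (f (Nat.add x1935 x17747)) (Nat.add (f (Nat.add x1961 x17721)) (Nat.add
    (f (Nat.add x1967 x17715)) (Nat.add (f (Nat.add x1969 x17713)) (Nat.add
    (f (Nat.add x1979 x17703)) (Nat.add (f (Nat.add x1985 x17697)) (Nat.add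
    (f (Nat.add x1987 x17695)) (Nat.add (f (Nat.add x1991 x17691)) (Nat.add
    (f (Nat.add x1993 x17689)) (Nat.add (f (Nat.add x1995 x17687)) (Nat.add
    (f (Nat.add x2003 x17679)) (Nat.add (f (Nat.add x2005 x17677)) (Nat.add
    (f (Nat.add x2009 x17673)) (Nat.add (f (Nat.add x2011 x17671)) (Nat.add
    (f (Nat.add x2013 x17669)) (Nat.add (f (Nat.add x2017 x17665)) (Nat.add
    (f (Nat.add x2019 x17663)) (Nat.add (f (Nat.add x2033 x17649)) (Nat.add
    (f (Nat.add x2039 x17643)) (Nat.add (f (Nat.add x2041 x17641)) (Nat.add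
    (f (Nat.add x2045 x17637)) (Nat.add (f (Nat.add x2047 x17635)) (Nat.add
    (f (Nat.add x2049 x17633)) (Nat.add (f (Nat.add x2057 x17625)) (Nat.add
    (f (Nat.add x2059 x17623)) (Nat.add (f (Nat.add x2063 x17619))
    0)))))))))))))))))))))))))))))))))))))))))))))))))))))))))))) (Nat.add (Nat.add
    (f (Nat.add x2065 x17617)) (Nat.add (f (Nat.add x2067 x17615)) (Nat.add
    (f (Nat.add x2071 x17611)) (Nat.add (f (Nat.add x2073 x17609)) (Nat.add
    (f (Nat.add x2081 x17601)) (Nat.add (f (Nat.add x2083 x17599)) (Nat.add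
    (f (Nat.add x2085 x17597)) (Nat.add (f (Nat.add x2089 x17593)) (Nat.add
    (f (Nat.add x2091 x17591)) (Nat.add (f (Nat.add x2097 x17585)) (Nat.add
    (f (Nat.add x2111 x17571)) (Nat.add (f (Nat.add x2113 x17569)) (Nat.add
    (f (Nat.add x2117 x17565)) (Nat.add (f (Nat.add x2119 x17563)) (Nat.add
    (f (Nat.add x2121 x17561)) (Nat.add (f (Nat.add x2125 x17557)) (Nat.add
    (f (Nat.add x2127 x17555)) (Nat.add (f (Nat.add x2135 x17547)) (Nat.add
    (f (Nat.add x2137 x17545)) (Nat.add (f (Nat.add x2139 x17543)) (Nat.add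
    (f (Nat.add x2143 x17539)) (Nat.add (f (Nat.add x2145 x17537)) (Nat.add
    (f (Nat.add x2151 x17531)) (Nat.add (f (Nat.add x2161 x17521)) (Nat.add
    (f (Nat.add x2163 x17519)) (Nat.add (f (Nat.add x2169 x17513)) (Nat.add
    (f (Nat.add x2267 x17415)) (Nat.add (f (Nat.add x2321 x17361)) (Nat.add
    (f (Nat.add x2339 x17343)) (Nat.add (f (Nat.add x2345 x17337)) (Nat.add
    (f (Nat.add x2347 x17335)) (Nat.add (f (Nat.add x2375 x17307)) (Nat.add
    (f (Nat.add x2393 x17289)) (Nat.add (f (Nat.add x2399 x17283)) (Nat.add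
    (f (Nat.add x2401 x17281)) (Nat.add (f (Nat.add x2411 x17271)) (Nat.add
    (f (Nat.add x2417 x17265)) (Nat.add (f (Nat.add x2419 x17263)) (Nat.add
    (f (Nat.add x2423 x17259)) (Nat.add (f (Nat.add x2425 x17257)) (Nat.add
    (f (Nat.add x2427 x17255)) (Nat.add (f (Nat.add x2483 x17199)) (Nat.add
    (f (Nat.add x2501 x17181)) (Nat.add (f (Nat.add x2507 x17175)) (Nat.add
    (f (Nat.add x2509 x17173)) (Nat.add (f (Nat.add x2537 x17145)) (Nat.add
    (f (Nat.add x2555 x17127)) (Nat.add (f (Nat.add x2561 x17121)) (Nat.add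
    (f (Nat.add x2563 x17119)) (Nat.add (f (Nat.add x2573 x17109)) (Nat.add
    (f (Nat.add x2579 x17103)) (Nat.add (f (Nat.add x2581 x17101)) (Nat.add
    (f (Nat.add x2585 x17097)) (Nat.add (f (Nat.add x2587 x17095)) (Nat.add
    (f (Nat.add x2589 x17093)) (Nat.add (f (Nat.add x2609 x17073)) (Nat.add
    (f (Nat.add x2615 x17067)) (Nat.add (f (Nat.add x2617 x17065)) (Nat.add
    (f (Nat.add x2627 x17055)) (Nat.add (f (Nat.add x2633 x17049))
    0)))))))))))))))))))))))))))))))))))))))))))))))))))))))))))) (Nat.add (Nat.add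
    (f (Nat.add x2635 x17047)) (Nat.add (f (Nat.add x2639 x17043)) (Nat.add
    (f (Nat.add x2641 x17041)) (Nat.add (f (Nat.add x2643 x17039)) (Nat.add
    (f (Nat.add x2651 x17031)) (Nat.add (f (Nat.add x2653 x17029)) (Nat.add
    (f (Nat.add x2657 x17025)) (Nat.add (f (Nat.add x2659 x17023)) (Nat.add
    (f (Nat.add x2661 x17021)) (Nat.add (f (Nat.add x2665 x17017)) (Nat.add
    (f (Nat.add x2667 x17015)) (Nat.add (f (Nat.add x2699 x16983)) (Nat.add
    (f (Nat.add x2717 x16965)) (Nat.add (f (Nat.add x2723 x16959)) (Nat.add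
    (f (Nat.add x2725 x16957)) (Nat.add (f (Nat.add x2735 x16947)) (Nat.add
    (f (Nat.add x2741 x16941)) (Nat.add (f (Nat.add x2743 x16939)) (Nat.add
    (f (Nat.add x2747 x16935)) (Nat.add (f (Nat.add x2749 x16933)) (Nat.add
    (f (Nat.add x2751 x16931)) (Nat.add (f (Nat.add x2771 x16911)) (Nat.add
    (f (Nat.add x2777 x16905)) (Nat.add (f (Nat.add x2779 x16903)) (Nat.add
    (f (Nat.add x2789 x16893)) (Nat.add (f (Nat.add x2795 x16887)) (Nat.add
    (f (Nat.add x2797 x16885)) (Nat.add (f (Nat.add x2801 x16881)) (Nat.add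
    (f (Nat.add x2803 x16879)) (Nat.add (f (Nat.add x2805 x16877)) (Nat.add
    (f (Nat.add x2813 x16869)) (Nat.add (f (Nat.add x2815 x16867)) (Nat.add
    (f (Nat.add x2819 x16863)) (Nat.add (f (Nat.add x2821 x16861)) (Nat.add
    (f (Nat.add x2823 x16859)) (Nat.add (f (Nat.add x2827 x16855)) (Nat.add
    (f (Nat.add x2829 x16853)) (Nat.add (f (Nat.add x2843 x16839)) (Nat.add
    (f (Nat.add x2849 x16833)) (Nat.add (f (Nat.add x2851 x16831)) (Nat.add
    (f (Nat.add x2855 x16827)) (Nat.add (f (Nat.add x2857 x16825)) (Nat.add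
    (f (Nat.add x2859 x16823)) (Nat.add (f (Nat.add x2867 x16815)) (Nat.add
    (f (Nat.add x2869 x16813)) (Nat.add (f (Nat.add x2873 x16809)) (Nat.add
    (f (Nat.add x2875 x16807)) (Nat.add (f (Nat.add x2877 x16805)) (Nat.add
    (f (Nat.add x2881 x16801)) (Nat.add (f (Nat.add x2883 x16799)) (Nat.add
    (f (Nat.add x2891 x16791)) (Nat.add (f (Nat.add x2893 x16789)) (Nat.add
    (f (Nat.add x2895 x16787)) (Nat.add (f (Nat.add x2899 x16783)) (Nat.add
    (f (Nat.add x2901 x16781)) (Nat.add (f (Nat.add x2907 x16775)) (Nat.add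
    (f (Nat.add x2969 x16713)) (Nat.add (f (Nat.add x2987 x16695)) (Nat.add
    (f (Nat.add x2993 x16689)) (Nat.add (f (Nat.add x2995 x16687))
    0)))))))))))))))))))))))))))))))))))))))))))))))))))))))))))) (Nat.add (Nat.add
    (f (Nat.add x3023 x16659)) (Nat.add (f (Nat.add x3041 x16641)) (Nat.add
    (f (Nat.add x3047 x16635)) (Nat.add (f (Nat.add x3049 x16633)) (Nat.add
    (f (Nat.add x3059 x16623)) (Nat.add (f (Nat.add x3065 x16617)) (Nat.add
    (f (Nat.add x3067 x16615)) (Nat.add (f (Nat.add x3071 x16611)) (Nat.add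
    (f (Nat.add x3073 x16609)) (Nat.add (f (Nat.add x3075 x16607)) (Nat.add
    (f (Nat.add x3095 x16587)) (Nat.add (f (Nat.add x3101 x16581)) (Nat.add
    (f (Nat.add x3103 x16579)) (Nat.add (f (Nat.add x3113 x16569)) (Nat.add
    (f (Nat.add x3119 x16563)) (Nat.add (f (Nat.add x3121 x16561)) (Nat.add
    (f (Nat.add x3125 x16557)) (Nat.add (f (Nat.add x3127 x16555)) (Nat.add
    (f (Nat.add x3129 x16553)) (Nat.add (f (Nat.add x3137 x16545)) (Nat.add
    (f (Nat.add x3139 x16543)) (Nat.add (f (Nat.add x3143 x16539)) (Nat.add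
    (f (Nat.add x3145 x16537)) (Nat.add (f (Nat.add x3147 x16535)) (Nat.add
    (f (Nat.add x3151 x16531)) (Nat.add (f (Nat.add x3153 x16529)) (Nat.add
    (f (Nat.add x3185 x16497)) (Nat.add (f (Nat.add x3203 x16479)) (Nat.add
    (f (Nat.add x3209 x16473)) (Nat.add (f (Nat.add x3211 x16471)) (Nat.add
    (f (Nat.add x3221 x16461)) (Nat.add (f (Nat.add x3227 x16455)) (Nat.add
    (f (Nat.add x3229 x16453)) (Nat.add (f (Nat.add x3233 x16449)) (Nat.add
    (f (Nat.add x3235 x16447)) (Nat.add (f (Nat.add x3237 x16445)) (Nat.add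
    (f (Nat.add x3257 x16425)) (Nat.add (f (Nat.add x3263 x16419)) (Nat.add
    (f (Nat.add x3265 x16417)) (Nat.add (f (Nat.add x3275 x16407)) (Nat.add
    (f (Nat.add x3281 x16401)) (Nat.add (f (Nat.add x3283 x16399)) (Nat.add
    (f (Nat.add x3287 x16395)) (Nat.add (f (Nat.add x3289 x16393)) (Nat.add
    (f (Nat.add x3291 x16391)) (Nat.add (f (Nat.add x3299 x16383)) (Nat.add
    (f (Nat.add x3301 x16381)) (Nat.add (f (Nat.add x3305 x16377)) (Nat.add
    (f (Nat.add x3307 x16375)) (Nat.add (f (Nat.add x3309 x16373)) (Nat.add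
    (f (Nat.add x3313 x16369)) (Nat.add (f (Nat.add x3315 x16367)) (Nat.add
    (f (Nat.add x3329 x16353)) (Nat.add (f (Nat.add x3335 x16347)) (Nat.add
    (f (Nat.add x3337 x16345)) (Nat.add (f (Nat.add x3341 x16341)) (Nat.add
    (f (Nat.add x3343 x16339)) (Nat.add (f (Nat.add x3345 x16337)) (Nat.add
    (f (Nat.add x3353 x16329)) (Nat.add (f (Nat.add x3355 x16327))
    0)))))))))))))))))))))))))))))))))))))))))))))))))))))))))))) (Nat.add (Nat.add
    (f (Nat.add x3359 x16323)) (Nat.add (f (Nat.add x3361 x16321)) (Nat.add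
    (f (Nat.add x3363 x16319)) (Nat.add (f (Nat.add x3367 x16315)) (Nat.add
    (f (Nat.add x3369 x16313)) (Nat.add (f (Nat.add x3377 x16305)) (Nat.add
    (f (Nat.add x3379 x16303)) (Nat.add (f (Nat.add x3381 x16301)) (Nat.add
    (f (Nat.add x3385 x16297)) (Nat.add (f (Nat.add x3387 x16295)) (Nat.add
    (f (Nat.add x3393 x16289)) (Nat.add (f (Nat.add x3419 x16263)) (Nat.add
    (f (Nat.add x3425 x16257)) (Nat.add (f (Nat.add x3427 x16255)) (Nat.add
    (f (Nat.add x3437 x16245)) (Nat.add (f (Nat.add x3443 x16239)) (Nat.add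
    (f (Nat.add x3445 x16237)) (Nat.add (f (Nat.add x3449 x16233)) (Nat.add
    (f (Nat.add x3451 x16231)) (Nat.add (f (Nat.add x3453 x16229)) (Nat.add
    (f (Nat.add x3461 x16221)) (Nat.add (f (Nat.add x3463 x16219)) (Nat.add
    (f (Nat.add x3467 x16215)) (Nat.add (f (Nat.add x3469 x16213)) (Nat.add
    (f (Nat.add x3471 x16211)) (Nat.add (f (Nat.add x3475 x16207)) (Nat.add
    (f (Nat.add x3477 x16205)) (Nat.add (f (Nat.add x3491 x16191)) (Nat.add
    (f (Nat.add x3497 x16185)) (Nat.add (f (Nat.add x3499 x16183)) (Nat.add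
    (f (Nat.add x3503 x16179)) (Nat.add (f (Nat.add x3505 x16177)) (Nat.add
    (f (Nat.add x3507 x16175)) (Nat.add (f (Nat.add x3515 x16167)) (Nat.add
    (f (Nat.add x3517 x16165)) (Nat.add (f (Nat.add x3521 x16161)) (Nat.add
    (f (Nat.add x3523 x16159)) (Nat.add (f (Nat.add x3525 x16157)) (Nat.add
    (f (Nat.add x3529 x16153)) (Nat.add (f (Nat.add x3531 x16151)) (Nat.add
    (f (Nat.add x3539 x16143)) (Nat.add (f (Nat.add x3541 x16141)) (Nat.add
    (f (Nat.add x3543 x16139)) (Nat.add (f (Nat.add x3547 x16135)) (Nat.add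
    (f (Nat.add x3549 x16133)) (Nat.add (f (Nat.add x3555 x16127)) (Nat.add
    (f (Nat.add x3569 x16113)) (Nat.add (f (Nat.add x3571 x16111)) (Nat.add
    (f (Nat.add x3575 x16107)) (Nat.add (f (Nat.add x3577 x16105)) (Nat.add
    (f (Nat.add x3579 x16103)) (Nat.add (f (Nat.add x3583 x16099)) (Nat.add
    (f (Nat.add x3585 x16097)) (Nat.add (f (Nat.add x3593 x16089)) (Nat.add
    (f (Nat.add x3595 x16087)) (Nat.add (f (Nat.add x3597 x16085)) (Nat.add
    (f (Nat.add x3601 x16081)) (Nat.add (f (Nat.add x3603 x16079)) (Nat.add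
    (f (Nat.add x3609 x16073)) (Nat.add (f (Nat.add x3619 x16063))
    0)))))))))))))))))))))))))))))))))))))))))))))))))))))))))))) (Nat.add (Nat.add
    (f (Nat.add x3621 x16061)) (Nat.add (f (Nat.add x3627 x16055)) (Nat.add
    (f (Nat.add x3671 x16011)) (Nat.add (f (Nat.add x3689 x15993)) (Nat.add
    (f (Nat.add x3695 x15987)) (Nat.add (f (Nat.add x3697 x15985)) (Nat.add
    (f (Nat.add x3707 x15975)) (Nat.add (f (Nat.add x3713 x15969)) (Nat.add
    (f (Nat.add x3715 x15967)) (Nat.add (f (Nat.add x3719 x15963)) (Nat.add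
    (f (Nat.add x3721 x15961)) (Nat.add (f (Nat.add x3723 x15959)) (Nat.add
    (f (Nat.add x3743 x15939)) (Nat.add (f (Nat.add x3749 x15933)) (Nat.add
    (f (Nat.add x3751 x15931)) (Nat.add (f (Nat.add x3761 x15921)) (Nat.add
    (f (Nat.add x3767 x15915)) (Nat.add (f (Nat.add x3769 x15913)) (Nat.add
    (f (Nat.add x3773 x15909)) (Nat.add (f (Nat.add x3775 x15907)) (Nat.add
    (f (Nat.add x3777 x15905)) (Nat.add (f (Nat.add x3785 x15897)) (Nat.add
    (f (Nat.add x3787 x15895)) (Nat.add (f (Nat.add x3791 x15891)) (Nat.add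
    (f (Nat.add x3793 x15889)) (Nat.add (f (Nat.add x3795 x15887)) (Nat.add
    (f (Nat.add x3799 x15883)) (Nat.add (f (Nat.add x3801 x15881)) (Nat.add
    (f (Nat.add x3815 x15867)) (Nat.add (f (Nat.add x3821 x15861)) (Nat.add
    (f (Nat.add x3823 x15859)) (Nat.add (f (Nat.add x3827 x15855)) (Nat.add
    (f (Nat.add x3829 x15853)) (Nat.add (f (Nat.add x3831 x15851)) (Nat.add
    (f (Nat.add x3839 x15843)) (Nat.add (f (Nat.add x3841 x15841)) (Nat.add
    (f (Nat.add x3845 x15837)) (Nat.add (f (Nat.add x3847 x15835)) (Nat.add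
    (f (Nat.add x3849 x15833)) (Nat.add (f (Nat.add x3853 x15829)) (Nat.add
    (f (Nat.add x3855 x15827)) (Nat.add (f (Nat.add x3863 x15819)) (Nat.add
    (f (Nat.add x3865 x15817)) (Nat.add (f (Nat.add x3867 x15815)) (Nat.add
    (f (Nat.add x3871 x15811)) (Nat.add (f (Nat.add x3873 x15809)) (Nat.add
    (f (Nat.add x3879 x15803)) (Nat.add (f (Nat.add x3905 x15777)) (Nat.add
    (f (Nat.add x3911 x15771)) (Nat.add (f (Nat.add x3913 x15769)) (Nat.add
    (f (Nat.add x3923 x15759)) (Nat.add (f (Nat.add x3929 x15753)) (Nat.add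
    (f (Nat.add x3931 x15751)) (Nat.add (f (Nat.add x3935 x15747)) (Nat.add
    (f (Nat.add x3937 x15745)) (Nat.add (f (Nat.add x3939 x15743)) (Nat.add
    (f (Nat.add x3947 x15735)) (Nat.add (f (Nat.add x3949 x15733)) (Nat.add
    (f (Nat.add x3953 x15729)) (Nat.add (f (Nat.add x3955 x15727))
    0)))))))))))))))))))))))))))))))))))))))))))))))))))))))))))) (Nat.add (Nat.add
    (f (Nat.add x3957 x15725)) (Nat.add (f (Nat.add x3961 x15721)) (Nat.add
    (f (Nat.add x3963 x15719)) (Nat.add (f (Nat.add x3977 x15705)) (Nat.add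
    (f (Nat.add x3983 x15699)) (Nat.add (f (Nat.add x3985 x15697)) (Nat.add
    (f (Nat.add x3989 x15693)) (Nat.add (f (Nat.add x3991 x15691)) (Nat.add
    (f (Nat.add x3993 x15689)) (Nat.add (f (Nat.add x4001 x15681)) (Nat.add
    (f (Nat.add x4003 x15679)) (Nat.add (f (Nat.add x4007 x15675)) (Nat.add
    (f (Nat.add x4009 x15673)) (Nat.add (f (Nat.add x4011 x15671)) (Nat.add
    (f (Nat.add x4015 x15667)) (Nat.add (f (Nat.add x4017 x15665)) (Nat.add
    (f (Nat.add x4025 x15657)) (Nat.add (f (Nat.add x4027 x15655)) (Nat.add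
    (f (Nat.add x4029 x15653)) (Nat.add (f (Nat.add x4033 x15649)) (Nat.add
    (f (Nat.add x4035 x15647)) (Nat.add (f (Nat.add x4041 x15641)) (Nat.add
    (f (Nat.add x4055 x15627)) (Nat.add (f (Nat.add x4057 x15625)) (Nat.add
    (f (Nat.add x4061 x15621)) (Nat.add (f (Nat.add x4063 x15619)) (Nat.add
    (f (Nat.add x4065 x15617)) (Nat.add (f (Nat.add x4069 x15613)) (Nat.add
    (f (Nat.add x4071 x15611)) (Nat.add (f (Nat.add x4079 x15603)) (Nat.add
    (f (Nat.add x4081 x15601)) (Nat.add (f (Nat.add x4083 x15599)) (Nat.add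
    (f (Nat.add x4087 x15595)) (Nat.add (f (Nat.add x4089 x15593)) (Nat.add
    (f (Nat.add x4095 x15587)) (Nat.add (f (Nat.add x4105 x15577)) (Nat.add
    (f (Nat.add x4107 x15575)) (Nat.add (f (Nat.add x4113 x15569)) (Nat.add
    (f (Nat.add x4139 x15543)) (Nat.add (f (Nat.add x4145 x15537)) (Nat.add
    (f (Nat.add x4147 x15535)) (Nat.add (f (Nat.add x4151 x15531)) (Nat.add
    (f (Nat.add x4153 x15529)) (Nat.add (f (Nat.add x4155 x15527)) (Nat.add
    (f (Nat.add x4163 x15519)) (Nat.add (f (Nat.add x4165 x15517)) (Nat.add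
    (f (Nat.add x4169 x15513)) (Nat.add (f (Nat.add x4171 x15511)) (Nat.add
    (f (Nat.add x4173 x15509)) (Nat.add (f (Nat.add x4177 x15505)) (Nat.add
    (f (Nat.add x4179 x15503)) (Nat.add (f (Nat.add x4187 x15495)) (Nat.add
    (f (Nat.add x4189 x15493)) (Nat.add (f (Nat.add x4191 x15491)) (Nat.add
    (f (Nat.add x4195 x15487)) (Nat.add (f (Nat.add x4197 x15485)) (Nat.add
    (f (Nat.add x4203 x15479)) (Nat.add (f (Nat.add x4217 x15465)) (Nat.add
    (f (Nat.add x4219 x15463)) (Nat.add (f (Nat.add x4223 x15459))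
    0)))))))))))))))))))))))))))))))))))))))))))))))))))))))))))) (Nat.add (Nat.add
    (f (Nat.add x4225 x15457)) (Nat.add (f (Nat.add x4227 x15455)) (Nat.add
    (f (Nat.add x4231 x15451)) (Nat.add (f (Nat.add x4233 x15449)) (Nat.add
    (f (Nat.add x4241 x15441)) (Nat.add (f (Nat.add x4243 x15439)) (Nat.add
    (f (Nat.add x4245 x15437)) (Nat.add (f (Nat.add x4249 x15433)) (Nat.add
    (f (Nat.add x4251 x15431)) (Nat.add (f (Nat.add x4257 x15425)) (Nat.add
    (f (Nat.add x4267 x15415)) (Nat.add (f (Nat.add x4269 x15413)) (Nat.add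
    (f (Nat.add x4275 x15407)) (Nat.add (f (Nat.add x4295 x15387)) (Nat.add
    (f (Nat.add x4297 x15385)) (Nat.add (f (Nat.add x4299 x15383)) (Nat.add
    (f (Nat.add x4303 x15379)) (Nat.add (f (Nat.add x4305 x15377)) (Nat.add
    (f (Nat.add x4311 x15371)) (Nat.add (f (Nat.add x4321 x15361)) (Nat.add
    (f (Nat.add x4323 x15359)) (Nat.add (f (Nat.add x4329 x15353)) (Nat.add
    (f (Nat.add x4347 x15335)) (Nat.add (f (Nat.add x4427 x15255)) (Nat.add
    (f (Nat.add x4445 x15237)) (Nat.add (f (Nat.add x4451 x15231)) (Nat.add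
    (f (Nat.add x4453 x15229)) (Nat.add (f (Nat.add x4481 x15201)) (Nat.add
    (f (Nat.add x4499 x15183)) (Nat.add (f (Nat.add x4505 x15177)) (Nat.add
    (f (Nat.add x4507 x15175)) (Nat.add (f (Nat.add x4517 x15165)) (Nat.add
    (f (Nat.add x4523 x15159)) (Nat.add (f (Nat.add x4525 x15157)) (Nat.add
    (f (Nat.add x4529 x15153)) (Nat.add (f (Nat.add x4531 x15151)) (Nat.add
    (f (Nat.add x4533 x15149)) (Nat.add (f (Nat.add x4553 x15129)) (Nat.add
    (f (Nat.add x4559 x15123)) (Nat.add (f (Nat.add x4561 x15121)) (Nat.add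
    (f (Nat.add x4571 x15111)) (Nat.add (f (Nat.add x4577 x15105)) (Nat.add
    (f (Nat.add x4579 x15103)) (Nat.add (f (Nat.add x4583 x15099)) (Nat.add
    (f (Nat.add x4585 x15097)) (Nat.add (f (Nat.add x4587 x15095)) (Nat.add
    (f (Nat.add x4595 x15087)) (Nat.add (f (Nat.add x4597 x15085)) (Nat.add
    (f (Nat.add x4601 x15081)) (Nat.add (f (Nat.add x4603 x15079)) (Nat.add
    (f (Nat.add x4605 x15077)) (Nat.add (f (Nat.add x4609 x15073)) (Nat.add
    (f (Nat.add x4611 x15071)) (Nat.add (f (Nat.add x4643 x15039)) (Nat.add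
    (f (Nat.add x4661 x15021)) (Nat.add (f (Nat.add x4667 x15015)) (Nat.add
    (f (Nat.add x4669 x15013)) (Nat.add (f (Nat.add x4679 x15003)) (Nat.add
    (f (Nat.add x4685 x14997)) (Nat.add (f (Nat.add x4687 x14995))
    0)))))))))))))))))))))))))))))))))))))))))))))))))))))))))))) (Nat.add (Nat.add
    (f (Nat.add x4691 x14991)) (Nat.add (f (Nat.add x4693 x14989)) (Nat.add
    (f (Nat.add x4695 x14987)) (Nat.add (f (Nat.add x4715 x14967)) (Nat.add
    (f (Nat.add x4721 x14961)) (Nat.add (f (Nat.add x4723 x14959)) (Nat.add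
    (f (Nat.add x4733 x14949)) (Nat.add (f (Nat.add x4739 x14943)) (Nat.add
    (f (Nat.add x4741 x14941)) (Nat.add (f (Nat.add x4745 x14937)) (Nat.add
    (f (Nat.add x4747 x14935)) (Nat.add (f (Nat.add x4749 x14933)) (Nat.add
    (f (Nat.add x4757 x14925)) (Nat.add (f (Nat.add x4759 x14923)) (Nat.add
    (f (Nat.add x4763 x14919)) (Nat.add (f (Nat.add x4765 x14917)) (Nat.add
    (f (Nat.add x4767 x14915)) (Nat.add (f (Nat.add x4771 x14911)) (Nat.add
    (f (Nat.add x4773 x14909)) (Nat.add (f (Nat.add x4787 x14895)) (Nat.add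
    (f (Nat.add x4793 x14889)) (Nat.add (f (Nat.add x4795 x14887)) (Nat.add
    (f (Nat.add x4799 x14883)) (Nat.add (f (Nat.add x4801 x14881)) (Nat.add
    (f (Nat.add x4803 x14879)) (Nat.add (f (Nat.add x4811 x14871)) (Nat.add
    (f (Nat.add x4813 x14869)) (Nat.add (f (Nat.add x4817 x14865)) (Nat.add
    (f (Nat.add x4819 x14863)) (Nat.add (f (Nat.add x4821 x14861)) (Nat.add
    (f (Nat.add x4825 x14857)) (Nat.add (f (Nat.add x4827 x14855)) (Nat.add
    (f (Nat.add x4835 x14847)) (Nat.add (f (Nat.add x4837 x14845)) (Nat.add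
    (f (Nat.add x4839 x14843)) (Nat.add (f (Nat.add x4843 x14839)) (Nat.add
    (f (Nat.add x4845 x14837)) (Nat.add (f (Nat.add x4851 x14831)) (Nat.add
    (f (Nat.add x4877 x14805)) (Nat.add (f (Nat.add x4883 x14799)) (Nat.add
    (f (Nat.add x4885 x14797)) (Nat.add (f (Nat.add x4895 x14787)) (Nat.add
    (f (Nat.add x4901 x14781)) (Nat.add (f (Nat.add x4903 x14779)) (Nat.add
    (f (Nat.add x4907 x14775)) (Nat.add (f (Nat.add x4909 x14773)) (Nat.add
    (f (Nat.add x4911 x14771)) (Nat.add (f (Nat.add x4919 x14763)) (Nat.add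
    (f (Nat.add x4921 x14761)) (Nat.add (f (Nat.add x4925 x14757)) (Nat.add
    (f (Nat.add x4927 x14755)) (Nat.add (f (Nat.add x4929 x14753)) (Nat.add
    (f (Nat.add x4933 x14749)) (Nat.add (f (Nat.add x4935 x14747)) (Nat.add
    (f (Nat.add x4949 x14733)) (Nat.add (f (Nat.add x4955 x14727)) (Nat.add
    (f (Nat.add x4957 x14725)) (Nat.add (f (Nat.add x4961 x14721)) (Nat.add
    (f (Nat.add x4963 x14719)) (Nat.add (f (Nat.add x4965 x14717))
    0)))))))))))))))))))))))))))))))))))))))))))))))))))))))))))) (Nat.add (Nat.add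
    (f (Nat.add x4973 x14709)) (Nat.add (f (Nat.add x4975 x14707)) (Nat.add
    (f (Nat.add x4979 x14703)) (Nat.add (f (Nat.add x4981 x14701)) (Nat.add
    (f (Nat.add x4983 x14699)) (Nat.add (f (Nat.add x4987 x14695)) (Nat.add
    (f (Nat.add x4989 x14693)) (Nat.add (f (Nat.add x4997 x14685)) (Nat.add
    (f (Nat.add x4999 x14683)) (Nat.add (f (Nat.add x5001 x14681)) (Nat.add
    (f (Nat.add x5005 x14677)) (Nat.add (f (Nat.add x5007 x14675)) (Nat.add
    (f (Nat.add x5013 x14669)) (Nat.add (f (Nat.add x5027 x14655)) (Nat.add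
    (f (Nat.add x5029 x14653)) (Nat.add (f (Nat.add x5033 x14649)) (Nat.add
    (f (Nat.add x5035 x14647)) (Nat.add (f (Nat.add x5037 x14645)) (Nat.add
    (f (Nat.add x5041 x14641)) (Nat.add (f (Nat.add x5043 x14639)) (Nat.add
    (f (Nat.add x5051 x14631)) (Nat.add (f (Nat.add x5053 x14629)) (Nat.add
    (f (Nat.add x5055 x14627)) (Nat.add (f (Nat.add x5059 x14623)) (Nat.add
    (f (Nat.add x5061 x14621)) (Nat.add (f (Nat.add x5067 x14615)) (Nat.add
    (f (Nat.add x5077 x14605)) (Nat.add (f (Nat.add x5079 x14603)) (Nat.add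
    (f (Nat.add x5085 x14597)) (Nat.add (f (Nat.add x5129 x14553)) (Nat.add
    (f (Nat.add x5147 x14535)) (Nat.add (f (Nat.add x5153 x14529)) (Nat.add
    (f (Nat.add x5155 x14527)) (Nat.add (f (Nat.add x5165 x14517)) (Nat.add
    (f (Nat.add x5171 x14511)) (Nat.add (f (Nat.add x5173 x14509)) (Nat.add
    (f (Nat.add x5177 x14505)) (Nat.add (f (Nat.add x5179 x14503)) (Nat.add
    (f (Nat.add x5181 x14501)) (Nat.add (f (Nat.add x5201 x14481)) (Nat.add
    (f (Nat.add x5207 x14475)) (Nat.add (f (Nat.add x5209 x14473)) (Nat.add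
    (f (Nat.add x5219 x14463)) (Nat.add (f (Nat.add x5225 x14457)) (Nat.add
    (f (Nat.add x5227 x14455)) (Nat.add (f (Nat.add x5231 x14451)) (Nat.add
    (f (Nat.add x5233 x14449)) (Nat.add (f (Nat.add x5235 x14447)) (Nat.add
    (f (Nat.add x5243 x14439)) (Nat.add (f (Nat.add x5245 x14437)) (Nat.add
    (f (Nat.add x5249 x14433)) (Nat.add (f (Nat.add x5251 x14431)) (Nat.add
    (f (Nat.add x5253 x14429)) (Nat.add (f (Nat.add x5257 x14425)) (Nat.add
    (f (Nat.add x5259 x14423)) (Nat.add (f (Nat.add x5273 x14409)) (Nat.add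
    (f (Nat.add x5279 x14403)) (Nat.add (f (Nat.add x5281 x14401)) (Nat.add
    (f (Nat.add x5285 x14397)) (Nat.add (f (Nat.add x5287 x14395))
    0)))))))))))))))))))))))))))))))))))))))))))))))))))))))))))) (Nat.add (Nat.add
    (f (Nat.add x5289 x14393)) (Nat.add (f (Nat.add x5297 x14385)) (Nat.add
    (f (Nat.add x5299 x14383)) (Nat.add (f (Nat.add x5303 x14379)) (Nat.add
    (f (Nat.add x5305 x14377)) (Nat.add (f (Nat.add x5307 x14375)) (Nat.add
    (f (Nat.add x5311 x14371)) (Nat.add (f (Nat.add x5313 x14369)) (Nat.add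
    (f (Nat.add x5321 x14361)) (Nat.add (f (Nat.add x5323 x14359)) (Nat.add
    (f (Nat.add x5325 x14357)) (Nat.add (f (Nat.add x5329 x14353)) (Nat.add
    (f (Nat.add x5331 x14351)) (Nat.add (f (Nat.add x5337 x14345)) (Nat.add
    (f (Nat.add x5363 x14319)) (Nat.add (f (Nat.add x5369 x14313)) (Nat.add
    (f (Nat.add x5371 x14311)) (Nat.add (f (Nat.add x5381 x14301)) (Nat.add
    (f (Nat.add x5387 x14295)) (Nat.add (f (Nat.add x5389 x14293)) (Nat.add
    (f (Nat.add x5393 x14289)) (Nat.add (f (Nat.add x5395 x14287)) (Nat.add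
    (f (Nat.add x5397 x14285)) (Nat.add (f (Nat.add x5405 x14277)) (Nat.add
    (f (Nat.add x5407 x14275)) (Nat.add (f (Nat.add x5411 x14271)) (Nat.add
    (f (Nat.add x5413 x14269)) (Nat.add (f (Nat.add x5415 x14267)) (Nat.add
    (f (Nat.add x5419 x14263)) (Nat.add (f (Nat.add x5421 x14261)) (Nat.add
    (f (Nat.add x5435 x14247)) (Nat.add (f (Nat.add x5441 x14241)) (Nat.add
    (f (Nat.add x5443 x14239)) (Nat.add (f (Nat.add x5447 x14235)) (Nat.add
    (f (Nat.add x5449 x14233)) (Nat.add (f (Nat.add x5451 x14231)) (Nat.add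
    (f (Nat.add x5459 x14223)) (Nat.add (f (Nat.add x5461 x14221)) (Nat.add
    (f (Nat.add x5465 x14217)) (Nat.add (f (Nat.add x5467 x14215)) (Nat.add
    (f (Nat.add x5469 x14213)) (Nat.add (f (Nat.add x5473 x14209)) (Nat.add
    (f (Nat.add x5475 x14207)) (Nat.add (f (Nat.add x5483 x14199)) (Nat.add
    (f (Nat.add x5485 x14197)) (Nat.add (f (Nat.add x5487 x14195)) (Nat.add
    (f (Nat.add x5491 x14191)) (Nat.add (f (Nat.add x5493 x14189)) (Nat.add
    (f (Nat.add x5499 x14183)) (Nat.add (f (Nat.add x5513 x14169)) (Nat.add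
    (f (Nat.add x5515 x14167)) (Nat.add (f (Nat.add x5519 x14163)) (Nat.add
    (f (Nat.add x5521 x14161)) (Nat.add (f (Nat.add x5523 x14159)) (Nat.add
    (f (Nat.add x5527 x14155)) (Nat.add (f (Nat.add x5529 x14153)) (Nat.add
    (f (Nat.add x5537 x14145)) (Nat.add (f (Nat.add x5539 x14143)) (Nat.add
    (f (Nat.add x5541 x14141)) (Nat.add (f (Nat.add x5545 x14137))
    0)))))))))))))))))))))))))))))))))))))))))))))))))))))))))))) (Nat.add (Nat.add
    (f (Nat.add x5547 x14135)) (Nat.add (f (Nat.add x5553 x14129)) (Nat.add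
    (f (Nat.add x5563 x14119)) (Nat.add (f (Nat.add x5565 x14117)) (Nat.add
    (f (Nat.add x5571 x14111)) (Nat.add (f (Nat.add x5597 x14085)) (Nat.add
    (f (Nat.add x5603 x14079)) (Nat.add (f (Nat.add x5605 x14077)) (Nat.add
    (f (Nat.add x5609 x14073)) (Nat.add (f (Nat.add x5611 x14071)) (Nat.add
    (f (Nat.add x5613 x14069)) (Nat.add (f (Nat.add x5621 x14061)) (Nat.add
    (f (Nat.add x5623 x14059)) (Nat.add (f (Nat.add x5627 x14055)) (Nat.add
    (f (Nat.add x5629 x14053)) (Nat.add (f (Nat.add x5631 x14051)) (Nat.add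
    (f (Nat.add x5635 x14047)) (Nat.add (f (Nat.add x5637 x14045)) (Nat.add
    (f (Nat.add x5645 x14037)) (Nat.add (f (Nat.add x5647 x14035)) (Nat.add
    (f (Nat.add x5649 x14033)) (Nat.add (f (Nat.add x5653 x14029)) (Nat.add
    (f (Nat.add x5655 x14027)) (Nat.add (f (Nat.add x5661 x14021)) (Nat.add
    (f (Nat.add x5675 x14007)) (Nat.add (f (Nat.add x5677 x14005)) (Nat.add
    (f (Nat.add x5681 x14001)) (Nat.add (f (Nat.add x5683 x13999)) (Nat.add
    (f (Nat.add x5685 x13997)) (Nat.add (f (Nat.add x5689 x13993)) (Nat.add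
    (f (Nat.add x5691 x13991)) (Nat.add (f (Nat.add x5699 x13983)) (Nat.add
    (f (Nat.add x5701 x13981)) (Nat.add (f (Nat.add x5703 x13979)) (Nat.add
    (f (Nat.add x5707 x13975)) (Nat.add (f (Nat.add x5709 x13973)) (Nat.add
    (f (Nat.add x5715 x13967)) (Nat.add (f (Nat.add x5725 x13957)) (Nat.add
    (f (Nat.add x5727 x13955)) (Nat.add (f (Nat.add x5733 x13949)) (Nat.add
    (f (Nat.add x5753 x13929)) (Nat.add (f (Nat.add x5755 x13927)) (Nat.add
    (f (Nat.add x5757 x13925)) (Nat.add (f (Nat.add x5761 x13921)) (Nat.add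
    (f (Nat.add x5763 x13919)) (Nat.add (f (Nat.add x5769 x13913)) (Nat.add
    (f (Nat.add x5779 x13903)) (Nat.add (f (Nat.add x5781 x13901)) (Nat.add
    (f (Nat.add x5787 x13895)) (Nat.add (f (Nat.add x5805 x13877)) (Nat.add
    (f (Nat.add x5849 x13833)) (Nat.add (f (Nat.add x5855 x13827)) (Nat.add
    (f (Nat.add x5857 x13825)) (Nat.add (f (Nat.add x5867 x13815)) (Nat.add
    (f (Nat.add x5873 x13809)) (Nat.add (f (Nat.add x5875 x13807)) (Nat.add
    (f (Nat.add x5879 x13803)) (Nat.add (f (Nat.add x5881 x13801)) (Nat.add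
    (f (Nat.add x5883 x13799)) (Nat.add (f (Nat.add x5891 x13791))
    0)))))))))))))))))))))))))))))))))))))))))))))))))))))))))))) (Nat.add (Nat.add
    (f (Nat.add x5893 x13789)) (Nat.add (f (Nat.add x5897 x13785)) (Nat.add
    (f (Nat.add x5899 x13783)) (Nat.add (f (Nat.add x5901 x13781)) (Nat.add
    (f (Nat.add x5905 x13777)) (Nat.add (f (Nat.add x5907 x13775)) (Nat.add
    (f (Nat.add x5921 x13761)) (Nat.add (f (Nat.add x5927 x13755)) (Nat.add
    (f (Nat.add x5929 x13753)) (Nat.add (f (Nat.add x5933 x13749)) (Nat.add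
    (f (Nat.add x5935 x13747)) (Nat.add (f (Nat.add x5937 x13745)) (Nat.add
    (f (Nat.add x5945 x13737)) (Nat.add (f (Nat.add x5947 x13735)) (Nat.add
    (f (Nat.add x5951 x13731)) (Nat.add (f (Nat.add x5953 x13729)) (Nat.add
    (f (Nat.add x5955 x13727)) (Nat.add (f (Nat.add x5959 x13723)) (Nat.add
    (f (Nat.add x5961 x13721)) (Nat.add (f (Nat.add x5969 x13713)) (Nat.add
    (f (Nat.add x5971 x13711)) (Nat.add (f (Nat.add x5973 x13709)) (Nat.add
    (f (Nat.add x5977 x13705)) (Nat.add (f (Nat.add x5979 x13703)) (Nat.add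
    (f (Nat.add x5985 x13697)) (Nat.add (f (Nat.add x5999 x13683)) (Nat.add
    (f (Nat.add x6001 x13681)) (Nat.add (f (Nat.add x6005 x13677)) (Nat.add
    (f (Nat.add x6007 x13675)) (Nat.add (f (Nat.add x6009 x13673)) (Nat.add
    (f (Nat.add x6013 x13669)) (Nat.add (f (Nat.add x6015 x13667)) (Nat.add
    (f (Nat.add x6023 x13659)) (Nat.add (f (Nat.add x6025 x13657)) (Nat.add
    (f (Nat.add x6027 x13655)) (Nat.add (f (Nat.add x6031 x13651)) (Nat.add
    (f (Nat.add x6033 x13649)) (Nat.add (f (Nat.add x6039 x13643)) (Nat.add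
    (f (Nat.add x6049 x13633)) (Nat.add (f (Nat.add x6051 x13631)) (Nat.add
    (f (Nat.add x6057 x13625)) (Nat.add (f (Nat.add x6083 x13599)) (Nat.add
    (f (Nat.add x6089 x13593)) (Nat.add (f (Nat.add x6091 x13591)) (Nat.add
    (f (Nat.add x6095 x13587)) (Nat.add (f (Nat.add x6097 x13585)) (Nat.add
    (f (Nat.add x6099 x13583)) (Nat.add (f (Nat.add x6107 x13575)) (Nat.add
    (f (Nat.add x6109 x13573)) (Nat.add (f (Nat.add x6113 x13569)) (Nat.add
    (f (Nat.add x6115 x13567)) (Nat.add (f (Nat.add x6117 x13565)) (Nat.add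
    (f (Nat.add x6121 x13561)) (Nat.add (f (Nat.add x6123 x13559)) (Nat.add
    (f (Nat.add x6131 x13551)) (Nat.add (f (Nat.add x6133 x13549)) (Nat.add
    (f (Nat.add x6135 x13547)) (Nat.add (f (Nat.add x6139 x13543)) (Nat.add
    (f (Nat.add x6141 x13541)) (Nat.add (f (Nat.add x6147 x13535))
    0)))))))))))))))))))))))))))))))))))))))))))))))))))))))))))) (Nat.add (Nat.add
    (f (Nat.add x6161 x13521)) (Nat.add (f (Nat.add x6163 x13519)) (Nat.add
    (f (Nat.add x6167 x13515)) (Nat.add (f (Nat.add x6169 x13513)) (Nat.add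
    (f (Nat.add x6171 x13511)) (Nat.add (f (Nat.add x6175 x13507)) (Nat.add
    (f (Nat.add x6177 x13505)) (Nat.add (f (Nat.add x6185 x13497)) (Nat.add
    (f (Nat.add x6187 x13495)) (Nat.add (f (Nat.add x6189 x13493)) (Nat.add
    (f (Nat.add x6193 x13489)) (Nat.add (f (Nat.add x6195 x13487)) (Nat.add
    (f (Nat.add x6201 x13481)) (Nat.add (f (Nat.add x6211 x13471)) (Nat.add
    (f (Nat.add x6213 x13469)) (Nat.add (f (Nat.add x6219 x13463)) (Nat.add
    (f (Nat.add x6239 x13443)) (Nat.add (f (Nat.add x6241 x13441)) (Nat.add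
    (f (Nat.add x6243 x13439)) (Nat.add (f (Nat.add x6247 x13435)) (Nat.add
    (f (Nat.add x6249 x13433)) (Nat.add (f (Nat.add x6255 x13427)) (Nat.add
    (f (Nat.add x6265 x13417)) (Nat.add (f (Nat.add x6267 x13415)) (Nat.add
    (f (Nat.add x6273 x13409)) (Nat.add (f (Nat.add x6291 x13391)) (Nat.add
    (f (Nat.add x6323 x13359)) (Nat.add (f (Nat.add x6325 x13357)) (Nat.add
    (f (Nat.add x6329 x13353)) (Nat.add (f (Nat.add x6331 x13351)) (Nat.add
    (f (Nat.add x6333 x13349)) (Nat.add (f (Nat.add x6337 x13345)) (Nat.add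
    (f (Nat.add x6339 x13343)) (Nat.add (f (Nat.add x6347 x13335)) (Nat.add
    (f (Nat.add x6349 x13333)) (Nat.add (f (Nat.add x6351 x13331)) (Nat.add
    (f (Nat.add x6355 x13327)) (Nat.add (f (Nat.add x6357 x13325)) (Nat.add
    (f (Nat.add x6363 x13319)) (Nat.add (f (Nat.add x6373 x13309)) (Nat.add
    (f (Nat.add x6375 x13307)) (Nat.add (f (Nat.add x6381 x13301)) (Nat.add
    (f (Nat.add x6401 x13281)) (Nat.add (f (Nat.add x6403 x13279)) (Nat.add
    (f (Nat.add x6405 x13277)) (Nat.add (f (Nat.add x6409 x13273)) (Nat.add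
    (f (Nat.add x6411 x13271)) (Nat.add (f (Nat.add x6417 x13265)) (Nat.add
    (f (Nat.add x6427 x13255)) (Nat.add (f (Nat.add x6429 x13253)) (Nat.add
    (f (Nat.add x6435 x13247)) (Nat.add (f (Nat.add x6453 x13229)) (Nat.add
    (f (Nat.add x6481 x13201)) (Nat.add (f (Nat.add x6483 x13199)) (Nat.add
    (f (Nat.add x6489 x13193)) (Nat.add (f (Nat.add x6507 x13175)) (Nat.add
    (f (Nat.add x6641 x13041)) (Nat.add (f (Nat.add x6695 x12987)) (Nat.add
    (f (Nat.add x6713 x12969)) (Nat.add (f (Nat.add x6719 x12963))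
    0)))))))))))))))))))))))))))))))))))))))))))))))))))))))))))) (Nat.add (Nat.add
    (f (Nat.add x6721 x12961)) (Nat.add (f (Nat.add x6749 x12933)) (Nat.add
    (f (Nat.add x6767 x12915)) (Nat.add (f (Nat.add x6773 x12909)) (Nat.add
    (f (Nat.add x6775 x12907)) (Nat.add (f (Nat.add x6785 x12897)) (Nat.add
    (f (Nat.add x6791 x12891)) (Nat.add (f (Nat.add x6793 x12889)) (Nat.add
    (f (Nat.add x6797 x12885)) (Nat.add (f (Nat.add x6799 x12883)) (Nat.add
    (f (Nat.add x6801 x12881)) (Nat.add (f (Nat.add x6857 x12825)) (Nat.add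
    (f (Nat.add x6875 x12807)) (Nat.add (f (Nat.add x6881 x12801)) (Nat.add
    (f (Nat.add x6883 x12799)) (Nat.add (f (Nat.add x6911 x12771)) (Nat.add
    (f (Nat.add x6929 x12753)) (Nat.add (f (Nat.add x6935 x12747)) (Nat.add
    (f (Nat.add x6937 x12745)) (Nat.add (f (Nat.add x6947 x12735)) (Nat.add
    (f (Nat.add x6953 x12729)) (Nat.add (f (Nat.add x6955 x12727)) (Nat.add
    (f (Nat.add x6959 x12723)) (Nat.add (f (Nat.add x6961 x12721)) (Nat.add
    (f (Nat.add x6963 x12719)) (Nat.add (f (Nat.add x6983 x12699)) (Nat.add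
    (f (Nat.add x6989 x12693)) (Nat.add (f (Nat.add x6991 x12691)) (Nat.add
    (f (Nat.add x7001 x12681)) (Nat.add (f (Nat.add x7007 x12675)) (Nat.add
    (f (Nat.add x7009 x12673)) (Nat.add (f (Nat.add x7013 x12669)) (Nat.add
    (f (Nat.add x7015 x12667)) (Nat.add (f (Nat.add x7017 x12665)) (Nat.add
    (f (Nat.add x7025 x12657)) (Nat.add (f (Nat.add x7027 x12655)) (Nat.add
    (f (Nat.add x7031 x12651)) (Nat.add (f (Nat.add x7033 x12649)) (Nat.add
    (f (Nat.add x7035 x12647)) (Nat.add (f (Nat.add x7039 x12643)) (Nat.add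
    (f (Nat.add x7041 x12641)) (Nat.add (f (Nat.add x7073 x12609)) (Nat.add
    (f (Nat.add x7091 x12591)) (Nat.add (f (Nat.add x7097 x12585)) (Nat.add
    (f (Nat.add x7099 x12583)) (Nat.add (f (Nat.add x7109 x12573)) (Nat.add
    (f (Nat.add x7115 x12567)) (Nat.add (f (Nat.add x7117 x12565)) (Nat.add
    (f (Nat.add x7121 x12561)) (Nat.add (f (Nat.add x7123 x12559)) (Nat.add
    (f (Nat.add x7125 x12557)) (Nat.add (f (Nat.add x7145 x12537)) (Nat.add
    (f (Nat.add x7151 x12531)) (Nat.add (f (Nat.add x7153 x12529)) (Nat.add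
    (f (Nat.add x7163 x12519)) (Nat.add (f (Nat.add x7169 x12513)) (Nat.add
    (f (Nat.add x7171 x12511)) (Nat.add (f (Nat.add x7175 x12507)) (Nat.add
    (f (Nat.add x7177 x12505)) (Nat.add (f (Nat.add x7179 x12503))
    0)))))))))))))))))))))))))))))))))))))))))))))))))))))))))))) (Nat.add (Nat.add
    (f (Nat.add x7187 x12495)) (Nat.add (f (Nat.add x7189 x12493)) (Nat.add
    (f (Nat.add x7193 x12489)) (Nat.add (f (Nat.add x7195 x12487)) (Nat.add
    (f (Nat.add x7197 x12485)) (Nat.add (f (Nat.add x7201 x12481)) (Nat.add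
    (f (Nat.add x7203 x12479)) (Nat.add (f (Nat.add x7217 x12465)) (Nat.add
    (f (Nat.add x7223 x12459)) (Nat.add (f (Nat.add x7225 x12457)) (Nat.add
    (f (Nat.add x7229 x12453)) (Nat.add (f (Nat.add x7231 x12451)) (Nat.add
    (f (Nat.add x7233 x12449)) (Nat.add (f (Nat.add x7241 x12441)) (Nat.add
    (f (Nat.add x7243 x12439)) (Nat.add (f (Nat.add x7247 x12435)) (Nat.add
    (f (Nat.add x7249 x12433)) (Nat.add (f (Nat.add x7251 x12431)) (Nat.add
    (f (Nat.add x7255 x12427)) (Nat.add (f (Nat.add x7257 x12425)) (Nat.add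
    (f (Nat.add x7265 x12417)) (Nat.add (f (Nat.add x7267 x12415)) (Nat.add
    (f (Nat.add x7269 x12413)) (Nat.add (f (Nat.add x7273 x12409)) (Nat.add
    (f (Nat.add x7275 x12407)) (Nat.add (f (Nat.add x7281 x12401)) (Nat.add
    (f (Nat.add x7343 x12339)) (Nat.add (f (Nat.add x7361 x12321)) (Nat.add
    (f (Nat.add x7367 x12315)) (Nat.add (f (Nat.add x7369 x12313)) (Nat.add
    (f (Nat.add x7397 x12285)) (Nat.add (f (Nat.add x7415 x12267)) (Nat.add
    (f (Nat.add x7421 x12261)) (Nat.add (f (Nat.add x7423 x12259)) (Nat.add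
    (f (Nat.add x7433 x12249)) (Nat.add (f (Nat.add x7439 x12243)) (Nat.add
    (f (Nat.add x7441 x12241)) (Nat.add (f (Nat.add x7445 x12237)) (Nat.add
    (f (Nat.add x7447 x12235)) (Nat.add (f (Nat.add x7449 x12233)) (Nat.add
    (f (Nat.add x7469 x12213)) (Nat.add (f (Nat.add x7475 x12207)) (Nat.add
    (f (Nat.add x7477 x12205)) (Nat.add (f (Nat.add x7487 x12195)) (Nat.add
    (f (Nat.add x7493 x12189)) (Nat.add (f (Nat.add x7495 x12187)) (Nat.add
    (f (Nat.add x7499 x12183)) (Nat.add (f (Nat.add x7501 x12181)) (Nat.add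
    (f (Nat.add x7503 x12179)) (Nat.add (f (Nat.add x7511 x12171)) (Nat.add
    (f (Nat.add x7513 x12169)) (Nat.add (f (Nat.add x7517 x12165)) (Nat.add
    (f (Nat.add x7519 x12163)) (Nat.add (f (Nat.add x7521 x12161)) (Nat.add
    (f (Nat.add x7525 x12157)) (Nat.add (f (Nat.add x7527 x12155)) (Nat.add
    (f (Nat.add x7559 x12123)) (Nat.add (f (Nat.add x7577 x12105)) (Nat.add
    (f (Nat.add x7583 x12099)) (Nat.add (f (Nat.add x7585 x12097))
    0)))))))))))))))))))))))))))))))))))))))))))))))))))))))))))) (Nat.add (Nat.add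
    (f (Nat.add x7595 x12087)) (Nat.add (f (Nat.add x7601 x12081)) (Nat.add
    (f (Nat.add x7603 x12079)) (Nat.add (f (Nat.add x7607 x12075)) (Nat.add
    (f (Nat.add x7609 x12073)) (Nat.add (f (Nat.add x7611 x12071)) (Nat.add
    (f (Nat.add x7631 x12051)) (Nat.add (f (Nat.add x7637 x12045)) (Nat.add
    (f (Nat.add x7639 x12043)) (Nat.add (f (Nat.add x7649 x12033)) (Nat.add
    (f (Nat.add x7655 x12027)) (Nat.add (f (Nat.add x7657 x12025)) (Nat.add
    (f (Nat.add x7661 x12021)) (Nat.add (f (Nat.add x7663 x12019)) (Nat.add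
    (f (Nat.add x7665 x12017)) (Nat.add (f (Nat.add x7673 x12009)) (Nat.add
    (f (Nat.add x7675 x12007)) (Nat.add (f (Nat.add x7679 x12003)) (Nat.add
    (f (Nat.add x7681 x12001)) (Nat.add (f (Nat.add x7683 x11999)) (Nat.add
    (f (Nat.add x7687 x11995)) (Nat.add (f (Nat.add x7689 x11993)) (Nat.add
    (f (Nat.add x7703 x11979)) (Nat.add (f (Nat.add x7709 x11973)) (Nat.add
    (f (Nat.add x7711 x11971)) (Nat.add (f (Nat.add x7715 x11967)) (Nat.add
    (f (Nat.add x7717 x11965)) (Nat.add (f (Nat.add x7719 x11963)) (Nat.add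
    (f (Nat.add x7727 x11955)) (Nat.add (f (Nat.add x7729 x11953)) (Nat.add
    (f (Nat.add x7733 x11949)) (Nat.add (f (Nat.add x7735 x11947)) (Nat.add
    (f (Nat.add x7737 x11945)) (Nat.add (f (Nat.add x7741 x11941)) (Nat.add
    (f (Nat.add x7743 x11939)) (Nat.add (f (Nat.add x7751 x11931)) (Nat.add
    (f (Nat.add x7753 x11929)) (Nat.add (f (Nat.add x7755 x11927)) (Nat.add
    (f (Nat.add x7759 x11923)) (Nat.add (f (Nat.add x7761 x11921)) (Nat.add
    (f (Nat.add x7767 x11915)) (Nat.add (f (Nat.add x7793 x11889)) (Nat.add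
    (f (Nat.add x7799 x11883)) (Nat.add (f (Nat.add x7801 x11881)) (Nat.add
    (f (Nat.add x7811 x11871)) (Nat.add (f (Nat.add x7817 x11865)) (Nat.add
    (f (Nat.add x7819 x11863)) (Nat.add (f (Nat.add x7823 x11859)) (Nat.add
    (f (Nat.add x7825 x11857)) (Nat.add (f (Nat.add x7827 x11855)) (Nat.add
    (f (Nat.add x7835 x11847)) (Nat.add (f (Nat.add x7837 x11845)) (Nat.add
    (f (Nat.add x7841 x11841)) (Nat.add (f (Nat.add x7843 x11839)) (Nat.add
    (f (Nat.add x7845 x11837)) (Nat.add (f (Nat.add x7849 x11833)) (Nat.add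
    (f (Nat.add x7851 x11831)) (Nat.add (f (Nat.add x7865 x11817)) (Nat.add
    (f (Nat.add x7871 x11811)) (Nat.add (f (Nat.add x7873 x11809))
    0)))))))))))))))))))))))))))))))))))))))))))))))))))))))))))) (Nat.add (Nat.add
    (f (Nat.add x7877 x11805)) (Nat.add (f (Nat.add x7879 x11803)) (Nat.add
    (f (Nat.add x7881 x11801)) (Nat.add (f (Nat.add x7889 x11793)) (Nat.add
    (f (Nat.add x7891 x11791)) (Nat.add (f (Nat.add x7895 x11787)) (Nat.add
    (f (Nat.add x7897 x11785)) (Nat.add (f (Nat.add x7899 x11783)) (Nat.add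
    (f (Nat.add x7903 x11779)) (Nat.add (f (Nat.add x7905 x11777)) (Nat.add
    (f (Nat.add x7913 x11769)) (Nat.add (f (Nat.add x7915 x11767)) (Nat.add
    (f (Nat.add x7917 x11765)) (Nat.add (f (Nat.add x7921 x11761)) (Nat.add
    (f (Nat.add x7923 x11759)) (Nat.add (f (Nat.add x7929 x11753)) (Nat.add
    (f (Nat.add x7943 x11739)) (Nat.add (f (Nat.add x7945 x11737)) (Nat.add
    (f (Nat.add x7949 x11733)) (Nat.add (f (Nat.add x7951 x11731)) (Nat.add
    (f (Nat.add x7953 x11729)) (Nat.add (f (Nat.add x7957 x11725)) (Nat.add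
    (f (Nat.add x7959 x11723)) (Nat.add (f (Nat.add x7967 x11715)) (Nat.add
    (f (Nat.add x7969 x11713)) (Nat.add (f (Nat.add x7971 x11711)) (Nat.add
    (f (Nat.add x7975 x11707)) (Nat.add (f (Nat.add x7977 x11705)) (Nat.add
    (f (Nat.add x7983 x11699)) (Nat.add (f (Nat.add x7993 x11689)) (Nat.add
    (f (Nat.add x7995 x11687)) (Nat.add (f (Nat.add x8001 x11681)) (Nat.add
    (f (Nat.add x8045 x11637)) (Nat.add (f (Nat.add x8063 x11619)) (Nat.add
    (f (Nat.add x8069 x11613)) (Nat.add (f (Nat.add x8071 x11611)) (Nat.add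
    (f (Nat.add x8081 x11601)) (Nat.add (f (Nat.add x8087 x11595)) (Nat.add
    (f (Nat.add x8089 x11593)) (Nat.add (f (Nat.add x8093 x11589)) (Nat.add
    (f (Nat.add x8095 x11587)) (Nat.add (f (Nat.add x8097 x11585)) (Nat.add
    (f (Nat.add x8117 x11565)) (Nat.add (f (Nat.add x8123 x11559)) (Nat.add
    (f (Nat.add x8125 x11557)) (Nat.add (f (Nat.add x8135 x11547)) (Nat.add
    (f (Nat.add x8141 x11541)) (Nat.add (f (Nat.add x8143 x11539)) (Nat.add
    (f (Nat.add x8147 x11535)) (Nat.add (f (Nat.add x8149 x11533)) (Nat.add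
    (f (Nat.add x8151 x11531)) (Nat.add (f (Nat.add x8159 x11523)) (Nat.add
    (f (Nat.add x8161 x11521)) (Nat.add (f (Nat.add x8165 x11517)) (Nat.add
    (f (Nat.add x8167 x11515)) (Nat.add (f (Nat.add x8169 x11513)) (Nat.add
    (f (Nat.add x8173 x11509)) (Nat.add (f (Nat.add x8175 x11507)) (Nat.add
    (f (Nat.add x8189 x11493)) (Nat.add (f (Nat.add x8195 x11487))
    0)))))))))))))))))))))))))))))))))))))))))))))))))))))))))))) (Nat.add (Nat.add
    (f (Nat.add x8197 x11485)) (Nat.add (f (Nat.add x8201 x11481)) (Nat.add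
    (f (Nat.add x8203 x11479)) (Nat.add (f (Nat.add x8205 x11477)) (Nat.add
    (f (Nat.add x8213 x11469)) (Nat.add (f (Nat.add x8215 x11467)) (Nat.add
    (f (Nat.add x8219 x11463)) (Nat.add (f (Nat.add x8221 x11461)) (Nat.add
    (f (Nat.add x8223 x11459)) (Nat.add (f (Nat.add x8227 x11455)) (Nat.add
    (f (Nat.add x8229 x11453)) (Nat.add (f (Nat.add x8237 x11445)) (Nat.add
    (f (Nat.add x8239 x11443)) (Nat.add (f (Nat.add x8241 x11441)) (Nat.add
    (f (Nat.add x8245 x11437)) (Nat.add (f (Nat.add x8247 x11435)) (Nat.add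
    (f (Nat.add x8253 x11429)) (Nat.add (f (Nat.add x8279 x11403)) (Nat.add
    (f (Nat.add x8285 x11397)) (Nat.add (f (Nat.add x8287 x11395)) (Nat.add
    (f (Nat.add x8297 x11385)) (Nat.add (f (Nat.add x8303 x11379)) (Nat.add
    (f (Nat.add x8305 x11377)) (Nat.add (f (Nat.add x8309 x11373)) (Nat.add
    (f (Nat.add x8311 x11371)) (Nat.add (f (Nat.add x8313 x11369)) (Nat.add
    (f (Nat.add x8321 x11361)) (Nat.add (f (Nat.add x8323 x11359)) (Nat.add
    (f (Nat.add x8327 x11355)) (Nat.add (f (Nat.add x8329 x11353)) (Nat.add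
    (f (Nat.add x8331 x11351)) (Nat.add (f (Nat.add x8335 x11347)) (Nat.add
    (f (Nat.add x8337 x11345)) (Nat.add (f (Nat.add x8351 x11331)) (Nat.add
    (f (Nat.add x8357 x11325)) (Nat.add (f (Nat.add x8359 x11323)) (Nat.add
    (f (Nat.add x8363 x11319)) (Nat.add (f (Nat.add x8365 x11317)) (Nat.add
    (f (Nat.add x8367 x11315)) (Nat.add (f (Nat.add x8375 x11307)) (Nat.add
    (f (Nat.add x8377 x11305)) (Nat.add (f (Nat.add x8381 x11301)) (Nat.add
    (f (Nat.add x8383 x11299)) (Nat.add (f (Nat.add x8385 x11297)) (Nat.add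
    (f (Nat.add x8389 x11293)) (Nat.add (f (Nat.add x8391 x11291)) (Nat.add
    (f (Nat.add x8399 x11283)) (Nat.add (f (Nat.add x8401 x11281)) (Nat.add
    (f (Nat.add x8403 x11279)) (Nat.add (f (Nat.add x8407 x11275)) (Nat.add
    (f (Nat.add x8409 x11273)) (Nat.add (f (Nat.add x8415 x11267)) (Nat.add
    (f (Nat.add x8429 x11253)) (Nat.add (f (Nat.add x8431 x11251)) (Nat.add
    (f (Nat.add x8435 x11247)) (Nat.add (f (Nat.add x8437 x11245)) (Nat.add
    (f (Nat.add x8439 x11243)) (Nat.add (f (Nat.add x8443 x11239)) (Nat.add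
    (f (Nat.add x8445 x11237)) (Nat.add (f (Nat.add x8453 x11229))
    0)))))))))))))))))))))))))))))))))))))))))))))))))))))))))))) (Nat.add (Nat.add
    (f (Nat.add x8455 x11227)) (Nat.add (f (Nat.add x8457 x11225)) (Nat.add
    (f (Nat.add x8461 x11221)) (Nat.add (f (Nat.add x8463 x11219)) (Nat.add
    (f (Nat.add x8469 x11213)) (Nat.add (f (Nat.add x8479 x11203)) (Nat.add
    (f (Nat.add x8481 x11201)) (Nat.add (f (Nat.add x8487 x11195)) (Nat.add
    (f (Nat.add x8513 x11169)) (Nat.add (f (Nat.add x8519 x11163)) (Nat.add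
    (f (Nat.add x8521 x11161)) (Nat.add (f (Nat.add x8525 x11157)) (Nat.add
    (f (Nat.add x8527 x11155)) (Nat.add (f (Nat.add x8529 x11153)) (Nat.add
    (f (Nat.add x8537 x11145)) (Nat.add (f (Nat.add x8539 x11143)) (Nat.add
    (f (Nat.add x8543 x11139)) (Nat.add (f (Nat.add x8545 x11137)) (Nat.add
    (f (Nat.add x8547 x11135)) (Nat.add (f (Nat.add x8551 x11131)) (Nat.add
    (f (Nat.add x8553 x11129)) (Nat.add (f (Nat.add x8561 x11121)) (Nat.add
    (f (Nat.add x8563 x11119)) (Nat.add (f (Nat.add x8565 x11117)) (Nat.add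
    (f (Nat.add x8569 x11113)) (Nat.add (f (Nat.add x8571 x11111)) (Nat.add
    (f (Nat.add x8577 x11105)) (Nat.add (f (Nat.add x8591 x11091)) (Nat.add
    (f (Nat.add x8593 x11089)) (Nat.add (f (Nat.add x8597 x11085)) (Nat.add
    (f (Nat.add x8599 x11083)) (Nat.add (f (Nat.add x8601 x11081)) (Nat.add
    (f (Nat.add x8605 x11077)) (Nat.add (f (Nat.add x8607 x11075)) (Nat.add
    (f (Nat.add x8615 x11067)) (Nat.add (f (Nat.add x8617 x11065)) (Nat.add
    (f (Nat.add x8619 x11063)) (Nat.add (f (Nat.add x8623 x11059)) (Nat.add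
    (f (Nat.add x8625 x11057)) (Nat.add (f (Nat.add x8631 x11051)) (Nat.add
    (f (Nat.add x8641 x11041)) (Nat.add (f (Nat.add x8643 x11039)) (Nat.add
    (f (Nat.add x8649 x11033)) (Nat.add (f (Nat.add x8669 x11013)) (Nat.add
    (f (Nat.add x8671 x11011)) (Nat.add (f (Nat.add x8673 x11009)) (Nat.add
    (f (Nat.add x8677 x11005)) (Nat.add (f (Nat.add x8679 x11003)) (Nat.add
    (f (Nat.add x8685 x10997)) (Nat.add (f (Nat.add x8695 x10987)) (Nat.add
    (f (Nat.add x8697 x10985)) (Nat.add (f (Nat.add x8703 x10979)) (Nat.add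
    (f (Nat.add x8721 x10961)) (Nat.add (f (Nat.add x8801 x10881)) (Nat.add
    (f (Nat.add x8819 x10863)) (Nat.add (f (Nat.add x8825 x10857)) (Nat.add
    (f (Nat.add x8827 x10855)) (Nat.add (f (Nat.add x8855 x10827)) (Nat.add
    (f (Nat.add x8873 x10809)) (Nat.add (f (Nat.add x8879 x10803))
    0)))))))))))))))))))))))))))))))))))))))))))))))))))))))))))) (Nat.add (Nat.add
    (f (Nat.add x8881 x10801)) (Nat.add (f (Nat.add x8891 x10791)) (Nat.add
    (f (Nat.add x8897 x10785)) (Nat.add (f (Nat.add x8899 x10783)) (Nat.add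
    (f (Nat.add x8903 x10779)) (Nat.add (f (Nat.add x8905 x10777)) (Nat.add
    (f (Nat.add x8907 x10775)) (Nat.add (f (Nat.add x8927 x10755)) (Nat.add
    (f (Nat.add x8933 x10749)) (Nat.add (f (Nat.add x8935 x10747)) (Nat.add
    (f (Nat.add x8945 x10737)) (Nat.add (f (Nat.add x8951 x10731)) (Nat.add
    (f (Nat.add x8953 x10729)) (Nat.add (f (Nat.add x8957 x10725)) (Nat.add
    (f (Nat.add x8959 x10723)) (Nat.add (f (Nat.add x8961 x10721)) (Nat.add
    (f (Nat.add x8969 x10713)) (Nat.add (f (Nat.add x8971 x10711)) (Nat.add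
    (f (Nat.add x8975 x10707)) (Nat.add (f (Nat.add x8977 x10705)) (Nat.add
    (f (Nat.add x8979 x10703)) (Nat.add (f (Nat.add x8983 x10699)) (Nat.add
    (f (Nat.add x8985 x10697)) (Nat.add (f (Nat.add x9017 x10665)) (Nat.add
    (f (Nat.add x9035 x10647)) (Nat.add (f (Nat.add x9041 x10641)) (Nat.add
    (f (Nat.add x9043 x10639)) (Nat.add (f (Nat.add x9053 x10629)) (Nat.add
    (f (Nat.add x9059 x10623)) (Nat.add (f (Nat.add x9061 x10621)) (Nat.add
    (f (Nat.add x9065 x10617)) (Nat.add (f (Nat.add x9067 x10615)) (Nat.add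
    (f (Nat.add x9069 x10613)) (Nat.add (f (Nat.add x9089 x10593)) (Nat.add
    (f (Nat.add x9095 x10587)) (Nat.add (f (Nat.add x9097 x10585)) (Nat.add
    (f (Nat.add x9107 x10575)) (Nat.add (f (Nat.add x9113 x10569)) (Nat.add
    (f (Nat.add x9115 x10567)) (Nat.add (f (Nat.add x9119 x10563)) (Nat.add
    (f (Nat.add x9121 x10561)) (Nat.add (f (Nat.add x9123 x10559)) (Nat.add
    (f (Nat.add x9131 x10551)) (Nat.add (f (Nat.add x9133 x10549)) (Nat.add
    (f (Nat.add x9137 x10545)) (Nat.add (f (Nat.add x9139 x10543)) (Nat.add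
    (f (Nat.add x9141 x10541)) (Nat.add (f (Nat.add x9145 x10537)) (Nat.add
    (f (Nat.add x9147 x10535)) (Nat.add (f (Nat.add x9161 x10521)) (Nat.add
    (f (Nat.add x9167 x10515)) (Nat.add (f (Nat.add x9169 x10513)) (Nat.add
    (f (Nat.add x9173 x10509)) (Nat.add (f (Nat.add x9175 x10507)) (Nat.add
    (f (Nat.add x9177 x10505)) (Nat.add (f (Nat.add x9185 x10497)) (Nat.add
    (f (Nat.add x9187 x10495)) (Nat.add (f (Nat.add x9191 x10491)) (Nat.add
    (f (Nat.add x9193 x10489)) (Nat.add (f (Nat.add x9195 x10487))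
    0)))))))))))))))))))))))))))))))))))))))))))))))))))))))))))) (Nat.add (Nat.add
    (f (Nat.add x9199 x10483)) (Nat.add (f (Nat.add x9201 x10481)) (Nat.add
    (f (Nat.add x9209 x10473)) (Nat.add (f (Nat.add x9211 x10471)) (Nat.add
    (f (Nat.add x9213 x10469)) (Nat.add (f (Nat.add x9217 x10465)) (Nat.add
    (f (Nat.add x9219 x10463)) (Nat.add (f (Nat.add x9225 x10457)) (Nat.add
    (f (Nat.add x9251 x10431)) (Nat.add (f (Nat.add x9257 x10425)) (Nat.add
    (f (Nat.add x9259 x10423)) (Nat.add (f (Nat.add x9269 x10413)) (Nat.add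
    (f (Nat.add x9275 x10407)) (Nat.add (f (Nat.add x9277 x10405)) (Nat.add
    (f (Nat.add x9281 x10401)) (Nat.add (f (Nat.add x9283 x10399)) (Nat.add
    (f (Nat.add x9285 x10397)) (Nat.add (f (Nat.add x9293 x10389)) (Nat.add
    (f (Nat.add x9295 x10387)) (Nat.add (f (Nat.add x9299 x10383)) (Nat.add
    (f (Nat.add x9301 x10381)) (Nat.add (f (Nat.add x9303 x10379)) (Nat.add
    (f (Nat.add x9307 x10375)) (Nat.add (f (Nat.add x9309 x10373)) (Nat.add
    (f (Nat.add x9323 x10359)) (Nat.add (f (Nat.add x9329 x10353)) (Nat.add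
    (f (Nat.add x9331 x10351)) (Nat.add (f (Nat.add x9335 x10347)) (Nat.add
    (f (Nat.add x9337 x10345)) (Nat.add (f (Nat.add x9339 x10343)) (Nat.add
    (f (Nat.add x9347 x10335)) (Nat.add (f (Nat.add x9349 x10333)) (Nat.add
    (f (Nat.add x9353 x10329)) (Nat.add (f (Nat.add x9355 x10327)) (Nat.add
    (f (Nat.add x9357 x10325)) (Nat.add (f (Nat.add x9361 x10321)) (Nat.add
    (f (Nat.add x9363 x10319)) (Nat.add (f (Nat.add x9371 x10311)) (Nat.add
    (f (Nat.add x9373 x10309)) (Nat.add (f (Nat.add x9375 x10307)) (Nat.add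
    (f (Nat.add x9379 x10303)) (Nat.add (f (Nat.add x9381 x10301)) (Nat.add
    (f (Nat.add x9387 x10295)) (Nat.add (f (Nat.add x9401 x10281)) (Nat.add
    (f (Nat.add x9403 x10279)) (Nat.add (f (Nat.add x9407 x10275)) (Nat.add
    (f (Nat.add x9409 x10273)) (Nat.add (f (Nat.add x9411 x10271)) (Nat.add
    (f (Nat.add x9415 x10267)) (Nat.add (f (Nat.add x9417 x10265)) (Nat.add
    (f (Nat.add x9425 x10257)) (Nat.add (f (Nat.add x9427 x10255)) (Nat.add
    (f (Nat.add x9429 x10253)) (Nat.add (f (Nat.add x9433 x10249)) (Nat.add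
    (f (Nat.add x9435 x10247)) (Nat.add (f (Nat.add x9441 x10241)) (Nat.add
    (f (Nat.add x9451 x10231)) (Nat.add (f (Nat.add x9453 x10229)) (Nat.add
    (f (Nat.add x9459 x10223)) (Nat.add (f (Nat.add x9503 x10179))
    0)))))))))))))))))))))))))))))))))))))))))))))))))))))))))))) (Nat.add (Nat.add
    (f (Nat.add x9521 x10161)) (Nat.add (f (Nat.add x9527 x10155)) (Nat.add
    (f (Nat.add x9529 x10153)) (Nat.add (f (Nat.add x9539 x10143)) (Nat.add
    (f (Nat.add x9545 x10137)) (Nat.add (f (Nat.add x9547 x10135)) (Nat.add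
    (f (Nat.add x9551 x10131)) (Nat.add (f (Nat.add x9553 x10129)) (Nat.add
    (f (Nat.add x9555 x10127)) (Nat.add (f (Nat.add x9575 x10107)) (Nat.add
    (f (Nat.add x9581 x10101)) (Nat.add (f (Nat.add x9583 x10099)) (Nat.add
    (f (Nat.add x9593 x10089)) (Nat.add (f (Nat.add x9599 x10083)) (Nat.add
    (f (Nat.add x9601 x10081)) (Nat.add (f (Nat.add x9605 x10077)) (Nat.add
    (f (Nat.add x9607 x10075)) (Nat.add (f (Nat.add x9609 x10073)) (Nat.add
    (f (Nat.add x9617 x10065)) (Nat.add (f (Nat.add x9619 x10063)) (Nat.add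
    (f (Nat.add x9623 x10059)) (Nat.add (f (Nat.add x9625 x10057)) (Nat.add
    (f (Nat.add x9627 x10055)) (Nat.add (f (Nat.add x9631 x10051)) (Nat.add
    (f (Nat.add x9633 x10049)) (Nat.add (f (Nat.add x9647 x10035)) (Nat.add
    (f (Nat.add x9653 x10029)) (Nat.add (f (Nat.add x9655 x10027)) (Nat.add
    (f (Nat.add x9659 x10023)) (Nat.add (f (Nat.add x9661 x10021)) (Nat.add
    (f (Nat.add x9663 x10019)) (Nat.add (f (Nat.add x9671 x10011)) (Nat.add
    (f (Nat.add x9673 x10009)) (Nat.add (f (Nat.add x9677 x10005)) (Nat.add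
    (f (Nat.add x9679 x10003)) (Nat.add (f (Nat.add x9681 x10001)) (Nat.add
    (f (Nat.add x9685 x9997)) (Nat.add (f (Nat.add x9687 x9995)) (Nat.add (f (Nat.add x9695 x9987))
    (Nat.add (f (Nat.add x9697 x9985)) (Nat.add (f (Nat.add x9699 x9983)) (Nat.add
    (f (Nat.add x9703 x9979)) (Nat.add (f (Nat.add x9705 x9977)) (Nat.add (f (Nat.add x9711 x9971))
    (Nat.add (f (Nat.add x9737 x9945)) (Nat.add (f (Nat.add x9743 x9939)) (Nat.add
    (f (Nat.add x9745 x9937)) (Nat.add (f (Nat.add x9755 x9927)) (Nat.add (f (Nat.add x9761 x9921))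
    (Nat.add (f (Nat.add x9763 x9919)) (Nat.add (f (Nat.add x9767 x9915)) (Nat.add
    (f (Nat.add x9769 x9913)) (Nat.add (f (Nat.add x9771 x9911)) (Nat.add (f (Nat.add x9779 x9903))
    (Nat.add (f (Nat.add x9781 x9901)) (Nat.add (f (Nat.add x9785 x9897)) (Nat.add
    (f (Nat.add x9787 x9895)) (Nat.add (f (Nat.add x9789 x9893)) (Nat.add (f (Nat.add x9793 x9889))
    (Nat.add (f (Nat.add x9795 x9887))
    0)))))))))))))))))))))))))))))))))))))))))))))))))))))))))))) (Nat.add (Nat.add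
    (f (Nat.add x9809 x9873)) (Nat.add (f (Nat.add x9815 x9867)) (Nat.add (f (Nat.add x9817 x9865))
    (Nat.add (f (Nat.add x9821 x9861)) (Nat.add (f (Nat.add x9823 x9859)) (Nat.add
    (f (Nat.add x9825 x9857)) (Nat.add (f (Nat.add x9833 x9849)) (Nat.add (f (Nat.add x9835 x9847))
    (Nat.add (f (Nat.add x9839 x9843)) (Nat.add (f (Nat.add x9841 x9841)) (Nat.add
    (f (Nat.add x9843 x9839)) (Nat.add (f (Nat.add x9847 x9835)) (Nat.add (f (Nat.add x9849 x9833))
    (Nat.add (f (Nat.add x9857 x9825)) (Nat.add (f (Nat.add x9859 x9823)) (Nat.add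
    (f (Nat.add x9861 x9821)) (Nat.add (f (Nat.add x9865 x9817)) (Nat.add (f (Nat.add x9867 x9815))
    (Nat.add (f (Nat.add x9873 x9809)) (Nat.add (f (Nat.add x9887 x9795)) (Nat.add
    (f (Nat.add x9889 x9793)) (Nat.add (f (Nat.add x9893 x9789)) (Nat.add (f (Nat.add x9895 x9787))
    (Nat.add (f (Nat.add x9897 x9785)) (Nat.add (f (Nat.add x9901 x9781)) (Nat.add
    (f (Nat.add x9903 x9779)) (Nat.add (f (Nat.add x9911 x9771)) (Nat.add (f (Nat.add x9913 x9769))
    (Nat.add (f (Nat.add x9915 x9767)) (Nat.add (f (Nat.add x9919 x9763)) (Nat.add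
    (f (Nat.add x9921 x9761)) (Nat.add (f (Nat.add x9927 x9755)) (Nat.add (f (Nat.add x9937 x9745))
    (Nat.add (f (Nat.add x9939 x9743)) (Nat.add (f (Nat.add x9945 x9737)) (Nat.add
    (f (Nat.add x9971 x9711)) (Nat.add (f (Nat.add x9977 x9705)) (Nat.add (f (Nat.add x9979 x9703))
    (Nat.add (f (Nat.add x9983 x9699)) (Nat.add (f (Nat.add x9985 x9697)) (Nat.add
    (f (Nat.add x9987 x9695)) (Nat.add (f (Nat.add x9995 x9687)) (Nat.add (f (Nat.add x9997 x9685))
    (Nat.add (f (Nat.add x10001 x9681)) (Nat.add (f (Nat.add x10003 x9679)) (Nat.add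
    (f (Nat.add x10005 x9677)) (Nat.add (f (Nat.add x10009 x9673)) (Nat.add
    (f (Nat.add x10011 x9671)) (Nat.add (f (Nat.add x10019 x9663)) (Nat.add
    (f (Nat.add x10021 x9661)) (Nat.add (f (Nat.add x10023 x9659)) (Nat.add
    (f (Nat.add x10027 x9655)) (Nat.add (f (Nat.add x10029 x9653)) (Nat.add
    (f (Nat.add x10035 x9647)) (Nat.add (f (Nat.add x10049 x9633)) (Nat.add
    (f (Nat.add x10051 x9631)) (Nat.add (f (Nat.add x10055 x9627)) (Nat.add
    (f (Nat.add x10057 x9625)) (Nat.add (f (Nat.add x10059 x9623)) (Nat.add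
    (f (Nat.add x10063 x9619)) 0))))))))))))))))))))))))))))))))))))))))))))))))))))))))))))
    (Nat.add (Nat.add (f (Nat.add x10065 x9617)) (Nat.add (f (Nat.add x10073 x9609)) (Nat.add
    (f (Nat.add x10075 x9607)) (Nat.add (f (Nat.add x10077 x9605)) (Nat.add
    (f (Nat.add x10081 x9601)) (Nat.add (f (Nat.add x10083 x9599)) (Nat.add
    (f (Nat.add x10089 x9593)) (Nat.add (f (Nat.add x10099 x9583)) (Nat.add
    (f (Nat.add x10101 x9581)) (Nat.add (f (Nat.add x10107 x9575)) (Nat.add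
    (f (Nat.add x10127 x9555)) (Nat.add (f (Nat.add x10129 x9553)) (Nat.add
    (f (Nat.add x10131 x9551)) (Nat.add (f (Nat.add x10135 x9547)) (Nat.add
    (f (Nat.add x10137 x9545)) (Nat.add (f (Nat.add x10143 x9539)) (Nat.add
    (f (Nat.add x10153 x9529)) (Nat.add (f (Nat.add x10155 x9527)) (Nat.add
    (f (Nat.add x10161 x9521)) (Nat.add (f (Nat.add x10179 x9503)) (Nat.add
    (f (Nat.add x10223 x9459)) (Nat.add (f (Nat.add x10229 x9453)) (Nat.add
    (f (Nat.add x10231 x9451)) (Nat.add (f (Nat.add x10241 x9441)) (Nat.add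
    (f (Nat.add x10247 x9435)) (Nat.add (f (Nat.add x10249 x9433)) (Nat.add
    (f (Nat.add x10253 x9429)) (Nat.add (f (Nat.add x10255 x9427)) (Nat.add
    (f (Nat.add x10257 x9425)) (Nat.add (f (Nat.add x10265 x9417)) (Nat.add
    (f (Nat.add x10267 x9415)) (Nat.add (f (Nat.add x10271 x9411)) (Nat.add
    (f (Nat.add x10273 x9409)) (Nat.add (f (Nat.add x10275 x9407)) (Nat.add
    (f (Nat.add x10279 x9403)) (Nat.add (f (Nat.add x10281 x9401)) (Nat.add
    (f (Nat.add x10295 x9387)) (Nat.add (f (Nat.add x10301 x9381)) (Nat.add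
    (f (Nat.add x10303 x9379)) (Nat.add (f (Nat.add x10307 x9375)) (Nat.add
    (f (Nat.add x10309 x9373)) (Nat.add (f (Nat.add x10311 x9371)) (Nat.add
    (f (Nat.add x10319 x9363)) (Nat.add (f (Nat.add x10321 x9361)) (Nat.add
    (f (Nat.add x10325 x9357)) (Nat.add (f (Nat.add x10327 x9355)) (Nat.add
    (f (Nat.add x10329 x9353)) (Nat.add (f (Nat.add x10333 x9349)) (Nat.add
    (f (Nat.add x10335 x9347)) (Nat.add (f (Nat.add x10343 x9339)) (Nat.add
    (f (Nat.add x10345 x9337)) (Nat.add (f (Nat.add x10347 x9335)) (Nat.add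
    (f (Nat.add x10351 x9331)) (Nat.add (f (Nat.add x10353 x9329)) (Nat.add
    (f (Nat.add x10359 x9323)) (Nat.add (f (Nat.add x10373 x9309)) (Nat.add
    (f (Nat.add x10375 x9307)) (Nat.add (f (Nat.add x10379 x9303)) (Nat.add
    (f (Nat.add x10381 x9301)) (Nat.add (f (Nat.add x10383 x9299))
    0)))))))))))))))))))))))))))))))))))))))))))))))))))))))))))) (Nat.add (Nat.add
    (f (Nat.add x10387 x9295)) (Nat.add (f (Nat.add x10389 x9293)) (Nat.add
    (f (Nat.add x10397 x9285)) (Nat.add (f (Nat.add x10399 x9283)) (Nat.add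
    (f (Nat.add x10401 x9281)) (Nat.add (f (Nat.add x10405 x9277)) (Nat.add
    (f (Nat.add x10407 x9275)) (Nat.add (f (Nat.add x10413 x9269)) (Nat.add
    (f (Nat.add x10423 x9259)) (Nat.add (f (Nat.add x10425 x9257)) (Nat.add
    (f (Nat.add x10431 x9251)) (Nat.add (f (Nat.add x10457 x9225)) (Nat.add
    (f (Nat.add x10463 x9219)) (Nat.add (f (Nat.add x10465 x9217)) (Nat.add
    (f (Nat.add x10469 x9213)) (Nat.add (f (Nat.add x10471 x9211)) (Nat.add
    (f (Nat.add x10473 x9209)) (Nat.add (f (Nat.add x10481 x9201)) (Nat.add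
    (f (Nat.add x10483 x9199)) (Nat.add (f (Nat.add x10487 x9195)) (Nat.add
    (f (Nat.add x10489 x9193)) (Nat.add (f (Nat.add x10491 x9191)) (Nat.add
    (f (Nat.add x10495 x9187)) (Nat.add (f (Nat.add x10497 x9185)) (Nat.add
    (f (Nat.add x10505 x9177)) (Nat.add (f (Nat.add x10507 x9175)) (Nat.add
    (f (Nat.add x10509 x9173)) (Nat.add (f (Nat.add x10513 x9169)) (Nat.add
    (f (Nat.add x10515 x9167)) (Nat.add (f (Nat.add x10521 x9161)) (Nat.add
    (f (Nat.add x10535 x9147)) (Nat.add (f (Nat.add x10537 x9145)) (Nat.add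
    (f (Nat.add x10541 x9141)) (Nat.add (f (Nat.add x10543 x9139)) (Nat.add
    (f (Nat.add x10545 x9137)) (Nat.add (f (Nat.add x10549 x9133)) (Nat.add
    (f (Nat.add x10551 x9131)) (Nat.add (f (Nat.add x10559 x9123)) (Nat.add
    (f (Nat.add x10561 x9121)) (Nat.add (f (Nat.add x10563 x9119)) (Nat.add
    (f (Nat.add x10567 x9115)) (Nat.add (f (Nat.add x10569 x9113)) (Nat.add
    (f (Nat.add x10575 x9107)) (Nat.add (f (Nat.add x10585 x9097)) (Nat.add
    (f (Nat.add x10587 x9095)) (Nat.add (f (Nat.add x10593 x9089)) (Nat.add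
    (f (Nat.add x10613 x9069)) (Nat.add (f (Nat.add x10615 x9067)) (Nat.add
    (f (Nat.add x10617 x9065)) (Nat.add (f (Nat.add x10621 x9061)) (Nat.add
    (f (Nat.add x10623 x9059)) (Nat.add (f (Nat.add x10629 x9053)) (Nat.add
    (f (Nat.add x10639 x9043)) (Nat.add (f (Nat.add x10641 x9041)) (Nat.add
    (f (Nat.add x10647 x9035)) (Nat.add (f (Nat.add x10665 x9017)) (Nat.add
    (f (Nat.add x10697 x8985)) (Nat.add (f (Nat.add x10699 x8983)) (Nat.add
    (f (Nat.add x10703 x8979)) (Nat.add (f (Nat.add x10705 x8977))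
    0)))))))))))))))))))))))))))))))))))))))))))))))))))))))))))) (Nat.add (Nat.add
    (f (Nat.add x10707 x8975)) (Nat.add (f (Nat.add x10711 x8971)) (Nat.add
    (f (Nat.add x10713 x8969)) (Nat.add (f (Nat.add x10721 x8961)) (Nat.add
    (f (Nat.add x10723 x8959)) (Nat.add (f (Nat.add x10725 x8957)) (Nat.add
    (f (Nat.add x10729 x8953)) (Nat.add (f (Nat.add x10731 x8951)) (Nat.add
    (f (Nat.add x10737 x8945)) (Nat.add (f (Nat.add x10747 x8935)) (Nat.add
    (f (Nat.add x10749 x8933)) (Nat.add (f (Nat.add x10755 x8927)) (Nat.add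
    (f (Nat.add x10775 x8907)) (Nat.add (f (Nat.add x10777 x8905)) (Nat.add
    (f (Nat.add x10779 x8903)) (Nat.add (f (Nat.add x10783 x8899)) (Nat.add
    (f (Nat.add x10785 x8897)) (Nat.add (f (Nat.add x10791 x8891)) (Nat.add
    (f (Nat.add x10801 x8881)) (Nat.add (f (Nat.add x10803 x8879)) (Nat.add
    (f (Nat.add x10809 x8873)) (Nat.add (f (Nat.add x10827 x8855)) (Nat.add
    (f (Nat.add x10855 x8827)) (Nat.add (f (Nat.add x10857 x8825)) (Nat.add
    (f (Nat.add x10863 x8819)) (Nat.add (f (Nat.add x10881 x8801)) (Nat.add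
    (f (Nat.add x10961 x8721)) (Nat.add (f (Nat.add x10979 x8703)) (Nat.add
    (f (Nat.add x10985 x8697)) (Nat.add (f (Nat.add x10987 x8695)) (Nat.add
    (f (Nat.add x10997 x8685)) (Nat.add (f (Nat.add x11003 x8679)) (Nat.add
    (f (Nat.add x11005 x8677)) (Nat.add (f (Nat.add x11009 x8673)) (Nat.add
    (f (Nat.add x11011 x8671)) (Nat.add (f (Nat.add x11013 x8669)) (Nat.add
    (f (Nat.add x11033 x8649)) (Nat.add (f (Nat.add x11039 x8643)) (Nat.add
    (f (Nat.add x11041 x8641)) (Nat.add (f (Nat.add x11051 x8631)) (Nat.add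
    (f (Nat.add x11057 x8625)) (Nat.add (f (Nat.add x11059 x8623)) (Nat.add
    (f (Nat.add x11063 x8619)) (Nat.add (f (Nat.add x11065 x8617)) (Nat.add
    (f (Nat.add x11067 x8615)) (Nat.add (f (Nat.add x11075 x8607)) (Nat.add
    (f (Nat.add x11077 x8605)) (Nat.add (f (Nat.add x11081 x8601)) (Nat.add
    (f (Nat.add x11083 x8599)) (Nat.add (f (Nat.add x11085 x8597)) (Nat.add
    (f (Nat.add x11089 x8593)) (Nat.add (f (Nat.add x11091 x8591)) (Nat.add
    (f (Nat.add x11105 x8577)) (Nat.add (f (Nat.add x11111 x8571)) (Nat.add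
    (f (Nat.add x11113 x8569)) (Nat.add (f (Nat.add x11117 x8565)) (Nat.add
    (f (Nat.add x11119 x8563)) (Nat.add (f (Nat.add x11121 x8561)) (Nat.add
    (f (Nat.add x11129 x8553)) (Nat.add (f (Nat.add x11131 x8551))
    0)))))))))))))))))))))))))))))))))))))))))))))))))))))))))))) (Nat.add (Nat.add
    (f (Nat.add x11135 x8547)) (Nat.add (f (Nat.add x11137 x8545)) (Nat.add
    (f (Nat.add x11139 x8543)) (Nat.add (f (Nat.add x11143 x8539)) (Nat.add
    (f (Nat.add x11145 x8537)) (Nat.add (f (Nat.add x11153 x8529)) (Nat.add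
    (f (Nat.add x11155 x8527)) (Nat.add (f (Nat.add x11157 x8525)) (Nat.add
    (f (Nat.add x11161 x8521)) (Nat.add (f (Nat.add x11163 x8519)) (Nat.add
    (f (Nat.add x11169 x8513)) (Nat.add (f (Nat.add x11195 x8487)) (Nat.add
    (f (Nat.add x11201 x8481)) (Nat.add (f (Nat.add x11203 x8479)) (Nat.add
    (f (Nat.add x11213 x8469)) (Nat.add (f (Nat.add x11219 x8463)) (Nat.add
    (f (Nat.add x11221 x8461)) (Nat.add (f (Nat.add x11225 x8457)) (Nat.add
    (f (Nat.add x11227 x8455)) (Nat.add (f (Nat.add x11229 x8453)) (Nat.add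
    (f (Nat.add x11237 x8445)) (Nat.add (f (Nat.add x11239 x8443)) (Nat.add
    (f (Nat.add x11243 x8439)) (Nat.add (f (Nat.add x11245 x8437)) (Nat.add
    (f (Nat.add x11247 x8435)) (Nat.add (f (Nat.add x11251 x8431)) (Nat.add
    (f (Nat.add x11253 x8429)) (Nat.add (f (Nat.add x11267 x8415)) (Nat.add
    (f (Nat.add x11273 x8409)) (Nat.add (f (Nat.add x11275 x8407)) (Nat.add
    (f (Nat.add x11279 x8403)) (Nat.add (f (Nat.add x11281 x8401)) (Nat.add
    (f (Nat.add x11283 x8399)) (Nat.add (f (Nat.add x11291 x8391)) (Nat.add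
    (f (Nat.add x11293 x8389)) (Nat.add (f (Nat.add x11297 x8385)) (Nat.add
    (f (Nat.add x11299 x8383)) (Nat.add (f (Nat.add x11301 x8381)) (Nat.add
    (f (Nat.add x11305 x8377)) (Nat.add (f (Nat.add x11307 x8375)) (Nat.add
    (f (Nat.add x11315 x8367)) (Nat.add (f (Nat.add x11317 x8365)) (Nat.add
    (f (Nat.add x11319 x8363)) (Nat.add (f (Nat.add x11323 x8359)) (Nat.add
    (f (Nat.add x11325 x8357)) (Nat.add (f (Nat.add x11331 x8351)) (Nat.add
    (f (Nat.add x11345 x8337)) (Nat.add (f (Nat.add x11347 x8335)) (Nat.add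
    (f (Nat.add x11351 x8331)) (Nat.add (f (Nat.add x11353 x8329)) (Nat.add
    (f (Nat.add x11355 x8327)) (Nat.add (f (Nat.add x11359 x8323)) (Nat.add
    (f (Nat.add x11361 x8321)) (Nat.add (f (Nat.add x11369 x8313)) (Nat.add
    (f (Nat.add x11371 x8311)) (Nat.add (f (Nat.add x11373 x8309)) (Nat.add
    (f (Nat.add x11377 x8305)) (Nat.add (f (Nat.add x11379 x8303)) (Nat.add
    (f (Nat.add x11385 x8297)) (Nat.add (f (Nat.add x11395 x8287))
    0)))))))))))))))))))))))))))))))))))))))))))))))))))))))))))) (Nat.add (Nat.add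
    (f (Nat.add x11397 x8285)) (Nat.add (f (Nat.add x11403 x8279)) (Nat.add
    (f (Nat.add x11429 x8253)) (Nat.add (f (Nat.add x11435 x8247)) (Nat.add
    (f (Nat.add x11437 x8245)) (Nat.add (f (Nat.add x11441 x8241)) (Nat.add
    (f (Nat.add x11443 x8239)) (Nat.add (f (Nat.add x11445 x8237)) (Nat.add
    (f (Nat.add x11453 x8229)) (Nat.add (f (Nat.add x11455 x8227)) (Nat.add
    (f (Nat.add x11459 x8223)) (Nat.add (f (Nat.add x11461 x8221)) (Nat.add
    (f (Nat.add x11463 x8219)) (Nat.add (f (Nat.add x11467 x8215)) (Nat.add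
    (f (Nat.add x11469 x8213)) (Nat.add (f (Nat.add x11477 x8205)) (Nat.add
    (f (Nat.add x11479 x8203)) (Nat.add (f (Nat.add x11481 x8201)) (Nat.add
    (f (Nat.add x11485 x8197)) (Nat.add (f (Nat.add x11487 x8195)) (Nat.add
    (f (Nat.add x11493 x8189)) (Nat.add (f (Nat.add x11507 x8175)) (Nat.add
    (f (Nat.add x11509 x8173)) (Nat.add (f (Nat.add x11513 x8169)) (Nat.add
    (f (Nat.add x11515 x8167)) (Nat.add (f (Nat.add x11517 x8165)) (Nat.add
    (f (Nat.add x11521 x8161)) (Nat.add (f (Nat.add x11523 x8159)) (Nat.add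
    (f (Nat.add x11531 x8151)) (Nat.add (f (Nat.add x11533 x8149)) (Nat.add
    (f (Nat.add x11535 x8147)) (Nat.add (f (Nat.add x11539 x8143)) (Nat.add
    (f (Nat.add x11541 x8141)) (Nat.add (f (Nat.add x11547 x8135)) (Nat.add
    (f (Nat.add x11557 x8125)) (Nat.add (f (Nat.add x11559 x8123)) (Nat.add
    (f (Nat.add x11565 x8117)) (Nat.add (f (Nat.add x11585 x8097)) (Nat.add
    (f (Nat.add x11587 x8095)) (Nat.add (f (Nat.add x11589 x8093)) (Nat.add
    (f (Nat.add x11593 x8089)) (Nat.add (f (Nat.add x11595 x8087)) (Nat.add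
    (f (Nat.add x11601 x8081)) (Nat.add (f (Nat.add x11611 x8071)) (Nat.add
    (f (Nat.add x11613 x8069)) (Nat.add (f (Nat.add x11619 x8063)) (Nat.add
    (f (Nat.add x11637 x8045)) (Nat.add (f (Nat.add x11681 x8001)) (Nat.add
    (f (Nat.add x11687 x7995)) (Nat.add (f (Nat.add x11689 x7993)) (Nat.add
    (f (Nat.add x11699 x7983)) (Nat.add (f (Nat.add x11705 x7977)) (Nat.add
    (f (Nat.add x11707 x7975)) (Nat.add (f (Nat.add x11711 x7971)) (Nat.add
    (f (Nat.add x11713 x7969)) (Nat.add (f (Nat.add x11715 x7967)) (Nat.add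
    (f (Nat.add x11723 x7959)) (Nat.add (f (Nat.add x11725 x7957)) (Nat.add
    (f (Nat.add x11729 x7953)) (Nat.add (f (Nat.add x11731 x7951))
    0)))))))))))))))))))))))))))))))))))))))))))))))))))))))))))) (Nat.add (Nat.add
    (f (Nat.add x11733 x7949)) (Nat.add (f (Nat.add x11737 x7945)) (Nat.add
    (f (Nat.add x11739 x7943)) (Nat.add (f (Nat.add x11753 x7929)) (Nat.add
    (f (Nat.add x11759 x7923)) (Nat.add (f (Nat.add x11761 x7921)) (Nat.add
    (f (Nat.add x11765 x7917)) (Nat.add (f (Nat.add x11767 x7915)) (Nat.add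
    (f (Nat.add x11769 x7913)) (Nat.add (f (Nat.add x11777 x7905)) (Nat.add
    (f (Nat.add x11779 x7903)) (Nat.add (f (Nat.add x11783 x7899)) (Nat.add
    (f (Nat.add x11785 x7897)) (Nat.add (f (Nat.add x11787 x7895)) (Nat.add
    (f (Nat.add x11791 x7891)) (Nat.add (f (Nat.add x11793 x7889)) (Nat.add
    (f (Nat.add x11801 x7881)) (Nat.add (f (Nat.add x11803 x7879)) (Nat.add
    (f (Nat.add x11805 x7877)) (Nat.add (f (Nat.add x11809 x7873)) (Nat.add
    (f (Nat.add x11811 x7871)) (Nat.add (f (Nat.add x11817 x7865)) (Nat.add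
    (f (Nat.add x11831 x7851)) (Nat.add (f (Nat.add x11833 x7849)) (Nat.add
    (f (Nat.add x11837 x7845)) (Nat.add (f (Nat.add x11839 x7843)) (Nat.add
    (f (Nat.add x11841 x7841)) (Nat.add (f (Nat.add x11845 x7837)) (Nat.add
    (f (Nat.add x11847 x7835)) (Nat.add (f (Nat.add x11855 x7827)) (Nat.add
    (f (Nat.add x11857 x7825)) (Nat.add (f (Nat.add x11859 x7823)) (Nat.add
    (f (Nat.add x11863 x7819)) (Nat.add (f (Nat.add x11865 x7817)) (Nat.add
    (f (Nat.add x11871 x7811)) (Nat.add (f (Nat.add x11881 x7801)) (Nat.add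
    (f (Nat.add x11883 x7799)) (Nat.add (f (Nat.add x11889 x7793)) (Nat.add
    (f (Nat.add x11915 x7767)) (Nat.add (f (Nat.add x11921 x7761)) (Nat.add
    (f (Nat.add x11923 x7759)) (Nat.add (f (Nat.add x11927 x7755)) (Nat.add
    (f (Nat.add x11929 x7753)) (Nat.add (f (Nat.add x11931 x7751)) (Nat.add
    (f (Nat.add x11939 x7743)) (Nat.add (f (Nat.add x11941 x7741)) (Nat.add
    (f (Nat.add x11945 x7737)) (Nat.add (f (Nat.add x11947 x7735)) (Nat.add
    (f (Nat.add x11949 x7733)) (Nat.add (f (Nat.add x11953 x7729)) (Nat.add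
    (f (Nat.add x11955 x7727)) (Nat.add (f (Nat.add x11963 x7719)) (Nat.add
    (f (Nat.add x11965 x7717)) (Nat.add (f (Nat.add x11967 x7715)) (Nat.add
    (f (Nat.add x11971 x7711)) (Nat.add (f (Nat.add x11973 x7709)) (Nat.add
    (f (Nat.add x11979 x7703)) (Nat.add (f (Nat.add x11993 x7689)) (Nat.add
    (f (Nat.add x11995 x7687)) (Nat.add (f (Nat.add x11999 x7683))
    0)))))))))))))))))))))))))))))))))))))))))))))))))))))))))))) (Nat.add (Nat.add
    (f (Nat.add x12001 x7681)) (Nat.add (f (Nat.add x12003 x7679)) (Nat.add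
    (f (Nat.add x12007 x7675)) (Nat.add (f (Nat.add x12009 x7673)) (Nat.add
    (f (Nat.add x12017 x7665)) (Nat.add (f (Nat.add x12019 x7663)) (Nat.add
    (f (Nat.add x12021 x7661)) (Nat.add (f (Nat.add x12025 x7657)) (Nat.add
    (f (Nat.add x12027 x7655)) (Nat.add (f (Nat.add x12033 x7649)) (Nat.add
    (f (Nat.add x12043 x7639)) (Nat.add (f (Nat.add x12045 x7637)) (Nat.add
    (f (Nat.add x12051 x7631)) (Nat.add (f (Nat.add x12071 x7611)) (Nat.add
    (f (Nat.add x12073 x7609)) (Nat.add (f (Nat.add x12075 x7607)) (Nat.add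
    (f (Nat.add x12079 x7603)) (Nat.add (f (Nat.add x12081 x7601)) (Nat.add
    (f (Nat.add x12087 x7595)) (Nat.add (f (Nat.add x12097 x7585)) (Nat.add
    (f (Nat.add x12099 x7583)) (Nat.add (f (Nat.add x12105 x7577)) (Nat.add
    (f (Nat.add x12123 x7559)) (Nat.add (f (Nat.add x12155 x7527)) (Nat.add
    (f (Nat.add x12157 x7525)) (Nat.add (f (Nat.add x12161 x7521)) (Nat.add
    (f (Nat.add x12163 x7519)) (Nat.add (f (Nat.add x12165 x7517)) (Nat.add
    (f (Nat.add x12169 x7513)) (Nat.add (f (Nat.add x12171 x7511)) (Nat.add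
    (f (Nat.add x12179 x7503)) (Nat.add (f (Nat.add x12181 x7501)) (Nat.add
    (f (Nat.add x12183 x7499)) (Nat.add (f (Nat.add x12187 x7495)) (Nat.add
    (f (Nat.add x12189 x7493)) (Nat.add (f (Nat.add x12195 x7487)) (Nat.add
    (f (Nat.add x12205 x7477)) (Nat.add (f (Nat.add x12207 x7475)) (Nat.add
    (f (Nat.add x12213 x7469)) (Nat.add (f (Nat.add x12233 x7449)) (Nat.add
    (f (Nat.add x12235 x7447)) (Nat.add (f (Nat.add x12237 x7445)) (Nat.add
    (f (Nat.add x12241 x7441)) (Nat.add (f (Nat.add x12243 x7439)) (Nat.add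
    (f (Nat.add x12249 x7433)) (Nat.add (f (Nat.add x12259 x7423)) (Nat.add
    (f (Nat.add x12261 x7421)) (Nat.add (f (Nat.add x12267 x7415)) (Nat.add
    (f (Nat.add x12285 x7397)) (Nat.add (f (Nat.add x12313 x7369)) (Nat.add
    (f (Nat.add x12315 x7367)) (Nat.add (f (Nat.add x12321 x7361)) (Nat.add
    (f (Nat.add x12339 x7343)) (Nat.add (f (Nat.add x12401 x7281)) (Nat.add
    (f (Nat.add x12407 x7275)) (Nat.add (f (Nat.add x12409 x7273)) (Nat.add
    (f (Nat.add x12413 x7269)) (Nat.add (f (Nat.add x12415 x7267)) (Nat.add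
    (f (Nat.add x12417 x7265)) (Nat.add (f (Nat.add x12425 x7257))
    0)))))))))))))))))))))))))))))))))))))))))))))))))))))))))))) (Nat.add (Nat.add
    (f (Nat.add x12427 x7255)) (Nat.add (f (Nat.add x12431 x7251)) (Nat.add
    (f (Nat.add x12433 x7249)) (Nat.add (f (Nat.add x12435 x7247)) (Nat.add
    (f (Nat.add x12439 x7243)) (Nat.add (f (Nat.add x12441 x7241)) (Nat.add
    (f (Nat.add x12449 x7233)) (Nat.add (f (Nat.add x12451 x7231)) (Nat.add
    (f (Nat.add x12453 x7229)) (Nat.add (f (Nat.add x12457 x7225)) (Nat.add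
    (f (Nat.add x12459 x7223)) (Nat.add (f (Nat.add x12465 x7217)) (Nat.add
    (f (Nat.add x12479 x7203)) (Nat.add (f (Nat.add x12481 x7201)) (Nat.add
    (f (Nat.add x12485 x7197)) (Nat.add (f (Nat.add x12487 x7195)) (Nat.add
    (f (Nat.add x12489 x7193)) (Nat.add (f (Nat.add x12493 x7189)) (Nat.add
    (f (Nat.add x12495 x7187)) (Nat.add (f (Nat.add x12503 x7179)) (Nat.add
    (f (Nat.add x12505 x7177)) (Nat.add (f (Nat.add x12507 x7175)) (Nat.add
    (f (Nat.add x12511 x7171)) (Nat.add (f (Nat.add x12513 x7169)) (Nat.add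
    (f (Nat.add x12519 x7163)) (Nat.add (f (Nat.add x12529 x7153)) (Nat.add
    (f (Nat.add x12531 x7151)) (Nat.add (f (Nat.add x12537 x7145)) (Nat.add
    (f (Nat.add x12557 x7125)) (Nat.add (f (Nat.add x12559 x7123)) (Nat.add
    (f (Nat.add x12561 x7121)) (Nat.add (f (Nat.add x12565 x7117)) (Nat.add
    (f (Nat.add x12567 x7115)) (Nat.add (f (Nat.add x12573 x7109)) (Nat.add
    (f (Nat.add x12583 x7099)) (Nat.add (f (Nat.add x12585 x7097)) (Nat.add
    (f (Nat.add x12591 x7091)) (Nat.add (f (Nat.add x12609 x7073)) (Nat.add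
    (f (Nat.add x12641 x7041)) (Nat.add (f (Nat.add x12643 x7039)) (Nat.add
    (f (Nat.add x12647 x7035)) (Nat.add (f (Nat.add x12649 x7033)) (Nat.add
    (f (Nat.add x12651 x7031)) (Nat.add (f (Nat.add x12655 x7027)) (Nat.add
    (f (Nat.add x12657 x7025)) (Nat.add (f (Nat.add x12665 x7017)) (Nat.add
    (f (Nat.add x12667 x7015)) (Nat.add (f (Nat.add x12669 x7013)) (Nat.add
    (f (Nat.add x12673 x7009)) (Nat.add (f (Nat.add x12675 x7007)) (Nat.add
    (f (Nat.add x12681 x7001)) (Nat.add (f (Nat.add x12691 x6991)) (Nat.add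
    (f (Nat.add x12693 x6989)) (Nat.add (f (Nat.add x12699 x6983)) (Nat.add
    (f (Nat.add x12719 x6963)) (Nat.add (f (Nat.add x12721 x6961)) (Nat.add
    (f (Nat.add x12723 x6959)) (Nat.add (f (Nat.add x12727 x6955)) (Nat.add
    (f (Nat.add x12729 x6953)) (Nat.add (f (Nat.add x12735 x6947))
    0)))))))))))))))))))))))))))))))))))))))))))))))))))))))))))) (Nat.add (Nat.add
    (f (Nat.add x12745 x6937)) (Nat.add (f (Nat.add x12747 x6935)) (Nat.add
    (f (Nat.add x12753 x6929)) (Nat.add (f (Nat.add x12771 x6911)) (Nat.add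
    (f (Nat.add x12799 x6883)) (Nat.add (f (Nat.add x12801 x6881)) (Nat.add
    (f (Nat.add x12807 x6875)) (Nat.add (f (Nat.add x12825 x6857)) (Nat.add
    (f (Nat.add x12881 x6801)) (Nat.add (f (Nat.add x12883 x6799)) (Nat.add
    (f (Nat.add x12885 x6797)) (Nat.add (f (Nat.add x12889 x6793)) (Nat.add
    (f (Nat.add x12891 x6791)) (Nat.add (f (Nat.add x12897 x6785)) (Nat.add
    (f (Nat.add x12907 x6775)) (Nat.add (f (Nat.add x12909 x6773)) (Nat.add
    (f (Nat.add x12915 x6767)) (Nat.add (f (Nat.add x12933 x6749)) (Nat.add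
    (f (Nat.add x12961 x6721)) (Nat.add (f (Nat.add x12963 x6719)) (Nat.add
    (f (Nat.add x12969 x6713)) (Nat.add (f (Nat.add x12987 x6695)) (Nat.add
    (f (Nat.add x13041 x6641)) (Nat.add (f (Nat.add x13175 x6507)) (Nat.add
    (f (Nat.add x13193 x6489)) (Nat.add (f (Nat.add x13199 x6483)) (Nat.add
    (f (Nat.add x13201 x6481)) (Nat.add (f (Nat.add x13229 x6453)) (Nat.add
    (f (Nat.add x13247 x6435)) (Nat.add (f (Nat.add x13253 x6429)) (Nat.add
    (f (Nat.add x13255 x6427)) (Nat.add (f (Nat.add x13265 x6417)) (Nat.add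
    (f (Nat.add x13271 x6411)) (Nat.add (f (Nat.add x13273 x6409)) (Nat.add
    (f (Nat.add x13277 x6405)) (Nat.add (f (Nat.add x13279 x6403)) (Nat.add
    (f (Nat.add x13281 x6401)) (Nat.add (f (Nat.add x13301 x6381)) (Nat.add
    (f (Nat.add x13307 x6375)) (Nat.add (f (Nat.add x13309 x6373)) (Nat.add
    (f (Nat.add x13319 x6363)) (Nat.add (f (Nat.add x13325 x6357)) (Nat.add
    (f (Nat.add x13327 x6355)) (Nat.add (f (Nat.add x13331 x6351)) (Nat.add
    (f (Nat.add x13333 x6349)) (Nat.add (f (Nat.add x13335 x6347)) (Nat.add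
    (f (Nat.add x13343 x6339)) (Nat.add (f (Nat.add x13345 x6337)) (Nat.add
    (f (Nat.add x13349 x6333)) (Nat.add (f (Nat.add x13351 x6331)) (Nat.add
    (f (Nat.add x13353 x6329)) (Nat.add (f (Nat.add x13357 x6325)) (Nat.add
    (f (Nat.add x13359 x6323)) (Nat.add (f (Nat.add x13391 x6291)) (Nat.add
    (f (Nat.add x13409 x6273)) (Nat.add (f (Nat.add x13415 x6267)) (Nat.add
    (f (Nat.add x13417 x6265)) (Nat.add (f (Nat.add x13427 x6255)) (Nat.add
    (f (Nat.add x13433 x6249)) (Nat.add (f (Nat.add x13435 x6247))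
    0)))))))))))))))))))))))))))))))))))))))))))))))))))))))))))) (Nat.add (Nat.add
    (f (Nat.add x13439 x6243)) (Nat.add (f (Nat.add x13441 x6241)) (Nat.add
    (f (Nat.add x13443 x6239)) (Nat.add (f (Nat.add x13463 x6219)) (Nat.add
    (f (Nat.add x13469 x6213)) (Nat.add (f (Nat.add x13471 x6211)) (Nat.add
    (f (Nat.add x13481 x6201)) (Nat.add (f (Nat.add x13487 x6195)) (Nat.add
    (f (Nat.add x13489 x6193)) (Nat.add (f (Nat.add x13493 x6189)) (Nat.add
    (f (Nat.add x13495 x6187)) (Nat.add (f (Nat.add x13497 x6185)) (Nat.add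
    (f (Nat.add x13505 x6177)) (Nat.add (f (Nat.add x13507 x6175)) (Nat.add
    (f (Nat.add x13511 x6171)) (Nat.add (f (Nat.add x13513 x6169)) (Nat.add
    (f (Nat.add x13515 x6167)) (Nat.add (f (Nat.add x13519 x6163)) (Nat.add
    (f (Nat.add x13521 x6161)) (Nat.add (f (Nat.add x13535 x6147)) (Nat.add
    (f (Nat.add x13541 x6141)) (Nat.add (f (Nat.add x13543 x6139)) (Nat.add
    (f (Nat.add x13547 x6135)) (Nat.add (f (Nat.add x13549 x6133)) (Nat.add
    (f (Nat.add x13551 x6131)) (Nat.add (f (Nat.add x13559 x6123)) (Nat.add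
    (f (Nat.add x13561 x6121)) (Nat.add (f (Nat.add x13565 x6117)) (Nat.add
    (f (Nat.add x13567 x6115)) (Nat.add (f (Nat.add x13569 x6113)) (Nat.add
    (f (Nat.add x13573 x6109)) (Nat.add (f (Nat.add x13575 x6107)) (Nat.add
    (f (Nat.add x13583 x6099)) (Nat.add (f (Nat.add x13585 x6097)) (Nat.add
    (f (Nat.add x13587 x6095)) (Nat.add (f (Nat.add x13591 x6091)) (Nat.add
    (f (Nat.add x13593 x6089)) (Nat.add (f (Nat.add x13599 x6083)) (Nat.add
    (f (Nat.add x13625 x6057)) (Nat.add (f (Nat.add x13631 x6051)) (Nat.add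
    (f (Nat.add x13633 x6049)) (Nat.add (f (Nat.add x13643 x6039)) (Nat.add
    (f (Nat.add x13649 x6033)) (Nat.add (f (Nat.add x13651 x6031)) (Nat.add
    (f (Nat.add x13655 x6027)) (Nat.add (f (Nat.add x13657 x6025)) (Nat.add
    (f (Nat.add x13659 x6023)) (Nat.add (f (Nat.add x13667 x6015)) (Nat.add
    (f (Nat.add x13669 x6013)) (Nat.add (f (Nat.add x13673 x6009)) (Nat.add
    (f (Nat.add x13675 x6007)) (Nat.add (f (Nat.add x13677 x6005)) (Nat.add
    (f (Nat.add x13681 x6001)) (Nat.add (f (Nat.add x13683 x5999)) (Nat.add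
    (f (Nat.add x13697 x5985)) (Nat.add (f (Nat.add x13703 x5979)) (Nat.add
    (f (Nat.add x13705 x5977)) (Nat.add (f (Nat.add x13709 x5973)) (Nat.add
    (f (Nat.add x13711 x5971)) (Nat.add (f (Nat.add x13713 x5969))
    0)))))))))))))))))))))))))))))))))))))))))))))))))))))))))))) (Nat.add (Nat.add
    (f (Nat.add x13721 x5961)) (Nat.add (f (Nat.add x13723 x5959)) (Nat.add
    (f (Nat.add x13727 x5955)) (Nat.add (f (Nat.add x13729 x5953)) (Nat.add
    (f (Nat.add x13731 x5951)) (Nat.add (f (Nat.add x13735 x5947)) (Nat.add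
    (f (Nat.add x13737 x5945)) (Nat.add (f (Nat.add x13745 x5937)) (Nat.add
    (f (Nat.add x13747 x5935)) (Nat.add (f (Nat.add x13749 x5933)) (Nat.add
    (f (Nat.add x13753 x5929)) (Nat.add (f (Nat.add x13755 x5927)) (Nat.add
    (f (Nat.add x13761 x5921)) (Nat.add (f (Nat.add x13775 x5907)) (Nat.add
    (f (Nat.add x13777 x5905)) (Nat.add (f (Nat.add x13781 x5901)) (Nat.add
    (f (Nat.add x13783 x5899)) (Nat.add (f (Nat.add x13785 x5897)) (Nat.add
    (f (Nat.add x13789 x5893)) (Nat.add (f (Nat.add x13791 x5891)) (Nat.add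
    (f (Nat.add x13799 x5883)) (Nat.add (f (Nat.add x13801 x5881)) (Nat.add
    (f (Nat.add x13803 x5879)) (Nat.add (f (Nat.add x13807 x5875)) (Nat.add
    (f (Nat.add x13809 x5873)) (Nat.add (f (Nat.add x13815 x5867)) (Nat.add
    (f (Nat.add x13825 x5857)) (Nat.add (f (Nat.add x13827 x5855)) (Nat.add
    (f (Nat.add x13833 x5849)) (Nat.add (f (Nat.add x13877 x5805)) (Nat.add
    (f (Nat.add x13895 x5787)) (Nat.add (f (Nat.add x13901 x5781)) (Nat.add
    (f (Nat.add x13903 x5779)) (Nat.add (f (Nat.add x13913 x5769)) (Nat.add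
    (f (Nat.add x13919 x5763)) (Nat.add (f (Nat.add x13921 x5761)) (Nat.add
    (f (Nat.add x13925 x5757)) (Nat.add (f (Nat.add x13927 x5755)) (Nat.add
    (f (Nat.add x13929 x5753)) (Nat.add (f (Nat.add x13949 x5733)) (Nat.add
    (f (Nat.add x13955 x5727)) (Nat.add (f (Nat.add x13957 x5725)) (Nat.add
    (f (Nat.add x13967 x5715)) (Nat.add (f (Nat.add x13973 x5709)) (Nat.add
    (f (Nat.add x13975 x5707)) (Nat.add (f (Nat.add x13979 x5703)) (Nat.add
    (f (Nat.add x13981 x5701)) (Nat.add (f (Nat.add x13983 x5699)) (Nat.add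
    (f (Nat.add x13991 x5691)) (Nat.add (f (Nat.add x13993 x5689)) (Nat.add
    (f (Nat.add x13997 x5685)) (Nat.add (f (Nat.add x13999 x5683)) (Nat.add
    (f (Nat.add x14001 x5681)) (Nat.add (f (Nat.add x14005 x5677)) (Nat.add
    (f (Nat.add x14007 x5675)) (Nat.add (f (Nat.add x14021 x5661)) (Nat.add
    (f (Nat.add x14027 x5655)) (Nat.add (f (Nat.add x14029 x5653)) (Nat.add
    (f (Nat.add x14033 x5649)) (Nat.add (f (Nat.add x14035 x5647))
    0)))))))))))))))))))))))))))))))))))))))))))))))))))))))))))) (Nat.add (Nat.add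
    (f (Nat.add x14037 x5645)) (Nat.add (f (Nat.add x14045 x5637)) (Nat.add
    (f (Nat.add x14047 x5635)) (Nat.add (f (Nat.add x14051 x5631)) (Nat.add
    (f (Nat.add x14053 x5629)) (Nat.add (f (Nat.add x14055 x5627)) (Nat.add
    (f (Nat.add x14059 x5623)) (Nat.add (f (Nat.add x14061 x5621)) (Nat.add
    (f (Nat.add x14069 x5613)) (Nat.add (f (Nat.add x14071 x5611)) (Nat.add
    (f (Nat.add x14073 x5609)) (Nat.add (f (Nat.add x14077 x5605)) (Nat.add
    (f (Nat.add x14079 x5603)) (Nat.add (f (Nat.add x14085 x5597)) (Nat.add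
    (f (Nat.add x14111 x5571)) (Nat.add (f (Nat.add x14117 x5565)) (Nat.add
    (f (Nat.add x14119 x5563)) (Nat.add (f (Nat.add x14129 x5553)) (Nat.add
    (f (Nat.add x14135 x5547)) (Nat.add (f (Nat.add x14137 x5545)) (Nat.add
    (f (Nat.add x14141 x5541)) (Nat.add (f (Nat.add x14143 x5539)) (Nat.add
    (f (Nat.add x14145 x5537)) (Nat.add (f (Nat.add x14153 x5529)) (Nat.add
    (f (Nat.add x14155 x5527)) (Nat.add (f (Nat.add x14159 x5523)) (Nat.add
    (f (Nat.add x14161 x5521)) (Nat.add (f (Nat.add x14163 x5519)) (Nat.add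
    (f (Nat.add x14167 x5515)) (Nat.add (f (Nat.add x14169 x5513)) (Nat.add
    (f (Nat.add x14183 x5499)) (Nat.add (f (Nat.add x14189 x5493)) (Nat.add
    (f (Nat.add x14191 x5491)) (Nat.add (f (Nat.add x14195 x5487)) (Nat.add
    (f (Nat.add x14197 x5485)) (Nat.add (f (Nat.add x14199 x5483)) (Nat.add
    (f (Nat.add x14207 x5475)) (Nat.add (f (Nat.add x14209 x5473)) (Nat.add
    (f (Nat.add x14213 x5469)) (Nat.add (f (Nat.add x14215 x5467)) (Nat.add
    (f (Nat.add x14217 x5465)) (Nat.add (f (Nat.add x14221 x5461)) (Nat.add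
    (f (Nat.add x14223 x5459)) (Nat.add (f (Nat.add x14231 x5451)) (Nat.add
    (f (Nat.add x14233 x5449)) (Nat.add (f (Nat.add x14235 x5447)) (Nat.add
    (f (Nat.add x14239 x5443)) (Nat.add (f (Nat.add x14241 x5441)) (Nat.add
    (f (Nat.add x14247 x5435)) (Nat.add (f (Nat.add x14261 x5421)) (Nat.add
    (f (Nat.add x14263 x5419)) (Nat.add (f (Nat.add x14267 x5415)) (Nat.add
    (f (Nat.add x14269 x5413)) (Nat.add (f (Nat.add x14271 x5411)) (Nat.add
    (f (Nat.add x14275 x5407)) (Nat.add (f (Nat.add x14277 x5405)) (Nat.add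
    (f (Nat.add x14285 x5397)) (Nat.add (f (Nat.add x14287 x5395)) (Nat.add
    (f (Nat.add x14289 x5393)) (Nat.add (f (Nat.add x14293 x5389))
    0)))))))))))))))))))))))))))))))))))))))))))))))))))))))))))) (Nat.add (Nat.add
    (f (Nat.add x14295 x5387)) (Nat.add (f (Nat.add x14301 x5381)) (Nat.add
    (f (Nat.add x14311 x5371)) (Nat.add (f (Nat.add x14313 x5369)) (Nat.add
    (f (Nat.add x14319 x5363)) (Nat.add (f (Nat.add x14345 x5337)) (Nat.add
    (f (Nat.add x14351 x5331)) (Nat.add (f (Nat.add x14353 x5329)) (Nat.add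
    (f (Nat.add x14357 x5325)) (Nat.add (f (Nat.add x14359 x5323)) (Nat.add
    (f (Nat.add x14361 x5321)) (Nat.add (f (Nat.add x14369 x5313)) (Nat.add
    (f (Nat.add x14371 x5311)) (Nat.add (f (Nat.add x14375 x5307)) (Nat.add
    (f (Nat.add x14377 x5305)) (Nat.add (f (Nat.add x14379 x5303)) (Nat.add
    (f (Nat.add x14383 x5299)) (Nat.add (f (Nat.add x14385 x5297)) (Nat.add
    (f (Nat.add x14393 x5289)) (Nat.add (f (Nat.add x14395 x5287)) (Nat.add
    (f (Nat.add x14397 x5285)) (Nat.add (f (Nat.add x14401 x5281)) (Nat.add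
    (f (Nat.add x14403 x5279)) (Nat.add (f (Nat.add x14409 x5273)) (Nat.add
    (f (Nat.add x14423 x5259)) (Nat.add (f (Nat.add x14425 x5257)) (Nat.add
    (f (Nat.add x14429 x5253)) (Nat.add (f (Nat.add x14431 x5251)) (Nat.add
    (f (Nat.add x14433 x5249)) (Nat.add (f (Nat.add x14437 x5245)) (Nat.add
    (f (Nat.add x14439 x5243)) (Nat.add (f (Nat.add x14447 x5235)) (Nat.add
    (f (Nat.add x14449 x5233)) (Nat.add (f (Nat.add x14451 x5231)) (Nat.add
    (f (Nat.add x14455 x5227)) (Nat.add (f (Nat.add x14457 x5225)) (Nat.add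
    (f (Nat.add x14463 x5219)) (Nat.add (f (Nat.add x14473 x5209)) (Nat.add
    (f (Nat.add x14475 x5207)) (Nat.add (f (Nat.add x14481 x5201)) (Nat.add
    (f (Nat.add x14501 x5181)) (Nat.add (f (Nat.add x14503 x5179)) (Nat.add
    (f (Nat.add x14505 x5177)) (Nat.add (f (Nat.add x14509 x5173)) (Nat.add
    (f (Nat.add x14511 x5171)) (Nat.add (f (Nat.add x14517 x5165)) (Nat.add
    (f (Nat.add x14527 x5155)) (Nat.add (f (Nat.add x14529 x5153)) (Nat.add
    (f (Nat.add x14535 x5147)) (Nat.add (f (Nat.add x14553 x5129)) (Nat.add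
    (f (Nat.add x14597 x5085)) (Nat.add (f (Nat.add x14603 x5079)) (Nat.add
    (f (Nat.add x14605 x5077)) (Nat.add (f (Nat.add x14615 x5067)) (Nat.add
    (f (Nat.add x14621 x5061)) (Nat.add (f (Nat.add x14623 x5059)) (Nat.add
    (f (Nat.add x14627 x5055)) (Nat.add (f (Nat.add x14629 x5053)) (Nat.add
    (f (Nat.add x14631 x5051)) (Nat.add (f (Nat.add x14639 x5043))
    0)))))))))))))))))))))))))))))))))))))))))))))))))))))))))))) (Nat.add (Nat.add
    (f (Nat.add x14641 x5041)) (Nat.add (f (Nat.add x14645 x5037)) (Nat.add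
    (f (Nat.add x14647 x5035)) (Nat.add (f (Nat.add x14649 x5033)) (Nat.add
    (f (Nat.add x14653 x5029)) (Nat.add (f (Nat.add x14655 x5027)) (Nat.add
    (f (Nat.add x14669 x5013)) (Nat.add (f (Nat.add x14675 x5007)) (Nat.add
    (f (Nat.add x14677 x5005)) (Nat.add (f (Nat.add x14681 x5001)) (Nat.add
    (f (Nat.add x14683 x4999)) (Nat.add (f (Nat.add x14685 x4997)) (Nat.add
    (f (Nat.add x14693 x4989)) (Nat.add (f (Nat.add x14695 x4987)) (Nat.add
    (f (Nat.add x14699 x4983)) (Nat.add (f (Nat.add x14701 x4981)) (Nat.add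
    (f (Nat.add x14703 x4979)) (Nat.add (f (Nat.add x14707 x4975)) (Nat.add
    (f (Nat.add x14709 x4973)) (Nat.add (f (Nat.add x14717 x4965)) (Nat.add
    (f (Nat.add x14719 x4963)) (Nat.add (f (Nat.add x14721 x4961)) (Nat.add
    (f (Nat.add x14725 x4957)) (Nat.add (f (Nat.add x14727 x4955)) (Nat.add
    (f (Nat.add x14733 x4949)) (Nat.add (f (Nat.add x14747 x4935)) (Nat.add
    (f (Nat.add x14749 x4933)) (Nat.add (f (Nat.add x14753 x4929)) (Nat.add
    (f (Nat.add x14755 x4927)) (Nat.add (f (Nat.add x14757 x4925)) (Nat.add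
    (f (Nat.add x14761 x4921)) (Nat.add (f (Nat.add x14763 x4919)) (Nat.add
    (f (Nat.add x14771 x4911)) (Nat.add (f (Nat.add x14773 x4909)) (Nat.add
    (f (Nat.add x14775 x4907)) (Nat.add (f (Nat.add x14779 x4903)) (Nat.add
    (f (Nat.add x14781 x4901)) (Nat.add (f (Nat.add x14787 x4895)) (Nat.add
    (f (Nat.add x14797 x4885)) (Nat.add (f (Nat.add x14799 x4883)) (Nat.add
    (f (Nat.add x14805 x4877)) (Nat.add (f (Nat.add x14831 x4851)) (Nat.add
    (f (Nat.add x14837 x4845)) (Nat.add (f (Nat.add x14839 x4843)) (Nat.add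
    (f (Nat.add x14843 x4839)) (Nat.add (f (Nat.add x14845 x4837)) (Nat.add
    (f (Nat.add x14847 x4835)) (Nat.add (f (Nat.add x14855 x4827)) (Nat.add
    (f (Nat.add x14857 x4825)) (Nat.add (f (Nat.add x14861 x4821)) (Nat.add
    (f (Nat.add x14863 x4819)) (Nat.add (f (Nat.add x14865 x4817)) (Nat.add
    (f (Nat.add x14869 x4813)) (Nat.add (f (Nat.add x14871 x4811)) (Nat.add
    (f (Nat.add x14879 x4803)) (Nat.add (f (Nat.add x14881 x4801)) (Nat.add
    (f (Nat.add x14883 x4799)) (Nat.add (f (Nat.add x14887 x4795)) (Nat.add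
    (f (Nat.add x14889 x4793)) (Nat.add (f (Nat.add x14895 x4787))
    0)))))))))))))))))))))))))))))))))))))))))))))))))))))))))))) (Nat.add (Nat.add
    (f (Nat.add x14909 x4773)) (Nat.add (f (Nat.add x14911 x4771)) (Nat.add
    (f (Nat.add x14915 x4767)) (Nat.add (f (Nat.add x14917 x4765)) (Nat.add
    (f (Nat.add x14919 x4763)) (Nat.add (f (Nat.add x14923 x4759)) (Nat.add
    (f (Nat.add x14925 x4757)) (Nat.add (f (Nat.add x14933 x4749)) (Nat.add
    (f (Nat.add x14935 x4747)) (Nat.add (f (Nat.add x14937 x4745)) (Nat.add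
    (f (Nat.add x14941 x4741)) (Nat.add (f (Nat.add x14943 x4739)) (Nat.add
    (f (Nat.add x14949 x4733)) (Nat.add (f (Nat.add x14959 x4723)) (Nat.add
    (f (Nat.add x14961 x4721)) (Nat.add (f (Nat.add x14967 x4715)) (Nat.add
    (f (Nat.add x14987 x4695)) (Nat.add (f (Nat.add x14989 x4693)) (Nat.add
    (f (Nat.add x14991 x4691)) (Nat.add (f (Nat.add x14995 x4687)) (Nat.add
    (f (Nat.add x14997 x4685)) (Nat.add (f (Nat.add x15003 x4679)) (Nat.add
    (f (Nat.add x15013 x4669)) (Nat.add (f (Nat.add x15015 x4667)) (Nat.add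
    (f (Nat.add x15021 x4661)) (Nat.add (f (Nat.add x15039 x4643)) (Nat.add
    (f (Nat.add x15071 x4611)) (Nat.add (f (Nat.add x15073 x4609)) (Nat.add
    (f (Nat.add x15077 x4605)) (Nat.add (f (Nat.add x15079 x4603)) (Nat.add
    (f (Nat.add x15081 x4601)) (Nat.add (f (Nat.add x15085 x4597)) (Nat.add
    (f (Nat.add x15087 x4595)) (Nat.add (f (Nat.add x15095 x4587)) (Nat.add
    (f (Nat.add x15097 x4585)) (Nat.add (f (Nat.add x15099 x4583)) (Nat.add
    (f (Nat.add x15103 x4579)) (Nat.add (f (Nat.add x15105 x4577)) (Nat.add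
    (f (Nat.add x15111 x4571)) (Nat.add (f (Nat.add x15121 x4561)) (Nat.add
    (f (Nat.add x15123 x4559)) (Nat.add (f (Nat.add x15129 x4553)) (Nat.add
    (f (Nat.add x15149 x4533)) (Nat.add (f (Nat.add x15151 x4531)) (Nat.add
    (f (Nat.add x15153 x4529)) (Nat.add (f (Nat.add x15157 x4525)) (Nat.add
    (f (Nat.add x15159 x4523)) (Nat.add (f (Nat.add x15165 x4517)) (Nat.add
    (f (Nat.add x15175 x4507)) (Nat.add (f (Nat.add x15177 x4505)) (Nat.add
    (f (Nat.add x15183 x4499)) (Nat.add (f (Nat.add x15201 x4481)) (Nat.add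
    (f (Nat.add x15229 x4453)) (Nat.add (f (Nat.add x15231 x4451)) (Nat.add
    (f (Nat.add x15237 x4445)) (Nat.add (f (Nat.add x15255 x4427)) (Nat.add
    (f (Nat.add x15335 x4347)) (Nat.add (f (Nat.add x15353 x4329)) (Nat.add
    (f (Nat.add x15359 x4323)) (Nat.add (f (Nat.add x15361 x4321))
    0)))))))))))))))))))))))))))))))))))))))))))))))))))))))))))) (Nat.add (Nat.add
    (f (Nat.add x15371 x4311)) (Nat.add (f (Nat.add x15377 x4305)) (Nat.add
    (f (Nat.add x15379 x4303)) (Nat.add (f (Nat.add x15383 x4299)) (Nat.add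
    (f (Nat.add x15385 x4297)) (Nat.add (f (Nat.add x15387 x4295)) (Nat.add
    (f (Nat.add x15407 x4275)) (Nat.add (f (Nat.add x15413 x4269)) (Nat.add
    (f (Nat.add x15415 x4267)) (Nat.add (f (Nat.add x15425 x4257)) (Nat.add
    (f (Nat.add x15431 x4251)) (Nat.add (f (Nat.add x15433 x4249)) (Nat.add
    (f (Nat.add x15437 x4245)) (Nat.add (f (Nat.add x15439 x4243)) (Nat.add
    (f (Nat.add x15441 x4241)) (Nat.add (f (Nat.add x15449 x4233)) (Nat.add
    (f (Nat.add x15451 x4231)) (Nat.add (f (Nat.add x15455 x4227)) (Nat.add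
    (f (Nat.add x15457 x4225)) (Nat.add (f (Nat.add x15459 x4223)) (Nat.add
    (f (Nat.add x15463 x4219)) (Nat.add (f (Nat.add x15465 x4217)) (Nat.add
    (f (Nat.add x15479 x4203)) (Nat.add (f (Nat.add x15485 x4197)) (Nat.add
    (f (Nat.add x15487 x4195)) (Nat.add (f (Nat.add x15491 x4191)) (Nat.add
    (f (Nat.add x15493 x4189)) (Nat.add (f (Nat.add x15495 x4187)) (Nat.add
    (f (Nat.add x15503 x4179)) (Nat.add (f (Nat.add x15505 x4177)) (Nat.add
    (f (Nat.add x15509 x4173)) (Nat.add (f (Nat.add x15511 x4171)) (Nat.add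
    (f (Nat.add x15513 x4169)) (Nat.add (f (Nat.add x15517 x4165)) (Nat.add
    (f (Nat.add x15519 x4163)) (Nat.add (f (Nat.add x15527 x4155)) (Nat.add
    (f (Nat.add x15529 x4153)) (Nat.add (f (Nat.add x15531 x4151)) (Nat.add
    (f (Nat.add x15535 x4147)) (Nat.add (f (Nat.add x15537 x4145)) (Nat.add
    (f (Nat.add x15543 x4139)) (Nat.add (f (Nat.add x15569 x4113)) (Nat.add
    (f (Nat.add x15575 x4107)) (Nat.add (f (Nat.add x15577 x4105)) (Nat.add
    (f (Nat.add x15587 x4095)) (Nat.add (f (Nat.add x15593 x4089)) (Nat.add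
    (f (Nat.add x15595 x4087)) (Nat.add (f (Nat.add x15599 x4083)) (Nat.add
    (f (Nat.add x15601 x4081)) (Nat.add (f (Nat.add x15603 x4079)) (Nat.add
    (f (Nat.add x15611 x4071)) (Nat.add (f (Nat.add x15613 x4069)) (Nat.add
    (f (Nat.add x15617 x4065)) (Nat.add (f (Nat.add x15619 x4063)) (Nat.add
    (f (Nat.add x15621 x4061)) (Nat.add (f (Nat.add x15625 x4057)) (Nat.add
    (f (Nat.add x15627 x4055)) (Nat.add (f (Nat.add x15641 x4041)) (Nat.add
    (f (Nat.add x15647 x4035)) (Nat.add (f (Nat.add x15649 x4033))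
    0)))))))))))))))))))))))))))))))))))))))))))))))))))))))))))) (Nat.add (Nat.add
    (f (Nat.add x15653 x4029)) (Nat.add (f (Nat.add x15655 x4027)) (Nat.add
    (f (Nat.add x15657 x4025)) (Nat.add (f (Nat.add x15665 x4017)) (Nat.add
    (f (Nat.add x15667 x4015)) (Nat.add (f (Nat.add x15671 x4011)) (Nat.add
    (f (Nat.add x15673 x4009)) (Nat.add (f (Nat.add x15675 x4007)) (Nat.add
    (f (Nat.add x15679 x4003)) (Nat.add (f (Nat.add x15681 x4001)) (Nat.add
    (f (Nat.add x15689 x3993)) (Nat.add (f (Nat.add x15691 x3991)) (Nat.add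
    (f (Nat.add x15693 x3989)) (Nat.add (f (Nat.add x15697 x3985)) (Nat.add
    (f (Nat.add x15699 x3983)) (Nat.add (f (Nat.add x15705 x3977)) (Nat.add
    (f (Nat.add x15719 x3963)) (Nat.add (f (Nat.add x15721 x3961)) (Nat.add
    (f (Nat.add x15725 x3957)) (Nat.add (f (Nat.add x15727 x3955)) (Nat.add
    (f (Nat.add x15729 x3953)) (Nat.add (f (Nat.add x15733 x3949)) (Nat.add
    (f (Nat.add x15735 x3947)) (Nat.add (f (Nat.add x15743 x3939)) (Nat.add
    (f (Nat.add x15745 x3937)) (Nat.add (f (Nat.add x15747 x3935)) (Nat.add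
    (f (Nat.add x15751 x3931)) (Nat.add (f (Nat.add x15753 x3929)) (Nat.add
    (f (Nat.add x15759 x3923)) (Nat.add (f (Nat.add x15769 x3913)) (Nat.add
    (f (Nat.add x15771 x3911)) (Nat.add (f (Nat.add x15777 x3905)) (Nat.add
    (f (Nat.add x15803 x3879)) (Nat.add (f (Nat.add x15809 x3873)) (Nat.add
    (f (Nat.add x15811 x3871)) (Nat.add (f (Nat.add x15815 x3867)) (Nat.add
    (f (Nat.add x15817 x3865)) (Nat.add (f (Nat.add x15819 x3863)) (Nat.add
    (f (Nat.add x15827 x3855)) (Nat.add (f (Nat.add x15829 x3853)) (Nat.add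
    (f (Nat.add x15833 x3849)) (Nat.add (f (Nat.add x15835 x3847)) (Nat.add
    (f (Nat.add x15837 x3845)) (Nat.add (f (Nat.add x15841 x3841)) (Nat.add
    (f (Nat.add x15843 x3839)) (Nat.add (f (Nat.add x15851 x3831)) (Nat.add
    (f (Nat.add x15853 x3829)) (Nat.add (f (Nat.add x15855 x3827)) (Nat.add
    (f (Nat.add x15859 x3823)) (Nat.add (f (Nat.add x15861 x3821)) (Nat.add
    (f (Nat.add x15867 x3815)) (Nat.add (f (Nat.add x15881 x3801)) (Nat.add
    (f (Nat.add x15883 x3799)) (Nat.add (f (Nat.add x15887 x3795)) (Nat.add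
    (f (Nat.add x15889 x3793)) (Nat.add (f (Nat.add x15891 x3791)) (Nat.add
    (f (Nat.add x15895 x3787)) (Nat.add (f (Nat.add x15897 x3785)) (Nat.add
    (f (Nat.add x15905 x3777)) (Nat.add (f (Nat.add x15907 x3775))
    0)))))))))))))))))))))))))))))))))))))))))))))))))))))))))))) (Nat.add (Nat.add
    (f (Nat.add x15909 x3773)) (Nat.add (f (Nat.add x15913 x3769)) (Nat.add
    (f (Nat.add x15915 x3767)) (Nat.add (f (Nat.add x15921 x3761)) (Nat.add
    (f (Nat.add x15931 x3751)) (Nat.add (f (Nat.add x15933 x3749)) (Nat.add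
    (f (Nat.add x15939 x3743)) (Nat.add (f (Nat.add x15959 x3723)) (Nat.add
    (f (Nat.add x15961 x3721)) (Nat.add (f (Nat.add x15963 x3719)) (Nat.add
    (f (Nat.add x15967 x3715)) (Nat.add (f (Nat.add x15969 x3713)) (Nat.add
    (f (Nat.add x15975 x3707)) (Nat.add (f (Nat.add x15985 x3697)) (Nat.add
    (f (Nat.add x15987 x3695)) (Nat.add (f (Nat.add x15993 x3689)) (Nat.add
    (f (Nat.add x16011 x3671)) (Nat.add (f (Nat.add x16055 x3627)) (Nat.add
    (f (Nat.add x16061 x3621)) (Nat.add (f (Nat.add x16063 x3619)) (Nat.add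
    (f (Nat.add x16073 x3609)) (Nat.add (f (Nat.add x16079 x3603)) (Nat.add
    (f (Nat.add x16081 x3601)) (Nat.add (f (Nat.add x16085 x3597)) (Nat.add
    (f (Nat.add x16087 x3595)) (Nat.add (f (Nat.add x16089 x3593)) (Nat.add
    (f (Nat.add x16097 x3585)) (Nat.add (f (Nat.add x16099 x3583)) (Nat.add
    (f (Nat.add x16103 x3579)) (Nat.add (f (Nat.add x16105 x3577)) (Nat.add
    (f (Nat.add x16107 x3575)) (Nat.add (f (Nat.add x16111 x3571)) (Nat.add
    (f (Nat.add x16113 x3569)) (Nat.add (f (Nat.add x16127 x3555)) (Nat.add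
    (f (Nat.add x16133 x3549)) (Nat.add (f (Nat.add x16135 x3547)) (Nat.add
    (f (Nat.add x16139 x3543)) (Nat.add (f (Nat.add x16141 x3541)) (Nat.add
    (f (Nat.add x16143 x3539)) (Nat.add (f (Nat.add x16151 x3531)) (Nat.add
    (f (Nat.add x16153 x3529)) (Nat.add (f (Nat.add x16157 x3525)) (Nat.add
    (f (Nat.add x16159 x3523)) (Nat.add (f (Nat.add x16161 x3521)) (Nat.add
    (f (Nat.add x16165 x3517)) (Nat.add (f (Nat.add x16167 x3515)) (Nat.add
    (f (Nat.add x16175 x3507)) (Nat.add (f (Nat.add x16177 x3505)) (Nat.add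
    (f (Nat.add x16179 x3503)) (Nat.add (f (Nat.add x16183 x3499)) (Nat.add
    (f (Nat.add x16185 x3497)) (Nat.add (f (Nat.add x16191 x3491)) (Nat.add
    (f (Nat.add x16205 x3477)) (Nat.add (f (Nat.add x16207 x3475)) (Nat.add
    (f (Nat.add x16211 x3471)) (Nat.add (f (Nat.add x16213 x3469)) (Nat.add
    (f (Nat.add x16215 x3467)) (Nat.add (f (Nat.add x16219 x3463)) (Nat.add
    (f (Nat.add x16221 x3461)) (Nat.add (f (Nat.add x16229 x3453))
    0)))))))))))))))))))))))))))))))))))))))))))))))))))))))))))) (Nat.add (Nat.add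
    (f (Nat.add x16231 x3451)) (Nat.add (f (Nat.add x16233 x3449)) (Nat.add
    (f (Nat.add x16237 x3445)) (Nat.add (f (Nat.add x16239 x3443)) (Nat.add
    (f (Nat.add x16245 x3437)) (Nat.add (f (Nat.add x16255 x3427)) (Nat.add
    (f (Nat.add x16257 x3425)) (Nat.add (f (Nat.add x16263 x3419)) (Nat.add
    (f (Nat.add x16289 x3393)) (Nat.add (f (Nat.add x16295 x3387)) (Nat.add
    (f (Nat.add x16297 x3385)) (Nat.add (f (Nat.add x16301 x3381)) (Nat.add
    (f (Nat.add x16303 x3379)) (Nat.add (f (Nat.add x16305 x3377)) (Nat.add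
    (f (Nat.add x16313 x3369)) (Nat.add (f (Nat.add x16315 x3367)) (Nat.add
    (f (Nat.add x16319 x3363)) (Nat.add (f (Nat.add x16321 x3361)) (Nat.add
    (f (Nat.add x16323 x3359)) (Nat.add (f (Nat.add x16327 x3355)) (Nat.add
    (f (Nat.add x16329 x3353)) (Nat.add (f (Nat.add x16337 x3345)) (Nat.add
    (f (Nat.add x16339 x3343)) (Nat.add (f (Nat.add x16341 x3341)) (Nat.add
    (f (Nat.add x16345 x3337)) (Nat.add (f (Nat.add x16347 x3335)) (Nat.add
    (f (Nat.add x16353 x3329)) (Nat.add (f (Nat.add x16367 x3315)) (Nat.add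
    (f (Nat.add x16369 x3313)) (Nat.add (f (Nat.add x16373 x3309)) (Nat.add
    (f (Nat.add x16375 x3307)) (Nat.add (f (Nat.add x16377 x3305)) (Nat.add
    (f (Nat.add x16381 x3301)) (Nat.add (f (Nat.add x16383 x3299)) (Nat.add
    (f (Nat.add x16391 x3291)) (Nat.add (f (Nat.add x16393 x3289)) (Nat.add
    (f (Nat.add x16395 x3287)) (Nat.add (f (Nat.add x16399 x3283)) (Nat.add
    (f (Nat.add x16401 x3281)) (Nat.add (f (Nat.add x16407 x3275)) (Nat.add
    (f (Nat.add x16417 x3265)) (Nat.add (f (Nat.add x16419 x3263)) (Nat.add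
    (f (Nat.add x16425 x3257)) (Nat.add (f (Nat.add x16445 x3237)) (Nat.add
    (f (Nat.add x16447 x3235)) (Nat.add (f (Nat.add x16449 x3233)) (Nat.add
    (f (Nat.add x16453 x3229)) (Nat.add (f (Nat.add x16455 x3227)) (Nat.add
    (f (Nat.add x16461 x3221)) (Nat.add (f (Nat.add x16471 x3211)) (Nat.add
    (f (Nat.add x16473 x3209)) (Nat.add (f (Nat.add x16479 x3203)) (Nat.add
    (f (Nat.add x16497 x3185)) (Nat.add (f (Nat.add x16529 x3153)) (Nat.add
    (f (Nat.add x16531 x3151)) (Nat.add (f (Nat.add x16535 x3147)) (Nat.add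
    (f (Nat.add x16537 x3145)) (Nat.add (f (Nat.add x16539 x3143)) (Nat.add
    (f (Nat.add x16543 x3139)) (Nat.add (f (Nat.add x16545 x3137))
    0)))))))))))))))))))))))))))))))))))))))))))))))))))))))))))) (Nat.add (Nat.add
    (f (Nat.add x16553 x3129)) (Nat.add (f (Nat.add x16555 x3127)) (Nat.add
    (f (Nat.add x16557 x3125)) (Nat.add (f (Nat.add x16561 x3121)) (Nat.add
    (f (Nat.add x16563 x3119)) (Nat.add (f (Nat.add x16569 x3113)) (Nat.add
    (f (Nat.add x16579 x3103)) (Nat.add (f (Nat.add x16581 x3101)) (Nat.add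
    (f (Nat.add x16587 x3095)) (Nat.add (f (Nat.add x16607 x3075)) (Nat.add
    (f (Nat.add x16609 x3073)) (Nat.add (f (Nat.add x16611 x3071)) (Nat.add
    (f (Nat.add x16615 x3067)) (Nat.add (f (Nat.add x16617 x3065)) (Nat.add
    (f (Nat.add x16623 x3059)) (Nat.add (f (Nat.add x16633 x3049)) (Nat.add
    (f (Nat.add x16635 x3047)) (Nat.add (f (Nat.add x16641 x3041)) (Nat.add
    (f (Nat.add x16659 x3023)) (Nat.add (f (Nat.add x16687 x2995)) (Nat.add
    (f (Nat.add x16689 x2993)) (Nat.add (f (Nat.add x16695 x2987)) (Nat.add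
    (f (Nat.add x16713 x2969)) (Nat.add (f (Nat.add x16775 x2907)) (Nat.add
    (f (Nat.add x16781 x2901)) (Nat.add (f (Nat.add x16783 x2899)) (Nat.add
    (f (Nat.add x16787 x2895)) (Nat.add (f (Nat.add x16789 x2893)) (Nat.add
    (f (Nat.add x16791 x2891)) (Nat.add (f (Nat.add x16799 x2883)) (Nat.add
    (f (Nat.add x16801 x2881)) (Nat.add (f (Nat.add x16805 x2877)) (Nat.add
    (f (Nat.add x16807 x2875)) (Nat.add (f (Nat.add x16809 x2873)) (Nat.add
    (f (Nat.add x16813 x2869)) (Nat.add (f (Nat.add x16815 x2867)) (Nat.add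
    (f (Nat.add x16823 x2859)) (Nat.add (f (Nat.add x16825 x2857)) (Nat.add
    (f (Nat.add x16827 x2855)) (Nat.add (f (Nat.add x16831 x2851)) (Nat.add
    (f (Nat.add x16833 x2849)) (Nat.add (f (Nat.add x16839 x2843)) (Nat.add
    (f (Nat.add x16853 x2829)) (Nat.add (f (Nat.add x16855 x2827)) (Nat.add
    (f (Nat.add x16859 x2823)) (Nat.add (f (Nat.add x16861 x2821)) (Nat.add
    (f (Nat.add x16863 x2819)) (Nat.add (f (Nat.add x16867 x2815)) (Nat.add
    (f (Nat.add x16869 x2813)) (Nat.add (f (Nat.add x16877 x2805)) (Nat.add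
    (f (Nat.add x16879 x2803)) (Nat.add (f (Nat.add x16881 x2801)) (Nat.add
    (f (Nat.add x16885 x2797)) (Nat.add (f (Nat.add x16887 x2795)) (Nat.add
    (f (Nat.add x16893 x2789)) (Nat.add (f (Nat.add x16903 x2779)) (Nat.add
    (f (Nat.add x16905 x2777)) (Nat.add (f (Nat.add x16911 x2771)) (Nat.add
    (f (Nat.add x16931 x2751)) (Nat.add (f (Nat.add x16933 x2749))
    0)))))))))))))))))))))))))))))))))))))))))))))))))))))))))))) (Nat.add (Nat.add
    (f (Nat.add x16935 x2747)) (Nat.add (f (Nat.add x16939 x2743)) (Nat.add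
    (f (Nat.add x16941 x2741)) (Nat.add (f (Nat.add x16947 x2735)) (Nat.add
    (f (Nat.add x16957 x2725)) (Nat.add (f (Nat.add x16959 x2723)) (Nat.add
    (f (Nat.add x16965 x2717)) (Nat.add (f (Nat.add x16983 x2699)) (Nat.add
    (f (Nat.add x17015 x2667)) (Nat.add (f (Nat.add x17017 x2665)) (Nat.add
    (f (Nat.add x17021 x2661)) (Nat.add (f (Nat.add x17023 x2659)) (Nat.add
    (f (Nat.add x17025 x2657)) (Nat.add (f (Nat.add x17029 x2653)) (Nat.add
    (f (Nat.add x17031 x2651)) (Nat.add (f (Nat.add x17039 x2643)) (Nat.add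
    (f (Nat.add x17041 x2641)) (Nat.add (f (Nat.add x17043 x2639)) (Nat.add
    (f (Nat.add x17047 x2635)) (Nat.add (f (Nat.add x17049 x2633)) (Nat.add
    (f (Nat.add x17055 x2627)) (Nat.add (f (Nat.add x17065 x2617)) (Nat.add
    (f (Nat.add x17067 x2615)) (Nat.add (f (Nat.add x17073 x2609)) (Nat.add
    (f (Nat.add x17093 x2589)) (Nat.add (f (Nat.add x17095 x2587)) (Nat.add
    (f (Nat.add x17097 x2585)) (Nat.add (f (Nat.add x17101 x2581)) (Nat.add
    (f (Nat.add x17103 x2579)) (Nat.add (f (Nat.add x17109 x2573)) (Nat.add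
    (f (Nat.add x17119 x2563)) (Nat.add (f (Nat.add x17121 x2561)) (Nat.add
    (f (Nat.add x17127 x2555)) (Nat.add (f (Nat.add x17145 x2537)) (Nat.add
    (f (Nat.add x17173 x2509)) (Nat.add (f (Nat.add x17175 x2507)) (Nat.add
    (f (Nat.add x17181 x2501)) (Nat.add (f (Nat.add x17199 x2483)) (Nat.add
    (f (Nat.add x17255 x2427)) (Nat.add (f (Nat.add x17257 x2425)) (Nat.add
    (f (Nat.add x17259 x2423)) (Nat.add (f (Nat.add x17263 x2419)) (Nat.add
    (f (Nat.add x17265 x2417)) (Nat.add (f (Nat.add x17271 x2411)) (Nat.add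
    (f (Nat.add x17281 x2401)) (Nat.add (f (Nat.add x17283 x2399)) (Nat.add
    (f (Nat.add x17289 x2393)) (Nat.add (f (Nat.add x17307 x2375)) (Nat.add
    (f (Nat.add x17335 x2347)) (Nat.add (f (Nat.add x17337 x2345)) (Nat.add
    (f (Nat.add x17343 x2339)) (Nat.add (f (Nat.add x17361 x2321)) (Nat.add
    (f (Nat.add x17415 x2267)) (Nat.add (f (Nat.add x17513 x2169)) (Nat.add
    (f (Nat.add x17519 x2163)) (Nat.add (f (Nat.add x17521 x2161)) (Nat.add
    (f (Nat.add x17531 x2151)) (Nat.add (f (Nat.add x17537 x2145)) (Nat.add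
    (f (Nat.add x17539 x2143)) (Nat.add (f (Nat.add x17543 x2139))
    0)))))))))))))))))))))))))))))))))))))))))))))))))))))))))))) (Nat.add (Nat.add
    (f (Nat.add x17545 x2137)) (Nat.add (f (Nat.add x17547 x2135)) (Nat.add
    (f (Nat.add x17555 x2127)) (Nat.add (f (Nat.add x17557 x2125)) (Nat.add
    (f (Nat.add x17561 x2121)) (Nat.add (f (Nat.add x17563 x2119)) (Nat.add
    (f (Nat.add x17565 x2117)) (Nat.add (f (Nat.add x17569 x2113)) (Nat.add
    (f (Nat.add x17571 x2111)) (Nat.add (f (Nat.add x17585 x2097)) (Nat.add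
    (f (Nat.add x17591 x2091)) (Nat.add (f (Nat.add x17593 x2089)) (Nat.add
    (f (Nat.add x17597 x2085)) (Nat.add (f (Nat.add x17599 x2083)) (Nat.add
    (f (Nat.add x17601 x2081)) (Nat.add (f (Nat.add x17609 x2073)) (Nat.add
    (f (Nat.add x17611 x2071)) (Nat.add (f (Nat.add x17615 x2067)) (Nat.add
    (f (Nat.add x17617 x2065)) (Nat.add (f (Nat.add x17619 x2063)) (Nat.add
    (f (Nat.add x17623 x2059)) (Nat.add (f (Nat.add x17625 x2057)) (Nat.add
    (f (Nat.add x17633 x2049)) (Nat.add (f (Nat.add x17635 x2047)) (Nat.add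
    (f (Nat.add x17637 x2045)) (Nat.add (f (Nat.add x17641 x2041)) (Nat.add
    (f (Nat.add x17643 x2039)) (Nat.add (f (Nat.add x17649 x2033)) (Nat.add
    (f (Nat.add x17663 x2019)) (Nat.add (f (Nat.add x17665 x2017)) (Nat.add
    (f (Nat.add x17669 x2013)) (Nat.add (f (Nat.add x17671 x2011)) (Nat.add
    (f (Nat.add x17673 x2009)) (Nat.add (f (Nat.add x17677 x2005)) (Nat.add
    (f (Nat.add x17679 x2003)) (Nat.add (f (Nat.add x17687 x1995)) (Nat.add
    (f (Nat.add x17689 x1993)) (Nat.add (f (Nat.add x17691 x1991)) (Nat.add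
    (f (Nat.add x17695 x1987)) (Nat.add (f (Nat.add x17697 x1985)) (Nat.add
    (f (Nat.add x17703 x1979)) (Nat.add (f (Nat.add x17713 x1969)) (Nat.add
    (f (Nat.add x17715 x1967)) (Nat.add (f (Nat.add x17721 x1961)) (Nat.add
    (f (Nat.add x17747 x1935)) (Nat.add (f (Nat.add x17753 x1929)) (Nat.add
    (f (Nat.add x17755 x1927)) (Nat.add (f (Nat.add x17759 x1923)) (Nat.add
    (f (Nat.add x17761 x1921)) (Nat.add (f (Nat.add x17763 x1919)) (Nat.add
    (f (Nat.add x17771 x1911)) (Nat.add (f (Nat.add x17773 x1909)) (Nat.add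
    (f (Nat.add x17777 x1905)) (Nat.add (f (Nat.add x17779 x1903)) (Nat.add
    (f (Nat.add x17781 x1901)) (Nat.add (f (Nat.add x17785 x1897)) (Nat.add
    (f (Nat.add x17787 x1895)) (Nat.add (f (Nat.add x17795 x1887)) (Nat.add
    (f (Nat.add x17797 x1885)) (Nat.add (f (Nat.add x17799 x1883))
    0)))))))))))))))))))))))))))))))))))))))))))))))))))))))))))) (Nat.add (Nat.add
    (f (Nat.add x17803 x1879)) (Nat.add (f (Nat.add x17805 x1877)) (Nat.add
    (f (Nat.add x17811 x1871)) (Nat.add (f (Nat.add x17825 x1857)) (Nat.add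
    (f (Nat.add x17827 x1855)) (Nat.add (f (Nat.add x17831 x1851)) (Nat.add
    (f (Nat.add x17833 x1849)) (Nat.add (f (Nat.add x17835 x1847)) (Nat.add
    (f (Nat.add x17839 x1843)) (Nat.add (f (Nat.add x17841 x1841)) (Nat.add
    (f (Nat.add x17849 x1833)) (Nat.add (f (Nat.add x17851 x1831)) (Nat.add
    (f (Nat.add x17853 x1829)) (Nat.add (f (Nat.add x17857 x1825)) (Nat.add
    (f (Nat.add x17859 x1823)) (Nat.add (f (Nat.add x17865 x1817)) (Nat.add
    (f (Nat.add x17875 x1807)) (Nat.add (f (Nat.add x17877 x1805)) (Nat.add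
    (f (Nat.add x17883 x1799)) (Nat.add (f (Nat.add x17903 x1779)) (Nat.add
    (f (Nat.add x17905 x1777)) (Nat.add (f (Nat.add x17907 x1775)) (Nat.add
    (f (Nat.add x17911 x1771)) (Nat.add (f (Nat.add x17913 x1769)) (Nat.add
    (f (Nat.add x17919 x1763)) (Nat.add (f (Nat.add x17929 x1753)) (Nat.add
    (f (Nat.add x17931 x1751)) (Nat.add (f (Nat.add x17937 x1745)) (Nat.add
    (f (Nat.add x17955 x1727)) (Nat.add (f (Nat.add x17987 x1695)) (Nat.add
    (f (Nat.add x17989 x1693)) (Nat.add (f (Nat.add x17993 x1689)) (Nat.add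
    (f (Nat.add x17995 x1687)) (Nat.add (f (Nat.add x17997 x1685)) (Nat.add
    (f (Nat.add x18001 x1681)) (Nat.add (f (Nat.add x18003 x1679)) (Nat.add
    (f (Nat.add x18011 x1671)) (Nat.add (f (Nat.add x18013 x1669)) (Nat.add
    (f (Nat.add x18015 x1667)) (Nat.add (f (Nat.add x18019 x1663)) (Nat.add
    (f (Nat.add x18021 x1661)) (Nat.add (f (Nat.add x18027 x1655)) (Nat.add
    (f (Nat.add x18037 x1645)) (Nat.add (f (Nat.add x18039 x1643)) (Nat.add
    (f (Nat.add x18045 x1637)) (Nat.add (f (Nat.add x18065 x1617)) (Nat.add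
    (f (Nat.add x18067 x1615)) (Nat.add (f (Nat.add x18069 x1613)) (Nat.add
    (f (Nat.add x18073 x1609)) (Nat.add (f (Nat.add x18075 x1607)) (Nat.add
    (f (Nat.add x18081 x1601)) (Nat.add (f (Nat.add x18091 x1591)) (Nat.add
    (f (Nat.add x18093 x1589)) (Nat.add (f (Nat.add x18099 x1583)) (Nat.add
    (f (Nat.add x18117 x1565)) (Nat.add (f (Nat.add x18145 x1537)) (Nat.add
    (f (Nat.add x18147 x1535)) (Nat.add (f (Nat.add x18153 x1529)) (Nat.add
    (f (Nat.add x18171 x1511)) (Nat.add (f (Nat.add x18233 x1449))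
    0)))))))))))))))))))))))))))))))))))))))))))))))))))))))))))) (Nat.add (Nat.add
    (f (Nat.add x18239 x1443)) (Nat.add (f (Nat.add x18241 x1441)) (Nat.add
    (f (Nat.add x18245 x1437)) (Nat.add (f (Nat.add x18247 x1435)) (Nat.add
    (f (Nat.add x18249 x1433)) (Nat.add (f (Nat.add x18257 x1425)) (Nat.add
    (f (Nat.add x18259 x1423)) (Nat.add (f (Nat.add x18263 x1419)) (Nat.add
    (f (Nat.add x18265 x1417)) (Nat.add (f (Nat.add x18267 x1415)) (Nat.add
    (f (Nat.add x18271 x1411)) (Nat.add (f (Nat.add x18273 x1409)) (Nat.add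
    (f (Nat.add x18281 x1401)) (Nat.add (f (Nat.add x18283 x1399)) (Nat.add
    (f (Nat.add x18285 x1397)) (Nat.add (f (Nat.add x18289 x1393)) (Nat.add
    (f (Nat.add x18291 x1391)) (Nat.add (f (Nat.add x18297 x1385)) (Nat.add
    (f (Nat.add x18311 x1371)) (Nat.add (f (Nat.add x18313 x1369)) (Nat.add
    (f (Nat.add x18317 x1365)) (Nat.add (f (Nat.add x18319 x1363)) (Nat.add
    (f (Nat.add x18321 x1361)) (Nat.add (f (Nat.add x18325 x1357)) (Nat.add
    (f (Nat.add x18327 x1355)) (Nat.add (f (Nat.add x18335 x1347)) (Nat.add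
    (f (Nat.add x18337 x1345)) (Nat.add (f (Nat.add x18339 x1343)) (Nat.add
    (f (Nat.add x18343 x1339)) (Nat.add (f (Nat.add x18345 x1337)) (Nat.add
    (f (Nat.add x18351 x1331)) (Nat.add (f (Nat.add x18361 x1321)) (Nat.add
    (f (Nat.add x18363 x1319)) (Nat.add (f (Nat.add x18369 x1313)) (Nat.add
    (f (Nat.add x18389 x1293)) (Nat.add (f (Nat.add x18391 x1291)) (Nat.add
    (f (Nat.add x18393 x1289)) (Nat.add (f (Nat.add x18397 x1285)) (Nat.add
    (f (Nat.add x18399 x1283)) (Nat.add (f (Nat.add x18405 x1277)) (Nat.add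
    (f (Nat.add x18415 x1267)) (Nat.add (f (Nat.add x18417 x1265)) (Nat.add
    (f (Nat.add x18423 x1259)) (Nat.add (f (Nat.add x18441 x1241)) (Nat.add
    (f (Nat.add x18473 x1209)) (Nat.add (f (Nat.add x18475 x1207)) (Nat.add
    (f (Nat.add x18479 x1203)) (Nat.add (f (Nat.add x18481 x1201)) (Nat.add
    (f (Nat.add x18483 x1199)) (Nat.add (f (Nat.add x18487 x1195)) (Nat.add
    (f (Nat.add x18489 x1193)) (Nat.add (f (Nat.add x18497 x1185)) (Nat.add
    (f (Nat.add x18499 x1183)) (Nat.add (f (Nat.add x18501 x1181)) (Nat.add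
    (f (Nat.add x18505 x1177)) (Nat.add (f (Nat.add x18507 x1175)) (Nat.add
    (f (Nat.add x18513 x1169)) (Nat.add (f (Nat.add x18523 x1159)) (Nat.add
    (f (Nat.add x18525 x1157)) (Nat.add (f (Nat.add x18531 x1151))
    0)))))))))))))))))))))))))))))))))))))))))))))))))))))))))))) (Nat.add (Nat.add
    (f (Nat.add x18551 x1131)) (Nat.add (f (Nat.add x18553 x1129)) (Nat.add
    (f (Nat.add x18555 x1127)) (Nat.add (f (Nat.add x18559 x1123)) (Nat.add
    (f (Nat.add x18561 x1121)) (Nat.add (f (Nat.add x18567 x1115)) (Nat.add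
    (f (Nat.add x18577 x1105)) (Nat.add (f (Nat.add x18579 x1103)) (Nat.add
    (f (Nat.add x18585 x1097)) (Nat.add (f (Nat.add x18603 x1079)) (Nat.add
    (f (Nat.add x18631 x1051)) (Nat.add (f (Nat.add x18633 x1049)) (Nat.add
    (f (Nat.add x18639 x1043)) (Nat.add (f (Nat.add x18657 x1025)) (Nat.add
    (f (Nat.add x18713 x969)) (Nat.add (f (Nat.add x18715 x967)) (Nat.add (f (Nat.add x18717 x965))
    (Nat.add (f (Nat.add x18721 x961)) (Nat.add (f (Nat.add x18723 x959)) (Nat.add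
    (f (Nat.add x18729 x953)) (Nat.add (f (Nat.add x18739 x943)) (Nat.add (f (Nat.add x18741 x941))
    (Nat.add (f (Nat.add x18747 x935)) (Nat.add (f (Nat.add x18765 x917)) (Nat.add
    (f (Nat.add x18793 x889)) (Nat.add (f (Nat.add x18795 x887)) (Nat.add (f (Nat.add x18801 x881))
    (Nat.add (f (Nat.add x18819 x863)) (Nat.add (f (Nat.add x18873 x809)) (Nat.add
    (f (Nat.add x18959 x723)) (Nat.add (f (Nat.add x18961 x721)) (Nat.add (f (Nat.add x18965 x717))
    (Nat.add (f (Nat.add x18967 x715)) (Nat.add (f (Nat.add x18969 x713)) (Nat.add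
    (f (Nat.add x18973 x709)) (Nat.add (f (Nat.add x18975 x707)) (Nat.add (f (Nat.add x18983 x699))
    (Nat.add (f (Nat.add x18985 x697)) (Nat.add (f (Nat.add x18987 x695)) (Nat.add
    (f (Nat.add x18991 x691)) (Nat.add (f (Nat.add x18993 x689)) (Nat.add (f (Nat.add x18999 x683))
    (Nat.add (f (Nat.add x19009 x673)) (Nat.add (f (Nat.add x19011 x671)) (Nat.add
    (f (Nat.add x19017 x665)) (Nat.add (f (Nat.add x19037 x645)) (Nat.add (f (Nat.add x19039 x643))
    (Nat.add (f (Nat.add x19041 x641)) (Nat.add (f (Nat.add x19045 x637)) (Nat.add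
    (f (Nat.add x19047 x635)) (Nat.add (f (Nat.add x19053 x629)) (Nat.add (f (Nat.add x19063 x619))
    (Nat.add (f (Nat.add x19065 x617)) (Nat.add (f (Nat.add x19071 x611)) (Nat.add
    (f (Nat.add x19089 x593)) (Nat.add (f (Nat.add x19117 x565)) (Nat.add (f (Nat.add x19119 x563))
    (Nat.add (f (Nat.add x19125 x557)) (Nat.add (f (Nat.add x19143 x539)) (Nat.add
    (f (Nat.add x19199 x483)) 0))))))))))))))))))))))))))))))))))))))))))))))))))))))))))))
    (Nat.add (Nat.add (f (Nat.add x19201 x481)) (Nat.add (f (Nat.add x19203 x479)) (Nat.add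
    (f (Nat.add x19207 x475)) (Nat.add (f (Nat.add x19209 x473)) (Nat.add (f (Nat.add x19215 x467))
    (Nat.add (f (Nat.add x19225 x457)) (Nat.add (f (Nat.add x19227 x455)) (Nat.add
    (f (Nat.add x19233 x449)) (Nat.add (f (Nat.add x19251 x431)) (Nat.add (f (Nat.add x19279 x403))
    (Nat.add (f (Nat.add x19281 x401)) (Nat.add (f (Nat.add x19287 x395)) (Nat.add
    (f (Nat.add x19305 x377)) (Nat.add (f (Nat.add x19359 x323)) (Nat.add (f (Nat.add x19441 x241))
    (Nat.add (f (Nat.add x19443 x239)) (Nat.add (f (Nat.add x19449 x233)) (Nat.add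
    (f (Nat.add x19467 x215)) (Nat.add (f (Nat.add x19521 x161)) 0)))))))))))))))))))
    0))))))))))))))))))))))))))))))))))))))))))))))))))))) v2)

theorem fin2_eq0 (f : Nat → Nat) (v1 v2 : Nat) (x : Nat → Nat) :
    apLL (fun t => x t.cd) cds (fin2 f v1 v2) =
    and (Nat.beq (sum2 (fun t => f (x t.cd)) cds) v1)
      (Nat.beq (sum2 (fun t => f (Nat.add (x t.cd) (x (Nat.sub 19682 t.cd)))) cds) v2) :=
  Eq.refl (apLL (fun t => x t.cd) cds (fin2 f v1 v2))

theorem fin2_eq (f : Nat → Nat) (v1 v2 : Nat) (x : Nat → Nat) :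
    ap x (fin2 f v1 v2) = and (Nat.beq (sumL (fun s => f (x s)) (secL 9 9 0 [])) v1)
      (Nat.beq (sumL (fun s => f (Nat.add (x s) (x (Nat.sub 19682 s)))) (secL 9 9 0 [])) v2) :=
  ((ap_eq x (fin2 f v1 v2)).symm.trans (fin2_eq0 f v1 v2 x)).trans
    (congr (congrArg and (congrArg (fun z => Nat.beq z v1) (sum2_eq cds _ codes_ok (fun s => f (x s)))))
      (congrArg (fun z => Nat.beq z v2)
        (sum2_eq cds _ codes_ok (fun s => f (Nat.add (x s) (x (Nat.sub 19682 s)))))))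

def ch0 : List (Nat × Nat) :=
    [(161,18), (215,36), (233,18), (377,18), (395,36), (401,36), (403,18), (431,36), (449,36),
    (455,36), (457,36), (467,36), (473,36), (479,18), (557,36), (563,36), (593,18), (611,36),
    (617,36), (629,36), (665,36), (881,18), (887,36), (935,36), (941,36), (943,18), (953,36),
    (959,36), (1097,18), (1103,36), (1105,18), (1115,36), (1121,36), (1123,36), (1127,18),
    (1129,18), (1151,36), (1157,36), (1159,36), (1169,36), (1175,36), (1177,36), (1181,36),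
    (1183,18), (1193,18), (1195,36), (1265,36), (1267,18), (1277,36), (1283,36), (1285,36),
    (1289,36), (1313,18), (1319,36), (1321,36), (1331,36)]

def sqA0 (X M
    u0 u1 u2 u3 u4 u5 u6 u7 u8 u9 u10 u11 u12 u13 u14 u15 u16 u17 u18 u19 u20 u21 u22 u23 u24 u25
    u26 u27 u28 u29 u30 u31 u32 u33 u34 u35 u36 u37 u38 u39 u40 u41 u42 u43 u44 u45 u46 u47 u48 u49
    u50 u51 u52 u53 u54 u55 : Nat) : Nat :=
    (Nat.add (Nat.mul (Nat.mul (Nat.land u0 M) (Nat.sub X (Nat.land u0 M))) 18)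
    (Nat.add (Nat.mul (Nat.mul (Nat.land u1 M) (Nat.sub X (Nat.land u1 M))) 36)
    (Nat.add (Nat.mul (Nat.mul (Nat.land u2 M) (Nat.sub X (Nat.land u2 M))) 18)
    (Nat.add (Nat.mul (Nat.mul (Nat.land u3 M) (Nat.sub X (Nat.land u3 M))) 18)
    (Nat.add (Nat.mul (Nat.mul (Nat.land u4 M) (Nat.sub X (Nat.land u4 M))) 36)
    (Nat.add (Nat.mul (Nat.mul (Nat.land u5 M) (Nat.sub X (Nat.land u5 M))) 36)
    (Nat.add (Nat.mul (Nat.mul (Nat.land u6 M) (Nat.sub X (Nat.land u6 M))) 18)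
    (Nat.add (Nat.mul (Nat.mul (Nat.land u7 M) (Nat.sub X (Nat.land u7 M))) 36)
    (Nat.add (Nat.mul (Nat.mul (Nat.land u8 M) (Nat.sub X (Nat.land u8 M))) 36)
    (Nat.add (Nat.mul (Nat.mul (Nat.land u9 M) (Nat.sub X (Nat.land u9 M))) 36)
    (Nat.add (Nat.mul (Nat.mul (Nat.land u10 M) (Nat.sub X (Nat.land u10 M))) 36)
    (Nat.add (Nat.mul (Nat.mul (Nat.land u11 M) (Nat.sub X (Nat.land u11 M))) 36)
    (Nat.add (Nat.mul (Nat.mul (Nat.land u12 M) (Nat.sub X (Nat.land u12 M))) 36)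
    (Nat.add (Nat.mul (Nat.mul (Nat.land u13 M) (Nat.sub X (Nat.land u13 M))) 18)
    (Nat.add (Nat.mul (Nat.mul (Nat.land u14 M) (Nat.sub X (Nat.land u14 M))) 36)
    (Nat.add (Nat.mul (Nat.mul (Nat.land u15 M) (Nat.sub X (Nat.land u15 M))) 36)
    (Nat.add (Nat.mul (Nat.mul (Nat.land u16 M) (Nat.sub X (Nat.land u16 M))) 18)
    (Nat.add (Nat.mul (Nat.mul (Nat.land u17 M) (Nat.sub X (Nat.land u17 M))) 36)
    (Nat.add (Nat.mul (Nat.mul (Nat.land u18 M) (Nat.sub X (Nat.land u18 M))) 36)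
    (Nat.add (Nat.mul (Nat.mul (Nat.land u19 M) (Nat.sub X (Nat.land u19 M))) 36)
    (Nat.add (Nat.mul (Nat.mul (Nat.land u20 M) (Nat.sub X (Nat.land u20 M))) 36)
    (Nat.add (Nat.mul (Nat.mul (Nat.land u21 M) (Nat.sub X (Nat.land u21 M))) 18)
    (Nat.add (Nat.mul (Nat.mul (Nat.land u22 M) (Nat.sub X (Nat.land u22 M))) 36)
    (Nat.add (Nat.mul (Nat.mul (Nat.land u23 M) (Nat.sub X (Nat.land u23 M))) 36)
    (Nat.add (Nat.mul (Nat.mul (Nat.land u24 M) (Nat.sub X (Nat.land u24 M))) 36)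
    (Nat.add (Nat.mul (Nat.mul (Nat.land u25 M) (Nat.sub X (Nat.land u25 M))) 18)
    (Nat.add (Nat.mul (Nat.mul (Nat.land u26 M) (Nat.sub X (Nat.land u26 M))) 36)
    (Nat.add (Nat.mul (Nat.mul (Nat.land u27 M) (Nat.sub X (Nat.land u27 M))) 36)
    (Nat.add (Nat.mul (Nat.mul (Nat.land u28 M) (Nat.sub X (Nat.land u28 M))) 18)
    (Nat.add (Nat.mul (Nat.mul (Nat.land u29 M) (Nat.sub X (Nat.land u29 M))) 36)
    (Nat.add (Nat.mul (Nat.mul (Nat.land u30 M) (Nat.sub X (Nat.land u30 M))) 18)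
    (Nat.add (Nat.mul (Nat.mul (Nat.land u31 M) (Nat.sub X (Nat.land u31 M))) 36)
    (Nat.add (Nat.mul (Nat.mul (Nat.land u32 M) (Nat.sub X (Nat.land u32 M))) 36)
    (Nat.add (Nat.mul (Nat.mul (Nat.land u33 M) (Nat.sub X (Nat.land u33 M))) 36)
    (Nat.add (Nat.mul (Nat.mul (Nat.land u34 M) (Nat.sub X (Nat.land u34 M))) 18)
    (Nat.add (Nat.mul (Nat.mul (Nat.land u35 M) (Nat.sub X (Nat.land u35 M))) 18)
    (Nat.add (Nat.mul (Nat.mul (Nat.land u36 M) (Nat.sub X (Nat.land u36 M))) 36)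
    (Nat.add (Nat.mul (Nat.mul (Nat.land u37 M) (Nat.sub X (Nat.land u37 M))) 36)
    (Nat.add (Nat.mul (Nat.mul (Nat.land u38 M) (Nat.sub X (Nat.land u38 M))) 36)
    (Nat.add (Nat.mul (Nat.mul (Nat.land u39 M) (Nat.sub X (Nat.land u39 M))) 36)
    (Nat.add (Nat.mul (Nat.mul (Nat.land u40 M) (Nat.sub X (Nat.land u40 M))) 36)
    (Nat.add (Nat.mul (Nat.mul (Nat.land u41 M) (Nat.sub X (Nat.land u41 M))) 36)
    (Nat.add (Nat.mul (Nat.mul (Nat.land u42 M) (Nat.sub X (Nat.land u42 M))) 36)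
    (Nat.add (Nat.mul (Nat.mul (Nat.land u43 M) (Nat.sub X (Nat.land u43 M))) 18)
    (Nat.add (Nat.mul (Nat.mul (Nat.land u44 M) (Nat.sub X (Nat.land u44 M))) 18)
    (Nat.add (Nat.mul (Nat.mul (Nat.land u45 M) (Nat.sub X (Nat.land u45 M))) 36)
    (Nat.add (Nat.mul (Nat.mul (Nat.land u46 M) (Nat.sub X (Nat.land u46 M))) 36)
    (Nat.add (Nat.mul (Nat.mul (Nat.land u47 M) (Nat.sub X (Nat.land u47 M))) 18)
    (Nat.add (Nat.mul (Nat.mul (Nat.land u48 M) (Nat.sub X (Nat.land u48 M))) 36)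
    (Nat.add (Nat.mul (Nat.mul (Nat.land u49 M) (Nat.sub X (Nat.land u49 M))) 36)
    (Nat.add (Nat.mul (Nat.mul (Nat.land u50 M) (Nat.sub X (Nat.land u50 M))) 36)
    (Nat.add (Nat.mul (Nat.mul (Nat.land u51 M) (Nat.sub X (Nat.land u51 M))) 36)
    (Nat.add (Nat.mul (Nat.mul (Nat.land u52 M) (Nat.sub X (Nat.land u52 M))) 18)
    (Nat.add (Nat.mul (Nat.mul (Nat.land u53 M) (Nat.sub X (Nat.land u53 M))) 36)
    (Nat.add (Nat.mul (Nat.mul (Nat.land u54 M) (Nat.sub X (Nat.land u54 M))) 36)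
    (Nat.add (Nat.mul (Nat.mul (Nat.land u55 M) (Nat.sub X (Nat.land u55 M))) 36)
    0))))))))))))))))))))))))))))))))))))))))))))))))))))))))

def sqB0 (z0 z1 z2 z3 z4 z5 z6 z7 z8 z9 : Nat) : Nat :=
  sqA0 (Nat.shiftLeft 1 146) (Nat.sub (Nat.shiftLeft 1 146) 1)
    z0
    (Nat.shiftRight z0 146)
    (Nat.shiftRight (Nat.shiftRight z0 146) 146)
    (Nat.shiftRight (Nat.shiftRight (Nat.shiftRight z0 146) 146) 146)
    (Nat.shiftRight (Nat.shiftRight (Nat.shiftRight (Nat.shiftRight z0 146) 146) 146) 146)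
    (Nat.shiftRight (Nat.shiftRight (Nat.shiftRight (Nat.shiftRight (Nat.shiftRight z0 146) 146) 146) 146) 146)
    z1
    (Nat.shiftRight z1 146)
    (Nat.shiftRight (Nat.shiftRight z1 146) 146)
    (Nat.shiftRight (Nat.shiftRight (Nat.shiftRight z1 146) 146) 146)
    (Nat.shiftRight (Nat.shiftRight (Nat.shiftRight (Nat.shiftRight z1 146) 146) 146) 146)
    (Nat.shiftRight (Nat.shiftRight (Nat.shiftRight (Nat.shiftRight (Nat.shiftRight z1 146) 146) 146) 146) 146)
    z2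
    (Nat.shiftRight z2 146)
    (Nat.shiftRight (Nat.shiftRight z2 146) 146)
    (Nat.shiftRight (Nat.shiftRight (Nat.shiftRight z2 146) 146) 146)
    (Nat.shiftRight (Nat.shiftRight (Nat.shiftRight (Nat.shiftRight z2 146) 146) 146) 146)
    (Nat.shiftRight (Nat.shiftRight (Nat.shiftRight (Nat.shiftRight (Nat.shiftRight z2 146) 146) 146) 146) 146)
    z3
    (Nat.shiftRight z3 146)
    (Nat.shiftRight (Nat.shiftRight z3 146) 146)
    (Nat.shiftRight (Nat.shiftRight (Nat.shiftRight z3 146) 146) 146)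
    (Nat.shiftRight (Nat.shiftRight (Nat.shiftRight (Nat.shiftRight z3 146) 146) 146) 146)
    (Nat.shiftRight (Nat.shiftRight (Nat.shiftRight (Nat.shiftRight (Nat.shiftRight z3 146) 146) 146) 146) 146)
    z4
    (Nat.shiftRight z4 146)
    (Nat.shiftRight (Nat.shiftRight z4 146) 146)
    (Nat.shiftRight (Nat.shiftRight (Nat.shiftRight z4 146) 146) 146)
    (Nat.shiftRight (Nat.shiftRight (Nat.shiftRight (Nat.shiftRight z4 146) 146) 146) 146)
    (Nat.shiftRight (Nat.shiftRight (Nat.shiftRight (Nat.shiftRight (Nat.shiftRight z4 146) 146) 146) 146) 146)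
    z5
    (Nat.shiftRight z5 146)
    (Nat.shiftRight (Nat.shiftRight z5 146) 146)
    (Nat.shiftRight (Nat.shiftRight (Nat.shiftRight z5 146) 146) 146)
    (Nat.shiftRight (Nat.shiftRight (Nat.shiftRight (Nat.shiftRight z5 146) 146) 146) 146)
    (Nat.shiftRight (Nat.shiftRight (Nat.shiftRight (Nat.shiftRight (Nat.shiftRight z5 146) 146) 146) 146) 146)
    z6
    (Nat.shiftRight z6 146)
    (Nat.shiftRight (Nat.shiftRight z6 146) 146)
    (Nat.shiftRight (Nat.shiftRight (Nat.shiftRight z6 146) 146) 146)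
    (Nat.shiftRight (Nat.shiftRight (Nat.shiftRight (Nat.shiftRight z6 146) 146) 146) 146)
    (Nat.shiftRight (Nat.shiftRight (Nat.shiftRight (Nat.shiftRight (Nat.shiftRight z6 146) 146) 146) 146) 146)
    z7
    (Nat.shiftRight z7 146)
    (Nat.shiftRight (Nat.shiftRight z7 146) 146)
    (Nat.shiftRight (Nat.shiftRight (Nat.shiftRight z7 146) 146) 146)
    (Nat.shiftRight (Nat.shiftRight (Nat.shiftRight (Nat.shiftRight z7 146) 146) 146) 146)
    (Nat.shiftRight (Nat.shiftRight (Nat.shiftRight (Nat.shiftRight (Nat.shiftRight z7 146) 146) 146) 146) 146)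
    z8
    (Nat.shiftRight z8 146)
    (Nat.shiftRight (Nat.shiftRight z8 146) 146)
    (Nat.shiftRight (Nat.shiftRight (Nat.shiftRight z8 146) 146) 146)
    (Nat.shiftRight (Nat.shiftRight (Nat.shiftRight (Nat.shiftRight z8 146) 146) 146) 146)
    (Nat.shiftRight (Nat.shiftRight (Nat.shiftRight (Nat.shiftRight (Nat.shiftRight z8 146) 146) 146) 146) 146)
    z9
    (Nat.shiftRight z9 146)

def sqC0 (u : Nat) : Nat :=
  sqB0
    u
    (sh6 146 u)
    (sh6 146 (sh6 146 u))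
    (sh6 146 (sh6 146 (sh6 146 u)))
    (sh6 146 (sh6 146 (sh6 146 (sh6 146 u))))
    (sh6 146 (sh6 146 (sh6 146 (sh6 146 (sh6 146 u)))))
    (sh6 146 (sh6 146 (sh6 146 (sh6 146 (sh6 146 (sh6 146 u))))))
    (sh6 146 (sh6 146 (sh6 146 (sh6 146 (sh6 146 (sh6 146 (sh6 146 u)))))))
    (sh6 146 (sh6 146 (sh6 146 (sh6 146 (sh6 146 (sh6 146 (sh6 146 (sh6 146 u))))))))
    (sh6 146 (sh6 146 (sh6 146 (sh6 146 (sh6 146 (sh6 146 (sh6 146 (sh6 146 (sh6 146 u)))))))))

noncomputable def sq0 (v : Nat) : Nat := sqC0 (Nat.add v (offs 146 (Nat.shiftLeft 1 (Nat.sub 146 1)) ch0))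

theorem sq_eq0 : sq0 = sqF 146 ch0 := Eq.refl sq0

theorem side_ok0 : sideOK 9 146 mask cf9 ch0 = true := by decide +kernel

def ch1 : List (Nat × Nat) :=
    [(1337,36), (1339,18), (1343,36), (1355,36), (1361,36), (1385,18), (1391,18), (1397,18),
    (1589,36), (1601,18), (1607,36), (1643,36), (1655,36), (1661,36), (1667,18), (1679,18),
    (1751,36), (1769,36), (1805,36), (1817,18), (1823,18), (1871,18), (2561,18), (2579,36),
    (2581,18), (2615,36), (2633,36), (2635,18), (2639,18), (2741,36), (2777,18), (2795,18),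
    (3065,18), (3119,18), (3281,18), (3283,18), (3287,18), (3289,18), (3299,18), (3301,36),
    (3307,18), (3335,18), (3337,36), (3341,18), (3343,36), (3355,18), (3445,18), (3449,36),
    (3451,36), (3463,36), (3467,18), (3499,18), (3785,6), (3787,36), (3823,18), (3827,18),
    (9841,1)]

def sqA1 (X M
    u0 u1 u2 u3 u4 u5 u6 u7 u8 u9 u10 u11 u12 u13 u14 u15 u16 u17 u18 u19 u20 u21 u22 u23 u24 u25
    u26 u27 u28 u29 u30 u31 u32 u33 u34 u35 u36 u37 u38 u39 u40 u41 u42 u43 u44 u45 u46 u47 u48 u49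
    u50 u51 u52 u53 u54 u55 u56 : Nat) : Nat :=
    (Nat.add (Nat.mul (Nat.mul (Nat.land u0 M) (Nat.sub X (Nat.land u0 M))) 36)
    (Nat.add (Nat.mul (Nat.mul (Nat.land u1 M) (Nat.sub X (Nat.land u1 M))) 18)
    (Nat.add (Nat.mul (Nat.mul (Nat.land u2 M) (Nat.sub X (Nat.land u2 M))) 36)
    (Nat.add (Nat.mul (Nat.mul (Nat.land u3 M) (Nat.sub X (Nat.land u3 M))) 36)
    (Nat.add (Nat.mul (Nat.mul (Nat.land u4 M) (Nat.sub X (Nat.land u4 M))) 36)
    (Nat.add (Nat.mul (Nat.mul (Nat.land u5 M) (Nat.sub X (Nat.land u5 M))) 18)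
    (Nat.add (Nat.mul (Nat.mul (Nat.land u6 M) (Nat.sub X (Nat.land u6 M))) 18)
    (Nat.add (Nat.mul (Nat.mul (Nat.land u7 M) (Nat.sub X (Nat.land u7 M))) 18)
    (Nat.add (Nat.mul (Nat.mul (Nat.land u8 M) (Nat.sub X (Nat.land u8 M))) 36)
    (Nat.add (Nat.mul (Nat.mul (Nat.land u9 M) (Nat.sub X (Nat.land u9 M))) 18)
    (Nat.add (Nat.mul (Nat.mul (Nat.land u10 M) (Nat.sub X (Nat.land u10 M))) 36)
    (Nat.add (Nat.mul (Nat.mul (Nat.land u11 M) (Nat.sub X (Nat.land u11 M))) 36)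
    (Nat.add (Nat.mul (Nat.mul (Nat.land u12 M) (Nat.sub X (Nat.land u12 M))) 36)
    (Nat.add (Nat.mul (Nat.mul (Nat.land u13 M) (Nat.sub X (Nat.land u13 M))) 36)
    (Nat.add (Nat.mul (Nat.mul (Nat.land u14 M) (Nat.sub X (Nat.land u14 M))) 18)
    (Nat.add (Nat.mul (Nat.mul (Nat.land u15 M) (Nat.sub X (Nat.land u15 M))) 18)
    (Nat.add (Nat.mul (Nat.mul (Nat.land u16 M) (Nat.sub X (Nat.land u16 M))) 36)
    (Nat.add (Nat.mul (Nat.mul (Nat.land u17 M) (Nat.sub X (Nat.land u17 M))) 36)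
    (Nat.add (Nat.mul (Nat.mul (Nat.land u18 M) (Nat.sub X (Nat.land u18 M))) 36)
    (Nat.add (Nat.mul (Nat.mul (Nat.land u19 M) (Nat.sub X (Nat.land u19 M))) 18)
    (Nat.add (Nat.mul (Nat.mul (Nat.land u20 M) (Nat.sub X (Nat.land u20 M))) 18)
    (Nat.add (Nat.mul (Nat.mul (Nat.land u21 M) (Nat.sub X (Nat.land u21 M))) 18)
    (Nat.add (Nat.mul (Nat.mul (Nat.land u22 M) (Nat.sub X (Nat.land u22 M))) 18)
    (Nat.add (Nat.mul (Nat.mul (Nat.land u23 M) (Nat.sub X (Nat.land u23 M))) 36)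
    (Nat.add (Nat.mul (Nat.mul (Nat.land u24 M) (Nat.sub X (Nat.land u24 M))) 18)
    (Nat.add (Nat.mul (Nat.mul (Nat.land u25 M) (Nat.sub X (Nat.land u25 M))) 36)
    (Nat.add (Nat.mul (Nat.mul (Nat.land u26 M) (Nat.sub X (Nat.land u26 M))) 36)
    (Nat.add (Nat.mul (Nat.mul (Nat.land u27 M) (Nat.sub X (Nat.land u27 M))) 18)
    (Nat.add (Nat.mul (Nat.mul (Nat.land u28 M) (Nat.sub X (Nat.land u28 M))) 18)
    (Nat.add (Nat.mul (Nat.mul (Nat.land u29 M) (Nat.sub X (Nat.land u29 M))) 36)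
    (Nat.add (Nat.mul (Nat.mul (Nat.land u30 M) (Nat.sub X (Nat.land u30 M))) 18)
    (Nat.add (Nat.mul (Nat.mul (Nat.land u31 M) (Nat.sub X (Nat.land u31 M))) 18)
    (Nat.add (Nat.mul (Nat.mul (Nat.land u32 M) (Nat.sub X (Nat.land u32 M))) 18)
    (Nat.add (Nat.mul (Nat.mul (Nat.land u33 M) (Nat.sub X (Nat.land u33 M))) 18)
    (Nat.add (Nat.mul (Nat.mul (Nat.land u34 M) (Nat.sub X (Nat.land u34 M))) 18)
    (Nat.add (Nat.mul (Nat.mul (Nat.land u35 M) (Nat.sub X (Nat.land u35 M))) 18)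
    (Nat.add (Nat.mul (Nat.mul (Nat.land u36 M) (Nat.sub X (Nat.land u36 M))) 18)
    (Nat.add (Nat.mul (Nat.mul (Nat.land u37 M) (Nat.sub X (Nat.land u37 M))) 18)
    (Nat.add (Nat.mul (Nat.mul (Nat.land u38 M) (Nat.sub X (Nat.land u38 M))) 18)
    (Nat.add (Nat.mul (Nat.mul (Nat.land u39 M) (Nat.sub X (Nat.land u39 M))) 36)
    (Nat.add (Nat.mul (Nat.mul (Nat.land u40 M) (Nat.sub X (Nat.land u40 M))) 18)
    (Nat.add (Nat.mul (Nat.mul (Nat.land u41 M) (Nat.sub X (Nat.land u41 M))) 18)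
    (Nat.add (Nat.mul (Nat.mul (Nat.land u42 M) (Nat.sub X (Nat.land u42 M))) 36)
    (Nat.add (Nat.mul (Nat.mul (Nat.land u43 M) (Nat.sub X (Nat.land u43 M))) 18)
    (Nat.add (Nat.mul (Nat.mul (Nat.land u44 M) (Nat.sub X (Nat.land u44 M))) 36)
    (Nat.add (Nat.mul (Nat.mul (Nat.land u45 M) (Nat.sub X (Nat.land u45 M))) 18)
    (Nat.add (Nat.mul (Nat.mul (Nat.land u46 M) (Nat.sub X (Nat.land u46 M))) 18)
    (Nat.add (Nat.mul (Nat.mul (Nat.land u47 M) (Nat.sub X (Nat.land u47 M))) 36)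
    (Nat.add (Nat.mul (Nat.mul (Nat.land u48 M) (Nat.sub X (Nat.land u48 M))) 36)
    (Nat.add (Nat.mul (Nat.mul (Nat.land u49 M) (Nat.sub X (Nat.land u49 M))) 36)
    (Nat.add (Nat.mul (Nat.mul (Nat.land u50 M) (Nat.sub X (Nat.land u50 M))) 18)
    (Nat.add (Nat.mul (Nat.mul (Nat.land u51 M) (Nat.sub X (Nat.land u51 M))) 18)
    (Nat.add (Nat.mul (Nat.mul (Nat.land u52 M) (Nat.sub X (Nat.land u52 M))) 6)
    (Nat.add (Nat.mul (Nat.mul (Nat.land u53 M) (Nat.sub X (Nat.land u53 M))) 36)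
    (Nat.add (Nat.mul (Nat.mul (Nat.land u54 M) (Nat.sub X (Nat.land u54 M))) 18)
    (Nat.add (Nat.mul (Nat.mul (Nat.land u55 M) (Nat.sub X (Nat.land u55 M))) 18)
    (Nat.add (Nat.mul (Nat.mul (Nat.land u56 M) (Nat.sub X (Nat.land u56 M))) 1)
    0)))))))))))))))))))))))))))))))))))))))))))))))))))))))))

def sqB1 (z0 z1 z2 z3 z4 z5 z6 z7 z8 z9 : Nat) : Nat :=
  sqA1 (Nat.shiftLeft 1 146) (Nat.sub (Nat.shiftLeft 1 146) 1)
    z0
    (Nat.shiftRight z0 146)
    (Nat.shiftRight (Nat.shiftRight z0 146) 146)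
    (Nat.shiftRight (Nat.shiftRight (Nat.shiftRight z0 146) 146) 146)
    (Nat.shiftRight (Nat.shiftRight (Nat.shiftRight (Nat.shiftRight z0 146) 146) 146) 146)
    (Nat.shiftRight (Nat.shiftRight (Nat.shiftRight (Nat.shiftRight (Nat.shiftRight z0 146) 146) 146) 146) 146)
    z1
    (Nat.shiftRight z1 146)
    (Nat.shiftRight (Nat.shiftRight z1 146) 146)
    (Nat.shiftRight (Nat.shiftRight (Nat.shiftRight z1 146) 146) 146)
    (Nat.shiftRight (Nat.shiftRight (Nat.shiftRight (Nat.shiftRight z1 146) 146) 146) 146)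
    (Nat.shiftRight (Nat.shiftRight (Nat.shiftRight (Nat.shiftRight (Nat.shiftRight z1 146) 146) 146) 146) 146)
    z2
    (Nat.shiftRight z2 146)
    (Nat.shiftRight (Nat.shiftRight z2 146) 146)
    (Nat.shiftRight (Nat.shiftRight (Nat.shiftRight z2 146) 146) 146)
    (Nat.shiftRight (Nat.shiftRight (Nat.shiftRight (Nat.shiftRight z2 146) 146) 146) 146)
    (Nat.shiftRight (Nat.shiftRight (Nat.shiftRight (Nat.shiftRight (Nat.shiftRight z2 146) 146) 146) 146) 146)
    z3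
    (Nat.shiftRight z3 146)
    (Nat.shiftRight (Nat.shiftRight z3 146) 146)
    (Nat.shiftRight (Nat.shiftRight (Nat.shiftRight z3 146) 146) 146)
    (Nat.shiftRight (Nat.shiftRight (Nat.shiftRight (Nat.shiftRight z3 146) 146) 146) 146)
    (Nat.shiftRight (Nat.shiftRight (Nat.shiftRight (Nat.shiftRight (Nat.shiftRight z3 146) 146) 146) 146) 146)
    z4
    (Nat.shiftRight z4 146)
    (Nat.shiftRight (Nat.shiftRight z4 146) 146)
    (Nat.shiftRight (Nat.shiftRight (Nat.shiftRight z4 146) 146) 146)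
    (Nat.shiftRight (Nat.shiftRight (Nat.shiftRight (Nat.shiftRight z4 146) 146) 146) 146)
    (Nat.shiftRight (Nat.shiftRight (Nat.shiftRight (Nat.shiftRight (Nat.shiftRight z4 146) 146) 146) 146) 146)
    z5
    (Nat.shiftRight z5 146)
    (Nat.shiftRight (Nat.shiftRight z5 146) 146)
    (Nat.shiftRight (Nat.shiftRight (Nat.shiftRight z5 146) 146) 146)
    (Nat.shiftRight (Nat.shiftRight (Nat.shiftRight (Nat.shiftRight z5 146) 146) 146) 146)
    (Nat.shiftRight (Nat.shiftRight (Nat.shiftRight (Nat.shiftRight (Nat.shiftRight z5 146) 146) 146) 146) 146)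
    z6
    (Nat.shiftRight z6 146)
    (Nat.shiftRight (Nat.shiftRight z6 146) 146)
    (Nat.shiftRight (Nat.shiftRight (Nat.shiftRight z6 146) 146) 146)
    (Nat.shiftRight (Nat.shiftRight (Nat.shiftRight (Nat.shiftRight z6 146) 146) 146) 146)
    (Nat.shiftRight (Nat.shiftRight (Nat.shiftRight (Nat.shiftRight (Nat.shiftRight z6 146) 146) 146) 146) 146)
    z7
    (Nat.shiftRight z7 146)
    (Nat.shiftRight (Nat.shiftRight z7 146) 146)
    (Nat.shiftRight (Nat.shiftRight (Nat.shiftRight z7 146) 146) 146)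
    (Nat.shiftRight (Nat.shiftRight (Nat.shiftRight (Nat.shiftRight z7 146) 146) 146) 146)
    (Nat.shiftRight (Nat.shiftRight (Nat.shiftRight (Nat.shiftRight (Nat.shiftRight z7 146) 146) 146) 146) 146)
    z8
    (Nat.shiftRight z8 146)
    (Nat.shiftRight (Nat.shiftRight z8 146) 146)
    (Nat.shiftRight (Nat.shiftRight (Nat.shiftRight z8 146) 146) 146)
    (Nat.shiftRight (Nat.shiftRight (Nat.shiftRight (Nat.shiftRight z8 146) 146) 146) 146)
    (Nat.shiftRight (Nat.shiftRight (Nat.shiftRight (Nat.shiftRight (Nat.shiftRight z8 146) 146) 146) 146) 146)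
    z9
    (Nat.shiftRight z9 146)
    (Nat.shiftRight (Nat.shiftRight z9 146) 146)

def sqC1 (u : Nat) : Nat :=
  sqB1
    u
    (sh6 146 u)
    (sh6 146 (sh6 146 u))
    (sh6 146 (sh6 146 (sh6 146 u)))
    (sh6 146 (sh6 146 (sh6 146 (sh6 146 u))))
    (sh6 146 (sh6 146 (sh6 146 (sh6 146 (sh6 146 u)))))
    (sh6 146 (sh6 146 (sh6 146 (sh6 146 (sh6 146 (sh6 146 u))))))
    (sh6 146 (sh6 146 (sh6 146 (sh6 146 (sh6 146 (sh6 146 (sh6 146 u)))))))
    (sh6 146 (sh6 146 (sh6 146 (sh6 146 (sh6 146 (sh6 146 (sh6 146 (sh6 146 u))))))))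
    (sh6 146 (sh6 146 (sh6 146 (sh6 146 (sh6 146 (sh6 146 (sh6 146 (sh6 146 (sh6 146 u)))))))))

noncomputable def sq1 (v : Nat) : Nat := sqC1 (Nat.add v (offs 146 (Nat.shiftLeft 1 (Nat.sub 146 1)) ch1))

theorem sq_eq1 : sq1 = sqF 146 ch1 := Eq.refl sq1

theorem side_ok1 : sideOK 9 146 mask cf9 ch1 = true := by decide +kernel

theorem cover : beqP (repL 9 9) (ch0 ++ (ch1 ++ [])) = true := by decide +kernel

theorem len_ok : (secL 9 9 0 []).length = 3139 := by decide +kernel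

theorem wt_ok : (List.map Prod.snd (ch0 ++ (ch1 ++ []))).sum = 3139 := by decide +kernel

end Vale.Agent.P348.A9_9
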