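import Vale.Agent.P348.KCore2
import Vale.Agent.P348.Poly

set_option maxRecDepth 1000000
set_option maxHeartbeats 0
set_option linter.all false

namespace Vale.Agent.P348.A10_0

def mask : Nat := nat_lit 1

def KK : Type :=
    Nat → Bool

noncomputable def cd0 : List Spec :=
  [Spec.mk (nat_lit 0) (nat_lit 0) [] (nat_lit 0) [] false]

noncomputable def cds : List (List Spec) :=
    cd0 :: []

noncomputable def ap (x : Nat → Nat) (k :
    Nat → Bool) : Bool :=
  k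
    (x (nat_lit 0))

theorem ap_eq (x : Nat → Nat) (k : FnLL cds) : apLL (fun t => x t.cd) cds k = ap x k :=
  Eq.refl (ap x k)

theorem codes_ok : beqL (codes cds) (secL 10 0 0 []) = true := by decide +kernel

noncomputable def fin (f : Nat → Nat) (v1 : Nat) (
    x0 : Nat) : Bool :=
  Nat.beq
    (Nat.add (Nat.add (f x0) 0) 0) v1

theorem fin_eq0 (f : Nat → Nat) (v1 : Nat) (x : Nat → Nat) :
    apLL (fun t => x t.cd) cds (fin f v1) = Nat.beq (sum2 (fun t => f (x t.cd)) cds) v1 :=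
  Eq.refl (apLL (fun t => x t.cd) cds (fin f v1))

theorem fin_eq (f : Nat → Nat) (v1 : Nat) (x : Nat → Nat) :
    ap x (fin f v1) = Nat.beq (sumL (fun s => f (x s)) (secL 10 0 0 [])) v1 :=
  ((ap_eq x (fin f v1)).symm.trans (fin_eq0 f v1 x)).trans
    (congrArg (fun z => Nat.beq z v1) (sum2_eq cds _ codes_ok (fun s => f (x s))))

def ch0 : List (Nat × Nat) :=
    [(0,2)]

def sqA0 (X M
    u0 : Nat) : Nat :=
    (Nat.add (Nat.mul (Nat.mul (Nat.land u0 M) (Nat.sub X (Nat.land u0 M))) 2)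
    0)

def sqB0 (z0 : Nat) : Nat :=
  sqA0 (Nat.shiftLeft 1 164) (Nat.sub (Nat.shiftLeft 1 164) 1)
    z0

def sqC0 (u : Nat) : Nat :=
  sqB0
    u

noncomputable def sq0 (v : Nat) : Nat := sqC0 (Nat.add v (offs 164 (Nat.shiftLeft 1 (Nat.sub 164 1)) ch0))

theorem sq_eq0 : sq0 = sqF 164 ch0 := Eq.refl sq0

theorem side_ok0 : sideOK 10 164 mask cf10 ch0 = true := by decide +kernel

theorem cover : beqP (repL 10 0) (ch0 ++ []) = true := by decide +kernel

theorem len_ok : (secL 10 0 0 []).length = 1 := by decide +kernel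

theorem wt_ok : (List.map Prod.snd (ch0 ++ [])).sum = 2 := by decide +kernel

end Vale.Agent.P348.A10_0

namespace Vale.Agent.P348.A10_1

def mask : Nat := nat_lit 2

def KK : Type :=
    Nat → Nat → Nat → Nat → Nat → Nat → Nat → Nat → Nat → Nat → Bool

noncomputable def cd0 : List Spec :=
  [Spec.mk (nat_lit 1) (nat_lit 0) [] (nat_lit 0) [] false,
   Spec.mk (nat_lit 3) (nat_lit 0) [] (nat_lit 0) [] false,
   Spec.mk (nat_lit 9) (nat_lit 0) [] (nat_lit 0) [] false,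
   Spec.mk (nat_lit 27) (nat_lit 0) [] (nat_lit 0) [] false,
   Spec.mk (nat_lit 81) (nat_lit 0) [] (nat_lit 0) [] false,
   Spec.mk (nat_lit 243) (nat_lit 0) [] (nat_lit 0) [] false,
   Spec.mk (nat_lit 729) (nat_lit 0) [] (nat_lit 0) [] false,
   Spec.mk (nat_lit 2187) (nat_lit 0) [] (nat_lit 0) [] false,
   Spec.mk (nat_lit 6561) (nat_lit 0) [] (nat_lit 0) [] false,
   Spec.mk (nat_lit 19683) (nat_lit 0) [] (nat_lit 0) [] false]

noncomputable def cds : List (List Spec) :=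
    cd0 :: []

noncomputable def ap (x : Nat → Nat) (k :
    Nat → Nat → Nat → Nat → Nat → Nat → Nat → Nat → Nat → Nat → Bool) : Bool :=
  k
    (x (nat_lit 1)) (x (nat_lit 3)) (x (nat_lit 9)) (x (nat_lit 27)) (x (nat_lit 81))
    (x (nat_lit 243)) (x (nat_lit 729)) (x (nat_lit 2187)) (x (nat_lit 6561)) (x (nat_lit 19683))

theorem ap_eq (x : Nat → Nat) (k : FnLL cds) : apLL (fun t => x t.cd) cds k = ap x k :=
  Eq.refl (ap x k)

theorem codes_ok : beqL (codes cds) (secL 10 1 0 []) = true := by decide +kernel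

noncomputable def fin (f : Nat → Nat) (v1 : Nat) (
    x1 x3 x9 x27 x81 x243 x729 x2187 x6561 x19683 : Nat) : Bool :=
  Nat.beq
    (Nat.add (Nat.add (f x1) (Nat.add (f x3) (Nat.add (f x9) (Nat.add (f x27) (Nat.add (f x81)
    (Nat.add (f x243) (Nat.add (f x729) (Nat.add (f x2187) (Nat.add (f x6561) (Nat.add (f x19683)
    0)))))))))) 0) v1

theorem fin_eq0 (f : Nat → Nat) (v1 : Nat) (x : Nat → Nat) :
    apLL (fun t => x t.cd) cds (fin f v1) = Nat.beq (sum2 (fun t => f (x t.cd)) cds) v1 :=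
  Eq.refl (apLL (fun t => x t.cd) cds (fin f v1))

theorem fin_eq (f : Nat → Nat) (v1 : Nat) (x : Nat → Nat) :
    ap x (fin f v1) = Nat.beq (sumL (fun s => f (x s)) (secL 10 1 0 [])) v1 :=
  ((ap_eq x (fin f v1)).symm.trans (fin_eq0 f v1 x)).trans
    (congrArg (fun z => Nat.beq z v1) (sum2_eq cds _ codes_ok (fun s => f (x s))))

def ch0 : List (Nat × Nat) :=
    [(1,20)]

def sqA0 (X M
    u0 : Nat) : Nat :=
    (Nat.add (Nat.mul (Nat.mul (Nat.land u0 M) (Nat.sub X (Nat.land u0 M))) 20)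
    0)

def sqB0 (z0 : Nat) : Nat :=
  sqA0 (Nat.shiftLeft 1 164) (Nat.sub (Nat.shiftLeft 1 164) 1)
    z0

def sqC0 (u : Nat) : Nat :=
  sqB0
    u

noncomputable def sq0 (v : Nat) : Nat := sqC0 (Nat.add v (offs 164 (Nat.shiftLeft 1 (Nat.sub 164 1)) ch0))

theorem sq_eq0 : sq0 = sqF 164 ch0 := Eq.refl sq0

theorem side_ok0 : sideOK 10 164 mask cf10 ch0 = true := by decide +kernel

theorem cover : beqP (repL 10 1) (ch0 ++ []) = true := by decide +kernel

theorem len_ok : (secL 10 1 0 []).length = 10 := by decide +kernel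

theorem wt_ok : (List.map Prod.snd (ch0 ++ [])).sum = 20 := by decide +kernel

end Vale.Agent.P348.A10_1

namespace Vale.Agent.P348.A10_2

def mask : Nat := nat_lit 28269553036454149273332760011886696253239742350014739033224157737649177620

def KK : Type :=
    Nat → Nat → Nat → Nat → Nat → Nat → Nat → Nat → Nat → Nat → Nat → Nat → Nat → Nat → Nat → Nat →
    Nat → Nat → Nat → Nat → Nat → Nat → Nat → Nat → Nat → Nat → Nat → Nat → Nat → Nat → Nat → Nat →
    Nat → Nat → Nat → Nat → Nat → Nat → Nat → Nat → Nat → Nat → Nat → Nat → Nat → Nat → Nat → Nat →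
    Nat → Nat → Nat → Nat → Nat → Nat → Nat → Bool

noncomputable def cd0 : List Spec :=
  [Spec.mk (nat_lit 2) (nat_lit 0) [] (nat_lit 0) [] false,
   Spec.mk (nat_lit 4) (nat_lit 0) [] (nat_lit 0) [] false,
   Spec.mk (nat_lit 6) (nat_lit 0) [] (nat_lit 0) [] false,
   Spec.mk (nat_lit 10) (nat_lit 0) [] (nat_lit 0) [] false,
   Spec.mk (nat_lit 12) (nat_lit 0) [] (nat_lit 0) [] false,
   Spec.mk (nat_lit 18) (nat_lit 0) [] (nat_lit 0) [] false,
   Spec.mk (nat_lit 28) (nat_lit 0) [] (nat_lit 0) [] false,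
   Spec.mk (nat_lit 30) (nat_lit 0) [] (nat_lit 0) [] false,
   Spec.mk (nat_lit 36) (nat_lit 0) [] (nat_lit 0) [] false,
   Spec.mk (nat_lit 54) (nat_lit 0) [] (nat_lit 0) [] false,
   Spec.mk (nat_lit 82) (nat_lit 0) [] (nat_lit 0) [] false,
   Spec.mk (nat_lit 84) (nat_lit 0) [] (nat_lit 0) [] false,
   Spec.mk (nat_lit 90) (nat_lit 0) [] (nat_lit 0) [] false,
   Spec.mk (nat_lit 108) (nat_lit 0) [] (nat_lit 0) [] false,
   Spec.mk (nat_lit 162) (nat_lit 0) [] (nat_lit 0) [] false,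
   Spec.mk (nat_lit 244) (nat_lit 0) [] (nat_lit 0) [] false,
   Spec.mk (nat_lit 246) (nat_lit 0) [] (nat_lit 0) [] false,
   Spec.mk (nat_lit 252) (nat_lit 0) [] (nat_lit 0) [] false,
   Spec.mk (nat_lit 270) (nat_lit 0) [] (nat_lit 0) [] false,
   Spec.mk (nat_lit 324) (nat_lit 0) [] (nat_lit 0) [] false,
   Spec.mk (nat_lit 486) (nat_lit 0) [] (nat_lit 0) [] false,
   Spec.mk (nat_lit 730) (nat_lit 0) [] (nat_lit 0) [] false,
   Spec.mk (nat_lit 732) (nat_lit 0) [] (nat_lit 0) [] false,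
   Spec.mk (nat_lit 738) (nat_lit 0) [] (nat_lit 0) [] false,
   Spec.mk (nat_lit 756) (nat_lit 0) [] (nat_lit 0) [] false,
   Spec.mk (nat_lit 810) (nat_lit 0) [] (nat_lit 0) [] false,
   Spec.mk (nat_lit 972) (nat_lit 0) [] (nat_lit 0) [] false,
   Spec.mk (nat_lit 1458) (nat_lit 0) [] (nat_lit 0) [] false,
   Spec.mk (nat_lit 2188) (nat_lit 0) [] (nat_lit 0) [] false,
   Spec.mk (nat_lit 2190) (nat_lit 0) [] (nat_lit 0) [] false,
   Spec.mk (nat_lit 2196) (nat_lit 0) [] (nat_lit 0) [] false,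
   Spec.mk (nat_lit 2214) (nat_lit 0) [] (nat_lit 0) [] false,
   Spec.mk (nat_lit 2268) (nat_lit 0) [] (nat_lit 0) [] false,
   Spec.mk (nat_lit 2430) (nat_lit 0) [] (nat_lit 0) [] false,
   Spec.mk (nat_lit 2916) (nat_lit 0) [] (nat_lit 0) [] false,
   Spec.mk (nat_lit 4374) (nat_lit 0) [] (nat_lit 0) [] false,
   Spec.mk (nat_lit 6562) (nat_lit 0) [] (nat_lit 0) [] false,
   Spec.mk (nat_lit 6564) (nat_lit 0) [] (nat_lit 0) [] false,
   Spec.mk (nat_lit 6570) (nat_lit 0) [] (nat_lit 0) [] false,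
   Spec.mk (nat_lit 6588) (nat_lit 0) [] (nat_lit 0) [] false,
   Spec.mk (nat_lit 6642) (nat_lit 0) [] (nat_lit 0) [] false,
   Spec.mk (nat_lit 6804) (nat_lit 0) [] (nat_lit 0) [] false,
   Spec.mk (nat_lit 7290) (nat_lit 0) [] (nat_lit 0) [] false,
   Spec.mk (nat_lit 8748) (nat_lit 0) [] (nat_lit 0) [] false,
   Spec.mk (nat_lit 13122) (nat_lit 0) [] (nat_lit 0) [] false,
   Spec.mk (nat_lit 19684) (nat_lit 0) [] (nat_lit 0) [] false,
   Spec.mk (nat_lit 19686) (nat_lit 0) [] (nat_lit 0) [] false,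
   Spec.mk (nat_lit 19692) (nat_lit 0) [] (nat_lit 0) [] false,
   Spec.mk (nat_lit 19710) (nat_lit 0) [] (nat_lit 0) [] false,
   Spec.mk (nat_lit 19764) (nat_lit 0) [] (nat_lit 0) [] false,
   Spec.mk (nat_lit 19926) (nat_lit 0) [] (nat_lit 0) [] false,
   Spec.mk (nat_lit 20412) (nat_lit 0) [] (nat_lit 0) [] false,
   Spec.mk (nat_lit 21870) (nat_lit 0) [] (nat_lit 0) [] false,
   Spec.mk (nat_lit 26244) (nat_lit 0) [] (nat_lit 0) [] false,
   Spec.mk (nat_lit 39366) (nat_lit 0) [] (nat_lit 0) [] false]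

noncomputable def cds : List (List Spec) :=
    cd0 :: []

noncomputable def ap (x : Nat → Nat) (k :
    Nat → Nat → Nat → Nat → Nat → Nat → Nat → Nat → Nat → Nat → Nat → Nat → Nat → Nat → Nat → Nat →
    Nat → Nat → Nat → Nat → Nat → Nat → Nat → Nat → Nat → Nat → Nat → Nat → Nat → Nat → Nat → Nat →
    Nat → Nat → Nat → Nat → Nat → Nat → Nat → Nat → Nat → Nat → Nat → Nat → Nat → Nat → Nat → Nat →
    Nat → Nat → Nat → Nat → Nat → Nat → Nat → Bool) : Bool :=
  k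
    (x (nat_lit 2)) (x (nat_lit 4)) (x (nat_lit 6)) (x (nat_lit 10)) (x (nat_lit 12))
    (x (nat_lit 18)) (x (nat_lit 28)) (x (nat_lit 30)) (x (nat_lit 36)) (x (nat_lit 54))
    (x (nat_lit 82)) (x (nat_lit 84)) (x (nat_lit 90)) (x (nat_lit 108)) (x (nat_lit 162))
    (x (nat_lit 244)) (x (nat_lit 246)) (x (nat_lit 252)) (x (nat_lit 270)) (x (nat_lit 324))
    (x (nat_lit 486)) (x (nat_lit 730)) (x (nat_lit 732)) (x (nat_lit 738)) (x (nat_lit 756))
    (x (nat_lit 810)) (x (nat_lit 972)) (x (nat_lit 1458)) (x (nat_lit 2188)) (x (nat_lit 2190))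
    (x (nat_lit 2196)) (x (nat_lit 2214)) (x (nat_lit 2268)) (x (nat_lit 2430)) (x (nat_lit 2916))
    (x (nat_lit 4374)) (x (nat_lit 6562)) (x (nat_lit 6564)) (x (nat_lit 6570)) (x (nat_lit 6588))
    (x (nat_lit 6642)) (x (nat_lit 6804)) (x (nat_lit 7290)) (x (nat_lit 8748)) (x (nat_lit 13122))
    (x (nat_lit 19684)) (x (nat_lit 19686)) (x (nat_lit 19692)) (x (nat_lit 19710))
    (x (nat_lit 19764)) (x (nat_lit 19926)) (x (nat_lit 20412)) (x (nat_lit 21870))
    (x (nat_lit 26244)) (x (nat_lit 39366))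

theorem ap_eq (x : Nat → Nat) (k : FnLL cds) : apLL (fun t => x t.cd) cds k = ap x k :=
  Eq.refl (ap x k)

theorem codes_ok : beqL (codes cds) (secL 10 2 0 []) = true := by decide +kernel

noncomputable def fin (f : Nat → Nat) (v1 : Nat) (
    x2 x4 x6 x10 x12 x18 x28 x30 x36 x54 x82 x84 x90 x108 x162 x244 x246 x252 x270 x324 x486 x730
    x732 x738 x756 x810 x972 x1458 x2188 x2190 x2196 x2214 x2268 x2430 x2916 x4374 x6562 x6564
    x6570 x6588 x6642 x6804 x7290 x8748 x13122 x19684 x19686 x19692 x19710 x19764 x19926 x20412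
    x21870 x26244 x39366 : Nat) : Bool :=
  Nat.beq
    (Nat.add (Nat.add (f x2) (Nat.add (f x4) (Nat.add (f x6) (Nat.add (f x10) (Nat.add (f x12)
    (Nat.add (f x18) (Nat.add (f x28) (Nat.add (f x30) (Nat.add (f x36) (Nat.add (f x54) (Nat.add
    (f x82) (Nat.add (f x84) (Nat.add (f x90) (Nat.add (f x108) (Nat.add (f x162) (Nat.add (f x244)
    (Nat.add (f x246) (Nat.add (f x252) (Nat.add (f x270) (Nat.add (f x324) (Nat.add (f x486)
    (Nat.add (f x730) (Nat.add (f x732) (Nat.add (f x738) (Nat.add (f x756) (Nat.add (f x810)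
    (Nat.add (f x972) (Nat.add (f x1458) (Nat.add (f x2188) (Nat.add (f x2190) (Nat.add (f x2196)
    (Nat.add (f x2214) (Nat.add (f x2268) (Nat.add (f x2430) (Nat.add (f x2916) (Nat.add (f x4374)
    (Nat.add (f x6562) (Nat.add (f x6564) (Nat.add (f x6570) (Nat.add (f x6588) (Nat.add (f x6642)
    (Nat.add (f x6804) (Nat.add (f x7290) (Nat.add (f x8748) (Nat.add (f x13122) (Nat.add
    (f x19684) (Nat.add (f x19686) (Nat.add (f x19692) (Nat.add (f x19710) (Nat.add (f x19764)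
    (Nat.add (f x19926) (Nat.add (f x20412) (Nat.add (f x21870) (Nat.add (f x26244) (Nat.add
    (f x39366) 0))))))))))))))))))))))))))))))))))))))))))))))))))))))) 0) v1

theorem fin_eq0 (f : Nat → Nat) (v1 : Nat) (x : Nat → Nat) :
    apLL (fun t => x t.cd) cds (fin f v1) = Nat.beq (sum2 (fun t => f (x t.cd)) cds) v1 :=
  Eq.refl (apLL (fun t => x t.cd) cds (fin f v1))

theorem fin_eq (f : Nat → Nat) (v1 : Nat) (x : Nat → Nat) :
    ap x (fin f v1) = Nat.beq (sumL (fun s => f (x s)) (secL 10 2 0 [])) v1 :=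
  ((ap_eq x (fin f v1)).symm.trans (fin_eq0 f v1 x)).trans
    (congrArg (fun z => Nat.beq z v1) (sum2_eq cds _ codes_ok (fun s => f (x s))))

def ch0 : List (Nat × Nat) :=
    [(2,20), (4,20), (10,20), (28,20), (82,20), (244,10)]

def sqA0 (X M
    u0 u1 u2 u3 u4 u5 : Nat) : Nat :=
    (Nat.add (Nat.mul (Nat.mul (Nat.land u0 M) (Nat.sub X (Nat.land u0 M))) 20)
    (Nat.add (Nat.mul (Nat.mul (Nat.land u1 M) (Nat.sub X (Nat.land u1 M))) 20)
    (Nat.add (Nat.mul (Nat.mul (Nat.land u2 M) (Nat.sub X (Nat.land u2 M))) 20)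
    (Nat.add (Nat.mul (Nat.mul (Nat.land u3 M) (Nat.sub X (Nat.land u3 M))) 20)
    (Nat.add (Nat.mul (Nat.mul (Nat.land u4 M) (Nat.sub X (Nat.land u4 M))) 20)
    (Nat.add (Nat.mul (Nat.mul (Nat.land u5 M) (Nat.sub X (Nat.land u5 M))) 10)
    0))))))

def sqB0 (z0 : Nat) : Nat :=
  sqA0 (Nat.shiftLeft 1 164) (Nat.sub (Nat.shiftLeft 1 164) 1)
    z0
    (Nat.shiftRight z0 164)
    (Nat.shiftRight (Nat.shiftRight z0 164) 164)
    (Nat.shiftRight (Nat.shiftRight (Nat.shiftRight z0 164) 164) 164)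
    (Nat.shiftRight (Nat.shiftRight (Nat.shiftRight (Nat.shiftRight z0 164) 164) 164) 164)
    (Nat.shiftRight (Nat.shiftRight (Nat.shiftRight (Nat.shiftRight (Nat.shiftRight z0 164) 164) 164) 164) 164)

def sqC0 (u : Nat) : Nat :=
  sqB0
    u

noncomputable def sq0 (v : Nat) : Nat := sqC0 (Nat.add v (offs 164 (Nat.shiftLeft 1 (Nat.sub 164 1)) ch0))

theorem sq_eq0 : sq0 = sqF 164 ch0 := Eq.refl sq0

theorem side_ok0 : sideOK 10 164 mask cf10 ch0 = true := by decide +kernel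

theorem cover : beqP (repL 10 2) (ch0 ++ []) = true := by decide +kernel

theorem len_ok : (secL 10 2 0 []).length = 55 := by decide +kernel

theorem wt_ok : (List.map Prod.snd (ch0 ++ [])).sum = 110 := by decide +kernel

end Vale.Agent.P348.A10_2

namespace Vale.Agent.P348.A10_3

def mask : Nat := nat_lit 758068366546499251955429516738285743347958447331667753173125528745984895139877253896013126675757637177278485453872802081763462816671427374044736265606579095466673295461298975946499142730490351811254545646368318844169907821619232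

def KK : Type :=
    Nat → Nat → Nat → Nat → Nat → Nat → Nat → Nat → Nat → Nat → Nat → Nat → Nat → Nat → Nat → Nat →
    Nat → Nat → Nat → Nat → Nat → Nat → Nat → Nat → Nat → Nat → Nat → Nat → Nat → Nat → Nat → Nat →
    Nat → Nat → Nat → Nat → Nat → Nat → Nat → Nat → Nat → Nat → Nat → Nat → Nat → Nat → Nat → Nat →
    Nat → Nat → Nat → Nat → Nat → Nat → Nat → Nat → Nat → Nat → Nat → Nat → Nat → Nat → Nat → Nat →
    Nat → Nat → Nat → Nat → Nat → Nat → Nat → Nat → Nat → Nat → Nat → Nat → Nat → Nat → Nat → Nat →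
    Nat → Nat → Nat → Nat → Nat → Nat → Nat → Nat → Nat → Nat → Nat → Nat → Nat → Nat → Nat → Nat →
    Nat → Nat → Nat → Nat → Nat → Nat → Nat → Nat → Nat → Nat → Nat → Nat → Nat → Nat → Nat → Nat →
    Nat → Nat → Nat → Nat → Nat → Nat → Nat → Nat → Nat → Nat → Nat → Nat → Nat → Nat → Nat → Nat →
    Nat → Nat → Nat → Nat → Nat → Nat → Nat → Nat → Nat → Nat → Nat → Nat → Nat → Nat → Nat → Nat →
    Nat → Nat → Nat → Nat → Nat → Nat → Nat → Nat → Nat → Nat → Nat → Nat → Nat → Nat → Nat → Nat →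
    Nat → Nat → Nat → Nat → Nat → Nat → Nat → Nat → Nat → Nat → Nat → Nat → Nat → Nat → Nat → Nat →
    Nat → Nat → Nat → Nat → Nat → Nat → Nat → Nat → Nat → Nat → Nat → Nat → Nat → Nat → Nat → Nat →
    Nat → Nat → Nat → Nat → Nat → Nat → Nat → Nat → Nat → Nat → Nat → Nat → Nat → Nat → Nat → Nat →
    Nat → Nat → Bool

noncomputable def cd0 : List Spec :=
  [Spec.mk (nat_lit 5) (nat_lit 0) [] (nat_lit 0) [] false,
   Spec.mk (nat_lit 7) (nat_lit 0) [] (nat_lit 0) [] false,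
   Spec.mk (nat_lit 11) (nat_lit 0) [] (nat_lit 0) [] false,
   Spec.mk (nat_lit 13) (nat_lit 0) [] (nat_lit 0) [] false,
   Spec.mk (nat_lit 15) (nat_lit 0) [] (nat_lit 0) [] false,
   Spec.mk (nat_lit 19) (nat_lit 0) [] (nat_lit 0) [] false,
   Spec.mk (nat_lit 21) (nat_lit 0) [] (nat_lit 0) [] false,
   Spec.mk (nat_lit 29) (nat_lit 0) [] (nat_lit 0) [] false,
   Spec.mk (nat_lit 31) (nat_lit 0) [] (nat_lit 0) [] false,
   Spec.mk (nat_lit 33) (nat_lit 0) [] (nat_lit 0) [] false,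
   Spec.mk (nat_lit 37) (nat_lit 0) [] (nat_lit 0) [] false,
   Spec.mk (nat_lit 39) (nat_lit 0) [] (nat_lit 0) [] false,
   Spec.mk (nat_lit 45) (nat_lit 0) [] (nat_lit 0) [] false,
   Spec.mk (nat_lit 55) (nat_lit 0) [] (nat_lit 0) [] false,
   Spec.mk (nat_lit 57) (nat_lit 0) [] (nat_lit 0) [] false,
   Spec.mk (nat_lit 63) (nat_lit 0) [] (nat_lit 0) [] false,
   Spec.mk (nat_lit 83) (nat_lit 0) [] (nat_lit 0) [] false,
   Spec.mk (nat_lit 85) (nat_lit 0) [] (nat_lit 0) [] false,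
   Spec.mk (nat_lit 87) (nat_lit 0) [] (nat_lit 0) [] false,
   Spec.mk (nat_lit 91) (nat_lit 0) [] (nat_lit 0) [] false,
   Spec.mk (nat_lit 93) (nat_lit 0) [] (nat_lit 0) [] false,
   Spec.mk (nat_lit 99) (nat_lit 0) [] (nat_lit 0) [] false,
   Spec.mk (nat_lit 109) (nat_lit 0) [] (nat_lit 0) [] false,
   Spec.mk (nat_lit 111) (nat_lit 0) [] (nat_lit 0) [] false,
   Spec.mk (nat_lit 117) (nat_lit 0) [] (nat_lit 0) [] false,
   Spec.mk (nat_lit 135) (nat_lit 0) [] (nat_lit 0) [] false,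
   Spec.mk (nat_lit 163) (nat_lit 0) [] (nat_lit 0) [] false,
   Spec.mk (nat_lit 165) (nat_lit 0) [] (nat_lit 0) [] false,
   Spec.mk (nat_lit 171) (nat_lit 0) [] (nat_lit 0) [] false,
   Spec.mk (nat_lit 189) (nat_lit 0) [] (nat_lit 0) [] false,
   Spec.mk (nat_lit 245) (nat_lit 0) [] (nat_lit 0) [] false,
   Spec.mk (nat_lit 247) (nat_lit 0) [] (nat_lit 0) [] false,
   Spec.mk (nat_lit 249) (nat_lit 0) [] (nat_lit 0) [] false,
   Spec.mk (nat_lit 253) (nat_lit 0) [] (nat_lit 0) [] false,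
   Spec.mk (nat_lit 255) (nat_lit 0) [] (nat_lit 0) [] false,
   Spec.mk (nat_lit 261) (nat_lit 0) [] (nat_lit 0) [] false,
   Spec.mk (nat_lit 271) (nat_lit 0) [] (nat_lit 0) [] false,
   Spec.mk (nat_lit 273) (nat_lit 0) [] (nat_lit 0) [] false,
   Spec.mk (nat_lit 279) (nat_lit 0) [] (nat_lit 0) [] false,
   Spec.mk (nat_lit 297) (nat_lit 0) [] (nat_lit 0) [] false,
   Spec.mk (nat_lit 325) (nat_lit 0) [] (nat_lit 0) [] false,
   Spec.mk (nat_lit 327) (nat_lit 0) [] (nat_lit 0) [] false,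
   Spec.mk (nat_lit 333) (nat_lit 0) [] (nat_lit 0) [] false,
   Spec.mk (nat_lit 351) (nat_lit 0) [] (nat_lit 0) [] false,
   Spec.mk (nat_lit 405) (nat_lit 0) [] (nat_lit 0) [] false,
   Spec.mk (nat_lit 487) (nat_lit 0) [] (nat_lit 0) [] false,
   Spec.mk (nat_lit 489) (nat_lit 0) [] (nat_lit 0) [] false,
   Spec.mk (nat_lit 495) (nat_lit 0) [] (nat_lit 0) [] false,
   Spec.mk (nat_lit 513) (nat_lit 0) [] (nat_lit 0) [] false,
   Spec.mk (nat_lit 567) (nat_lit 0) [] (nat_lit 0) [] false,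
   Spec.mk (nat_lit 731) (nat_lit 0) [] (nat_lit 0) [] false,
   Spec.mk (nat_lit 733) (nat_lit 0) [] (nat_lit 0) [] false,
   Spec.mk (nat_lit 735) (nat_lit 0) [] (nat_lit 0) [] false,
   Spec.mk (nat_lit 739) (nat_lit 0) [] (nat_lit 0) [] false,
   Spec.mk (nat_lit 741) (nat_lit 0) [] (nat_lit 0) [] false,
   Spec.mk (nat_lit 747) (nat_lit 0) [] (nat_lit 0) [] false,
   Spec.mk (nat_lit 757) (nat_lit 0) [] (nat_lit 0) [] false,
   Spec.mk (nat_lit 759) (nat_lit 0) [] (nat_lit 0) [] false,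
   Spec.mk (nat_lit 765) (nat_lit 0) [] (nat_lit 0) [] false,
   Spec.mk (nat_lit 783) (nat_lit 0) [] (nat_lit 0) [] false]

noncomputable def cd1 : List Spec :=
  [Spec.mk (nat_lit 811) (nat_lit 0) [] (nat_lit 0) [] false,
   Spec.mk (nat_lit 813) (nat_lit 0) [] (nat_lit 0) [] false,
   Spec.mk (nat_lit 819) (nat_lit 0) [] (nat_lit 0) [] false,
   Spec.mk (nat_lit 837) (nat_lit 0) [] (nat_lit 0) [] false,
   Spec.mk (nat_lit 891) (nat_lit 0) [] (nat_lit 0) [] false,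
   Spec.mk (nat_lit 973) (nat_lit 0) [] (nat_lit 0) [] false,
   Spec.mk (nat_lit 975) (nat_lit 0) [] (nat_lit 0) [] false,
   Spec.mk (nat_lit 981) (nat_lit 0) [] (nat_lit 0) [] false,
   Spec.mk (nat_lit 999) (nat_lit 0) [] (nat_lit 0) [] false,
   Spec.mk (nat_lit 1053) (nat_lit 0) [] (nat_lit 0) [] false,
   Spec.mk (nat_lit 1215) (nat_lit 0) [] (nat_lit 0) [] false,
   Spec.mk (nat_lit 1459) (nat_lit 0) [] (nat_lit 0) [] false,
   Spec.mk (nat_lit 1461) (nat_lit 0) [] (nat_lit 0) [] false,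
   Spec.mk (nat_lit 1467) (nat_lit 0) [] (nat_lit 0) [] false,
   Spec.mk (nat_lit 1485) (nat_lit 0) [] (nat_lit 0) [] false,
   Spec.mk (nat_lit 1539) (nat_lit 0) [] (nat_lit 0) [] false,
   Spec.mk (nat_lit 1701) (nat_lit 0) [] (nat_lit 0) [] false,
   Spec.mk (nat_lit 2189) (nat_lit 0) [] (nat_lit 0) [] false,
   Spec.mk (nat_lit 2191) (nat_lit 0) [] (nat_lit 0) [] false,
   Spec.mk (nat_lit 2193) (nat_lit 0) [] (nat_lit 0) [] false,
   Spec.mk (nat_lit 2197) (nat_lit 0) [] (nat_lit 0) [] false,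
   Spec.mk (nat_lit 2199) (nat_lit 0) [] (nat_lit 0) [] false,
   Spec.mk (nat_lit 2205) (nat_lit 0) [] (nat_lit 0) [] false,
   Spec.mk (nat_lit 2215) (nat_lit 0) [] (nat_lit 0) [] false,
   Spec.mk (nat_lit 2217) (nat_lit 0) [] (nat_lit 0) [] false,
   Spec.mk (nat_lit 2223) (nat_lit 0) [] (nat_lit 0) [] false,
   Spec.mk (nat_lit 2241) (nat_lit 0) [] (nat_lit 0) [] false,
   Spec.mk (nat_lit 2269) (nat_lit 0) [] (nat_lit 0) [] false,
   Spec.mk (nat_lit 2271) (nat_lit 0) [] (nat_lit 0) [] false,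
   Spec.mk (nat_lit 2277) (nat_lit 0) [] (nat_lit 0) [] false,
   Spec.mk (nat_lit 2295) (nat_lit 0) [] (nat_lit 0) [] false,
   Spec.mk (nat_lit 2349) (nat_lit 0) [] (nat_lit 0) [] false,
   Spec.mk (nat_lit 2431) (nat_lit 0) [] (nat_lit 0) [] false,
   Spec.mk (nat_lit 2433) (nat_lit 0) [] (nat_lit 0) [] false,
   Spec.mk (nat_lit 2439) (nat_lit 0) [] (nat_lit 0) [] false,
   Spec.mk (nat_lit 2457) (nat_lit 0) [] (nat_lit 0) [] false,
   Spec.mk (nat_lit 2511) (nat_lit 0) [] (nat_lit 0) [] false,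
   Spec.mk (nat_lit 2673) (nat_lit 0) [] (nat_lit 0) [] false,
   Spec.mk (nat_lit 2917) (nat_lit 0) [] (nat_lit 0) [] false,
   Spec.mk (nat_lit 2919) (nat_lit 0) [] (nat_lit 0) [] false,
   Spec.mk (nat_lit 2925) (nat_lit 0) [] (nat_lit 0) [] false,
   Spec.mk (nat_lit 2943) (nat_lit 0) [] (nat_lit 0) [] false,
   Spec.mk (nat_lit 2997) (nat_lit 0) [] (nat_lit 0) [] false,
   Spec.mk (nat_lit 3159) (nat_lit 0) [] (nat_lit 0) [] false,
   Spec.mk (nat_lit 3645) (nat_lit 0) [] (nat_lit 0) [] false,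
   Spec.mk (nat_lit 4375) (nat_lit 0) [] (nat_lit 0) [] false,
   Spec.mk (nat_lit 4377) (nat_lit 0) [] (nat_lit 0) [] false,
   Spec.mk (nat_lit 4383) (nat_lit 0) [] (nat_lit 0) [] false,
   Spec.mk (nat_lit 4401) (nat_lit 0) [] (nat_lit 0) [] false,
   Spec.mk (nat_lit 4455) (nat_lit 0) [] (nat_lit 0) [] false,
   Spec.mk (nat_lit 4617) (nat_lit 0) [] (nat_lit 0) [] false,
   Spec.mk (nat_lit 5103) (nat_lit 0) [] (nat_lit 0) [] false,
   Spec.mk (nat_lit 6563) (nat_lit 0) [] (nat_lit 0) [] false,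
   Spec.mk (nat_lit 6565) (nat_lit 0) [] (nat_lit 0) [] false,
   Spec.mk (nat_lit 6567) (nat_lit 0) [] (nat_lit 0) [] false,
   Spec.mk (nat_lit 6571) (nat_lit 0) [] (nat_lit 0) [] false,
   Spec.mk (nat_lit 6573) (nat_lit 0) [] (nat_lit 0) [] false,
   Spec.mk (nat_lit 6579) (nat_lit 0) [] (nat_lit 0) [] false,
   Spec.mk (nat_lit 6589) (nat_lit 0) [] (nat_lit 0) [] false,
   Spec.mk (nat_lit 6591) (nat_lit 0) [] (nat_lit 0) [] false]

noncomputable def cd2 : List Spec :=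
  [Spec.mk (nat_lit 6597) (nat_lit 0) [] (nat_lit 0) [] false,
   Spec.mk (nat_lit 6615) (nat_lit 0) [] (nat_lit 0) [] false,
   Spec.mk (nat_lit 6643) (nat_lit 0) [] (nat_lit 0) [] false,
   Spec.mk (nat_lit 6645) (nat_lit 0) [] (nat_lit 0) [] false,
   Spec.mk (nat_lit 6651) (nat_lit 0) [] (nat_lit 0) [] false,
   Spec.mk (nat_lit 6669) (nat_lit 0) [] (nat_lit 0) [] false,
   Spec.mk (nat_lit 6723) (nat_lit 0) [] (nat_lit 0) [] false,
   Spec.mk (nat_lit 6805) (nat_lit 0) [] (nat_lit 0) [] false,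
   Spec.mk (nat_lit 6807) (nat_lit 0) [] (nat_lit 0) [] false,
   Spec.mk (nat_lit 6813) (nat_lit 0) [] (nat_lit 0) [] false,
   Spec.mk (nat_lit 6831) (nat_lit 0) [] (nat_lit 0) [] false,
   Spec.mk (nat_lit 6885) (nat_lit 0) [] (nat_lit 0) [] false,
   Spec.mk (nat_lit 7047) (nat_lit 0) [] (nat_lit 0) [] false,
   Spec.mk (nat_lit 7291) (nat_lit 0) [] (nat_lit 0) [] false,
   Spec.mk (nat_lit 7293) (nat_lit 0) [] (nat_lit 0) [] false,
   Spec.mk (nat_lit 7299) (nat_lit 0) [] (nat_lit 0) [] false,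
   Spec.mk (nat_lit 7317) (nat_lit 0) [] (nat_lit 0) [] false,
   Spec.mk (nat_lit 7371) (nat_lit 0) [] (nat_lit 0) [] false,
   Spec.mk (nat_lit 7533) (nat_lit 0) [] (nat_lit 0) [] false,
   Spec.mk (nat_lit 8019) (nat_lit 0) [] (nat_lit 0) [] false,
   Spec.mk (nat_lit 8749) (nat_lit 0) [] (nat_lit 0) [] false,
   Spec.mk (nat_lit 8751) (nat_lit 0) [] (nat_lit 0) [] false,
   Spec.mk (nat_lit 8757) (nat_lit 0) [] (nat_lit 0) [] false,
   Spec.mk (nat_lit 8775) (nat_lit 0) [] (nat_lit 0) [] false,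
   Spec.mk (nat_lit 8829) (nat_lit 0) [] (nat_lit 0) [] false,
   Spec.mk (nat_lit 8991) (nat_lit 0) [] (nat_lit 0) [] false,
   Spec.mk (nat_lit 9477) (nat_lit 0) [] (nat_lit 0) [] false,
   Spec.mk (nat_lit 10935) (nat_lit 0) [] (nat_lit 0) [] false,
   Spec.mk (nat_lit 13123) (nat_lit 0) [] (nat_lit 0) [] false,
   Spec.mk (nat_lit 13125) (nat_lit 0) [] (nat_lit 0) [] false,
   Spec.mk (nat_lit 13131) (nat_lit 0) [] (nat_lit 0) [] false,
   Spec.mk (nat_lit 13149) (nat_lit 0) [] (nat_lit 0) [] false,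
   Spec.mk (nat_lit 13203) (nat_lit 0) [] (nat_lit 0) [] false,
   Spec.mk (nat_lit 13365) (nat_lit 0) [] (nat_lit 0) [] false,
   Spec.mk (nat_lit 13851) (nat_lit 0) [] (nat_lit 0) [] false,
   Spec.mk (nat_lit 15309) (nat_lit 0) [] (nat_lit 0) [] false,
   Spec.mk (nat_lit 19685) (nat_lit 0) [] (nat_lit 0) [] false,
   Spec.mk (nat_lit 19687) (nat_lit 0) [] (nat_lit 0) [] false,
   Spec.mk (nat_lit 19689) (nat_lit 0) [] (nat_lit 0) [] false,
   Spec.mk (nat_lit 19693) (nat_lit 0) [] (nat_lit 0) [] false,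
   Spec.mk (nat_lit 19695) (nat_lit 0) [] (nat_lit 0) [] false,
   Spec.mk (nat_lit 19701) (nat_lit 0) [] (nat_lit 0) [] false,
   Spec.mk (nat_lit 19711) (nat_lit 0) [] (nat_lit 0) [] false,
   Spec.mk (nat_lit 19713) (nat_lit 0) [] (nat_lit 0) [] false,
   Spec.mk (nat_lit 19719) (nat_lit 0) [] (nat_lit 0) [] false,
   Spec.mk (nat_lit 19737) (nat_lit 0) [] (nat_lit 0) [] false,
   Spec.mk (nat_lit 19765) (nat_lit 0) [] (nat_lit 0) [] false,
   Spec.mk (nat_lit 19767) (nat_lit 0) [] (nat_lit 0) [] false,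
   Spec.mk (nat_lit 19773) (nat_lit 0) [] (nat_lit 0) [] false,
   Spec.mk (nat_lit 19791) (nat_lit 0) [] (nat_lit 0) [] false,
   Spec.mk (nat_lit 19845) (nat_lit 0) [] (nat_lit 0) [] false,
   Spec.mk (nat_lit 19927) (nat_lit 0) [] (nat_lit 0) [] false,
   Spec.mk (nat_lit 19929) (nat_lit 0) [] (nat_lit 0) [] false,
   Spec.mk (nat_lit 19935) (nat_lit 0) [] (nat_lit 0) [] false,
   Spec.mk (nat_lit 19953) (nat_lit 0) [] (nat_lit 0) [] false,
   Spec.mk (nat_lit 20007) (nat_lit 0) [] (nat_lit 0) [] false,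
   Spec.mk (nat_lit 20169) (nat_lit 0) [] (nat_lit 0) [] false,
   Spec.mk (nat_lit 20413) (nat_lit 0) [] (nat_lit 0) [] false,
   Spec.mk (nat_lit 20415) (nat_lit 0) [] (nat_lit 0) [] false,
   Spec.mk (nat_lit 20421) (nat_lit 0) [] (nat_lit 0) [] false]

noncomputable def cd3 : List Spec :=
  [Spec.mk (nat_lit 20439) (nat_lit 0) [] (nat_lit 0) [] false,
   Spec.mk (nat_lit 20493) (nat_lit 0) [] (nat_lit 0) [] false,
   Spec.mk (nat_lit 20655) (nat_lit 0) [] (nat_lit 0) [] false,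
   Spec.mk (nat_lit 21141) (nat_lit 0) [] (nat_lit 0) [] false,
   Spec.mk (nat_lit 21871) (nat_lit 0) [] (nat_lit 0) [] false,
   Spec.mk (nat_lit 21873) (nat_lit 0) [] (nat_lit 0) [] false,
   Spec.mk (nat_lit 21879) (nat_lit 0) [] (nat_lit 0) [] false,
   Spec.mk (nat_lit 21897) (nat_lit 0) [] (nat_lit 0) [] false,
   Spec.mk (nat_lit 21951) (nat_lit 0) [] (nat_lit 0) [] false,
   Spec.mk (nat_lit 22113) (nat_lit 0) [] (nat_lit 0) [] false,
   Spec.mk (nat_lit 22599) (nat_lit 0) [] (nat_lit 0) [] false,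
   Spec.mk (nat_lit 24057) (nat_lit 0) [] (nat_lit 0) [] false,
   Spec.mk (nat_lit 26245) (nat_lit 0) [] (nat_lit 0) [] false,
   Spec.mk (nat_lit 26247) (nat_lit 0) [] (nat_lit 0) [] false,
   Spec.mk (nat_lit 26253) (nat_lit 0) [] (nat_lit 0) [] false,
   Spec.mk (nat_lit 26271) (nat_lit 0) [] (nat_lit 0) [] false,
   Spec.mk (nat_lit 26325) (nat_lit 0) [] (nat_lit 0) [] false,
   Spec.mk (nat_lit 26487) (nat_lit 0) [] (nat_lit 0) [] false,
   Spec.mk (nat_lit 26973) (nat_lit 0) [] (nat_lit 0) [] false,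
   Spec.mk (nat_lit 28431) (nat_lit 0) [] (nat_lit 0) [] false,
   Spec.mk (nat_lit 32805) (nat_lit 0) [] (nat_lit 0) [] false,
   Spec.mk (nat_lit 39367) (nat_lit 0) [] (nat_lit 0) [] false,
   Spec.mk (nat_lit 39369) (nat_lit 0) [] (nat_lit 0) [] false,
   Spec.mk (nat_lit 39375) (nat_lit 0) [] (nat_lit 0) [] false,
   Spec.mk (nat_lit 39393) (nat_lit 0) [] (nat_lit 0) [] false,
   Spec.mk (nat_lit 39447) (nat_lit 0) [] (nat_lit 0) [] false,
   Spec.mk (nat_lit 39609) (nat_lit 0) [] (nat_lit 0) [] false,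
   Spec.mk (nat_lit 40095) (nat_lit 0) [] (nat_lit 0) [] false,
   Spec.mk (nat_lit 41553) (nat_lit 0) [] (nat_lit 0) [] false,
   Spec.mk (nat_lit 45927) (nat_lit 0) [] (nat_lit 0) [] false]

noncomputable def cds : List (List Spec) :=
    cd0 :: cd1 :: cd2 :: cd3 :: []

noncomputable def ap (x : Nat → Nat) (k :
    Nat → Nat → Nat → Nat → Nat → Nat → Nat → Nat → Nat → Nat → Nat → Nat → Nat → Nat → Nat → Nat →
    Nat → Nat → Nat → Nat → Nat → Nat → Nat → Nat → Nat → Nat → Nat → Nat → Nat → Nat → Nat → Nat →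
    Nat → Nat → Nat → Nat → Nat → Nat → Nat → Nat → Nat → Nat → Nat → Nat → Nat → Nat → Nat → Nat →
    Nat → Nat → Nat → Nat → Nat → Nat → Nat → Nat → Nat → Nat → Nat → Nat → Nat → Nat → Nat → Nat →
    Nat → Nat → Nat → Nat → Nat → Nat → Nat → Nat → Nat → Nat → Nat → Nat → Nat → Nat → Nat → Nat →
    Nat → Nat → Nat → Nat → Nat → Nat → Nat → Nat → Nat → Nat → Nat → Nat → Nat → Nat → Nat → Nat →
    Nat → Nat → Nat → Nat → Nat → Nat → Nat → Nat → Nat → Nat → Nat → Nat → Nat → Nat → Nat → Nat →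
    Nat → Nat → Nat → Nat → Nat → Nat → Nat → Nat → Nat → Nat → Nat → Nat → Nat → Nat → Nat → Nat →
    Nat → Nat → Nat → Nat → Nat → Nat → Nat → Nat → Nat → Nat → Nat → Nat → Nat → Nat → Nat → Nat →
    Nat → Nat → Nat → Nat → Nat → Nat → Nat → Nat → Nat → Nat → Nat → Nat → Nat → Nat → Nat → Nat →
    Nat → Nat → Nat → Nat → Nat → Nat → Nat → Nat → Nat → Nat → Nat → Nat → Nat → Nat → Nat → Nat →
    Nat → Nat → Nat → Nat → Nat → Nat → Nat → Nat → Nat → Nat → Nat → Nat → Nat → Nat → Nat → Nat →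
    Nat → Nat → Nat → Nat → Nat → Nat → Nat → Nat → Nat → Nat → Nat → Nat → Nat → Nat → Nat → Nat →
    Nat → Nat → Bool) : Bool :=
  k
    (x (nat_lit 5)) (x (nat_lit 7)) (x (nat_lit 11)) (x (nat_lit 13)) (x (nat_lit 15))
    (x (nat_lit 19)) (x (nat_lit 21)) (x (nat_lit 29)) (x (nat_lit 31)) (x (nat_lit 33))
    (x (nat_lit 37)) (x (nat_lit 39)) (x (nat_lit 45)) (x (nat_lit 55)) (x (nat_lit 57))
    (x (nat_lit 63)) (x (nat_lit 83)) (x (nat_lit 85)) (x (nat_lit 87)) (x (nat_lit 91))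
    (x (nat_lit 93)) (x (nat_lit 99)) (x (nat_lit 109)) (x (nat_lit 111)) (x (nat_lit 117))
    (x (nat_lit 135)) (x (nat_lit 163)) (x (nat_lit 165)) (x (nat_lit 171)) (x (nat_lit 189))
    (x (nat_lit 245)) (x (nat_lit 247)) (x (nat_lit 249)) (x (nat_lit 253)) (x (nat_lit 255))
    (x (nat_lit 261)) (x (nat_lit 271)) (x (nat_lit 273)) (x (nat_lit 279)) (x (nat_lit 297))
    (x (nat_lit 325)) (x (nat_lit 327)) (x (nat_lit 333)) (x (nat_lit 351)) (x (nat_lit 405))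
    (x (nat_lit 487)) (x (nat_lit 489)) (x (nat_lit 495)) (x (nat_lit 513)) (x (nat_lit 567))
    (x (nat_lit 731)) (x (nat_lit 733)) (x (nat_lit 735)) (x (nat_lit 739)) (x (nat_lit 741))
    (x (nat_lit 747)) (x (nat_lit 757)) (x (nat_lit 759)) (x (nat_lit 765)) (x (nat_lit 783))
    (x (nat_lit 811)) (x (nat_lit 813)) (x (nat_lit 819)) (x (nat_lit 837)) (x (nat_lit 891))
    (x (nat_lit 973)) (x (nat_lit 975)) (x (nat_lit 981)) (x (nat_lit 999)) (x (nat_lit 1053))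
    (x (nat_lit 1215)) (x (nat_lit 1459)) (x (nat_lit 1461)) (x (nat_lit 1467)) (x (nat_lit 1485))
    (x (nat_lit 1539)) (x (nat_lit 1701)) (x (nat_lit 2189)) (x (nat_lit 2191)) (x (nat_lit 2193))
    (x (nat_lit 2197)) (x (nat_lit 2199)) (x (nat_lit 2205)) (x (nat_lit 2215)) (x (nat_lit 2217))
    (x (nat_lit 2223)) (x (nat_lit 2241)) (x (nat_lit 2269)) (x (nat_lit 2271)) (x (nat_lit 2277))
    (x (nat_lit 2295)) (x (nat_lit 2349)) (x (nat_lit 2431)) (x (nat_lit 2433)) (x (nat_lit 2439))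
    (x (nat_lit 2457)) (x (nat_lit 2511)) (x (nat_lit 2673)) (x (nat_lit 2917)) (x (nat_lit 2919))
    (x (nat_lit 2925)) (x (nat_lit 2943)) (x (nat_lit 2997)) (x (nat_lit 3159)) (x (nat_lit 3645))
    (x (nat_lit 4375)) (x (nat_lit 4377)) (x (nat_lit 4383)) (x (nat_lit 4401)) (x (nat_lit 4455))
    (x (nat_lit 4617)) (x (nat_lit 5103)) (x (nat_lit 6563)) (x (nat_lit 6565)) (x (nat_lit 6567))
    (x (nat_lit 6571)) (x (nat_lit 6573)) (x (nat_lit 6579)) (x (nat_lit 6589)) (x (nat_lit 6591))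
    (x (nat_lit 6597)) (x (nat_lit 6615)) (x (nat_lit 6643)) (x (nat_lit 6645)) (x (nat_lit 6651))
    (x (nat_lit 6669)) (x (nat_lit 6723)) (x (nat_lit 6805)) (x (nat_lit 6807)) (x (nat_lit 6813))
    (x (nat_lit 6831)) (x (nat_lit 6885)) (x (nat_lit 7047)) (x (nat_lit 7291)) (x (nat_lit 7293))
    (x (nat_lit 7299)) (x (nat_lit 7317)) (x (nat_lit 7371)) (x (nat_lit 7533)) (x (nat_lit 8019))
    (x (nat_lit 8749)) (x (nat_lit 8751)) (x (nat_lit 8757)) (x (nat_lit 8775)) (x (nat_lit 8829))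
    (x (nat_lit 8991)) (x (nat_lit 9477)) (x (nat_lit 10935)) (x (nat_lit 13123))
    (x (nat_lit 13125)) (x (nat_lit 13131)) (x (nat_lit 13149)) (x (nat_lit 13203))
    (x (nat_lit 13365)) (x (nat_lit 13851)) (x (nat_lit 15309)) (x (nat_lit 19685))
    (x (nat_lit 19687)) (x (nat_lit 19689)) (x (nat_lit 19693)) (x (nat_lit 19695))
    (x (nat_lit 19701)) (x (nat_lit 19711)) (x (nat_lit 19713)) (x (nat_lit 19719))
    (x (nat_lit 19737)) (x (nat_lit 19765)) (x (nat_lit 19767)) (x (nat_lit 19773))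
    (x (nat_lit 19791)) (x (nat_lit 19845)) (x (nat_lit 19927)) (x (nat_lit 19929))
    (x (nat_lit 19935)) (x (nat_lit 19953)) (x (nat_lit 20007)) (x (nat_lit 20169))
    (x (nat_lit 20413)) (x (nat_lit 20415)) (x (nat_lit 20421)) (x (nat_lit 20439))
    (x (nat_lit 20493)) (x (nat_lit 20655)) (x (nat_lit 21141)) (x (nat_lit 21871))
    (x (nat_lit 21873)) (x (nat_lit 21879)) (x (nat_lit 21897)) (x (nat_lit 21951))
    (x (nat_lit 22113)) (x (nat_lit 22599)) (x (nat_lit 24057)) (x (nat_lit 26245))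
    (x (nat_lit 26247)) (x (nat_lit 26253)) (x (nat_lit 26271)) (x (nat_lit 26325))
    (x (nat_lit 26487)) (x (nat_lit 26973)) (x (nat_lit 28431)) (x (nat_lit 32805))
    (x (nat_lit 39367)) (x (nat_lit 39369)) (x (nat_lit 39375)) (x (nat_lit 39393))
    (x (nat_lit 39447)) (x (nat_lit 39609)) (x (nat_lit 40095)) (x (nat_lit 41553))
    (x (nat_lit 45927))

theorem ap_eq (x : Nat → Nat) (k : FnLL cds) : apLL (fun t => x t.cd) cds k = ap x k :=
  Eq.refl (ap x k)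

theorem codes_ok : beqL (codes cds) (secL 10 3 0 []) = true := by decide +kernel

noncomputable def fin (f : Nat → Nat) (v1 : Nat) (
    x5 x7 x11 x13 x15 x19 x21 x29 x31 x33 x37 x39 x45 x55 x57 x63 x83 x85 x87 x91 x93 x99 x109 x111
    x117 x135 x163 x165 x171 x189 x245 x247 x249 x253 x255 x261 x271 x273 x279 x297 x325 x327 x333
    x351 x405 x487 x489 x495 x513 x567 x731 x733 x735 x739 x741 x747 x757 x759 x765 x783 x811 x813
    x819 x837 x891 x973 x975 x981 x999 x1053 x1215 x1459 x1461 x1467 x1485 x1539 x1701 x2189 x2191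
    x2193 x2197 x2199 x2205 x2215 x2217 x2223 x2241 x2269 x2271 x2277 x2295 x2349 x2431 x2433 x2439
    x2457 x2511 x2673 x2917 x2919 x2925 x2943 x2997 x3159 x3645 x4375 x4377 x4383 x4401 x4455 x4617
    x5103 x6563 x6565 x6567 x6571 x6573 x6579 x6589 x6591 x6597 x6615 x6643 x6645 x6651 x6669 x6723
    x6805 x6807 x6813 x6831 x6885 x7047 x7291 x7293 x7299 x7317 x7371 x7533 x8019 x8749 x8751 x8757
    x8775 x8829 x8991 x9477 x10935 x13123 x13125 x13131 x13149 x13203 x13365 x13851 x15309 x19685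
    x19687 x19689 x19693 x19695 x19701 x19711 x19713 x19719 x19737 x19765 x19767 x19773 x19791
    x19845 x19927 x19929 x19935 x19953 x20007 x20169 x20413 x20415 x20421 x20439 x20493 x20655
    x21141 x21871 x21873 x21879 x21897 x21951 x22113 x22599 x24057 x26245 x26247 x26253 x26271
    x26325 x26487 x26973 x28431 x32805 x39367 x39369 x39375 x39393 x39447 x39609 x40095 x41553
    x45927 : Nat) : Bool :=
  Nat.beq
    (Nat.add (Nat.add (f x5) (Nat.add (f x7) (Nat.add (f x11) (Nat.add (f x13) (Nat.add (f x15)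
    (Nat.add (f x19) (Nat.add (f x21) (Nat.add (f x29) (Nat.add (f x31) (Nat.add (f x33) (Nat.add
    (f x37) (Nat.add (f x39) (Nat.add (f x45) (Nat.add (f x55) (Nat.add (f x57) (Nat.add (f x63)
    (Nat.add (f x83) (Nat.add (f x85) (Nat.add (f x87) (Nat.add (f x91) (Nat.add (f x93) (Nat.add
    (f x99) (Nat.add (f x109) (Nat.add (f x111) (Nat.add (f x117) (Nat.add (f x135) (Nat.add
    (f x163) (Nat.add (f x165) (Nat.add (f x171) (Nat.add (f x189) (Nat.add (f x245) (Nat.add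
    (f x247) (Nat.add (f x249) (Nat.add (f x253) (Nat.add (f x255) (Nat.add (f x261) (Nat.add
    (f x271) (Nat.add (f x273) (Nat.add (f x279) (Nat.add (f x297) (Nat.add (f x325) (Nat.add
    (f x327) (Nat.add (f x333) (Nat.add (f x351) (Nat.add (f x405) (Nat.add (f x487) (Nat.add
    (f x489) (Nat.add (f x495) (Nat.add (f x513) (Nat.add (f x567) (Nat.add (f x731) (Nat.add
    (f x733) (Nat.add (f x735) (Nat.add (f x739) (Nat.add (f x741) (Nat.add (f x747) (Nat.add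
    (f x757) (Nat.add (f x759) (Nat.add (f x765) (Nat.add (f x783)
    0)))))))))))))))))))))))))))))))))))))))))))))))))))))))))))) (Nat.add (Nat.add (f x811)
    (Nat.add (f x813) (Nat.add (f x819) (Nat.add (f x837) (Nat.add (f x891) (Nat.add (f x973)
    (Nat.add (f x975) (Nat.add (f x981) (Nat.add (f x999) (Nat.add (f x1053) (Nat.add (f x1215)
    (Nat.add (f x1459) (Nat.add (f x1461) (Nat.add (f x1467) (Nat.add (f x1485) (Nat.add (f x1539)
    (Nat.add (f x1701) (Nat.add (f x2189) (Nat.add (f x2191) (Nat.add (f x2193) (Nat.add (f x2197)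
    (Nat.add (f x2199) (Nat.add (f x2205) (Nat.add (f x2215) (Nat.add (f x2217) (Nat.add (f x2223)
    (Nat.add (f x2241) (Nat.add (f x2269) (Nat.add (f x2271) (Nat.add (f x2277) (Nat.add (f x2295)
    (Nat.add (f x2349) (Nat.add (f x2431) (Nat.add (f x2433) (Nat.add (f x2439) (Nat.add (f x2457)
    (Nat.add (f x2511) (Nat.add (f x2673) (Nat.add (f x2917) (Nat.add (f x2919) (Nat.add (f x2925)
    (Nat.add (f x2943) (Nat.add (f x2997) (Nat.add (f x3159) (Nat.add (f x3645) (Nat.add (f x4375)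
    (Nat.add (f x4377) (Nat.add (f x4383) (Nat.add (f x4401) (Nat.add (f x4455) (Nat.add (f x4617)
    (Nat.add (f x5103) (Nat.add (f x6563) (Nat.add (f x6565) (Nat.add (f x6567) (Nat.add (f x6571)
    (Nat.add (f x6573) (Nat.add (f x6579) (Nat.add (f x6589) (Nat.add (f x6591)
    0)))))))))))))))))))))))))))))))))))))))))))))))))))))))))))) (Nat.add (Nat.add (f x6597)
    (Nat.add (f x6615) (Nat.add (f x6643) (Nat.add (f x6645) (Nat.add (f x6651) (Nat.add (f x6669)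
    (Nat.add (f x6723) (Nat.add (f x6805) (Nat.add (f x6807) (Nat.add (f x6813) (Nat.add (f x6831)
    (Nat.add (f x6885) (Nat.add (f x7047) (Nat.add (f x7291) (Nat.add (f x7293) (Nat.add (f x7299)
    (Nat.add (f x7317) (Nat.add (f x7371) (Nat.add (f x7533) (Nat.add (f x8019) (Nat.add (f x8749)
    (Nat.add (f x8751) (Nat.add (f x8757) (Nat.add (f x8775) (Nat.add (f x8829) (Nat.add (f x8991)
    (Nat.add (f x9477) (Nat.add (f x10935) (Nat.add (f x13123) (Nat.add (f x13125) (Nat.add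
    (f x13131) (Nat.add (f x13149) (Nat.add (f x13203) (Nat.add (f x13365) (Nat.add (f x13851)
    (Nat.add (f x15309) (Nat.add (f x19685) (Nat.add (f x19687) (Nat.add (f x19689) (Nat.add
    (f x19693) (Nat.add (f x19695) (Nat.add (f x19701) (Nat.add (f x19711) (Nat.add (f x19713)
    (Nat.add (f x19719) (Nat.add (f x19737) (Nat.add (f x19765) (Nat.add (f x19767) (Nat.add
    (f x19773) (Nat.add (f x19791) (Nat.add (f x19845) (Nat.add (f x19927) (Nat.add (f x19929)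
    (Nat.add (f x19935) (Nat.add (f x19953) (Nat.add (f x20007) (Nat.add (f x20169) (Nat.add
    (f x20413) (Nat.add (f x20415) (Nat.add (f x20421)
    0)))))))))))))))))))))))))))))))))))))))))))))))))))))))))))) (Nat.add (Nat.add (f x20439)
    (Nat.add (f x20493) (Nat.add (f x20655) (Nat.add (f x21141) (Nat.add (f x21871) (Nat.add
    (f x21873) (Nat.add (f x21879) (Nat.add (f x21897) (Nat.add (f x21951) (Nat.add (f x22113)
    (Nat.add (f x22599) (Nat.add (f x24057) (Nat.add (f x26245) (Nat.add (f x26247) (Nat.add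
    (f x26253) (Nat.add (f x26271) (Nat.add (f x26325) (Nat.add (f x26487) (Nat.add (f x26973)
    (Nat.add (f x28431) (Nat.add (f x32805) (Nat.add (f x39367) (Nat.add (f x39369) (Nat.add
    (f x39375) (Nat.add (f x39393) (Nat.add (f x39447) (Nat.add (f x39609) (Nat.add (f x40095)
    (Nat.add (f x41553) (Nat.add (f x45927) 0)))))))))))))))))))))))))))))) 0)))) v1

theorem fin_eq0 (f : Nat → Nat) (v1 : Nat) (x : Nat → Nat) :
    apLL (fun t => x t.cd) cds (fin f v1) = Nat.beq (sum2 (fun t => f (x t.cd)) cds) v1 :=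
  Eq.refl (apLL (fun t => x t.cd) cds (fin f v1))

theorem fin_eq (f : Nat → Nat) (v1 : Nat) (x : Nat → Nat) :
    ap x (fin f v1) = Nat.beq (sumL (fun s => f (x s)) (secL 10 3 0 [])) v1 :=
  ((ap_eq x (fin f v1)).symm.trans (fin_eq0 f v1 x)).trans
    (congrArg (fun z => Nat.beq z v1) (sum2_eq cds _ codes_ok (fun s => f (x s))))

def ch0 : List (Nat × Nat) :=
    [(5,40), (11,40), (13,20), (29,40), (31,40), (83,40), (85,40), (91,20), (245,20), (247,40),
    (253,40), (739,20), (757,20)]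

def sqA0 (X M
    u0 u1 u2 u3 u4 u5 u6 u7 u8 u9 u10 u11 u12 : Nat) : Nat :=
    (Nat.add (Nat.mul (Nat.mul (Nat.land u0 M) (Nat.sub X (Nat.land u0 M))) 40)
    (Nat.add (Nat.mul (Nat.mul (Nat.land u1 M) (Nat.sub X (Nat.land u1 M))) 40)
    (Nat.add (Nat.mul (Nat.mul (Nat.land u2 M) (Nat.sub X (Nat.land u2 M))) 20)
    (Nat.add (Nat.mul (Nat.mul (Nat.land u3 M) (Nat.sub X (Nat.land u3 M))) 40)
    (Nat.add (Nat.mul (Nat.mul (Nat.land u4 M) (Nat.sub X (Nat.land u4 M))) 40)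
    (Nat.add (Nat.mul (Nat.mul (Nat.land u5 M) (Nat.sub X (Nat.land u5 M))) 40)
    (Nat.add (Nat.mul (Nat.mul (Nat.land u6 M) (Nat.sub X (Nat.land u6 M))) 40)
    (Nat.add (Nat.mul (Nat.mul (Nat.land u7 M) (Nat.sub X (Nat.land u7 M))) 20)
    (Nat.add (Nat.mul (Nat.mul (Nat.land u8 M) (Nat.sub X (Nat.land u8 M))) 20)
    (Nat.add (Nat.mul (Nat.mul (Nat.land u9 M) (Nat.sub X (Nat.land u9 M))) 40)
    (Nat.add (Nat.mul (Nat.mul (Nat.land u10 M) (Nat.sub X (Nat.land u10 M))) 40)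
    (Nat.add (Nat.mul (Nat.mul (Nat.land u11 M) (Nat.sub X (Nat.land u11 M))) 20)
    (Nat.add (Nat.mul (Nat.mul (Nat.land u12 M) (Nat.sub X (Nat.land u12 M))) 20)
    0)))))))))))))

def sqB0 (z0 z1 z2 : Nat) : Nat :=
  sqA0 (Nat.shiftLeft 1 164) (Nat.sub (Nat.shiftLeft 1 164) 1)
    z0
    (Nat.shiftRight z0 164)
    (Nat.shiftRight (Nat.shiftRight z0 164) 164)
    (Nat.shiftRight (Nat.shiftRight (Nat.shiftRight z0 164) 164) 164)
    (Nat.shiftRight (Nat.shiftRight (Nat.shiftRight (Nat.shiftRight z0 164) 164) 164) 164)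
    (Nat.shiftRight (Nat.shiftRight (Nat.shiftRight (Nat.shiftRight (Nat.shiftRight z0 164) 164) 164) 164) 164)
    z1
    (Nat.shiftRight z1 164)
    (Nat.shiftRight (Nat.shiftRight z1 164) 164)
    (Nat.shiftRight (Nat.shiftRight (Nat.shiftRight z1 164) 164) 164)
    (Nat.shiftRight (Nat.shiftRight (Nat.shiftRight (Nat.shiftRight z1 164) 164) 164) 164)
    (Nat.shiftRight (Nat.shiftRight (Nat.shiftRight (Nat.shiftRight (Nat.shiftRight z1 164) 164) 164) 164) 164)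
    z2

def sqC0 (u : Nat) : Nat :=
  sqB0
    u
    (sh6 164 u)
    (sh6 164 (sh6 164 u))

noncomputable def sq0 (v : Nat) : Nat := sqC0 (Nat.add v (offs 164 (Nat.shiftLeft 1 (Nat.sub 164 1)) ch0))

theorem sq_eq0 : sq0 = sqF 164 ch0 := Eq.refl sq0

theorem side_ok0 : sideOK 10 164 mask cf10 ch0 = true := by decide +kernel

theorem cover : beqP (repL 10 3) (ch0 ++ []) = true := by decide +kernel

theorem len_ok : (secL 10 3 0 []).length = 210 := by decide +kernel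

theorem wt_ok : (List.map Prod.snd (ch0 ++ [])).sum = 420 := by decide +kernel

end Vale.Agent.P348.A10_3

namespace Vale.Agent.P348.A10_4

def mask : Nat := nat_lit 325978847608502864538623111447997967502398154528955144482001695811541868564945950874283409884126219595398434678707599047228439954098472737190168750183935521403783333204910524293715758411473095731288273699013237210619040725014464410038653828033627873878488860739160644881361924235123529919384206743942560377819449840130660866184137983815861112848894271379671934950258628588228199308481205157355654910684622430164005148717434250393425992479862256375975945852840605017854524500433936520196249644363747239025978948308950889784468154294199158200310588798152776453661573634834530783723561055692735389729474630828636885881778236721193559947421148891633224889662445682985436662139158004931042944775241110479221111782274076329647391475890209024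

def KK : Type :=
    Nat → Nat → Nat → Nat → Nat → Nat → Nat → Nat → Nat → Nat → Nat → Nat → Nat → Nat → Nat → Nat →
    Nat → Nat → Nat → Nat → Nat → Nat → Nat → Nat → Nat → Nat → Nat → Nat → Nat → Nat → Nat → Nat →
    Nat → Nat → Nat → Nat → Nat → Nat → Nat → Nat → Nat → Nat → Nat → Nat → Nat → Nat → Nat → Nat →
    Nat → Nat → Nat → Nat → Nat → Nat → Nat → Nat → Nat → Nat → Nat → Nat → Nat → Nat → Nat → Nat →
    Nat → Nat → Nat → Nat → Nat → Nat → Nat → Nat → Nat → Nat → Nat → Nat → Nat → Nat → Nat → Nat →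
    Nat → Nat → Nat → Nat → Nat → Nat → Nat → Nat → Nat → Nat → Nat → Nat → Nat → Nat → Nat → Nat →
    Nat → Nat → Nat → Nat → Nat → Nat → Nat → Nat → Nat → Nat → Nat → Nat → Nat → Nat → Nat → Nat →
    Nat → Nat → Nat → Nat → Nat → Nat → Nat → Nat → Nat → Nat → Nat → Nat → Nat → Nat → Nat → Nat →
    Nat → Nat → Nat → Nat → Nat → Nat → Nat → Nat → Nat → Nat → Nat → Nat → Nat → Nat → Nat → Nat →
    Nat → Nat → Nat → Nat → Nat → Nat → Nat → Nat → Nat → Nat → Nat → Nat → Nat → Nat → Nat → Nat →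
    Nat → Nat → Nat → Nat → Nat → Nat → Nat → Nat → Nat → Nat → Nat → Nat → Nat → Nat → Nat → Nat →
    Nat → Nat → Nat → Nat → Nat → Nat → Nat → Nat → Nat → Nat → Nat → Nat → Nat → Nat → Nat → Nat →
    Nat → Nat → Nat → Nat → Nat → Nat → Nat → Nat → Nat → Nat → Nat → Nat → Nat → Nat → Nat → Nat →
    Nat → Nat → Nat → Nat → Nat → Nat → Nat → Nat → Nat → Nat → Nat → Nat → Nat → Nat → Nat → Nat →
    Nat → Nat → Nat → Nat → Nat → Nat → Nat → Nat → Nat → Nat → Nat → Nat → Nat → Nat → Nat → Nat →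
    Nat → Nat → Nat → Nat → Nat → Nat → Nat → Nat → Nat → Nat → Nat → Nat → Nat → Nat → Nat → Nat →
    Nat → Nat → Nat → Nat → Nat → Nat → Nat → Nat → Nat → Nat → Nat → Nat → Nat → Nat → Nat → Nat →
    Nat → Nat → Nat → Nat → Nat → Nat → Nat → Nat → Nat → Nat → Nat → Nat → Nat → Nat → Nat → Nat →
    Nat → Nat → Nat → Nat → Nat → Nat → Nat → Nat → Nat → Nat → Nat → Nat → Nat → Nat → Nat → Nat →
    Nat → Nat → Nat → Nat → Nat → Nat → Nat → Nat → Nat → Nat → Nat → Nat → Nat → Nat → Nat → Nat →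
    Nat → Nat → Nat → Nat → Nat → Nat → Nat → Nat → Nat → Nat → Nat → Nat → Nat → Nat → Nat → Nat →
    Nat → Nat → Nat → Nat → Nat → Nat → Nat → Nat → Nat → Nat → Nat → Nat → Nat → Nat → Nat → Nat →
    Nat → Nat → Nat → Nat → Nat → Nat → Nat → Nat → Nat → Nat → Nat → Nat → Nat → Nat → Nat → Nat →
    Nat → Nat → Nat → Nat → Nat → Nat → Nat → Nat → Nat → Nat → Nat → Nat → Nat → Nat → Nat → Nat →
    Nat → Nat → Nat → Nat → Nat → Nat → Nat → Nat → Nat → Nat → Nat → Nat → Nat → Nat → Nat → Nat →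
    Nat → Nat → Nat → Nat → Nat → Nat → Nat → Nat → Nat → Nat → Nat → Nat → Nat → Nat → Nat → Nat →
    Nat → Nat → Nat → Nat → Nat → Nat → Nat → Nat → Nat → Nat → Nat → Nat → Nat → Nat → Nat → Nat →
    Nat → Nat → Nat → Nat → Nat → Nat → Nat → Nat → Nat → Nat → Nat → Nat → Nat → Nat → Nat → Nat →
    Nat → Nat → Nat → Nat → Nat → Nat → Nat → Nat → Nat → Nat → Nat → Nat → Nat → Nat → Nat → Nat →
    Nat → Nat → Nat → Nat → Nat → Nat → Nat → Nat → Nat → Nat → Nat → Nat → Nat → Nat → Nat → Nat →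
    Nat → Nat → Nat → Nat → Nat → Nat → Nat → Nat → Nat → Nat → Nat → Nat → Nat → Nat → Nat → Nat →
    Nat → Nat → Nat → Nat → Nat → Nat → Nat → Nat → Nat → Nat → Nat → Nat → Nat → Nat → Nat → Nat →
    Nat → Nat → Nat → Nat → Nat → Nat → Nat → Nat → Nat → Nat → Nat → Nat → Nat → Nat → Nat → Nat →
    Nat → Nat → Nat → Nat → Nat → Nat → Nat → Nat → Nat → Nat → Nat → Nat → Nat → Nat → Nat → Nat →
    Nat → Nat → Nat → Nat → Nat → Nat → Nat → Nat → Nat → Nat → Nat → Nat → Nat → Nat → Nat → Nat →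
    Nat → Nat → Nat → Nat → Nat → Nat → Nat → Nat → Nat → Nat → Nat → Nat → Nat → Nat → Nat → Nat →
    Nat → Nat → Nat → Nat → Nat → Nat → Nat → Nat → Nat → Nat → Nat → Nat → Nat → Nat → Nat → Nat →
    Nat → Nat → Nat → Nat → Nat → Nat → Nat → Nat → Nat → Nat → Nat → Nat → Nat → Nat → Nat → Nat →
    Nat → Nat → Nat → Nat → Nat → Nat → Nat → Bool

noncomputable def cd0 : List Spec :=
  [Spec.mk (nat_lit 8) (nat_lit 0) [] (nat_lit 0) [] false,
   Spec.mk (nat_lit 14) (nat_lit 0) [] (nat_lit 0) [] false,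
   Spec.mk (nat_lit 16) (nat_lit 0) [] (nat_lit 0) [] false,
   Spec.mk (nat_lit 20) (nat_lit 0) [] (nat_lit 0) [] false,
   Spec.mk (nat_lit 22) (nat_lit 0) [] (nat_lit 0) [] false,
   Spec.mk (nat_lit 24) (nat_lit 0) [] (nat_lit 0) [] false,
   Spec.mk (nat_lit 32) (nat_lit 0) [] (nat_lit 0) [] false,
   Spec.mk (nat_lit 34) (nat_lit 0) [] (nat_lit 0) [] false,
   Spec.mk (nat_lit 38) (nat_lit 0) [] (nat_lit 0) [] false,
   Spec.mk (nat_lit 40) (nat_lit 0) [] (nat_lit 0) [] false,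
   Spec.mk (nat_lit 42) (nat_lit 0) [] (nat_lit 0) [] false,
   Spec.mk (nat_lit 46) (nat_lit 0) [] (nat_lit 0) [] false,
   Spec.mk (nat_lit 48) (nat_lit 0) [] (nat_lit 0) [] false,
   Spec.mk (nat_lit 56) (nat_lit 0) [] (nat_lit 0) [] false,
   Spec.mk (nat_lit 58) (nat_lit 0) [] (nat_lit 0) [] false,
   Spec.mk (nat_lit 60) (nat_lit 0) [] (nat_lit 0) [] false,
   Spec.mk (nat_lit 64) (nat_lit 0) [] (nat_lit 0) [] false,
   Spec.mk (nat_lit 66) (nat_lit 0) [] (nat_lit 0) [] false,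
   Spec.mk (nat_lit 72) (nat_lit 0) [] (nat_lit 0) [] false,
   Spec.mk (nat_lit 86) (nat_lit 0) [] (nat_lit 0) [] false,
   Spec.mk (nat_lit 88) (nat_lit 0) [] (nat_lit 0) [] false,
   Spec.mk (nat_lit 92) (nat_lit 0) [] (nat_lit 0) [] false,
   Spec.mk (nat_lit 94) (nat_lit 0) [] (nat_lit 0) [] false,
   Spec.mk (nat_lit 96) (nat_lit 0) [] (nat_lit 0) [] false,
   Spec.mk (nat_lit 100) (nat_lit 0) [] (nat_lit 0) [] false,
   Spec.mk (nat_lit 102) (nat_lit 0) [] (nat_lit 0) [] false,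
   Spec.mk (nat_lit 110) (nat_lit 0) [] (nat_lit 0) [] false,
   Spec.mk (nat_lit 112) (nat_lit 0) [] (nat_lit 0) [] false,
   Spec.mk (nat_lit 114) (nat_lit 0) [] (nat_lit 0) [] false,
   Spec.mk (nat_lit 118) (nat_lit 0) [] (nat_lit 0) [] false,
   Spec.mk (nat_lit 120) (nat_lit 0) [] (nat_lit 0) [] false,
   Spec.mk (nat_lit 126) (nat_lit 0) [] (nat_lit 0) [] false,
   Spec.mk (nat_lit 136) (nat_lit 0) [] (nat_lit 0) [] false,
   Spec.mk (nat_lit 138) (nat_lit 0) [] (nat_lit 0) [] false,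
   Spec.mk (nat_lit 144) (nat_lit 0) [] (nat_lit 0) [] false,
   Spec.mk (nat_lit 164) (nat_lit 0) [] (nat_lit 0) [] false,
   Spec.mk (nat_lit 166) (nat_lit 0) [] (nat_lit 0) [] false,
   Spec.mk (nat_lit 168) (nat_lit 0) [] (nat_lit 0) [] false,
   Spec.mk (nat_lit 172) (nat_lit 0) [] (nat_lit 0) [] false,
   Spec.mk (nat_lit 174) (nat_lit 0) [] (nat_lit 0) [] false,
   Spec.mk (nat_lit 180) (nat_lit 0) [] (nat_lit 0) [] false,
   Spec.mk (nat_lit 190) (nat_lit 0) [] (nat_lit 0) [] false,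
   Spec.mk (nat_lit 192) (nat_lit 0) [] (nat_lit 0) [] false,
   Spec.mk (nat_lit 198) (nat_lit 0) [] (nat_lit 0) [] false,
   Spec.mk (nat_lit 216) (nat_lit 0) [] (nat_lit 0) [] false,
   Spec.mk (nat_lit 248) (nat_lit 0) [] (nat_lit 0) [] false,
   Spec.mk (nat_lit 250) (nat_lit 0) [] (nat_lit 0) [] false,
   Spec.mk (nat_lit 254) (nat_lit 0) [] (nat_lit 0) [] false,
   Spec.mk (nat_lit 256) (nat_lit 0) [] (nat_lit 0) [] false,
   Spec.mk (nat_lit 258) (nat_lit 0) [] (nat_lit 0) [] false,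
   Spec.mk (nat_lit 262) (nat_lit 0) [] (nat_lit 0) [] false,
   Spec.mk (nat_lit 264) (nat_lit 0) [] (nat_lit 0) [] false,
   Spec.mk (nat_lit 272) (nat_lit 0) [] (nat_lit 0) [] false,
   Spec.mk (nat_lit 274) (nat_lit 0) [] (nat_lit 0) [] false,
   Spec.mk (nat_lit 276) (nat_lit 0) [] (nat_lit 0) [] false,
   Spec.mk (nat_lit 280) (nat_lit 0) [] (nat_lit 0) [] false,
   Spec.mk (nat_lit 282) (nat_lit 0) [] (nat_lit 0) [] false,
   Spec.mk (nat_lit 288) (nat_lit 0) [] (nat_lit 0) [] false,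
   Spec.mk (nat_lit 298) (nat_lit 0) [] (nat_lit 0) [] false,
   Spec.mk (nat_lit 300) (nat_lit 0) [] (nat_lit 0) [] false]

noncomputable def cd1 : List Spec :=
  [Spec.mk (nat_lit 306) (nat_lit 0) [] (nat_lit 0) [] false,
   Spec.mk (nat_lit 326) (nat_lit 0) [] (nat_lit 0) [] false,
   Spec.mk (nat_lit 328) (nat_lit 0) [] (nat_lit 0) [] false,
   Spec.mk (nat_lit 330) (nat_lit 0) [] (nat_lit 0) [] false,
   Spec.mk (nat_lit 334) (nat_lit 0) [] (nat_lit 0) [] false,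
   Spec.mk (nat_lit 336) (nat_lit 0) [] (nat_lit 0) [] false,
   Spec.mk (nat_lit 342) (nat_lit 0) [] (nat_lit 0) [] false,
   Spec.mk (nat_lit 352) (nat_lit 0) [] (nat_lit 0) [] false,
   Spec.mk (nat_lit 354) (nat_lit 0) [] (nat_lit 0) [] false,
   Spec.mk (nat_lit 360) (nat_lit 0) [] (nat_lit 0) [] false,
   Spec.mk (nat_lit 378) (nat_lit 0) [] (nat_lit 0) [] false,
   Spec.mk (nat_lit 406) (nat_lit 0) [] (nat_lit 0) [] false,
   Spec.mk (nat_lit 408) (nat_lit 0) [] (nat_lit 0) [] false,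
   Spec.mk (nat_lit 414) (nat_lit 0) [] (nat_lit 0) [] false,
   Spec.mk (nat_lit 432) (nat_lit 0) [] (nat_lit 0) [] false,
   Spec.mk (nat_lit 488) (nat_lit 0) [] (nat_lit 0) [] false,
   Spec.mk (nat_lit 490) (nat_lit 0) [] (nat_lit 0) [] false,
   Spec.mk (nat_lit 492) (nat_lit 0) [] (nat_lit 0) [] false,
   Spec.mk (nat_lit 496) (nat_lit 0) [] (nat_lit 0) [] false,
   Spec.mk (nat_lit 498) (nat_lit 0) [] (nat_lit 0) [] false,
   Spec.mk (nat_lit 504) (nat_lit 0) [] (nat_lit 0) [] false,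
   Spec.mk (nat_lit 514) (nat_lit 0) [] (nat_lit 0) [] false,
   Spec.mk (nat_lit 516) (nat_lit 0) [] (nat_lit 0) [] false,
   Spec.mk (nat_lit 522) (nat_lit 0) [] (nat_lit 0) [] false,
   Spec.mk (nat_lit 540) (nat_lit 0) [] (nat_lit 0) [] false,
   Spec.mk (nat_lit 568) (nat_lit 0) [] (nat_lit 0) [] false,
   Spec.mk (nat_lit 570) (nat_lit 0) [] (nat_lit 0) [] false,
   Spec.mk (nat_lit 576) (nat_lit 0) [] (nat_lit 0) [] false,
   Spec.mk (nat_lit 594) (nat_lit 0) [] (nat_lit 0) [] false,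
   Spec.mk (nat_lit 648) (nat_lit 0) [] (nat_lit 0) [] false,
   Spec.mk (nat_lit 734) (nat_lit 0) [] (nat_lit 0) [] false,
   Spec.mk (nat_lit 736) (nat_lit 0) [] (nat_lit 0) [] false,
   Spec.mk (nat_lit 740) (nat_lit 0) [] (nat_lit 0) [] false,
   Spec.mk (nat_lit 742) (nat_lit 0) [] (nat_lit 0) [] false,
   Spec.mk (nat_lit 744) (nat_lit 0) [] (nat_lit 0) [] false,
   Spec.mk (nat_lit 748) (nat_lit 0) [] (nat_lit 0) [] false,
   Spec.mk (nat_lit 750) (nat_lit 0) [] (nat_lit 0) [] false,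
   Spec.mk (nat_lit 758) (nat_lit 0) [] (nat_lit 0) [] false,
   Spec.mk (nat_lit 760) (nat_lit 0) [] (nat_lit 0) [] false,
   Spec.mk (nat_lit 762) (nat_lit 0) [] (nat_lit 0) [] false,
   Spec.mk (nat_lit 766) (nat_lit 0) [] (nat_lit 0) [] false,
   Spec.mk (nat_lit 768) (nat_lit 0) [] (nat_lit 0) [] false,
   Spec.mk (nat_lit 774) (nat_lit 0) [] (nat_lit 0) [] false,
   Spec.mk (nat_lit 784) (nat_lit 0) [] (nat_lit 0) [] false,
   Spec.mk (nat_lit 786) (nat_lit 0) [] (nat_lit 0) [] false,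
   Spec.mk (nat_lit 792) (nat_lit 0) [] (nat_lit 0) [] false,
   Spec.mk (nat_lit 812) (nat_lit 0) [] (nat_lit 0) [] false,
   Spec.mk (nat_lit 814) (nat_lit 0) [] (nat_lit 0) [] false,
   Spec.mk (nat_lit 816) (nat_lit 0) [] (nat_lit 0) [] false,
   Spec.mk (nat_lit 820) (nat_lit 0) [] (nat_lit 0) [] false,
   Spec.mk (nat_lit 822) (nat_lit 0) [] (nat_lit 0) [] false,
   Spec.mk (nat_lit 828) (nat_lit 0) [] (nat_lit 0) [] false,
   Spec.mk (nat_lit 838) (nat_lit 0) [] (nat_lit 0) [] false,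
   Spec.mk (nat_lit 840) (nat_lit 0) [] (nat_lit 0) [] false,
   Spec.mk (nat_lit 846) (nat_lit 0) [] (nat_lit 0) [] false,
   Spec.mk (nat_lit 864) (nat_lit 0) [] (nat_lit 0) [] false,
   Spec.mk (nat_lit 892) (nat_lit 0) [] (nat_lit 0) [] false,
   Spec.mk (nat_lit 894) (nat_lit 0) [] (nat_lit 0) [] false,
   Spec.mk (nat_lit 900) (nat_lit 0) [] (nat_lit 0) [] false,
   Spec.mk (nat_lit 918) (nat_lit 0) [] (nat_lit 0) [] false]

noncomputable def cd2 : List Spec :=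
  [Spec.mk (nat_lit 974) (nat_lit 0) [] (nat_lit 0) [] false,
   Spec.mk (nat_lit 976) (nat_lit 0) [] (nat_lit 0) [] false,
   Spec.mk (nat_lit 978) (nat_lit 0) [] (nat_lit 0) [] false,
   Spec.mk (nat_lit 982) (nat_lit 0) [] (nat_lit 0) [] false,
   Spec.mk (nat_lit 984) (nat_lit 0) [] (nat_lit 0) [] false,
   Spec.mk (nat_lit 990) (nat_lit 0) [] (nat_lit 0) [] false,
   Spec.mk (nat_lit 1000) (nat_lit 0) [] (nat_lit 0) [] false,
   Spec.mk (nat_lit 1002) (nat_lit 0) [] (nat_lit 0) [] false,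
   Spec.mk (nat_lit 1008) (nat_lit 0) [] (nat_lit 0) [] false,
   Spec.mk (nat_lit 1026) (nat_lit 0) [] (nat_lit 0) [] false,
   Spec.mk (nat_lit 1054) (nat_lit 0) [] (nat_lit 0) [] false,
   Spec.mk (nat_lit 1056) (nat_lit 0) [] (nat_lit 0) [] false,
   Spec.mk (nat_lit 1062) (nat_lit 0) [] (nat_lit 0) [] false,
   Spec.mk (nat_lit 1080) (nat_lit 0) [] (nat_lit 0) [] false,
   Spec.mk (nat_lit 1134) (nat_lit 0) [] (nat_lit 0) [] false,
   Spec.mk (nat_lit 1216) (nat_lit 0) [] (nat_lit 0) [] false,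
   Spec.mk (nat_lit 1218) (nat_lit 0) [] (nat_lit 0) [] false,
   Spec.mk (nat_lit 1224) (nat_lit 0) [] (nat_lit 0) [] false,
   Spec.mk (nat_lit 1242) (nat_lit 0) [] (nat_lit 0) [] false,
   Spec.mk (nat_lit 1296) (nat_lit 0) [] (nat_lit 0) [] false,
   Spec.mk (nat_lit 1460) (nat_lit 0) [] (nat_lit 0) [] false,
   Spec.mk (nat_lit 1462) (nat_lit 0) [] (nat_lit 0) [] false,
   Spec.mk (nat_lit 1464) (nat_lit 0) [] (nat_lit 0) [] false,
   Spec.mk (nat_lit 1468) (nat_lit 0) [] (nat_lit 0) [] false,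
   Spec.mk (nat_lit 1470) (nat_lit 0) [] (nat_lit 0) [] false,
   Spec.mk (nat_lit 1476) (nat_lit 0) [] (nat_lit 0) [] false,
   Spec.mk (nat_lit 1486) (nat_lit 0) [] (nat_lit 0) [] false,
   Spec.mk (nat_lit 1488) (nat_lit 0) [] (nat_lit 0) [] false,
   Spec.mk (nat_lit 1494) (nat_lit 0) [] (nat_lit 0) [] false,
   Spec.mk (nat_lit 1512) (nat_lit 0) [] (nat_lit 0) [] false,
   Spec.mk (nat_lit 1540) (nat_lit 0) [] (nat_lit 0) [] false,
   Spec.mk (nat_lit 1542) (nat_lit 0) [] (nat_lit 0) [] false,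
   Spec.mk (nat_lit 1548) (nat_lit 0) [] (nat_lit 0) [] false,
   Spec.mk (nat_lit 1566) (nat_lit 0) [] (nat_lit 0) [] false,
   Spec.mk (nat_lit 1620) (nat_lit 0) [] (nat_lit 0) [] false,
   Spec.mk (nat_lit 1702) (nat_lit 0) [] (nat_lit 0) [] false,
   Spec.mk (nat_lit 1704) (nat_lit 0) [] (nat_lit 0) [] false,
   Spec.mk (nat_lit 1710) (nat_lit 0) [] (nat_lit 0) [] false,
   Spec.mk (nat_lit 1728) (nat_lit 0) [] (nat_lit 0) [] false,
   Spec.mk (nat_lit 1782) (nat_lit 0) [] (nat_lit 0) [] false,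
   Spec.mk (nat_lit 1944) (nat_lit 0) [] (nat_lit 0) [] false,
   Spec.mk (nat_lit 2192) (nat_lit 0) [] (nat_lit 0) [] false,
   Spec.mk (nat_lit 2194) (nat_lit 0) [] (nat_lit 0) [] false,
   Spec.mk (nat_lit 2198) (nat_lit 0) [] (nat_lit 0) [] false,
   Spec.mk (nat_lit 2200) (nat_lit 0) [] (nat_lit 0) [] false,
   Spec.mk (nat_lit 2202) (nat_lit 0) [] (nat_lit 0) [] false,
   Spec.mk (nat_lit 2206) (nat_lit 0) [] (nat_lit 0) [] false,
   Spec.mk (nat_lit 2208) (nat_lit 0) [] (nat_lit 0) [] false,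
   Spec.mk (nat_lit 2216) (nat_lit 0) [] (nat_lit 0) [] false,
   Spec.mk (nat_lit 2218) (nat_lit 0) [] (nat_lit 0) [] false,
   Spec.mk (nat_lit 2220) (nat_lit 0) [] (nat_lit 0) [] false,
   Spec.mk (nat_lit 2224) (nat_lit 0) [] (nat_lit 0) [] false,
   Spec.mk (nat_lit 2226) (nat_lit 0) [] (nat_lit 0) [] false,
   Spec.mk (nat_lit 2232) (nat_lit 0) [] (nat_lit 0) [] false,
   Spec.mk (nat_lit 2242) (nat_lit 0) [] (nat_lit 0) [] false,
   Spec.mk (nat_lit 2244) (nat_lit 0) [] (nat_lit 0) [] false,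
   Spec.mk (nat_lit 2250) (nat_lit 0) [] (nat_lit 0) [] false,
   Spec.mk (nat_lit 2270) (nat_lit 0) [] (nat_lit 0) [] false,
   Spec.mk (nat_lit 2272) (nat_lit 0) [] (nat_lit 0) [] false,
   Spec.mk (nat_lit 2274) (nat_lit 0) [] (nat_lit 0) [] false]

noncomputable def cd3 : List Spec :=
  [Spec.mk (nat_lit 2278) (nat_lit 0) [] (nat_lit 0) [] false,
   Spec.mk (nat_lit 2280) (nat_lit 0) [] (nat_lit 0) [] false,
   Spec.mk (nat_lit 2286) (nat_lit 0) [] (nat_lit 0) [] false,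
   Spec.mk (nat_lit 2296) (nat_lit 0) [] (nat_lit 0) [] false,
   Spec.mk (nat_lit 2298) (nat_lit 0) [] (nat_lit 0) [] false,
   Spec.mk (nat_lit 2304) (nat_lit 0) [] (nat_lit 0) [] false,
   Spec.mk (nat_lit 2322) (nat_lit 0) [] (nat_lit 0) [] false,
   Spec.mk (nat_lit 2350) (nat_lit 0) [] (nat_lit 0) [] false,
   Spec.mk (nat_lit 2352) (nat_lit 0) [] (nat_lit 0) [] false,
   Spec.mk (nat_lit 2358) (nat_lit 0) [] (nat_lit 0) [] false,
   Spec.mk (nat_lit 2376) (nat_lit 0) [] (nat_lit 0) [] false,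
   Spec.mk (nat_lit 2432) (nat_lit 0) [] (nat_lit 0) [] false,
   Spec.mk (nat_lit 2434) (nat_lit 0) [] (nat_lit 0) [] false,
   Spec.mk (nat_lit 2436) (nat_lit 0) [] (nat_lit 0) [] false,
   Spec.mk (nat_lit 2440) (nat_lit 0) [] (nat_lit 0) [] false,
   Spec.mk (nat_lit 2442) (nat_lit 0) [] (nat_lit 0) [] false,
   Spec.mk (nat_lit 2448) (nat_lit 0) [] (nat_lit 0) [] false,
   Spec.mk (nat_lit 2458) (nat_lit 0) [] (nat_lit 0) [] false,
   Spec.mk (nat_lit 2460) (nat_lit 0) [] (nat_lit 0) [] false,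
   Spec.mk (nat_lit 2466) (nat_lit 0) [] (nat_lit 0) [] false,
   Spec.mk (nat_lit 2484) (nat_lit 0) [] (nat_lit 0) [] false,
   Spec.mk (nat_lit 2512) (nat_lit 0) [] (nat_lit 0) [] false,
   Spec.mk (nat_lit 2514) (nat_lit 0) [] (nat_lit 0) [] false,
   Spec.mk (nat_lit 2520) (nat_lit 0) [] (nat_lit 0) [] false,
   Spec.mk (nat_lit 2538) (nat_lit 0) [] (nat_lit 0) [] false,
   Spec.mk (nat_lit 2592) (nat_lit 0) [] (nat_lit 0) [] false,
   Spec.mk (nat_lit 2674) (nat_lit 0) [] (nat_lit 0) [] false,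
   Spec.mk (nat_lit 2676) (nat_lit 0) [] (nat_lit 0) [] false,
   Spec.mk (nat_lit 2682) (nat_lit 0) [] (nat_lit 0) [] false,
   Spec.mk (nat_lit 2700) (nat_lit 0) [] (nat_lit 0) [] false,
   Spec.mk (nat_lit 2754) (nat_lit 0) [] (nat_lit 0) [] false,
   Spec.mk (nat_lit 2918) (nat_lit 0) [] (nat_lit 0) [] false,
   Spec.mk (nat_lit 2920) (nat_lit 0) [] (nat_lit 0) [] false,
   Spec.mk (nat_lit 2922) (nat_lit 0) [] (nat_lit 0) [] false,
   Spec.mk (nat_lit 2926) (nat_lit 0) [] (nat_lit 0) [] false,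
   Spec.mk (nat_lit 2928) (nat_lit 0) [] (nat_lit 0) [] false,
   Spec.mk (nat_lit 2934) (nat_lit 0) [] (nat_lit 0) [] false,
   Spec.mk (nat_lit 2944) (nat_lit 0) [] (nat_lit 0) [] false,
   Spec.mk (nat_lit 2946) (nat_lit 0) [] (nat_lit 0) [] false,
   Spec.mk (nat_lit 2952) (nat_lit 0) [] (nat_lit 0) [] false,
   Spec.mk (nat_lit 2970) (nat_lit 0) [] (nat_lit 0) [] false,
   Spec.mk (nat_lit 2998) (nat_lit 0) [] (nat_lit 0) [] false,
   Spec.mk (nat_lit 3000) (nat_lit 0) [] (nat_lit 0) [] false,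
   Spec.mk (nat_lit 3006) (nat_lit 0) [] (nat_lit 0) [] false,
   Spec.mk (nat_lit 3024) (nat_lit 0) [] (nat_lit 0) [] false,
   Spec.mk (nat_lit 3078) (nat_lit 0) [] (nat_lit 0) [] false,
   Spec.mk (nat_lit 3160) (nat_lit 0) [] (nat_lit 0) [] false,
   Spec.mk (nat_lit 3162) (nat_lit 0) [] (nat_lit 0) [] false,
   Spec.mk (nat_lit 3168) (nat_lit 0) [] (nat_lit 0) [] false,
   Spec.mk (nat_lit 3186) (nat_lit 0) [] (nat_lit 0) [] false,
   Spec.mk (nat_lit 3240) (nat_lit 0) [] (nat_lit 0) [] false,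
   Spec.mk (nat_lit 3402) (nat_lit 0) [] (nat_lit 0) [] false,
   Spec.mk (nat_lit 3646) (nat_lit 0) [] (nat_lit 0) [] false,
   Spec.mk (nat_lit 3648) (nat_lit 0) [] (nat_lit 0) [] false,
   Spec.mk (nat_lit 3654) (nat_lit 0) [] (nat_lit 0) [] false,
   Spec.mk (nat_lit 3672) (nat_lit 0) [] (nat_lit 0) [] false,
   Spec.mk (nat_lit 3726) (nat_lit 0) [] (nat_lit 0) [] false,
   Spec.mk (nat_lit 3888) (nat_lit 0) [] (nat_lit 0) [] false,
   Spec.mk (nat_lit 4376) (nat_lit 0) [] (nat_lit 0) [] false,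
   Spec.mk (nat_lit 4378) (nat_lit 0) [] (nat_lit 0) [] false]

noncomputable def cd4 : List Spec :=
  [Spec.mk (nat_lit 4380) (nat_lit 0) [] (nat_lit 0) [] false,
   Spec.mk (nat_lit 4384) (nat_lit 0) [] (nat_lit 0) [] false,
   Spec.mk (nat_lit 4386) (nat_lit 0) [] (nat_lit 0) [] false,
   Spec.mk (nat_lit 4392) (nat_lit 0) [] (nat_lit 0) [] false,
   Spec.mk (nat_lit 4402) (nat_lit 0) [] (nat_lit 0) [] false,
   Spec.mk (nat_lit 4404) (nat_lit 0) [] (nat_lit 0) [] false,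
   Spec.mk (nat_lit 4410) (nat_lit 0) [] (nat_lit 0) [] false,
   Spec.mk (nat_lit 4428) (nat_lit 0) [] (nat_lit 0) [] false,
   Spec.mk (nat_lit 4456) (nat_lit 0) [] (nat_lit 0) [] false,
   Spec.mk (nat_lit 4458) (nat_lit 0) [] (nat_lit 0) [] false,
   Spec.mk (nat_lit 4464) (nat_lit 0) [] (nat_lit 0) [] false,
   Spec.mk (nat_lit 4482) (nat_lit 0) [] (nat_lit 0) [] false,
   Spec.mk (nat_lit 4536) (nat_lit 0) [] (nat_lit 0) [] false,
   Spec.mk (nat_lit 4618) (nat_lit 0) [] (nat_lit 0) [] false,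
   Spec.mk (nat_lit 4620) (nat_lit 0) [] (nat_lit 0) [] false,
   Spec.mk (nat_lit 4626) (nat_lit 0) [] (nat_lit 0) [] false,
   Spec.mk (nat_lit 4644) (nat_lit 0) [] (nat_lit 0) [] false,
   Spec.mk (nat_lit 4698) (nat_lit 0) [] (nat_lit 0) [] false,
   Spec.mk (nat_lit 4860) (nat_lit 0) [] (nat_lit 0) [] false,
   Spec.mk (nat_lit 5104) (nat_lit 0) [] (nat_lit 0) [] false,
   Spec.mk (nat_lit 5106) (nat_lit 0) [] (nat_lit 0) [] false,
   Spec.mk (nat_lit 5112) (nat_lit 0) [] (nat_lit 0) [] false,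
   Spec.mk (nat_lit 5130) (nat_lit 0) [] (nat_lit 0) [] false,
   Spec.mk (nat_lit 5184) (nat_lit 0) [] (nat_lit 0) [] false,
   Spec.mk (nat_lit 5346) (nat_lit 0) [] (nat_lit 0) [] false,
   Spec.mk (nat_lit 5832) (nat_lit 0) [] (nat_lit 0) [] false,
   Spec.mk (nat_lit 6566) (nat_lit 0) [] (nat_lit 0) [] false,
   Spec.mk (nat_lit 6568) (nat_lit 0) [] (nat_lit 0) [] false,
   Spec.mk (nat_lit 6572) (nat_lit 0) [] (nat_lit 0) [] false,
   Spec.mk (nat_lit 6574) (nat_lit 0) [] (nat_lit 0) [] false,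
   Spec.mk (nat_lit 6576) (nat_lit 0) [] (nat_lit 0) [] false,
   Spec.mk (nat_lit 6580) (nat_lit 0) [] (nat_lit 0) [] false,
   Spec.mk (nat_lit 6582) (nat_lit 0) [] (nat_lit 0) [] false,
   Spec.mk (nat_lit 6590) (nat_lit 0) [] (nat_lit 0) [] false,
   Spec.mk (nat_lit 6592) (nat_lit 0) [] (nat_lit 0) [] false,
   Spec.mk (nat_lit 6594) (nat_lit 0) [] (nat_lit 0) [] false,
   Spec.mk (nat_lit 6598) (nat_lit 0) [] (nat_lit 0) [] false,
   Spec.mk (nat_lit 6600) (nat_lit 0) [] (nat_lit 0) [] false,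
   Spec.mk (nat_lit 6606) (nat_lit 0) [] (nat_lit 0) [] false,
   Spec.mk (nat_lit 6616) (nat_lit 0) [] (nat_lit 0) [] false,
   Spec.mk (nat_lit 6618) (nat_lit 0) [] (nat_lit 0) [] false,
   Spec.mk (nat_lit 6624) (nat_lit 0) [] (nat_lit 0) [] false,
   Spec.mk (nat_lit 6644) (nat_lit 0) [] (nat_lit 0) [] false,
   Spec.mk (nat_lit 6646) (nat_lit 0) [] (nat_lit 0) [] false,
   Spec.mk (nat_lit 6648) (nat_lit 0) [] (nat_lit 0) [] false,
   Spec.mk (nat_lit 6652) (nat_lit 0) [] (nat_lit 0) [] false,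
   Spec.mk (nat_lit 6654) (nat_lit 0) [] (nat_lit 0) [] false,
   Spec.mk (nat_lit 6660) (nat_lit 0) [] (nat_lit 0) [] false,
   Spec.mk (nat_lit 6670) (nat_lit 0) [] (nat_lit 0) [] false,
   Spec.mk (nat_lit 6672) (nat_lit 0) [] (nat_lit 0) [] false,
   Spec.mk (nat_lit 6678) (nat_lit 0) [] (nat_lit 0) [] false,
   Spec.mk (nat_lit 6696) (nat_lit 0) [] (nat_lit 0) [] false,
   Spec.mk (nat_lit 6724) (nat_lit 0) [] (nat_lit 0) [] false,
   Spec.mk (nat_lit 6726) (nat_lit 0) [] (nat_lit 0) [] false,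
   Spec.mk (nat_lit 6732) (nat_lit 0) [] (nat_lit 0) [] false,
   Spec.mk (nat_lit 6750) (nat_lit 0) [] (nat_lit 0) [] false,
   Spec.mk (nat_lit 6806) (nat_lit 0) [] (nat_lit 0) [] false,
   Spec.mk (nat_lit 6808) (nat_lit 0) [] (nat_lit 0) [] false,
   Spec.mk (nat_lit 6810) (nat_lit 0) [] (nat_lit 0) [] false,
   Spec.mk (nat_lit 6814) (nat_lit 0) [] (nat_lit 0) [] false]

noncomputable def cd5 : List Spec :=
  [Spec.mk (nat_lit 6816) (nat_lit 0) [] (nat_lit 0) [] false,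
   Spec.mk (nat_lit 6822) (nat_lit 0) [] (nat_lit 0) [] false,
   Spec.mk (nat_lit 6832) (nat_lit 0) [] (nat_lit 0) [] false,
   Spec.mk (nat_lit 6834) (nat_lit 0) [] (nat_lit 0) [] false,
   Spec.mk (nat_lit 6840) (nat_lit 0) [] (nat_lit 0) [] false,
   Spec.mk (nat_lit 6858) (nat_lit 0) [] (nat_lit 0) [] false,
   Spec.mk (nat_lit 6886) (nat_lit 0) [] (nat_lit 0) [] false,
   Spec.mk (nat_lit 6888) (nat_lit 0) [] (nat_lit 0) [] false,
   Spec.mk (nat_lit 6894) (nat_lit 0) [] (nat_lit 0) [] false,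
   Spec.mk (nat_lit 6912) (nat_lit 0) [] (nat_lit 0) [] false,
   Spec.mk (nat_lit 6966) (nat_lit 0) [] (nat_lit 0) [] false,
   Spec.mk (nat_lit 7048) (nat_lit 0) [] (nat_lit 0) [] false,
   Spec.mk (nat_lit 7050) (nat_lit 0) [] (nat_lit 0) [] false,
   Spec.mk (nat_lit 7056) (nat_lit 0) [] (nat_lit 0) [] false,
   Spec.mk (nat_lit 7074) (nat_lit 0) [] (nat_lit 0) [] false,
   Spec.mk (nat_lit 7128) (nat_lit 0) [] (nat_lit 0) [] false,
   Spec.mk (nat_lit 7292) (nat_lit 0) [] (nat_lit 0) [] false,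
   Spec.mk (nat_lit 7294) (nat_lit 0) [] (nat_lit 0) [] false,
   Spec.mk (nat_lit 7296) (nat_lit 0) [] (nat_lit 0) [] false,
   Spec.mk (nat_lit 7300) (nat_lit 0) [] (nat_lit 0) [] false,
   Spec.mk (nat_lit 7302) (nat_lit 0) [] (nat_lit 0) [] false,
   Spec.mk (nat_lit 7308) (nat_lit 0) [] (nat_lit 0) [] false,
   Spec.mk (nat_lit 7318) (nat_lit 0) [] (nat_lit 0) [] false,
   Spec.mk (nat_lit 7320) (nat_lit 0) [] (nat_lit 0) [] false,
   Spec.mk (nat_lit 7326) (nat_lit 0) [] (nat_lit 0) [] false,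
   Spec.mk (nat_lit 7344) (nat_lit 0) [] (nat_lit 0) [] false,
   Spec.mk (nat_lit 7372) (nat_lit 0) [] (nat_lit 0) [] false,
   Spec.mk (nat_lit 7374) (nat_lit 0) [] (nat_lit 0) [] false,
   Spec.mk (nat_lit 7380) (nat_lit 0) [] (nat_lit 0) [] false,
   Spec.mk (nat_lit 7398) (nat_lit 0) [] (nat_lit 0) [] false,
   Spec.mk (nat_lit 7452) (nat_lit 0) [] (nat_lit 0) [] false,
   Spec.mk (nat_lit 7534) (nat_lit 0) [] (nat_lit 0) [] false,
   Spec.mk (nat_lit 7536) (nat_lit 0) [] (nat_lit 0) [] false,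
   Spec.mk (nat_lit 7542) (nat_lit 0) [] (nat_lit 0) [] false,
   Spec.mk (nat_lit 7560) (nat_lit 0) [] (nat_lit 0) [] false,
   Spec.mk (nat_lit 7614) (nat_lit 0) [] (nat_lit 0) [] false,
   Spec.mk (nat_lit 7776) (nat_lit 0) [] (nat_lit 0) [] false,
   Spec.mk (nat_lit 8020) (nat_lit 0) [] (nat_lit 0) [] false,
   Spec.mk (nat_lit 8022) (nat_lit 0) [] (nat_lit 0) [] false,
   Spec.mk (nat_lit 8028) (nat_lit 0) [] (nat_lit 0) [] false,
   Spec.mk (nat_lit 8046) (nat_lit 0) [] (nat_lit 0) [] false,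
   Spec.mk (nat_lit 8100) (nat_lit 0) [] (nat_lit 0) [] false,
   Spec.mk (nat_lit 8262) (nat_lit 0) [] (nat_lit 0) [] false,
   Spec.mk (nat_lit 8750) (nat_lit 0) [] (nat_lit 0) [] false,
   Spec.mk (nat_lit 8752) (nat_lit 0) [] (nat_lit 0) [] false,
   Spec.mk (nat_lit 8754) (nat_lit 0) [] (nat_lit 0) [] false,
   Spec.mk (nat_lit 8758) (nat_lit 0) [] (nat_lit 0) [] false,
   Spec.mk (nat_lit 8760) (nat_lit 0) [] (nat_lit 0) [] false,
   Spec.mk (nat_lit 8766) (nat_lit 0) [] (nat_lit 0) [] false,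
   Spec.mk (nat_lit 8776) (nat_lit 0) [] (nat_lit 0) [] false,
   Spec.mk (nat_lit 8778) (nat_lit 0) [] (nat_lit 0) [] false,
   Spec.mk (nat_lit 8784) (nat_lit 0) [] (nat_lit 0) [] false,
   Spec.mk (nat_lit 8802) (nat_lit 0) [] (nat_lit 0) [] false,
   Spec.mk (nat_lit 8830) (nat_lit 0) [] (nat_lit 0) [] false,
   Spec.mk (nat_lit 8832) (nat_lit 0) [] (nat_lit 0) [] false,
   Spec.mk (nat_lit 8838) (nat_lit 0) [] (nat_lit 0) [] false,
   Spec.mk (nat_lit 8856) (nat_lit 0) [] (nat_lit 0) [] false,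
   Spec.mk (nat_lit 8910) (nat_lit 0) [] (nat_lit 0) [] false,
   Spec.mk (nat_lit 8992) (nat_lit 0) [] (nat_lit 0) [] false,
   Spec.mk (nat_lit 8994) (nat_lit 0) [] (nat_lit 0) [] false]

noncomputable def cd6 : List Spec :=
  [Spec.mk (nat_lit 9000) (nat_lit 0) [] (nat_lit 0) [] false,
   Spec.mk (nat_lit 9018) (nat_lit 0) [] (nat_lit 0) [] false,
   Spec.mk (nat_lit 9072) (nat_lit 0) [] (nat_lit 0) [] false,
   Spec.mk (nat_lit 9234) (nat_lit 0) [] (nat_lit 0) [] false,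
   Spec.mk (nat_lit 9478) (nat_lit 0) [] (nat_lit 0) [] false,
   Spec.mk (nat_lit 9480) (nat_lit 0) [] (nat_lit 0) [] false,
   Spec.mk (nat_lit 9486) (nat_lit 0) [] (nat_lit 0) [] false,
   Spec.mk (nat_lit 9504) (nat_lit 0) [] (nat_lit 0) [] false,
   Spec.mk (nat_lit 9558) (nat_lit 0) [] (nat_lit 0) [] false,
   Spec.mk (nat_lit 9720) (nat_lit 0) [] (nat_lit 0) [] false,
   Spec.mk (nat_lit 10206) (nat_lit 0) [] (nat_lit 0) [] false,
   Spec.mk (nat_lit 10936) (nat_lit 0) [] (nat_lit 0) [] false,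
   Spec.mk (nat_lit 10938) (nat_lit 0) [] (nat_lit 0) [] false,
   Spec.mk (nat_lit 10944) (nat_lit 0) [] (nat_lit 0) [] false,
   Spec.mk (nat_lit 10962) (nat_lit 0) [] (nat_lit 0) [] false,
   Spec.mk (nat_lit 11016) (nat_lit 0) [] (nat_lit 0) [] false,
   Spec.mk (nat_lit 11178) (nat_lit 0) [] (nat_lit 0) [] false,
   Spec.mk (nat_lit 11664) (nat_lit 0) [] (nat_lit 0) [] false,
   Spec.mk (nat_lit 13124) (nat_lit 0) [] (nat_lit 0) [] false,
   Spec.mk (nat_lit 13126) (nat_lit 0) [] (nat_lit 0) [] false,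
   Spec.mk (nat_lit 13128) (nat_lit 0) [] (nat_lit 0) [] false,
   Spec.mk (nat_lit 13132) (nat_lit 0) [] (nat_lit 0) [] false,
   Spec.mk (nat_lit 13134) (nat_lit 0) [] (nat_lit 0) [] false,
   Spec.mk (nat_lit 13140) (nat_lit 0) [] (nat_lit 0) [] false,
   Spec.mk (nat_lit 13150) (nat_lit 0) [] (nat_lit 0) [] false,
   Spec.mk (nat_lit 13152) (nat_lit 0) [] (nat_lit 0) [] false,
   Spec.mk (nat_lit 13158) (nat_lit 0) [] (nat_lit 0) [] false,
   Spec.mk (nat_lit 13176) (nat_lit 0) [] (nat_lit 0) [] false,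
   Spec.mk (nat_lit 13204) (nat_lit 0) [] (nat_lit 0) [] false,
   Spec.mk (nat_lit 13206) (nat_lit 0) [] (nat_lit 0) [] false,
   Spec.mk (nat_lit 13212) (nat_lit 0) [] (nat_lit 0) [] false,
   Spec.mk (nat_lit 13230) (nat_lit 0) [] (nat_lit 0) [] false,
   Spec.mk (nat_lit 13284) (nat_lit 0) [] (nat_lit 0) [] false,
   Spec.mk (nat_lit 13366) (nat_lit 0) [] (nat_lit 0) [] false,
   Spec.mk (nat_lit 13368) (nat_lit 0) [] (nat_lit 0) [] false,
   Spec.mk (nat_lit 13374) (nat_lit 0) [] (nat_lit 0) [] false,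
   Spec.mk (nat_lit 13392) (nat_lit 0) [] (nat_lit 0) [] false,
   Spec.mk (nat_lit 13446) (nat_lit 0) [] (nat_lit 0) [] false,
   Spec.mk (nat_lit 13608) (nat_lit 0) [] (nat_lit 0) [] false,
   Spec.mk (nat_lit 13852) (nat_lit 0) [] (nat_lit 0) [] false,
   Spec.mk (nat_lit 13854) (nat_lit 0) [] (nat_lit 0) [] false,
   Spec.mk (nat_lit 13860) (nat_lit 0) [] (nat_lit 0) [] false,
   Spec.mk (nat_lit 13878) (nat_lit 0) [] (nat_lit 0) [] false,
   Spec.mk (nat_lit 13932) (nat_lit 0) [] (nat_lit 0) [] false,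
   Spec.mk (nat_lit 14094) (nat_lit 0) [] (nat_lit 0) [] false,
   Spec.mk (nat_lit 14580) (nat_lit 0) [] (nat_lit 0) [] false,
   Spec.mk (nat_lit 15310) (nat_lit 0) [] (nat_lit 0) [] false,
   Spec.mk (nat_lit 15312) (nat_lit 0) [] (nat_lit 0) [] false,
   Spec.mk (nat_lit 15318) (nat_lit 0) [] (nat_lit 0) [] false,
   Spec.mk (nat_lit 15336) (nat_lit 0) [] (nat_lit 0) [] false,
   Spec.mk (nat_lit 15390) (nat_lit 0) [] (nat_lit 0) [] false,
   Spec.mk (nat_lit 15552) (nat_lit 0) [] (nat_lit 0) [] false,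
   Spec.mk (nat_lit 16038) (nat_lit 0) [] (nat_lit 0) [] false,
   Spec.mk (nat_lit 17496) (nat_lit 0) [] (nat_lit 0) [] false,
   Spec.mk (nat_lit 19688) (nat_lit 0) [] (nat_lit 0) [] false,
   Spec.mk (nat_lit 19690) (nat_lit 0) [] (nat_lit 0) [] false,
   Spec.mk (nat_lit 19694) (nat_lit 0) [] (nat_lit 0) [] false,
   Spec.mk (nat_lit 19696) (nat_lit 0) [] (nat_lit 0) [] false,
   Spec.mk (nat_lit 19698) (nat_lit 0) [] (nat_lit 0) [] false,
   Spec.mk (nat_lit 19702) (nat_lit 0) [] (nat_lit 0) [] false]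

noncomputable def cd7 : List Spec :=
  [Spec.mk (nat_lit 19704) (nat_lit 0) [] (nat_lit 0) [] false,
   Spec.mk (nat_lit 19712) (nat_lit 0) [] (nat_lit 0) [] false,
   Spec.mk (nat_lit 19714) (nat_lit 0) [] (nat_lit 0) [] false,
   Spec.mk (nat_lit 19716) (nat_lit 0) [] (nat_lit 0) [] false,
   Spec.mk (nat_lit 19720) (nat_lit 0) [] (nat_lit 0) [] false,
   Spec.mk (nat_lit 19722) (nat_lit 0) [] (nat_lit 0) [] false,
   Spec.mk (nat_lit 19728) (nat_lit 0) [] (nat_lit 0) [] false,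
   Spec.mk (nat_lit 19738) (nat_lit 0) [] (nat_lit 0) [] false,
   Spec.mk (nat_lit 19740) (nat_lit 0) [] (nat_lit 0) [] false,
   Spec.mk (nat_lit 19746) (nat_lit 0) [] (nat_lit 0) [] false,
   Spec.mk (nat_lit 19766) (nat_lit 0) [] (nat_lit 0) [] false,
   Spec.mk (nat_lit 19768) (nat_lit 0) [] (nat_lit 0) [] false,
   Spec.mk (nat_lit 19770) (nat_lit 0) [] (nat_lit 0) [] false,
   Spec.mk (nat_lit 19774) (nat_lit 0) [] (nat_lit 0) [] false,
   Spec.mk (nat_lit 19776) (nat_lit 0) [] (nat_lit 0) [] false,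
   Spec.mk (nat_lit 19782) (nat_lit 0) [] (nat_lit 0) [] false,
   Spec.mk (nat_lit 19792) (nat_lit 0) [] (nat_lit 0) [] false,
   Spec.mk (nat_lit 19794) (nat_lit 0) [] (nat_lit 0) [] false,
   Spec.mk (nat_lit 19800) (nat_lit 0) [] (nat_lit 0) [] false,
   Spec.mk (nat_lit 19818) (nat_lit 0) [] (nat_lit 0) [] false,
   Spec.mk (nat_lit 19846) (nat_lit 0) [] (nat_lit 0) [] false,
   Spec.mk (nat_lit 19848) (nat_lit 0) [] (nat_lit 0) [] false,
   Spec.mk (nat_lit 19854) (nat_lit 0) [] (nat_lit 0) [] false,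
   Spec.mk (nat_lit 19872) (nat_lit 0) [] (nat_lit 0) [] false,
   Spec.mk (nat_lit 19928) (nat_lit 0) [] (nat_lit 0) [] false,
   Spec.mk (nat_lit 19930) (nat_lit 0) [] (nat_lit 0) [] false,
   Spec.mk (nat_lit 19932) (nat_lit 0) [] (nat_lit 0) [] false,
   Spec.mk (nat_lit 19936) (nat_lit 0) [] (nat_lit 0) [] false,
   Spec.mk (nat_lit 19938) (nat_lit 0) [] (nat_lit 0) [] false,
   Spec.mk (nat_lit 19944) (nat_lit 0) [] (nat_lit 0) [] false,
   Spec.mk (nat_lit 19954) (nat_lit 0) [] (nat_lit 0) [] false,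
   Spec.mk (nat_lit 19956) (nat_lit 0) [] (nat_lit 0) [] false,
   Spec.mk (nat_lit 19962) (nat_lit 0) [] (nat_lit 0) [] false,
   Spec.mk (nat_lit 19980) (nat_lit 0) [] (nat_lit 0) [] false,
   Spec.mk (nat_lit 20008) (nat_lit 0) [] (nat_lit 0) [] false,
   Spec.mk (nat_lit 20010) (nat_lit 0) [] (nat_lit 0) [] false,
   Spec.mk (nat_lit 20016) (nat_lit 0) [] (nat_lit 0) [] false,
   Spec.mk (nat_lit 20034) (nat_lit 0) [] (nat_lit 0) [] false,
   Spec.mk (nat_lit 20088) (nat_lit 0) [] (nat_lit 0) [] false,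
   Spec.mk (nat_lit 20170) (nat_lit 0) [] (nat_lit 0) [] false,
   Spec.mk (nat_lit 20172) (nat_lit 0) [] (nat_lit 0) [] false,
   Spec.mk (nat_lit 20178) (nat_lit 0) [] (nat_lit 0) [] false,
   Spec.mk (nat_lit 20196) (nat_lit 0) [] (nat_lit 0) [] false,
   Spec.mk (nat_lit 20250) (nat_lit 0) [] (nat_lit 0) [] false,
   Spec.mk (nat_lit 20414) (nat_lit 0) [] (nat_lit 0) [] false,
   Spec.mk (nat_lit 20416) (nat_lit 0) [] (nat_lit 0) [] false,
   Spec.mk (nat_lit 20418) (nat_lit 0) [] (nat_lit 0) [] false,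
   Spec.mk (nat_lit 20422) (nat_lit 0) [] (nat_lit 0) [] false,
   Spec.mk (nat_lit 20424) (nat_lit 0) [] (nat_lit 0) [] false,
   Spec.mk (nat_lit 20430) (nat_lit 0) [] (nat_lit 0) [] false,
   Spec.mk (nat_lit 20440) (nat_lit 0) [] (nat_lit 0) [] false,
   Spec.mk (nat_lit 20442) (nat_lit 0) [] (nat_lit 0) [] false,
   Spec.mk (nat_lit 20448) (nat_lit 0) [] (nat_lit 0) [] false,
   Spec.mk (nat_lit 20466) (nat_lit 0) [] (nat_lit 0) [] false,
   Spec.mk (nat_lit 20494) (nat_lit 0) [] (nat_lit 0) [] false,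
   Spec.mk (nat_lit 20496) (nat_lit 0) [] (nat_lit 0) [] false,
   Spec.mk (nat_lit 20502) (nat_lit 0) [] (nat_lit 0) [] false,
   Spec.mk (nat_lit 20520) (nat_lit 0) [] (nat_lit 0) [] false,
   Spec.mk (nat_lit 20574) (nat_lit 0) [] (nat_lit 0) [] false,
   Spec.mk (nat_lit 20656) (nat_lit 0) [] (nat_lit 0) [] false]

noncomputable def cd8 : List Spec :=
  [Spec.mk (nat_lit 20658) (nat_lit 0) [] (nat_lit 0) [] false,
   Spec.mk (nat_lit 20664) (nat_lit 0) [] (nat_lit 0) [] false,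
   Spec.mk (nat_lit 20682) (nat_lit 0) [] (nat_lit 0) [] false,
   Spec.mk (nat_lit 20736) (nat_lit 0) [] (nat_lit 0) [] false,
   Spec.mk (nat_lit 20898) (nat_lit 0) [] (nat_lit 0) [] false,
   Spec.mk (nat_lit 21142) (nat_lit 0) [] (nat_lit 0) [] false,
   Spec.mk (nat_lit 21144) (nat_lit 0) [] (nat_lit 0) [] false,
   Spec.mk (nat_lit 21150) (nat_lit 0) [] (nat_lit 0) [] false,
   Spec.mk (nat_lit 21168) (nat_lit 0) [] (nat_lit 0) [] false,
   Spec.mk (nat_lit 21222) (nat_lit 0) [] (nat_lit 0) [] false,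
   Spec.mk (nat_lit 21384) (nat_lit 0) [] (nat_lit 0) [] false,
   Spec.mk (nat_lit 21872) (nat_lit 0) [] (nat_lit 0) [] false,
   Spec.mk (nat_lit 21874) (nat_lit 0) [] (nat_lit 0) [] false,
   Spec.mk (nat_lit 21876) (nat_lit 0) [] (nat_lit 0) [] false,
   Spec.mk (nat_lit 21880) (nat_lit 0) [] (nat_lit 0) [] false,
   Spec.mk (nat_lit 21882) (nat_lit 0) [] (nat_lit 0) [] false,
   Spec.mk (nat_lit 21888) (nat_lit 0) [] (nat_lit 0) [] false,
   Spec.mk (nat_lit 21898) (nat_lit 0) [] (nat_lit 0) [] false,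
   Spec.mk (nat_lit 21900) (nat_lit 0) [] (nat_lit 0) [] false,
   Spec.mk (nat_lit 21906) (nat_lit 0) [] (nat_lit 0) [] false,
   Spec.mk (nat_lit 21924) (nat_lit 0) [] (nat_lit 0) [] false,
   Spec.mk (nat_lit 21952) (nat_lit 0) [] (nat_lit 0) [] false,
   Spec.mk (nat_lit 21954) (nat_lit 0) [] (nat_lit 0) [] false,
   Spec.mk (nat_lit 21960) (nat_lit 0) [] (nat_lit 0) [] false,
   Spec.mk (nat_lit 21978) (nat_lit 0) [] (nat_lit 0) [] false,
   Spec.mk (nat_lit 22032) (nat_lit 0) [] (nat_lit 0) [] false,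
   Spec.mk (nat_lit 22114) (nat_lit 0) [] (nat_lit 0) [] false,
   Spec.mk (nat_lit 22116) (nat_lit 0) [] (nat_lit 0) [] false,
   Spec.mk (nat_lit 22122) (nat_lit 0) [] (nat_lit 0) [] false,
   Spec.mk (nat_lit 22140) (nat_lit 0) [] (nat_lit 0) [] false,
   Spec.mk (nat_lit 22194) (nat_lit 0) [] (nat_lit 0) [] false,
   Spec.mk (nat_lit 22356) (nat_lit 0) [] (nat_lit 0) [] false,
   Spec.mk (nat_lit 22600) (nat_lit 0) [] (nat_lit 0) [] false,
   Spec.mk (nat_lit 22602) (nat_lit 0) [] (nat_lit 0) [] false,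
   Spec.mk (nat_lit 22608) (nat_lit 0) [] (nat_lit 0) [] false,
   Spec.mk (nat_lit 22626) (nat_lit 0) [] (nat_lit 0) [] false,
   Spec.mk (nat_lit 22680) (nat_lit 0) [] (nat_lit 0) [] false,
   Spec.mk (nat_lit 22842) (nat_lit 0) [] (nat_lit 0) [] false,
   Spec.mk (nat_lit 23328) (nat_lit 0) [] (nat_lit 0) [] false,
   Spec.mk (nat_lit 24058) (nat_lit 0) [] (nat_lit 0) [] false,
   Spec.mk (nat_lit 24060) (nat_lit 0) [] (nat_lit 0) [] false,
   Spec.mk (nat_lit 24066) (nat_lit 0) [] (nat_lit 0) [] false,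
   Spec.mk (nat_lit 24084) (nat_lit 0) [] (nat_lit 0) [] false,
   Spec.mk (nat_lit 24138) (nat_lit 0) [] (nat_lit 0) [] false,
   Spec.mk (nat_lit 24300) (nat_lit 0) [] (nat_lit 0) [] false,
   Spec.mk (nat_lit 24786) (nat_lit 0) [] (nat_lit 0) [] false,
   Spec.mk (nat_lit 26246) (nat_lit 0) [] (nat_lit 0) [] false,
   Spec.mk (nat_lit 26248) (nat_lit 0) [] (nat_lit 0) [] false,
   Spec.mk (nat_lit 26250) (nat_lit 0) [] (nat_lit 0) [] false,
   Spec.mk (nat_lit 26254) (nat_lit 0) [] (nat_lit 0) [] false,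
   Spec.mk (nat_lit 26256) (nat_lit 0) [] (nat_lit 0) [] false,
   Spec.mk (nat_lit 26262) (nat_lit 0) [] (nat_lit 0) [] false,
   Spec.mk (nat_lit 26272) (nat_lit 0) [] (nat_lit 0) [] false,
   Spec.mk (nat_lit 26274) (nat_lit 0) [] (nat_lit 0) [] false,
   Spec.mk (nat_lit 26280) (nat_lit 0) [] (nat_lit 0) [] false,
   Spec.mk (nat_lit 26298) (nat_lit 0) [] (nat_lit 0) [] false,
   Spec.mk (nat_lit 26326) (nat_lit 0) [] (nat_lit 0) [] false,
   Spec.mk (nat_lit 26328) (nat_lit 0) [] (nat_lit 0) [] false,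
   Spec.mk (nat_lit 26334) (nat_lit 0) [] (nat_lit 0) [] false,
   Spec.mk (nat_lit 26352) (nat_lit 0) [] (nat_lit 0) [] false]

noncomputable def cd9 : List Spec :=
  [Spec.mk (nat_lit 26406) (nat_lit 0) [] (nat_lit 0) [] false,
   Spec.mk (nat_lit 26488) (nat_lit 0) [] (nat_lit 0) [] false,
   Spec.mk (nat_lit 26490) (nat_lit 0) [] (nat_lit 0) [] false,
   Spec.mk (nat_lit 26496) (nat_lit 0) [] (nat_lit 0) [] false,
   Spec.mk (nat_lit 26514) (nat_lit 0) [] (nat_lit 0) [] false,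
   Spec.mk (nat_lit 26568) (nat_lit 0) [] (nat_lit 0) [] false,
   Spec.mk (nat_lit 26730) (nat_lit 0) [] (nat_lit 0) [] false,
   Spec.mk (nat_lit 26974) (nat_lit 0) [] (nat_lit 0) [] false,
   Spec.mk (nat_lit 26976) (nat_lit 0) [] (nat_lit 0) [] false,
   Spec.mk (nat_lit 26982) (nat_lit 0) [] (nat_lit 0) [] false,
   Spec.mk (nat_lit 27000) (nat_lit 0) [] (nat_lit 0) [] false,
   Spec.mk (nat_lit 27054) (nat_lit 0) [] (nat_lit 0) [] false,
   Spec.mk (nat_lit 27216) (nat_lit 0) [] (nat_lit 0) [] false,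
   Spec.mk (nat_lit 27702) (nat_lit 0) [] (nat_lit 0) [] false,
   Spec.mk (nat_lit 28432) (nat_lit 0) [] (nat_lit 0) [] false,
   Spec.mk (nat_lit 28434) (nat_lit 0) [] (nat_lit 0) [] false,
   Spec.mk (nat_lit 28440) (nat_lit 0) [] (nat_lit 0) [] false,
   Spec.mk (nat_lit 28458) (nat_lit 0) [] (nat_lit 0) [] false,
   Spec.mk (nat_lit 28512) (nat_lit 0) [] (nat_lit 0) [] false,
   Spec.mk (nat_lit 28674) (nat_lit 0) [] (nat_lit 0) [] false,
   Spec.mk (nat_lit 29160) (nat_lit 0) [] (nat_lit 0) [] false,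
   Spec.mk (nat_lit 30618) (nat_lit 0) [] (nat_lit 0) [] false,
   Spec.mk (nat_lit 32806) (nat_lit 0) [] (nat_lit 0) [] false,
   Spec.mk (nat_lit 32808) (nat_lit 0) [] (nat_lit 0) [] false,
   Spec.mk (nat_lit 32814) (nat_lit 0) [] (nat_lit 0) [] false,
   Spec.mk (nat_lit 32832) (nat_lit 0) [] (nat_lit 0) [] false,
   Spec.mk (nat_lit 32886) (nat_lit 0) [] (nat_lit 0) [] false,
   Spec.mk (nat_lit 33048) (nat_lit 0) [] (nat_lit 0) [] false,
   Spec.mk (nat_lit 33534) (nat_lit 0) [] (nat_lit 0) [] false,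
   Spec.mk (nat_lit 34992) (nat_lit 0) [] (nat_lit 0) [] false,
   Spec.mk (nat_lit 39368) (nat_lit 0) [] (nat_lit 0) [] false,
   Spec.mk (nat_lit 39370) (nat_lit 0) [] (nat_lit 0) [] false,
   Spec.mk (nat_lit 39372) (nat_lit 0) [] (nat_lit 0) [] false,
   Spec.mk (nat_lit 39376) (nat_lit 0) [] (nat_lit 0) [] false,
   Spec.mk (nat_lit 39378) (nat_lit 0) [] (nat_lit 0) [] false,
   Spec.mk (nat_lit 39384) (nat_lit 0) [] (nat_lit 0) [] false,
   Spec.mk (nat_lit 39394) (nat_lit 0) [] (nat_lit 0) [] false,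
   Spec.mk (nat_lit 39396) (nat_lit 0) [] (nat_lit 0) [] false,
   Spec.mk (nat_lit 39402) (nat_lit 0) [] (nat_lit 0) [] false,
   Spec.mk (nat_lit 39420) (nat_lit 0) [] (nat_lit 0) [] false,
   Spec.mk (nat_lit 39448) (nat_lit 0) [] (nat_lit 0) [] false,
   Spec.mk (nat_lit 39450) (nat_lit 0) [] (nat_lit 0) [] false,
   Spec.mk (nat_lit 39456) (nat_lit 0) [] (nat_lit 0) [] false,
   Spec.mk (nat_lit 39474) (nat_lit 0) [] (nat_lit 0) [] false,
   Spec.mk (nat_lit 39528) (nat_lit 0) [] (nat_lit 0) [] false,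
   Spec.mk (nat_lit 39610) (nat_lit 0) [] (nat_lit 0) [] false,
   Spec.mk (nat_lit 39612) (nat_lit 0) [] (nat_lit 0) [] false,
   Spec.mk (nat_lit 39618) (nat_lit 0) [] (nat_lit 0) [] false,
   Spec.mk (nat_lit 39636) (nat_lit 0) [] (nat_lit 0) [] false,
   Spec.mk (nat_lit 39690) (nat_lit 0) [] (nat_lit 0) [] false,
   Spec.mk (nat_lit 39852) (nat_lit 0) [] (nat_lit 0) [] false,
   Spec.mk (nat_lit 40096) (nat_lit 0) [] (nat_lit 0) [] false,
   Spec.mk (nat_lit 40098) (nat_lit 0) [] (nat_lit 0) [] false,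
   Spec.mk (nat_lit 40104) (nat_lit 0) [] (nat_lit 0) [] false,
   Spec.mk (nat_lit 40122) (nat_lit 0) [] (nat_lit 0) [] false,
   Spec.mk (nat_lit 40176) (nat_lit 0) [] (nat_lit 0) [] false,
   Spec.mk (nat_lit 40338) (nat_lit 0) [] (nat_lit 0) [] false,
   Spec.mk (nat_lit 40824) (nat_lit 0) [] (nat_lit 0) [] false,
   Spec.mk (nat_lit 41554) (nat_lit 0) [] (nat_lit 0) [] false,
   Spec.mk (nat_lit 41556) (nat_lit 0) [] (nat_lit 0) [] false]

noncomputable def cd10 : List Spec :=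
  [Spec.mk (nat_lit 41562) (nat_lit 0) [] (nat_lit 0) [] false,
   Spec.mk (nat_lit 41580) (nat_lit 0) [] (nat_lit 0) [] false,
   Spec.mk (nat_lit 41634) (nat_lit 0) [] (nat_lit 0) [] false,
   Spec.mk (nat_lit 41796) (nat_lit 0) [] (nat_lit 0) [] false,
   Spec.mk (nat_lit 42282) (nat_lit 0) [] (nat_lit 0) [] false,
   Spec.mk (nat_lit 43740) (nat_lit 0) [] (nat_lit 0) [] false,
   Spec.mk (nat_lit 45928) (nat_lit 0) [] (nat_lit 0) [] false,
   Spec.mk (nat_lit 45930) (nat_lit 0) [] (nat_lit 0) [] false,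
   Spec.mk (nat_lit 45936) (nat_lit 0) [] (nat_lit 0) [] false,
   Spec.mk (nat_lit 45954) (nat_lit 0) [] (nat_lit 0) [] false,
   Spec.mk (nat_lit 46008) (nat_lit 0) [] (nat_lit 0) [] false,
   Spec.mk (nat_lit 46170) (nat_lit 0) [] (nat_lit 0) [] false,
   Spec.mk (nat_lit 46656) (nat_lit 0) [] (nat_lit 0) [] false,
   Spec.mk (nat_lit 48114) (nat_lit 0) [] (nat_lit 0) [] false,
   Spec.mk (nat_lit 52488) (nat_lit 0) [] (nat_lit 0) [] false]

noncomputable def cds : List (List Spec) :=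
    cd0 :: cd1 :: cd2 :: cd3 :: cd4 :: cd5 :: cd6 :: cd7 :: cd8 :: cd9 :: cd10 :: []

noncomputable def ap (x : Nat → Nat) (k :
    Nat → Nat → Nat → Nat → Nat → Nat → Nat → Nat → Nat → Nat → Nat → Nat → Nat → Nat → Nat → Nat →
    Nat → Nat → Nat → Nat → Nat → Nat → Nat → Nat → Nat → Nat → Nat → Nat → Nat → Nat → Nat → Nat →
    Nat → Nat → Nat → Nat → Nat → Nat → Nat → Nat → Nat → Nat → Nat → Nat → Nat → Nat → Nat → Nat →
    Nat → Nat → Nat → Nat → Nat → Nat → Nat → Nat → Nat → Nat → Nat → Nat → Nat → Nat → Nat → Nat →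
    Nat → Nat → Nat → Nat → Nat → Nat → Nat → Nat → Nat → Nat → Nat → Nat → Nat → Nat → Nat → Nat →
    Nat → Nat → Nat → Nat → Nat → Nat → Nat → Nat → Nat → Nat → Nat → Nat → Nat → Nat → Nat → Nat →
    Nat → Nat → Nat → Nat → Nat → Nat → Nat → Nat → Nat → Nat → Nat → Nat → Nat → Nat → Nat → Nat →
    Nat → Nat → Nat → Nat → Nat → Nat → Nat → Nat → Nat → Nat → Nat → Nat → Nat → Nat → Nat → Nat →
    Nat → Nat → Nat → Nat → Nat → Nat → Nat → Nat → Nat → Nat → Nat → Nat → Nat → Nat → Nat → Nat →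
    Nat → Nat → Nat → Nat → Nat → Nat → Nat → Nat → Nat → Nat → Nat → Nat → Nat → Nat → Nat → Nat →
    Nat → Nat → Nat → Nat → Nat → Nat → Nat → Nat → Nat → Nat → Nat → Nat → Nat → Nat → Nat → Nat →
    Nat → Nat → Nat → Nat → Nat → Nat → Nat → Nat → Nat → Nat → Nat → Nat → Nat → Nat → Nat → Nat →
    Nat → Nat → Nat → Nat → Nat → Nat → Nat → Nat → Nat → Nat → Nat → Nat → Nat → Nat → Nat → Nat →
    Nat → Nat → Nat → Nat → Nat → Nat → Nat → Nat → Nat → Nat → Nat → Nat → Nat → Nat → Nat → Nat →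
    Nat → Nat → Nat → Nat → Nat → Nat → Nat → Nat → Nat → Nat → Nat → Nat → Nat → Nat → Nat → Nat →
    Nat → Nat → Nat → Nat → Nat → Nat → Nat → Nat → Nat → Nat → Nat → Nat → Nat → Nat → Nat → Nat →
    Nat → Nat → Nat → Nat → Nat → Nat → Nat → Nat → Nat → Nat → Nat → Nat → Nat → Nat → Nat → Nat →
    Nat → Nat → Nat → Nat → Nat → Nat → Nat → Nat → Nat → Nat → Nat → Nat → Nat → Nat → Nat → Nat →
    Nat → Nat → Nat → Nat → Nat → Nat → Nat → Nat → Nat → Nat → Nat → Nat → Nat → Nat → Nat → Nat →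
    Nat → Nat → Nat → Nat → Nat → Nat → Nat → Nat → Nat → Nat → Nat → Nat → Nat → Nat → Nat → Nat →
    Nat → Nat → Nat → Nat → Nat → Nat → Nat → Nat → Nat → Nat → Nat → Nat → Nat → Nat → Nat → Nat →
    Nat → Nat → Nat → Nat → Nat → Nat → Nat → Nat → Nat → Nat → Nat → Nat → Nat → Nat → Nat → Nat →
    Nat → Nat → Nat → Nat → Nat → Nat → Nat → Nat → Nat → Nat → Nat → Nat → Nat → Nat → Nat → Nat →
    Nat → Nat → Nat → Nat → Nat → Nat → Nat → Nat → Nat → Nat → Nat → Nat → Nat → Nat → Nat → Nat →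
    Nat → Nat → Nat → Nat → Nat → Nat → Nat → Nat → Nat → Nat → Nat → Nat → Nat → Nat → Nat → Nat →
    Nat → Nat → Nat → Nat → Nat → Nat → Nat → Nat → Nat → Nat → Nat → Nat → Nat → Nat → Nat → Nat →
    Nat → Nat → Nat → Nat → Nat → Nat → Nat → Nat → Nat → Nat → Nat → Nat → Nat → Nat → Nat → Nat →
    Nat → Nat → Nat → Nat → Nat → Nat → Nat → Nat → Nat → Nat → Nat → Nat → Nat → Nat → Nat → Nat →
    Nat → Nat → Nat → Nat → Nat → Nat → Nat → Nat → Nat → Nat → Nat → Nat → Nat → Nat → Nat → Nat →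
    Nat → Nat → Nat → Nat → Nat → Nat → Nat → Nat → Nat → Nat → Nat → Nat → Nat → Nat → Nat → Nat →
    Nat → Nat → Nat → Nat → Nat → Nat → Nat → Nat → Nat → Nat → Nat → Nat → Nat → Nat → Nat → Nat →
    Nat → Nat → Nat → Nat → Nat → Nat → Nat → Nat → Nat → Nat → Nat → Nat → Nat → Nat → Nat → Nat →
    Nat → Nat → Nat → Nat → Nat → Nat → Nat → Nat → Nat → Nat → Nat → Nat → Nat → Nat → Nat → Nat →
    Nat → Nat → Nat → Nat → Nat → Nat → Nat → Nat → Nat → Nat → Nat → Nat → Nat → Nat → Nat → Nat →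
    Nat → Nat → Nat → Nat → Nat → Nat → Nat → Nat → Nat → Nat → Nat → Nat → Nat → Nat → Nat → Nat →
    Nat → Nat → Nat → Nat → Nat → Nat → Nat → Nat → Nat → Nat → Nat → Nat → Nat → Nat → Nat → Nat →
    Nat → Nat → Nat → Nat → Nat → Nat → Nat → Nat → Nat → Nat → Nat → Nat → Nat → Nat → Nat → Nat →
    Nat → Nat → Nat → Nat → Nat → Nat → Nat → Nat → Nat → Nat → Nat → Nat → Nat → Nat → Nat → Nat →
    Nat → Nat → Nat → Nat → Nat → Nat → Nat → Bool) : Bool :=
  k
    (x (nat_lit 8)) (x (nat_lit 14)) (x (nat_lit 16)) (x (nat_lit 20)) (x (nat_lit 22))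
    (x (nat_lit 24)) (x (nat_lit 32)) (x (nat_lit 34)) (x (nat_lit 38)) (x (nat_lit 40))
    (x (nat_lit 42)) (x (nat_lit 46)) (x (nat_lit 48)) (x (nat_lit 56)) (x (nat_lit 58))
    (x (nat_lit 60)) (x (nat_lit 64)) (x (nat_lit 66)) (x (nat_lit 72)) (x (nat_lit 86))
    (x (nat_lit 88)) (x (nat_lit 92)) (x (nat_lit 94)) (x (nat_lit 96)) (x (nat_lit 100))
    (x (nat_lit 102)) (x (nat_lit 110)) (x (nat_lit 112)) (x (nat_lit 114)) (x (nat_lit 118))
    (x (nat_lit 120)) (x (nat_lit 126)) (x (nat_lit 136)) (x (nat_lit 138)) (x (nat_lit 144))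
    (x (nat_lit 164)) (x (nat_lit 166)) (x (nat_lit 168)) (x (nat_lit 172)) (x (nat_lit 174))
    (x (nat_lit 180)) (x (nat_lit 190)) (x (nat_lit 192)) (x (nat_lit 198)) (x (nat_lit 216))
    (x (nat_lit 248)) (x (nat_lit 250)) (x (nat_lit 254)) (x (nat_lit 256)) (x (nat_lit 258))
    (x (nat_lit 262)) (x (nat_lit 264)) (x (nat_lit 272)) (x (nat_lit 274)) (x (nat_lit 276))
    (x (nat_lit 280)) (x (nat_lit 282)) (x (nat_lit 288)) (x (nat_lit 298)) (x (nat_lit 300))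
    (x (nat_lit 306)) (x (nat_lit 326)) (x (nat_lit 328)) (x (nat_lit 330)) (x (nat_lit 334))
    (x (nat_lit 336)) (x (nat_lit 342)) (x (nat_lit 352)) (x (nat_lit 354)) (x (nat_lit 360))
    (x (nat_lit 378)) (x (nat_lit 406)) (x (nat_lit 408)) (x (nat_lit 414)) (x (nat_lit 432))
    (x (nat_lit 488)) (x (nat_lit 490)) (x (nat_lit 492)) (x (nat_lit 496)) (x (nat_lit 498))
    (x (nat_lit 504)) (x (nat_lit 514)) (x (nat_lit 516)) (x (nat_lit 522)) (x (nat_lit 540))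
    (x (nat_lit 568)) (x (nat_lit 570)) (x (nat_lit 576)) (x (nat_lit 594)) (x (nat_lit 648))
    (x (nat_lit 734)) (x (nat_lit 736)) (x (nat_lit 740)) (x (nat_lit 742)) (x (nat_lit 744))
    (x (nat_lit 748)) (x (nat_lit 750)) (x (nat_lit 758)) (x (nat_lit 760)) (x (nat_lit 762))
    (x (nat_lit 766)) (x (nat_lit 768)) (x (nat_lit 774)) (x (nat_lit 784)) (x (nat_lit 786))
    (x (nat_lit 792)) (x (nat_lit 812)) (x (nat_lit 814)) (x (nat_lit 816)) (x (nat_lit 820))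
    (x (nat_lit 822)) (x (nat_lit 828)) (x (nat_lit 838)) (x (nat_lit 840)) (x (nat_lit 846))
    (x (nat_lit 864)) (x (nat_lit 892)) (x (nat_lit 894)) (x (nat_lit 900)) (x (nat_lit 918))
    (x (nat_lit 974)) (x (nat_lit 976)) (x (nat_lit 978)) (x (nat_lit 982)) (x (nat_lit 984))
    (x (nat_lit 990)) (x (nat_lit 1000)) (x (nat_lit 1002)) (x (nat_lit 1008)) (x (nat_lit 1026))
    (x (nat_lit 1054)) (x (nat_lit 1056)) (x (nat_lit 1062)) (x (nat_lit 1080)) (x (nat_lit 1134))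
    (x (nat_lit 1216)) (x (nat_lit 1218)) (x (nat_lit 1224)) (x (nat_lit 1242)) (x (nat_lit 1296))
    (x (nat_lit 1460)) (x (nat_lit 1462)) (x (nat_lit 1464)) (x (nat_lit 1468)) (x (nat_lit 1470))
    (x (nat_lit 1476)) (x (nat_lit 1486)) (x (nat_lit 1488)) (x (nat_lit 1494)) (x (nat_lit 1512))
    (x (nat_lit 1540)) (x (nat_lit 1542)) (x (nat_lit 1548)) (x (nat_lit 1566)) (x (nat_lit 1620))
    (x (nat_lit 1702)) (x (nat_lit 1704)) (x (nat_lit 1710)) (x (nat_lit 1728)) (x (nat_lit 1782))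
    (x (nat_lit 1944)) (x (nat_lit 2192)) (x (nat_lit 2194)) (x (nat_lit 2198)) (x (nat_lit 2200))
    (x (nat_lit 2202)) (x (nat_lit 2206)) (x (nat_lit 2208)) (x (nat_lit 2216)) (x (nat_lit 2218))
    (x (nat_lit 2220)) (x (nat_lit 2224)) (x (nat_lit 2226)) (x (nat_lit 2232)) (x (nat_lit 2242))
    (x (nat_lit 2244)) (x (nat_lit 2250)) (x (nat_lit 2270)) (x (nat_lit 2272)) (x (nat_lit 2274))
    (x (nat_lit 2278)) (x (nat_lit 2280)) (x (nat_lit 2286)) (x (nat_lit 2296)) (x (nat_lit 2298))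
    (x (nat_lit 2304)) (x (nat_lit 2322)) (x (nat_lit 2350)) (x (nat_lit 2352)) (x (nat_lit 2358))
    (x (nat_lit 2376)) (x (nat_lit 2432)) (x (nat_lit 2434)) (x (nat_lit 2436)) (x (nat_lit 2440))
    (x (nat_lit 2442)) (x (nat_lit 2448)) (x (nat_lit 2458)) (x (nat_lit 2460)) (x (nat_lit 2466))
    (x (nat_lit 2484)) (x (nat_lit 2512)) (x (nat_lit 2514)) (x (nat_lit 2520)) (x (nat_lit 2538))
    (x (nat_lit 2592)) (x (nat_lit 2674)) (x (nat_lit 2676)) (x (nat_lit 2682)) (x (nat_lit 2700))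
    (x (nat_lit 2754)) (x (nat_lit 2918)) (x (nat_lit 2920)) (x (nat_lit 2922)) (x (nat_lit 2926))
    (x (nat_lit 2928)) (x (nat_lit 2934)) (x (nat_lit 2944)) (x (nat_lit 2946)) (x (nat_lit 2952))
    (x (nat_lit 2970)) (x (nat_lit 2998)) (x (nat_lit 3000)) (x (nat_lit 3006)) (x (nat_lit 3024))
    (x (nat_lit 3078)) (x (nat_lit 3160)) (x (nat_lit 3162)) (x (nat_lit 3168)) (x (nat_lit 3186))
    (x (nat_lit 3240)) (x (nat_lit 3402)) (x (nat_lit 3646)) (x (nat_lit 3648)) (x (nat_lit 3654))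
    (x (nat_lit 3672)) (x (nat_lit 3726)) (x (nat_lit 3888)) (x (nat_lit 4376)) (x (nat_lit 4378))
    (x (nat_lit 4380)) (x (nat_lit 4384)) (x (nat_lit 4386)) (x (nat_lit 4392)) (x (nat_lit 4402))
    (x (nat_lit 4404)) (x (nat_lit 4410)) (x (nat_lit 4428)) (x (nat_lit 4456)) (x (nat_lit 4458))
    (x (nat_lit 4464)) (x (nat_lit 4482)) (x (nat_lit 4536)) (x (nat_lit 4618)) (x (nat_lit 4620))
    (x (nat_lit 4626)) (x (nat_lit 4644)) (x (nat_lit 4698)) (x (nat_lit 4860)) (x (nat_lit 5104))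
    (x (nat_lit 5106)) (x (nat_lit 5112)) (x (nat_lit 5130)) (x (nat_lit 5184)) (x (nat_lit 5346))
    (x (nat_lit 5832)) (x (nat_lit 6566)) (x (nat_lit 6568)) (x (nat_lit 6572)) (x (nat_lit 6574))
    (x (nat_lit 6576)) (x (nat_lit 6580)) (x (nat_lit 6582)) (x (nat_lit 6590)) (x (nat_lit 6592))
    (x (nat_lit 6594)) (x (nat_lit 6598)) (x (nat_lit 6600)) (x (nat_lit 6606)) (x (nat_lit 6616))
    (x (nat_lit 6618)) (x (nat_lit 6624)) (x (nat_lit 6644)) (x (nat_lit 6646)) (x (nat_lit 6648))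
    (x (nat_lit 6652)) (x (nat_lit 6654)) (x (nat_lit 6660)) (x (nat_lit 6670)) (x (nat_lit 6672))
    (x (nat_lit 6678)) (x (nat_lit 6696)) (x (nat_lit 6724)) (x (nat_lit 6726)) (x (nat_lit 6732))
    (x (nat_lit 6750)) (x (nat_lit 6806)) (x (nat_lit 6808)) (x (nat_lit 6810)) (x (nat_lit 6814))
    (x (nat_lit 6816)) (x (nat_lit 6822)) (x (nat_lit 6832)) (x (nat_lit 6834)) (x (nat_lit 6840))
    (x (nat_lit 6858)) (x (nat_lit 6886)) (x (nat_lit 6888)) (x (nat_lit 6894)) (x (nat_lit 6912))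
    (x (nat_lit 6966)) (x (nat_lit 7048)) (x (nat_lit 7050)) (x (nat_lit 7056)) (x (nat_lit 7074))
    (x (nat_lit 7128)) (x (nat_lit 7292)) (x (nat_lit 7294)) (x (nat_lit 7296)) (x (nat_lit 7300))
    (x (nat_lit 7302)) (x (nat_lit 7308)) (x (nat_lit 7318)) (x (nat_lit 7320)) (x (nat_lit 7326))
    (x (nat_lit 7344)) (x (nat_lit 7372)) (x (nat_lit 7374)) (x (nat_lit 7380)) (x (nat_lit 7398))
    (x (nat_lit 7452)) (x (nat_lit 7534)) (x (nat_lit 7536)) (x (nat_lit 7542)) (x (nat_lit 7560))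
    (x (nat_lit 7614)) (x (nat_lit 7776)) (x (nat_lit 8020)) (x (nat_lit 8022)) (x (nat_lit 8028))
    (x (nat_lit 8046)) (x (nat_lit 8100)) (x (nat_lit 8262)) (x (nat_lit 8750)) (x (nat_lit 8752))
    (x (nat_lit 8754)) (x (nat_lit 8758)) (x (nat_lit 8760)) (x (nat_lit 8766)) (x (nat_lit 8776))
    (x (nat_lit 8778)) (x (nat_lit 8784)) (x (nat_lit 8802)) (x (nat_lit 8830)) (x (nat_lit 8832))
    (x (nat_lit 8838)) (x (nat_lit 8856)) (x (nat_lit 8910)) (x (nat_lit 8992)) (x (nat_lit 8994))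
    (x (nat_lit 9000)) (x (nat_lit 9018)) (x (nat_lit 9072)) (x (nat_lit 9234)) (x (nat_lit 9478))
    (x (nat_lit 9480)) (x (nat_lit 9486)) (x (nat_lit 9504)) (x (nat_lit 9558)) (x (nat_lit 9720))
    (x (nat_lit 10206)) (x (nat_lit 10936)) (x (nat_lit 10938)) (x (nat_lit 10944))
    (x (nat_lit 10962)) (x (nat_lit 11016)) (x (nat_lit 11178)) (x (nat_lit 11664))
    (x (nat_lit 13124)) (x (nat_lit 13126)) (x (nat_lit 13128)) (x (nat_lit 13132))
    (x (nat_lit 13134)) (x (nat_lit 13140)) (x (nat_lit 13150)) (x (nat_lit 13152))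
    (x (nat_lit 13158)) (x (nat_lit 13176)) (x (nat_lit 13204)) (x (nat_lit 13206))
    (x (nat_lit 13212)) (x (nat_lit 13230)) (x (nat_lit 13284)) (x (nat_lit 13366))
    (x (nat_lit 13368)) (x (nat_lit 13374)) (x (nat_lit 13392)) (x (nat_lit 13446))
    (x (nat_lit 13608)) (x (nat_lit 13852)) (x (nat_lit 13854)) (x (nat_lit 13860))
    (x (nat_lit 13878)) (x (nat_lit 13932)) (x (nat_lit 14094)) (x (nat_lit 14580))
    (x (nat_lit 15310)) (x (nat_lit 15312)) (x (nat_lit 15318)) (x (nat_lit 15336))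
    (x (nat_lit 15390)) (x (nat_lit 15552)) (x (nat_lit 16038)) (x (nat_lit 17496))
    (x (nat_lit 19688)) (x (nat_lit 19690)) (x (nat_lit 19694)) (x (nat_lit 19696))
    (x (nat_lit 19698)) (x (nat_lit 19702)) (x (nat_lit 19704)) (x (nat_lit 19712))
    (x (nat_lit 19714)) (x (nat_lit 19716)) (x (nat_lit 19720)) (x (nat_lit 19722))
    (x (nat_lit 19728)) (x (nat_lit 19738)) (x (nat_lit 19740)) (x (nat_lit 19746))
    (x (nat_lit 19766)) (x (nat_lit 19768)) (x (nat_lit 19770)) (x (nat_lit 19774))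
    (x (nat_lit 19776)) (x (nat_lit 19782)) (x (nat_lit 19792)) (x (nat_lit 19794))
    (x (nat_lit 19800)) (x (nat_lit 19818)) (x (nat_lit 19846)) (x (nat_lit 19848))
    (x (nat_lit 19854)) (x (nat_lit 19872)) (x (nat_lit 19928)) (x (nat_lit 19930))
    (x (nat_lit 19932)) (x (nat_lit 19936)) (x (nat_lit 19938)) (x (nat_lit 19944))
    (x (nat_lit 19954)) (x (nat_lit 19956)) (x (nat_lit 19962)) (x (nat_lit 19980))
    (x (nat_lit 20008)) (x (nat_lit 20010)) (x (nat_lit 20016)) (x (nat_lit 20034))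
    (x (nat_lit 20088)) (x (nat_lit 20170)) (x (nat_lit 20172)) (x (nat_lit 20178))
    (x (nat_lit 20196)) (x (nat_lit 20250)) (x (nat_lit 20414)) (x (nat_lit 20416))
    (x (nat_lit 20418)) (x (nat_lit 20422)) (x (nat_lit 20424)) (x (nat_lit 20430))
    (x (nat_lit 20440)) (x (nat_lit 20442)) (x (nat_lit 20448)) (x (nat_lit 20466))
    (x (nat_lit 20494)) (x (nat_lit 20496)) (x (nat_lit 20502)) (x (nat_lit 20520))
    (x (nat_lit 20574)) (x (nat_lit 20656)) (x (nat_lit 20658)) (x (nat_lit 20664))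
    (x (nat_lit 20682)) (x (nat_lit 20736)) (x (nat_lit 20898)) (x (nat_lit 21142))
    (x (nat_lit 21144)) (x (nat_lit 21150)) (x (nat_lit 21168)) (x (nat_lit 21222))
    (x (nat_lit 21384)) (x (nat_lit 21872)) (x (nat_lit 21874)) (x (nat_lit 21876))
    (x (nat_lit 21880)) (x (nat_lit 21882)) (x (nat_lit 21888)) (x (nat_lit 21898))
    (x (nat_lit 21900)) (x (nat_lit 21906)) (x (nat_lit 21924)) (x (nat_lit 21952))
    (x (nat_lit 21954)) (x (nat_lit 21960)) (x (nat_lit 21978)) (x (nat_lit 22032))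
    (x (nat_lit 22114)) (x (nat_lit 22116)) (x (nat_lit 22122)) (x (nat_lit 22140))
    (x (nat_lit 22194)) (x (nat_lit 22356)) (x (nat_lit 22600)) (x (nat_lit 22602))
    (x (nat_lit 22608)) (x (nat_lit 22626)) (x (nat_lit 22680)) (x (nat_lit 22842))
    (x (nat_lit 23328)) (x (nat_lit 24058)) (x (nat_lit 24060)) (x (nat_lit 24066))
    (x (nat_lit 24084)) (x (nat_lit 24138)) (x (nat_lit 24300)) (x (nat_lit 24786))
    (x (nat_lit 26246)) (x (nat_lit 26248)) (x (nat_lit 26250)) (x (nat_lit 26254))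
    (x (nat_lit 26256)) (x (nat_lit 26262)) (x (nat_lit 26272)) (x (nat_lit 26274))
    (x (nat_lit 26280)) (x (nat_lit 26298)) (x (nat_lit 26326)) (x (nat_lit 26328))
    (x (nat_lit 26334)) (x (nat_lit 26352)) (x (nat_lit 26406)) (x (nat_lit 26488))
    (x (nat_lit 26490)) (x (nat_lit 26496)) (x (nat_lit 26514)) (x (nat_lit 26568))
    (x (nat_lit 26730)) (x (nat_lit 26974)) (x (nat_lit 26976)) (x (nat_lit 26982))
    (x (nat_lit 27000)) (x (nat_lit 27054)) (x (nat_lit 27216)) (x (nat_lit 27702))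
    (x (nat_lit 28432)) (x (nat_lit 28434)) (x (nat_lit 28440)) (x (nat_lit 28458))
    (x (nat_lit 28512)) (x (nat_lit 28674)) (x (nat_lit 29160)) (x (nat_lit 30618))
    (x (nat_lit 32806)) (x (nat_lit 32808)) (x (nat_lit 32814)) (x (nat_lit 32832))
    (x (nat_lit 32886)) (x (nat_lit 33048)) (x (nat_lit 33534)) (x (nat_lit 34992))
    (x (nat_lit 39368)) (x (nat_lit 39370)) (x (nat_lit 39372)) (x (nat_lit 39376))
    (x (nat_lit 39378)) (x (nat_lit 39384)) (x (nat_lit 39394)) (x (nat_lit 39396))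
    (x (nat_lit 39402)) (x (nat_lit 39420)) (x (nat_lit 39448)) (x (nat_lit 39450))
    (x (nat_lit 39456)) (x (nat_lit 39474)) (x (nat_lit 39528)) (x (nat_lit 39610))
    (x (nat_lit 39612)) (x (nat_lit 39618)) (x (nat_lit 39636)) (x (nat_lit 39690))
    (x (nat_lit 39852)) (x (nat_lit 40096)) (x (nat_lit 40098)) (x (nat_lit 40104))
    (x (nat_lit 40122)) (x (nat_lit 40176)) (x (nat_lit 40338)) (x (nat_lit 40824))
    (x (nat_lit 41554)) (x (nat_lit 41556)) (x (nat_lit 41562)) (x (nat_lit 41580))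
    (x (nat_lit 41634)) (x (nat_lit 41796)) (x (nat_lit 42282)) (x (nat_lit 43740))
    (x (nat_lit 45928)) (x (nat_lit 45930)) (x (nat_lit 45936)) (x (nat_lit 45954))
    (x (nat_lit 46008)) (x (nat_lit 46170)) (x (nat_lit 46656)) (x (nat_lit 48114))
    (x (nat_lit 52488))

theorem ap_eq (x : Nat → Nat) (k : FnLL cds) : apLL (fun t => x t.cd) cds k = ap x k :=
  Eq.refl (ap x k)

theorem codes_ok : beqL (codes cds) (secL 10 4 0 []) = true := by decide +kernel

noncomputable def fin (f : Nat → Nat) (v1 : Nat) (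
    x8 x14 x16 x20 x22 x24 x32 x34 x38 x40 x42 x46 x48 x56 x58 x60 x64 x66 x72 x86 x88 x92 x94 x96
    x100 x102 x110 x112 x114 x118 x120 x126 x136 x138 x144 x164 x166 x168 x172 x174 x180 x190 x192
    x198 x216 x248 x250 x254 x256 x258 x262 x264 x272 x274 x276 x280 x282 x288 x298 x300 x306 x326
    x328 x330 x334 x336 x342 x352 x354 x360 x378 x406 x408 x414 x432 x488 x490 x492 x496 x498 x504
    x514 x516 x522 x540 x568 x570 x576 x594 x648 x734 x736 x740 x742 x744 x748 x750 x758 x760 x762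
    x766 x768 x774 x784 x786 x792 x812 x814 x816 x820 x822 x828 x838 x840 x846 x864 x892 x894 x900
    x918 x974 x976 x978 x982 x984 x990 x1000 x1002 x1008 x1026 x1054 x1056 x1062 x1080 x1134 x1216
    x1218 x1224 x1242 x1296 x1460 x1462 x1464 x1468 x1470 x1476 x1486 x1488 x1494 x1512 x1540 x1542
    x1548 x1566 x1620 x1702 x1704 x1710 x1728 x1782 x1944 x2192 x2194 x2198 x2200 x2202 x2206 x2208
    x2216 x2218 x2220 x2224 x2226 x2232 x2242 x2244 x2250 x2270 x2272 x2274 x2278 x2280 x2286 x2296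
    x2298 x2304 x2322 x2350 x2352 x2358 x2376 x2432 x2434 x2436 x2440 x2442 x2448 x2458 x2460 x2466
    x2484 x2512 x2514 x2520 x2538 x2592 x2674 x2676 x2682 x2700 x2754 x2918 x2920 x2922 x2926 x2928
    x2934 x2944 x2946 x2952 x2970 x2998 x3000 x3006 x3024 x3078 x3160 x3162 x3168 x3186 x3240 x3402
    x3646 x3648 x3654 x3672 x3726 x3888 x4376 x4378 x4380 x4384 x4386 x4392 x4402 x4404 x4410 x4428
    x4456 x4458 x4464 x4482 x4536 x4618 x4620 x4626 x4644 x4698 x4860 x5104 x5106 x5112 x5130 x5184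
    x5346 x5832 x6566 x6568 x6572 x6574 x6576 x6580 x6582 x6590 x6592 x6594 x6598 x6600 x6606 x6616
    x6618 x6624 x6644 x6646 x6648 x6652 x6654 x6660 x6670 x6672 x6678 x6696 x6724 x6726 x6732 x6750
    x6806 x6808 x6810 x6814 x6816 x6822 x6832 x6834 x6840 x6858 x6886 x6888 x6894 x6912 x6966 x7048
    x7050 x7056 x7074 x7128 x7292 x7294 x7296 x7300 x7302 x7308 x7318 x7320 x7326 x7344 x7372 x7374
    x7380 x7398 x7452 x7534 x7536 x7542 x7560 x7614 x7776 x8020 x8022 x8028 x8046 x8100 x8262 x8750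
    x8752 x8754 x8758 x8760 x8766 x8776 x8778 x8784 x8802 x8830 x8832 x8838 x8856 x8910 x8992 x8994
    x9000 x9018 x9072 x9234 x9478 x9480 x9486 x9504 x9558 x9720 x10206 x10936 x10938 x10944 x10962
    x11016 x11178 x11664 x13124 x13126 x13128 x13132 x13134 x13140 x13150 x13152 x13158 x13176
    x13204 x13206 x13212 x13230 x13284 x13366 x13368 x13374 x13392 x13446 x13608 x13852 x13854
    x13860 x13878 x13932 x14094 x14580 x15310 x15312 x15318 x15336 x15390 x15552 x16038 x17496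
    x19688 x19690 x19694 x19696 x19698 x19702 x19704 x19712 x19714 x19716 x19720 x19722 x19728
    x19738 x19740 x19746 x19766 x19768 x19770 x19774 x19776 x19782 x19792 x19794 x19800 x19818
    x19846 x19848 x19854 x19872 x19928 x19930 x19932 x19936 x19938 x19944 x19954 x19956 x19962
    x19980 x20008 x20010 x20016 x20034 x20088 x20170 x20172 x20178 x20196 x20250 x20414 x20416
    x20418 x20422 x20424 x20430 x20440 x20442 x20448 x20466 x20494 x20496 x20502 x20520 x20574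
    x20656 x20658 x20664 x20682 x20736 x20898 x21142 x21144 x21150 x21168 x21222 x21384 x21872
    x21874 x21876 x21880 x21882 x21888 x21898 x21900 x21906 x21924 x21952 x21954 x21960 x21978
    x22032 x22114 x22116 x22122 x22140 x22194 x22356 x22600 x22602 x22608 x22626 x22680 x22842
    x23328 x24058 x24060 x24066 x24084 x24138 x24300 x24786 x26246 x26248 x26250 x26254 x26256
    x26262 x26272 x26274 x26280 x26298 x26326 x26328 x26334 x26352 x26406 x26488 x26490 x26496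
    x26514 x26568 x26730 x26974 x26976 x26982 x27000 x27054 x27216 x27702 x28432 x28434 x28440
    x28458 x28512 x28674 x29160 x30618 x32806 x32808 x32814 x32832 x32886 x33048 x33534 x34992
    x39368 x39370 x39372 x39376 x39378 x39384 x39394 x39396 x39402 x39420 x39448 x39450 x39456
    x39474 x39528 x39610 x39612 x39618 x39636 x39690 x39852 x40096 x40098 x40104 x40122 x40176
    x40338 x40824 x41554 x41556 x41562 x41580 x41634 x41796 x42282 x43740 x45928 x45930 x45936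
    x45954 x46008 x46170 x46656 x48114 x52488 : Nat) : Bool :=
  Nat.beq
    (Nat.add (Nat.add (f x8) (Nat.add (f x14) (Nat.add (f x16) (Nat.add (f x20) (Nat.add (f x22)
    (Nat.add (f x24) (Nat.add (f x32) (Nat.add (f x34) (Nat.add (f x38) (Nat.add (f x40) (Nat.add
    (f x42) (Nat.add (f x46) (Nat.add (f x48) (Nat.add (f x56) (Nat.add (f x58) (Nat.add (f x60)
    (Nat.add (f x64) (Nat.add (f x66) (Nat.add (f x72) (Nat.add (f x86) (Nat.add (f x88) (Nat.add
    (f x92) (Nat.add (f x94) (Nat.add (f x96) (Nat.add (f x100) (Nat.add (f x102) (Nat.add (f x110)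
    (Nat.add (f x112) (Nat.add (f x114) (Nat.add (f x118) (Nat.add (f x120) (Nat.add (f x126)
    (Nat.add (f x136) (Nat.add (f x138) (Nat.add (f x144) (Nat.add (f x164) (Nat.add (f x166)
    (Nat.add (f x168) (Nat.add (f x172) (Nat.add (f x174) (Nat.add (f x180) (Nat.add (f x190)
    (Nat.add (f x192) (Nat.add (f x198) (Nat.add (f x216) (Nat.add (f x248) (Nat.add (f x250)
    (Nat.add (f x254) (Nat.add (f x256) (Nat.add (f x258) (Nat.add (f x262) (Nat.add (f x264)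
    (Nat.add (f x272) (Nat.add (f x274) (Nat.add (f x276) (Nat.add (f x280) (Nat.add (f x282)
    (Nat.add (f x288) (Nat.add (f x298) (Nat.add (f x300)
    0)))))))))))))))))))))))))))))))))))))))))))))))))))))))))))) (Nat.add (Nat.add (f x306)
    (Nat.add (f x326) (Nat.add (f x328) (Nat.add (f x330) (Nat.add (f x334) (Nat.add (f x336)
    (Nat.add (f x342) (Nat.add (f x352) (Nat.add (f x354) (Nat.add (f x360) (Nat.add (f x378)
    (Nat.add (f x406) (Nat.add (f x408) (Nat.add (f x414) (Nat.add (f x432) (Nat.add (f x488)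
    (Nat.add (f x490) (Nat.add (f x492) (Nat.add (f x496) (Nat.add (f x498) (Nat.add (f x504)
    (Nat.add (f x514) (Nat.add (f x516) (Nat.add (f x522) (Nat.add (f x540) (Nat.add (f x568)
    (Nat.add (f x570) (Nat.add (f x576) (Nat.add (f x594) (Nat.add (f x648) (Nat.add (f x734)
    (Nat.add (f x736) (Nat.add (f x740) (Nat.add (f x742) (Nat.add (f x744) (Nat.add (f x748)
    (Nat.add (f x750) (Nat.add (f x758) (Nat.add (f x760) (Nat.add (f x762) (Nat.add (f x766)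
    (Nat.add (f x768) (Nat.add (f x774) (Nat.add (f x784) (Nat.add (f x786) (Nat.add (f x792)
    (Nat.add (f x812) (Nat.add (f x814) (Nat.add (f x816) (Nat.add (f x820) (Nat.add (f x822)
    (Nat.add (f x828) (Nat.add (f x838) (Nat.add (f x840) (Nat.add (f x846) (Nat.add (f x864)
    (Nat.add (f x892) (Nat.add (f x894) (Nat.add (f x900) (Nat.add (f x918)
    0)))))))))))))))))))))))))))))))))))))))))))))))))))))))))))) (Nat.add (Nat.add (f x974)
    (Nat.add (f x976) (Nat.add (f x978) (Nat.add (f x982) (Nat.add (f x984) (Nat.add (f x990)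
    (Nat.add (f x1000) (Nat.add (f x1002) (Nat.add (f x1008) (Nat.add (f x1026) (Nat.add (f x1054)
    (Nat.add (f x1056) (Nat.add (f x1062) (Nat.add (f x1080) (Nat.add (f x1134) (Nat.add (f x1216)
    (Nat.add (f x1218) (Nat.add (f x1224) (Nat.add (f x1242) (Nat.add (f x1296) (Nat.add (f x1460)
    (Nat.add (f x1462) (Nat.add (f x1464) (Nat.add (f x1468) (Nat.add (f x1470) (Nat.add (f x1476)
    (Nat.add (f x1486) (Nat.add (f x1488) (Nat.add (f x1494) (Nat.add (f x1512) (Nat.add (f x1540)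
    (Nat.add (f x1542) (Nat.add (f x1548) (Nat.add (f x1566) (Nat.add (f x1620) (Nat.add (f x1702)
    (Nat.add (f x1704) (Nat.add (f x1710) (Nat.add (f x1728) (Nat.add (f x1782) (Nat.add (f x1944)
    (Nat.add (f x2192) (Nat.add (f x2194) (Nat.add (f x2198) (Nat.add (f x2200) (Nat.add (f x2202)
    (Nat.add (f x2206) (Nat.add (f x2208) (Nat.add (f x2216) (Nat.add (f x2218) (Nat.add (f x2220)
    (Nat.add (f x2224) (Nat.add (f x2226) (Nat.add (f x2232) (Nat.add (f x2242) (Nat.add (f x2244)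
    (Nat.add (f x2250) (Nat.add (f x2270) (Nat.add (f x2272) (Nat.add (f x2274)
    0)))))))))))))))))))))))))))))))))))))))))))))))))))))))))))) (Nat.add (Nat.add (f x2278)
    (Nat.add (f x2280) (Nat.add (f x2286) (Nat.add (f x2296) (Nat.add (f x2298) (Nat.add (f x2304)
    (Nat.add (f x2322) (Nat.add (f x2350) (Nat.add (f x2352) (Nat.add (f x2358) (Nat.add (f x2376)
    (Nat.add (f x2432) (Nat.add (f x2434) (Nat.add (f x2436) (Nat.add (f x2440) (Nat.add (f x2442)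
    (Nat.add (f x2448) (Nat.add (f x2458) (Nat.add (f x2460) (Nat.add (f x2466) (Nat.add (f x2484)
    (Nat.add (f x2512) (Nat.add (f x2514) (Nat.add (f x2520) (Nat.add (f x2538) (Nat.add (f x2592)
    (Nat.add (f x2674) (Nat.add (f x2676) (Nat.add (f x2682) (Nat.add (f x2700) (Nat.add (f x2754)
    (Nat.add (f x2918) (Nat.add (f x2920) (Nat.add (f x2922) (Nat.add (f x2926) (Nat.add (f x2928)
    (Nat.add (f x2934) (Nat.add (f x2944) (Nat.add (f x2946) (Nat.add (f x2952) (Nat.add (f x2970)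
    (Nat.add (f x2998) (Nat.add (f x3000) (Nat.add (f x3006) (Nat.add (f x3024) (Nat.add (f x3078)
    (Nat.add (f x3160) (Nat.add (f x3162) (Nat.add (f x3168) (Nat.add (f x3186) (Nat.add (f x3240)
    (Nat.add (f x3402) (Nat.add (f x3646) (Nat.add (f x3648) (Nat.add (f x3654) (Nat.add (f x3672)
    (Nat.add (f x3726) (Nat.add (f x3888) (Nat.add (f x4376) (Nat.add (f x4378)
    0)))))))))))))))))))))))))))))))))))))))))))))))))))))))))))) (Nat.add (Nat.add (f x4380)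
    (Nat.add (f x4384) (Nat.add (f x4386) (Nat.add (f x4392) (Nat.add (f x4402) (Nat.add (f x4404)
    (Nat.add (f x4410) (Nat.add (f x4428) (Nat.add (f x4456) (Nat.add (f x4458) (Nat.add (f x4464)
    (Nat.add (f x4482) (Nat.add (f x4536) (Nat.add (f x4618) (Nat.add (f x4620) (Nat.add (f x4626)
    (Nat.add (f x4644) (Nat.add (f x4698) (Nat.add (f x4860) (Nat.add (f x5104) (Nat.add (f x5106)
    (Nat.add (f x5112) (Nat.add (f x5130) (Nat.add (f x5184) (Nat.add (f x5346) (Nat.add (f x5832)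
    (Nat.add (f x6566) (Nat.add (f x6568) (Nat.add (f x6572) (Nat.add (f x6574) (Nat.add (f x6576)
    (Nat.add (f x6580) (Nat.add (f x6582) (Nat.add (f x6590) (Nat.add (f x6592) (Nat.add (f x6594)
    (Nat.add (f x6598) (Nat.add (f x6600) (Nat.add (f x6606) (Nat.add (f x6616) (Nat.add (f x6618)
    (Nat.add (f x6624) (Nat.add (f x6644) (Nat.add (f x6646) (Nat.add (f x6648) (Nat.add (f x6652)
    (Nat.add (f x6654) (Nat.add (f x6660) (Nat.add (f x6670) (Nat.add (f x6672) (Nat.add (f x6678)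
    (Nat.add (f x6696) (Nat.add (f x6724) (Nat.add (f x6726) (Nat.add (f x6732) (Nat.add (f x6750)
    (Nat.add (f x6806) (Nat.add (f x6808) (Nat.add (f x6810) (Nat.add (f x6814)
    0)))))))))))))))))))))))))))))))))))))))))))))))))))))))))))) (Nat.add (Nat.add (f x6816)
    (Nat.add (f x6822) (Nat.add (f x6832) (Nat.add (f x6834) (Nat.add (f x6840) (Nat.add (f x6858)
    (Nat.add (f x6886) (Nat.add (f x6888) (Nat.add (f x6894) (Nat.add (f x6912) (Nat.add (f x6966)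
    (Nat.add (f x7048) (Nat.add (f x7050) (Nat.add (f x7056) (Nat.add (f x7074) (Nat.add (f x7128)
    (Nat.add (f x7292) (Nat.add (f x7294) (Nat.add (f x7296) (Nat.add (f x7300) (Nat.add (f x7302)
    (Nat.add (f x7308) (Nat.add (f x7318) (Nat.add (f x7320) (Nat.add (f x7326) (Nat.add (f x7344)
    (Nat.add (f x7372) (Nat.add (f x7374) (Nat.add (f x7380) (Nat.add (f x7398) (Nat.add (f x7452)
    (Nat.add (f x7534) (Nat.add (f x7536) (Nat.add (f x7542) (Nat.add (f x7560) (Nat.add (f x7614)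
    (Nat.add (f x7776) (Nat.add (f x8020) (Nat.add (f x8022) (Nat.add (f x8028) (Nat.add (f x8046)
    (Nat.add (f x8100) (Nat.add (f x8262) (Nat.add (f x8750) (Nat.add (f x8752) (Nat.add (f x8754)
    (Nat.add (f x8758) (Nat.add (f x8760) (Nat.add (f x8766) (Nat.add (f x8776) (Nat.add (f x8778)
    (Nat.add (f x8784) (Nat.add (f x8802) (Nat.add (f x8830) (Nat.add (f x8832) (Nat.add (f x8838)
    (Nat.add (f x8856) (Nat.add (f x8910) (Nat.add (f x8992) (Nat.add (f x8994)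
    0)))))))))))))))))))))))))))))))))))))))))))))))))))))))))))) (Nat.add (Nat.add (f x9000)
    (Nat.add (f x9018) (Nat.add (f x9072) (Nat.add (f x9234) (Nat.add (f x9478) (Nat.add (f x9480)
    (Nat.add (f x9486) (Nat.add (f x9504) (Nat.add (f x9558) (Nat.add (f x9720) (Nat.add (f x10206)
    (Nat.add (f x10936) (Nat.add (f x10938) (Nat.add (f x10944) (Nat.add (f x10962) (Nat.add
    (f x11016) (Nat.add (f x11178) (Nat.add (f x11664) (Nat.add (f x13124) (Nat.add (f x13126)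
    (Nat.add (f x13128) (Nat.add (f x13132) (Nat.add (f x13134) (Nat.add (f x13140) (Nat.add
    (f x13150) (Nat.add (f x13152) (Nat.add (f x13158) (Nat.add (f x13176) (Nat.add (f x13204)
    (Nat.add (f x13206) (Nat.add (f x13212) (Nat.add (f x13230) (Nat.add (f x13284) (Nat.add
    (f x13366) (Nat.add (f x13368) (Nat.add (f x13374) (Nat.add (f x13392) (Nat.add (f x13446)
    (Nat.add (f x13608) (Nat.add (f x13852) (Nat.add (f x13854) (Nat.add (f x13860) (Nat.add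
    (f x13878) (Nat.add (f x13932) (Nat.add (f x14094) (Nat.add (f x14580) (Nat.add (f x15310)
    (Nat.add (f x15312) (Nat.add (f x15318) (Nat.add (f x15336) (Nat.add (f x15390) (Nat.add
    (f x15552) (Nat.add (f x16038) (Nat.add (f x17496) (Nat.add (f x19688) (Nat.add (f x19690)
    (Nat.add (f x19694) (Nat.add (f x19696) (Nat.add (f x19698) (Nat.add (f x19702)
    0)))))))))))))))))))))))))))))))))))))))))))))))))))))))))))) (Nat.add (Nat.add (f x19704)
    (Nat.add (f x19712) (Nat.add (f x19714) (Nat.add (f x19716) (Nat.add (f x19720) (Nat.add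
    (f x19722) (Nat.add (f x19728) (Nat.add (f x19738) (Nat.add (f x19740) (Nat.add (f x19746)
    (Nat.add (f x19766) (Nat.add (f x19768) (Nat.add (f x19770) (Nat.add (f x19774) (Nat.add
    (f x19776) (Nat.add (f x19782) (Nat.add (f x19792) (Nat.add (f x19794) (Nat.add (f x19800)
    (Nat.add (f x19818) (Nat.add (f x19846) (Nat.add (f x19848) (Nat.add (f x19854) (Nat.add
    (f x19872) (Nat.add (f x19928) (Nat.add (f x19930) (Nat.add (f x19932) (Nat.add (f x19936)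
    (Nat.add (f x19938) (Nat.add (f x19944) (Nat.add (f x19954) (Nat.add (f x19956) (Nat.add
    (f x19962) (Nat.add (f x19980) (Nat.add (f x20008) (Nat.add (f x20010) (Nat.add (f x20016)
    (Nat.add (f x20034) (Nat.add (f x20088) (Nat.add (f x20170) (Nat.add (f x20172) (Nat.add
    (f x20178) (Nat.add (f x20196) (Nat.add (f x20250) (Nat.add (f x20414) (Nat.add (f x20416)
    (Nat.add (f x20418) (Nat.add (f x20422) (Nat.add (f x20424) (Nat.add (f x20430) (Nat.add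
    (f x20440) (Nat.add (f x20442) (Nat.add (f x20448) (Nat.add (f x20466) (Nat.add (f x20494)
    (Nat.add (f x20496) (Nat.add (f x20502) (Nat.add (f x20520) (Nat.add (f x20574) (Nat.add
    (f x20656) 0)))))))))))))))))))))))))))))))))))))))))))))))))))))))))))) (Nat.add (Nat.add
    (f x20658) (Nat.add (f x20664) (Nat.add (f x20682) (Nat.add (f x20736) (Nat.add (f x20898)
    (Nat.add (f x21142) (Nat.add (f x21144) (Nat.add (f x21150) (Nat.add (f x21168) (Nat.add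
    (f x21222) (Nat.add (f x21384) (Nat.add (f x21872) (Nat.add (f x21874) (Nat.add (f x21876)
    (Nat.add (f x21880) (Nat.add (f x21882) (Nat.add (f x21888) (Nat.add (f x21898) (Nat.add
    (f x21900) (Nat.add (f x21906) (Nat.add (f x21924) (Nat.add (f x21952) (Nat.add (f x21954)
    (Nat.add (f x21960) (Nat.add (f x21978) (Nat.add (f x22032) (Nat.add (f x22114) (Nat.add
    (f x22116) (Nat.add (f x22122) (Nat.add (f x22140) (Nat.add (f x22194) (Nat.add (f x22356)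
    (Nat.add (f x22600) (Nat.add (f x22602) (Nat.add (f x22608) (Nat.add (f x22626) (Nat.add
    (f x22680) (Nat.add (f x22842) (Nat.add (f x23328) (Nat.add (f x24058) (Nat.add (f x24060)
    (Nat.add (f x24066) (Nat.add (f x24084) (Nat.add (f x24138) (Nat.add (f x24300) (Nat.add
    (f x24786) (Nat.add (f x26246) (Nat.add (f x26248) (Nat.add (f x26250) (Nat.add (f x26254)
    (Nat.add (f x26256) (Nat.add (f x26262) (Nat.add (f x26272) (Nat.add (f x26274) (Nat.add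
    (f x26280) (Nat.add (f x26298) (Nat.add (f x26326) (Nat.add (f x26328) (Nat.add (f x26334)
    (Nat.add (f x26352) 0)))))))))))))))))))))))))))))))))))))))))))))))))))))))))))) (Nat.add
    (Nat.add (f x26406) (Nat.add (f x26488) (Nat.add (f x26490) (Nat.add (f x26496) (Nat.add
    (f x26514) (Nat.add (f x26568) (Nat.add (f x26730) (Nat.add (f x26974) (Nat.add (f x26976)
    (Nat.add (f x26982) (Nat.add (f x27000) (Nat.add (f x27054) (Nat.add (f x27216) (Nat.add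
    (f x27702) (Nat.add (f x28432) (Nat.add (f x28434) (Nat.add (f x28440) (Nat.add (f x28458)
    (Nat.add (f x28512) (Nat.add (f x28674) (Nat.add (f x29160) (Nat.add (f x30618) (Nat.add
    (f x32806) (Nat.add (f x32808) (Nat.add (f x32814) (Nat.add (f x32832) (Nat.add (f x32886)
    (Nat.add (f x33048) (Nat.add (f x33534) (Nat.add (f x34992) (Nat.add (f x39368) (Nat.add
    (f x39370) (Nat.add (f x39372) (Nat.add (f x39376) (Nat.add (f x39378) (Nat.add (f x39384)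
    (Nat.add (f x39394) (Nat.add (f x39396) (Nat.add (f x39402) (Nat.add (f x39420) (Nat.add
    (f x39448) (Nat.add (f x39450) (Nat.add (f x39456) (Nat.add (f x39474) (Nat.add (f x39528)
    (Nat.add (f x39610) (Nat.add (f x39612) (Nat.add (f x39618) (Nat.add (f x39636) (Nat.add
    (f x39690) (Nat.add (f x39852) (Nat.add (f x40096) (Nat.add (f x40098) (Nat.add (f x40104)
    (Nat.add (f x40122) (Nat.add (f x40176) (Nat.add (f x40338) (Nat.add (f x40824) (Nat.add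
    (f x41554) (Nat.add (f x41556) 0))))))))))))))))))))))))))))))))))))))))))))))))))))))))))))
    (Nat.add (Nat.add (f x41562) (Nat.add (f x41580) (Nat.add (f x41634) (Nat.add (f x41796)
    (Nat.add (f x42282) (Nat.add (f x43740) (Nat.add (f x45928) (Nat.add (f x45930) (Nat.add
    (f x45936) (Nat.add (f x45954) (Nat.add (f x46008) (Nat.add (f x46170) (Nat.add (f x46656)
    (Nat.add (f x48114) (Nat.add (f x52488) 0))))))))))))))) 0))))))))))) v1

theorem fin_eq0 (f : Nat → Nat) (v1 : Nat) (x : Nat → Nat) :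
    apLL (fun t => x t.cd) cds (fin f v1) = Nat.beq (sum2 (fun t => f (x t.cd)) cds) v1 :=
  Eq.refl (apLL (fun t => x t.cd) cds (fin f v1))

theorem fin_eq (f : Nat → Nat) (v1 : Nat) (x : Nat → Nat) :
    ap x (fin f v1) = Nat.beq (sumL (fun s => f (x s)) (secL 10 4 0 [])) v1 :=
  ((ap_eq x (fin f v1)).symm.trans (fin_eq0 f v1 x)).trans
    (congrArg (fun z => Nat.beq z v1) (sum2_eq cds _ codes_ok (fun s => f (x s))))

def ch0 : List (Nat × Nat) :=
    [(8,20), (14,40), (16,20), (20,20), (32,40), (34,40), (38,40), (40,20), (56,20), (86,40),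
    (88,40), (92,40), (94,40), (100,20), (110,40), (112,20), (164,20), (248,40), (250,40),
    (254,40), (256,40), (262,40), (272,40), (274,40), (280,20), (326,40), (328,20), (488,10),
    (740,40), (742,20), (758,40), (760,40), (766,40), (784,20), (812,20), (814,40), (820,20),
    (976,10), (2272,20), (2278,20), (2440,10)]

def sqA0 (X M
    u0 u1 u2 u3 u4 u5 u6 u7 u8 u9 u10 u11 u12 u13 u14 u15 u16 u17 u18 u19 u20 u21 u22 u23 u24 u25
    u26 u27 u28 u29 u30 u31 u32 u33 u34 u35 u36 u37 u38 u39 u40 : Nat) : Nat :=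
    (Nat.add (Nat.mul (Nat.mul (Nat.land u0 M) (Nat.sub X (Nat.land u0 M))) 20)
    (Nat.add (Nat.mul (Nat.mul (Nat.land u1 M) (Nat.sub X (Nat.land u1 M))) 40)
    (Nat.add (Nat.mul (Nat.mul (Nat.land u2 M) (Nat.sub X (Nat.land u2 M))) 20)
    (Nat.add (Nat.mul (Nat.mul (Nat.land u3 M) (Nat.sub X (Nat.land u3 M))) 20)
    (Nat.add (Nat.mul (Nat.mul (Nat.land u4 M) (Nat.sub X (Nat.land u4 M))) 40)
    (Nat.add (Nat.mul (Nat.mul (Nat.land u5 M) (Nat.sub X (Nat.land u5 M))) 40)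
    (Nat.add (Nat.mul (Nat.mul (Nat.land u6 M) (Nat.sub X (Nat.land u6 M))) 40)
    (Nat.add (Nat.mul (Nat.mul (Nat.land u7 M) (Nat.sub X (Nat.land u7 M))) 20)
    (Nat.add (Nat.mul (Nat.mul (Nat.land u8 M) (Nat.sub X (Nat.land u8 M))) 20)
    (Nat.add (Nat.mul (Nat.mul (Nat.land u9 M) (Nat.sub X (Nat.land u9 M))) 40)
    (Nat.add (Nat.mul (Nat.mul (Nat.land u10 M) (Nat.sub X (Nat.land u10 M))) 40)
    (Nat.add (Nat.mul (Nat.mul (Nat.land u11 M) (Nat.sub X (Nat.land u11 M))) 40)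
    (Nat.add (Nat.mul (Nat.mul (Nat.land u12 M) (Nat.sub X (Nat.land u12 M))) 40)
    (Nat.add (Nat.mul (Nat.mul (Nat.land u13 M) (Nat.sub X (Nat.land u13 M))) 20)
    (Nat.add (Nat.mul (Nat.mul (Nat.land u14 M) (Nat.sub X (Nat.land u14 M))) 40)
    (Nat.add (Nat.mul (Nat.mul (Nat.land u15 M) (Nat.sub X (Nat.land u15 M))) 20)
    (Nat.add (Nat.mul (Nat.mul (Nat.land u16 M) (Nat.sub X (Nat.land u16 M))) 20)
    (Nat.add (Nat.mul (Nat.mul (Nat.land u17 M) (Nat.sub X (Nat.land u17 M))) 40)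
    (Nat.add (Nat.mul (Nat.mul (Nat.land u18 M) (Nat.sub X (Nat.land u18 M))) 40)
    (Nat.add (Nat.mul (Nat.mul (Nat.land u19 M) (Nat.sub X (Nat.land u19 M))) 40)
    (Nat.add (Nat.mul (Nat.mul (Nat.land u20 M) (Nat.sub X (Nat.land u20 M))) 40)
    (Nat.add (Nat.mul (Nat.mul (Nat.land u21 M) (Nat.sub X (Nat.land u21 M))) 40)
    (Nat.add (Nat.mul (Nat.mul (Nat.land u22 M) (Nat.sub X (Nat.land u22 M))) 40)
    (Nat.add (Nat.mul (Nat.mul (Nat.land u23 M) (Nat.sub X (Nat.land u23 M))) 40)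
    (Nat.add (Nat.mul (Nat.mul (Nat.land u24 M) (Nat.sub X (Nat.land u24 M))) 20)
    (Nat.add (Nat.mul (Nat.mul (Nat.land u25 M) (Nat.sub X (Nat.land u25 M))) 40)
    (Nat.add (Nat.mul (Nat.mul (Nat.land u26 M) (Nat.sub X (Nat.land u26 M))) 20)
    (Nat.add (Nat.mul (Nat.mul (Nat.land u27 M) (Nat.sub X (Nat.land u27 M))) 10)
    (Nat.add (Nat.mul (Nat.mul (Nat.land u28 M) (Nat.sub X (Nat.land u28 M))) 40)
    (Nat.add (Nat.mul (Nat.mul (Nat.land u29 M) (Nat.sub X (Nat.land u29 M))) 20)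
    (Nat.add (Nat.mul (Nat.mul (Nat.land u30 M) (Nat.sub X (Nat.land u30 M))) 40)
    (Nat.add (Nat.mul (Nat.mul (Nat.land u31 M) (Nat.sub X (Nat.land u31 M))) 40)
    (Nat.add (Nat.mul (Nat.mul (Nat.land u32 M) (Nat.sub X (Nat.land u32 M))) 40)
    (Nat.add (Nat.mul (Nat.mul (Nat.land u33 M) (Nat.sub X (Nat.land u33 M))) 20)
    (Nat.add (Nat.mul (Nat.mul (Nat.land u34 M) (Nat.sub X (Nat.land u34 M))) 20)
    (Nat.add (Nat.mul (Nat.mul (Nat.land u35 M) (Nat.sub X (Nat.land u35 M))) 40)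
    (Nat.add (Nat.mul (Nat.mul (Nat.land u36 M) (Nat.sub X (Nat.land u36 M))) 20)
    (Nat.add (Nat.mul (Nat.mul (Nat.land u37 M) (Nat.sub X (Nat.land u37 M))) 10)
    (Nat.add (Nat.mul (Nat.mul (Nat.land u38 M) (Nat.sub X (Nat.land u38 M))) 20)
    (Nat.add (Nat.mul (Nat.mul (Nat.land u39 M) (Nat.sub X (Nat.land u39 M))) 20)
    (Nat.add (Nat.mul (Nat.mul (Nat.land u40 M) (Nat.sub X (Nat.land u40 M))) 10)
    0)))))))))))))))))))))))))))))))))))))))))

def sqB0 (z0 z1 z2 z3 z4 z5 z6 : Nat) : Nat :=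
  sqA0 (Nat.shiftLeft 1 164) (Nat.sub (Nat.shiftLeft 1 164) 1)
    z0
    (Nat.shiftRight z0 164)
    (Nat.shiftRight (Nat.shiftRight z0 164) 164)
    (Nat.shiftRight (Nat.shiftRight (Nat.shiftRight z0 164) 164) 164)
    (Nat.shiftRight (Nat.shiftRight (Nat.shiftRight (Nat.shiftRight z0 164) 164) 164) 164)
    (Nat.shiftRight (Nat.shiftRight (Nat.shiftRight (Nat.shiftRight (Nat.shiftRight z0 164) 164) 164) 164) 164)
    z1
    (Nat.shiftRight z1 164)
    (Nat.shiftRight (Nat.shiftRight z1 164) 164)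
    (Nat.shiftRight (Nat.shiftRight (Nat.shiftRight z1 164) 164) 164)
    (Nat.shiftRight (Nat.shiftRight (Nat.shiftRight (Nat.shiftRight z1 164) 164) 164) 164)
    (Nat.shiftRight (Nat.shiftRight (Nat.shiftRight (Nat.shiftRight (Nat.shiftRight z1 164) 164) 164) 164) 164)
    z2
    (Nat.shiftRight z2 164)
    (Nat.shiftRight (Nat.shiftRight z2 164) 164)
    (Nat.shiftRight (Nat.shiftRight (Nat.shiftRight z2 164) 164) 164)
    (Nat.shiftRight (Nat.shiftRight (Nat.shiftRight (Nat.shiftRight z2 164) 164) 164) 164)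
    (Nat.shiftRight (Nat.shiftRight (Nat.shiftRight (Nat.shiftRight (Nat.shiftRight z2 164) 164) 164) 164) 164)
    z3
    (Nat.shiftRight z3 164)
    (Nat.shiftRight (Nat.shiftRight z3 164) 164)
    (Nat.shiftRight (Nat.shiftRight (Nat.shiftRight z3 164) 164) 164)
    (Nat.shiftRight (Nat.shiftRight (Nat.shiftRight (Nat.shiftRight z3 164) 164) 164) 164)
    (Nat.shiftRight (Nat.shiftRight (Nat.shiftRight (Nat.shiftRight (Nat.shiftRight z3 164) 164) 164) 164) 164)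
    z4
    (Nat.shiftRight z4 164)
    (Nat.shiftRight (Nat.shiftRight z4 164) 164)
    (Nat.shiftRight (Nat.shiftRight (Nat.shiftRight z4 164) 164) 164)
    (Nat.shiftRight (Nat.shiftRight (Nat.shiftRight (Nat.shiftRight z4 164) 164) 164) 164)
    (Nat.shiftRight (Nat.shiftRight (Nat.shiftRight (Nat.shiftRight (Nat.shiftRight z4 164) 164) 164) 164) 164)
    z5
    (Nat.shiftRight z5 164)
    (Nat.shiftRight (Nat.shiftRight z5 164) 164)
    (Nat.shiftRight (Nat.shiftRight (Nat.shiftRight z5 164) 164) 164)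
    (Nat.shiftRight (Nat.shiftRight (Nat.shiftRight (Nat.shiftRight z5 164) 164) 164) 164)
    (Nat.shiftRight (Nat.shiftRight (Nat.shiftRight (Nat.shiftRight (Nat.shiftRight z5 164) 164) 164) 164) 164)
    z6
    (Nat.shiftRight z6 164)
    (Nat.shiftRight (Nat.shiftRight z6 164) 164)
    (Nat.shiftRight (Nat.shiftRight (Nat.shiftRight z6 164) 164) 164)
    (Nat.shiftRight (Nat.shiftRight (Nat.shiftRight (Nat.shiftRight z6 164) 164) 164) 164)

def sqC0 (u : Nat) : Nat :=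
  sqB0
    u
    (sh6 164 u)
    (sh6 164 (sh6 164 u))
    (sh6 164 (sh6 164 (sh6 164 u)))
    (sh6 164 (sh6 164 (sh6 164 (sh6 164 u))))
    (sh6 164 (sh6 164 (sh6 164 (sh6 164 (sh6 164 u)))))
    (sh6 164 (sh6 164 (sh6 164 (sh6 164 (sh6 164 (sh6 164 u))))))

noncomputable def sq0 (v : Nat) : Nat := sqC0 (Nat.add v (offs 164 (Nat.shiftLeft 1 (Nat.sub 164 1)) ch0))

theorem sq_eq0 : sq0 = sqF 164 ch0 := Eq.refl sq0

theorem side_ok0 : sideOK 10 164 mask cf10 ch0 = true := by decide +kernel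

theorem cover : beqP (repL 10 4) (ch0 ++ []) = true := by decide +kernel

theorem len_ok : (secL 10 4 0 []).length = 615 := by decide +kernel

theorem wt_ok : (List.map Prod.snd (ch0 ++ [])).sum = 1230 := by decide +kernel

end Vale.Agent.P348.A10_4
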