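import Vale.Agent.P348.KCore2
import Vale.Agent.P348.Poly

set_option maxRecDepth 1000000
set_option maxHeartbeats 0
set_option linter.all false

namespace Vale.Agent.P348.A4_0

def mask : Nat := nat_lit 1

def KK : Type :=
    Nat → Bool

noncomputable def cd0 : List Spec :=
  [Spec.mk (nat_lit 0) (nat_lit 0) [] (nat_lit 0) [] false]

noncomputable def cds : List (List Spec) :=
    cd0 :: []

noncomputable def ap (x : Nat → Nat) (k :
    Nat → Bool) : Bool :=
  k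
    (x (nat_lit 0))

theorem ap_eq (x : Nat → Nat) (k : FnLL cds) : apLL (fun t => x t.cd) cds k = ap x k :=
  Eq.refl (ap x k)

theorem codes_ok : beqL (codes cds) (secL 4 0 0 []) = true := by decide +kernel

noncomputable def fin (f : Nat → Nat) (v1 : Nat) (
    x0 : Nat) : Bool :=
  Nat.beq
    (Nat.add (Nat.add (f x0) 0) 0) v1

theorem fin_eq0 (f : Nat → Nat) (v1 : Nat) (x : Nat → Nat) :
    apLL (fun t => x t.cd) cds (fin f v1) = Nat.beq (sum2 (fun t => f (x t.cd)) cds) v1 :=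
  Eq.refl (apLL (fun t => x t.cd) cds (fin f v1))

theorem fin_eq (f : Nat → Nat) (v1 : Nat) (x : Nat → Nat) :
    ap x (fin f v1) = Nat.beq (sumL (fun s => f (x s)) (secL 4 0 0 [])) v1 :=
  ((ap_eq x (fin f v1)).symm.trans (fin_eq0 f v1 x)).trans
    (congrArg (fun z => Nat.beq z v1) (sum2_eq cds _ codes_ok (fun s => f (x s))))

def ch0 : List (Nat × Nat) :=
    [(0,2)]

def sqA0 (X M
    u0 : Nat) : Nat :=
    (Nat.add (Nat.mul (Nat.mul (Nat.land u0 M) (Nat.sub X (Nat.land u0 M))) 2)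
    0)

def sqB0 (z0 : Nat) : Nat :=
  sqA0 (Nat.shiftLeft 1 80) (Nat.sub (Nat.shiftLeft 1 80) 1)
    z0

def sqC0 (u : Nat) : Nat :=
  sqB0
    u

noncomputable def sq0 (v : Nat) : Nat := sqC0 (Nat.add v (offs 80 (Nat.shiftLeft 1 (Nat.sub 80 1)) ch0))

theorem sq_eq0 : sq0 = sqF 80 ch0 := Eq.refl sq0

theorem side_ok0 : sideOK 4 80 mask cf4 ch0 = true := by decide +kernel

theorem cover : beqP (repL 4 0) (ch0 ++ []) = true := by decide +kernel

theorem len_ok : (secL 4 0 0 []).length = 1 := by decide +kernel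

theorem wt_ok : (List.map Prod.snd (ch0 ++ [])).sum = 2 := by decide +kernel

end Vale.Agent.P348.A4_0

namespace Vale.Agent.P348.A4_1

def mask : Nat := nat_lit 2

def KK : Type :=
    Nat → Nat → Nat → Nat → Bool

noncomputable def cd0 : List Spec :=
  [Spec.mk (nat_lit 1) (nat_lit 0) [] (nat_lit 0) [] false,
   Spec.mk (nat_lit 3) (nat_lit 0) [] (nat_lit 0) [] false,
   Spec.mk (nat_lit 9) (nat_lit 0) [] (nat_lit 0) [] false,
   Spec.mk (nat_lit 27) (nat_lit 0) [] (nat_lit 0) [] false]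

noncomputable def cds : List (List Spec) :=
    cd0 :: []

noncomputable def ap (x : Nat → Nat) (k :
    Nat → Nat → Nat → Nat → Bool) : Bool :=
  k
    (x (nat_lit 1)) (x (nat_lit 3)) (x (nat_lit 9)) (x (nat_lit 27))

theorem ap_eq (x : Nat → Nat) (k : FnLL cds) : apLL (fun t => x t.cd) cds k = ap x k :=
  Eq.refl (ap x k)

theorem codes_ok : beqL (codes cds) (secL 4 1 0 []) = true := by decide +kernel

noncomputable def fin (f : Nat → Nat) (v1 : Nat) (
    x1 x3 x9 x27 : Nat) : Bool :=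
  Nat.beq
    (Nat.add (Nat.add (f x1) (Nat.add (f x3) (Nat.add (f x9) (Nat.add (f x27) 0)))) 0) v1

theorem fin_eq0 (f : Nat → Nat) (v1 : Nat) (x : Nat → Nat) :
    apLL (fun t => x t.cd) cds (fin f v1) = Nat.beq (sum2 (fun t => f (x t.cd)) cds) v1 :=
  Eq.refl (apLL (fun t => x t.cd) cds (fin f v1))

theorem fin_eq (f : Nat → Nat) (v1 : Nat) (x : Nat → Nat) :
    ap x (fin f v1) = Nat.beq (sumL (fun s => f (x s)) (secL 4 1 0 [])) v1 :=
  ((ap_eq x (fin f v1)).symm.trans (fin_eq0 f v1 x)).trans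
    (congrArg (fun z => Nat.beq z v1) (sum2_eq cds _ codes_ok (fun s => f (x s))))

def ch0 : List (Nat × Nat) :=
    [(1,8)]

def sqA0 (X M
    u0 : Nat) : Nat :=
    (Nat.add (Nat.mul (Nat.mul (Nat.land u0 M) (Nat.sub X (Nat.land u0 M))) 8)
    0)

def sqB0 (z0 : Nat) : Nat :=
  sqA0 (Nat.shiftLeft 1 80) (Nat.sub (Nat.shiftLeft 1 80) 1)
    z0

def sqC0 (u : Nat) : Nat :=
  sqB0
    u

noncomputable def sq0 (v : Nat) : Nat := sqC0 (Nat.add v (offs 80 (Nat.shiftLeft 1 (Nat.sub 80 1)) ch0))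

theorem sq_eq0 : sq0 = sqF 80 ch0 := Eq.refl sq0

theorem side_ok0 : sideOK 4 80 mask cf4 ch0 = true := by decide +kernel

theorem cover : beqP (repL 4 1) (ch0 ++ []) = true := by decide +kernel

theorem len_ok : (secL 4 1 0 []).length = 4 := by decide +kernel

theorem wt_ok : (List.map Prod.snd (ch0 ++ [])).sum = 8 := by decide +kernel

end Vale.Agent.P348.A4_1

namespace Vale.Agent.P348.A4_2

def mask : Nat := nat_lit 1044

def KK : Type :=
    Nat → Nat → Nat → Nat → Nat → Nat → Nat → Nat → Nat → Nat → Bool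

noncomputable def cd0 : List Spec :=
  [Spec.mk (nat_lit 2) (nat_lit 0) [] (nat_lit 0) [] false,
   Spec.mk (nat_lit 4) (nat_lit 0) [] (nat_lit 0) [] false,
   Spec.mk (nat_lit 6) (nat_lit 0) [] (nat_lit 0) [] false,
   Spec.mk (nat_lit 10) (nat_lit 0) [] (nat_lit 0) [] false,
   Spec.mk (nat_lit 12) (nat_lit 0) [] (nat_lit 0) [] false,
   Spec.mk (nat_lit 18) (nat_lit 0) [] (nat_lit 0) [] false,
   Spec.mk (nat_lit 28) (nat_lit 0) [] (nat_lit 0) [] false,
   Spec.mk (nat_lit 30) (nat_lit 0) [] (nat_lit 0) [] false,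
   Spec.mk (nat_lit 36) (nat_lit 0) [] (nat_lit 0) [] false,
   Spec.mk (nat_lit 54) (nat_lit 0) [] (nat_lit 0) [] false]

noncomputable def cds : List (List Spec) :=
    cd0 :: []

noncomputable def ap (x : Nat → Nat) (k :
    Nat → Nat → Nat → Nat → Nat → Nat → Nat → Nat → Nat → Nat → Bool) : Bool :=
  k
    (x (nat_lit 2)) (x (nat_lit 4)) (x (nat_lit 6)) (x (nat_lit 10)) (x (nat_lit 12))
    (x (nat_lit 18)) (x (nat_lit 28)) (x (nat_lit 30)) (x (nat_lit 36)) (x (nat_lit 54))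

theorem ap_eq (x : Nat → Nat) (k : FnLL cds) : apLL (fun t => x t.cd) cds k = ap x k :=
  Eq.refl (ap x k)

theorem codes_ok : beqL (codes cds) (secL 4 2 0 []) = true := by decide +kernel

noncomputable def fin (f : Nat → Nat) (v1 : Nat) (
    x2 x4 x6 x10 x12 x18 x28 x30 x36 x54 : Nat) : Bool :=
  Nat.beq
    (Nat.add (Nat.add (f x2) (Nat.add (f x4) (Nat.add (f x6) (Nat.add (f x10) (Nat.add (f x12)
    (Nat.add (f x18) (Nat.add (f x28) (Nat.add (f x30) (Nat.add (f x36) (Nat.add (f x54)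
    0)))))))))) 0) v1

theorem fin_eq0 (f : Nat → Nat) (v1 : Nat) (x : Nat → Nat) :
    apLL (fun t => x t.cd) cds (fin f v1) = Nat.beq (sum2 (fun t => f (x t.cd)) cds) v1 :=
  Eq.refl (apLL (fun t => x t.cd) cds (fin f v1))

theorem fin_eq (f : Nat → Nat) (v1 : Nat) (x : Nat → Nat) :
    ap x (fin f v1) = Nat.beq (sumL (fun s => f (x s)) (secL 4 2 0 [])) v1 :=
  ((ap_eq x (fin f v1)).symm.trans (fin_eq0 f v1 x)).trans
    (congrArg (fun z => Nat.beq z v1) (sum2_eq cds _ codes_ok (fun s => f (x s))))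

def ch0 : List (Nat × Nat) :=
    [(2,8), (4,8), (10,4)]

def sqA0 (X M
    u0 u1 u2 : Nat) : Nat :=
    (Nat.add (Nat.mul (Nat.mul (Nat.land u0 M) (Nat.sub X (Nat.land u0 M))) 8)
    (Nat.add (Nat.mul (Nat.mul (Nat.land u1 M) (Nat.sub X (Nat.land u1 M))) 8)
    (Nat.add (Nat.mul (Nat.mul (Nat.land u2 M) (Nat.sub X (Nat.land u2 M))) 4)
    0)))

def sqB0 (z0 : Nat) : Nat :=
  sqA0 (Nat.shiftLeft 1 80) (Nat.sub (Nat.shiftLeft 1 80) 1)
    z0
    (Nat.shiftRight z0 80)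
    (Nat.shiftRight (Nat.shiftRight z0 80) 80)

def sqC0 (u : Nat) : Nat :=
  sqB0
    u

noncomputable def sq0 (v : Nat) : Nat := sqC0 (Nat.add v (offs 80 (Nat.shiftLeft 1 (Nat.sub 80 1)) ch0))

theorem sq_eq0 : sq0 = sqF 80 ch0 := Eq.refl sq0

theorem side_ok0 : sideOK 4 80 mask cf4 ch0 = true := by decide +kernel

theorem cover : beqP (repL 4 2) (ch0 ++ []) = true := by decide +kernel

theorem len_ok : (secL 4 2 0 []).length = 10 := by decide +kernel

theorem wt_ok : (List.map Prod.snd (ch0 ++ [])).sum = 20 := by decide +kernel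

end Vale.Agent.P348.A4_2

namespace Vale.Agent.P348.A4_3

def mask : Nat := nat_lit 10272

def KK : Type :=
    Nat → Nat → Nat → Nat → Nat → Nat → Nat → Nat → Nat → Nat → Nat → Nat → Nat → Nat → Nat → Nat →
    Bool

noncomputable def cd0 : List Spec :=
  [Spec.mk (nat_lit 5) (nat_lit 0) [] (nat_lit 0) [] false,
   Spec.mk (nat_lit 7) (nat_lit 0) [] (nat_lit 0) [] false,
   Spec.mk (nat_lit 11) (nat_lit 0) [] (nat_lit 0) [] false,
   Spec.mk (nat_lit 13) (nat_lit 0) [] (nat_lit 0) [] false,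
   Spec.mk (nat_lit 15) (nat_lit 0) [] (nat_lit 0) [] false,
   Spec.mk (nat_lit 19) (nat_lit 0) [] (nat_lit 0) [] false,
   Spec.mk (nat_lit 21) (nat_lit 0) [] (nat_lit 0) [] false,
   Spec.mk (nat_lit 29) (nat_lit 0) [] (nat_lit 0) [] false,
   Spec.mk (nat_lit 31) (nat_lit 0) [] (nat_lit 0) [] false,
   Spec.mk (nat_lit 33) (nat_lit 0) [] (nat_lit 0) [] false,
   Spec.mk (nat_lit 37) (nat_lit 0) [] (nat_lit 0) [] false,
   Spec.mk (nat_lit 39) (nat_lit 0) [] (nat_lit 0) [] false,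
   Spec.mk (nat_lit 45) (nat_lit 0) [] (nat_lit 0) [] false,
   Spec.mk (nat_lit 55) (nat_lit 0) [] (nat_lit 0) [] false,
   Spec.mk (nat_lit 57) (nat_lit 0) [] (nat_lit 0) [] false,
   Spec.mk (nat_lit 63) (nat_lit 0) [] (nat_lit 0) [] false]

noncomputable def cds : List (List Spec) :=
    cd0 :: []

noncomputable def ap (x : Nat → Nat) (k :
    Nat → Nat → Nat → Nat → Nat → Nat → Nat → Nat → Nat → Nat → Nat → Nat → Nat → Nat → Nat → Nat →
    Bool) : Bool :=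
  k
    (x (nat_lit 5)) (x (nat_lit 7)) (x (nat_lit 11)) (x (nat_lit 13)) (x (nat_lit 15))
    (x (nat_lit 19)) (x (nat_lit 21)) (x (nat_lit 29)) (x (nat_lit 31)) (x (nat_lit 33))
    (x (nat_lit 37)) (x (nat_lit 39)) (x (nat_lit 45)) (x (nat_lit 55)) (x (nat_lit 57))
    (x (nat_lit 63))

theorem ap_eq (x : Nat → Nat) (k : FnLL cds) : apLL (fun t => x t.cd) cds k = ap x k :=
  Eq.refl (ap x k)

theorem codes_ok : beqL (codes cds) (secL 4 3 0 []) = true := by decide +kernel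

noncomputable def fin (f : Nat → Nat) (v1 : Nat) (
    x5 x7 x11 x13 x15 x19 x21 x29 x31 x33 x37 x39 x45 x55 x57 x63 : Nat) : Bool :=
  Nat.beq
    (Nat.add (Nat.add (f x5) (Nat.add (f x7) (Nat.add (f x11) (Nat.add (f x13) (Nat.add (f x15)
    (Nat.add (f x19) (Nat.add (f x21) (Nat.add (f x29) (Nat.add (f x31) (Nat.add (f x33) (Nat.add
    (f x37) (Nat.add (f x39) (Nat.add (f x45) (Nat.add (f x55) (Nat.add (f x57) (Nat.add (f x63)
    0)))))))))))))))) 0) v1

theorem fin_eq0 (f : Nat → Nat) (v1 : Nat) (x : Nat → Nat) :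
    apLL (fun t => x t.cd) cds (fin f v1) = Nat.beq (sum2 (fun t => f (x t.cd)) cds) v1 :=
  Eq.refl (apLL (fun t => x t.cd) cds (fin f v1))

theorem fin_eq (f : Nat → Nat) (v1 : Nat) (x : Nat → Nat) :
    ap x (fin f v1) = Nat.beq (sumL (fun s => f (x s)) (secL 4 3 0 [])) v1 :=
  ((ap_eq x (fin f v1)).symm.trans (fin_eq0 f v1 x)).trans
    (congrArg (fun z => Nat.beq z v1) (sum2_eq cds _ codes_ok (fun s => f (x s))))

def ch0 : List (Nat × Nat) :=
    [(5,16), (11,8), (13,8)]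

def sqA0 (X M
    u0 u1 u2 : Nat) : Nat :=
    (Nat.add (Nat.mul (Nat.mul (Nat.land u0 M) (Nat.sub X (Nat.land u0 M))) 16)
    (Nat.add (Nat.mul (Nat.mul (Nat.land u1 M) (Nat.sub X (Nat.land u1 M))) 8)
    (Nat.add (Nat.mul (Nat.mul (Nat.land u2 M) (Nat.sub X (Nat.land u2 M))) 8)
    0)))

def sqB0 (z0 : Nat) : Nat :=
  sqA0 (Nat.shiftLeft 1 80) (Nat.sub (Nat.shiftLeft 1 80) 1)
    z0
    (Nat.shiftRight z0 80)
    (Nat.shiftRight (Nat.shiftRight z0 80) 80)

def sqC0 (u : Nat) : Nat :=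
  sqB0
    u

noncomputable def sq0 (v : Nat) : Nat := sqC0 (Nat.add v (offs 80 (Nat.shiftLeft 1 (Nat.sub 80 1)) ch0))

theorem sq_eq0 : sq0 = sqF 80 ch0 := Eq.refl sq0

theorem side_ok0 : sideOK 4 80 mask cf4 ch0 = true := by decide +kernel

theorem cover : beqP (repL 4 3) (ch0 ++ []) = true := by decide +kernel

theorem len_ok : (secL 4 3 0 []).length = 16 := by decide +kernel

theorem wt_ok : (List.map Prod.snd (ch0 ++ [])).sum = 32 := by decide +kernel

end Vale.Agent.P348.A4_3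

namespace Vale.Agent.P348.A4_4

def mask : Nat := nat_lit 1099512758528

def KK : Type :=
    Nat → Nat → Nat → Nat → Nat → Nat → Nat → Nat → Nat → Nat → Nat → Nat → Nat → Nat → Nat → Nat →
    Nat → Nat → Nat → Bool

noncomputable def cd0 : List Spec :=
  [Spec.mk (nat_lit 8) (nat_lit 0) [] (nat_lit 0) [] false,
   Spec.mk (nat_lit 14) (nat_lit 0) [] (nat_lit 0) [] false,
   Spec.mk (nat_lit 16) (nat_lit 0) [] (nat_lit 0) [] false,
   Spec.mk (nat_lit 20) (nat_lit 0) [] (nat_lit 0) [] false,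
   Spec.mk (nat_lit 22) (nat_lit 0) [] (nat_lit 0) [] false,
   Spec.mk (nat_lit 24) (nat_lit 0) [] (nat_lit 0) [] false,
   Spec.mk (nat_lit 32) (nat_lit 0) [] (nat_lit 0) [] false,
   Spec.mk (nat_lit 34) (nat_lit 0) [] (nat_lit 0) [] false,
   Spec.mk (nat_lit 38) (nat_lit 0) [] (nat_lit 0) [] false,
   Spec.mk (nat_lit 40) (nat_lit 0) [] (nat_lit 0) [] false,
   Spec.mk (nat_lit 42) (nat_lit 0) [] (nat_lit 0) [] false,
   Spec.mk (nat_lit 46) (nat_lit 0) [] (nat_lit 0) [] false,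
   Spec.mk (nat_lit 48) (nat_lit 0) [] (nat_lit 0) [] false,
   Spec.mk (nat_lit 56) (nat_lit 0) [] (nat_lit 0) [] false,
   Spec.mk (nat_lit 58) (nat_lit 0) [] (nat_lit 0) [] false,
   Spec.mk (nat_lit 60) (nat_lit 0) [] (nat_lit 0) [] false,
   Spec.mk (nat_lit 64) (nat_lit 0) [] (nat_lit 0) [] false,
   Spec.mk (nat_lit 66) (nat_lit 0) [] (nat_lit 0) [] false,
   Spec.mk (nat_lit 72) (nat_lit 0) [] (nat_lit 0) [] false]

noncomputable def cds : List (List Spec) :=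
    cd0 :: []

noncomputable def ap (x : Nat → Nat) (k :
    Nat → Nat → Nat → Nat → Nat → Nat → Nat → Nat → Nat → Nat → Nat → Nat → Nat → Nat → Nat → Nat →
    Nat → Nat → Nat → Bool) : Bool :=
  k
    (x (nat_lit 8)) (x (nat_lit 14)) (x (nat_lit 16)) (x (nat_lit 20)) (x (nat_lit 22))
    (x (nat_lit 24)) (x (nat_lit 32)) (x (nat_lit 34)) (x (nat_lit 38)) (x (nat_lit 40))
    (x (nat_lit 42)) (x (nat_lit 46)) (x (nat_lit 48)) (x (nat_lit 56)) (x (nat_lit 58))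
    (x (nat_lit 60)) (x (nat_lit 64)) (x (nat_lit 66)) (x (nat_lit 72))

theorem ap_eq (x : Nat → Nat) (k : FnLL cds) : apLL (fun t => x t.cd) cds k = ap x k :=
  Eq.refl (ap x k)

theorem codes_ok : beqL (codes cds) (secL 4 4 0 []) = true := by decide +kernel

noncomputable def fin (f : Nat → Nat) (v1 : Nat) (
    x8 x14 x16 x20 x22 x24 x32 x34 x38 x40 x42 x46 x48 x56 x58 x60 x64 x66 x72 : Nat) : Bool :=
  Nat.beq
    (Nat.add (Nat.add (f x8) (Nat.add (f x14) (Nat.add (f x16) (Nat.add (f x20) (Nat.add (f x22)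
    (Nat.add (f x24) (Nat.add (f x32) (Nat.add (f x34) (Nat.add (f x38) (Nat.add (f x40) (Nat.add
    (f x42) (Nat.add (f x46) (Nat.add (f x48) (Nat.add (f x56) (Nat.add (f x58) (Nat.add (f x60)
    (Nat.add (f x64) (Nat.add (f x66) (Nat.add (f x72) 0))))))))))))))))))) 0) v1

theorem fin_eq0 (f : Nat → Nat) (v1 : Nat) (x : Nat → Nat) :
    apLL (fun t => x t.cd) cds (fin f v1) = Nat.beq (sum2 (fun t => f (x t.cd)) cds) v1 :=
  Eq.refl (apLL (fun t => x t.cd) cds (fin f v1))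

theorem fin_eq (f : Nat → Nat) (v1 : Nat) (x : Nat → Nat) :
    ap x (fin f v1) = Nat.beq (sumL (fun s => f (x s)) (secL 4 4 0 [])) v1 :=
  ((ap_eq x (fin f v1)).symm.trans (fin_eq0 f v1 x)).trans
    (congrArg (fun z => Nat.beq z v1) (sum2_eq cds _ codes_ok (fun s => f (x s))))

noncomputable def fin2 (f : Nat → Nat) (v1 v2 : Nat) (
    x8 x14 x16 x20 x22 x24 x32 x34 x38 x40 x42 x46 x48 x56 x58 x60 x64 x66 x72 : Nat) : Bool :=
  and (Nat.beq
    (Nat.add (Nat.add (f x8) (Nat.add (f x14) (Nat.add (f x16) (Nat.add (f x20) (Nat.add (f x22)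
    (Nat.add (f x24) (Nat.add (f x32) (Nat.add (f x34) (Nat.add (f x38) (Nat.add (f x40) (Nat.add
    (f x42) (Nat.add (f x46) (Nat.add (f x48) (Nat.add (f x56) (Nat.add (f x58) (Nat.add (f x60)
    (Nat.add (f x64) (Nat.add (f x66) (Nat.add (f x72) 0))))))))))))))))))) 0) v1) (Nat.beq
    (Nat.add (Nat.add (f (Nat.add x8 x72)) (Nat.add (f (Nat.add x14 x66)) (Nat.add
    (f (Nat.add x16 x64)) (Nat.add (f (Nat.add x20 x60)) (Nat.add (f (Nat.add x22 x58)) (Nat.add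
    (f (Nat.add x24 x56)) (Nat.add (f (Nat.add x32 x48)) (Nat.add (f (Nat.add x34 x46)) (Nat.add
    (f (Nat.add x38 x42)) (Nat.add (f (Nat.add x40 x40)) (Nat.add (f (Nat.add x42 x38)) (Nat.add
    (f (Nat.add x46 x34)) (Nat.add (f (Nat.add x48 x32)) (Nat.add (f (Nat.add x56 x24)) (Nat.add
    (f (Nat.add x58 x22)) (Nat.add (f (Nat.add x60 x20)) (Nat.add (f (Nat.add x64 x16)) (Nat.add
    (f (Nat.add x66 x14)) (Nat.add (f (Nat.add x72 x8)) 0))))))))))))))))))) 0) v2)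

theorem fin2_eq0 (f : Nat → Nat) (v1 v2 : Nat) (x : Nat → Nat) :
    apLL (fun t => x t.cd) cds (fin2 f v1 v2) =
    and (Nat.beq (sum2 (fun t => f (x t.cd)) cds) v1)
      (Nat.beq (sum2 (fun t => f (Nat.add (x t.cd) (x (Nat.sub 80 t.cd)))) cds) v2) :=
  Eq.refl (apLL (fun t => x t.cd) cds (fin2 f v1 v2))

theorem fin2_eq (f : Nat → Nat) (v1 v2 : Nat) (x : Nat → Nat) :
    ap x (fin2 f v1 v2) = and (Nat.beq (sumL (fun s => f (x s)) (secL 4 4 0 [])) v1)
      (Nat.beq (sumL (fun s => f (Nat.add (x s) (x (Nat.sub 80 s)))) (secL 4 4 0 [])) v2) :=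
  ((ap_eq x (fin2 f v1 v2)).symm.trans (fin2_eq0 f v1 v2 x)).trans
    (congr (congrArg and (congrArg (fun z => Nat.beq z v1) (sum2_eq cds _ codes_ok (fun s => f (x s)))))
      (congrArg (fun z => Nat.beq z v2)
        (sum2_eq cds _ codes_ok (fun s => f (Nat.add (x s) (x (Nat.sub 80 s)))))))

def ch0 : List (Nat × Nat) :=
    [(8,4), (14,8), (16,4), (20,2), (40,1)]

def sqA0 (X M
    u0 u1 u2 u3 u4 : Nat) : Nat :=
    (Nat.add (Nat.mul (Nat.mul (Nat.land u0 M) (Nat.sub X (Nat.land u0 M))) 4)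
    (Nat.add (Nat.mul (Nat.mul (Nat.land u1 M) (Nat.sub X (Nat.land u1 M))) 8)
    (Nat.add (Nat.mul (Nat.mul (Nat.land u2 M) (Nat.sub X (Nat.land u2 M))) 4)
    (Nat.add (Nat.mul (Nat.mul (Nat.land u3 M) (Nat.sub X (Nat.land u3 M))) 2)
    (Nat.add (Nat.mul (Nat.mul (Nat.land u4 M) (Nat.sub X (Nat.land u4 M))) 1)
    0)))))

def sqB0 (z0 : Nat) : Nat :=
  sqA0 (Nat.shiftLeft 1 80) (Nat.sub (Nat.shiftLeft 1 80) 1)
    z0
    (Nat.shiftRight z0 80)
    (Nat.shiftRight (Nat.shiftRight z0 80) 80)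
    (Nat.shiftRight (Nat.shiftRight (Nat.shiftRight z0 80) 80) 80)
    (Nat.shiftRight (Nat.shiftRight (Nat.shiftRight (Nat.shiftRight z0 80) 80) 80) 80)

def sqC0 (u : Nat) : Nat :=
  sqB0
    u

noncomputable def sq0 (v : Nat) : Nat := sqC0 (Nat.add v (offs 80 (Nat.shiftLeft 1 (Nat.sub 80 1)) ch0))

theorem sq_eq0 : sq0 = sqF 80 ch0 := Eq.refl sq0

theorem side_ok0 : sideOK 4 80 mask cf4 ch0 = true := by decide +kernel

theorem cover : beqP (repL 4 4) (ch0 ++ []) = true := by decide +kernel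

theorem len_ok : (secL 4 4 0 []).length = 19 := by decide +kernel

theorem wt_ok : (List.map Prod.snd (ch0 ++ [])).sum = 19 := by decide +kernel

end Vale.Agent.P348.A4_4
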