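import Vale.Agent.P348.KCore2
import Vale.Agent.P348.Poly

set_option maxRecDepth 1000000
set_option maxHeartbeats 0
set_option linter.all false

namespace Vale.Agent.P348.A5_0

def mask : Nat := nat_lit 1

def KK : Type :=
    Nat → Bool

noncomputable def cd0 : List Spec :=
  [Spec.mk (nat_lit 0) (nat_lit 0) [] (nat_lit 0) [] false]

noncomputable def cds : List (List Spec) :=
    cd0 :: []

noncomputable def ap (x : Nat → Nat) (k :
    Nat → Bool) : Bool :=
  k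
    (x (nat_lit 0))

theorem ap_eq (x : Nat → Nat) (k : FnLL cds) : apLL (fun t => x t.cd) cds k = ap x k :=
  Eq.refl (ap x k)

theorem codes_ok : beqL (codes cds) (secL 5 0 0 []) = true := by decide +kernel

noncomputable def fin (f : Nat → Nat) (v1 : Nat) (
    x0 : Nat) : Bool :=
  Nat.beq
    (Nat.add (Nat.add (f x0) 0) 0) v1

theorem fin_eq0 (f : Nat → Nat) (v1 : Nat) (x : Nat → Nat) :
    apLL (fun t => x t.cd) cds (fin f v1) = Nat.beq (sum2 (fun t => f (x t.cd)) cds) v1 :=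
  Eq.refl (apLL (fun t => x t.cd) cds (fin f v1))

theorem fin_eq (f : Nat → Nat) (v1 : Nat) (x : Nat → Nat) :
    ap x (fin f v1) = Nat.beq (sumL (fun s => f (x s)) (secL 5 0 0 [])) v1 :=
  ((ap_eq x (fin f v1)).symm.trans (fin_eq0 f v1 x)).trans
    (congrArg (fun z => Nat.beq z v1) (sum2_eq cds _ codes_ok (fun s => f (x s))))

def ch0 : List (Nat × Nat) :=
    [(0,2)]

def sqA0 (X M
    u0 : Nat) : Nat :=
    (Nat.add (Nat.mul (Nat.mul (Nat.land u0 M) (Nat.sub X (Nat.land u0 M))) 2)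
    0)

def sqB0 (z0 : Nat) : Nat :=
  sqA0 (Nat.shiftLeft 1 91) (Nat.sub (Nat.shiftLeft 1 91) 1)
    z0

def sqC0 (u : Nat) : Nat :=
  sqB0
    u

noncomputable def sq0 (v : Nat) : Nat := sqC0 (Nat.add v (offs 91 (Nat.shiftLeft 1 (Nat.sub 91 1)) ch0))

theorem sq_eq0 : sq0 = sqF 91 ch0 := Eq.refl sq0

theorem side_ok0 : sideOK 5 91 mask cf5 ch0 = true := by decide +kernel

theorem cover : beqP (repL 5 0) (ch0 ++ []) = true := by decide +kernel

theorem len_ok : (secL 5 0 0 []).length = 1 := by decide +kernel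

theorem wt_ok : (List.map Prod.snd (ch0 ++ [])).sum = 2 := by decide +kernel

end Vale.Agent.P348.A5_0

namespace Vale.Agent.P348.A5_1

def mask : Nat := nat_lit 2

def KK : Type :=
    Nat → Nat → Nat → Nat → Nat → Bool

noncomputable def cd0 : List Spec :=
  [Spec.mk (nat_lit 1) (nat_lit 0) [] (nat_lit 0) [] false,
   Spec.mk (nat_lit 3) (nat_lit 0) [] (nat_lit 0) [] false,
   Spec.mk (nat_lit 9) (nat_lit 0) [] (nat_lit 0) [] false,
   Spec.mk (nat_lit 27) (nat_lit 0) [] (nat_lit 0) [] false,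
   Spec.mk (nat_lit 81) (nat_lit 0) [] (nat_lit 0) [] false]

noncomputable def cds : List (List Spec) :=
    cd0 :: []

noncomputable def ap (x : Nat → Nat) (k :
    Nat → Nat → Nat → Nat → Nat → Bool) : Bool :=
  k
    (x (nat_lit 1)) (x (nat_lit 3)) (x (nat_lit 9)) (x (nat_lit 27)) (x (nat_lit 81))

theorem ap_eq (x : Nat → Nat) (k : FnLL cds) : apLL (fun t => x t.cd) cds k = ap x k :=
  Eq.refl (ap x k)

theorem codes_ok : beqL (codes cds) (secL 5 1 0 []) = true := by decide +kernel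

noncomputable def fin (f : Nat → Nat) (v1 : Nat) (
    x1 x3 x9 x27 x81 : Nat) : Bool :=
  Nat.beq
    (Nat.add (Nat.add (f x1) (Nat.add (f x3) (Nat.add (f x9) (Nat.add (f x27) (Nat.add (f x81)
    0))))) 0) v1

theorem fin_eq0 (f : Nat → Nat) (v1 : Nat) (x : Nat → Nat) :
    apLL (fun t => x t.cd) cds (fin f v1) = Nat.beq (sum2 (fun t => f (x t.cd)) cds) v1 :=
  Eq.refl (apLL (fun t => x t.cd) cds (fin f v1))

theorem fin_eq (f : Nat → Nat) (v1 : Nat) (x : Nat → Nat) :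
    ap x (fin f v1) = Nat.beq (sumL (fun s => f (x s)) (secL 5 1 0 [])) v1 :=
  ((ap_eq x (fin f v1)).symm.trans (fin_eq0 f v1 x)).trans
    (congrArg (fun z => Nat.beq z v1) (sum2_eq cds _ codes_ok (fun s => f (x s))))

def ch0 : List (Nat × Nat) :=
    [(1,10)]

def sqA0 (X M
    u0 : Nat) : Nat :=
    (Nat.add (Nat.mul (Nat.mul (Nat.land u0 M) (Nat.sub X (Nat.land u0 M))) 10)
    0)

def sqB0 (z0 : Nat) : Nat :=
  sqA0 (Nat.shiftLeft 1 91) (Nat.sub (Nat.shiftLeft 1 91) 1)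
    z0

def sqC0 (u : Nat) : Nat :=
  sqB0
    u

noncomputable def sq0 (v : Nat) : Nat := sqC0 (Nat.add v (offs 91 (Nat.shiftLeft 1 (Nat.sub 91 1)) ch0))

theorem sq_eq0 : sq0 = sqF 91 ch0 := Eq.refl sq0

theorem side_ok0 : sideOK 5 91 mask cf5 ch0 = true := by decide +kernel

theorem cover : beqP (repL 5 1) (ch0 ++ []) = true := by decide +kernel

theorem len_ok : (secL 5 1 0 []).length = 5 := by decide +kernel

theorem wt_ok : (List.map Prod.snd (ch0 ++ [])).sum = 10 := by decide +kernel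

end Vale.Agent.P348.A5_1

namespace Vale.Agent.P348.A5_2

def mask : Nat := nat_lit 1044

def KK : Type :=
    Nat → Nat → Nat → Nat → Nat → Nat → Nat → Nat → Nat → Nat → Nat → Nat → Nat → Nat → Nat → Bool

noncomputable def cd0 : List Spec :=
  [Spec.mk (nat_lit 2) (nat_lit 0) [] (nat_lit 0) [] false,
   Spec.mk (nat_lit 4) (nat_lit 0) [] (nat_lit 0) [] false,
   Spec.mk (nat_lit 6) (nat_lit 0) [] (nat_lit 0) [] false,
   Spec.mk (nat_lit 10) (nat_lit 0) [] (nat_lit 0) [] false,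
   Spec.mk (nat_lit 12) (nat_lit 0) [] (nat_lit 0) [] false,
   Spec.mk (nat_lit 18) (nat_lit 0) [] (nat_lit 0) [] false,
   Spec.mk (nat_lit 28) (nat_lit 0) [] (nat_lit 0) [] false,
   Spec.mk (nat_lit 30) (nat_lit 0) [] (nat_lit 0) [] false,
   Spec.mk (nat_lit 36) (nat_lit 0) [] (nat_lit 0) [] false,
   Spec.mk (nat_lit 54) (nat_lit 0) [] (nat_lit 0) [] false,
   Spec.mk (nat_lit 82) (nat_lit 0) [] (nat_lit 0) [] false,
   Spec.mk (nat_lit 84) (nat_lit 0) [] (nat_lit 0) [] false,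
   Spec.mk (nat_lit 90) (nat_lit 0) [] (nat_lit 0) [] false,
   Spec.mk (nat_lit 108) (nat_lit 0) [] (nat_lit 0) [] false,
   Spec.mk (nat_lit 162) (nat_lit 0) [] (nat_lit 0) [] false]

noncomputable def cds : List (List Spec) :=
    cd0 :: []

noncomputable def ap (x : Nat → Nat) (k :
    Nat → Nat → Nat → Nat → Nat → Nat → Nat → Nat → Nat → Nat → Nat → Nat → Nat → Nat → Nat → Bool) : Bool :=
  k
    (x (nat_lit 2)) (x (nat_lit 4)) (x (nat_lit 6)) (x (nat_lit 10)) (x (nat_lit 12))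
    (x (nat_lit 18)) (x (nat_lit 28)) (x (nat_lit 30)) (x (nat_lit 36)) (x (nat_lit 54))
    (x (nat_lit 82)) (x (nat_lit 84)) (x (nat_lit 90)) (x (nat_lit 108)) (x (nat_lit 162))

theorem ap_eq (x : Nat → Nat) (k : FnLL cds) : apLL (fun t => x t.cd) cds k = ap x k :=
  Eq.refl (ap x k)

theorem codes_ok : beqL (codes cds) (secL 5 2 0 []) = true := by decide +kernel

noncomputable def fin (f : Nat → Nat) (v1 : Nat) (
    x2 x4 x6 x10 x12 x18 x28 x30 x36 x54 x82 x84 x90 x108 x162 : Nat) : Bool :=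
  Nat.beq
    (Nat.add (Nat.add (f x2) (Nat.add (f x4) (Nat.add (f x6) (Nat.add (f x10) (Nat.add (f x12)
    (Nat.add (f x18) (Nat.add (f x28) (Nat.add (f x30) (Nat.add (f x36) (Nat.add (f x54) (Nat.add
    (f x82) (Nat.add (f x84) (Nat.add (f x90) (Nat.add (f x108) (Nat.add (f x162) 0)))))))))))))))
    0) v1

theorem fin_eq0 (f : Nat → Nat) (v1 : Nat) (x : Nat → Nat) :
    apLL (fun t => x t.cd) cds (fin f v1) = Nat.beq (sum2 (fun t => f (x t.cd)) cds) v1 :=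
  Eq.refl (apLL (fun t => x t.cd) cds (fin f v1))

theorem fin_eq (f : Nat → Nat) (v1 : Nat) (x : Nat → Nat) :
    ap x (fin f v1) = Nat.beq (sumL (fun s => f (x s)) (secL 5 2 0 [])) v1 :=
  ((ap_eq x (fin f v1)).symm.trans (fin_eq0 f v1 x)).trans
    (congrArg (fun z => Nat.beq z v1) (sum2_eq cds _ codes_ok (fun s => f (x s))))

def ch0 : List (Nat × Nat) :=
    [(2,10), (4,10), (10,10)]

def sqA0 (X M
    u0 u1 u2 : Nat) : Nat :=
    (Nat.add (Nat.mul (Nat.mul (Nat.land u0 M) (Nat.sub X (Nat.land u0 M))) 10)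
    (Nat.add (Nat.mul (Nat.mul (Nat.land u1 M) (Nat.sub X (Nat.land u1 M))) 10)
    (Nat.add (Nat.mul (Nat.mul (Nat.land u2 M) (Nat.sub X (Nat.land u2 M))) 10)
    0)))

def sqB0 (z0 : Nat) : Nat :=
  sqA0 (Nat.shiftLeft 1 91) (Nat.sub (Nat.shiftLeft 1 91) 1)
    z0
    (Nat.shiftRight z0 91)
    (Nat.shiftRight (Nat.shiftRight z0 91) 91)

def sqC0 (u : Nat) : Nat :=
  sqB0
    u

noncomputable def sq0 (v : Nat) : Nat := sqC0 (Nat.add v (offs 91 (Nat.shiftLeft 1 (Nat.sub 91 1)) ch0))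

theorem sq_eq0 : sq0 = sqF 91 ch0 := Eq.refl sq0

theorem side_ok0 : sideOK 5 91 mask cf5 ch0 = true := by decide +kernel

theorem cover : beqP (repL 5 2) (ch0 ++ []) = true := by decide +kernel

theorem len_ok : (secL 5 2 0 []).length = 15 := by decide +kernel

theorem wt_ok : (List.map Prod.snd (ch0 ++ [])).sum = 30 := by decide +kernel

end Vale.Agent.P348.A5_2

namespace Vale.Agent.P348.A5_3

def mask : Nat := nat_lit 2147493920

def KK : Type :=
    Nat → Nat → Nat → Nat → Nat → Nat → Nat → Nat → Nat → Nat → Nat → Nat → Nat → Nat → Nat → Nat →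
    Nat → Nat → Nat → Nat → Nat → Nat → Nat → Nat → Nat → Nat → Nat → Nat → Nat → Nat → Bool

noncomputable def cd0 : List Spec :=
  [Spec.mk (nat_lit 5) (nat_lit 0) [] (nat_lit 0) [] false,
   Spec.mk (nat_lit 7) (nat_lit 0) [] (nat_lit 0) [] false,
   Spec.mk (nat_lit 11) (nat_lit 0) [] (nat_lit 0) [] false,
   Spec.mk (nat_lit 13) (nat_lit 0) [] (nat_lit 0) [] false,
   Spec.mk (nat_lit 15) (nat_lit 0) [] (nat_lit 0) [] false,
   Spec.mk (nat_lit 19) (nat_lit 0) [] (nat_lit 0) [] false,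
   Spec.mk (nat_lit 21) (nat_lit 0) [] (nat_lit 0) [] false,
   Spec.mk (nat_lit 29) (nat_lit 0) [] (nat_lit 0) [] false,
   Spec.mk (nat_lit 31) (nat_lit 0) [] (nat_lit 0) [] false,
   Spec.mk (nat_lit 33) (nat_lit 0) [] (nat_lit 0) [] false,
   Spec.mk (nat_lit 37) (nat_lit 0) [] (nat_lit 0) [] false,
   Spec.mk (nat_lit 39) (nat_lit 0) [] (nat_lit 0) [] false,
   Spec.mk (nat_lit 45) (nat_lit 0) [] (nat_lit 0) [] false,
   Spec.mk (nat_lit 55) (nat_lit 0) [] (nat_lit 0) [] false,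
   Spec.mk (nat_lit 57) (nat_lit 0) [] (nat_lit 0) [] false,
   Spec.mk (nat_lit 63) (nat_lit 0) [] (nat_lit 0) [] false,
   Spec.mk (nat_lit 83) (nat_lit 0) [] (nat_lit 0) [] false,
   Spec.mk (nat_lit 85) (nat_lit 0) [] (nat_lit 0) [] false,
   Spec.mk (nat_lit 87) (nat_lit 0) [] (nat_lit 0) [] false,
   Spec.mk (nat_lit 91) (nat_lit 0) [] (nat_lit 0) [] false,
   Spec.mk (nat_lit 93) (nat_lit 0) [] (nat_lit 0) [] false,
   Spec.mk (nat_lit 99) (nat_lit 0) [] (nat_lit 0) [] false,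
   Spec.mk (nat_lit 109) (nat_lit 0) [] (nat_lit 0) [] false,
   Spec.mk (nat_lit 111) (nat_lit 0) [] (nat_lit 0) [] false,
   Spec.mk (nat_lit 117) (nat_lit 0) [] (nat_lit 0) [] false,
   Spec.mk (nat_lit 135) (nat_lit 0) [] (nat_lit 0) [] false,
   Spec.mk (nat_lit 163) (nat_lit 0) [] (nat_lit 0) [] false,
   Spec.mk (nat_lit 165) (nat_lit 0) [] (nat_lit 0) [] false,
   Spec.mk (nat_lit 171) (nat_lit 0) [] (nat_lit 0) [] false,
   Spec.mk (nat_lit 189) (nat_lit 0) [] (nat_lit 0) [] false]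

noncomputable def cds : List (List Spec) :=
    cd0 :: []

noncomputable def ap (x : Nat → Nat) (k :
    Nat → Nat → Nat → Nat → Nat → Nat → Nat → Nat → Nat → Nat → Nat → Nat → Nat → Nat → Nat → Nat →
    Nat → Nat → Nat → Nat → Nat → Nat → Nat → Nat → Nat → Nat → Nat → Nat → Nat → Nat → Bool) : Bool :=
  k
    (x (nat_lit 5)) (x (nat_lit 7)) (x (nat_lit 11)) (x (nat_lit 13)) (x (nat_lit 15))
    (x (nat_lit 19)) (x (nat_lit 21)) (x (nat_lit 29)) (x (nat_lit 31)) (x (nat_lit 33))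
    (x (nat_lit 37)) (x (nat_lit 39)) (x (nat_lit 45)) (x (nat_lit 55)) (x (nat_lit 57))
    (x (nat_lit 63)) (x (nat_lit 83)) (x (nat_lit 85)) (x (nat_lit 87)) (x (nat_lit 91))
    (x (nat_lit 93)) (x (nat_lit 99)) (x (nat_lit 109)) (x (nat_lit 111)) (x (nat_lit 117))
    (x (nat_lit 135)) (x (nat_lit 163)) (x (nat_lit 165)) (x (nat_lit 171)) (x (nat_lit 189))

theorem ap_eq (x : Nat → Nat) (k : FnLL cds) : apLL (fun t => x t.cd) cds k = ap x k :=
  Eq.refl (ap x k)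

theorem codes_ok : beqL (codes cds) (secL 5 3 0 []) = true := by decide +kernel

noncomputable def fin (f : Nat → Nat) (v1 : Nat) (
    x5 x7 x11 x13 x15 x19 x21 x29 x31 x33 x37 x39 x45 x55 x57 x63 x83 x85 x87 x91 x93 x99 x109 x111
    x117 x135 x163 x165 x171 x189 : Nat) : Bool :=
  Nat.beq
    (Nat.add (Nat.add (f x5) (Nat.add (f x7) (Nat.add (f x11) (Nat.add (f x13) (Nat.add (f x15)
    (Nat.add (f x19) (Nat.add (f x21) (Nat.add (f x29) (Nat.add (f x31) (Nat.add (f x33) (Nat.add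
    (f x37) (Nat.add (f x39) (Nat.add (f x45) (Nat.add (f x55) (Nat.add (f x57) (Nat.add (f x63)
    (Nat.add (f x83) (Nat.add (f x85) (Nat.add (f x87) (Nat.add (f x91) (Nat.add (f x93) (Nat.add
    (f x99) (Nat.add (f x109) (Nat.add (f x111) (Nat.add (f x117) (Nat.add (f x135) (Nat.add
    (f x163) (Nat.add (f x165) (Nat.add (f x171) (Nat.add (f x189) 0))))))))))))))))))))))))))))))
    0) v1

theorem fin_eq0 (f : Nat → Nat) (v1 : Nat) (x : Nat → Nat) :
    apLL (fun t => x t.cd) cds (fin f v1) = Nat.beq (sum2 (fun t => f (x t.cd)) cds) v1 :=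
  Eq.refl (apLL (fun t => x t.cd) cds (fin f v1))

theorem fin_eq (f : Nat → Nat) (v1 : Nat) (x : Nat → Nat) :
    ap x (fin f v1) = Nat.beq (sumL (fun s => f (x s)) (secL 5 3 0 [])) v1 :=
  ((ap_eq x (fin f v1)).symm.trans (fin_eq0 f v1 x)).trans
    (congrArg (fun z => Nat.beq z v1) (sum2_eq cds _ codes_ok (fun s => f (x s))))

def ch0 : List (Nat × Nat) :=
    [(5,20), (11,20), (13,10), (31,10)]

def sqA0 (X M
    u0 u1 u2 u3 : Nat) : Nat :=
    (Nat.add (Nat.mul (Nat.mul (Nat.land u0 M) (Nat.sub X (Nat.land u0 M))) 20)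
    (Nat.add (Nat.mul (Nat.mul (Nat.land u1 M) (Nat.sub X (Nat.land u1 M))) 20)
    (Nat.add (Nat.mul (Nat.mul (Nat.land u2 M) (Nat.sub X (Nat.land u2 M))) 10)
    (Nat.add (Nat.mul (Nat.mul (Nat.land u3 M) (Nat.sub X (Nat.land u3 M))) 10)
    0))))

def sqB0 (z0 : Nat) : Nat :=
  sqA0 (Nat.shiftLeft 1 91) (Nat.sub (Nat.shiftLeft 1 91) 1)
    z0
    (Nat.shiftRight z0 91)
    (Nat.shiftRight (Nat.shiftRight z0 91) 91)
    (Nat.shiftRight (Nat.shiftRight (Nat.shiftRight z0 91) 91) 91)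

def sqC0 (u : Nat) : Nat :=
  sqB0
    u

noncomputable def sq0 (v : Nat) : Nat := sqC0 (Nat.add v (offs 91 (Nat.shiftLeft 1 (Nat.sub 91 1)) ch0))

theorem sq_eq0 : sq0 = sqF 91 ch0 := Eq.refl sq0

theorem side_ok0 : sideOK 5 91 mask cf5 ch0 = true := by decide +kernel

theorem cover : beqP (repL 5 3) (ch0 ++ []) = true := by decide +kernel

theorem len_ok : (secL 5 3 0 []).length = 30 := by decide +kernel

theorem wt_ok : (List.map Prod.snd (ch0 ++ [])).sum = 60 := by decide +kernel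

end Vale.Agent.P348.A5_3

namespace Vale.Agent.P348.A5_4

def mask : Nat := nat_lit 1378685632768

def KK : Type :=
    Nat → Nat → Nat → Nat → Nat → Nat → Nat → Nat → Nat → Nat → Nat → Nat → Nat → Nat → Nat → Nat →
    Nat → Nat → Nat → Nat → Nat → Nat → Nat → Nat → Nat → Nat → Nat → Nat → Nat → Nat → Nat → Nat →
    Nat → Nat → Nat → Nat → Nat → Nat → Nat → Nat → Nat → Nat → Nat → Nat → Nat → Bool

noncomputable def cd0 : List Spec :=
  [Spec.mk (nat_lit 8) (nat_lit 0) [] (nat_lit 0) [] false,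
   Spec.mk (nat_lit 14) (nat_lit 0) [] (nat_lit 0) [] false,
   Spec.mk (nat_lit 16) (nat_lit 0) [] (nat_lit 0) [] false,
   Spec.mk (nat_lit 20) (nat_lit 0) [] (nat_lit 0) [] false,
   Spec.mk (nat_lit 22) (nat_lit 0) [] (nat_lit 0) [] false,
   Spec.mk (nat_lit 24) (nat_lit 0) [] (nat_lit 0) [] false,
   Spec.mk (nat_lit 32) (nat_lit 0) [] (nat_lit 0) [] false,
   Spec.mk (nat_lit 34) (nat_lit 0) [] (nat_lit 0) [] false,
   Spec.mk (nat_lit 38) (nat_lit 0) [] (nat_lit 0) [] false,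
   Spec.mk (nat_lit 40) (nat_lit 0) [] (nat_lit 0) [] false,
   Spec.mk (nat_lit 42) (nat_lit 0) [] (nat_lit 0) [] false,
   Spec.mk (nat_lit 46) (nat_lit 0) [] (nat_lit 0) [] false,
   Spec.mk (nat_lit 48) (nat_lit 0) [] (nat_lit 0) [] false,
   Spec.mk (nat_lit 56) (nat_lit 0) [] (nat_lit 0) [] false,
   Spec.mk (nat_lit 58) (nat_lit 0) [] (nat_lit 0) [] false,
   Spec.mk (nat_lit 60) (nat_lit 0) [] (nat_lit 0) [] false,
   Spec.mk (nat_lit 64) (nat_lit 0) [] (nat_lit 0) [] false,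
   Spec.mk (nat_lit 66) (nat_lit 0) [] (nat_lit 0) [] false,
   Spec.mk (nat_lit 72) (nat_lit 0) [] (nat_lit 0) [] false,
   Spec.mk (nat_lit 86) (nat_lit 0) [] (nat_lit 0) [] false,
   Spec.mk (nat_lit 88) (nat_lit 0) [] (nat_lit 0) [] false,
   Spec.mk (nat_lit 92) (nat_lit 0) [] (nat_lit 0) [] false,
   Spec.mk (nat_lit 94) (nat_lit 0) [] (nat_lit 0) [] false,
   Spec.mk (nat_lit 96) (nat_lit 0) [] (nat_lit 0) [] false,
   Spec.mk (nat_lit 100) (nat_lit 0) [] (nat_lit 0) [] false,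
   Spec.mk (nat_lit 102) (nat_lit 0) [] (nat_lit 0) [] false,
   Spec.mk (nat_lit 110) (nat_lit 0) [] (nat_lit 0) [] false,
   Spec.mk (nat_lit 112) (nat_lit 0) [] (nat_lit 0) [] false,
   Spec.mk (nat_lit 114) (nat_lit 0) [] (nat_lit 0) [] false,
   Spec.mk (nat_lit 118) (nat_lit 0) [] (nat_lit 0) [] false,
   Spec.mk (nat_lit 120) (nat_lit 0) [] (nat_lit 0) [] false,
   Spec.mk (nat_lit 126) (nat_lit 0) [] (nat_lit 0) [] false,
   Spec.mk (nat_lit 136) (nat_lit 0) [] (nat_lit 0) [] false,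
   Spec.mk (nat_lit 138) (nat_lit 0) [] (nat_lit 0) [] false,
   Spec.mk (nat_lit 144) (nat_lit 0) [] (nat_lit 0) [] false,
   Spec.mk (nat_lit 164) (nat_lit 0) [] (nat_lit 0) [] false,
   Spec.mk (nat_lit 166) (nat_lit 0) [] (nat_lit 0) [] false,
   Spec.mk (nat_lit 168) (nat_lit 0) [] (nat_lit 0) [] false,
   Spec.mk (nat_lit 172) (nat_lit 0) [] (nat_lit 0) [] false,
   Spec.mk (nat_lit 174) (nat_lit 0) [] (nat_lit 0) [] false,
   Spec.mk (nat_lit 180) (nat_lit 0) [] (nat_lit 0) [] false,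
   Spec.mk (nat_lit 190) (nat_lit 0) [] (nat_lit 0) [] false,
   Spec.mk (nat_lit 192) (nat_lit 0) [] (nat_lit 0) [] false,
   Spec.mk (nat_lit 198) (nat_lit 0) [] (nat_lit 0) [] false,
   Spec.mk (nat_lit 216) (nat_lit 0) [] (nat_lit 0) [] false]

noncomputable def cds : List (List Spec) :=
    cd0 :: []

noncomputable def ap (x : Nat → Nat) (k :
    Nat → Nat → Nat → Nat → Nat → Nat → Nat → Nat → Nat → Nat → Nat → Nat → Nat → Nat → Nat → Nat →
    Nat → Nat → Nat → Nat → Nat → Nat → Nat → Nat → Nat → Nat → Nat → Nat → Nat → Nat → Nat → Nat →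
    Nat → Nat → Nat → Nat → Nat → Nat → Nat → Nat → Nat → Nat → Nat → Nat → Nat → Bool) : Bool :=
  k
    (x (nat_lit 8)) (x (nat_lit 14)) (x (nat_lit 16)) (x (nat_lit 20)) (x (nat_lit 22))
    (x (nat_lit 24)) (x (nat_lit 32)) (x (nat_lit 34)) (x (nat_lit 38)) (x (nat_lit 40))
    (x (nat_lit 42)) (x (nat_lit 46)) (x (nat_lit 48)) (x (nat_lit 56)) (x (nat_lit 58))
    (x (nat_lit 60)) (x (nat_lit 64)) (x (nat_lit 66)) (x (nat_lit 72)) (x (nat_lit 86))
    (x (nat_lit 88)) (x (nat_lit 92)) (x (nat_lit 94)) (x (nat_lit 96)) (x (nat_lit 100))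
    (x (nat_lit 102)) (x (nat_lit 110)) (x (nat_lit 112)) (x (nat_lit 114)) (x (nat_lit 118))
    (x (nat_lit 120)) (x (nat_lit 126)) (x (nat_lit 136)) (x (nat_lit 138)) (x (nat_lit 144))
    (x (nat_lit 164)) (x (nat_lit 166)) (x (nat_lit 168)) (x (nat_lit 172)) (x (nat_lit 174))
    (x (nat_lit 180)) (x (nat_lit 190)) (x (nat_lit 192)) (x (nat_lit 198)) (x (nat_lit 216))

theorem ap_eq (x : Nat → Nat) (k : FnLL cds) : apLL (fun t => x t.cd) cds k = ap x k :=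
  Eq.refl (ap x k)

theorem codes_ok : beqL (codes cds) (secL 5 4 0 []) = true := by decide +kernel

noncomputable def fin (f : Nat → Nat) (v1 : Nat) (
    x8 x14 x16 x20 x22 x24 x32 x34 x38 x40 x42 x46 x48 x56 x58 x60 x64 x66 x72 x86 x88 x92 x94 x96
    x100 x102 x110 x112 x114 x118 x120 x126 x136 x138 x144 x164 x166 x168 x172 x174 x180 x190 x192
    x198 x216 : Nat) : Bool :=
  Nat.beq
    (Nat.add (Nat.add (f x8) (Nat.add (f x14) (Nat.add (f x16) (Nat.add (f x20) (Nat.add (f x22)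
    (Nat.add (f x24) (Nat.add (f x32) (Nat.add (f x34) (Nat.add (f x38) (Nat.add (f x40) (Nat.add
    (f x42) (Nat.add (f x46) (Nat.add (f x48) (Nat.add (f x56) (Nat.add (f x58) (Nat.add (f x60)
    (Nat.add (f x64) (Nat.add (f x66) (Nat.add (f x72) (Nat.add (f x86) (Nat.add (f x88) (Nat.add
    (f x92) (Nat.add (f x94) (Nat.add (f x96) (Nat.add (f x100) (Nat.add (f x102) (Nat.add (f x110)
    (Nat.add (f x112) (Nat.add (f x114) (Nat.add (f x118) (Nat.add (f x120) (Nat.add (f x126)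
    (Nat.add (f x136) (Nat.add (f x138) (Nat.add (f x144) (Nat.add (f x164) (Nat.add (f x166)
    (Nat.add (f x168) (Nat.add (f x172) (Nat.add (f x174) (Nat.add (f x180) (Nat.add (f x190)
    (Nat.add (f x192) (Nat.add (f x198) (Nat.add (f x216)
    0))))))))))))))))))))))))))))))))))))))))))))) 0) v1

theorem fin_eq0 (f : Nat → Nat) (v1 : Nat) (x : Nat → Nat) :
    apLL (fun t => x t.cd) cds (fin f v1) = Nat.beq (sum2 (fun t => f (x t.cd)) cds) v1 :=
  Eq.refl (apLL (fun t => x t.cd) cds (fin f v1))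

theorem fin_eq (f : Nat → Nat) (v1 : Nat) (x : Nat → Nat) :
    ap x (fin f v1) = Nat.beq (sumL (fun s => f (x s)) (secL 5 4 0 [])) v1 :=
  ((ap_eq x (fin f v1)).symm.trans (fin_eq0 f v1 x)).trans
    (congrArg (fun z => Nat.beq z v1) (sum2_eq cds _ codes_ok (fun s => f (x s))))

def ch0 : List (Nat × Nat) :=
    [(8,10), (14,20), (16,10), (20,10), (32,20), (38,10), (40,10)]

def sqA0 (X M
    u0 u1 u2 u3 u4 u5 u6 : Nat) : Nat :=
    (Nat.add (Nat.mul (Nat.mul (Nat.land u0 M) (Nat.sub X (Nat.land u0 M))) 10)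
    (Nat.add (Nat.mul (Nat.mul (Nat.land u1 M) (Nat.sub X (Nat.land u1 M))) 20)
    (Nat.add (Nat.mul (Nat.mul (Nat.land u2 M) (Nat.sub X (Nat.land u2 M))) 10)
    (Nat.add (Nat.mul (Nat.mul (Nat.land u3 M) (Nat.sub X (Nat.land u3 M))) 10)
    (Nat.add (Nat.mul (Nat.mul (Nat.land u4 M) (Nat.sub X (Nat.land u4 M))) 20)
    (Nat.add (Nat.mul (Nat.mul (Nat.land u5 M) (Nat.sub X (Nat.land u5 M))) 10)
    (Nat.add (Nat.mul (Nat.mul (Nat.land u6 M) (Nat.sub X (Nat.land u6 M))) 10)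
    0)))))))

def sqB0 (z0 z1 : Nat) : Nat :=
  sqA0 (Nat.shiftLeft 1 91) (Nat.sub (Nat.shiftLeft 1 91) 1)
    z0
    (Nat.shiftRight z0 91)
    (Nat.shiftRight (Nat.shiftRight z0 91) 91)
    (Nat.shiftRight (Nat.shiftRight (Nat.shiftRight z0 91) 91) 91)
    (Nat.shiftRight (Nat.shiftRight (Nat.shiftRight (Nat.shiftRight z0 91) 91) 91) 91)
    (Nat.shiftRight (Nat.shiftRight (Nat.shiftRight (Nat.shiftRight (Nat.shiftRight z0 91) 91) 91) 91) 91)
    z1

def sqC0 (u : Nat) : Nat :=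
  sqB0
    u
    (sh6 91 u)

noncomputable def sq0 (v : Nat) : Nat := sqC0 (Nat.add v (offs 91 (Nat.shiftLeft 1 (Nat.sub 91 1)) ch0))

theorem sq_eq0 : sq0 = sqF 91 ch0 := Eq.refl sq0

theorem side_ok0 : sideOK 5 91 mask cf5 ch0 = true := by decide +kernel

theorem cover : beqP (repL 5 4) (ch0 ++ []) = true := by decide +kernel

theorem len_ok : (secL 5 4 0 []).length = 45 := by decide +kernel

theorem wt_ok : (List.map Prod.snd (ch0 ++ [])).sum = 90 := by decide +kernel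

end Vale.Agent.P348.A5_4

namespace Vale.Agent.P348.A5_5

def mask : Nat := nat_lit 2658455991569831745807765853173841920

def KK : Type :=
    Nat → Nat → Nat → Nat → Nat → Nat → Nat → Nat → Nat → Nat → Nat → Nat → Nat → Nat → Nat → Nat →
    Nat → Nat → Nat → Nat → Nat → Nat → Nat → Nat → Nat → Nat → Nat → Nat → Nat → Nat → Nat → Nat →
    Nat → Nat → Nat → Nat → Nat → Nat → Nat → Nat → Nat → Nat → Nat → Nat → Nat → Nat → Nat → Nat →
    Nat → Nat → Nat → Bool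

noncomputable def cd0 : List Spec :=
  [Spec.mk (nat_lit 17) (nat_lit 0) [] (nat_lit 0) [] false,
   Spec.mk (nat_lit 23) (nat_lit 0) [] (nat_lit 0) [] false,
   Spec.mk (nat_lit 25) (nat_lit 0) [] (nat_lit 0) [] false,
   Spec.mk (nat_lit 35) (nat_lit 0) [] (nat_lit 0) [] false,
   Spec.mk (nat_lit 41) (nat_lit 0) [] (nat_lit 0) [] false,
   Spec.mk (nat_lit 43) (nat_lit 0) [] (nat_lit 0) [] false,
   Spec.mk (nat_lit 47) (nat_lit 0) [] (nat_lit 0) [] false,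
   Spec.mk (nat_lit 49) (nat_lit 0) [] (nat_lit 0) [] false,
   Spec.mk (nat_lit 51) (nat_lit 0) [] (nat_lit 0) [] false,
   Spec.mk (nat_lit 59) (nat_lit 0) [] (nat_lit 0) [] false,
   Spec.mk (nat_lit 61) (nat_lit 0) [] (nat_lit 0) [] false,
   Spec.mk (nat_lit 65) (nat_lit 0) [] (nat_lit 0) [] false,
   Spec.mk (nat_lit 67) (nat_lit 0) [] (nat_lit 0) [] false,
   Spec.mk (nat_lit 69) (nat_lit 0) [] (nat_lit 0) [] false,
   Spec.mk (nat_lit 73) (nat_lit 0) [] (nat_lit 0) [] false,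
   Spec.mk (nat_lit 75) (nat_lit 0) [] (nat_lit 0) [] false,
   Spec.mk (nat_lit 89) (nat_lit 0) [] (nat_lit 0) [] false,
   Spec.mk (nat_lit 95) (nat_lit 0) [] (nat_lit 0) [] false,
   Spec.mk (nat_lit 97) (nat_lit 0) [] (nat_lit 0) [] false,
   Spec.mk (nat_lit 101) (nat_lit 0) [] (nat_lit 0) [] false,
   Spec.mk (nat_lit 103) (nat_lit 0) [] (nat_lit 0) [] false,
   Spec.mk (nat_lit 105) (nat_lit 0) [] (nat_lit 0) [] false,
   Spec.mk (nat_lit 113) (nat_lit 0) [] (nat_lit 0) [] false,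
   Spec.mk (nat_lit 115) (nat_lit 0) [] (nat_lit 0) [] false,
   Spec.mk (nat_lit 119) (nat_lit 0) [] (nat_lit 0) [] false,
   Spec.mk (nat_lit 121) (nat_lit 0) [] (nat_lit 0) [] false,
   Spec.mk (nat_lit 123) (nat_lit 0) [] (nat_lit 0) [] false,
   Spec.mk (nat_lit 127) (nat_lit 0) [] (nat_lit 0) [] false,
   Spec.mk (nat_lit 129) (nat_lit 0) [] (nat_lit 0) [] false,
   Spec.mk (nat_lit 137) (nat_lit 0) [] (nat_lit 0) [] false,
   Spec.mk (nat_lit 139) (nat_lit 0) [] (nat_lit 0) [] false,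
   Spec.mk (nat_lit 141) (nat_lit 0) [] (nat_lit 0) [] false,
   Spec.mk (nat_lit 145) (nat_lit 0) [] (nat_lit 0) [] false,
   Spec.mk (nat_lit 147) (nat_lit 0) [] (nat_lit 0) [] false,
   Spec.mk (nat_lit 153) (nat_lit 0) [] (nat_lit 0) [] false,
   Spec.mk (nat_lit 167) (nat_lit 0) [] (nat_lit 0) [] false,
   Spec.mk (nat_lit 169) (nat_lit 0) [] (nat_lit 0) [] false,
   Spec.mk (nat_lit 173) (nat_lit 0) [] (nat_lit 0) [] false,
   Spec.mk (nat_lit 175) (nat_lit 0) [] (nat_lit 0) [] false,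
   Spec.mk (nat_lit 177) (nat_lit 0) [] (nat_lit 0) [] false,
   Spec.mk (nat_lit 181) (nat_lit 0) [] (nat_lit 0) [] false,
   Spec.mk (nat_lit 183) (nat_lit 0) [] (nat_lit 0) [] false,
   Spec.mk (nat_lit 191) (nat_lit 0) [] (nat_lit 0) [] false,
   Spec.mk (nat_lit 193) (nat_lit 0) [] (nat_lit 0) [] false,
   Spec.mk (nat_lit 195) (nat_lit 0) [] (nat_lit 0) [] false,
   Spec.mk (nat_lit 199) (nat_lit 0) [] (nat_lit 0) [] false,
   Spec.mk (nat_lit 201) (nat_lit 0) [] (nat_lit 0) [] false,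
   Spec.mk (nat_lit 207) (nat_lit 0) [] (nat_lit 0) [] false,
   Spec.mk (nat_lit 217) (nat_lit 0) [] (nat_lit 0) [] false,
   Spec.mk (nat_lit 219) (nat_lit 0) [] (nat_lit 0) [] false,
   Spec.mk (nat_lit 225) (nat_lit 0) [] (nat_lit 0) [] false]

noncomputable def cds : List (List Spec) :=
    cd0 :: []

noncomputable def ap (x : Nat → Nat) (k :
    Nat → Nat → Nat → Nat → Nat → Nat → Nat → Nat → Nat → Nat → Nat → Nat → Nat → Nat → Nat → Nat →
    Nat → Nat → Nat → Nat → Nat → Nat → Nat → Nat → Nat → Nat → Nat → Nat → Nat → Nat → Nat → Nat →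
    Nat → Nat → Nat → Nat → Nat → Nat → Nat → Nat → Nat → Nat → Nat → Nat → Nat → Nat → Nat → Nat →
    Nat → Nat → Nat → Bool) : Bool :=
  k
    (x (nat_lit 17)) (x (nat_lit 23)) (x (nat_lit 25)) (x (nat_lit 35)) (x (nat_lit 41))
    (x (nat_lit 43)) (x (nat_lit 47)) (x (nat_lit 49)) (x (nat_lit 51)) (x (nat_lit 59))
    (x (nat_lit 61)) (x (nat_lit 65)) (x (nat_lit 67)) (x (nat_lit 69)) (x (nat_lit 73))
    (x (nat_lit 75)) (x (nat_lit 89)) (x (nat_lit 95)) (x (nat_lit 97)) (x (nat_lit 101))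
    (x (nat_lit 103)) (x (nat_lit 105)) (x (nat_lit 113)) (x (nat_lit 115)) (x (nat_lit 119))
    (x (nat_lit 121)) (x (nat_lit 123)) (x (nat_lit 127)) (x (nat_lit 129)) (x (nat_lit 137))
    (x (nat_lit 139)) (x (nat_lit 141)) (x (nat_lit 145)) (x (nat_lit 147)) (x (nat_lit 153))
    (x (nat_lit 167)) (x (nat_lit 169)) (x (nat_lit 173)) (x (nat_lit 175)) (x (nat_lit 177))
    (x (nat_lit 181)) (x (nat_lit 183)) (x (nat_lit 191)) (x (nat_lit 193)) (x (nat_lit 195))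
    (x (nat_lit 199)) (x (nat_lit 201)) (x (nat_lit 207)) (x (nat_lit 217)) (x (nat_lit 219))
    (x (nat_lit 225))

theorem ap_eq (x : Nat → Nat) (k : FnLL cds) : apLL (fun t => x t.cd) cds k = ap x k :=
  Eq.refl (ap x k)

theorem codes_ok : beqL (codes cds) (secL 5 5 0 []) = true := by decide +kernel

noncomputable def fin (f : Nat → Nat) (v1 : Nat) (
    x17 x23 x25 x35 x41 x43 x47 x49 x51 x59 x61 x65 x67 x69 x73 x75 x89 x95 x97 x101 x103 x105 x113
    x115 x119 x121 x123 x127 x129 x137 x139 x141 x145 x147 x153 x167 x169 x173 x175 x177 x181 x183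
    x191 x193 x195 x199 x201 x207 x217 x219 x225 : Nat) : Bool :=
  Nat.beq
    (Nat.add (Nat.add (f x17) (Nat.add (f x23) (Nat.add (f x25) (Nat.add (f x35) (Nat.add (f x41)
    (Nat.add (f x43) (Nat.add (f x47) (Nat.add (f x49) (Nat.add (f x51) (Nat.add (f x59) (Nat.add
    (f x61) (Nat.add (f x65) (Nat.add (f x67) (Nat.add (f x69) (Nat.add (f x73) (Nat.add (f x75)
    (Nat.add (f x89) (Nat.add (f x95) (Nat.add (f x97) (Nat.add (f x101) (Nat.add (f x103) (Nat.add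
    (f x105) (Nat.add (f x113) (Nat.add (f x115) (Nat.add (f x119) (Nat.add (f x121) (Nat.add
    (f x123) (Nat.add (f x127) (Nat.add (f x129) (Nat.add (f x137) (Nat.add (f x139) (Nat.add
    (f x141) (Nat.add (f x145) (Nat.add (f x147) (Nat.add (f x153) (Nat.add (f x167) (Nat.add
    (f x169) (Nat.add (f x173) (Nat.add (f x175) (Nat.add (f x177) (Nat.add (f x181) (Nat.add
    (f x183) (Nat.add (f x191) (Nat.add (f x193) (Nat.add (f x195) (Nat.add (f x199) (Nat.add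
    (f x201) (Nat.add (f x207) (Nat.add (f x217) (Nat.add (f x219) (Nat.add (f x225)
    0))))))))))))))))))))))))))))))))))))))))))))))))))) 0) v1

theorem fin_eq0 (f : Nat → Nat) (v1 : Nat) (x : Nat → Nat) :
    apLL (fun t => x t.cd) cds (fin f v1) = Nat.beq (sum2 (fun t => f (x t.cd)) cds) v1 :=
  Eq.refl (apLL (fun t => x t.cd) cds (fin f v1))

theorem fin_eq (f : Nat → Nat) (v1 : Nat) (x : Nat → Nat) :
    ap x (fin f v1) = Nat.beq (sumL (fun s => f (x s)) (secL 5 5 0 [])) v1 :=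
  ((ap_eq x (fin f v1)).symm.trans (fin_eq0 f v1 x)).trans
    (congrArg (fun z => Nat.beq z v1) (sum2_eq cds _ codes_ok (fun s => f (x s))))

noncomputable def fin2 (f : Nat → Nat) (v1 v2 : Nat) (
    x17 x23 x25 x35 x41 x43 x47 x49 x51 x59 x61 x65 x67 x69 x73 x75 x89 x95 x97 x101 x103 x105 x113
    x115 x119 x121 x123 x127 x129 x137 x139 x141 x145 x147 x153 x167 x169 x173 x175 x177 x181 x183
    x191 x193 x195 x199 x201 x207 x217 x219 x225 : Nat) : Bool :=
  and (Nat.beq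
    (Nat.add (Nat.add (f x17) (Nat.add (f x23) (Nat.add (f x25) (Nat.add (f x35) (Nat.add (f x41)
    (Nat.add (f x43) (Nat.add (f x47) (Nat.add (f x49) (Nat.add (f x51) (Nat.add (f x59) (Nat.add
    (f x61) (Nat.add (f x65) (Nat.add (f x67) (Nat.add (f x69) (Nat.add (f x73) (Nat.add (f x75)
    (Nat.add (f x89) (Nat.add (f x95) (Nat.add (f x97) (Nat.add (f x101) (Nat.add (f x103) (Nat.add
    (f x105) (Nat.add (f x113) (Nat.add (f x115) (Nat.add (f x119) (Nat.add (f x121) (Nat.add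
    (f x123) (Nat.add (f x127) (Nat.add (f x129) (Nat.add (f x137) (Nat.add (f x139) (Nat.add
    (f x141) (Nat.add (f x145) (Nat.add (f x147) (Nat.add (f x153) (Nat.add (f x167) (Nat.add
    (f x169) (Nat.add (f x173) (Nat.add (f x175) (Nat.add (f x177) (Nat.add (f x181) (Nat.add
    (f x183) (Nat.add (f x191) (Nat.add (f x193) (Nat.add (f x195) (Nat.add (f x199) (Nat.add
    (f x201) (Nat.add (f x207) (Nat.add (f x217) (Nat.add (f x219) (Nat.add (f x225)
    0))))))))))))))))))))))))))))))))))))))))))))))))))) 0) v1) (Nat.beq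
    (Nat.add (Nat.add (f (Nat.add x17 x225)) (Nat.add (f (Nat.add x23 x219)) (Nat.add
    (f (Nat.add x25 x217)) (Nat.add (f (Nat.add x35 x207)) (Nat.add (f (Nat.add x41 x201)) (Nat.add
    (f (Nat.add x43 x199)) (Nat.add (f (Nat.add x47 x195)) (Nat.add (f (Nat.add x49 x193)) (Nat.add
    (f (Nat.add x51 x191)) (Nat.add (f (Nat.add x59 x183)) (Nat.add (f (Nat.add x61 x181)) (Nat.add
    (f (Nat.add x65 x177)) (Nat.add (f (Nat.add x67 x175)) (Nat.add (f (Nat.add x69 x173)) (Nat.add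
    (f (Nat.add x73 x169)) (Nat.add (f (Nat.add x75 x167)) (Nat.add (f (Nat.add x89 x153)) (Nat.add
    (f (Nat.add x95 x147)) (Nat.add (f (Nat.add x97 x145)) (Nat.add (f (Nat.add x101 x141))
    (Nat.add (f (Nat.add x103 x139)) (Nat.add (f (Nat.add x105 x137)) (Nat.add
    (f (Nat.add x113 x129)) (Nat.add (f (Nat.add x115 x127)) (Nat.add (f (Nat.add x119 x123))
    (Nat.add (f (Nat.add x121 x121)) (Nat.add (f (Nat.add x123 x119)) (Nat.add
    (f (Nat.add x127 x115)) (Nat.add (f (Nat.add x129 x113)) (Nat.add (f (Nat.add x137 x105))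
    (Nat.add (f (Nat.add x139 x103)) (Nat.add (f (Nat.add x141 x101)) (Nat.add
    (f (Nat.add x145 x97)) (Nat.add (f (Nat.add x147 x95)) (Nat.add (f (Nat.add x153 x89)) (Nat.add
    (f (Nat.add x167 x75)) (Nat.add (f (Nat.add x169 x73)) (Nat.add (f (Nat.add x173 x69)) (Nat.add
    (f (Nat.add x175 x67)) (Nat.add (f (Nat.add x177 x65)) (Nat.add (f (Nat.add x181 x61)) (Nat.add
    (f (Nat.add x183 x59)) (Nat.add (f (Nat.add x191 x51)) (Nat.add (f (Nat.add x193 x49)) (Nat.add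
    (f (Nat.add x195 x47)) (Nat.add (f (Nat.add x199 x43)) (Nat.add (f (Nat.add x201 x41)) (Nat.add
    (f (Nat.add x207 x35)) (Nat.add (f (Nat.add x217 x25)) (Nat.add (f (Nat.add x219 x23)) (Nat.add
    (f (Nat.add x225 x17)) 0))))))))))))))))))))))))))))))))))))))))))))))))))) 0) v2)

theorem fin2_eq0 (f : Nat → Nat) (v1 v2 : Nat) (x : Nat → Nat) :
    apLL (fun t => x t.cd) cds (fin2 f v1 v2) =
    and (Nat.beq (sum2 (fun t => f (x t.cd)) cds) v1)
      (Nat.beq (sum2 (fun t => f (Nat.add (x t.cd) (x (Nat.sub 242 t.cd)))) cds) v2) :=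
  Eq.refl (apLL (fun t => x t.cd) cds (fin2 f v1 v2))

theorem fin2_eq (f : Nat → Nat) (v1 v2 : Nat) (x : Nat → Nat) :
    ap x (fin2 f v1 v2) = and (Nat.beq (sumL (fun s => f (x s)) (secL 5 5 0 [])) v1)
      (Nat.beq (sumL (fun s => f (Nat.add (x s) (x (Nat.sub 242 s)))) (secL 5 5 0 [])) v2) :=
  ((ap_eq x (fin2 f v1 v2)).symm.trans (fin2_eq0 f v1 v2 x)).trans
    (congr (congrArg and (congrArg (fun z => Nat.beq z v1) (sum2_eq cds _ codes_ok (fun s => f (x s)))))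
      (congrArg (fun z => Nat.beq z v2)
        (sum2_eq cds _ codes_ok (fun s => f (Nat.add (x s) (x (Nat.sub 242 s)))))))

def ch0 : List (Nat × Nat) :=
    [(17,10), (23,10), (41,10), (43,10), (47,10), (121,1)]

def sqA0 (X M
    u0 u1 u2 u3 u4 u5 : Nat) : Nat :=
    (Nat.add (Nat.mul (Nat.mul (Nat.land u0 M) (Nat.sub X (Nat.land u0 M))) 10)
    (Nat.add (Nat.mul (Nat.mul (Nat.land u1 M) (Nat.sub X (Nat.land u1 M))) 10)
    (Nat.add (Nat.mul (Nat.mul (Nat.land u2 M) (Nat.sub X (Nat.land u2 M))) 10)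
    (Nat.add (Nat.mul (Nat.mul (Nat.land u3 M) (Nat.sub X (Nat.land u3 M))) 10)
    (Nat.add (Nat.mul (Nat.mul (Nat.land u4 M) (Nat.sub X (Nat.land u4 M))) 10)
    (Nat.add (Nat.mul (Nat.mul (Nat.land u5 M) (Nat.sub X (Nat.land u5 M))) 1)
    0))))))

def sqB0 (z0 : Nat) : Nat :=
  sqA0 (Nat.shiftLeft 1 91) (Nat.sub (Nat.shiftLeft 1 91) 1)
    z0
    (Nat.shiftRight z0 91)
    (Nat.shiftRight (Nat.shiftRight z0 91) 91)
    (Nat.shiftRight (Nat.shiftRight (Nat.shiftRight z0 91) 91) 91)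
    (Nat.shiftRight (Nat.shiftRight (Nat.shiftRight (Nat.shiftRight z0 91) 91) 91) 91)
    (Nat.shiftRight (Nat.shiftRight (Nat.shiftRight (Nat.shiftRight (Nat.shiftRight z0 91) 91) 91) 91) 91)

def sqC0 (u : Nat) : Nat :=
  sqB0
    u

noncomputable def sq0 (v : Nat) : Nat := sqC0 (Nat.add v (offs 91 (Nat.shiftLeft 1 (Nat.sub 91 1)) ch0))

theorem sq_eq0 : sq0 = sqF 91 ch0 := Eq.refl sq0

theorem side_ok0 : sideOK 5 91 mask cf5 ch0 = true := by decide +kernel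

theorem cover : beqP (repL 5 5) (ch0 ++ []) = true := by decide +kernel

theorem len_ok : (secL 5 5 0 []).length = 51 := by decide +kernel

theorem wt_ok : (List.map Prod.snd (ch0 ++ [])).sum = 51 := by decide +kernel

end Vale.Agent.P348.A5_5
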