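import Vale.Agent.P348.KCore2
import Vale.Agent.P348.Poly

set_option maxRecDepth 1000000
set_option maxHeartbeats 0
set_option linter.all false

namespace Vale.Agent.P348.A7_0

def mask : Nat := nat_lit 1

def KK : Type :=
    Nat → Bool

noncomputable def cd0 : List Spec :=
  [Spec.mk (nat_lit 0) (nat_lit 0) [] (nat_lit 0) [] false]

noncomputable def cds : List (List Spec) :=
    cd0 :: []

noncomputable def ap (x : Nat → Nat) (k :
    Nat → Bool) : Bool :=
  k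
    (x (nat_lit 0))

theorem ap_eq (x : Nat → Nat) (k : FnLL cds) : apLL (fun t => x t.cd) cds k = ap x k :=
  Eq.refl (ap x k)

theorem codes_ok : beqL (codes cds) (secL 7 0 0 []) = true := by decide +kernel

noncomputable def fin (f : Nat → Nat) (v1 : Nat) (
    x0 : Nat) : Bool :=
  Nat.beq
    (Nat.add (Nat.add (f x0) 0) 0) v1

theorem fin_eq0 (f : Nat → Nat) (v1 : Nat) (x : Nat → Nat) :
    apLL (fun t => x t.cd) cds (fin f v1) = Nat.beq (sum2 (fun t => f (x t.cd)) cds) v1 :=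
  Eq.refl (apLL (fun t => x t.cd) cds (fin f v1))

theorem fin_eq (f : Nat → Nat) (v1 : Nat) (x : Nat → Nat) :
    ap x (fin f v1) = Nat.beq (sumL (fun s => f (x s)) (secL 7 0 0 [])) v1 :=
  ((ap_eq x (fin f v1)).symm.trans (fin_eq0 f v1 x)).trans
    (congrArg (fun z => Nat.beq z v1) (sum2_eq cds _ codes_ok (fun s => f (x s))))

def ch0 : List (Nat × Nat) :=
    [(0,2)]

def sqA0 (X M
    u0 : Nat) : Nat :=
    (Nat.add (Nat.mul (Nat.mul (Nat.land u0 M) (Nat.sub X (Nat.land u0 M))) 2)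
    0)

def sqB0 (z0 : Nat) : Nat :=
  sqA0 (Nat.shiftLeft 1 122) (Nat.sub (Nat.shiftLeft 1 122) 1)
    z0

def sqC0 (u : Nat) : Nat :=
  sqB0
    u

noncomputable def sq0 (v : Nat) : Nat := sqC0 (Nat.add v (offs 122 (Nat.shiftLeft 1 (Nat.sub 122 1)) ch0))

theorem sq_eq0 : sq0 = sqF 122 ch0 := Eq.refl sq0

theorem side_ok0 : sideOK 7 122 mask cf7 ch0 = true := by decide +kernel

theorem cover : beqP (repL 7 0) (ch0 ++ []) = true := by decide +kernel

theorem len_ok : (secL 7 0 0 []).length = 1 := by decide +kernel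

theorem wt_ok : (List.map Prod.snd (ch0 ++ [])).sum = 2 := by decide +kernel

end Vale.Agent.P348.A7_0

namespace Vale.Agent.P348.A7_1

def mask : Nat := nat_lit 2

def KK : Type :=
    Nat → Nat → Nat → Nat → Nat → Nat → Nat → Bool

noncomputable def cd0 : List Spec :=
  [Spec.mk (nat_lit 1) (nat_lit 0) [] (nat_lit 0) [] false,
   Spec.mk (nat_lit 3) (nat_lit 0) [] (nat_lit 0) [] false,
   Spec.mk (nat_lit 9) (nat_lit 0) [] (nat_lit 0) [] false,
   Spec.mk (nat_lit 27) (nat_lit 0) [] (nat_lit 0) [] false,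
   Spec.mk (nat_lit 81) (nat_lit 0) [] (nat_lit 0) [] false,
   Spec.mk (nat_lit 243) (nat_lit 0) [] (nat_lit 0) [] false,
   Spec.mk (nat_lit 729) (nat_lit 0) [] (nat_lit 0) [] false]

noncomputable def cds : List (List Spec) :=
    cd0 :: []

noncomputable def ap (x : Nat → Nat) (k :
    Nat → Nat → Nat → Nat → Nat → Nat → Nat → Bool) : Bool :=
  k
    (x (nat_lit 1)) (x (nat_lit 3)) (x (nat_lit 9)) (x (nat_lit 27)) (x (nat_lit 81))
    (x (nat_lit 243)) (x (nat_lit 729))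

theorem ap_eq (x : Nat → Nat) (k : FnLL cds) : apLL (fun t => x t.cd) cds k = ap x k :=
  Eq.refl (ap x k)

theorem codes_ok : beqL (codes cds) (secL 7 1 0 []) = true := by decide +kernel

noncomputable def fin (f : Nat → Nat) (v1 : Nat) (
    x1 x3 x9 x27 x81 x243 x729 : Nat) : Bool :=
  Nat.beq
    (Nat.add (Nat.add (f x1) (Nat.add (f x3) (Nat.add (f x9) (Nat.add (f x27) (Nat.add (f x81)
    (Nat.add (f x243) (Nat.add (f x729) 0))))))) 0) v1

theorem fin_eq0 (f : Nat → Nat) (v1 : Nat) (x : Nat → Nat) :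
    apLL (fun t => x t.cd) cds (fin f v1) = Nat.beq (sum2 (fun t => f (x t.cd)) cds) v1 :=
  Eq.refl (apLL (fun t => x t.cd) cds (fin f v1))

theorem fin_eq (f : Nat → Nat) (v1 : Nat) (x : Nat → Nat) :
    ap x (fin f v1) = Nat.beq (sumL (fun s => f (x s)) (secL 7 1 0 [])) v1 :=
  ((ap_eq x (fin f v1)).symm.trans (fin_eq0 f v1 x)).trans
    (congrArg (fun z => Nat.beq z v1) (sum2_eq cds _ codes_ok (fun s => f (x s))))

def ch0 : List (Nat × Nat) :=
    [(1,14)]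

def sqA0 (X M
    u0 : Nat) : Nat :=
    (Nat.add (Nat.mul (Nat.mul (Nat.land u0 M) (Nat.sub X (Nat.land u0 M))) 14)
    0)

def sqB0 (z0 : Nat) : Nat :=
  sqA0 (Nat.shiftLeft 1 122) (Nat.sub (Nat.shiftLeft 1 122) 1)
    z0

def sqC0 (u : Nat) : Nat :=
  sqB0
    u

noncomputable def sq0 (v : Nat) : Nat := sqC0 (Nat.add v (offs 122 (Nat.shiftLeft 1 (Nat.sub 122 1)) ch0))

theorem sq_eq0 : sq0 = sqF 122 ch0 := Eq.refl sq0

theorem side_ok0 : sideOK 7 122 mask cf7 ch0 = true := by decide +kernel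

theorem cover : beqP (repL 7 1) (ch0 ++ []) = true := by decide +kernel

theorem len_ok : (secL 7 1 0 []).length = 7 := by decide +kernel

theorem wt_ok : (List.map Prod.snd (ch0 ++ [])).sum = 14 := by decide +kernel

end Vale.Agent.P348.A7_1

namespace Vale.Agent.P348.A7_2

def mask : Nat := nat_lit 268436500

def KK : Type :=
    Nat → Nat → Nat → Nat → Nat → Nat → Nat → Nat → Nat → Nat → Nat → Nat → Nat → Nat → Nat → Nat →
    Nat → Nat → Nat → Nat → Nat → Nat → Nat → Nat → Nat → Nat → Nat → Nat → Bool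

noncomputable def cd0 : List Spec :=
  [Spec.mk (nat_lit 2) (nat_lit 0) [] (nat_lit 0) [] false,
   Spec.mk (nat_lit 4) (nat_lit 0) [] (nat_lit 0) [] false,
   Spec.mk (nat_lit 6) (nat_lit 0) [] (nat_lit 0) [] false,
   Spec.mk (nat_lit 10) (nat_lit 0) [] (nat_lit 0) [] false,
   Spec.mk (nat_lit 12) (nat_lit 0) [] (nat_lit 0) [] false,
   Spec.mk (nat_lit 18) (nat_lit 0) [] (nat_lit 0) [] false,
   Spec.mk (nat_lit 28) (nat_lit 0) [] (nat_lit 0) [] false,
   Spec.mk (nat_lit 30) (nat_lit 0) [] (nat_lit 0) [] false,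
   Spec.mk (nat_lit 36) (nat_lit 0) [] (nat_lit 0) [] false,
   Spec.mk (nat_lit 54) (nat_lit 0) [] (nat_lit 0) [] false,
   Spec.mk (nat_lit 82) (nat_lit 0) [] (nat_lit 0) [] false,
   Spec.mk (nat_lit 84) (nat_lit 0) [] (nat_lit 0) [] false,
   Spec.mk (nat_lit 90) (nat_lit 0) [] (nat_lit 0) [] false,
   Spec.mk (nat_lit 108) (nat_lit 0) [] (nat_lit 0) [] false,
   Spec.mk (nat_lit 162) (nat_lit 0) [] (nat_lit 0) [] false,
   Spec.mk (nat_lit 244) (nat_lit 0) [] (nat_lit 0) [] false,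
   Spec.mk (nat_lit 246) (nat_lit 0) [] (nat_lit 0) [] false,
   Spec.mk (nat_lit 252) (nat_lit 0) [] (nat_lit 0) [] false,
   Spec.mk (nat_lit 270) (nat_lit 0) [] (nat_lit 0) [] false,
   Spec.mk (nat_lit 324) (nat_lit 0) [] (nat_lit 0) [] false,
   Spec.mk (nat_lit 486) (nat_lit 0) [] (nat_lit 0) [] false,
   Spec.mk (nat_lit 730) (nat_lit 0) [] (nat_lit 0) [] false,
   Spec.mk (nat_lit 732) (nat_lit 0) [] (nat_lit 0) [] false,
   Spec.mk (nat_lit 738) (nat_lit 0) [] (nat_lit 0) [] false,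
   Spec.mk (nat_lit 756) (nat_lit 0) [] (nat_lit 0) [] false,
   Spec.mk (nat_lit 810) (nat_lit 0) [] (nat_lit 0) [] false,
   Spec.mk (nat_lit 972) (nat_lit 0) [] (nat_lit 0) [] false,
   Spec.mk (nat_lit 1458) (nat_lit 0) [] (nat_lit 0) [] false]

noncomputable def cds : List (List Spec) :=
    cd0 :: []

noncomputable def ap (x : Nat → Nat) (k :
    Nat → Nat → Nat → Nat → Nat → Nat → Nat → Nat → Nat → Nat → Nat → Nat → Nat → Nat → Nat → Nat →
    Nat → Nat → Nat → Nat → Nat → Nat → Nat → Nat → Nat → Nat → Nat → Nat → Bool) : Bool :=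
  k
    (x (nat_lit 2)) (x (nat_lit 4)) (x (nat_lit 6)) (x (nat_lit 10)) (x (nat_lit 12))
    (x (nat_lit 18)) (x (nat_lit 28)) (x (nat_lit 30)) (x (nat_lit 36)) (x (nat_lit 54))
    (x (nat_lit 82)) (x (nat_lit 84)) (x (nat_lit 90)) (x (nat_lit 108)) (x (nat_lit 162))
    (x (nat_lit 244)) (x (nat_lit 246)) (x (nat_lit 252)) (x (nat_lit 270)) (x (nat_lit 324))
    (x (nat_lit 486)) (x (nat_lit 730)) (x (nat_lit 732)) (x (nat_lit 738)) (x (nat_lit 756))
    (x (nat_lit 810)) (x (nat_lit 972)) (x (nat_lit 1458))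

theorem ap_eq (x : Nat → Nat) (k : FnLL cds) : apLL (fun t => x t.cd) cds k = ap x k :=
  Eq.refl (ap x k)

theorem codes_ok : beqL (codes cds) (secL 7 2 0 []) = true := by decide +kernel

noncomputable def fin (f : Nat → Nat) (v1 : Nat) (
    x2 x4 x6 x10 x12 x18 x28 x30 x36 x54 x82 x84 x90 x108 x162 x244 x246 x252 x270 x324 x486 x730
    x732 x738 x756 x810 x972 x1458 : Nat) : Bool :=
  Nat.beq
    (Nat.add (Nat.add (f x2) (Nat.add (f x4) (Nat.add (f x6) (Nat.add (f x10) (Nat.add (f x12)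
    (Nat.add (f x18) (Nat.add (f x28) (Nat.add (f x30) (Nat.add (f x36) (Nat.add (f x54) (Nat.add
    (f x82) (Nat.add (f x84) (Nat.add (f x90) (Nat.add (f x108) (Nat.add (f x162) (Nat.add (f x244)
    (Nat.add (f x246) (Nat.add (f x252) (Nat.add (f x270) (Nat.add (f x324) (Nat.add (f x486)
    (Nat.add (f x730) (Nat.add (f x732) (Nat.add (f x738) (Nat.add (f x756) (Nat.add (f x810)
    (Nat.add (f x972) (Nat.add (f x1458) 0)))))))))))))))))))))))))))) 0) v1

theorem fin_eq0 (f : Nat → Nat) (v1 : Nat) (x : Nat → Nat) :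
    apLL (fun t => x t.cd) cds (fin f v1) = Nat.beq (sum2 (fun t => f (x t.cd)) cds) v1 :=
  Eq.refl (apLL (fun t => x t.cd) cds (fin f v1))

theorem fin_eq (f : Nat → Nat) (v1 : Nat) (x : Nat → Nat) :
    ap x (fin f v1) = Nat.beq (sumL (fun s => f (x s)) (secL 7 2 0 [])) v1 :=
  ((ap_eq x (fin f v1)).symm.trans (fin_eq0 f v1 x)).trans
    (congrArg (fun z => Nat.beq z v1) (sum2_eq cds _ codes_ok (fun s => f (x s))))

def ch0 : List (Nat × Nat) :=
    [(2,14), (4,14), (10,14), (28,14)]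

def sqA0 (X M
    u0 u1 u2 u3 : Nat) : Nat :=
    (Nat.add (Nat.mul (Nat.mul (Nat.land u0 M) (Nat.sub X (Nat.land u0 M))) 14)
    (Nat.add (Nat.mul (Nat.mul (Nat.land u1 M) (Nat.sub X (Nat.land u1 M))) 14)
    (Nat.add (Nat.mul (Nat.mul (Nat.land u2 M) (Nat.sub X (Nat.land u2 M))) 14)
    (Nat.add (Nat.mul (Nat.mul (Nat.land u3 M) (Nat.sub X (Nat.land u3 M))) 14)
    0))))

def sqB0 (z0 : Nat) : Nat :=
  sqA0 (Nat.shiftLeft 1 122) (Nat.sub (Nat.shiftLeft 1 122) 1)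
    z0
    (Nat.shiftRight z0 122)
    (Nat.shiftRight (Nat.shiftRight z0 122) 122)
    (Nat.shiftRight (Nat.shiftRight (Nat.shiftRight z0 122) 122) 122)

def sqC0 (u : Nat) : Nat :=
  sqB0
    u

noncomputable def sq0 (v : Nat) : Nat := sqC0 (Nat.add v (offs 122 (Nat.shiftLeft 1 (Nat.sub 122 1)) ch0))

theorem sq_eq0 : sq0 = sqF 122 ch0 := Eq.refl sq0

theorem side_ok0 : sideOK 7 122 mask cf7 ch0 = true := by decide +kernel

theorem cover : beqP (repL 7 2) (ch0 ++ []) = true := by decide +kernel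

theorem len_ok : (secL 7 2 0 []).length = 28 := by decide +kernel

theorem wt_ok : (List.map Prod.snd (ch0 ++ [])).sum = 56 := by decide +kernel

end Vale.Agent.P348.A7_2

namespace Vale.Agent.P348.A7_3

def mask : Nat := nat_lit 2514565704798428686073210912

def KK : Type :=
    Nat → Nat → Nat → Nat → Nat → Nat → Nat → Nat → Nat → Nat → Nat → Nat → Nat → Nat → Nat → Nat →
    Nat → Nat → Nat → Nat → Nat → Nat → Nat → Nat → Nat → Nat → Nat → Nat → Nat → Nat → Nat → Nat →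
    Nat → Nat → Nat → Nat → Nat → Nat → Nat → Nat → Nat → Nat → Nat → Nat → Nat → Nat → Nat → Nat →
    Nat → Nat → Nat → Nat → Nat → Nat → Nat → Nat → Nat → Nat → Nat → Nat → Nat → Nat → Nat → Nat →
    Nat → Nat → Nat → Nat → Nat → Nat → Nat → Nat → Nat → Nat → Nat → Nat → Nat → Bool

noncomputable def cd0 : List Spec :=
  [Spec.mk (nat_lit 5) (nat_lit 0) [] (nat_lit 0) [] false,
   Spec.mk (nat_lit 7) (nat_lit 0) [] (nat_lit 0) [] false,
   Spec.mk (nat_lit 11) (nat_lit 0) [] (nat_lit 0) [] false,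
   Spec.mk (nat_lit 13) (nat_lit 0) [] (nat_lit 0) [] false,
   Spec.mk (nat_lit 15) (nat_lit 0) [] (nat_lit 0) [] false,
   Spec.mk (nat_lit 19) (nat_lit 0) [] (nat_lit 0) [] false,
   Spec.mk (nat_lit 21) (nat_lit 0) [] (nat_lit 0) [] false,
   Spec.mk (nat_lit 29) (nat_lit 0) [] (nat_lit 0) [] false,
   Spec.mk (nat_lit 31) (nat_lit 0) [] (nat_lit 0) [] false,
   Spec.mk (nat_lit 33) (nat_lit 0) [] (nat_lit 0) [] false,
   Spec.mk (nat_lit 37) (nat_lit 0) [] (nat_lit 0) [] false,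
   Spec.mk (nat_lit 39) (nat_lit 0) [] (nat_lit 0) [] false,
   Spec.mk (nat_lit 45) (nat_lit 0) [] (nat_lit 0) [] false,
   Spec.mk (nat_lit 55) (nat_lit 0) [] (nat_lit 0) [] false,
   Spec.mk (nat_lit 57) (nat_lit 0) [] (nat_lit 0) [] false,
   Spec.mk (nat_lit 63) (nat_lit 0) [] (nat_lit 0) [] false,
   Spec.mk (nat_lit 83) (nat_lit 0) [] (nat_lit 0) [] false,
   Spec.mk (nat_lit 85) (nat_lit 0) [] (nat_lit 0) [] false,
   Spec.mk (nat_lit 87) (nat_lit 0) [] (nat_lit 0) [] false,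
   Spec.mk (nat_lit 91) (nat_lit 0) [] (nat_lit 0) [] false,
   Spec.mk (nat_lit 93) (nat_lit 0) [] (nat_lit 0) [] false,
   Spec.mk (nat_lit 99) (nat_lit 0) [] (nat_lit 0) [] false,
   Spec.mk (nat_lit 109) (nat_lit 0) [] (nat_lit 0) [] false,
   Spec.mk (nat_lit 111) (nat_lit 0) [] (nat_lit 0) [] false,
   Spec.mk (nat_lit 117) (nat_lit 0) [] (nat_lit 0) [] false,
   Spec.mk (nat_lit 135) (nat_lit 0) [] (nat_lit 0) [] false,
   Spec.mk (nat_lit 163) (nat_lit 0) [] (nat_lit 0) [] false,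
   Spec.mk (nat_lit 165) (nat_lit 0) [] (nat_lit 0) [] false,
   Spec.mk (nat_lit 171) (nat_lit 0) [] (nat_lit 0) [] false,
   Spec.mk (nat_lit 189) (nat_lit 0) [] (nat_lit 0) [] false,
   Spec.mk (nat_lit 245) (nat_lit 0) [] (nat_lit 0) [] false,
   Spec.mk (nat_lit 247) (nat_lit 0) [] (nat_lit 0) [] false,
   Spec.mk (nat_lit 249) (nat_lit 0) [] (nat_lit 0) [] false,
   Spec.mk (nat_lit 253) (nat_lit 0) [] (nat_lit 0) [] false,
   Spec.mk (nat_lit 255) (nat_lit 0) [] (nat_lit 0) [] false,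
   Spec.mk (nat_lit 261) (nat_lit 0) [] (nat_lit 0) [] false,
   Spec.mk (nat_lit 271) (nat_lit 0) [] (nat_lit 0) [] false,
   Spec.mk (nat_lit 273) (nat_lit 0) [] (nat_lit 0) [] false,
   Spec.mk (nat_lit 279) (nat_lit 0) [] (nat_lit 0) [] false,
   Spec.mk (nat_lit 297) (nat_lit 0) [] (nat_lit 0) [] false,
   Spec.mk (nat_lit 325) (nat_lit 0) [] (nat_lit 0) [] false,
   Spec.mk (nat_lit 327) (nat_lit 0) [] (nat_lit 0) [] false,
   Spec.mk (nat_lit 333) (nat_lit 0) [] (nat_lit 0) [] false,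
   Spec.mk (nat_lit 351) (nat_lit 0) [] (nat_lit 0) [] false,
   Spec.mk (nat_lit 405) (nat_lit 0) [] (nat_lit 0) [] false,
   Spec.mk (nat_lit 487) (nat_lit 0) [] (nat_lit 0) [] false,
   Spec.mk (nat_lit 489) (nat_lit 0) [] (nat_lit 0) [] false,
   Spec.mk (nat_lit 495) (nat_lit 0) [] (nat_lit 0) [] false,
   Spec.mk (nat_lit 513) (nat_lit 0) [] (nat_lit 0) [] false,
   Spec.mk (nat_lit 567) (nat_lit 0) [] (nat_lit 0) [] false,
   Spec.mk (nat_lit 731) (nat_lit 0) [] (nat_lit 0) [] false,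
   Spec.mk (nat_lit 733) (nat_lit 0) [] (nat_lit 0) [] false,
   Spec.mk (nat_lit 735) (nat_lit 0) [] (nat_lit 0) [] false,
   Spec.mk (nat_lit 739) (nat_lit 0) [] (nat_lit 0) [] false,
   Spec.mk (nat_lit 741) (nat_lit 0) [] (nat_lit 0) [] false,
   Spec.mk (nat_lit 747) (nat_lit 0) [] (nat_lit 0) [] false,
   Spec.mk (nat_lit 757) (nat_lit 0) [] (nat_lit 0) [] false,
   Spec.mk (nat_lit 759) (nat_lit 0) [] (nat_lit 0) [] false,
   Spec.mk (nat_lit 765) (nat_lit 0) [] (nat_lit 0) [] false,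
   Spec.mk (nat_lit 783) (nat_lit 0) [] (nat_lit 0) [] false]

noncomputable def cd1 : List Spec :=
  [Spec.mk (nat_lit 811) (nat_lit 0) [] (nat_lit 0) [] false,
   Spec.mk (nat_lit 813) (nat_lit 0) [] (nat_lit 0) [] false,
   Spec.mk (nat_lit 819) (nat_lit 0) [] (nat_lit 0) [] false,
   Spec.mk (nat_lit 837) (nat_lit 0) [] (nat_lit 0) [] false,
   Spec.mk (nat_lit 891) (nat_lit 0) [] (nat_lit 0) [] false,
   Spec.mk (nat_lit 973) (nat_lit 0) [] (nat_lit 0) [] false,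
   Spec.mk (nat_lit 975) (nat_lit 0) [] (nat_lit 0) [] false,
   Spec.mk (nat_lit 981) (nat_lit 0) [] (nat_lit 0) [] false,
   Spec.mk (nat_lit 999) (nat_lit 0) [] (nat_lit 0) [] false,
   Spec.mk (nat_lit 1053) (nat_lit 0) [] (nat_lit 0) [] false,
   Spec.mk (nat_lit 1215) (nat_lit 0) [] (nat_lit 0) [] false,
   Spec.mk (nat_lit 1459) (nat_lit 0) [] (nat_lit 0) [] false,
   Spec.mk (nat_lit 1461) (nat_lit 0) [] (nat_lit 0) [] false,
   Spec.mk (nat_lit 1467) (nat_lit 0) [] (nat_lit 0) [] false,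
   Spec.mk (nat_lit 1485) (nat_lit 0) [] (nat_lit 0) [] false,
   Spec.mk (nat_lit 1539) (nat_lit 0) [] (nat_lit 0) [] false,
   Spec.mk (nat_lit 1701) (nat_lit 0) [] (nat_lit 0) [] false]

noncomputable def cds : List (List Spec) :=
    cd0 :: cd1 :: []

noncomputable def ap (x : Nat → Nat) (k :
    Nat → Nat → Nat → Nat → Nat → Nat → Nat → Nat → Nat → Nat → Nat → Nat → Nat → Nat → Nat → Nat →
    Nat → Nat → Nat → Nat → Nat → Nat → Nat → Nat → Nat → Nat → Nat → Nat → Nat → Nat → Nat → Nat →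
    Nat → Nat → Nat → Nat → Nat → Nat → Nat → Nat → Nat → Nat → Nat → Nat → Nat → Nat → Nat → Nat →
    Nat → Nat → Nat → Nat → Nat → Nat → Nat → Nat → Nat → Nat → Nat → Nat → Nat → Nat → Nat → Nat →
    Nat → Nat → Nat → Nat → Nat → Nat → Nat → Nat → Nat → Nat → Nat → Nat → Nat → Bool) : Bool :=
  k
    (x (nat_lit 5)) (x (nat_lit 7)) (x (nat_lit 11)) (x (nat_lit 13)) (x (nat_lit 15))
    (x (nat_lit 19)) (x (nat_lit 21)) (x (nat_lit 29)) (x (nat_lit 31)) (x (nat_lit 33))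
    (x (nat_lit 37)) (x (nat_lit 39)) (x (nat_lit 45)) (x (nat_lit 55)) (x (nat_lit 57))
    (x (nat_lit 63)) (x (nat_lit 83)) (x (nat_lit 85)) (x (nat_lit 87)) (x (nat_lit 91))
    (x (nat_lit 93)) (x (nat_lit 99)) (x (nat_lit 109)) (x (nat_lit 111)) (x (nat_lit 117))
    (x (nat_lit 135)) (x (nat_lit 163)) (x (nat_lit 165)) (x (nat_lit 171)) (x (nat_lit 189))
    (x (nat_lit 245)) (x (nat_lit 247)) (x (nat_lit 249)) (x (nat_lit 253)) (x (nat_lit 255))
    (x (nat_lit 261)) (x (nat_lit 271)) (x (nat_lit 273)) (x (nat_lit 279)) (x (nat_lit 297))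
    (x (nat_lit 325)) (x (nat_lit 327)) (x (nat_lit 333)) (x (nat_lit 351)) (x (nat_lit 405))
    (x (nat_lit 487)) (x (nat_lit 489)) (x (nat_lit 495)) (x (nat_lit 513)) (x (nat_lit 567))
    (x (nat_lit 731)) (x (nat_lit 733)) (x (nat_lit 735)) (x (nat_lit 739)) (x (nat_lit 741))
    (x (nat_lit 747)) (x (nat_lit 757)) (x (nat_lit 759)) (x (nat_lit 765)) (x (nat_lit 783))
    (x (nat_lit 811)) (x (nat_lit 813)) (x (nat_lit 819)) (x (nat_lit 837)) (x (nat_lit 891))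
    (x (nat_lit 973)) (x (nat_lit 975)) (x (nat_lit 981)) (x (nat_lit 999)) (x (nat_lit 1053))
    (x (nat_lit 1215)) (x (nat_lit 1459)) (x (nat_lit 1461)) (x (nat_lit 1467)) (x (nat_lit 1485))
    (x (nat_lit 1539)) (x (nat_lit 1701))

theorem ap_eq (x : Nat → Nat) (k : FnLL cds) : apLL (fun t => x t.cd) cds k = ap x k :=
  Eq.refl (ap x k)

theorem codes_ok : beqL (codes cds) (secL 7 3 0 []) = true := by decide +kernel

noncomputable def fin (f : Nat → Nat) (v1 : Nat) (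
    x5 x7 x11 x13 x15 x19 x21 x29 x31 x33 x37 x39 x45 x55 x57 x63 x83 x85 x87 x91 x93 x99 x109 x111
    x117 x135 x163 x165 x171 x189 x245 x247 x249 x253 x255 x261 x271 x273 x279 x297 x325 x327 x333
    x351 x405 x487 x489 x495 x513 x567 x731 x733 x735 x739 x741 x747 x757 x759 x765 x783 x811 x813
    x819 x837 x891 x973 x975 x981 x999 x1053 x1215 x1459 x1461 x1467 x1485 x1539 x1701 : Nat) : Bool :=
  Nat.beq
    (Nat.add (Nat.add (f x5) (Nat.add (f x7) (Nat.add (f x11) (Nat.add (f x13) (Nat.add (f x15)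
    (Nat.add (f x19) (Nat.add (f x21) (Nat.add (f x29) (Nat.add (f x31) (Nat.add (f x33) (Nat.add
    (f x37) (Nat.add (f x39) (Nat.add (f x45) (Nat.add (f x55) (Nat.add (f x57) (Nat.add (f x63)
    (Nat.add (f x83) (Nat.add (f x85) (Nat.add (f x87) (Nat.add (f x91) (Nat.add (f x93) (Nat.add
    (f x99) (Nat.add (f x109) (Nat.add (f x111) (Nat.add (f x117) (Nat.add (f x135) (Nat.add
    (f x163) (Nat.add (f x165) (Nat.add (f x171) (Nat.add (f x189) (Nat.add (f x245) (Nat.add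
    (f x247) (Nat.add (f x249) (Nat.add (f x253) (Nat.add (f x255) (Nat.add (f x261) (Nat.add
    (f x271) (Nat.add (f x273) (Nat.add (f x279) (Nat.add (f x297) (Nat.add (f x325) (Nat.add
    (f x327) (Nat.add (f x333) (Nat.add (f x351) (Nat.add (f x405) (Nat.add (f x487) (Nat.add
    (f x489) (Nat.add (f x495) (Nat.add (f x513) (Nat.add (f x567) (Nat.add (f x731) (Nat.add
    (f x733) (Nat.add (f x735) (Nat.add (f x739) (Nat.add (f x741) (Nat.add (f x747) (Nat.add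
    (f x757) (Nat.add (f x759) (Nat.add (f x765) (Nat.add (f x783)
    0)))))))))))))))))))))))))))))))))))))))))))))))))))))))))))) (Nat.add (Nat.add (f x811)
    (Nat.add (f x813) (Nat.add (f x819) (Nat.add (f x837) (Nat.add (f x891) (Nat.add (f x973)
    (Nat.add (f x975) (Nat.add (f x981) (Nat.add (f x999) (Nat.add (f x1053) (Nat.add (f x1215)
    (Nat.add (f x1459) (Nat.add (f x1461) (Nat.add (f x1467) (Nat.add (f x1485) (Nat.add (f x1539)
    (Nat.add (f x1701) 0))))))))))))))))) 0)) v1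

theorem fin_eq0 (f : Nat → Nat) (v1 : Nat) (x : Nat → Nat) :
    apLL (fun t => x t.cd) cds (fin f v1) = Nat.beq (sum2 (fun t => f (x t.cd)) cds) v1 :=
  Eq.refl (apLL (fun t => x t.cd) cds (fin f v1))

theorem fin_eq (f : Nat → Nat) (v1 : Nat) (x : Nat → Nat) :
    ap x (fin f v1) = Nat.beq (sumL (fun s => f (x s)) (secL 7 3 0 [])) v1 :=
  ((ap_eq x (fin f v1)).symm.trans (fin_eq0 f v1 x)).trans
    (congrArg (fun z => Nat.beq z v1) (sum2_eq cds _ codes_ok (fun s => f (x s))))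

def ch0 : List (Nat × Nat) :=
    [(5,28), (11,28), (13,14), (29,28), (31,28), (85,14), (91,14)]

def sqA0 (X M
    u0 u1 u2 u3 u4 u5 u6 : Nat) : Nat :=
    (Nat.add (Nat.mul (Nat.mul (Nat.land u0 M) (Nat.sub X (Nat.land u0 M))) 28)
    (Nat.add (Nat.mul (Nat.mul (Nat.land u1 M) (Nat.sub X (Nat.land u1 M))) 28)
    (Nat.add (Nat.mul (Nat.mul (Nat.land u2 M) (Nat.sub X (Nat.land u2 M))) 14)
    (Nat.add (Nat.mul (Nat.mul (Nat.land u3 M) (Nat.sub X (Nat.land u3 M))) 28)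
    (Nat.add (Nat.mul (Nat.mul (Nat.land u4 M) (Nat.sub X (Nat.land u4 M))) 28)
    (Nat.add (Nat.mul (Nat.mul (Nat.land u5 M) (Nat.sub X (Nat.land u5 M))) 14)
    (Nat.add (Nat.mul (Nat.mul (Nat.land u6 M) (Nat.sub X (Nat.land u6 M))) 14)
    0)))))))

def sqB0 (z0 z1 : Nat) : Nat :=
  sqA0 (Nat.shiftLeft 1 122) (Nat.sub (Nat.shiftLeft 1 122) 1)
    z0
    (Nat.shiftRight z0 122)
    (Nat.shiftRight (Nat.shiftRight z0 122) 122)
    (Nat.shiftRight (Nat.shiftRight (Nat.shiftRight z0 122) 122) 122)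
    (Nat.shiftRight (Nat.shiftRight (Nat.shiftRight (Nat.shiftRight z0 122) 122) 122) 122)
    (Nat.shiftRight (Nat.shiftRight (Nat.shiftRight (Nat.shiftRight (Nat.shiftRight z0 122) 122) 122) 122) 122)
    z1

def sqC0 (u : Nat) : Nat :=
  sqB0
    u
    (sh6 122 u)

noncomputable def sq0 (v : Nat) : Nat := sqC0 (Nat.add v (offs 122 (Nat.shiftLeft 1 (Nat.sub 122 1)) ch0))

theorem sq_eq0 : sq0 = sqF 122 ch0 := Eq.refl sq0

theorem side_ok0 : sideOK 7 122 mask cf7 ch0 = true := by decide +kernel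

theorem cover : beqP (repL 7 3) (ch0 ++ []) = true := by decide +kernel

theorem len_ok : (secL 7 3 0 []).length = 77 := by decide +kernel

theorem wt_ok : (List.map Prod.snd (ch0 ++ [])).sum = 154 := by decide +kernel

end Vale.Agent.P348.A7_3

namespace Vale.Agent.P348.A7_4

def mask : Nat := nat_lit 30354201441027016733116592294117482916287606860196171683119509703170444828513222912

def KK : Type :=
    Nat → Nat → Nat → Nat → Nat → Nat → Nat → Nat → Nat → Nat → Nat → Nat → Nat → Nat → Nat → Nat →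
    Nat → Nat → Nat → Nat → Nat → Nat → Nat → Nat → Nat → Nat → Nat → Nat → Nat → Nat → Nat → Nat →
    Nat → Nat → Nat → Nat → Nat → Nat → Nat → Nat → Nat → Nat → Nat → Nat → Nat → Nat → Nat → Nat →
    Nat → Nat → Nat → Nat → Nat → Nat → Nat → Nat → Nat → Nat → Nat → Nat → Nat → Nat → Nat → Nat →
    Nat → Nat → Nat → Nat → Nat → Nat → Nat → Nat → Nat → Nat → Nat → Nat → Nat → Nat → Nat → Nat →
    Nat → Nat → Nat → Nat → Nat → Nat → Nat → Nat → Nat → Nat → Nat → Nat → Nat → Nat → Nat → Nat →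
    Nat → Nat → Nat → Nat → Nat → Nat → Nat → Nat → Nat → Nat → Nat → Nat → Nat → Nat → Nat → Nat →
    Nat → Nat → Nat → Nat → Nat → Nat → Nat → Nat → Nat → Nat → Nat → Nat → Nat → Nat → Nat → Nat →
    Nat → Nat → Nat → Nat → Nat → Nat → Nat → Nat → Nat → Nat → Nat → Nat → Nat → Nat → Nat → Nat →
    Nat → Nat → Nat → Nat → Nat → Nat → Nat → Nat → Nat → Nat → Nat → Nat → Nat → Nat → Nat → Nat →
    Nat → Bool

noncomputable def cd0 : List Spec :=
  [Spec.mk (nat_lit 8) (nat_lit 0) [] (nat_lit 0) [] false,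
   Spec.mk (nat_lit 14) (nat_lit 0) [] (nat_lit 0) [] false,
   Spec.mk (nat_lit 16) (nat_lit 0) [] (nat_lit 0) [] false,
   Spec.mk (nat_lit 20) (nat_lit 0) [] (nat_lit 0) [] false,
   Spec.mk (nat_lit 22) (nat_lit 0) [] (nat_lit 0) [] false,
   Spec.mk (nat_lit 24) (nat_lit 0) [] (nat_lit 0) [] false,
   Spec.mk (nat_lit 32) (nat_lit 0) [] (nat_lit 0) [] false,
   Spec.mk (nat_lit 34) (nat_lit 0) [] (nat_lit 0) [] false,
   Spec.mk (nat_lit 38) (nat_lit 0) [] (nat_lit 0) [] false,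
   Spec.mk (nat_lit 40) (nat_lit 0) [] (nat_lit 0) [] false,
   Spec.mk (nat_lit 42) (nat_lit 0) [] (nat_lit 0) [] false,
   Spec.mk (nat_lit 46) (nat_lit 0) [] (nat_lit 0) [] false,
   Spec.mk (nat_lit 48) (nat_lit 0) [] (nat_lit 0) [] false,
   Spec.mk (nat_lit 56) (nat_lit 0) [] (nat_lit 0) [] false,
   Spec.mk (nat_lit 58) (nat_lit 0) [] (nat_lit 0) [] false,
   Spec.mk (nat_lit 60) (nat_lit 0) [] (nat_lit 0) [] false,
   Spec.mk (nat_lit 64) (nat_lit 0) [] (nat_lit 0) [] false,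
   Spec.mk (nat_lit 66) (nat_lit 0) [] (nat_lit 0) [] false,
   Spec.mk (nat_lit 72) (nat_lit 0) [] (nat_lit 0) [] false,
   Spec.mk (nat_lit 86) (nat_lit 0) [] (nat_lit 0) [] false,
   Spec.mk (nat_lit 88) (nat_lit 0) [] (nat_lit 0) [] false,
   Spec.mk (nat_lit 92) (nat_lit 0) [] (nat_lit 0) [] false,
   Spec.mk (nat_lit 94) (nat_lit 0) [] (nat_lit 0) [] false,
   Spec.mk (nat_lit 96) (nat_lit 0) [] (nat_lit 0) [] false,
   Spec.mk (nat_lit 100) (nat_lit 0) [] (nat_lit 0) [] false,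
   Spec.mk (nat_lit 102) (nat_lit 0) [] (nat_lit 0) [] false,
   Spec.mk (nat_lit 110) (nat_lit 0) [] (nat_lit 0) [] false,
   Spec.mk (nat_lit 112) (nat_lit 0) [] (nat_lit 0) [] false,
   Spec.mk (nat_lit 114) (nat_lit 0) [] (nat_lit 0) [] false,
   Spec.mk (nat_lit 118) (nat_lit 0) [] (nat_lit 0) [] false,
   Spec.mk (nat_lit 120) (nat_lit 0) [] (nat_lit 0) [] false,
   Spec.mk (nat_lit 126) (nat_lit 0) [] (nat_lit 0) [] false,
   Spec.mk (nat_lit 136) (nat_lit 0) [] (nat_lit 0) [] false,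
   Spec.mk (nat_lit 138) (nat_lit 0) [] (nat_lit 0) [] false,
   Spec.mk (nat_lit 144) (nat_lit 0) [] (nat_lit 0) [] false,
   Spec.mk (nat_lit 164) (nat_lit 0) [] (nat_lit 0) [] false,
   Spec.mk (nat_lit 166) (nat_lit 0) [] (nat_lit 0) [] false,
   Spec.mk (nat_lit 168) (nat_lit 0) [] (nat_lit 0) [] false,
   Spec.mk (nat_lit 172) (nat_lit 0) [] (nat_lit 0) [] false,
   Spec.mk (nat_lit 174) (nat_lit 0) [] (nat_lit 0) [] false,
   Spec.mk (nat_lit 180) (nat_lit 0) [] (nat_lit 0) [] false,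
   Spec.mk (nat_lit 190) (nat_lit 0) [] (nat_lit 0) [] false,
   Spec.mk (nat_lit 192) (nat_lit 0) [] (nat_lit 0) [] false,
   Spec.mk (nat_lit 198) (nat_lit 0) [] (nat_lit 0) [] false,
   Spec.mk (nat_lit 216) (nat_lit 0) [] (nat_lit 0) [] false,
   Spec.mk (nat_lit 248) (nat_lit 0) [] (nat_lit 0) [] false,
   Spec.mk (nat_lit 250) (nat_lit 0) [] (nat_lit 0) [] false,
   Spec.mk (nat_lit 254) (nat_lit 0) [] (nat_lit 0) [] false,
   Spec.mk (nat_lit 256) (nat_lit 0) [] (nat_lit 0) [] false,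
   Spec.mk (nat_lit 258) (nat_lit 0) [] (nat_lit 0) [] false,
   Spec.mk (nat_lit 262) (nat_lit 0) [] (nat_lit 0) [] false,
   Spec.mk (nat_lit 264) (nat_lit 0) [] (nat_lit 0) [] false,
   Spec.mk (nat_lit 272) (nat_lit 0) [] (nat_lit 0) [] false,
   Spec.mk (nat_lit 274) (nat_lit 0) [] (nat_lit 0) [] false,
   Spec.mk (nat_lit 276) (nat_lit 0) [] (nat_lit 0) [] false,
   Spec.mk (nat_lit 280) (nat_lit 0) [] (nat_lit 0) [] false,
   Spec.mk (nat_lit 282) (nat_lit 0) [] (nat_lit 0) [] false,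
   Spec.mk (nat_lit 288) (nat_lit 0) [] (nat_lit 0) [] false,
   Spec.mk (nat_lit 298) (nat_lit 0) [] (nat_lit 0) [] false,
   Spec.mk (nat_lit 300) (nat_lit 0) [] (nat_lit 0) [] false]

noncomputable def cd1 : List Spec :=
  [Spec.mk (nat_lit 306) (nat_lit 0) [] (nat_lit 0) [] false,
   Spec.mk (nat_lit 326) (nat_lit 0) [] (nat_lit 0) [] false,
   Spec.mk (nat_lit 328) (nat_lit 0) [] (nat_lit 0) [] false,
   Spec.mk (nat_lit 330) (nat_lit 0) [] (nat_lit 0) [] false,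
   Spec.mk (nat_lit 334) (nat_lit 0) [] (nat_lit 0) [] false,
   Spec.mk (nat_lit 336) (nat_lit 0) [] (nat_lit 0) [] false,
   Spec.mk (nat_lit 342) (nat_lit 0) [] (nat_lit 0) [] false,
   Spec.mk (nat_lit 352) (nat_lit 0) [] (nat_lit 0) [] false,
   Spec.mk (nat_lit 354) (nat_lit 0) [] (nat_lit 0) [] false,
   Spec.mk (nat_lit 360) (nat_lit 0) [] (nat_lit 0) [] false,
   Spec.mk (nat_lit 378) (nat_lit 0) [] (nat_lit 0) [] false,
   Spec.mk (nat_lit 406) (nat_lit 0) [] (nat_lit 0) [] false,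
   Spec.mk (nat_lit 408) (nat_lit 0) [] (nat_lit 0) [] false,
   Spec.mk (nat_lit 414) (nat_lit 0) [] (nat_lit 0) [] false,
   Spec.mk (nat_lit 432) (nat_lit 0) [] (nat_lit 0) [] false,
   Spec.mk (nat_lit 488) (nat_lit 0) [] (nat_lit 0) [] false,
   Spec.mk (nat_lit 490) (nat_lit 0) [] (nat_lit 0) [] false,
   Spec.mk (nat_lit 492) (nat_lit 0) [] (nat_lit 0) [] false,
   Spec.mk (nat_lit 496) (nat_lit 0) [] (nat_lit 0) [] false,
   Spec.mk (nat_lit 498) (nat_lit 0) [] (nat_lit 0) [] false,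
   Spec.mk (nat_lit 504) (nat_lit 0) [] (nat_lit 0) [] false,
   Spec.mk (nat_lit 514) (nat_lit 0) [] (nat_lit 0) [] false,
   Spec.mk (nat_lit 516) (nat_lit 0) [] (nat_lit 0) [] false,
   Spec.mk (nat_lit 522) (nat_lit 0) [] (nat_lit 0) [] false,
   Spec.mk (nat_lit 540) (nat_lit 0) [] (nat_lit 0) [] false,
   Spec.mk (nat_lit 568) (nat_lit 0) [] (nat_lit 0) [] false,
   Spec.mk (nat_lit 570) (nat_lit 0) [] (nat_lit 0) [] false,
   Spec.mk (nat_lit 576) (nat_lit 0) [] (nat_lit 0) [] false,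
   Spec.mk (nat_lit 594) (nat_lit 0) [] (nat_lit 0) [] false,
   Spec.mk (nat_lit 648) (nat_lit 0) [] (nat_lit 0) [] false,
   Spec.mk (nat_lit 734) (nat_lit 0) [] (nat_lit 0) [] false,
   Spec.mk (nat_lit 736) (nat_lit 0) [] (nat_lit 0) [] false,
   Spec.mk (nat_lit 740) (nat_lit 0) [] (nat_lit 0) [] false,
   Spec.mk (nat_lit 742) (nat_lit 0) [] (nat_lit 0) [] false,
   Spec.mk (nat_lit 744) (nat_lit 0) [] (nat_lit 0) [] false,
   Spec.mk (nat_lit 748) (nat_lit 0) [] (nat_lit 0) [] false,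
   Spec.mk (nat_lit 750) (nat_lit 0) [] (nat_lit 0) [] false,
   Spec.mk (nat_lit 758) (nat_lit 0) [] (nat_lit 0) [] false,
   Spec.mk (nat_lit 760) (nat_lit 0) [] (nat_lit 0) [] false,
   Spec.mk (nat_lit 762) (nat_lit 0) [] (nat_lit 0) [] false,
   Spec.mk (nat_lit 766) (nat_lit 0) [] (nat_lit 0) [] false,
   Spec.mk (nat_lit 768) (nat_lit 0) [] (nat_lit 0) [] false,
   Spec.mk (nat_lit 774) (nat_lit 0) [] (nat_lit 0) [] false,
   Spec.mk (nat_lit 784) (nat_lit 0) [] (nat_lit 0) [] false,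
   Spec.mk (nat_lit 786) (nat_lit 0) [] (nat_lit 0) [] false,
   Spec.mk (nat_lit 792) (nat_lit 0) [] (nat_lit 0) [] false,
   Spec.mk (nat_lit 812) (nat_lit 0) [] (nat_lit 0) [] false,
   Spec.mk (nat_lit 814) (nat_lit 0) [] (nat_lit 0) [] false,
   Spec.mk (nat_lit 816) (nat_lit 0) [] (nat_lit 0) [] false,
   Spec.mk (nat_lit 820) (nat_lit 0) [] (nat_lit 0) [] false,
   Spec.mk (nat_lit 822) (nat_lit 0) [] (nat_lit 0) [] false,
   Spec.mk (nat_lit 828) (nat_lit 0) [] (nat_lit 0) [] false,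
   Spec.mk (nat_lit 838) (nat_lit 0) [] (nat_lit 0) [] false,
   Spec.mk (nat_lit 840) (nat_lit 0) [] (nat_lit 0) [] false,
   Spec.mk (nat_lit 846) (nat_lit 0) [] (nat_lit 0) [] false,
   Spec.mk (nat_lit 864) (nat_lit 0) [] (nat_lit 0) [] false,
   Spec.mk (nat_lit 892) (nat_lit 0) [] (nat_lit 0) [] false,
   Spec.mk (nat_lit 894) (nat_lit 0) [] (nat_lit 0) [] false,
   Spec.mk (nat_lit 900) (nat_lit 0) [] (nat_lit 0) [] false,
   Spec.mk (nat_lit 918) (nat_lit 0) [] (nat_lit 0) [] false]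

noncomputable def cd2 : List Spec :=
  [Spec.mk (nat_lit 974) (nat_lit 0) [] (nat_lit 0) [] false,
   Spec.mk (nat_lit 976) (nat_lit 0) [] (nat_lit 0) [] false,
   Spec.mk (nat_lit 978) (nat_lit 0) [] (nat_lit 0) [] false,
   Spec.mk (nat_lit 982) (nat_lit 0) [] (nat_lit 0) [] false,
   Spec.mk (nat_lit 984) (nat_lit 0) [] (nat_lit 0) [] false,
   Spec.mk (nat_lit 990) (nat_lit 0) [] (nat_lit 0) [] false,
   Spec.mk (nat_lit 1000) (nat_lit 0) [] (nat_lit 0) [] false,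
   Spec.mk (nat_lit 1002) (nat_lit 0) [] (nat_lit 0) [] false,
   Spec.mk (nat_lit 1008) (nat_lit 0) [] (nat_lit 0) [] false,
   Spec.mk (nat_lit 1026) (nat_lit 0) [] (nat_lit 0) [] false,
   Spec.mk (nat_lit 1054) (nat_lit 0) [] (nat_lit 0) [] false,
   Spec.mk (nat_lit 1056) (nat_lit 0) [] (nat_lit 0) [] false,
   Spec.mk (nat_lit 1062) (nat_lit 0) [] (nat_lit 0) [] false,
   Spec.mk (nat_lit 1080) (nat_lit 0) [] (nat_lit 0) [] false,
   Spec.mk (nat_lit 1134) (nat_lit 0) [] (nat_lit 0) [] false,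
   Spec.mk (nat_lit 1216) (nat_lit 0) [] (nat_lit 0) [] false,
   Spec.mk (nat_lit 1218) (nat_lit 0) [] (nat_lit 0) [] false,
   Spec.mk (nat_lit 1224) (nat_lit 0) [] (nat_lit 0) [] false,
   Spec.mk (nat_lit 1242) (nat_lit 0) [] (nat_lit 0) [] false,
   Spec.mk (nat_lit 1296) (nat_lit 0) [] (nat_lit 0) [] false,
   Spec.mk (nat_lit 1460) (nat_lit 0) [] (nat_lit 0) [] false,
   Spec.mk (nat_lit 1462) (nat_lit 0) [] (nat_lit 0) [] false,
   Spec.mk (nat_lit 1464) (nat_lit 0) [] (nat_lit 0) [] false,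
   Spec.mk (nat_lit 1468) (nat_lit 0) [] (nat_lit 0) [] false,
   Spec.mk (nat_lit 1470) (nat_lit 0) [] (nat_lit 0) [] false,
   Spec.mk (nat_lit 1476) (nat_lit 0) [] (nat_lit 0) [] false,
   Spec.mk (nat_lit 1486) (nat_lit 0) [] (nat_lit 0) [] false,
   Spec.mk (nat_lit 1488) (nat_lit 0) [] (nat_lit 0) [] false,
   Spec.mk (nat_lit 1494) (nat_lit 0) [] (nat_lit 0) [] false,
   Spec.mk (nat_lit 1512) (nat_lit 0) [] (nat_lit 0) [] false,
   Spec.mk (nat_lit 1540) (nat_lit 0) [] (nat_lit 0) [] false,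
   Spec.mk (nat_lit 1542) (nat_lit 0) [] (nat_lit 0) [] false,
   Spec.mk (nat_lit 1548) (nat_lit 0) [] (nat_lit 0) [] false,
   Spec.mk (nat_lit 1566) (nat_lit 0) [] (nat_lit 0) [] false,
   Spec.mk (nat_lit 1620) (nat_lit 0) [] (nat_lit 0) [] false,
   Spec.mk (nat_lit 1702) (nat_lit 0) [] (nat_lit 0) [] false,
   Spec.mk (nat_lit 1704) (nat_lit 0) [] (nat_lit 0) [] false,
   Spec.mk (nat_lit 1710) (nat_lit 0) [] (nat_lit 0) [] false,
   Spec.mk (nat_lit 1728) (nat_lit 0) [] (nat_lit 0) [] false,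
   Spec.mk (nat_lit 1782) (nat_lit 0) [] (nat_lit 0) [] false,
   Spec.mk (nat_lit 1944) (nat_lit 0) [] (nat_lit 0) [] false]

noncomputable def cds : List (List Spec) :=
    cd0 :: cd1 :: cd2 :: []

noncomputable def ap (x : Nat → Nat) (k :
    Nat → Nat → Nat → Nat → Nat → Nat → Nat → Nat → Nat → Nat → Nat → Nat → Nat → Nat → Nat → Nat →
    Nat → Nat → Nat → Nat → Nat → Nat → Nat → Nat → Nat → Nat → Nat → Nat → Nat → Nat → Nat → Nat →
    Nat → Nat → Nat → Nat → Nat → Nat → Nat → Nat → Nat → Nat → Nat → Nat → Nat → Nat → Nat → Nat →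
    Nat → Nat → Nat → Nat → Nat → Nat → Nat → Nat → Nat → Nat → Nat → Nat → Nat → Nat → Nat → Nat →
    Nat → Nat → Nat → Nat → Nat → Nat → Nat → Nat → Nat → Nat → Nat → Nat → Nat → Nat → Nat → Nat →
    Nat → Nat → Nat → Nat → Nat → Nat → Nat → Nat → Nat → Nat → Nat → Nat → Nat → Nat → Nat → Nat →
    Nat → Nat → Nat → Nat → Nat → Nat → Nat → Nat → Nat → Nat → Nat → Nat → Nat → Nat → Nat → Nat →
    Nat → Nat → Nat → Nat → Nat → Nat → Nat → Nat → Nat → Nat → Nat → Nat → Nat → Nat → Nat → Nat →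
    Nat → Nat → Nat → Nat → Nat → Nat → Nat → Nat → Nat → Nat → Nat → Nat → Nat → Nat → Nat → Nat →
    Nat → Nat → Nat → Nat → Nat → Nat → Nat → Nat → Nat → Nat → Nat → Nat → Nat → Nat → Nat → Nat →
    Nat → Bool) : Bool :=
  k
    (x (nat_lit 8)) (x (nat_lit 14)) (x (nat_lit 16)) (x (nat_lit 20)) (x (nat_lit 22))
    (x (nat_lit 24)) (x (nat_lit 32)) (x (nat_lit 34)) (x (nat_lit 38)) (x (nat_lit 40))
    (x (nat_lit 42)) (x (nat_lit 46)) (x (nat_lit 48)) (x (nat_lit 56)) (x (nat_lit 58))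
    (x (nat_lit 60)) (x (nat_lit 64)) (x (nat_lit 66)) (x (nat_lit 72)) (x (nat_lit 86))
    (x (nat_lit 88)) (x (nat_lit 92)) (x (nat_lit 94)) (x (nat_lit 96)) (x (nat_lit 100))
    (x (nat_lit 102)) (x (nat_lit 110)) (x (nat_lit 112)) (x (nat_lit 114)) (x (nat_lit 118))
    (x (nat_lit 120)) (x (nat_lit 126)) (x (nat_lit 136)) (x (nat_lit 138)) (x (nat_lit 144))
    (x (nat_lit 164)) (x (nat_lit 166)) (x (nat_lit 168)) (x (nat_lit 172)) (x (nat_lit 174))
    (x (nat_lit 180)) (x (nat_lit 190)) (x (nat_lit 192)) (x (nat_lit 198)) (x (nat_lit 216))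
    (x (nat_lit 248)) (x (nat_lit 250)) (x (nat_lit 254)) (x (nat_lit 256)) (x (nat_lit 258))
    (x (nat_lit 262)) (x (nat_lit 264)) (x (nat_lit 272)) (x (nat_lit 274)) (x (nat_lit 276))
    (x (nat_lit 280)) (x (nat_lit 282)) (x (nat_lit 288)) (x (nat_lit 298)) (x (nat_lit 300))
    (x (nat_lit 306)) (x (nat_lit 326)) (x (nat_lit 328)) (x (nat_lit 330)) (x (nat_lit 334))
    (x (nat_lit 336)) (x (nat_lit 342)) (x (nat_lit 352)) (x (nat_lit 354)) (x (nat_lit 360))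
    (x (nat_lit 378)) (x (nat_lit 406)) (x (nat_lit 408)) (x (nat_lit 414)) (x (nat_lit 432))
    (x (nat_lit 488)) (x (nat_lit 490)) (x (nat_lit 492)) (x (nat_lit 496)) (x (nat_lit 498))
    (x (nat_lit 504)) (x (nat_lit 514)) (x (nat_lit 516)) (x (nat_lit 522)) (x (nat_lit 540))
    (x (nat_lit 568)) (x (nat_lit 570)) (x (nat_lit 576)) (x (nat_lit 594)) (x (nat_lit 648))
    (x (nat_lit 734)) (x (nat_lit 736)) (x (nat_lit 740)) (x (nat_lit 742)) (x (nat_lit 744))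
    (x (nat_lit 748)) (x (nat_lit 750)) (x (nat_lit 758)) (x (nat_lit 760)) (x (nat_lit 762))
    (x (nat_lit 766)) (x (nat_lit 768)) (x (nat_lit 774)) (x (nat_lit 784)) (x (nat_lit 786))
    (x (nat_lit 792)) (x (nat_lit 812)) (x (nat_lit 814)) (x (nat_lit 816)) (x (nat_lit 820))
    (x (nat_lit 822)) (x (nat_lit 828)) (x (nat_lit 838)) (x (nat_lit 840)) (x (nat_lit 846))
    (x (nat_lit 864)) (x (nat_lit 892)) (x (nat_lit 894)) (x (nat_lit 900)) (x (nat_lit 918))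
    (x (nat_lit 974)) (x (nat_lit 976)) (x (nat_lit 978)) (x (nat_lit 982)) (x (nat_lit 984))
    (x (nat_lit 990)) (x (nat_lit 1000)) (x (nat_lit 1002)) (x (nat_lit 1008)) (x (nat_lit 1026))
    (x (nat_lit 1054)) (x (nat_lit 1056)) (x (nat_lit 1062)) (x (nat_lit 1080)) (x (nat_lit 1134))
    (x (nat_lit 1216)) (x (nat_lit 1218)) (x (nat_lit 1224)) (x (nat_lit 1242)) (x (nat_lit 1296))
    (x (nat_lit 1460)) (x (nat_lit 1462)) (x (nat_lit 1464)) (x (nat_lit 1468)) (x (nat_lit 1470))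
    (x (nat_lit 1476)) (x (nat_lit 1486)) (x (nat_lit 1488)) (x (nat_lit 1494)) (x (nat_lit 1512))
    (x (nat_lit 1540)) (x (nat_lit 1542)) (x (nat_lit 1548)) (x (nat_lit 1566)) (x (nat_lit 1620))
    (x (nat_lit 1702)) (x (nat_lit 1704)) (x (nat_lit 1710)) (x (nat_lit 1728)) (x (nat_lit 1782))
    (x (nat_lit 1944))

theorem ap_eq (x : Nat → Nat) (k : FnLL cds) : apLL (fun t => x t.cd) cds k = ap x k :=
  Eq.refl (ap x k)

theorem codes_ok : beqL (codes cds) (secL 7 4 0 []) = true := by decide +kernel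

noncomputable def fin (f : Nat → Nat) (v1 : Nat) (
    x8 x14 x16 x20 x22 x24 x32 x34 x38 x40 x42 x46 x48 x56 x58 x60 x64 x66 x72 x86 x88 x92 x94 x96
    x100 x102 x110 x112 x114 x118 x120 x126 x136 x138 x144 x164 x166 x168 x172 x174 x180 x190 x192
    x198 x216 x248 x250 x254 x256 x258 x262 x264 x272 x274 x276 x280 x282 x288 x298 x300 x306 x326
    x328 x330 x334 x336 x342 x352 x354 x360 x378 x406 x408 x414 x432 x488 x490 x492 x496 x498 x504
    x514 x516 x522 x540 x568 x570 x576 x594 x648 x734 x736 x740 x742 x744 x748 x750 x758 x760 x762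
    x766 x768 x774 x784 x786 x792 x812 x814 x816 x820 x822 x828 x838 x840 x846 x864 x892 x894 x900
    x918 x974 x976 x978 x982 x984 x990 x1000 x1002 x1008 x1026 x1054 x1056 x1062 x1080 x1134 x1216
    x1218 x1224 x1242 x1296 x1460 x1462 x1464 x1468 x1470 x1476 x1486 x1488 x1494 x1512 x1540 x1542
    x1548 x1566 x1620 x1702 x1704 x1710 x1728 x1782 x1944 : Nat) : Bool :=
  Nat.beq
    (Nat.add (Nat.add (f x8) (Nat.add (f x14) (Nat.add (f x16) (Nat.add (f x20) (Nat.add (f x22)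
    (Nat.add (f x24) (Nat.add (f x32) (Nat.add (f x34) (Nat.add (f x38) (Nat.add (f x40) (Nat.add
    (f x42) (Nat.add (f x46) (Nat.add (f x48) (Nat.add (f x56) (Nat.add (f x58) (Nat.add (f x60)
    (Nat.add (f x64) (Nat.add (f x66) (Nat.add (f x72) (Nat.add (f x86) (Nat.add (f x88) (Nat.add
    (f x92) (Nat.add (f x94) (Nat.add (f x96) (Nat.add (f x100) (Nat.add (f x102) (Nat.add (f x110)
    (Nat.add (f x112) (Nat.add (f x114) (Nat.add (f x118) (Nat.add (f x120) (Nat.add (f x126)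
    (Nat.add (f x136) (Nat.add (f x138) (Nat.add (f x144) (Nat.add (f x164) (Nat.add (f x166)
    (Nat.add (f x168) (Nat.add (f x172) (Nat.add (f x174) (Nat.add (f x180) (Nat.add (f x190)
    (Nat.add (f x192) (Nat.add (f x198) (Nat.add (f x216) (Nat.add (f x248) (Nat.add (f x250)
    (Nat.add (f x254) (Nat.add (f x256) (Nat.add (f x258) (Nat.add (f x262) (Nat.add (f x264)
    (Nat.add (f x272) (Nat.add (f x274) (Nat.add (f x276) (Nat.add (f x280) (Nat.add (f x282)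
    (Nat.add (f x288) (Nat.add (f x298) (Nat.add (f x300)
    0)))))))))))))))))))))))))))))))))))))))))))))))))))))))))))) (Nat.add (Nat.add (f x306)
    (Nat.add (f x326) (Nat.add (f x328) (Nat.add (f x330) (Nat.add (f x334) (Nat.add (f x336)
    (Nat.add (f x342) (Nat.add (f x352) (Nat.add (f x354) (Nat.add (f x360) (Nat.add (f x378)
    (Nat.add (f x406) (Nat.add (f x408) (Nat.add (f x414) (Nat.add (f x432) (Nat.add (f x488)
    (Nat.add (f x490) (Nat.add (f x492) (Nat.add (f x496) (Nat.add (f x498) (Nat.add (f x504)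
    (Nat.add (f x514) (Nat.add (f x516) (Nat.add (f x522) (Nat.add (f x540) (Nat.add (f x568)
    (Nat.add (f x570) (Nat.add (f x576) (Nat.add (f x594) (Nat.add (f x648) (Nat.add (f x734)
    (Nat.add (f x736) (Nat.add (f x740) (Nat.add (f x742) (Nat.add (f x744) (Nat.add (f x748)
    (Nat.add (f x750) (Nat.add (f x758) (Nat.add (f x760) (Nat.add (f x762) (Nat.add (f x766)
    (Nat.add (f x768) (Nat.add (f x774) (Nat.add (f x784) (Nat.add (f x786) (Nat.add (f x792)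
    (Nat.add (f x812) (Nat.add (f x814) (Nat.add (f x816) (Nat.add (f x820) (Nat.add (f x822)
    (Nat.add (f x828) (Nat.add (f x838) (Nat.add (f x840) (Nat.add (f x846) (Nat.add (f x864)
    (Nat.add (f x892) (Nat.add (f x894) (Nat.add (f x900) (Nat.add (f x918)
    0)))))))))))))))))))))))))))))))))))))))))))))))))))))))))))) (Nat.add (Nat.add (f x974)
    (Nat.add (f x976) (Nat.add (f x978) (Nat.add (f x982) (Nat.add (f x984) (Nat.add (f x990)
    (Nat.add (f x1000) (Nat.add (f x1002) (Nat.add (f x1008) (Nat.add (f x1026) (Nat.add (f x1054)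
    (Nat.add (f x1056) (Nat.add (f x1062) (Nat.add (f x1080) (Nat.add (f x1134) (Nat.add (f x1216)
    (Nat.add (f x1218) (Nat.add (f x1224) (Nat.add (f x1242) (Nat.add (f x1296) (Nat.add (f x1460)
    (Nat.add (f x1462) (Nat.add (f x1464) (Nat.add (f x1468) (Nat.add (f x1470) (Nat.add (f x1476)
    (Nat.add (f x1486) (Nat.add (f x1488) (Nat.add (f x1494) (Nat.add (f x1512) (Nat.add (f x1540)
    (Nat.add (f x1542) (Nat.add (f x1548) (Nat.add (f x1566) (Nat.add (f x1620) (Nat.add (f x1702)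
    (Nat.add (f x1704) (Nat.add (f x1710) (Nat.add (f x1728) (Nat.add (f x1782) (Nat.add (f x1944)
    0))))))))))))))))))))))))))))))))))))))))) 0))) v1

theorem fin_eq0 (f : Nat → Nat) (v1 : Nat) (x : Nat → Nat) :
    apLL (fun t => x t.cd) cds (fin f v1) = Nat.beq (sum2 (fun t => f (x t.cd)) cds) v1 :=
  Eq.refl (apLL (fun t => x t.cd) cds (fin f v1))

theorem fin_eq (f : Nat → Nat) (v1 : Nat) (x : Nat → Nat) :
    ap x (fin f v1) = Nat.beq (sumL (fun s => f (x s)) (secL 7 4 0 [])) v1 :=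
  ((ap_eq x (fin f v1)).symm.trans (fin_eq0 f v1 x)).trans
    (congrArg (fun z => Nat.beq z v1) (sum2_eq cds _ codes_ok (fun s => f (x s))))

def ch0 : List (Nat × Nat) :=
    [(8,14), (14,28), (16,14), (20,14), (32,28), (34,28), (38,28), (40,14), (56,14), (86,28),
    (92,28), (94,28), (100,14), (110,14), (112,14), (274,14)]

def sqA0 (X M
    u0 u1 u2 u3 u4 u5 u6 u7 u8 u9 u10 u11 u12 u13 u14 u15 : Nat) : Nat :=
    (Nat.add (Nat.mul (Nat.mul (Nat.land u0 M) (Nat.sub X (Nat.land u0 M))) 14)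
    (Nat.add (Nat.mul (Nat.mul (Nat.land u1 M) (Nat.sub X (Nat.land u1 M))) 28)
    (Nat.add (Nat.mul (Nat.mul (Nat.land u2 M) (Nat.sub X (Nat.land u2 M))) 14)
    (Nat.add (Nat.mul (Nat.mul (Nat.land u3 M) (Nat.sub X (Nat.land u3 M))) 14)
    (Nat.add (Nat.mul (Nat.mul (Nat.land u4 M) (Nat.sub X (Nat.land u4 M))) 28)
    (Nat.add (Nat.mul (Nat.mul (Nat.land u5 M) (Nat.sub X (Nat.land u5 M))) 28)
    (Nat.add (Nat.mul (Nat.mul (Nat.land u6 M) (Nat.sub X (Nat.land u6 M))) 28)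
    (Nat.add (Nat.mul (Nat.mul (Nat.land u7 M) (Nat.sub X (Nat.land u7 M))) 14)
    (Nat.add (Nat.mul (Nat.mul (Nat.land u8 M) (Nat.sub X (Nat.land u8 M))) 14)
    (Nat.add (Nat.mul (Nat.mul (Nat.land u9 M) (Nat.sub X (Nat.land u9 M))) 28)
    (Nat.add (Nat.mul (Nat.mul (Nat.land u10 M) (Nat.sub X (Nat.land u10 M))) 28)
    (Nat.add (Nat.mul (Nat.mul (Nat.land u11 M) (Nat.sub X (Nat.land u11 M))) 28)
    (Nat.add (Nat.mul (Nat.mul (Nat.land u12 M) (Nat.sub X (Nat.land u12 M))) 14)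
    (Nat.add (Nat.mul (Nat.mul (Nat.land u13 M) (Nat.sub X (Nat.land u13 M))) 14)
    (Nat.add (Nat.mul (Nat.mul (Nat.land u14 M) (Nat.sub X (Nat.land u14 M))) 14)
    (Nat.add (Nat.mul (Nat.mul (Nat.land u15 M) (Nat.sub X (Nat.land u15 M))) 14)
    0))))))))))))))))

def sqB0 (z0 z1 z2 : Nat) : Nat :=
  sqA0 (Nat.shiftLeft 1 122) (Nat.sub (Nat.shiftLeft 1 122) 1)
    z0
    (Nat.shiftRight z0 122)
    (Nat.shiftRight (Nat.shiftRight z0 122) 122)
    (Nat.shiftRight (Nat.shiftRight (Nat.shiftRight z0 122) 122) 122)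
    (Nat.shiftRight (Nat.shiftRight (Nat.shiftRight (Nat.shiftRight z0 122) 122) 122) 122)
    (Nat.shiftRight (Nat.shiftRight (Nat.shiftRight (Nat.shiftRight (Nat.shiftRight z0 122) 122) 122) 122) 122)
    z1
    (Nat.shiftRight z1 122)
    (Nat.shiftRight (Nat.shiftRight z1 122) 122)
    (Nat.shiftRight (Nat.shiftRight (Nat.shiftRight z1 122) 122) 122)
    (Nat.shiftRight (Nat.shiftRight (Nat.shiftRight (Nat.shiftRight z1 122) 122) 122) 122)
    (Nat.shiftRight (Nat.shiftRight (Nat.shiftRight (Nat.shiftRight (Nat.shiftRight z1 122) 122) 122) 122) 122)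
    z2
    (Nat.shiftRight z2 122)
    (Nat.shiftRight (Nat.shiftRight z2 122) 122)
    (Nat.shiftRight (Nat.shiftRight (Nat.shiftRight z2 122) 122) 122)

def sqC0 (u : Nat) : Nat :=
  sqB0
    u
    (sh6 122 u)
    (sh6 122 (sh6 122 u))

noncomputable def sq0 (v : Nat) : Nat := sqC0 (Nat.add v (offs 122 (Nat.shiftLeft 1 (Nat.sub 122 1)) ch0))

theorem sq_eq0 : sq0 = sqF 122 ch0 := Eq.refl sq0

theorem side_ok0 : sideOK 7 122 mask cf7 ch0 = true := by decide +kernel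

theorem cover : beqP (repL 7 4) (ch0 ++ []) = true := by decide +kernel

theorem len_ok : (secL 7 4 0 []).length = 161 := by decide +kernel

theorem wt_ok : (List.map Prod.snd (ch0 ++ [])).sum = 322 := by decide +kernel

end Vale.Agent.P348.A7_4

namespace Vale.Agent.P348.A7_5

def mask : Nat := nat_lit 279968092772225545807077610210400277426057939977767196740555430846901350394649274951008308310025830400

def KK : Type :=
    Nat → Nat → Nat → Nat → Nat → Nat → Nat → Nat → Nat → Nat → Nat → Nat → Nat → Nat → Nat → Nat →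
    Nat → Nat → Nat → Nat → Nat → Nat → Nat → Nat → Nat → Nat → Nat → Nat → Nat → Nat → Nat → Nat →
    Nat → Nat → Nat → Nat → Nat → Nat → Nat → Nat → Nat → Nat → Nat → Nat → Nat → Nat → Nat → Nat →
    Nat → Nat → Nat → Nat → Nat → Nat → Nat → Nat → Nat → Nat → Nat → Nat → Nat → Nat → Nat → Nat →
    Nat → Nat → Nat → Nat → Nat → Nat → Nat → Nat → Nat → Nat → Nat → Nat → Nat → Nat → Nat → Nat →
    Nat → Nat → Nat → Nat → Nat → Nat → Nat → Nat → Nat → Nat → Nat → Nat → Nat → Nat → Nat → Nat →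
    Nat → Nat → Nat → Nat → Nat → Nat → Nat → Nat → Nat → Nat → Nat → Nat → Nat → Nat → Nat → Nat →
    Nat → Nat → Nat → Nat → Nat → Nat → Nat → Nat → Nat → Nat → Nat → Nat → Nat → Nat → Nat → Nat →
    Nat → Nat → Nat → Nat → Nat → Nat → Nat → Nat → Nat → Nat → Nat → Nat → Nat → Nat → Nat → Nat →
    Nat → Nat → Nat → Nat → Nat → Nat → Nat → Nat → Nat → Nat → Nat → Nat → Nat → Nat → Nat → Nat →
    Nat → Nat → Nat → Nat → Nat → Nat → Nat → Nat → Nat → Nat → Nat → Nat → Nat → Nat → Nat → Nat →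
    Nat → Nat → Nat → Nat → Nat → Nat → Nat → Nat → Nat → Nat → Nat → Nat → Nat → Nat → Nat → Nat →
    Nat → Nat → Nat → Nat → Nat → Nat → Nat → Nat → Nat → Nat → Nat → Nat → Nat → Nat → Nat → Nat →
    Nat → Nat → Nat → Nat → Nat → Nat → Nat → Nat → Nat → Nat → Nat → Nat → Nat → Nat → Nat → Nat →
    Nat → Nat → Nat → Nat → Nat → Nat → Nat → Nat → Nat → Nat → Nat → Nat → Nat → Nat → Nat → Nat →
    Nat → Nat → Nat → Nat → Nat → Nat → Nat → Nat → Nat → Nat → Nat → Nat → Nat → Nat → Nat → Nat →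
    Nat → Nat → Nat → Nat → Nat → Nat → Nat → Nat → Nat → Nat → Bool

noncomputable def cd0 : List Spec :=
  [Spec.mk (nat_lit 17) (nat_lit 0) [] (nat_lit 0) [] false,
   Spec.mk (nat_lit 23) (nat_lit 0) [] (nat_lit 0) [] false,
   Spec.mk (nat_lit 25) (nat_lit 0) [] (nat_lit 0) [] false,
   Spec.mk (nat_lit 35) (nat_lit 0) [] (nat_lit 0) [] false,
   Spec.mk (nat_lit 41) (nat_lit 0) [] (nat_lit 0) [] false,
   Spec.mk (nat_lit 43) (nat_lit 0) [] (nat_lit 0) [] false,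
   Spec.mk (nat_lit 47) (nat_lit 0) [] (nat_lit 0) [] false,
   Spec.mk (nat_lit 49) (nat_lit 0) [] (nat_lit 0) [] false,
   Spec.mk (nat_lit 51) (nat_lit 0) [] (nat_lit 0) [] false,
   Spec.mk (nat_lit 59) (nat_lit 0) [] (nat_lit 0) [] false,
   Spec.mk (nat_lit 61) (nat_lit 0) [] (nat_lit 0) [] false,
   Spec.mk (nat_lit 65) (nat_lit 0) [] (nat_lit 0) [] false,
   Spec.mk (nat_lit 67) (nat_lit 0) [] (nat_lit 0) [] false,
   Spec.mk (nat_lit 69) (nat_lit 0) [] (nat_lit 0) [] false,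
   Spec.mk (nat_lit 73) (nat_lit 0) [] (nat_lit 0) [] false,
   Spec.mk (nat_lit 75) (nat_lit 0) [] (nat_lit 0) [] false,
   Spec.mk (nat_lit 89) (nat_lit 0) [] (nat_lit 0) [] false,
   Spec.mk (nat_lit 95) (nat_lit 0) [] (nat_lit 0) [] false,
   Spec.mk (nat_lit 97) (nat_lit 0) [] (nat_lit 0) [] false,
   Spec.mk (nat_lit 101) (nat_lit 0) [] (nat_lit 0) [] false,
   Spec.mk (nat_lit 103) (nat_lit 0) [] (nat_lit 0) [] false,
   Spec.mk (nat_lit 105) (nat_lit 0) [] (nat_lit 0) [] false,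
   Spec.mk (nat_lit 113) (nat_lit 0) [] (nat_lit 0) [] false,
   Spec.mk (nat_lit 115) (nat_lit 0) [] (nat_lit 0) [] false,
   Spec.mk (nat_lit 119) (nat_lit 0) [] (nat_lit 0) [] false,
   Spec.mk (nat_lit 121) (nat_lit 0) [] (nat_lit 0) [] false,
   Spec.mk (nat_lit 123) (nat_lit 0) [] (nat_lit 0) [] false,
   Spec.mk (nat_lit 127) (nat_lit 0) [] (nat_lit 0) [] false,
   Spec.mk (nat_lit 129) (nat_lit 0) [] (nat_lit 0) [] false,
   Spec.mk (nat_lit 137) (nat_lit 0) [] (nat_lit 0) [] false,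
   Spec.mk (nat_lit 139) (nat_lit 0) [] (nat_lit 0) [] false,
   Spec.mk (nat_lit 141) (nat_lit 0) [] (nat_lit 0) [] false,
   Spec.mk (nat_lit 145) (nat_lit 0) [] (nat_lit 0) [] false,
   Spec.mk (nat_lit 147) (nat_lit 0) [] (nat_lit 0) [] false,
   Spec.mk (nat_lit 153) (nat_lit 0) [] (nat_lit 0) [] false,
   Spec.mk (nat_lit 167) (nat_lit 0) [] (nat_lit 0) [] false,
   Spec.mk (nat_lit 169) (nat_lit 0) [] (nat_lit 0) [] false,
   Spec.mk (nat_lit 173) (nat_lit 0) [] (nat_lit 0) [] false,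
   Spec.mk (nat_lit 175) (nat_lit 0) [] (nat_lit 0) [] false,
   Spec.mk (nat_lit 177) (nat_lit 0) [] (nat_lit 0) [] false,
   Spec.mk (nat_lit 181) (nat_lit 0) [] (nat_lit 0) [] false,
   Spec.mk (nat_lit 183) (nat_lit 0) [] (nat_lit 0) [] false,
   Spec.mk (nat_lit 191) (nat_lit 0) [] (nat_lit 0) [] false,
   Spec.mk (nat_lit 193) (nat_lit 0) [] (nat_lit 0) [] false,
   Spec.mk (nat_lit 195) (nat_lit 0) [] (nat_lit 0) [] false,
   Spec.mk (nat_lit 199) (nat_lit 0) [] (nat_lit 0) [] false,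
   Spec.mk (nat_lit 201) (nat_lit 0) [] (nat_lit 0) [] false,
   Spec.mk (nat_lit 207) (nat_lit 0) [] (nat_lit 0) [] false,
   Spec.mk (nat_lit 217) (nat_lit 0) [] (nat_lit 0) [] false,
   Spec.mk (nat_lit 219) (nat_lit 0) [] (nat_lit 0) [] false,
   Spec.mk (nat_lit 225) (nat_lit 0) [] (nat_lit 0) [] false,
   Spec.mk (nat_lit 251) (nat_lit 0) [] (nat_lit 0) [] false,
   Spec.mk (nat_lit 257) (nat_lit 0) [] (nat_lit 0) [] false,
   Spec.mk (nat_lit 259) (nat_lit 0) [] (nat_lit 0) [] false,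
   Spec.mk (nat_lit 263) (nat_lit 0) [] (nat_lit 0) [] false,
   Spec.mk (nat_lit 265) (nat_lit 0) [] (nat_lit 0) [] false,
   Spec.mk (nat_lit 267) (nat_lit 0) [] (nat_lit 0) [] false,
   Spec.mk (nat_lit 275) (nat_lit 0) [] (nat_lit 0) [] false,
   Spec.mk (nat_lit 277) (nat_lit 0) [] (nat_lit 0) [] false,
   Spec.mk (nat_lit 281) (nat_lit 0) [] (nat_lit 0) [] false]

noncomputable def cd1 : List Spec :=
  [Spec.mk (nat_lit 283) (nat_lit 0) [] (nat_lit 0) [] false,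
   Spec.mk (nat_lit 285) (nat_lit 0) [] (nat_lit 0) [] false,
   Spec.mk (nat_lit 289) (nat_lit 0) [] (nat_lit 0) [] false,
   Spec.mk (nat_lit 291) (nat_lit 0) [] (nat_lit 0) [] false,
   Spec.mk (nat_lit 299) (nat_lit 0) [] (nat_lit 0) [] false,
   Spec.mk (nat_lit 301) (nat_lit 0) [] (nat_lit 0) [] false,
   Spec.mk (nat_lit 303) (nat_lit 0) [] (nat_lit 0) [] false,
   Spec.mk (nat_lit 307) (nat_lit 0) [] (nat_lit 0) [] false,
   Spec.mk (nat_lit 309) (nat_lit 0) [] (nat_lit 0) [] false,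
   Spec.mk (nat_lit 315) (nat_lit 0) [] (nat_lit 0) [] false,
   Spec.mk (nat_lit 329) (nat_lit 0) [] (nat_lit 0) [] false,
   Spec.mk (nat_lit 331) (nat_lit 0) [] (nat_lit 0) [] false,
   Spec.mk (nat_lit 335) (nat_lit 0) [] (nat_lit 0) [] false,
   Spec.mk (nat_lit 337) (nat_lit 0) [] (nat_lit 0) [] false,
   Spec.mk (nat_lit 339) (nat_lit 0) [] (nat_lit 0) [] false,
   Spec.mk (nat_lit 343) (nat_lit 0) [] (nat_lit 0) [] false,
   Spec.mk (nat_lit 345) (nat_lit 0) [] (nat_lit 0) [] false,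
   Spec.mk (nat_lit 353) (nat_lit 0) [] (nat_lit 0) [] false,
   Spec.mk (nat_lit 355) (nat_lit 0) [] (nat_lit 0) [] false,
   Spec.mk (nat_lit 357) (nat_lit 0) [] (nat_lit 0) [] false,
   Spec.mk (nat_lit 361) (nat_lit 0) [] (nat_lit 0) [] false,
   Spec.mk (nat_lit 363) (nat_lit 0) [] (nat_lit 0) [] false,
   Spec.mk (nat_lit 369) (nat_lit 0) [] (nat_lit 0) [] false,
   Spec.mk (nat_lit 379) (nat_lit 0) [] (nat_lit 0) [] false,
   Spec.mk (nat_lit 381) (nat_lit 0) [] (nat_lit 0) [] false,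
   Spec.mk (nat_lit 387) (nat_lit 0) [] (nat_lit 0) [] false,
   Spec.mk (nat_lit 407) (nat_lit 0) [] (nat_lit 0) [] false,
   Spec.mk (nat_lit 409) (nat_lit 0) [] (nat_lit 0) [] false,
   Spec.mk (nat_lit 411) (nat_lit 0) [] (nat_lit 0) [] false,
   Spec.mk (nat_lit 415) (nat_lit 0) [] (nat_lit 0) [] false,
   Spec.mk (nat_lit 417) (nat_lit 0) [] (nat_lit 0) [] false,
   Spec.mk (nat_lit 423) (nat_lit 0) [] (nat_lit 0) [] false,
   Spec.mk (nat_lit 433) (nat_lit 0) [] (nat_lit 0) [] false,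
   Spec.mk (nat_lit 435) (nat_lit 0) [] (nat_lit 0) [] false,
   Spec.mk (nat_lit 441) (nat_lit 0) [] (nat_lit 0) [] false,
   Spec.mk (nat_lit 459) (nat_lit 0) [] (nat_lit 0) [] false,
   Spec.mk (nat_lit 491) (nat_lit 0) [] (nat_lit 0) [] false,
   Spec.mk (nat_lit 493) (nat_lit 0) [] (nat_lit 0) [] false,
   Spec.mk (nat_lit 497) (nat_lit 0) [] (nat_lit 0) [] false,
   Spec.mk (nat_lit 499) (nat_lit 0) [] (nat_lit 0) [] false,
   Spec.mk (nat_lit 501) (nat_lit 0) [] (nat_lit 0) [] false,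
   Spec.mk (nat_lit 505) (nat_lit 0) [] (nat_lit 0) [] false,
   Spec.mk (nat_lit 507) (nat_lit 0) [] (nat_lit 0) [] false,
   Spec.mk (nat_lit 515) (nat_lit 0) [] (nat_lit 0) [] false,
   Spec.mk (nat_lit 517) (nat_lit 0) [] (nat_lit 0) [] false,
   Spec.mk (nat_lit 519) (nat_lit 0) [] (nat_lit 0) [] false,
   Spec.mk (nat_lit 523) (nat_lit 0) [] (nat_lit 0) [] false,
   Spec.mk (nat_lit 525) (nat_lit 0) [] (nat_lit 0) [] false,
   Spec.mk (nat_lit 531) (nat_lit 0) [] (nat_lit 0) [] false,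
   Spec.mk (nat_lit 541) (nat_lit 0) [] (nat_lit 0) [] false,
   Spec.mk (nat_lit 543) (nat_lit 0) [] (nat_lit 0) [] false,
   Spec.mk (nat_lit 549) (nat_lit 0) [] (nat_lit 0) [] false,
   Spec.mk (nat_lit 569) (nat_lit 0) [] (nat_lit 0) [] false,
   Spec.mk (nat_lit 571) (nat_lit 0) [] (nat_lit 0) [] false,
   Spec.mk (nat_lit 573) (nat_lit 0) [] (nat_lit 0) [] false,
   Spec.mk (nat_lit 577) (nat_lit 0) [] (nat_lit 0) [] false,
   Spec.mk (nat_lit 579) (nat_lit 0) [] (nat_lit 0) [] false,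
   Spec.mk (nat_lit 585) (nat_lit 0) [] (nat_lit 0) [] false,
   Spec.mk (nat_lit 595) (nat_lit 0) [] (nat_lit 0) [] false,
   Spec.mk (nat_lit 597) (nat_lit 0) [] (nat_lit 0) [] false]

noncomputable def cd2 : List Spec :=
  [Spec.mk (nat_lit 603) (nat_lit 0) [] (nat_lit 0) [] false,
   Spec.mk (nat_lit 621) (nat_lit 0) [] (nat_lit 0) [] false,
   Spec.mk (nat_lit 649) (nat_lit 0) [] (nat_lit 0) [] false,
   Spec.mk (nat_lit 651) (nat_lit 0) [] (nat_lit 0) [] false,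
   Spec.mk (nat_lit 657) (nat_lit 0) [] (nat_lit 0) [] false,
   Spec.mk (nat_lit 675) (nat_lit 0) [] (nat_lit 0) [] false,
   Spec.mk (nat_lit 737) (nat_lit 0) [] (nat_lit 0) [] false,
   Spec.mk (nat_lit 743) (nat_lit 0) [] (nat_lit 0) [] false,
   Spec.mk (nat_lit 745) (nat_lit 0) [] (nat_lit 0) [] false,
   Spec.mk (nat_lit 749) (nat_lit 0) [] (nat_lit 0) [] false,
   Spec.mk (nat_lit 751) (nat_lit 0) [] (nat_lit 0) [] false,
   Spec.mk (nat_lit 753) (nat_lit 0) [] (nat_lit 0) [] false,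
   Spec.mk (nat_lit 761) (nat_lit 0) [] (nat_lit 0) [] false,
   Spec.mk (nat_lit 763) (nat_lit 0) [] (nat_lit 0) [] false,
   Spec.mk (nat_lit 767) (nat_lit 0) [] (nat_lit 0) [] false,
   Spec.mk (nat_lit 769) (nat_lit 0) [] (nat_lit 0) [] false,
   Spec.mk (nat_lit 771) (nat_lit 0) [] (nat_lit 0) [] false,
   Spec.mk (nat_lit 775) (nat_lit 0) [] (nat_lit 0) [] false,
   Spec.mk (nat_lit 777) (nat_lit 0) [] (nat_lit 0) [] false,
   Spec.mk (nat_lit 785) (nat_lit 0) [] (nat_lit 0) [] false,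
   Spec.mk (nat_lit 787) (nat_lit 0) [] (nat_lit 0) [] false,
   Spec.mk (nat_lit 789) (nat_lit 0) [] (nat_lit 0) [] false,
   Spec.mk (nat_lit 793) (nat_lit 0) [] (nat_lit 0) [] false,
   Spec.mk (nat_lit 795) (nat_lit 0) [] (nat_lit 0) [] false,
   Spec.mk (nat_lit 801) (nat_lit 0) [] (nat_lit 0) [] false,
   Spec.mk (nat_lit 815) (nat_lit 0) [] (nat_lit 0) [] false,
   Spec.mk (nat_lit 817) (nat_lit 0) [] (nat_lit 0) [] false,
   Spec.mk (nat_lit 821) (nat_lit 0) [] (nat_lit 0) [] false,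
   Spec.mk (nat_lit 823) (nat_lit 0) [] (nat_lit 0) [] false,
   Spec.mk (nat_lit 825) (nat_lit 0) [] (nat_lit 0) [] false,
   Spec.mk (nat_lit 829) (nat_lit 0) [] (nat_lit 0) [] false,
   Spec.mk (nat_lit 831) (nat_lit 0) [] (nat_lit 0) [] false,
   Spec.mk (nat_lit 839) (nat_lit 0) [] (nat_lit 0) [] false,
   Spec.mk (nat_lit 841) (nat_lit 0) [] (nat_lit 0) [] false,
   Spec.mk (nat_lit 843) (nat_lit 0) [] (nat_lit 0) [] false,
   Spec.mk (nat_lit 847) (nat_lit 0) [] (nat_lit 0) [] false,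
   Spec.mk (nat_lit 849) (nat_lit 0) [] (nat_lit 0) [] false,
   Spec.mk (nat_lit 855) (nat_lit 0) [] (nat_lit 0) [] false,
   Spec.mk (nat_lit 865) (nat_lit 0) [] (nat_lit 0) [] false,
   Spec.mk (nat_lit 867) (nat_lit 0) [] (nat_lit 0) [] false,
   Spec.mk (nat_lit 873) (nat_lit 0) [] (nat_lit 0) [] false,
   Spec.mk (nat_lit 893) (nat_lit 0) [] (nat_lit 0) [] false,
   Spec.mk (nat_lit 895) (nat_lit 0) [] (nat_lit 0) [] false,
   Spec.mk (nat_lit 897) (nat_lit 0) [] (nat_lit 0) [] false,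
   Spec.mk (nat_lit 901) (nat_lit 0) [] (nat_lit 0) [] false,
   Spec.mk (nat_lit 903) (nat_lit 0) [] (nat_lit 0) [] false,
   Spec.mk (nat_lit 909) (nat_lit 0) [] (nat_lit 0) [] false,
   Spec.mk (nat_lit 919) (nat_lit 0) [] (nat_lit 0) [] false,
   Spec.mk (nat_lit 921) (nat_lit 0) [] (nat_lit 0) [] false,
   Spec.mk (nat_lit 927) (nat_lit 0) [] (nat_lit 0) [] false,
   Spec.mk (nat_lit 945) (nat_lit 0) [] (nat_lit 0) [] false,
   Spec.mk (nat_lit 977) (nat_lit 0) [] (nat_lit 0) [] false,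
   Spec.mk (nat_lit 979) (nat_lit 0) [] (nat_lit 0) [] false,
   Spec.mk (nat_lit 983) (nat_lit 0) [] (nat_lit 0) [] false,
   Spec.mk (nat_lit 985) (nat_lit 0) [] (nat_lit 0) [] false,
   Spec.mk (nat_lit 987) (nat_lit 0) [] (nat_lit 0) [] false,
   Spec.mk (nat_lit 991) (nat_lit 0) [] (nat_lit 0) [] false,
   Spec.mk (nat_lit 993) (nat_lit 0) [] (nat_lit 0) [] false,
   Spec.mk (nat_lit 1001) (nat_lit 0) [] (nat_lit 0) [] false,
   Spec.mk (nat_lit 1003) (nat_lit 0) [] (nat_lit 0) [] false]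

noncomputable def cd3 : List Spec :=
  [Spec.mk (nat_lit 1005) (nat_lit 0) [] (nat_lit 0) [] false,
   Spec.mk (nat_lit 1009) (nat_lit 0) [] (nat_lit 0) [] false,
   Spec.mk (nat_lit 1011) (nat_lit 0) [] (nat_lit 0) [] false,
   Spec.mk (nat_lit 1017) (nat_lit 0) [] (nat_lit 0) [] false,
   Spec.mk (nat_lit 1027) (nat_lit 0) [] (nat_lit 0) [] false,
   Spec.mk (nat_lit 1029) (nat_lit 0) [] (nat_lit 0) [] false,
   Spec.mk (nat_lit 1035) (nat_lit 0) [] (nat_lit 0) [] false,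
   Spec.mk (nat_lit 1055) (nat_lit 0) [] (nat_lit 0) [] false,
   Spec.mk (nat_lit 1057) (nat_lit 0) [] (nat_lit 0) [] false,
   Spec.mk (nat_lit 1059) (nat_lit 0) [] (nat_lit 0) [] false,
   Spec.mk (nat_lit 1063) (nat_lit 0) [] (nat_lit 0) [] false,
   Spec.mk (nat_lit 1065) (nat_lit 0) [] (nat_lit 0) [] false,
   Spec.mk (nat_lit 1071) (nat_lit 0) [] (nat_lit 0) [] false,
   Spec.mk (nat_lit 1081) (nat_lit 0) [] (nat_lit 0) [] false,
   Spec.mk (nat_lit 1083) (nat_lit 0) [] (nat_lit 0) [] false,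
   Spec.mk (nat_lit 1089) (nat_lit 0) [] (nat_lit 0) [] false,
   Spec.mk (nat_lit 1107) (nat_lit 0) [] (nat_lit 0) [] false,
   Spec.mk (nat_lit 1135) (nat_lit 0) [] (nat_lit 0) [] false,
   Spec.mk (nat_lit 1137) (nat_lit 0) [] (nat_lit 0) [] false,
   Spec.mk (nat_lit 1143) (nat_lit 0) [] (nat_lit 0) [] false,
   Spec.mk (nat_lit 1161) (nat_lit 0) [] (nat_lit 0) [] false,
   Spec.mk (nat_lit 1217) (nat_lit 0) [] (nat_lit 0) [] false,
   Spec.mk (nat_lit 1219) (nat_lit 0) [] (nat_lit 0) [] false,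
   Spec.mk (nat_lit 1221) (nat_lit 0) [] (nat_lit 0) [] false,
   Spec.mk (nat_lit 1225) (nat_lit 0) [] (nat_lit 0) [] false,
   Spec.mk (nat_lit 1227) (nat_lit 0) [] (nat_lit 0) [] false,
   Spec.mk (nat_lit 1233) (nat_lit 0) [] (nat_lit 0) [] false,
   Spec.mk (nat_lit 1243) (nat_lit 0) [] (nat_lit 0) [] false,
   Spec.mk (nat_lit 1245) (nat_lit 0) [] (nat_lit 0) [] false,
   Spec.mk (nat_lit 1251) (nat_lit 0) [] (nat_lit 0) [] false,
   Spec.mk (nat_lit 1269) (nat_lit 0) [] (nat_lit 0) [] false,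
   Spec.mk (nat_lit 1297) (nat_lit 0) [] (nat_lit 0) [] false,
   Spec.mk (nat_lit 1299) (nat_lit 0) [] (nat_lit 0) [] false,
   Spec.mk (nat_lit 1305) (nat_lit 0) [] (nat_lit 0) [] false,
   Spec.mk (nat_lit 1323) (nat_lit 0) [] (nat_lit 0) [] false,
   Spec.mk (nat_lit 1377) (nat_lit 0) [] (nat_lit 0) [] false,
   Spec.mk (nat_lit 1463) (nat_lit 0) [] (nat_lit 0) [] false,
   Spec.mk (nat_lit 1465) (nat_lit 0) [] (nat_lit 0) [] false,
   Spec.mk (nat_lit 1469) (nat_lit 0) [] (nat_lit 0) [] false,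
   Spec.mk (nat_lit 1471) (nat_lit 0) [] (nat_lit 0) [] false,
   Spec.mk (nat_lit 1473) (nat_lit 0) [] (nat_lit 0) [] false,
   Spec.mk (nat_lit 1477) (nat_lit 0) [] (nat_lit 0) [] false,
   Spec.mk (nat_lit 1479) (nat_lit 0) [] (nat_lit 0) [] false,
   Spec.mk (nat_lit 1487) (nat_lit 0) [] (nat_lit 0) [] false,
   Spec.mk (nat_lit 1489) (nat_lit 0) [] (nat_lit 0) [] false,
   Spec.mk (nat_lit 1491) (nat_lit 0) [] (nat_lit 0) [] false,
   Spec.mk (nat_lit 1495) (nat_lit 0) [] (nat_lit 0) [] false,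
   Spec.mk (nat_lit 1497) (nat_lit 0) [] (nat_lit 0) [] false,
   Spec.mk (nat_lit 1503) (nat_lit 0) [] (nat_lit 0) [] false,
   Spec.mk (nat_lit 1513) (nat_lit 0) [] (nat_lit 0) [] false,
   Spec.mk (nat_lit 1515) (nat_lit 0) [] (nat_lit 0) [] false,
   Spec.mk (nat_lit 1521) (nat_lit 0) [] (nat_lit 0) [] false,
   Spec.mk (nat_lit 1541) (nat_lit 0) [] (nat_lit 0) [] false,
   Spec.mk (nat_lit 1543) (nat_lit 0) [] (nat_lit 0) [] false,
   Spec.mk (nat_lit 1545) (nat_lit 0) [] (nat_lit 0) [] false,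
   Spec.mk (nat_lit 1549) (nat_lit 0) [] (nat_lit 0) [] false,
   Spec.mk (nat_lit 1551) (nat_lit 0) [] (nat_lit 0) [] false,
   Spec.mk (nat_lit 1557) (nat_lit 0) [] (nat_lit 0) [] false,
   Spec.mk (nat_lit 1567) (nat_lit 0) [] (nat_lit 0) [] false,
   Spec.mk (nat_lit 1569) (nat_lit 0) [] (nat_lit 0) [] false]

noncomputable def cd4 : List Spec :=
  [Spec.mk (nat_lit 1575) (nat_lit 0) [] (nat_lit 0) [] false,
   Spec.mk (nat_lit 1593) (nat_lit 0) [] (nat_lit 0) [] false,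
   Spec.mk (nat_lit 1621) (nat_lit 0) [] (nat_lit 0) [] false,
   Spec.mk (nat_lit 1623) (nat_lit 0) [] (nat_lit 0) [] false,
   Spec.mk (nat_lit 1629) (nat_lit 0) [] (nat_lit 0) [] false,
   Spec.mk (nat_lit 1647) (nat_lit 0) [] (nat_lit 0) [] false,
   Spec.mk (nat_lit 1703) (nat_lit 0) [] (nat_lit 0) [] false,
   Spec.mk (nat_lit 1705) (nat_lit 0) [] (nat_lit 0) [] false,
   Spec.mk (nat_lit 1707) (nat_lit 0) [] (nat_lit 0) [] false,
   Spec.mk (nat_lit 1711) (nat_lit 0) [] (nat_lit 0) [] false,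
   Spec.mk (nat_lit 1713) (nat_lit 0) [] (nat_lit 0) [] false,
   Spec.mk (nat_lit 1719) (nat_lit 0) [] (nat_lit 0) [] false,
   Spec.mk (nat_lit 1729) (nat_lit 0) [] (nat_lit 0) [] false,
   Spec.mk (nat_lit 1731) (nat_lit 0) [] (nat_lit 0) [] false,
   Spec.mk (nat_lit 1737) (nat_lit 0) [] (nat_lit 0) [] false,
   Spec.mk (nat_lit 1755) (nat_lit 0) [] (nat_lit 0) [] false,
   Spec.mk (nat_lit 1783) (nat_lit 0) [] (nat_lit 0) [] false,
   Spec.mk (nat_lit 1785) (nat_lit 0) [] (nat_lit 0) [] false,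
   Spec.mk (nat_lit 1791) (nat_lit 0) [] (nat_lit 0) [] false,
   Spec.mk (nat_lit 1809) (nat_lit 0) [] (nat_lit 0) [] false,
   Spec.mk (nat_lit 1863) (nat_lit 0) [] (nat_lit 0) [] false,
   Spec.mk (nat_lit 1945) (nat_lit 0) [] (nat_lit 0) [] false,
   Spec.mk (nat_lit 1947) (nat_lit 0) [] (nat_lit 0) [] false,
   Spec.mk (nat_lit 1953) (nat_lit 0) [] (nat_lit 0) [] false,
   Spec.mk (nat_lit 1971) (nat_lit 0) [] (nat_lit 0) [] false,
   Spec.mk (nat_lit 2025) (nat_lit 0) [] (nat_lit 0) [] false]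

noncomputable def cds : List (List Spec) :=
    cd0 :: cd1 :: cd2 :: cd3 :: cd4 :: []

noncomputable def ap (x : Nat → Nat) (k :
    Nat → Nat → Nat → Nat → Nat → Nat → Nat → Nat → Nat → Nat → Nat → Nat → Nat → Nat → Nat → Nat →
    Nat → Nat → Nat → Nat → Nat → Nat → Nat → Nat → Nat → Nat → Nat → Nat → Nat → Nat → Nat → Nat →
    Nat → Nat → Nat → Nat → Nat → Nat → Nat → Nat → Nat → Nat → Nat → Nat → Nat → Nat → Nat → Nat →
    Nat → Nat → Nat → Nat → Nat → Nat → Nat → Nat → Nat → Nat → Nat → Nat → Nat → Nat → Nat → Nat →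
    Nat → Nat → Nat → Nat → Nat → Nat → Nat → Nat → Nat → Nat → Nat → Nat → Nat → Nat → Nat → Nat →
    Nat → Nat → Nat → Nat → Nat → Nat → Nat → Nat → Nat → Nat → Nat → Nat → Nat → Nat → Nat → Nat →
    Nat → Nat → Nat → Nat → Nat → Nat → Nat → Nat → Nat → Nat → Nat → Nat → Nat → Nat → Nat → Nat →
    Nat → Nat → Nat → Nat → Nat → Nat → Nat → Nat → Nat → Nat → Nat → Nat → Nat → Nat → Nat → Nat →
    Nat → Nat → Nat → Nat → Nat → Nat → Nat → Nat → Nat → Nat → Nat → Nat → Nat → Nat → Nat → Nat →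
    Nat → Nat → Nat → Nat → Nat → Nat → Nat → Nat → Nat → Nat → Nat → Nat → Nat → Nat → Nat → Nat →
    Nat → Nat → Nat → Nat → Nat → Nat → Nat → Nat → Nat → Nat → Nat → Nat → Nat → Nat → Nat → Nat →
    Nat → Nat → Nat → Nat → Nat → Nat → Nat → Nat → Nat → Nat → Nat → Nat → Nat → Nat → Nat → Nat →
    Nat → Nat → Nat → Nat → Nat → Nat → Nat → Nat → Nat → Nat → Nat → Nat → Nat → Nat → Nat → Nat →
    Nat → Nat → Nat → Nat → Nat → Nat → Nat → Nat → Nat → Nat → Nat → Nat → Nat → Nat → Nat → Nat →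
    Nat → Nat → Nat → Nat → Nat → Nat → Nat → Nat → Nat → Nat → Nat → Nat → Nat → Nat → Nat → Nat →
    Nat → Nat → Nat → Nat → Nat → Nat → Nat → Nat → Nat → Nat → Nat → Nat → Nat → Nat → Nat → Nat →
    Nat → Nat → Nat → Nat → Nat → Nat → Nat → Nat → Nat → Nat → Bool) : Bool :=
  k
    (x (nat_lit 17)) (x (nat_lit 23)) (x (nat_lit 25)) (x (nat_lit 35)) (x (nat_lit 41))
    (x (nat_lit 43)) (x (nat_lit 47)) (x (nat_lit 49)) (x (nat_lit 51)) (x (nat_lit 59))
    (x (nat_lit 61)) (x (nat_lit 65)) (x (nat_lit 67)) (x (nat_lit 69)) (x (nat_lit 73))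
    (x (nat_lit 75)) (x (nat_lit 89)) (x (nat_lit 95)) (x (nat_lit 97)) (x (nat_lit 101))
    (x (nat_lit 103)) (x (nat_lit 105)) (x (nat_lit 113)) (x (nat_lit 115)) (x (nat_lit 119))
    (x (nat_lit 121)) (x (nat_lit 123)) (x (nat_lit 127)) (x (nat_lit 129)) (x (nat_lit 137))
    (x (nat_lit 139)) (x (nat_lit 141)) (x (nat_lit 145)) (x (nat_lit 147)) (x (nat_lit 153))
    (x (nat_lit 167)) (x (nat_lit 169)) (x (nat_lit 173)) (x (nat_lit 175)) (x (nat_lit 177))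
    (x (nat_lit 181)) (x (nat_lit 183)) (x (nat_lit 191)) (x (nat_lit 193)) (x (nat_lit 195))
    (x (nat_lit 199)) (x (nat_lit 201)) (x (nat_lit 207)) (x (nat_lit 217)) (x (nat_lit 219))
    (x (nat_lit 225)) (x (nat_lit 251)) (x (nat_lit 257)) (x (nat_lit 259)) (x (nat_lit 263))
    (x (nat_lit 265)) (x (nat_lit 267)) (x (nat_lit 275)) (x (nat_lit 277)) (x (nat_lit 281))
    (x (nat_lit 283)) (x (nat_lit 285)) (x (nat_lit 289)) (x (nat_lit 291)) (x (nat_lit 299))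
    (x (nat_lit 301)) (x (nat_lit 303)) (x (nat_lit 307)) (x (nat_lit 309)) (x (nat_lit 315))
    (x (nat_lit 329)) (x (nat_lit 331)) (x (nat_lit 335)) (x (nat_lit 337)) (x (nat_lit 339))
    (x (nat_lit 343)) (x (nat_lit 345)) (x (nat_lit 353)) (x (nat_lit 355)) (x (nat_lit 357))
    (x (nat_lit 361)) (x (nat_lit 363)) (x (nat_lit 369)) (x (nat_lit 379)) (x (nat_lit 381))
    (x (nat_lit 387)) (x (nat_lit 407)) (x (nat_lit 409)) (x (nat_lit 411)) (x (nat_lit 415))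
    (x (nat_lit 417)) (x (nat_lit 423)) (x (nat_lit 433)) (x (nat_lit 435)) (x (nat_lit 441))
    (x (nat_lit 459)) (x (nat_lit 491)) (x (nat_lit 493)) (x (nat_lit 497)) (x (nat_lit 499))
    (x (nat_lit 501)) (x (nat_lit 505)) (x (nat_lit 507)) (x (nat_lit 515)) (x (nat_lit 517))
    (x (nat_lit 519)) (x (nat_lit 523)) (x (nat_lit 525)) (x (nat_lit 531)) (x (nat_lit 541))
    (x (nat_lit 543)) (x (nat_lit 549)) (x (nat_lit 569)) (x (nat_lit 571)) (x (nat_lit 573))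
    (x (nat_lit 577)) (x (nat_lit 579)) (x (nat_lit 585)) (x (nat_lit 595)) (x (nat_lit 597))
    (x (nat_lit 603)) (x (nat_lit 621)) (x (nat_lit 649)) (x (nat_lit 651)) (x (nat_lit 657))
    (x (nat_lit 675)) (x (nat_lit 737)) (x (nat_lit 743)) (x (nat_lit 745)) (x (nat_lit 749))
    (x (nat_lit 751)) (x (nat_lit 753)) (x (nat_lit 761)) (x (nat_lit 763)) (x (nat_lit 767))
    (x (nat_lit 769)) (x (nat_lit 771)) (x (nat_lit 775)) (x (nat_lit 777)) (x (nat_lit 785))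
    (x (nat_lit 787)) (x (nat_lit 789)) (x (nat_lit 793)) (x (nat_lit 795)) (x (nat_lit 801))
    (x (nat_lit 815)) (x (nat_lit 817)) (x (nat_lit 821)) (x (nat_lit 823)) (x (nat_lit 825))
    (x (nat_lit 829)) (x (nat_lit 831)) (x (nat_lit 839)) (x (nat_lit 841)) (x (nat_lit 843))
    (x (nat_lit 847)) (x (nat_lit 849)) (x (nat_lit 855)) (x (nat_lit 865)) (x (nat_lit 867))
    (x (nat_lit 873)) (x (nat_lit 893)) (x (nat_lit 895)) (x (nat_lit 897)) (x (nat_lit 901))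
    (x (nat_lit 903)) (x (nat_lit 909)) (x (nat_lit 919)) (x (nat_lit 921)) (x (nat_lit 927))
    (x (nat_lit 945)) (x (nat_lit 977)) (x (nat_lit 979)) (x (nat_lit 983)) (x (nat_lit 985))
    (x (nat_lit 987)) (x (nat_lit 991)) (x (nat_lit 993)) (x (nat_lit 1001)) (x (nat_lit 1003))
    (x (nat_lit 1005)) (x (nat_lit 1009)) (x (nat_lit 1011)) (x (nat_lit 1017)) (x (nat_lit 1027))
    (x (nat_lit 1029)) (x (nat_lit 1035)) (x (nat_lit 1055)) (x (nat_lit 1057)) (x (nat_lit 1059))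
    (x (nat_lit 1063)) (x (nat_lit 1065)) (x (nat_lit 1071)) (x (nat_lit 1081)) (x (nat_lit 1083))
    (x (nat_lit 1089)) (x (nat_lit 1107)) (x (nat_lit 1135)) (x (nat_lit 1137)) (x (nat_lit 1143))
    (x (nat_lit 1161)) (x (nat_lit 1217)) (x (nat_lit 1219)) (x (nat_lit 1221)) (x (nat_lit 1225))
    (x (nat_lit 1227)) (x (nat_lit 1233)) (x (nat_lit 1243)) (x (nat_lit 1245)) (x (nat_lit 1251))
    (x (nat_lit 1269)) (x (nat_lit 1297)) (x (nat_lit 1299)) (x (nat_lit 1305)) (x (nat_lit 1323))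
    (x (nat_lit 1377)) (x (nat_lit 1463)) (x (nat_lit 1465)) (x (nat_lit 1469)) (x (nat_lit 1471))
    (x (nat_lit 1473)) (x (nat_lit 1477)) (x (nat_lit 1479)) (x (nat_lit 1487)) (x (nat_lit 1489))
    (x (nat_lit 1491)) (x (nat_lit 1495)) (x (nat_lit 1497)) (x (nat_lit 1503)) (x (nat_lit 1513))
    (x (nat_lit 1515)) (x (nat_lit 1521)) (x (nat_lit 1541)) (x (nat_lit 1543)) (x (nat_lit 1545))
    (x (nat_lit 1549)) (x (nat_lit 1551)) (x (nat_lit 1557)) (x (nat_lit 1567)) (x (nat_lit 1569))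
    (x (nat_lit 1575)) (x (nat_lit 1593)) (x (nat_lit 1621)) (x (nat_lit 1623)) (x (nat_lit 1629))
    (x (nat_lit 1647)) (x (nat_lit 1703)) (x (nat_lit 1705)) (x (nat_lit 1707)) (x (nat_lit 1711))
    (x (nat_lit 1713)) (x (nat_lit 1719)) (x (nat_lit 1729)) (x (nat_lit 1731)) (x (nat_lit 1737))
    (x (nat_lit 1755)) (x (nat_lit 1783)) (x (nat_lit 1785)) (x (nat_lit 1791)) (x (nat_lit 1809))
    (x (nat_lit 1863)) (x (nat_lit 1945)) (x (nat_lit 1947)) (x (nat_lit 1953)) (x (nat_lit 1971))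
    (x (nat_lit 2025))

theorem ap_eq (x : Nat → Nat) (k : FnLL cds) : apLL (fun t => x t.cd) cds k = ap x k :=
  Eq.refl (ap x k)

theorem codes_ok : beqL (codes cds) (secL 7 5 0 []) = true := by decide +kernel

noncomputable def fin (f : Nat → Nat) (v1 : Nat) (
    x17 x23 x25 x35 x41 x43 x47 x49 x51 x59 x61 x65 x67 x69 x73 x75 x89 x95 x97 x101 x103 x105 x113
    x115 x119 x121 x123 x127 x129 x137 x139 x141 x145 x147 x153 x167 x169 x173 x175 x177 x181 x183
    x191 x193 x195 x199 x201 x207 x217 x219 x225 x251 x257 x259 x263 x265 x267 x275 x277 x281 x283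
    x285 x289 x291 x299 x301 x303 x307 x309 x315 x329 x331 x335 x337 x339 x343 x345 x353 x355 x357
    x361 x363 x369 x379 x381 x387 x407 x409 x411 x415 x417 x423 x433 x435 x441 x459 x491 x493 x497
    x499 x501 x505 x507 x515 x517 x519 x523 x525 x531 x541 x543 x549 x569 x571 x573 x577 x579 x585
    x595 x597 x603 x621 x649 x651 x657 x675 x737 x743 x745 x749 x751 x753 x761 x763 x767 x769 x771
    x775 x777 x785 x787 x789 x793 x795 x801 x815 x817 x821 x823 x825 x829 x831 x839 x841 x843 x847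
    x849 x855 x865 x867 x873 x893 x895 x897 x901 x903 x909 x919 x921 x927 x945 x977 x979 x983 x985
    x987 x991 x993 x1001 x1003 x1005 x1009 x1011 x1017 x1027 x1029 x1035 x1055 x1057 x1059 x1063
    x1065 x1071 x1081 x1083 x1089 x1107 x1135 x1137 x1143 x1161 x1217 x1219 x1221 x1225 x1227 x1233
    x1243 x1245 x1251 x1269 x1297 x1299 x1305 x1323 x1377 x1463 x1465 x1469 x1471 x1473 x1477 x1479
    x1487 x1489 x1491 x1495 x1497 x1503 x1513 x1515 x1521 x1541 x1543 x1545 x1549 x1551 x1557 x1567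
    x1569 x1575 x1593 x1621 x1623 x1629 x1647 x1703 x1705 x1707 x1711 x1713 x1719 x1729 x1731 x1737
    x1755 x1783 x1785 x1791 x1809 x1863 x1945 x1947 x1953 x1971 x2025 : Nat) : Bool :=
  Nat.beq
    (Nat.add (Nat.add (f x17) (Nat.add (f x23) (Nat.add (f x25) (Nat.add (f x35) (Nat.add (f x41)
    (Nat.add (f x43) (Nat.add (f x47) (Nat.add (f x49) (Nat.add (f x51) (Nat.add (f x59) (Nat.add
    (f x61) (Nat.add (f x65) (Nat.add (f x67) (Nat.add (f x69) (Nat.add (f x73) (Nat.add (f x75)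
    (Nat.add (f x89) (Nat.add (f x95) (Nat.add (f x97) (Nat.add (f x101) (Nat.add (f x103) (Nat.add
    (f x105) (Nat.add (f x113) (Nat.add (f x115) (Nat.add (f x119) (Nat.add (f x121) (Nat.add
    (f x123) (Nat.add (f x127) (Nat.add (f x129) (Nat.add (f x137) (Nat.add (f x139) (Nat.add
    (f x141) (Nat.add (f x145) (Nat.add (f x147) (Nat.add (f x153) (Nat.add (f x167) (Nat.add
    (f x169) (Nat.add (f x173) (Nat.add (f x175) (Nat.add (f x177) (Nat.add (f x181) (Nat.add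
    (f x183) (Nat.add (f x191) (Nat.add (f x193) (Nat.add (f x195) (Nat.add (f x199) (Nat.add
    (f x201) (Nat.add (f x207) (Nat.add (f x217) (Nat.add (f x219) (Nat.add (f x225) (Nat.add
    (f x251) (Nat.add (f x257) (Nat.add (f x259) (Nat.add (f x263) (Nat.add (f x265) (Nat.add
    (f x267) (Nat.add (f x275) (Nat.add (f x277) (Nat.add (f x281)
    0)))))))))))))))))))))))))))))))))))))))))))))))))))))))))))) (Nat.add (Nat.add (f x283)
    (Nat.add (f x285) (Nat.add (f x289) (Nat.add (f x291) (Nat.add (f x299) (Nat.add (f x301)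
    (Nat.add (f x303) (Nat.add (f x307) (Nat.add (f x309) (Nat.add (f x315) (Nat.add (f x329)
    (Nat.add (f x331) (Nat.add (f x335) (Nat.add (f x337) (Nat.add (f x339) (Nat.add (f x343)
    (Nat.add (f x345) (Nat.add (f x353) (Nat.add (f x355) (Nat.add (f x357) (Nat.add (f x361)
    (Nat.add (f x363) (Nat.add (f x369) (Nat.add (f x379) (Nat.add (f x381) (Nat.add (f x387)
    (Nat.add (f x407) (Nat.add (f x409) (Nat.add (f x411) (Nat.add (f x415) (Nat.add (f x417)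
    (Nat.add (f x423) (Nat.add (f x433) (Nat.add (f x435) (Nat.add (f x441) (Nat.add (f x459)
    (Nat.add (f x491) (Nat.add (f x493) (Nat.add (f x497) (Nat.add (f x499) (Nat.add (f x501)
    (Nat.add (f x505) (Nat.add (f x507) (Nat.add (f x515) (Nat.add (f x517) (Nat.add (f x519)
    (Nat.add (f x523) (Nat.add (f x525) (Nat.add (f x531) (Nat.add (f x541) (Nat.add (f x543)
    (Nat.add (f x549) (Nat.add (f x569) (Nat.add (f x571) (Nat.add (f x573) (Nat.add (f x577)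
    (Nat.add (f x579) (Nat.add (f x585) (Nat.add (f x595) (Nat.add (f x597)
    0)))))))))))))))))))))))))))))))))))))))))))))))))))))))))))) (Nat.add (Nat.add (f x603)
    (Nat.add (f x621) (Nat.add (f x649) (Nat.add (f x651) (Nat.add (f x657) (Nat.add (f x675)
    (Nat.add (f x737) (Nat.add (f x743) (Nat.add (f x745) (Nat.add (f x749) (Nat.add (f x751)
    (Nat.add (f x753) (Nat.add (f x761) (Nat.add (f x763) (Nat.add (f x767) (Nat.add (f x769)
    (Nat.add (f x771) (Nat.add (f x775) (Nat.add (f x777) (Nat.add (f x785) (Nat.add (f x787)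
    (Nat.add (f x789) (Nat.add (f x793) (Nat.add (f x795) (Nat.add (f x801) (Nat.add (f x815)
    (Nat.add (f x817) (Nat.add (f x821) (Nat.add (f x823) (Nat.add (f x825) (Nat.add (f x829)
    (Nat.add (f x831) (Nat.add (f x839) (Nat.add (f x841) (Nat.add (f x843) (Nat.add (f x847)
    (Nat.add (f x849) (Nat.add (f x855) (Nat.add (f x865) (Nat.add (f x867) (Nat.add (f x873)
    (Nat.add (f x893) (Nat.add (f x895) (Nat.add (f x897) (Nat.add (f x901) (Nat.add (f x903)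
    (Nat.add (f x909) (Nat.add (f x919) (Nat.add (f x921) (Nat.add (f x927) (Nat.add (f x945)
    (Nat.add (f x977) (Nat.add (f x979) (Nat.add (f x983) (Nat.add (f x985) (Nat.add (f x987)
    (Nat.add (f x991) (Nat.add (f x993) (Nat.add (f x1001) (Nat.add (f x1003)
    0)))))))))))))))))))))))))))))))))))))))))))))))))))))))))))) (Nat.add (Nat.add (f x1005)
    (Nat.add (f x1009) (Nat.add (f x1011) (Nat.add (f x1017) (Nat.add (f x1027) (Nat.add (f x1029)
    (Nat.add (f x1035) (Nat.add (f x1055) (Nat.add (f x1057) (Nat.add (f x1059) (Nat.add (f x1063)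
    (Nat.add (f x1065) (Nat.add (f x1071) (Nat.add (f x1081) (Nat.add (f x1083) (Nat.add (f x1089)
    (Nat.add (f x1107) (Nat.add (f x1135) (Nat.add (f x1137) (Nat.add (f x1143) (Nat.add (f x1161)
    (Nat.add (f x1217) (Nat.add (f x1219) (Nat.add (f x1221) (Nat.add (f x1225) (Nat.add (f x1227)
    (Nat.add (f x1233) (Nat.add (f x1243) (Nat.add (f x1245) (Nat.add (f x1251) (Nat.add (f x1269)
    (Nat.add (f x1297) (Nat.add (f x1299) (Nat.add (f x1305) (Nat.add (f x1323) (Nat.add (f x1377)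
    (Nat.add (f x1463) (Nat.add (f x1465) (Nat.add (f x1469) (Nat.add (f x1471) (Nat.add (f x1473)
    (Nat.add (f x1477) (Nat.add (f x1479) (Nat.add (f x1487) (Nat.add (f x1489) (Nat.add (f x1491)
    (Nat.add (f x1495) (Nat.add (f x1497) (Nat.add (f x1503) (Nat.add (f x1513) (Nat.add (f x1515)
    (Nat.add (f x1521) (Nat.add (f x1541) (Nat.add (f x1543) (Nat.add (f x1545) (Nat.add (f x1549)
    (Nat.add (f x1551) (Nat.add (f x1557) (Nat.add (f x1567) (Nat.add (f x1569)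
    0)))))))))))))))))))))))))))))))))))))))))))))))))))))))))))) (Nat.add (Nat.add (f x1575)
    (Nat.add (f x1593) (Nat.add (f x1621) (Nat.add (f x1623) (Nat.add (f x1629) (Nat.add (f x1647)
    (Nat.add (f x1703) (Nat.add (f x1705) (Nat.add (f x1707) (Nat.add (f x1711) (Nat.add (f x1713)
    (Nat.add (f x1719) (Nat.add (f x1729) (Nat.add (f x1731) (Nat.add (f x1737) (Nat.add (f x1755)
    (Nat.add (f x1783) (Nat.add (f x1785) (Nat.add (f x1791) (Nat.add (f x1809) (Nat.add (f x1863)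
    (Nat.add (f x1945) (Nat.add (f x1947) (Nat.add (f x1953) (Nat.add (f x1971) (Nat.add (f x2025)
    0)))))))))))))))))))))))))) 0))))) v1

theorem fin_eq0 (f : Nat → Nat) (v1 : Nat) (x : Nat → Nat) :
    apLL (fun t => x t.cd) cds (fin f v1) = Nat.beq (sum2 (fun t => f (x t.cd)) cds) v1 :=
  Eq.refl (apLL (fun t => x t.cd) cds (fin f v1))

theorem fin_eq (f : Nat → Nat) (v1 : Nat) (x : Nat → Nat) :
    ap x (fin f v1) = Nat.beq (sumL (fun s => f (x s)) (secL 7 5 0 [])) v1 :=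
  ((ap_eq x (fin f v1)).symm.trans (fin_eq0 f v1 x)).trans
    (congrArg (fun z => Nat.beq z v1) (sum2_eq cds _ codes_ok (fun s => f (x s))))

def ch0 : List (Nat × Nat) :=
    [(17,28), (23,14), (35,28), (41,28), (43,28), (47,28), (59,28), (89,14), (95,28), (97,28),
    (101,28), (103,28), (113,28), (115,28), (119,28), (121,14), (137,28), (173,14), (275,28),
    (281,28), (283,14), (337,14)]

def sqA0 (X M
    u0 u1 u2 u3 u4 u5 u6 u7 u8 u9 u10 u11 u12 u13 u14 u15 u16 u17 u18 u19 u20 u21 : Nat) : Nat :=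
    (Nat.add (Nat.mul (Nat.mul (Nat.land u0 M) (Nat.sub X (Nat.land u0 M))) 28)
    (Nat.add (Nat.mul (Nat.mul (Nat.land u1 M) (Nat.sub X (Nat.land u1 M))) 14)
    (Nat.add (Nat.mul (Nat.mul (Nat.land u2 M) (Nat.sub X (Nat.land u2 M))) 28)
    (Nat.add (Nat.mul (Nat.mul (Nat.land u3 M) (Nat.sub X (Nat.land u3 M))) 28)
    (Nat.add (Nat.mul (Nat.mul (Nat.land u4 M) (Nat.sub X (Nat.land u4 M))) 28)
    (Nat.add (Nat.mul (Nat.mul (Nat.land u5 M) (Nat.sub X (Nat.land u5 M))) 28)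
    (Nat.add (Nat.mul (Nat.mul (Nat.land u6 M) (Nat.sub X (Nat.land u6 M))) 28)
    (Nat.add (Nat.mul (Nat.mul (Nat.land u7 M) (Nat.sub X (Nat.land u7 M))) 14)
    (Nat.add (Nat.mul (Nat.mul (Nat.land u8 M) (Nat.sub X (Nat.land u8 M))) 28)
    (Nat.add (Nat.mul (Nat.mul (Nat.land u9 M) (Nat.sub X (Nat.land u9 M))) 28)
    (Nat.add (Nat.mul (Nat.mul (Nat.land u10 M) (Nat.sub X (Nat.land u10 M))) 28)
    (Nat.add (Nat.mul (Nat.mul (Nat.land u11 M) (Nat.sub X (Nat.land u11 M))) 28)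
    (Nat.add (Nat.mul (Nat.mul (Nat.land u12 M) (Nat.sub X (Nat.land u12 M))) 28)
    (Nat.add (Nat.mul (Nat.mul (Nat.land u13 M) (Nat.sub X (Nat.land u13 M))) 28)
    (Nat.add (Nat.mul (Nat.mul (Nat.land u14 M) (Nat.sub X (Nat.land u14 M))) 28)
    (Nat.add (Nat.mul (Nat.mul (Nat.land u15 M) (Nat.sub X (Nat.land u15 M))) 14)
    (Nat.add (Nat.mul (Nat.mul (Nat.land u16 M) (Nat.sub X (Nat.land u16 M))) 28)
    (Nat.add (Nat.mul (Nat.mul (Nat.land u17 M) (Nat.sub X (Nat.land u17 M))) 14)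
    (Nat.add (Nat.mul (Nat.mul (Nat.land u18 M) (Nat.sub X (Nat.land u18 M))) 28)
    (Nat.add (Nat.mul (Nat.mul (Nat.land u19 M) (Nat.sub X (Nat.land u19 M))) 28)
    (Nat.add (Nat.mul (Nat.mul (Nat.land u20 M) (Nat.sub X (Nat.land u20 M))) 14)
    (Nat.add (Nat.mul (Nat.mul (Nat.land u21 M) (Nat.sub X (Nat.land u21 M))) 14)
    0))))))))))))))))))))))

def sqB0 (z0 z1 z2 z3 : Nat) : Nat :=
  sqA0 (Nat.shiftLeft 1 122) (Nat.sub (Nat.shiftLeft 1 122) 1)
    z0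
    (Nat.shiftRight z0 122)
    (Nat.shiftRight (Nat.shiftRight z0 122) 122)
    (Nat.shiftRight (Nat.shiftRight (Nat.shiftRight z0 122) 122) 122)
    (Nat.shiftRight (Nat.shiftRight (Nat.shiftRight (Nat.shiftRight z0 122) 122) 122) 122)
    (Nat.shiftRight (Nat.shiftRight (Nat.shiftRight (Nat.shiftRight (Nat.shiftRight z0 122) 122) 122) 122) 122)
    z1
    (Nat.shiftRight z1 122)
    (Nat.shiftRight (Nat.shiftRight z1 122) 122)
    (Nat.shiftRight (Nat.shiftRight (Nat.shiftRight z1 122) 122) 122)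
    (Nat.shiftRight (Nat.shiftRight (Nat.shiftRight (Nat.shiftRight z1 122) 122) 122) 122)
    (Nat.shiftRight (Nat.shiftRight (Nat.shiftRight (Nat.shiftRight (Nat.shiftRight z1 122) 122) 122) 122) 122)
    z2
    (Nat.shiftRight z2 122)
    (Nat.shiftRight (Nat.shiftRight z2 122) 122)
    (Nat.shiftRight (Nat.shiftRight (Nat.shiftRight z2 122) 122) 122)
    (Nat.shiftRight (Nat.shiftRight (Nat.shiftRight (Nat.shiftRight z2 122) 122) 122) 122)
    (Nat.shiftRight (Nat.shiftRight (Nat.shiftRight (Nat.shiftRight (Nat.shiftRight z2 122) 122) 122) 122) 122)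
    z3
    (Nat.shiftRight z3 122)
    (Nat.shiftRight (Nat.shiftRight z3 122) 122)
    (Nat.shiftRight (Nat.shiftRight (Nat.shiftRight z3 122) 122) 122)

def sqC0 (u : Nat) : Nat :=
  sqB0
    u
    (sh6 122 u)
    (sh6 122 (sh6 122 u))
    (sh6 122 (sh6 122 (sh6 122 u)))

noncomputable def sq0 (v : Nat) : Nat := sqC0 (Nat.add v (offs 122 (Nat.shiftLeft 1 (Nat.sub 122 1)) ch0))

theorem sq_eq0 : sq0 = sqF 122 ch0 := Eq.refl sq0

theorem side_ok0 : sideOK 7 122 mask cf7 ch0 = true := by decide +kernel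

theorem cover : beqP (repL 7 5) (ch0 ++ []) = true := by decide +kernel

theorem len_ok : (secL 7 5 0 []).length = 266 := by decide +kernel

theorem wt_ok : (List.map Prod.snd (ch0 ++ [])).sum = 532 := by decide +kernel

end Vale.Agent.P348.A7_5

namespace Vale.Agent.P348.A7_6

def mask : Nat := nat_lit 47117674202496831709805625686427598523788774305306142333362236852856232885957468379155978718257669695661408256

def KK : Type :=
    Nat → Nat → Nat → Nat → Nat → Nat → Nat → Nat → Nat → Nat → Nat → Nat → Nat → Nat → Nat → Nat →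
    Nat → Nat → Nat → Nat → Nat → Nat → Nat → Nat → Nat → Nat → Nat → Nat → Nat → Nat → Nat → Nat →
    Nat → Nat → Nat → Nat → Nat → Nat → Nat → Nat → Nat → Nat → Nat → Nat → Nat → Nat → Nat → Nat →
    Nat → Nat → Nat → Nat → Nat → Nat → Nat → Nat → Nat → Nat → Nat → Nat → Nat → Nat → Nat → Nat →
    Nat → Nat → Nat → Nat → Nat → Nat → Nat → Nat → Nat → Nat → Nat → Nat → Nat → Nat → Nat → Nat →
    Nat → Nat → Nat → Nat → Nat → Nat → Nat → Nat → Nat → Nat → Nat → Nat → Nat → Nat → Nat → Nat →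
    Nat → Nat → Nat → Nat → Nat → Nat → Nat → Nat → Nat → Nat → Nat → Nat → Nat → Nat → Nat → Nat →
    Nat → Nat → Nat → Nat → Nat → Nat → Nat → Nat → Nat → Nat → Nat → Nat → Nat → Nat → Nat → Nat →
    Nat → Nat → Nat → Nat → Nat → Nat → Nat → Nat → Nat → Nat → Nat → Nat → Nat → Nat → Nat → Nat →
    Nat → Nat → Nat → Nat → Nat → Nat → Nat → Nat → Nat → Nat → Nat → Nat → Nat → Nat → Nat → Nat →
    Nat → Nat → Nat → Nat → Nat → Nat → Nat → Nat → Nat → Nat → Nat → Nat → Nat → Nat → Nat → Nat →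
    Nat → Nat → Nat → Nat → Nat → Nat → Nat → Nat → Nat → Nat → Nat → Nat → Nat → Nat → Nat → Nat →
    Nat → Nat → Nat → Nat → Nat → Nat → Nat → Nat → Nat → Nat → Nat → Nat → Nat → Nat → Nat → Nat →
    Nat → Nat → Nat → Nat → Nat → Nat → Nat → Nat → Nat → Nat → Nat → Nat → Nat → Nat → Nat → Nat →
    Nat → Nat → Nat → Nat → Nat → Nat → Nat → Nat → Nat → Nat → Nat → Nat → Nat → Nat → Nat → Nat →
    Nat → Nat → Nat → Nat → Nat → Nat → Nat → Nat → Nat → Nat → Nat → Nat → Nat → Nat → Nat → Nat →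
    Nat → Nat → Nat → Nat → Nat → Nat → Nat → Nat → Nat → Nat → Nat → Nat → Nat → Nat → Nat → Nat →
    Nat → Nat → Nat → Nat → Nat → Nat → Nat → Nat → Nat → Nat → Nat → Nat → Nat → Nat → Nat → Nat →
    Nat → Nat → Nat → Nat → Nat → Nat → Nat → Nat → Nat → Nat → Nat → Nat → Nat → Nat → Nat → Nat →
    Nat → Nat → Nat → Nat → Nat → Nat → Nat → Nat → Nat → Nat → Nat → Nat → Nat → Nat → Nat → Nat →
    Nat → Nat → Nat → Nat → Nat → Nat → Nat → Nat → Nat → Nat → Nat → Nat → Nat → Nat → Nat → Nat →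
    Nat → Nat → Nat → Nat → Nat → Nat → Nat → Nat → Nat → Nat → Nat → Nat → Nat → Nat → Nat → Nat →
    Nat → Nat → Nat → Nat → Nat → Bool

noncomputable def cd0 : List Spec :=
  [Spec.mk (nat_lit 26) (nat_lit 0) [] (nat_lit 0) [] false,
   Spec.mk (nat_lit 44) (nat_lit 0) [] (nat_lit 0) [] false,
   Spec.mk (nat_lit 50) (nat_lit 0) [] (nat_lit 0) [] false,
   Spec.mk (nat_lit 52) (nat_lit 0) [] (nat_lit 0) [] false,
   Spec.mk (nat_lit 62) (nat_lit 0) [] (nat_lit 0) [] false,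
   Spec.mk (nat_lit 68) (nat_lit 0) [] (nat_lit 0) [] false,
   Spec.mk (nat_lit 70) (nat_lit 0) [] (nat_lit 0) [] false,
   Spec.mk (nat_lit 74) (nat_lit 0) [] (nat_lit 0) [] false,
   Spec.mk (nat_lit 76) (nat_lit 0) [] (nat_lit 0) [] false,
   Spec.mk (nat_lit 78) (nat_lit 0) [] (nat_lit 0) [] false,
   Spec.mk (nat_lit 98) (nat_lit 0) [] (nat_lit 0) [] false,
   Spec.mk (nat_lit 104) (nat_lit 0) [] (nat_lit 0) [] false,
   Spec.mk (nat_lit 106) (nat_lit 0) [] (nat_lit 0) [] false,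
   Spec.mk (nat_lit 116) (nat_lit 0) [] (nat_lit 0) [] false,
   Spec.mk (nat_lit 122) (nat_lit 0) [] (nat_lit 0) [] false,
   Spec.mk (nat_lit 124) (nat_lit 0) [] (nat_lit 0) [] false,
   Spec.mk (nat_lit 128) (nat_lit 0) [] (nat_lit 0) [] false,
   Spec.mk (nat_lit 130) (nat_lit 0) [] (nat_lit 0) [] false,
   Spec.mk (nat_lit 132) (nat_lit 0) [] (nat_lit 0) [] false,
   Spec.mk (nat_lit 140) (nat_lit 0) [] (nat_lit 0) [] false,
   Spec.mk (nat_lit 142) (nat_lit 0) [] (nat_lit 0) [] false,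
   Spec.mk (nat_lit 146) (nat_lit 0) [] (nat_lit 0) [] false,
   Spec.mk (nat_lit 148) (nat_lit 0) [] (nat_lit 0) [] false,
   Spec.mk (nat_lit 150) (nat_lit 0) [] (nat_lit 0) [] false,
   Spec.mk (nat_lit 154) (nat_lit 0) [] (nat_lit 0) [] false,
   Spec.mk (nat_lit 156) (nat_lit 0) [] (nat_lit 0) [] false,
   Spec.mk (nat_lit 170) (nat_lit 0) [] (nat_lit 0) [] false,
   Spec.mk (nat_lit 176) (nat_lit 0) [] (nat_lit 0) [] false,
   Spec.mk (nat_lit 178) (nat_lit 0) [] (nat_lit 0) [] false,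
   Spec.mk (nat_lit 182) (nat_lit 0) [] (nat_lit 0) [] false,
   Spec.mk (nat_lit 184) (nat_lit 0) [] (nat_lit 0) [] false,
   Spec.mk (nat_lit 186) (nat_lit 0) [] (nat_lit 0) [] false,
   Spec.mk (nat_lit 194) (nat_lit 0) [] (nat_lit 0) [] false,
   Spec.mk (nat_lit 196) (nat_lit 0) [] (nat_lit 0) [] false,
   Spec.mk (nat_lit 200) (nat_lit 0) [] (nat_lit 0) [] false,
   Spec.mk (nat_lit 202) (nat_lit 0) [] (nat_lit 0) [] false,
   Spec.mk (nat_lit 204) (nat_lit 0) [] (nat_lit 0) [] false,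
   Spec.mk (nat_lit 208) (nat_lit 0) [] (nat_lit 0) [] false,
   Spec.mk (nat_lit 210) (nat_lit 0) [] (nat_lit 0) [] false,
   Spec.mk (nat_lit 218) (nat_lit 0) [] (nat_lit 0) [] false,
   Spec.mk (nat_lit 220) (nat_lit 0) [] (nat_lit 0) [] false,
   Spec.mk (nat_lit 222) (nat_lit 0) [] (nat_lit 0) [] false,
   Spec.mk (nat_lit 226) (nat_lit 0) [] (nat_lit 0) [] false,
   Spec.mk (nat_lit 228) (nat_lit 0) [] (nat_lit 0) [] false,
   Spec.mk (nat_lit 234) (nat_lit 0) [] (nat_lit 0) [] false,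
   Spec.mk (nat_lit 260) (nat_lit 0) [] (nat_lit 0) [] false,
   Spec.mk (nat_lit 266) (nat_lit 0) [] (nat_lit 0) [] false,
   Spec.mk (nat_lit 268) (nat_lit 0) [] (nat_lit 0) [] false,
   Spec.mk (nat_lit 278) (nat_lit 0) [] (nat_lit 0) [] false,
   Spec.mk (nat_lit 284) (nat_lit 0) [] (nat_lit 0) [] false,
   Spec.mk (nat_lit 286) (nat_lit 0) [] (nat_lit 0) [] false,
   Spec.mk (nat_lit 290) (nat_lit 0) [] (nat_lit 0) [] false,
   Spec.mk (nat_lit 292) (nat_lit 0) [] (nat_lit 0) [] false,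
   Spec.mk (nat_lit 294) (nat_lit 0) [] (nat_lit 0) [] false,
   Spec.mk (nat_lit 302) (nat_lit 0) [] (nat_lit 0) [] false,
   Spec.mk (nat_lit 304) (nat_lit 0) [] (nat_lit 0) [] false,
   Spec.mk (nat_lit 308) (nat_lit 0) [] (nat_lit 0) [] false,
   Spec.mk (nat_lit 310) (nat_lit 0) [] (nat_lit 0) [] false,
   Spec.mk (nat_lit 312) (nat_lit 0) [] (nat_lit 0) [] false,
   Spec.mk (nat_lit 316) (nat_lit 0) [] (nat_lit 0) [] false]

noncomputable def cd1 : List Spec :=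
  [Spec.mk (nat_lit 318) (nat_lit 0) [] (nat_lit 0) [] false,
   Spec.mk (nat_lit 332) (nat_lit 0) [] (nat_lit 0) [] false,
   Spec.mk (nat_lit 338) (nat_lit 0) [] (nat_lit 0) [] false,
   Spec.mk (nat_lit 340) (nat_lit 0) [] (nat_lit 0) [] false,
   Spec.mk (nat_lit 344) (nat_lit 0) [] (nat_lit 0) [] false,
   Spec.mk (nat_lit 346) (nat_lit 0) [] (nat_lit 0) [] false,
   Spec.mk (nat_lit 348) (nat_lit 0) [] (nat_lit 0) [] false,
   Spec.mk (nat_lit 356) (nat_lit 0) [] (nat_lit 0) [] false,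
   Spec.mk (nat_lit 358) (nat_lit 0) [] (nat_lit 0) [] false,
   Spec.mk (nat_lit 362) (nat_lit 0) [] (nat_lit 0) [] false,
   Spec.mk (nat_lit 364) (nat_lit 0) [] (nat_lit 0) [] false,
   Spec.mk (nat_lit 366) (nat_lit 0) [] (nat_lit 0) [] false,
   Spec.mk (nat_lit 370) (nat_lit 0) [] (nat_lit 0) [] false,
   Spec.mk (nat_lit 372) (nat_lit 0) [] (nat_lit 0) [] false,
   Spec.mk (nat_lit 380) (nat_lit 0) [] (nat_lit 0) [] false,
   Spec.mk (nat_lit 382) (nat_lit 0) [] (nat_lit 0) [] false,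
   Spec.mk (nat_lit 384) (nat_lit 0) [] (nat_lit 0) [] false,
   Spec.mk (nat_lit 388) (nat_lit 0) [] (nat_lit 0) [] false,
   Spec.mk (nat_lit 390) (nat_lit 0) [] (nat_lit 0) [] false,
   Spec.mk (nat_lit 396) (nat_lit 0) [] (nat_lit 0) [] false,
   Spec.mk (nat_lit 410) (nat_lit 0) [] (nat_lit 0) [] false,
   Spec.mk (nat_lit 412) (nat_lit 0) [] (nat_lit 0) [] false,
   Spec.mk (nat_lit 416) (nat_lit 0) [] (nat_lit 0) [] false,
   Spec.mk (nat_lit 418) (nat_lit 0) [] (nat_lit 0) [] false,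
   Spec.mk (nat_lit 420) (nat_lit 0) [] (nat_lit 0) [] false,
   Spec.mk (nat_lit 424) (nat_lit 0) [] (nat_lit 0) [] false,
   Spec.mk (nat_lit 426) (nat_lit 0) [] (nat_lit 0) [] false,
   Spec.mk (nat_lit 434) (nat_lit 0) [] (nat_lit 0) [] false,
   Spec.mk (nat_lit 436) (nat_lit 0) [] (nat_lit 0) [] false,
   Spec.mk (nat_lit 438) (nat_lit 0) [] (nat_lit 0) [] false,
   Spec.mk (nat_lit 442) (nat_lit 0) [] (nat_lit 0) [] false,
   Spec.mk (nat_lit 444) (nat_lit 0) [] (nat_lit 0) [] false,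
   Spec.mk (nat_lit 450) (nat_lit 0) [] (nat_lit 0) [] false,
   Spec.mk (nat_lit 460) (nat_lit 0) [] (nat_lit 0) [] false,
   Spec.mk (nat_lit 462) (nat_lit 0) [] (nat_lit 0) [] false,
   Spec.mk (nat_lit 468) (nat_lit 0) [] (nat_lit 0) [] false,
   Spec.mk (nat_lit 494) (nat_lit 0) [] (nat_lit 0) [] false,
   Spec.mk (nat_lit 500) (nat_lit 0) [] (nat_lit 0) [] false,
   Spec.mk (nat_lit 502) (nat_lit 0) [] (nat_lit 0) [] false,
   Spec.mk (nat_lit 506) (nat_lit 0) [] (nat_lit 0) [] false,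
   Spec.mk (nat_lit 508) (nat_lit 0) [] (nat_lit 0) [] false,
   Spec.mk (nat_lit 510) (nat_lit 0) [] (nat_lit 0) [] false,
   Spec.mk (nat_lit 518) (nat_lit 0) [] (nat_lit 0) [] false,
   Spec.mk (nat_lit 520) (nat_lit 0) [] (nat_lit 0) [] false,
   Spec.mk (nat_lit 524) (nat_lit 0) [] (nat_lit 0) [] false,
   Spec.mk (nat_lit 526) (nat_lit 0) [] (nat_lit 0) [] false,
   Spec.mk (nat_lit 528) (nat_lit 0) [] (nat_lit 0) [] false,
   Spec.mk (nat_lit 532) (nat_lit 0) [] (nat_lit 0) [] false,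
   Spec.mk (nat_lit 534) (nat_lit 0) [] (nat_lit 0) [] false,
   Spec.mk (nat_lit 542) (nat_lit 0) [] (nat_lit 0) [] false,
   Spec.mk (nat_lit 544) (nat_lit 0) [] (nat_lit 0) [] false,
   Spec.mk (nat_lit 546) (nat_lit 0) [] (nat_lit 0) [] false,
   Spec.mk (nat_lit 550) (nat_lit 0) [] (nat_lit 0) [] false,
   Spec.mk (nat_lit 552) (nat_lit 0) [] (nat_lit 0) [] false,
   Spec.mk (nat_lit 558) (nat_lit 0) [] (nat_lit 0) [] false,
   Spec.mk (nat_lit 572) (nat_lit 0) [] (nat_lit 0) [] false,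
   Spec.mk (nat_lit 574) (nat_lit 0) [] (nat_lit 0) [] false,
   Spec.mk (nat_lit 578) (nat_lit 0) [] (nat_lit 0) [] false,
   Spec.mk (nat_lit 580) (nat_lit 0) [] (nat_lit 0) [] false,
   Spec.mk (nat_lit 582) (nat_lit 0) [] (nat_lit 0) [] false]

noncomputable def cd2 : List Spec :=
  [Spec.mk (nat_lit 586) (nat_lit 0) [] (nat_lit 0) [] false,
   Spec.mk (nat_lit 588) (nat_lit 0) [] (nat_lit 0) [] false,
   Spec.mk (nat_lit 596) (nat_lit 0) [] (nat_lit 0) [] false,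
   Spec.mk (nat_lit 598) (nat_lit 0) [] (nat_lit 0) [] false,
   Spec.mk (nat_lit 600) (nat_lit 0) [] (nat_lit 0) [] false,
   Spec.mk (nat_lit 604) (nat_lit 0) [] (nat_lit 0) [] false,
   Spec.mk (nat_lit 606) (nat_lit 0) [] (nat_lit 0) [] false,
   Spec.mk (nat_lit 612) (nat_lit 0) [] (nat_lit 0) [] false,
   Spec.mk (nat_lit 622) (nat_lit 0) [] (nat_lit 0) [] false,
   Spec.mk (nat_lit 624) (nat_lit 0) [] (nat_lit 0) [] false,
   Spec.mk (nat_lit 630) (nat_lit 0) [] (nat_lit 0) [] false,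
   Spec.mk (nat_lit 650) (nat_lit 0) [] (nat_lit 0) [] false,
   Spec.mk (nat_lit 652) (nat_lit 0) [] (nat_lit 0) [] false,
   Spec.mk (nat_lit 654) (nat_lit 0) [] (nat_lit 0) [] false,
   Spec.mk (nat_lit 658) (nat_lit 0) [] (nat_lit 0) [] false,
   Spec.mk (nat_lit 660) (nat_lit 0) [] (nat_lit 0) [] false,
   Spec.mk (nat_lit 666) (nat_lit 0) [] (nat_lit 0) [] false,
   Spec.mk (nat_lit 676) (nat_lit 0) [] (nat_lit 0) [] false,
   Spec.mk (nat_lit 678) (nat_lit 0) [] (nat_lit 0) [] false,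
   Spec.mk (nat_lit 684) (nat_lit 0) [] (nat_lit 0) [] false,
   Spec.mk (nat_lit 702) (nat_lit 0) [] (nat_lit 0) [] false,
   Spec.mk (nat_lit 746) (nat_lit 0) [] (nat_lit 0) [] false,
   Spec.mk (nat_lit 752) (nat_lit 0) [] (nat_lit 0) [] false,
   Spec.mk (nat_lit 754) (nat_lit 0) [] (nat_lit 0) [] false,
   Spec.mk (nat_lit 764) (nat_lit 0) [] (nat_lit 0) [] false,
   Spec.mk (nat_lit 770) (nat_lit 0) [] (nat_lit 0) [] false,
   Spec.mk (nat_lit 772) (nat_lit 0) [] (nat_lit 0) [] false,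
   Spec.mk (nat_lit 776) (nat_lit 0) [] (nat_lit 0) [] false,
   Spec.mk (nat_lit 778) (nat_lit 0) [] (nat_lit 0) [] false,
   Spec.mk (nat_lit 780) (nat_lit 0) [] (nat_lit 0) [] false,
   Spec.mk (nat_lit 788) (nat_lit 0) [] (nat_lit 0) [] false,
   Spec.mk (nat_lit 790) (nat_lit 0) [] (nat_lit 0) [] false,
   Spec.mk (nat_lit 794) (nat_lit 0) [] (nat_lit 0) [] false,
   Spec.mk (nat_lit 796) (nat_lit 0) [] (nat_lit 0) [] false,
   Spec.mk (nat_lit 798) (nat_lit 0) [] (nat_lit 0) [] false,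
   Spec.mk (nat_lit 802) (nat_lit 0) [] (nat_lit 0) [] false,
   Spec.mk (nat_lit 804) (nat_lit 0) [] (nat_lit 0) [] false,
   Spec.mk (nat_lit 818) (nat_lit 0) [] (nat_lit 0) [] false,
   Spec.mk (nat_lit 824) (nat_lit 0) [] (nat_lit 0) [] false,
   Spec.mk (nat_lit 826) (nat_lit 0) [] (nat_lit 0) [] false,
   Spec.mk (nat_lit 830) (nat_lit 0) [] (nat_lit 0) [] false,
   Spec.mk (nat_lit 832) (nat_lit 0) [] (nat_lit 0) [] false,
   Spec.mk (nat_lit 834) (nat_lit 0) [] (nat_lit 0) [] false,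
   Spec.mk (nat_lit 842) (nat_lit 0) [] (nat_lit 0) [] false,
   Spec.mk (nat_lit 844) (nat_lit 0) [] (nat_lit 0) [] false,
   Spec.mk (nat_lit 848) (nat_lit 0) [] (nat_lit 0) [] false,
   Spec.mk (nat_lit 850) (nat_lit 0) [] (nat_lit 0) [] false,
   Spec.mk (nat_lit 852) (nat_lit 0) [] (nat_lit 0) [] false,
   Spec.mk (nat_lit 856) (nat_lit 0) [] (nat_lit 0) [] false,
   Spec.mk (nat_lit 858) (nat_lit 0) [] (nat_lit 0) [] false,
   Spec.mk (nat_lit 866) (nat_lit 0) [] (nat_lit 0) [] false,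
   Spec.mk (nat_lit 868) (nat_lit 0) [] (nat_lit 0) [] false,
   Spec.mk (nat_lit 870) (nat_lit 0) [] (nat_lit 0) [] false,
   Spec.mk (nat_lit 874) (nat_lit 0) [] (nat_lit 0) [] false,
   Spec.mk (nat_lit 876) (nat_lit 0) [] (nat_lit 0) [] false,
   Spec.mk (nat_lit 882) (nat_lit 0) [] (nat_lit 0) [] false,
   Spec.mk (nat_lit 896) (nat_lit 0) [] (nat_lit 0) [] false,
   Spec.mk (nat_lit 898) (nat_lit 0) [] (nat_lit 0) [] false,
   Spec.mk (nat_lit 902) (nat_lit 0) [] (nat_lit 0) [] false,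
   Spec.mk (nat_lit 904) (nat_lit 0) [] (nat_lit 0) [] false]

noncomputable def cd3 : List Spec :=
  [Spec.mk (nat_lit 906) (nat_lit 0) [] (nat_lit 0) [] false,
   Spec.mk (nat_lit 910) (nat_lit 0) [] (nat_lit 0) [] false,
   Spec.mk (nat_lit 912) (nat_lit 0) [] (nat_lit 0) [] false,
   Spec.mk (nat_lit 920) (nat_lit 0) [] (nat_lit 0) [] false,
   Spec.mk (nat_lit 922) (nat_lit 0) [] (nat_lit 0) [] false,
   Spec.mk (nat_lit 924) (nat_lit 0) [] (nat_lit 0) [] false,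
   Spec.mk (nat_lit 928) (nat_lit 0) [] (nat_lit 0) [] false,
   Spec.mk (nat_lit 930) (nat_lit 0) [] (nat_lit 0) [] false,
   Spec.mk (nat_lit 936) (nat_lit 0) [] (nat_lit 0) [] false,
   Spec.mk (nat_lit 946) (nat_lit 0) [] (nat_lit 0) [] false,
   Spec.mk (nat_lit 948) (nat_lit 0) [] (nat_lit 0) [] false,
   Spec.mk (nat_lit 954) (nat_lit 0) [] (nat_lit 0) [] false,
   Spec.mk (nat_lit 980) (nat_lit 0) [] (nat_lit 0) [] false,
   Spec.mk (nat_lit 986) (nat_lit 0) [] (nat_lit 0) [] false,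
   Spec.mk (nat_lit 988) (nat_lit 0) [] (nat_lit 0) [] false,
   Spec.mk (nat_lit 992) (nat_lit 0) [] (nat_lit 0) [] false,
   Spec.mk (nat_lit 994) (nat_lit 0) [] (nat_lit 0) [] false,
   Spec.mk (nat_lit 996) (nat_lit 0) [] (nat_lit 0) [] false,
   Spec.mk (nat_lit 1004) (nat_lit 0) [] (nat_lit 0) [] false,
   Spec.mk (nat_lit 1006) (nat_lit 0) [] (nat_lit 0) [] false,
   Spec.mk (nat_lit 1010) (nat_lit 0) [] (nat_lit 0) [] false,
   Spec.mk (nat_lit 1012) (nat_lit 0) [] (nat_lit 0) [] false,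
   Spec.mk (nat_lit 1014) (nat_lit 0) [] (nat_lit 0) [] false,
   Spec.mk (nat_lit 1018) (nat_lit 0) [] (nat_lit 0) [] false,
   Spec.mk (nat_lit 1020) (nat_lit 0) [] (nat_lit 0) [] false,
   Spec.mk (nat_lit 1028) (nat_lit 0) [] (nat_lit 0) [] false,
   Spec.mk (nat_lit 1030) (nat_lit 0) [] (nat_lit 0) [] false,
   Spec.mk (nat_lit 1032) (nat_lit 0) [] (nat_lit 0) [] false,
   Spec.mk (nat_lit 1036) (nat_lit 0) [] (nat_lit 0) [] false,
   Spec.mk (nat_lit 1038) (nat_lit 0) [] (nat_lit 0) [] false,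
   Spec.mk (nat_lit 1044) (nat_lit 0) [] (nat_lit 0) [] false,
   Spec.mk (nat_lit 1058) (nat_lit 0) [] (nat_lit 0) [] false,
   Spec.mk (nat_lit 1060) (nat_lit 0) [] (nat_lit 0) [] false,
   Spec.mk (nat_lit 1064) (nat_lit 0) [] (nat_lit 0) [] false,
   Spec.mk (nat_lit 1066) (nat_lit 0) [] (nat_lit 0) [] false,
   Spec.mk (nat_lit 1068) (nat_lit 0) [] (nat_lit 0) [] false,
   Spec.mk (nat_lit 1072) (nat_lit 0) [] (nat_lit 0) [] false,
   Spec.mk (nat_lit 1074) (nat_lit 0) [] (nat_lit 0) [] false,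
   Spec.mk (nat_lit 1082) (nat_lit 0) [] (nat_lit 0) [] false,
   Spec.mk (nat_lit 1084) (nat_lit 0) [] (nat_lit 0) [] false,
   Spec.mk (nat_lit 1086) (nat_lit 0) [] (nat_lit 0) [] false,
   Spec.mk (nat_lit 1090) (nat_lit 0) [] (nat_lit 0) [] false,
   Spec.mk (nat_lit 1092) (nat_lit 0) [] (nat_lit 0) [] false,
   Spec.mk (nat_lit 1098) (nat_lit 0) [] (nat_lit 0) [] false,
   Spec.mk (nat_lit 1108) (nat_lit 0) [] (nat_lit 0) [] false,
   Spec.mk (nat_lit 1110) (nat_lit 0) [] (nat_lit 0) [] false,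
   Spec.mk (nat_lit 1116) (nat_lit 0) [] (nat_lit 0) [] false,
   Spec.mk (nat_lit 1136) (nat_lit 0) [] (nat_lit 0) [] false,
   Spec.mk (nat_lit 1138) (nat_lit 0) [] (nat_lit 0) [] false,
   Spec.mk (nat_lit 1140) (nat_lit 0) [] (nat_lit 0) [] false,
   Spec.mk (nat_lit 1144) (nat_lit 0) [] (nat_lit 0) [] false,
   Spec.mk (nat_lit 1146) (nat_lit 0) [] (nat_lit 0) [] false,
   Spec.mk (nat_lit 1152) (nat_lit 0) [] (nat_lit 0) [] false,
   Spec.mk (nat_lit 1162) (nat_lit 0) [] (nat_lit 0) [] false,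
   Spec.mk (nat_lit 1164) (nat_lit 0) [] (nat_lit 0) [] false,
   Spec.mk (nat_lit 1170) (nat_lit 0) [] (nat_lit 0) [] false,
   Spec.mk (nat_lit 1188) (nat_lit 0) [] (nat_lit 0) [] false,
   Spec.mk (nat_lit 1220) (nat_lit 0) [] (nat_lit 0) [] false,
   Spec.mk (nat_lit 1222) (nat_lit 0) [] (nat_lit 0) [] false,
   Spec.mk (nat_lit 1226) (nat_lit 0) [] (nat_lit 0) [] false]

noncomputable def cd4 : List Spec :=
  [Spec.mk (nat_lit 1228) (nat_lit 0) [] (nat_lit 0) [] false,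
   Spec.mk (nat_lit 1230) (nat_lit 0) [] (nat_lit 0) [] false,
   Spec.mk (nat_lit 1234) (nat_lit 0) [] (nat_lit 0) [] false,
   Spec.mk (nat_lit 1236) (nat_lit 0) [] (nat_lit 0) [] false,
   Spec.mk (nat_lit 1244) (nat_lit 0) [] (nat_lit 0) [] false,
   Spec.mk (nat_lit 1246) (nat_lit 0) [] (nat_lit 0) [] false,
   Spec.mk (nat_lit 1248) (nat_lit 0) [] (nat_lit 0) [] false,
   Spec.mk (nat_lit 1252) (nat_lit 0) [] (nat_lit 0) [] false,
   Spec.mk (nat_lit 1254) (nat_lit 0) [] (nat_lit 0) [] false,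
   Spec.mk (nat_lit 1260) (nat_lit 0) [] (nat_lit 0) [] false,
   Spec.mk (nat_lit 1270) (nat_lit 0) [] (nat_lit 0) [] false,
   Spec.mk (nat_lit 1272) (nat_lit 0) [] (nat_lit 0) [] false,
   Spec.mk (nat_lit 1278) (nat_lit 0) [] (nat_lit 0) [] false,
   Spec.mk (nat_lit 1298) (nat_lit 0) [] (nat_lit 0) [] false,
   Spec.mk (nat_lit 1300) (nat_lit 0) [] (nat_lit 0) [] false,
   Spec.mk (nat_lit 1302) (nat_lit 0) [] (nat_lit 0) [] false,
   Spec.mk (nat_lit 1306) (nat_lit 0) [] (nat_lit 0) [] false,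
   Spec.mk (nat_lit 1308) (nat_lit 0) [] (nat_lit 0) [] false,
   Spec.mk (nat_lit 1314) (nat_lit 0) [] (nat_lit 0) [] false,
   Spec.mk (nat_lit 1324) (nat_lit 0) [] (nat_lit 0) [] false,
   Spec.mk (nat_lit 1326) (nat_lit 0) [] (nat_lit 0) [] false,
   Spec.mk (nat_lit 1332) (nat_lit 0) [] (nat_lit 0) [] false,
   Spec.mk (nat_lit 1350) (nat_lit 0) [] (nat_lit 0) [] false,
   Spec.mk (nat_lit 1378) (nat_lit 0) [] (nat_lit 0) [] false,
   Spec.mk (nat_lit 1380) (nat_lit 0) [] (nat_lit 0) [] false,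
   Spec.mk (nat_lit 1386) (nat_lit 0) [] (nat_lit 0) [] false,
   Spec.mk (nat_lit 1404) (nat_lit 0) [] (nat_lit 0) [] false,
   Spec.mk (nat_lit 1466) (nat_lit 0) [] (nat_lit 0) [] false,
   Spec.mk (nat_lit 1472) (nat_lit 0) [] (nat_lit 0) [] false,
   Spec.mk (nat_lit 1474) (nat_lit 0) [] (nat_lit 0) [] false,
   Spec.mk (nat_lit 1478) (nat_lit 0) [] (nat_lit 0) [] false,
   Spec.mk (nat_lit 1480) (nat_lit 0) [] (nat_lit 0) [] false,
   Spec.mk (nat_lit 1482) (nat_lit 0) [] (nat_lit 0) [] false,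
   Spec.mk (nat_lit 1490) (nat_lit 0) [] (nat_lit 0) [] false,
   Spec.mk (nat_lit 1492) (nat_lit 0) [] (nat_lit 0) [] false,
   Spec.mk (nat_lit 1496) (nat_lit 0) [] (nat_lit 0) [] false,
   Spec.mk (nat_lit 1498) (nat_lit 0) [] (nat_lit 0) [] false,
   Spec.mk (nat_lit 1500) (nat_lit 0) [] (nat_lit 0) [] false,
   Spec.mk (nat_lit 1504) (nat_lit 0) [] (nat_lit 0) [] false,
   Spec.mk (nat_lit 1506) (nat_lit 0) [] (nat_lit 0) [] false,
   Spec.mk (nat_lit 1514) (nat_lit 0) [] (nat_lit 0) [] false,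
   Spec.mk (nat_lit 1516) (nat_lit 0) [] (nat_lit 0) [] false,
   Spec.mk (nat_lit 1518) (nat_lit 0) [] (nat_lit 0) [] false,
   Spec.mk (nat_lit 1522) (nat_lit 0) [] (nat_lit 0) [] false,
   Spec.mk (nat_lit 1524) (nat_lit 0) [] (nat_lit 0) [] false,
   Spec.mk (nat_lit 1530) (nat_lit 0) [] (nat_lit 0) [] false,
   Spec.mk (nat_lit 1544) (nat_lit 0) [] (nat_lit 0) [] false,
   Spec.mk (nat_lit 1546) (nat_lit 0) [] (nat_lit 0) [] false,
   Spec.mk (nat_lit 1550) (nat_lit 0) [] (nat_lit 0) [] false,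
   Spec.mk (nat_lit 1552) (nat_lit 0) [] (nat_lit 0) [] false,
   Spec.mk (nat_lit 1554) (nat_lit 0) [] (nat_lit 0) [] false,
   Spec.mk (nat_lit 1558) (nat_lit 0) [] (nat_lit 0) [] false,
   Spec.mk (nat_lit 1560) (nat_lit 0) [] (nat_lit 0) [] false,
   Spec.mk (nat_lit 1568) (nat_lit 0) [] (nat_lit 0) [] false,
   Spec.mk (nat_lit 1570) (nat_lit 0) [] (nat_lit 0) [] false,
   Spec.mk (nat_lit 1572) (nat_lit 0) [] (nat_lit 0) [] false,
   Spec.mk (nat_lit 1576) (nat_lit 0) [] (nat_lit 0) [] false,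
   Spec.mk (nat_lit 1578) (nat_lit 0) [] (nat_lit 0) [] false,
   Spec.mk (nat_lit 1584) (nat_lit 0) [] (nat_lit 0) [] false,
   Spec.mk (nat_lit 1594) (nat_lit 0) [] (nat_lit 0) [] false]

noncomputable def cd5 : List Spec :=
  [Spec.mk (nat_lit 1596) (nat_lit 0) [] (nat_lit 0) [] false,
   Spec.mk (nat_lit 1602) (nat_lit 0) [] (nat_lit 0) [] false,
   Spec.mk (nat_lit 1622) (nat_lit 0) [] (nat_lit 0) [] false,
   Spec.mk (nat_lit 1624) (nat_lit 0) [] (nat_lit 0) [] false,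
   Spec.mk (nat_lit 1626) (nat_lit 0) [] (nat_lit 0) [] false,
   Spec.mk (nat_lit 1630) (nat_lit 0) [] (nat_lit 0) [] false,
   Spec.mk (nat_lit 1632) (nat_lit 0) [] (nat_lit 0) [] false,
   Spec.mk (nat_lit 1638) (nat_lit 0) [] (nat_lit 0) [] false,
   Spec.mk (nat_lit 1648) (nat_lit 0) [] (nat_lit 0) [] false,
   Spec.mk (nat_lit 1650) (nat_lit 0) [] (nat_lit 0) [] false,
   Spec.mk (nat_lit 1656) (nat_lit 0) [] (nat_lit 0) [] false,
   Spec.mk (nat_lit 1674) (nat_lit 0) [] (nat_lit 0) [] false,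
   Spec.mk (nat_lit 1706) (nat_lit 0) [] (nat_lit 0) [] false,
   Spec.mk (nat_lit 1708) (nat_lit 0) [] (nat_lit 0) [] false,
   Spec.mk (nat_lit 1712) (nat_lit 0) [] (nat_lit 0) [] false,
   Spec.mk (nat_lit 1714) (nat_lit 0) [] (nat_lit 0) [] false,
   Spec.mk (nat_lit 1716) (nat_lit 0) [] (nat_lit 0) [] false,
   Spec.mk (nat_lit 1720) (nat_lit 0) [] (nat_lit 0) [] false,
   Spec.mk (nat_lit 1722) (nat_lit 0) [] (nat_lit 0) [] false,
   Spec.mk (nat_lit 1730) (nat_lit 0) [] (nat_lit 0) [] false,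
   Spec.mk (nat_lit 1732) (nat_lit 0) [] (nat_lit 0) [] false,
   Spec.mk (nat_lit 1734) (nat_lit 0) [] (nat_lit 0) [] false,
   Spec.mk (nat_lit 1738) (nat_lit 0) [] (nat_lit 0) [] false,
   Spec.mk (nat_lit 1740) (nat_lit 0) [] (nat_lit 0) [] false,
   Spec.mk (nat_lit 1746) (nat_lit 0) [] (nat_lit 0) [] false,
   Spec.mk (nat_lit 1756) (nat_lit 0) [] (nat_lit 0) [] false,
   Spec.mk (nat_lit 1758) (nat_lit 0) [] (nat_lit 0) [] false,
   Spec.mk (nat_lit 1764) (nat_lit 0) [] (nat_lit 0) [] false,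
   Spec.mk (nat_lit 1784) (nat_lit 0) [] (nat_lit 0) [] false,
   Spec.mk (nat_lit 1786) (nat_lit 0) [] (nat_lit 0) [] false,
   Spec.mk (nat_lit 1788) (nat_lit 0) [] (nat_lit 0) [] false,
   Spec.mk (nat_lit 1792) (nat_lit 0) [] (nat_lit 0) [] false,
   Spec.mk (nat_lit 1794) (nat_lit 0) [] (nat_lit 0) [] false,
   Spec.mk (nat_lit 1800) (nat_lit 0) [] (nat_lit 0) [] false,
   Spec.mk (nat_lit 1810) (nat_lit 0) [] (nat_lit 0) [] false,
   Spec.mk (nat_lit 1812) (nat_lit 0) [] (nat_lit 0) [] false,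
   Spec.mk (nat_lit 1818) (nat_lit 0) [] (nat_lit 0) [] false,
   Spec.mk (nat_lit 1836) (nat_lit 0) [] (nat_lit 0) [] false,
   Spec.mk (nat_lit 1864) (nat_lit 0) [] (nat_lit 0) [] false,
   Spec.mk (nat_lit 1866) (nat_lit 0) [] (nat_lit 0) [] false,
   Spec.mk (nat_lit 1872) (nat_lit 0) [] (nat_lit 0) [] false,
   Spec.mk (nat_lit 1890) (nat_lit 0) [] (nat_lit 0) [] false,
   Spec.mk (nat_lit 1946) (nat_lit 0) [] (nat_lit 0) [] false,
   Spec.mk (nat_lit 1948) (nat_lit 0) [] (nat_lit 0) [] false,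
   Spec.mk (nat_lit 1950) (nat_lit 0) [] (nat_lit 0) [] false,
   Spec.mk (nat_lit 1954) (nat_lit 0) [] (nat_lit 0) [] false,
   Spec.mk (nat_lit 1956) (nat_lit 0) [] (nat_lit 0) [] false,
   Spec.mk (nat_lit 1962) (nat_lit 0) [] (nat_lit 0) [] false,
   Spec.mk (nat_lit 1972) (nat_lit 0) [] (nat_lit 0) [] false,
   Spec.mk (nat_lit 1974) (nat_lit 0) [] (nat_lit 0) [] false,
   Spec.mk (nat_lit 1980) (nat_lit 0) [] (nat_lit 0) [] false,
   Spec.mk (nat_lit 1998) (nat_lit 0) [] (nat_lit 0) [] false,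
   Spec.mk (nat_lit 2026) (nat_lit 0) [] (nat_lit 0) [] false,
   Spec.mk (nat_lit 2028) (nat_lit 0) [] (nat_lit 0) [] false,
   Spec.mk (nat_lit 2034) (nat_lit 0) [] (nat_lit 0) [] false,
   Spec.mk (nat_lit 2052) (nat_lit 0) [] (nat_lit 0) [] false,
   Spec.mk (nat_lit 2106) (nat_lit 0) [] (nat_lit 0) [] false]

noncomputable def cds : List (List Spec) :=
    cd0 :: cd1 :: cd2 :: cd3 :: cd4 :: cd5 :: []

noncomputable def ap (x : Nat → Nat) (k :
    Nat → Nat → Nat → Nat → Nat → Nat → Nat → Nat → Nat → Nat → Nat → Nat → Nat → Nat → Nat → Nat →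
    Nat → Nat → Nat → Nat → Nat → Nat → Nat → Nat → Nat → Nat → Nat → Nat → Nat → Nat → Nat → Nat →
    Nat → Nat → Nat → Nat → Nat → Nat → Nat → Nat → Nat → Nat → Nat → Nat → Nat → Nat → Nat → Nat →
    Nat → Nat → Nat → Nat → Nat → Nat → Nat → Nat → Nat → Nat → Nat → Nat → Nat → Nat → Nat → Nat →
    Nat → Nat → Nat → Nat → Nat → Nat → Nat → Nat → Nat → Nat → Nat → Nat → Nat → Nat → Nat → Nat →
    Nat → Nat → Nat → Nat → Nat → Nat → Nat → Nat → Nat → Nat → Nat → Nat → Nat → Nat → Nat → Nat →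
    Nat → Nat → Nat → Nat → Nat → Nat → Nat → Nat → Nat → Nat → Nat → Nat → Nat → Nat → Nat → Nat →
    Nat → Nat → Nat → Nat → Nat → Nat → Nat → Nat → Nat → Nat → Nat → Nat → Nat → Nat → Nat → Nat →
    Nat → Nat → Nat → Nat → Nat → Nat → Nat → Nat → Nat → Nat → Nat → Nat → Nat → Nat → Nat → Nat →
    Nat → Nat → Nat → Nat → Nat → Nat → Nat → Nat → Nat → Nat → Nat → Nat → Nat → Nat → Nat → Nat →
    Nat → Nat → Nat → Nat → Nat → Nat → Nat → Nat → Nat → Nat → Nat → Nat → Nat → Nat → Nat → Nat →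
    Nat → Nat → Nat → Nat → Nat → Nat → Nat → Nat → Nat → Nat → Nat → Nat → Nat → Nat → Nat → Nat →
    Nat → Nat → Nat → Nat → Nat → Nat → Nat → Nat → Nat → Nat → Nat → Nat → Nat → Nat → Nat → Nat →
    Nat → Nat → Nat → Nat → Nat → Nat → Nat → Nat → Nat → Nat → Nat → Nat → Nat → Nat → Nat → Nat →
    Nat → Nat → Nat → Nat → Nat → Nat → Nat → Nat → Nat → Nat → Nat → Nat → Nat → Nat → Nat → Nat →
    Nat → Nat → Nat → Nat → Nat → Nat → Nat → Nat → Nat → Nat → Nat → Nat → Nat → Nat → Nat → Nat →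
    Nat → Nat → Nat → Nat → Nat → Nat → Nat → Nat → Nat → Nat → Nat → Nat → Nat → Nat → Nat → Nat →
    Nat → Nat → Nat → Nat → Nat → Nat → Nat → Nat → Nat → Nat → Nat → Nat → Nat → Nat → Nat → Nat →
    Nat → Nat → Nat → Nat → Nat → Nat → Nat → Nat → Nat → Nat → Nat → Nat → Nat → Nat → Nat → Nat →
    Nat → Nat → Nat → Nat → Nat → Nat → Nat → Nat → Nat → Nat → Nat → Nat → Nat → Nat → Nat → Nat →
    Nat → Nat → Nat → Nat → Nat → Nat → Nat → Nat → Nat → Nat → Nat → Nat → Nat → Nat → Nat → Nat →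
    Nat → Nat → Nat → Nat → Nat → Nat → Nat → Nat → Nat → Nat → Nat → Nat → Nat → Nat → Nat → Nat →
    Nat → Nat → Nat → Nat → Nat → Bool) : Bool :=
  k
    (x (nat_lit 26)) (x (nat_lit 44)) (x (nat_lit 50)) (x (nat_lit 52)) (x (nat_lit 62))
    (x (nat_lit 68)) (x (nat_lit 70)) (x (nat_lit 74)) (x (nat_lit 76)) (x (nat_lit 78))
    (x (nat_lit 98)) (x (nat_lit 104)) (x (nat_lit 106)) (x (nat_lit 116)) (x (nat_lit 122))
    (x (nat_lit 124)) (x (nat_lit 128)) (x (nat_lit 130)) (x (nat_lit 132)) (x (nat_lit 140))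
    (x (nat_lit 142)) (x (nat_lit 146)) (x (nat_lit 148)) (x (nat_lit 150)) (x (nat_lit 154))
    (x (nat_lit 156)) (x (nat_lit 170)) (x (nat_lit 176)) (x (nat_lit 178)) (x (nat_lit 182))
    (x (nat_lit 184)) (x (nat_lit 186)) (x (nat_lit 194)) (x (nat_lit 196)) (x (nat_lit 200))
    (x (nat_lit 202)) (x (nat_lit 204)) (x (nat_lit 208)) (x (nat_lit 210)) (x (nat_lit 218))
    (x (nat_lit 220)) (x (nat_lit 222)) (x (nat_lit 226)) (x (nat_lit 228)) (x (nat_lit 234))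
    (x (nat_lit 260)) (x (nat_lit 266)) (x (nat_lit 268)) (x (nat_lit 278)) (x (nat_lit 284))
    (x (nat_lit 286)) (x (nat_lit 290)) (x (nat_lit 292)) (x (nat_lit 294)) (x (nat_lit 302))
    (x (nat_lit 304)) (x (nat_lit 308)) (x (nat_lit 310)) (x (nat_lit 312)) (x (nat_lit 316))
    (x (nat_lit 318)) (x (nat_lit 332)) (x (nat_lit 338)) (x (nat_lit 340)) (x (nat_lit 344))
    (x (nat_lit 346)) (x (nat_lit 348)) (x (nat_lit 356)) (x (nat_lit 358)) (x (nat_lit 362))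
    (x (nat_lit 364)) (x (nat_lit 366)) (x (nat_lit 370)) (x (nat_lit 372)) (x (nat_lit 380))
    (x (nat_lit 382)) (x (nat_lit 384)) (x (nat_lit 388)) (x (nat_lit 390)) (x (nat_lit 396))
    (x (nat_lit 410)) (x (nat_lit 412)) (x (nat_lit 416)) (x (nat_lit 418)) (x (nat_lit 420))
    (x (nat_lit 424)) (x (nat_lit 426)) (x (nat_lit 434)) (x (nat_lit 436)) (x (nat_lit 438))
    (x (nat_lit 442)) (x (nat_lit 444)) (x (nat_lit 450)) (x (nat_lit 460)) (x (nat_lit 462))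
    (x (nat_lit 468)) (x (nat_lit 494)) (x (nat_lit 500)) (x (nat_lit 502)) (x (nat_lit 506))
    (x (nat_lit 508)) (x (nat_lit 510)) (x (nat_lit 518)) (x (nat_lit 520)) (x (nat_lit 524))
    (x (nat_lit 526)) (x (nat_lit 528)) (x (nat_lit 532)) (x (nat_lit 534)) (x (nat_lit 542))
    (x (nat_lit 544)) (x (nat_lit 546)) (x (nat_lit 550)) (x (nat_lit 552)) (x (nat_lit 558))
    (x (nat_lit 572)) (x (nat_lit 574)) (x (nat_lit 578)) (x (nat_lit 580)) (x (nat_lit 582))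
    (x (nat_lit 586)) (x (nat_lit 588)) (x (nat_lit 596)) (x (nat_lit 598)) (x (nat_lit 600))
    (x (nat_lit 604)) (x (nat_lit 606)) (x (nat_lit 612)) (x (nat_lit 622)) (x (nat_lit 624))
    (x (nat_lit 630)) (x (nat_lit 650)) (x (nat_lit 652)) (x (nat_lit 654)) (x (nat_lit 658))
    (x (nat_lit 660)) (x (nat_lit 666)) (x (nat_lit 676)) (x (nat_lit 678)) (x (nat_lit 684))
    (x (nat_lit 702)) (x (nat_lit 746)) (x (nat_lit 752)) (x (nat_lit 754)) (x (nat_lit 764))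
    (x (nat_lit 770)) (x (nat_lit 772)) (x (nat_lit 776)) (x (nat_lit 778)) (x (nat_lit 780))
    (x (nat_lit 788)) (x (nat_lit 790)) (x (nat_lit 794)) (x (nat_lit 796)) (x (nat_lit 798))
    (x (nat_lit 802)) (x (nat_lit 804)) (x (nat_lit 818)) (x (nat_lit 824)) (x (nat_lit 826))
    (x (nat_lit 830)) (x (nat_lit 832)) (x (nat_lit 834)) (x (nat_lit 842)) (x (nat_lit 844))
    (x (nat_lit 848)) (x (nat_lit 850)) (x (nat_lit 852)) (x (nat_lit 856)) (x (nat_lit 858))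
    (x (nat_lit 866)) (x (nat_lit 868)) (x (nat_lit 870)) (x (nat_lit 874)) (x (nat_lit 876))
    (x (nat_lit 882)) (x (nat_lit 896)) (x (nat_lit 898)) (x (nat_lit 902)) (x (nat_lit 904))
    (x (nat_lit 906)) (x (nat_lit 910)) (x (nat_lit 912)) (x (nat_lit 920)) (x (nat_lit 922))
    (x (nat_lit 924)) (x (nat_lit 928)) (x (nat_lit 930)) (x (nat_lit 936)) (x (nat_lit 946))
    (x (nat_lit 948)) (x (nat_lit 954)) (x (nat_lit 980)) (x (nat_lit 986)) (x (nat_lit 988))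
    (x (nat_lit 992)) (x (nat_lit 994)) (x (nat_lit 996)) (x (nat_lit 1004)) (x (nat_lit 1006))
    (x (nat_lit 1010)) (x (nat_lit 1012)) (x (nat_lit 1014)) (x (nat_lit 1018)) (x (nat_lit 1020))
    (x (nat_lit 1028)) (x (nat_lit 1030)) (x (nat_lit 1032)) (x (nat_lit 1036)) (x (nat_lit 1038))
    (x (nat_lit 1044)) (x (nat_lit 1058)) (x (nat_lit 1060)) (x (nat_lit 1064)) (x (nat_lit 1066))
    (x (nat_lit 1068)) (x (nat_lit 1072)) (x (nat_lit 1074)) (x (nat_lit 1082)) (x (nat_lit 1084))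
    (x (nat_lit 1086)) (x (nat_lit 1090)) (x (nat_lit 1092)) (x (nat_lit 1098)) (x (nat_lit 1108))
    (x (nat_lit 1110)) (x (nat_lit 1116)) (x (nat_lit 1136)) (x (nat_lit 1138)) (x (nat_lit 1140))
    (x (nat_lit 1144)) (x (nat_lit 1146)) (x (nat_lit 1152)) (x (nat_lit 1162)) (x (nat_lit 1164))
    (x (nat_lit 1170)) (x (nat_lit 1188)) (x (nat_lit 1220)) (x (nat_lit 1222)) (x (nat_lit 1226))
    (x (nat_lit 1228)) (x (nat_lit 1230)) (x (nat_lit 1234)) (x (nat_lit 1236)) (x (nat_lit 1244))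
    (x (nat_lit 1246)) (x (nat_lit 1248)) (x (nat_lit 1252)) (x (nat_lit 1254)) (x (nat_lit 1260))
    (x (nat_lit 1270)) (x (nat_lit 1272)) (x (nat_lit 1278)) (x (nat_lit 1298)) (x (nat_lit 1300))
    (x (nat_lit 1302)) (x (nat_lit 1306)) (x (nat_lit 1308)) (x (nat_lit 1314)) (x (nat_lit 1324))
    (x (nat_lit 1326)) (x (nat_lit 1332)) (x (nat_lit 1350)) (x (nat_lit 1378)) (x (nat_lit 1380))
    (x (nat_lit 1386)) (x (nat_lit 1404)) (x (nat_lit 1466)) (x (nat_lit 1472)) (x (nat_lit 1474))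
    (x (nat_lit 1478)) (x (nat_lit 1480)) (x (nat_lit 1482)) (x (nat_lit 1490)) (x (nat_lit 1492))
    (x (nat_lit 1496)) (x (nat_lit 1498)) (x (nat_lit 1500)) (x (nat_lit 1504)) (x (nat_lit 1506))
    (x (nat_lit 1514)) (x (nat_lit 1516)) (x (nat_lit 1518)) (x (nat_lit 1522)) (x (nat_lit 1524))
    (x (nat_lit 1530)) (x (nat_lit 1544)) (x (nat_lit 1546)) (x (nat_lit 1550)) (x (nat_lit 1552))
    (x (nat_lit 1554)) (x (nat_lit 1558)) (x (nat_lit 1560)) (x (nat_lit 1568)) (x (nat_lit 1570))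
    (x (nat_lit 1572)) (x (nat_lit 1576)) (x (nat_lit 1578)) (x (nat_lit 1584)) (x (nat_lit 1594))
    (x (nat_lit 1596)) (x (nat_lit 1602)) (x (nat_lit 1622)) (x (nat_lit 1624)) (x (nat_lit 1626))
    (x (nat_lit 1630)) (x (nat_lit 1632)) (x (nat_lit 1638)) (x (nat_lit 1648)) (x (nat_lit 1650))
    (x (nat_lit 1656)) (x (nat_lit 1674)) (x (nat_lit 1706)) (x (nat_lit 1708)) (x (nat_lit 1712))
    (x (nat_lit 1714)) (x (nat_lit 1716)) (x (nat_lit 1720)) (x (nat_lit 1722)) (x (nat_lit 1730))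
    (x (nat_lit 1732)) (x (nat_lit 1734)) (x (nat_lit 1738)) (x (nat_lit 1740)) (x (nat_lit 1746))
    (x (nat_lit 1756)) (x (nat_lit 1758)) (x (nat_lit 1764)) (x (nat_lit 1784)) (x (nat_lit 1786))
    (x (nat_lit 1788)) (x (nat_lit 1792)) (x (nat_lit 1794)) (x (nat_lit 1800)) (x (nat_lit 1810))
    (x (nat_lit 1812)) (x (nat_lit 1818)) (x (nat_lit 1836)) (x (nat_lit 1864)) (x (nat_lit 1866))
    (x (nat_lit 1872)) (x (nat_lit 1890)) (x (nat_lit 1946)) (x (nat_lit 1948)) (x (nat_lit 1950))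
    (x (nat_lit 1954)) (x (nat_lit 1956)) (x (nat_lit 1962)) (x (nat_lit 1972)) (x (nat_lit 1974))
    (x (nat_lit 1980)) (x (nat_lit 1998)) (x (nat_lit 2026)) (x (nat_lit 2028)) (x (nat_lit 2034))
    (x (nat_lit 2052)) (x (nat_lit 2106))

theorem ap_eq (x : Nat → Nat) (k : FnLL cds) : apLL (fun t => x t.cd) cds k = ap x k :=
  Eq.refl (ap x k)

theorem codes_ok : beqL (codes cds) (secL 7 6 0 []) = true := by decide +kernel

noncomputable def fin (f : Nat → Nat) (v1 : Nat) (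
    x26 x44 x50 x52 x62 x68 x70 x74 x76 x78 x98 x104 x106 x116 x122 x124 x128 x130 x132 x140 x142
    x146 x148 x150 x154 x156 x170 x176 x178 x182 x184 x186 x194 x196 x200 x202 x204 x208 x210 x218
    x220 x222 x226 x228 x234 x260 x266 x268 x278 x284 x286 x290 x292 x294 x302 x304 x308 x310 x312
    x316 x318 x332 x338 x340 x344 x346 x348 x356 x358 x362 x364 x366 x370 x372 x380 x382 x384 x388
    x390 x396 x410 x412 x416 x418 x420 x424 x426 x434 x436 x438 x442 x444 x450 x460 x462 x468 x494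
    x500 x502 x506 x508 x510 x518 x520 x524 x526 x528 x532 x534 x542 x544 x546 x550 x552 x558 x572
    x574 x578 x580 x582 x586 x588 x596 x598 x600 x604 x606 x612 x622 x624 x630 x650 x652 x654 x658
    x660 x666 x676 x678 x684 x702 x746 x752 x754 x764 x770 x772 x776 x778 x780 x788 x790 x794 x796
    x798 x802 x804 x818 x824 x826 x830 x832 x834 x842 x844 x848 x850 x852 x856 x858 x866 x868 x870
    x874 x876 x882 x896 x898 x902 x904 x906 x910 x912 x920 x922 x924 x928 x930 x936 x946 x948 x954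
    x980 x986 x988 x992 x994 x996 x1004 x1006 x1010 x1012 x1014 x1018 x1020 x1028 x1030 x1032 x1036
    x1038 x1044 x1058 x1060 x1064 x1066 x1068 x1072 x1074 x1082 x1084 x1086 x1090 x1092 x1098 x1108
    x1110 x1116 x1136 x1138 x1140 x1144 x1146 x1152 x1162 x1164 x1170 x1188 x1220 x1222 x1226 x1228
    x1230 x1234 x1236 x1244 x1246 x1248 x1252 x1254 x1260 x1270 x1272 x1278 x1298 x1300 x1302 x1306
    x1308 x1314 x1324 x1326 x1332 x1350 x1378 x1380 x1386 x1404 x1466 x1472 x1474 x1478 x1480 x1482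
    x1490 x1492 x1496 x1498 x1500 x1504 x1506 x1514 x1516 x1518 x1522 x1524 x1530 x1544 x1546 x1550
    x1552 x1554 x1558 x1560 x1568 x1570 x1572 x1576 x1578 x1584 x1594 x1596 x1602 x1622 x1624 x1626
    x1630 x1632 x1638 x1648 x1650 x1656 x1674 x1706 x1708 x1712 x1714 x1716 x1720 x1722 x1730 x1732
    x1734 x1738 x1740 x1746 x1756 x1758 x1764 x1784 x1786 x1788 x1792 x1794 x1800 x1810 x1812 x1818
    x1836 x1864 x1866 x1872 x1890 x1946 x1948 x1950 x1954 x1956 x1962 x1972 x1974 x1980 x1998 x2026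
    x2028 x2034 x2052 x2106 : Nat) : Bool :=
  Nat.beq
    (Nat.add (Nat.add (f x26) (Nat.add (f x44) (Nat.add (f x50) (Nat.add (f x52) (Nat.add (f x62)
    (Nat.add (f x68) (Nat.add (f x70) (Nat.add (f x74) (Nat.add (f x76) (Nat.add (f x78) (Nat.add
    (f x98) (Nat.add (f x104) (Nat.add (f x106) (Nat.add (f x116) (Nat.add (f x122) (Nat.add
    (f x124) (Nat.add (f x128) (Nat.add (f x130) (Nat.add (f x132) (Nat.add (f x140) (Nat.add
    (f x142) (Nat.add (f x146) (Nat.add (f x148) (Nat.add (f x150) (Nat.add (f x154) (Nat.add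
    (f x156) (Nat.add (f x170) (Nat.add (f x176) (Nat.add (f x178) (Nat.add (f x182) (Nat.add
    (f x184) (Nat.add (f x186) (Nat.add (f x194) (Nat.add (f x196) (Nat.add (f x200) (Nat.add
    (f x202) (Nat.add (f x204) (Nat.add (f x208) (Nat.add (f x210) (Nat.add (f x218) (Nat.add
    (f x220) (Nat.add (f x222) (Nat.add (f x226) (Nat.add (f x228) (Nat.add (f x234) (Nat.add
    (f x260) (Nat.add (f x266) (Nat.add (f x268) (Nat.add (f x278) (Nat.add (f x284) (Nat.add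
    (f x286) (Nat.add (f x290) (Nat.add (f x292) (Nat.add (f x294) (Nat.add (f x302) (Nat.add
    (f x304) (Nat.add (f x308) (Nat.add (f x310) (Nat.add (f x312) (Nat.add (f x316)
    0)))))))))))))))))))))))))))))))))))))))))))))))))))))))))))) (Nat.add (Nat.add (f x318)
    (Nat.add (f x332) (Nat.add (f x338) (Nat.add (f x340) (Nat.add (f x344) (Nat.add (f x346)
    (Nat.add (f x348) (Nat.add (f x356) (Nat.add (f x358) (Nat.add (f x362) (Nat.add (f x364)
    (Nat.add (f x366) (Nat.add (f x370) (Nat.add (f x372) (Nat.add (f x380) (Nat.add (f x382)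
    (Nat.add (f x384) (Nat.add (f x388) (Nat.add (f x390) (Nat.add (f x396) (Nat.add (f x410)
    (Nat.add (f x412) (Nat.add (f x416) (Nat.add (f x418) (Nat.add (f x420) (Nat.add (f x424)
    (Nat.add (f x426) (Nat.add (f x434) (Nat.add (f x436) (Nat.add (f x438) (Nat.add (f x442)
    (Nat.add (f x444) (Nat.add (f x450) (Nat.add (f x460) (Nat.add (f x462) (Nat.add (f x468)
    (Nat.add (f x494) (Nat.add (f x500) (Nat.add (f x502) (Nat.add (f x506) (Nat.add (f x508)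
    (Nat.add (f x510) (Nat.add (f x518) (Nat.add (f x520) (Nat.add (f x524) (Nat.add (f x526)
    (Nat.add (f x528) (Nat.add (f x532) (Nat.add (f x534) (Nat.add (f x542) (Nat.add (f x544)
    (Nat.add (f x546) (Nat.add (f x550) (Nat.add (f x552) (Nat.add (f x558) (Nat.add (f x572)
    (Nat.add (f x574) (Nat.add (f x578) (Nat.add (f x580) (Nat.add (f x582)
    0)))))))))))))))))))))))))))))))))))))))))))))))))))))))))))) (Nat.add (Nat.add (f x586)
    (Nat.add (f x588) (Nat.add (f x596) (Nat.add (f x598) (Nat.add (f x600) (Nat.add (f x604)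
    (Nat.add (f x606) (Nat.add (f x612) (Nat.add (f x622) (Nat.add (f x624) (Nat.add (f x630)
    (Nat.add (f x650) (Nat.add (f x652) (Nat.add (f x654) (Nat.add (f x658) (Nat.add (f x660)
    (Nat.add (f x666) (Nat.add (f x676) (Nat.add (f x678) (Nat.add (f x684) (Nat.add (f x702)
    (Nat.add (f x746) (Nat.add (f x752) (Nat.add (f x754) (Nat.add (f x764) (Nat.add (f x770)
    (Nat.add (f x772) (Nat.add (f x776) (Nat.add (f x778) (Nat.add (f x780) (Nat.add (f x788)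
    (Nat.add (f x790) (Nat.add (f x794) (Nat.add (f x796) (Nat.add (f x798) (Nat.add (f x802)
    (Nat.add (f x804) (Nat.add (f x818) (Nat.add (f x824) (Nat.add (f x826) (Nat.add (f x830)
    (Nat.add (f x832) (Nat.add (f x834) (Nat.add (f x842) (Nat.add (f x844) (Nat.add (f x848)
    (Nat.add (f x850) (Nat.add (f x852) (Nat.add (f x856) (Nat.add (f x858) (Nat.add (f x866)
    (Nat.add (f x868) (Nat.add (f x870) (Nat.add (f x874) (Nat.add (f x876) (Nat.add (f x882)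
    (Nat.add (f x896) (Nat.add (f x898) (Nat.add (f x902) (Nat.add (f x904)
    0)))))))))))))))))))))))))))))))))))))))))))))))))))))))))))) (Nat.add (Nat.add (f x906)
    (Nat.add (f x910) (Nat.add (f x912) (Nat.add (f x920) (Nat.add (f x922) (Nat.add (f x924)
    (Nat.add (f x928) (Nat.add (f x930) (Nat.add (f x936) (Nat.add (f x946) (Nat.add (f x948)
    (Nat.add (f x954) (Nat.add (f x980) (Nat.add (f x986) (Nat.add (f x988) (Nat.add (f x992)
    (Nat.add (f x994) (Nat.add (f x996) (Nat.add (f x1004) (Nat.add (f x1006) (Nat.add (f x1010)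
    (Nat.add (f x1012) (Nat.add (f x1014) (Nat.add (f x1018) (Nat.add (f x1020) (Nat.add (f x1028)
    (Nat.add (f x1030) (Nat.add (f x1032) (Nat.add (f x1036) (Nat.add (f x1038) (Nat.add (f x1044)
    (Nat.add (f x1058) (Nat.add (f x1060) (Nat.add (f x1064) (Nat.add (f x1066) (Nat.add (f x1068)
    (Nat.add (f x1072) (Nat.add (f x1074) (Nat.add (f x1082) (Nat.add (f x1084) (Nat.add (f x1086)
    (Nat.add (f x1090) (Nat.add (f x1092) (Nat.add (f x1098) (Nat.add (f x1108) (Nat.add (f x1110)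
    (Nat.add (f x1116) (Nat.add (f x1136) (Nat.add (f x1138) (Nat.add (f x1140) (Nat.add (f x1144)
    (Nat.add (f x1146) (Nat.add (f x1152) (Nat.add (f x1162) (Nat.add (f x1164) (Nat.add (f x1170)
    (Nat.add (f x1188) (Nat.add (f x1220) (Nat.add (f x1222) (Nat.add (f x1226)
    0)))))))))))))))))))))))))))))))))))))))))))))))))))))))))))) (Nat.add (Nat.add (f x1228)
    (Nat.add (f x1230) (Nat.add (f x1234) (Nat.add (f x1236) (Nat.add (f x1244) (Nat.add (f x1246)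
    (Nat.add (f x1248) (Nat.add (f x1252) (Nat.add (f x1254) (Nat.add (f x1260) (Nat.add (f x1270)
    (Nat.add (f x1272) (Nat.add (f x1278) (Nat.add (f x1298) (Nat.add (f x1300) (Nat.add (f x1302)
    (Nat.add (f x1306) (Nat.add (f x1308) (Nat.add (f x1314) (Nat.add (f x1324) (Nat.add (f x1326)
    (Nat.add (f x1332) (Nat.add (f x1350) (Nat.add (f x1378) (Nat.add (f x1380) (Nat.add (f x1386)
    (Nat.add (f x1404) (Nat.add (f x1466) (Nat.add (f x1472) (Nat.add (f x1474) (Nat.add (f x1478)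
    (Nat.add (f x1480) (Nat.add (f x1482) (Nat.add (f x1490) (Nat.add (f x1492) (Nat.add (f x1496)
    (Nat.add (f x1498) (Nat.add (f x1500) (Nat.add (f x1504) (Nat.add (f x1506) (Nat.add (f x1514)
    (Nat.add (f x1516) (Nat.add (f x1518) (Nat.add (f x1522) (Nat.add (f x1524) (Nat.add (f x1530)
    (Nat.add (f x1544) (Nat.add (f x1546) (Nat.add (f x1550) (Nat.add (f x1552) (Nat.add (f x1554)
    (Nat.add (f x1558) (Nat.add (f x1560) (Nat.add (f x1568) (Nat.add (f x1570) (Nat.add (f x1572)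
    (Nat.add (f x1576) (Nat.add (f x1578) (Nat.add (f x1584) (Nat.add (f x1594)
    0)))))))))))))))))))))))))))))))))))))))))))))))))))))))))))) (Nat.add (Nat.add (f x1596)
    (Nat.add (f x1602) (Nat.add (f x1622) (Nat.add (f x1624) (Nat.add (f x1626) (Nat.add (f x1630)
    (Nat.add (f x1632) (Nat.add (f x1638) (Nat.add (f x1648) (Nat.add (f x1650) (Nat.add (f x1656)
    (Nat.add (f x1674) (Nat.add (f x1706) (Nat.add (f x1708) (Nat.add (f x1712) (Nat.add (f x1714)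
    (Nat.add (f x1716) (Nat.add (f x1720) (Nat.add (f x1722) (Nat.add (f x1730) (Nat.add (f x1732)
    (Nat.add (f x1734) (Nat.add (f x1738) (Nat.add (f x1740) (Nat.add (f x1746) (Nat.add (f x1756)
    (Nat.add (f x1758) (Nat.add (f x1764) (Nat.add (f x1784) (Nat.add (f x1786) (Nat.add (f x1788)
    (Nat.add (f x1792) (Nat.add (f x1794) (Nat.add (f x1800) (Nat.add (f x1810) (Nat.add (f x1812)
    (Nat.add (f x1818) (Nat.add (f x1836) (Nat.add (f x1864) (Nat.add (f x1866) (Nat.add (f x1872)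
    (Nat.add (f x1890) (Nat.add (f x1946) (Nat.add (f x1948) (Nat.add (f x1950) (Nat.add (f x1954)
    (Nat.add (f x1956) (Nat.add (f x1962) (Nat.add (f x1972) (Nat.add (f x1974) (Nat.add (f x1980)
    (Nat.add (f x1998) (Nat.add (f x2026) (Nat.add (f x2028) (Nat.add (f x2034) (Nat.add (f x2052)
    (Nat.add (f x2106) 0))))))))))))))))))))))))))))))))))))))))))))))))))))))))) 0)))))) v1

theorem fin_eq0 (f : Nat → Nat) (v1 : Nat) (x : Nat → Nat) :
    apLL (fun t => x t.cd) cds (fin f v1) = Nat.beq (sum2 (fun t => f (x t.cd)) cds) v1 :=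
  Eq.refl (apLL (fun t => x t.cd) cds (fin f v1))

theorem fin_eq (f : Nat → Nat) (v1 : Nat) (x : Nat → Nat) :
    ap x (fin f v1) = Nat.beq (sumL (fun s => f (x s)) (secL 7 6 0 [])) v1 :=
  ((ap_eq x (fin f v1)).symm.trans (fin_eq0 f v1 x)).trans
    (congrArg (fun z => Nat.beq z v1) (sum2_eq cds _ codes_ok (fun s => f (x s))))

def ch0 : List (Nat × Nat) :=
    [(26,14), (44,28), (50,28), (52,14), (62,28), (68,14), (98,28), (104,28), (106,28), (116,28),
    (122,28), (124,28), (128,28), (130,14), (140,28), (142,14), (146,28), (170,14), (176,28),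
    (182,14), (194,14), (278,14), (284,28), (286,28), (290,28), (302,28), (338,28), (340,14),
    (344,14), (356,28), (362,14), (364,14)]

def sqA0 (X M
    u0 u1 u2 u3 u4 u5 u6 u7 u8 u9 u10 u11 u12 u13 u14 u15 u16 u17 u18 u19 u20 u21 u22 u23 u24 u25
    u26 u27 u28 u29 u30 u31 : Nat) : Nat :=
    (Nat.add (Nat.mul (Nat.mul (Nat.land u0 M) (Nat.sub X (Nat.land u0 M))) 14)
    (Nat.add (Nat.mul (Nat.mul (Nat.land u1 M) (Nat.sub X (Nat.land u1 M))) 28)
    (Nat.add (Nat.mul (Nat.mul (Nat.land u2 M) (Nat.sub X (Nat.land u2 M))) 28)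
    (Nat.add (Nat.mul (Nat.mul (Nat.land u3 M) (Nat.sub X (Nat.land u3 M))) 14)
    (Nat.add (Nat.mul (Nat.mul (Nat.land u4 M) (Nat.sub X (Nat.land u4 M))) 28)
    (Nat.add (Nat.mul (Nat.mul (Nat.land u5 M) (Nat.sub X (Nat.land u5 M))) 14)
    (Nat.add (Nat.mul (Nat.mul (Nat.land u6 M) (Nat.sub X (Nat.land u6 M))) 28)
    (Nat.add (Nat.mul (Nat.mul (Nat.land u7 M) (Nat.sub X (Nat.land u7 M))) 28)
    (Nat.add (Nat.mul (Nat.mul (Nat.land u8 M) (Nat.sub X (Nat.land u8 M))) 28)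
    (Nat.add (Nat.mul (Nat.mul (Nat.land u9 M) (Nat.sub X (Nat.land u9 M))) 28)
    (Nat.add (Nat.mul (Nat.mul (Nat.land u10 M) (Nat.sub X (Nat.land u10 M))) 28)
    (Nat.add (Nat.mul (Nat.mul (Nat.land u11 M) (Nat.sub X (Nat.land u11 M))) 28)
    (Nat.add (Nat.mul (Nat.mul (Nat.land u12 M) (Nat.sub X (Nat.land u12 M))) 28)
    (Nat.add (Nat.mul (Nat.mul (Nat.land u13 M) (Nat.sub X (Nat.land u13 M))) 14)
    (Nat.add (Nat.mul (Nat.mul (Nat.land u14 M) (Nat.sub X (Nat.land u14 M))) 28)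
    (Nat.add (Nat.mul (Nat.mul (Nat.land u15 M) (Nat.sub X (Nat.land u15 M))) 14)
    (Nat.add (Nat.mul (Nat.mul (Nat.land u16 M) (Nat.sub X (Nat.land u16 M))) 28)
    (Nat.add (Nat.mul (Nat.mul (Nat.land u17 M) (Nat.sub X (Nat.land u17 M))) 14)
    (Nat.add (Nat.mul (Nat.mul (Nat.land u18 M) (Nat.sub X (Nat.land u18 M))) 28)
    (Nat.add (Nat.mul (Nat.mul (Nat.land u19 M) (Nat.sub X (Nat.land u19 M))) 14)
    (Nat.add (Nat.mul (Nat.mul (Nat.land u20 M) (Nat.sub X (Nat.land u20 M))) 14)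
    (Nat.add (Nat.mul (Nat.mul (Nat.land u21 M) (Nat.sub X (Nat.land u21 M))) 14)
    (Nat.add (Nat.mul (Nat.mul (Nat.land u22 M) (Nat.sub X (Nat.land u22 M))) 28)
    (Nat.add (Nat.mul (Nat.mul (Nat.land u23 M) (Nat.sub X (Nat.land u23 M))) 28)
    (Nat.add (Nat.mul (Nat.mul (Nat.land u24 M) (Nat.sub X (Nat.land u24 M))) 28)
    (Nat.add (Nat.mul (Nat.mul (Nat.land u25 M) (Nat.sub X (Nat.land u25 M))) 28)
    (Nat.add (Nat.mul (Nat.mul (Nat.land u26 M) (Nat.sub X (Nat.land u26 M))) 28)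
    (Nat.add (Nat.mul (Nat.mul (Nat.land u27 M) (Nat.sub X (Nat.land u27 M))) 14)
    (Nat.add (Nat.mul (Nat.mul (Nat.land u28 M) (Nat.sub X (Nat.land u28 M))) 14)
    (Nat.add (Nat.mul (Nat.mul (Nat.land u29 M) (Nat.sub X (Nat.land u29 M))) 28)
    (Nat.add (Nat.mul (Nat.mul (Nat.land u30 M) (Nat.sub X (Nat.land u30 M))) 14)
    (Nat.add (Nat.mul (Nat.mul (Nat.land u31 M) (Nat.sub X (Nat.land u31 M))) 14)
    0))))))))))))))))))))))))))))))))

def sqB0 (z0 z1 z2 z3 z4 z5 : Nat) : Nat :=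
  sqA0 (Nat.shiftLeft 1 122) (Nat.sub (Nat.shiftLeft 1 122) 1)
    z0
    (Nat.shiftRight z0 122)
    (Nat.shiftRight (Nat.shiftRight z0 122) 122)
    (Nat.shiftRight (Nat.shiftRight (Nat.shiftRight z0 122) 122) 122)
    (Nat.shiftRight (Nat.shiftRight (Nat.shiftRight (Nat.shiftRight z0 122) 122) 122) 122)
    (Nat.shiftRight (Nat.shiftRight (Nat.shiftRight (Nat.shiftRight (Nat.shiftRight z0 122) 122) 122) 122) 122)
    z1
    (Nat.shiftRight z1 122)
    (Nat.shiftRight (Nat.shiftRight z1 122) 122)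
    (Nat.shiftRight (Nat.shiftRight (Nat.shiftRight z1 122) 122) 122)
    (Nat.shiftRight (Nat.shiftRight (Nat.shiftRight (Nat.shiftRight z1 122) 122) 122) 122)
    (Nat.shiftRight (Nat.shiftRight (Nat.shiftRight (Nat.shiftRight (Nat.shiftRight z1 122) 122) 122) 122) 122)
    z2
    (Nat.shiftRight z2 122)
    (Nat.shiftRight (Nat.shiftRight z2 122) 122)
    (Nat.shiftRight (Nat.shiftRight (Nat.shiftRight z2 122) 122) 122)
    (Nat.shiftRight (Nat.shiftRight (Nat.shiftRight (Nat.shiftRight z2 122) 122) 122) 122)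
    (Nat.shiftRight (Nat.shiftRight (Nat.shiftRight (Nat.shiftRight (Nat.shiftRight z2 122) 122) 122) 122) 122)
    z3
    (Nat.shiftRight z3 122)
    (Nat.shiftRight (Nat.shiftRight z3 122) 122)
    (Nat.shiftRight (Nat.shiftRight (Nat.shiftRight z3 122) 122) 122)
    (Nat.shiftRight (Nat.shiftRight (Nat.shiftRight (Nat.shiftRight z3 122) 122) 122) 122)
    (Nat.shiftRight (Nat.shiftRight (Nat.shiftRight (Nat.shiftRight (Nat.shiftRight z3 122) 122) 122) 122) 122)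
    z4
    (Nat.shiftRight z4 122)
    (Nat.shiftRight (Nat.shiftRight z4 122) 122)
    (Nat.shiftRight (Nat.shiftRight (Nat.shiftRight z4 122) 122) 122)
    (Nat.shiftRight (Nat.shiftRight (Nat.shiftRight (Nat.shiftRight z4 122) 122) 122) 122)
    (Nat.shiftRight (Nat.shiftRight (Nat.shiftRight (Nat.shiftRight (Nat.shiftRight z4 122) 122) 122) 122) 122)
    z5
    (Nat.shiftRight z5 122)

def sqC0 (u : Nat) : Nat :=
  sqB0
    u
    (sh6 122 u)
    (sh6 122 (sh6 122 u))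
    (sh6 122 (sh6 122 (sh6 122 u)))
    (sh6 122 (sh6 122 (sh6 122 (sh6 122 u))))
    (sh6 122 (sh6 122 (sh6 122 (sh6 122 (sh6 122 u)))))

noncomputable def sq0 (v : Nat) : Nat := sqC0 (Nat.add v (offs 122 (Nat.shiftLeft 1 (Nat.sub 122 1)) ch0))

theorem sq_eq0 : sq0 = sqF 122 ch0 := Eq.refl sq0

theorem side_ok0 : sideOK 7 122 mask cf7 ch0 = true := by decide +kernel

theorem cover : beqP (repL 7 6) (ch0 ++ []) = true := by decide +kernel

theorem len_ok : (secL 7 6 0 []).length = 357 := by decide +kernel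

theorem wt_ok : (List.map Prod.snd (ch0 ++ [])).sum = 714 := by decide +kernel

end Vale.Agent.P348.A7_6

namespace Vale.Agent.P348.A7_7

def mask : Nat := nat_lit 106117072581983269474793080340567717078397956791542542949103099197485397871425144431292125650059067127332642679326932683398740043306522890399652721428129911889732527339112424467053626126286568209115915408672417004209948104243145789345186085503695854022872250966495737222656502292117951724737090435675965179867542209934152188297216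

def KK : Type :=
    Nat → Nat → Nat → Nat → Nat → Nat → Nat → Nat → Nat → Nat → Nat → Nat → Nat → Nat → Nat → Nat →
    Nat → Nat → Nat → Nat → Nat → Nat → Nat → Nat → Nat → Nat → Nat → Nat → Nat → Nat → Nat → Nat →
    Nat → Nat → Nat → Nat → Nat → Nat → Nat → Nat → Nat → Nat → Nat → Nat → Nat → Nat → Nat → Nat →
    Nat → Nat → Nat → Nat → Nat → Nat → Nat → Nat → Nat → Nat → Nat → Nat → Nat → Nat → Nat → Nat →
    Nat → Nat → Nat → Nat → Nat → Nat → Nat → Nat → Nat → Nat → Nat → Nat → Nat → Nat → Nat → Nat →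
    Nat → Nat → Nat → Nat → Nat → Nat → Nat → Nat → Nat → Nat → Nat → Nat → Nat → Nat → Nat → Nat →
    Nat → Nat → Nat → Nat → Nat → Nat → Nat → Nat → Nat → Nat → Nat → Nat → Nat → Nat → Nat → Nat →
    Nat → Nat → Nat → Nat → Nat → Nat → Nat → Nat → Nat → Nat → Nat → Nat → Nat → Nat → Nat → Nat →
    Nat → Nat → Nat → Nat → Nat → Nat → Nat → Nat → Nat → Nat → Nat → Nat → Nat → Nat → Nat → Nat →
    Nat → Nat → Nat → Nat → Nat → Nat → Nat → Nat → Nat → Nat → Nat → Nat → Nat → Nat → Nat → Nat →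
    Nat → Nat → Nat → Nat → Nat → Nat → Nat → Nat → Nat → Nat → Nat → Nat → Nat → Nat → Nat → Nat →
    Nat → Nat → Nat → Nat → Nat → Nat → Nat → Nat → Nat → Nat → Nat → Nat → Nat → Nat → Nat → Nat →
    Nat → Nat → Nat → Nat → Nat → Nat → Nat → Nat → Nat → Nat → Nat → Nat → Nat → Nat → Nat → Nat →
    Nat → Nat → Nat → Nat → Nat → Nat → Nat → Nat → Nat → Nat → Nat → Nat → Nat → Nat → Nat → Nat →
    Nat → Nat → Nat → Nat → Nat → Nat → Nat → Nat → Nat → Nat → Nat → Nat → Nat → Nat → Nat → Nat →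
    Nat → Nat → Nat → Nat → Nat → Nat → Nat → Nat → Nat → Nat → Nat → Nat → Nat → Nat → Nat → Nat →
    Nat → Nat → Nat → Nat → Nat → Nat → Nat → Nat → Nat → Nat → Nat → Nat → Nat → Nat → Nat → Nat →
    Nat → Nat → Nat → Nat → Nat → Nat → Nat → Nat → Nat → Nat → Nat → Nat → Nat → Nat → Nat → Nat →
    Nat → Nat → Nat → Nat → Nat → Nat → Nat → Nat → Nat → Nat → Nat → Nat → Nat → Nat → Nat → Nat →
    Nat → Nat → Nat → Nat → Nat → Nat → Nat → Nat → Nat → Nat → Nat → Nat → Nat → Nat → Nat → Nat →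
    Nat → Nat → Nat → Nat → Nat → Nat → Nat → Nat → Nat → Nat → Nat → Nat → Nat → Nat → Nat → Nat →
    Nat → Nat → Nat → Nat → Nat → Nat → Nat → Nat → Nat → Nat → Nat → Nat → Nat → Nat → Nat → Nat →
    Nat → Nat → Nat → Nat → Nat → Nat → Nat → Nat → Nat → Nat → Nat → Nat → Nat → Nat → Nat → Nat →
    Nat → Nat → Nat → Nat → Nat → Nat → Nat → Nat → Nat → Nat → Nat → Nat → Nat → Nat → Nat → Nat →
    Nat → Nat → Nat → Nat → Nat → Nat → Nat → Nat → Nat → Bool

noncomputable def cd0 : List Spec :=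
  [Spec.mk (nat_lit 53) (nat_lit 0) [] (nat_lit 0) [] false,
   Spec.mk (nat_lit 71) (nat_lit 0) [] (nat_lit 0) [] false,
   Spec.mk (nat_lit 77) (nat_lit 0) [] (nat_lit 0) [] false,
   Spec.mk (nat_lit 79) (nat_lit 0) [] (nat_lit 0) [] false,
   Spec.mk (nat_lit 107) (nat_lit 0) [] (nat_lit 0) [] false,
   Spec.mk (nat_lit 125) (nat_lit 0) [] (nat_lit 0) [] false,
   Spec.mk (nat_lit 131) (nat_lit 0) [] (nat_lit 0) [] false,
   Spec.mk (nat_lit 133) (nat_lit 0) [] (nat_lit 0) [] false,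
   Spec.mk (nat_lit 143) (nat_lit 0) [] (nat_lit 0) [] false,
   Spec.mk (nat_lit 149) (nat_lit 0) [] (nat_lit 0) [] false,
   Spec.mk (nat_lit 151) (nat_lit 0) [] (nat_lit 0) [] false,
   Spec.mk (nat_lit 155) (nat_lit 0) [] (nat_lit 0) [] false,
   Spec.mk (nat_lit 157) (nat_lit 0) [] (nat_lit 0) [] false,
   Spec.mk (nat_lit 159) (nat_lit 0) [] (nat_lit 0) [] false,
   Spec.mk (nat_lit 179) (nat_lit 0) [] (nat_lit 0) [] false,
   Spec.mk (nat_lit 185) (nat_lit 0) [] (nat_lit 0) [] false,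
   Spec.mk (nat_lit 187) (nat_lit 0) [] (nat_lit 0) [] false,
   Spec.mk (nat_lit 197) (nat_lit 0) [] (nat_lit 0) [] false,
   Spec.mk (nat_lit 203) (nat_lit 0) [] (nat_lit 0) [] false,
   Spec.mk (nat_lit 205) (nat_lit 0) [] (nat_lit 0) [] false,
   Spec.mk (nat_lit 209) (nat_lit 0) [] (nat_lit 0) [] false,
   Spec.mk (nat_lit 211) (nat_lit 0) [] (nat_lit 0) [] false,
   Spec.mk (nat_lit 213) (nat_lit 0) [] (nat_lit 0) [] false,
   Spec.mk (nat_lit 221) (nat_lit 0) [] (nat_lit 0) [] false,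
   Spec.mk (nat_lit 223) (nat_lit 0) [] (nat_lit 0) [] false,
   Spec.mk (nat_lit 227) (nat_lit 0) [] (nat_lit 0) [] false,
   Spec.mk (nat_lit 229) (nat_lit 0) [] (nat_lit 0) [] false,
   Spec.mk (nat_lit 231) (nat_lit 0) [] (nat_lit 0) [] false,
   Spec.mk (nat_lit 235) (nat_lit 0) [] (nat_lit 0) [] false,
   Spec.mk (nat_lit 237) (nat_lit 0) [] (nat_lit 0) [] false,
   Spec.mk (nat_lit 269) (nat_lit 0) [] (nat_lit 0) [] false,
   Spec.mk (nat_lit 287) (nat_lit 0) [] (nat_lit 0) [] false,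
   Spec.mk (nat_lit 293) (nat_lit 0) [] (nat_lit 0) [] false,
   Spec.mk (nat_lit 295) (nat_lit 0) [] (nat_lit 0) [] false,
   Spec.mk (nat_lit 305) (nat_lit 0) [] (nat_lit 0) [] false,
   Spec.mk (nat_lit 311) (nat_lit 0) [] (nat_lit 0) [] false,
   Spec.mk (nat_lit 313) (nat_lit 0) [] (nat_lit 0) [] false,
   Spec.mk (nat_lit 317) (nat_lit 0) [] (nat_lit 0) [] false,
   Spec.mk (nat_lit 319) (nat_lit 0) [] (nat_lit 0) [] false,
   Spec.mk (nat_lit 321) (nat_lit 0) [] (nat_lit 0) [] false,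
   Spec.mk (nat_lit 341) (nat_lit 0) [] (nat_lit 0) [] false,
   Spec.mk (nat_lit 347) (nat_lit 0) [] (nat_lit 0) [] false,
   Spec.mk (nat_lit 349) (nat_lit 0) [] (nat_lit 0) [] false,
   Spec.mk (nat_lit 359) (nat_lit 0) [] (nat_lit 0) [] false,
   Spec.mk (nat_lit 365) (nat_lit 0) [] (nat_lit 0) [] false,
   Spec.mk (nat_lit 367) (nat_lit 0) [] (nat_lit 0) [] false,
   Spec.mk (nat_lit 371) (nat_lit 0) [] (nat_lit 0) [] false,
   Spec.mk (nat_lit 373) (nat_lit 0) [] (nat_lit 0) [] false,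
   Spec.mk (nat_lit 375) (nat_lit 0) [] (nat_lit 0) [] false,
   Spec.mk (nat_lit 383) (nat_lit 0) [] (nat_lit 0) [] false,
   Spec.mk (nat_lit 385) (nat_lit 0) [] (nat_lit 0) [] false,
   Spec.mk (nat_lit 389) (nat_lit 0) [] (nat_lit 0) [] false,
   Spec.mk (nat_lit 391) (nat_lit 0) [] (nat_lit 0) [] false,
   Spec.mk (nat_lit 393) (nat_lit 0) [] (nat_lit 0) [] false,
   Spec.mk (nat_lit 397) (nat_lit 0) [] (nat_lit 0) [] false,
   Spec.mk (nat_lit 399) (nat_lit 0) [] (nat_lit 0) [] false,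
   Spec.mk (nat_lit 413) (nat_lit 0) [] (nat_lit 0) [] false,
   Spec.mk (nat_lit 419) (nat_lit 0) [] (nat_lit 0) [] false,
   Spec.mk (nat_lit 421) (nat_lit 0) [] (nat_lit 0) [] false,
   Spec.mk (nat_lit 425) (nat_lit 0) [] (nat_lit 0) [] false]

noncomputable def cd1 : List Spec :=
  [Spec.mk (nat_lit 427) (nat_lit 0) [] (nat_lit 0) [] false,
   Spec.mk (nat_lit 429) (nat_lit 0) [] (nat_lit 0) [] false,
   Spec.mk (nat_lit 437) (nat_lit 0) [] (nat_lit 0) [] false,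
   Spec.mk (nat_lit 439) (nat_lit 0) [] (nat_lit 0) [] false,
   Spec.mk (nat_lit 443) (nat_lit 0) [] (nat_lit 0) [] false,
   Spec.mk (nat_lit 445) (nat_lit 0) [] (nat_lit 0) [] false,
   Spec.mk (nat_lit 447) (nat_lit 0) [] (nat_lit 0) [] false,
   Spec.mk (nat_lit 451) (nat_lit 0) [] (nat_lit 0) [] false,
   Spec.mk (nat_lit 453) (nat_lit 0) [] (nat_lit 0) [] false,
   Spec.mk (nat_lit 461) (nat_lit 0) [] (nat_lit 0) [] false,
   Spec.mk (nat_lit 463) (nat_lit 0) [] (nat_lit 0) [] false,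
   Spec.mk (nat_lit 465) (nat_lit 0) [] (nat_lit 0) [] false,
   Spec.mk (nat_lit 469) (nat_lit 0) [] (nat_lit 0) [] false,
   Spec.mk (nat_lit 471) (nat_lit 0) [] (nat_lit 0) [] false,
   Spec.mk (nat_lit 477) (nat_lit 0) [] (nat_lit 0) [] false,
   Spec.mk (nat_lit 503) (nat_lit 0) [] (nat_lit 0) [] false,
   Spec.mk (nat_lit 509) (nat_lit 0) [] (nat_lit 0) [] false,
   Spec.mk (nat_lit 511) (nat_lit 0) [] (nat_lit 0) [] false,
   Spec.mk (nat_lit 521) (nat_lit 0) [] (nat_lit 0) [] false,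
   Spec.mk (nat_lit 527) (nat_lit 0) [] (nat_lit 0) [] false,
   Spec.mk (nat_lit 529) (nat_lit 0) [] (nat_lit 0) [] false,
   Spec.mk (nat_lit 533) (nat_lit 0) [] (nat_lit 0) [] false,
   Spec.mk (nat_lit 535) (nat_lit 0) [] (nat_lit 0) [] false,
   Spec.mk (nat_lit 537) (nat_lit 0) [] (nat_lit 0) [] false,
   Spec.mk (nat_lit 545) (nat_lit 0) [] (nat_lit 0) [] false,
   Spec.mk (nat_lit 547) (nat_lit 0) [] (nat_lit 0) [] false,
   Spec.mk (nat_lit 551) (nat_lit 0) [] (nat_lit 0) [] false,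
   Spec.mk (nat_lit 553) (nat_lit 0) [] (nat_lit 0) [] false,
   Spec.mk (nat_lit 555) (nat_lit 0) [] (nat_lit 0) [] false,
   Spec.mk (nat_lit 559) (nat_lit 0) [] (nat_lit 0) [] false,
   Spec.mk (nat_lit 561) (nat_lit 0) [] (nat_lit 0) [] false,
   Spec.mk (nat_lit 575) (nat_lit 0) [] (nat_lit 0) [] false,
   Spec.mk (nat_lit 581) (nat_lit 0) [] (nat_lit 0) [] false,
   Spec.mk (nat_lit 583) (nat_lit 0) [] (nat_lit 0) [] false,
   Spec.mk (nat_lit 587) (nat_lit 0) [] (nat_lit 0) [] false,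
   Spec.mk (nat_lit 589) (nat_lit 0) [] (nat_lit 0) [] false,
   Spec.mk (nat_lit 591) (nat_lit 0) [] (nat_lit 0) [] false,
   Spec.mk (nat_lit 599) (nat_lit 0) [] (nat_lit 0) [] false,
   Spec.mk (nat_lit 601) (nat_lit 0) [] (nat_lit 0) [] false,
   Spec.mk (nat_lit 605) (nat_lit 0) [] (nat_lit 0) [] false,
   Spec.mk (nat_lit 607) (nat_lit 0) [] (nat_lit 0) [] false,
   Spec.mk (nat_lit 609) (nat_lit 0) [] (nat_lit 0) [] false,
   Spec.mk (nat_lit 613) (nat_lit 0) [] (nat_lit 0) [] false,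
   Spec.mk (nat_lit 615) (nat_lit 0) [] (nat_lit 0) [] false,
   Spec.mk (nat_lit 623) (nat_lit 0) [] (nat_lit 0) [] false,
   Spec.mk (nat_lit 625) (nat_lit 0) [] (nat_lit 0) [] false,
   Spec.mk (nat_lit 627) (nat_lit 0) [] (nat_lit 0) [] false,
   Spec.mk (nat_lit 631) (nat_lit 0) [] (nat_lit 0) [] false,
   Spec.mk (nat_lit 633) (nat_lit 0) [] (nat_lit 0) [] false,
   Spec.mk (nat_lit 639) (nat_lit 0) [] (nat_lit 0) [] false,
   Spec.mk (nat_lit 653) (nat_lit 0) [] (nat_lit 0) [] false,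
   Spec.mk (nat_lit 655) (nat_lit 0) [] (nat_lit 0) [] false,
   Spec.mk (nat_lit 659) (nat_lit 0) [] (nat_lit 0) [] false,
   Spec.mk (nat_lit 661) (nat_lit 0) [] (nat_lit 0) [] false,
   Spec.mk (nat_lit 663) (nat_lit 0) [] (nat_lit 0) [] false,
   Spec.mk (nat_lit 667) (nat_lit 0) [] (nat_lit 0) [] false,
   Spec.mk (nat_lit 669) (nat_lit 0) [] (nat_lit 0) [] false,
   Spec.mk (nat_lit 677) (nat_lit 0) [] (nat_lit 0) [] false,
   Spec.mk (nat_lit 679) (nat_lit 0) [] (nat_lit 0) [] false,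
   Spec.mk (nat_lit 681) (nat_lit 0) [] (nat_lit 0) [] false]

noncomputable def cd2 : List Spec :=
  [Spec.mk (nat_lit 685) (nat_lit 0) [] (nat_lit 0) [] false,
   Spec.mk (nat_lit 687) (nat_lit 0) [] (nat_lit 0) [] false,
   Spec.mk (nat_lit 693) (nat_lit 0) [] (nat_lit 0) [] false,
   Spec.mk (nat_lit 703) (nat_lit 0) [] (nat_lit 0) [] false,
   Spec.mk (nat_lit 705) (nat_lit 0) [] (nat_lit 0) [] false,
   Spec.mk (nat_lit 711) (nat_lit 0) [] (nat_lit 0) [] false,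
   Spec.mk (nat_lit 755) (nat_lit 0) [] (nat_lit 0) [] false,
   Spec.mk (nat_lit 773) (nat_lit 0) [] (nat_lit 0) [] false,
   Spec.mk (nat_lit 779) (nat_lit 0) [] (nat_lit 0) [] false,
   Spec.mk (nat_lit 781) (nat_lit 0) [] (nat_lit 0) [] false,
   Spec.mk (nat_lit 791) (nat_lit 0) [] (nat_lit 0) [] false,
   Spec.mk (nat_lit 797) (nat_lit 0) [] (nat_lit 0) [] false,
   Spec.mk (nat_lit 799) (nat_lit 0) [] (nat_lit 0) [] false,
   Spec.mk (nat_lit 803) (nat_lit 0) [] (nat_lit 0) [] false,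
   Spec.mk (nat_lit 805) (nat_lit 0) [] (nat_lit 0) [] false,
   Spec.mk (nat_lit 807) (nat_lit 0) [] (nat_lit 0) [] false,
   Spec.mk (nat_lit 827) (nat_lit 0) [] (nat_lit 0) [] false,
   Spec.mk (nat_lit 833) (nat_lit 0) [] (nat_lit 0) [] false,
   Spec.mk (nat_lit 835) (nat_lit 0) [] (nat_lit 0) [] false,
   Spec.mk (nat_lit 845) (nat_lit 0) [] (nat_lit 0) [] false,
   Spec.mk (nat_lit 851) (nat_lit 0) [] (nat_lit 0) [] false,
   Spec.mk (nat_lit 853) (nat_lit 0) [] (nat_lit 0) [] false,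
   Spec.mk (nat_lit 857) (nat_lit 0) [] (nat_lit 0) [] false,
   Spec.mk (nat_lit 859) (nat_lit 0) [] (nat_lit 0) [] false,
   Spec.mk (nat_lit 861) (nat_lit 0) [] (nat_lit 0) [] false,
   Spec.mk (nat_lit 869) (nat_lit 0) [] (nat_lit 0) [] false,
   Spec.mk (nat_lit 871) (nat_lit 0) [] (nat_lit 0) [] false,
   Spec.mk (nat_lit 875) (nat_lit 0) [] (nat_lit 0) [] false,
   Spec.mk (nat_lit 877) (nat_lit 0) [] (nat_lit 0) [] false,
   Spec.mk (nat_lit 879) (nat_lit 0) [] (nat_lit 0) [] false,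
   Spec.mk (nat_lit 883) (nat_lit 0) [] (nat_lit 0) [] false,
   Spec.mk (nat_lit 885) (nat_lit 0) [] (nat_lit 0) [] false,
   Spec.mk (nat_lit 899) (nat_lit 0) [] (nat_lit 0) [] false,
   Spec.mk (nat_lit 905) (nat_lit 0) [] (nat_lit 0) [] false,
   Spec.mk (nat_lit 907) (nat_lit 0) [] (nat_lit 0) [] false,
   Spec.mk (nat_lit 911) (nat_lit 0) [] (nat_lit 0) [] false,
   Spec.mk (nat_lit 913) (nat_lit 0) [] (nat_lit 0) [] false,
   Spec.mk (nat_lit 915) (nat_lit 0) [] (nat_lit 0) [] false,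
   Spec.mk (nat_lit 923) (nat_lit 0) [] (nat_lit 0) [] false,
   Spec.mk (nat_lit 925) (nat_lit 0) [] (nat_lit 0) [] false,
   Spec.mk (nat_lit 929) (nat_lit 0) [] (nat_lit 0) [] false,
   Spec.mk (nat_lit 931) (nat_lit 0) [] (nat_lit 0) [] false,
   Spec.mk (nat_lit 933) (nat_lit 0) [] (nat_lit 0) [] false,
   Spec.mk (nat_lit 937) (nat_lit 0) [] (nat_lit 0) [] false,
   Spec.mk (nat_lit 939) (nat_lit 0) [] (nat_lit 0) [] false,
   Spec.mk (nat_lit 947) (nat_lit 0) [] (nat_lit 0) [] false,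
   Spec.mk (nat_lit 949) (nat_lit 0) [] (nat_lit 0) [] false,
   Spec.mk (nat_lit 951) (nat_lit 0) [] (nat_lit 0) [] false,
   Spec.mk (nat_lit 955) (nat_lit 0) [] (nat_lit 0) [] false,
   Spec.mk (nat_lit 957) (nat_lit 0) [] (nat_lit 0) [] false,
   Spec.mk (nat_lit 963) (nat_lit 0) [] (nat_lit 0) [] false,
   Spec.mk (nat_lit 989) (nat_lit 0) [] (nat_lit 0) [] false,
   Spec.mk (nat_lit 995) (nat_lit 0) [] (nat_lit 0) [] false,
   Spec.mk (nat_lit 997) (nat_lit 0) [] (nat_lit 0) [] false,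
   Spec.mk (nat_lit 1007) (nat_lit 0) [] (nat_lit 0) [] false,
   Spec.mk (nat_lit 1013) (nat_lit 0) [] (nat_lit 0) [] false,
   Spec.mk (nat_lit 1015) (nat_lit 0) [] (nat_lit 0) [] false,
   Spec.mk (nat_lit 1019) (nat_lit 0) [] (nat_lit 0) [] false,
   Spec.mk (nat_lit 1021) (nat_lit 0) [] (nat_lit 0) [] false,
   Spec.mk (nat_lit 1023) (nat_lit 0) [] (nat_lit 0) [] false]

noncomputable def cd3 : List Spec :=
  [Spec.mk (nat_lit 1031) (nat_lit 0) [] (nat_lit 0) [] false,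
   Spec.mk (nat_lit 1033) (nat_lit 0) [] (nat_lit 0) [] false,
   Spec.mk (nat_lit 1037) (nat_lit 0) [] (nat_lit 0) [] false,
   Spec.mk (nat_lit 1039) (nat_lit 0) [] (nat_lit 0) [] false,
   Spec.mk (nat_lit 1041) (nat_lit 0) [] (nat_lit 0) [] false,
   Spec.mk (nat_lit 1045) (nat_lit 0) [] (nat_lit 0) [] false,
   Spec.mk (nat_lit 1047) (nat_lit 0) [] (nat_lit 0) [] false,
   Spec.mk (nat_lit 1061) (nat_lit 0) [] (nat_lit 0) [] false,
   Spec.mk (nat_lit 1067) (nat_lit 0) [] (nat_lit 0) [] false,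
   Spec.mk (nat_lit 1069) (nat_lit 0) [] (nat_lit 0) [] false,
   Spec.mk (nat_lit 1073) (nat_lit 0) [] (nat_lit 0) [] false,
   Spec.mk (nat_lit 1075) (nat_lit 0) [] (nat_lit 0) [] false,
   Spec.mk (nat_lit 1077) (nat_lit 0) [] (nat_lit 0) [] false,
   Spec.mk (nat_lit 1085) (nat_lit 0) [] (nat_lit 0) [] false,
   Spec.mk (nat_lit 1087) (nat_lit 0) [] (nat_lit 0) [] false,
   Spec.mk (nat_lit 1091) (nat_lit 0) [] (nat_lit 0) [] false,
   Spec.mk (nat_lit 1093) (nat_lit 0) [] (nat_lit 0) [] false,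
   Spec.mk (nat_lit 1095) (nat_lit 0) [] (nat_lit 0) [] false,
   Spec.mk (nat_lit 1099) (nat_lit 0) [] (nat_lit 0) [] false,
   Spec.mk (nat_lit 1101) (nat_lit 0) [] (nat_lit 0) [] false,
   Spec.mk (nat_lit 1109) (nat_lit 0) [] (nat_lit 0) [] false,
   Spec.mk (nat_lit 1111) (nat_lit 0) [] (nat_lit 0) [] false,
   Spec.mk (nat_lit 1113) (nat_lit 0) [] (nat_lit 0) [] false,
   Spec.mk (nat_lit 1117) (nat_lit 0) [] (nat_lit 0) [] false,
   Spec.mk (nat_lit 1119) (nat_lit 0) [] (nat_lit 0) [] false,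
   Spec.mk (nat_lit 1125) (nat_lit 0) [] (nat_lit 0) [] false,
   Spec.mk (nat_lit 1139) (nat_lit 0) [] (nat_lit 0) [] false,
   Spec.mk (nat_lit 1141) (nat_lit 0) [] (nat_lit 0) [] false,
   Spec.mk (nat_lit 1145) (nat_lit 0) [] (nat_lit 0) [] false,
   Spec.mk (nat_lit 1147) (nat_lit 0) [] (nat_lit 0) [] false,
   Spec.mk (nat_lit 1149) (nat_lit 0) [] (nat_lit 0) [] false,
   Spec.mk (nat_lit 1153) (nat_lit 0) [] (nat_lit 0) [] false,
   Spec.mk (nat_lit 1155) (nat_lit 0) [] (nat_lit 0) [] false,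
   Spec.mk (nat_lit 1163) (nat_lit 0) [] (nat_lit 0) [] false,
   Spec.mk (nat_lit 1165) (nat_lit 0) [] (nat_lit 0) [] false,
   Spec.mk (nat_lit 1167) (nat_lit 0) [] (nat_lit 0) [] false,
   Spec.mk (nat_lit 1171) (nat_lit 0) [] (nat_lit 0) [] false,
   Spec.mk (nat_lit 1173) (nat_lit 0) [] (nat_lit 0) [] false,
   Spec.mk (nat_lit 1179) (nat_lit 0) [] (nat_lit 0) [] false,
   Spec.mk (nat_lit 1189) (nat_lit 0) [] (nat_lit 0) [] false,
   Spec.mk (nat_lit 1191) (nat_lit 0) [] (nat_lit 0) [] false,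
   Spec.mk (nat_lit 1197) (nat_lit 0) [] (nat_lit 0) [] false,
   Spec.mk (nat_lit 1223) (nat_lit 0) [] (nat_lit 0) [] false,
   Spec.mk (nat_lit 1229) (nat_lit 0) [] (nat_lit 0) [] false,
   Spec.mk (nat_lit 1231) (nat_lit 0) [] (nat_lit 0) [] false,
   Spec.mk (nat_lit 1235) (nat_lit 0) [] (nat_lit 0) [] false,
   Spec.mk (nat_lit 1237) (nat_lit 0) [] (nat_lit 0) [] false,
   Spec.mk (nat_lit 1239) (nat_lit 0) [] (nat_lit 0) [] false,
   Spec.mk (nat_lit 1247) (nat_lit 0) [] (nat_lit 0) [] false,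
   Spec.mk (nat_lit 1249) (nat_lit 0) [] (nat_lit 0) [] false,
   Spec.mk (nat_lit 1253) (nat_lit 0) [] (nat_lit 0) [] false,
   Spec.mk (nat_lit 1255) (nat_lit 0) [] (nat_lit 0) [] false,
   Spec.mk (nat_lit 1257) (nat_lit 0) [] (nat_lit 0) [] false,
   Spec.mk (nat_lit 1261) (nat_lit 0) [] (nat_lit 0) [] false,
   Spec.mk (nat_lit 1263) (nat_lit 0) [] (nat_lit 0) [] false,
   Spec.mk (nat_lit 1271) (nat_lit 0) [] (nat_lit 0) [] false,
   Spec.mk (nat_lit 1273) (nat_lit 0) [] (nat_lit 0) [] false,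
   Spec.mk (nat_lit 1275) (nat_lit 0) [] (nat_lit 0) [] false,
   Spec.mk (nat_lit 1279) (nat_lit 0) [] (nat_lit 0) [] false,
   Spec.mk (nat_lit 1281) (nat_lit 0) [] (nat_lit 0) [] false]

noncomputable def cd4 : List Spec :=
  [Spec.mk (nat_lit 1287) (nat_lit 0) [] (nat_lit 0) [] false,
   Spec.mk (nat_lit 1301) (nat_lit 0) [] (nat_lit 0) [] false,
   Spec.mk (nat_lit 1303) (nat_lit 0) [] (nat_lit 0) [] false,
   Spec.mk (nat_lit 1307) (nat_lit 0) [] (nat_lit 0) [] false,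
   Spec.mk (nat_lit 1309) (nat_lit 0) [] (nat_lit 0) [] false,
   Spec.mk (nat_lit 1311) (nat_lit 0) [] (nat_lit 0) [] false,
   Spec.mk (nat_lit 1315) (nat_lit 0) [] (nat_lit 0) [] false,
   Spec.mk (nat_lit 1317) (nat_lit 0) [] (nat_lit 0) [] false,
   Spec.mk (nat_lit 1325) (nat_lit 0) [] (nat_lit 0) [] false,
   Spec.mk (nat_lit 1327) (nat_lit 0) [] (nat_lit 0) [] false,
   Spec.mk (nat_lit 1329) (nat_lit 0) [] (nat_lit 0) [] false,
   Spec.mk (nat_lit 1333) (nat_lit 0) [] (nat_lit 0) [] false,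
   Spec.mk (nat_lit 1335) (nat_lit 0) [] (nat_lit 0) [] false,
   Spec.mk (nat_lit 1341) (nat_lit 0) [] (nat_lit 0) [] false,
   Spec.mk (nat_lit 1351) (nat_lit 0) [] (nat_lit 0) [] false,
   Spec.mk (nat_lit 1353) (nat_lit 0) [] (nat_lit 0) [] false,
   Spec.mk (nat_lit 1359) (nat_lit 0) [] (nat_lit 0) [] false,
   Spec.mk (nat_lit 1379) (nat_lit 0) [] (nat_lit 0) [] false,
   Spec.mk (nat_lit 1381) (nat_lit 0) [] (nat_lit 0) [] false,
   Spec.mk (nat_lit 1383) (nat_lit 0) [] (nat_lit 0) [] false,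
   Spec.mk (nat_lit 1387) (nat_lit 0) [] (nat_lit 0) [] false,
   Spec.mk (nat_lit 1389) (nat_lit 0) [] (nat_lit 0) [] false,
   Spec.mk (nat_lit 1395) (nat_lit 0) [] (nat_lit 0) [] false,
   Spec.mk (nat_lit 1405) (nat_lit 0) [] (nat_lit 0) [] false,
   Spec.mk (nat_lit 1407) (nat_lit 0) [] (nat_lit 0) [] false,
   Spec.mk (nat_lit 1413) (nat_lit 0) [] (nat_lit 0) [] false,
   Spec.mk (nat_lit 1431) (nat_lit 0) [] (nat_lit 0) [] false,
   Spec.mk (nat_lit 1475) (nat_lit 0) [] (nat_lit 0) [] false,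
   Spec.mk (nat_lit 1481) (nat_lit 0) [] (nat_lit 0) [] false,
   Spec.mk (nat_lit 1483) (nat_lit 0) [] (nat_lit 0) [] false,
   Spec.mk (nat_lit 1493) (nat_lit 0) [] (nat_lit 0) [] false,
   Spec.mk (nat_lit 1499) (nat_lit 0) [] (nat_lit 0) [] false,
   Spec.mk (nat_lit 1501) (nat_lit 0) [] (nat_lit 0) [] false,
   Spec.mk (nat_lit 1505) (nat_lit 0) [] (nat_lit 0) [] false,
   Spec.mk (nat_lit 1507) (nat_lit 0) [] (nat_lit 0) [] false,
   Spec.mk (nat_lit 1509) (nat_lit 0) [] (nat_lit 0) [] false,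
   Spec.mk (nat_lit 1517) (nat_lit 0) [] (nat_lit 0) [] false,
   Spec.mk (nat_lit 1519) (nat_lit 0) [] (nat_lit 0) [] false,
   Spec.mk (nat_lit 1523) (nat_lit 0) [] (nat_lit 0) [] false,
   Spec.mk (nat_lit 1525) (nat_lit 0) [] (nat_lit 0) [] false,
   Spec.mk (nat_lit 1527) (nat_lit 0) [] (nat_lit 0) [] false,
   Spec.mk (nat_lit 1531) (nat_lit 0) [] (nat_lit 0) [] false,
   Spec.mk (nat_lit 1533) (nat_lit 0) [] (nat_lit 0) [] false,
   Spec.mk (nat_lit 1547) (nat_lit 0) [] (nat_lit 0) [] false,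
   Spec.mk (nat_lit 1553) (nat_lit 0) [] (nat_lit 0) [] false,
   Spec.mk (nat_lit 1555) (nat_lit 0) [] (nat_lit 0) [] false,
   Spec.mk (nat_lit 1559) (nat_lit 0) [] (nat_lit 0) [] false,
   Spec.mk (nat_lit 1561) (nat_lit 0) [] (nat_lit 0) [] false,
   Spec.mk (nat_lit 1563) (nat_lit 0) [] (nat_lit 0) [] false,
   Spec.mk (nat_lit 1571) (nat_lit 0) [] (nat_lit 0) [] false,
   Spec.mk (nat_lit 1573) (nat_lit 0) [] (nat_lit 0) [] false,
   Spec.mk (nat_lit 1577) (nat_lit 0) [] (nat_lit 0) [] false,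
   Spec.mk (nat_lit 1579) (nat_lit 0) [] (nat_lit 0) [] false,
   Spec.mk (nat_lit 1581) (nat_lit 0) [] (nat_lit 0) [] false,
   Spec.mk (nat_lit 1585) (nat_lit 0) [] (nat_lit 0) [] false,
   Spec.mk (nat_lit 1587) (nat_lit 0) [] (nat_lit 0) [] false,
   Spec.mk (nat_lit 1595) (nat_lit 0) [] (nat_lit 0) [] false,
   Spec.mk (nat_lit 1597) (nat_lit 0) [] (nat_lit 0) [] false,
   Spec.mk (nat_lit 1599) (nat_lit 0) [] (nat_lit 0) [] false,
   Spec.mk (nat_lit 1603) (nat_lit 0) [] (nat_lit 0) [] false]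

noncomputable def cd5 : List Spec :=
  [Spec.mk (nat_lit 1605) (nat_lit 0) [] (nat_lit 0) [] false,
   Spec.mk (nat_lit 1611) (nat_lit 0) [] (nat_lit 0) [] false,
   Spec.mk (nat_lit 1625) (nat_lit 0) [] (nat_lit 0) [] false,
   Spec.mk (nat_lit 1627) (nat_lit 0) [] (nat_lit 0) [] false,
   Spec.mk (nat_lit 1631) (nat_lit 0) [] (nat_lit 0) [] false,
   Spec.mk (nat_lit 1633) (nat_lit 0) [] (nat_lit 0) [] false,
   Spec.mk (nat_lit 1635) (nat_lit 0) [] (nat_lit 0) [] false,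
   Spec.mk (nat_lit 1639) (nat_lit 0) [] (nat_lit 0) [] false,
   Spec.mk (nat_lit 1641) (nat_lit 0) [] (nat_lit 0) [] false,
   Spec.mk (nat_lit 1649) (nat_lit 0) [] (nat_lit 0) [] false,
   Spec.mk (nat_lit 1651) (nat_lit 0) [] (nat_lit 0) [] false,
   Spec.mk (nat_lit 1653) (nat_lit 0) [] (nat_lit 0) [] false,
   Spec.mk (nat_lit 1657) (nat_lit 0) [] (nat_lit 0) [] false,
   Spec.mk (nat_lit 1659) (nat_lit 0) [] (nat_lit 0) [] false,
   Spec.mk (nat_lit 1665) (nat_lit 0) [] (nat_lit 0) [] false,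
   Spec.mk (nat_lit 1675) (nat_lit 0) [] (nat_lit 0) [] false,
   Spec.mk (nat_lit 1677) (nat_lit 0) [] (nat_lit 0) [] false,
   Spec.mk (nat_lit 1683) (nat_lit 0) [] (nat_lit 0) [] false,
   Spec.mk (nat_lit 1709) (nat_lit 0) [] (nat_lit 0) [] false,
   Spec.mk (nat_lit 1715) (nat_lit 0) [] (nat_lit 0) [] false,
   Spec.mk (nat_lit 1717) (nat_lit 0) [] (nat_lit 0) [] false,
   Spec.mk (nat_lit 1721) (nat_lit 0) [] (nat_lit 0) [] false,
   Spec.mk (nat_lit 1723) (nat_lit 0) [] (nat_lit 0) [] false,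
   Spec.mk (nat_lit 1725) (nat_lit 0) [] (nat_lit 0) [] false,
   Spec.mk (nat_lit 1733) (nat_lit 0) [] (nat_lit 0) [] false,
   Spec.mk (nat_lit 1735) (nat_lit 0) [] (nat_lit 0) [] false,
   Spec.mk (nat_lit 1739) (nat_lit 0) [] (nat_lit 0) [] false,
   Spec.mk (nat_lit 1741) (nat_lit 0) [] (nat_lit 0) [] false,
   Spec.mk (nat_lit 1743) (nat_lit 0) [] (nat_lit 0) [] false,
   Spec.mk (nat_lit 1747) (nat_lit 0) [] (nat_lit 0) [] false,
   Spec.mk (nat_lit 1749) (nat_lit 0) [] (nat_lit 0) [] false,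
   Spec.mk (nat_lit 1757) (nat_lit 0) [] (nat_lit 0) [] false,
   Spec.mk (nat_lit 1759) (nat_lit 0) [] (nat_lit 0) [] false,
   Spec.mk (nat_lit 1761) (nat_lit 0) [] (nat_lit 0) [] false,
   Spec.mk (nat_lit 1765) (nat_lit 0) [] (nat_lit 0) [] false,
   Spec.mk (nat_lit 1767) (nat_lit 0) [] (nat_lit 0) [] false,
   Spec.mk (nat_lit 1773) (nat_lit 0) [] (nat_lit 0) [] false,
   Spec.mk (nat_lit 1787) (nat_lit 0) [] (nat_lit 0) [] false,
   Spec.mk (nat_lit 1789) (nat_lit 0) [] (nat_lit 0) [] false,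
   Spec.mk (nat_lit 1793) (nat_lit 0) [] (nat_lit 0) [] false,
   Spec.mk (nat_lit 1795) (nat_lit 0) [] (nat_lit 0) [] false,
   Spec.mk (nat_lit 1797) (nat_lit 0) [] (nat_lit 0) [] false,
   Spec.mk (nat_lit 1801) (nat_lit 0) [] (nat_lit 0) [] false,
   Spec.mk (nat_lit 1803) (nat_lit 0) [] (nat_lit 0) [] false,
   Spec.mk (nat_lit 1811) (nat_lit 0) [] (nat_lit 0) [] false,
   Spec.mk (nat_lit 1813) (nat_lit 0) [] (nat_lit 0) [] false,
   Spec.mk (nat_lit 1815) (nat_lit 0) [] (nat_lit 0) [] false,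
   Spec.mk (nat_lit 1819) (nat_lit 0) [] (nat_lit 0) [] false,
   Spec.mk (nat_lit 1821) (nat_lit 0) [] (nat_lit 0) [] false,
   Spec.mk (nat_lit 1827) (nat_lit 0) [] (nat_lit 0) [] false,
   Spec.mk (nat_lit 1837) (nat_lit 0) [] (nat_lit 0) [] false,
   Spec.mk (nat_lit 1839) (nat_lit 0) [] (nat_lit 0) [] false,
   Spec.mk (nat_lit 1845) (nat_lit 0) [] (nat_lit 0) [] false,
   Spec.mk (nat_lit 1865) (nat_lit 0) [] (nat_lit 0) [] false,
   Spec.mk (nat_lit 1867) (nat_lit 0) [] (nat_lit 0) [] false,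
   Spec.mk (nat_lit 1869) (nat_lit 0) [] (nat_lit 0) [] false,
   Spec.mk (nat_lit 1873) (nat_lit 0) [] (nat_lit 0) [] false,
   Spec.mk (nat_lit 1875) (nat_lit 0) [] (nat_lit 0) [] false,
   Spec.mk (nat_lit 1881) (nat_lit 0) [] (nat_lit 0) [] false,
   Spec.mk (nat_lit 1891) (nat_lit 0) [] (nat_lit 0) [] false]

noncomputable def cd6 : List Spec :=
  [Spec.mk (nat_lit 1893) (nat_lit 0) [] (nat_lit 0) [] false,
   Spec.mk (nat_lit 1899) (nat_lit 0) [] (nat_lit 0) [] false,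
   Spec.mk (nat_lit 1917) (nat_lit 0) [] (nat_lit 0) [] false,
   Spec.mk (nat_lit 1949) (nat_lit 0) [] (nat_lit 0) [] false,
   Spec.mk (nat_lit 1951) (nat_lit 0) [] (nat_lit 0) [] false,
   Spec.mk (nat_lit 1955) (nat_lit 0) [] (nat_lit 0) [] false,
   Spec.mk (nat_lit 1957) (nat_lit 0) [] (nat_lit 0) [] false,
   Spec.mk (nat_lit 1959) (nat_lit 0) [] (nat_lit 0) [] false,
   Spec.mk (nat_lit 1963) (nat_lit 0) [] (nat_lit 0) [] false,
   Spec.mk (nat_lit 1965) (nat_lit 0) [] (nat_lit 0) [] false,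
   Spec.mk (nat_lit 1973) (nat_lit 0) [] (nat_lit 0) [] false,
   Spec.mk (nat_lit 1975) (nat_lit 0) [] (nat_lit 0) [] false,
   Spec.mk (nat_lit 1977) (nat_lit 0) [] (nat_lit 0) [] false,
   Spec.mk (nat_lit 1981) (nat_lit 0) [] (nat_lit 0) [] false,
   Spec.mk (nat_lit 1983) (nat_lit 0) [] (nat_lit 0) [] false,
   Spec.mk (nat_lit 1989) (nat_lit 0) [] (nat_lit 0) [] false,
   Spec.mk (nat_lit 1999) (nat_lit 0) [] (nat_lit 0) [] false,
   Spec.mk (nat_lit 2001) (nat_lit 0) [] (nat_lit 0) [] false,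
   Spec.mk (nat_lit 2007) (nat_lit 0) [] (nat_lit 0) [] false,
   Spec.mk (nat_lit 2027) (nat_lit 0) [] (nat_lit 0) [] false,
   Spec.mk (nat_lit 2029) (nat_lit 0) [] (nat_lit 0) [] false,
   Spec.mk (nat_lit 2031) (nat_lit 0) [] (nat_lit 0) [] false,
   Spec.mk (nat_lit 2035) (nat_lit 0) [] (nat_lit 0) [] false,
   Spec.mk (nat_lit 2037) (nat_lit 0) [] (nat_lit 0) [] false,
   Spec.mk (nat_lit 2043) (nat_lit 0) [] (nat_lit 0) [] false,
   Spec.mk (nat_lit 2053) (nat_lit 0) [] (nat_lit 0) [] false,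
   Spec.mk (nat_lit 2055) (nat_lit 0) [] (nat_lit 0) [] false,
   Spec.mk (nat_lit 2061) (nat_lit 0) [] (nat_lit 0) [] false,
   Spec.mk (nat_lit 2079) (nat_lit 0) [] (nat_lit 0) [] false,
   Spec.mk (nat_lit 2107) (nat_lit 0) [] (nat_lit 0) [] false,
   Spec.mk (nat_lit 2109) (nat_lit 0) [] (nat_lit 0) [] false,
   Spec.mk (nat_lit 2115) (nat_lit 0) [] (nat_lit 0) [] false,
   Spec.mk (nat_lit 2133) (nat_lit 0) [] (nat_lit 0) [] false]

noncomputable def cds : List (List Spec) :=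
    cd0 :: cd1 :: cd2 :: cd3 :: cd4 :: cd5 :: cd6 :: []

noncomputable def ap (x : Nat → Nat) (k :
    Nat → Nat → Nat → Nat → Nat → Nat → Nat → Nat → Nat → Nat → Nat → Nat → Nat → Nat → Nat → Nat →
    Nat → Nat → Nat → Nat → Nat → Nat → Nat → Nat → Nat → Nat → Nat → Nat → Nat → Nat → Nat → Nat →
    Nat → Nat → Nat → Nat → Nat → Nat → Nat → Nat → Nat → Nat → Nat → Nat → Nat → Nat → Nat → Nat →
    Nat → Nat → Nat → Nat → Nat → Nat → Nat → Nat → Nat → Nat → Nat → Nat → Nat → Nat → Nat → Nat →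
    Nat → Nat → Nat → Nat → Nat → Nat → Nat → Nat → Nat → Nat → Nat → Nat → Nat → Nat → Nat → Nat →
    Nat → Nat → Nat → Nat → Nat → Nat → Nat → Nat → Nat → Nat → Nat → Nat → Nat → Nat → Nat → Nat →
    Nat → Nat → Nat → Nat → Nat → Nat → Nat → Nat → Nat → Nat → Nat → Nat → Nat → Nat → Nat → Nat →
    Nat → Nat → Nat → Nat → Nat → Nat → Nat → Nat → Nat → Nat → Nat → Nat → Nat → Nat → Nat → Nat →
    Nat → Nat → Nat → Nat → Nat → Nat → Nat → Nat → Nat → Nat → Nat → Nat → Nat → Nat → Nat → Nat →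
    Nat → Nat → Nat → Nat → Nat → Nat → Nat → Nat → Nat → Nat → Nat → Nat → Nat → Nat → Nat → Nat →
    Nat → Nat → Nat → Nat → Nat → Nat → Nat → Nat → Nat → Nat → Nat → Nat → Nat → Nat → Nat → Nat →
    Nat → Nat → Nat → Nat → Nat → Nat → Nat → Nat → Nat → Nat → Nat → Nat → Nat → Nat → Nat → Nat →
    Nat → Nat → Nat → Nat → Nat → Nat → Nat → Nat → Nat → Nat → Nat → Nat → Nat → Nat → Nat → Nat →
    Nat → Nat → Nat → Nat → Nat → Nat → Nat → Nat → Nat → Nat → Nat → Nat → Nat → Nat → Nat → Nat →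
    Nat → Nat → Nat → Nat → Nat → Nat → Nat → Nat → Nat → Nat → Nat → Nat → Nat → Nat → Nat → Nat →
    Nat → Nat → Nat → Nat → Nat → Nat → Nat → Nat → Nat → Nat → Nat → Nat → Nat → Nat → Nat → Nat →
    Nat → Nat → Nat → Nat → Nat → Nat → Nat → Nat → Nat → Nat → Nat → Nat → Nat → Nat → Nat → Nat →
    Nat → Nat → Nat → Nat → Nat → Nat → Nat → Nat → Nat → Nat → Nat → Nat → Nat → Nat → Nat → Nat →
    Nat → Nat → Nat → Nat → Nat → Nat → Nat → Nat → Nat → Nat → Nat → Nat → Nat → Nat → Nat → Nat →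
    Nat → Nat → Nat → Nat → Nat → Nat → Nat → Nat → Nat → Nat → Nat → Nat → Nat → Nat → Nat → Nat →
    Nat → Nat → Nat → Nat → Nat → Nat → Nat → Nat → Nat → Nat → Nat → Nat → Nat → Nat → Nat → Nat →
    Nat → Nat → Nat → Nat → Nat → Nat → Nat → Nat → Nat → Nat → Nat → Nat → Nat → Nat → Nat → Nat →
    Nat → Nat → Nat → Nat → Nat → Nat → Nat → Nat → Nat → Nat → Nat → Nat → Nat → Nat → Nat → Nat →
    Nat → Nat → Nat → Nat → Nat → Nat → Nat → Nat → Nat → Nat → Nat → Nat → Nat → Nat → Nat → Nat →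
    Nat → Nat → Nat → Nat → Nat → Nat → Nat → Nat → Nat → Bool) : Bool :=
  k
    (x (nat_lit 53)) (x (nat_lit 71)) (x (nat_lit 77)) (x (nat_lit 79)) (x (nat_lit 107))
    (x (nat_lit 125)) (x (nat_lit 131)) (x (nat_lit 133)) (x (nat_lit 143)) (x (nat_lit 149))
    (x (nat_lit 151)) (x (nat_lit 155)) (x (nat_lit 157)) (x (nat_lit 159)) (x (nat_lit 179))
    (x (nat_lit 185)) (x (nat_lit 187)) (x (nat_lit 197)) (x (nat_lit 203)) (x (nat_lit 205))
    (x (nat_lit 209)) (x (nat_lit 211)) (x (nat_lit 213)) (x (nat_lit 221)) (x (nat_lit 223))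
    (x (nat_lit 227)) (x (nat_lit 229)) (x (nat_lit 231)) (x (nat_lit 235)) (x (nat_lit 237))
    (x (nat_lit 269)) (x (nat_lit 287)) (x (nat_lit 293)) (x (nat_lit 295)) (x (nat_lit 305))
    (x (nat_lit 311)) (x (nat_lit 313)) (x (nat_lit 317)) (x (nat_lit 319)) (x (nat_lit 321))
    (x (nat_lit 341)) (x (nat_lit 347)) (x (nat_lit 349)) (x (nat_lit 359)) (x (nat_lit 365))
    (x (nat_lit 367)) (x (nat_lit 371)) (x (nat_lit 373)) (x (nat_lit 375)) (x (nat_lit 383))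
    (x (nat_lit 385)) (x (nat_lit 389)) (x (nat_lit 391)) (x (nat_lit 393)) (x (nat_lit 397))
    (x (nat_lit 399)) (x (nat_lit 413)) (x (nat_lit 419)) (x (nat_lit 421)) (x (nat_lit 425))
    (x (nat_lit 427)) (x (nat_lit 429)) (x (nat_lit 437)) (x (nat_lit 439)) (x (nat_lit 443))
    (x (nat_lit 445)) (x (nat_lit 447)) (x (nat_lit 451)) (x (nat_lit 453)) (x (nat_lit 461))
    (x (nat_lit 463)) (x (nat_lit 465)) (x (nat_lit 469)) (x (nat_lit 471)) (x (nat_lit 477))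
    (x (nat_lit 503)) (x (nat_lit 509)) (x (nat_lit 511)) (x (nat_lit 521)) (x (nat_lit 527))
    (x (nat_lit 529)) (x (nat_lit 533)) (x (nat_lit 535)) (x (nat_lit 537)) (x (nat_lit 545))
    (x (nat_lit 547)) (x (nat_lit 551)) (x (nat_lit 553)) (x (nat_lit 555)) (x (nat_lit 559))
    (x (nat_lit 561)) (x (nat_lit 575)) (x (nat_lit 581)) (x (nat_lit 583)) (x (nat_lit 587))
    (x (nat_lit 589)) (x (nat_lit 591)) (x (nat_lit 599)) (x (nat_lit 601)) (x (nat_lit 605))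
    (x (nat_lit 607)) (x (nat_lit 609)) (x (nat_lit 613)) (x (nat_lit 615)) (x (nat_lit 623))
    (x (nat_lit 625)) (x (nat_lit 627)) (x (nat_lit 631)) (x (nat_lit 633)) (x (nat_lit 639))
    (x (nat_lit 653)) (x (nat_lit 655)) (x (nat_lit 659)) (x (nat_lit 661)) (x (nat_lit 663))
    (x (nat_lit 667)) (x (nat_lit 669)) (x (nat_lit 677)) (x (nat_lit 679)) (x (nat_lit 681))
    (x (nat_lit 685)) (x (nat_lit 687)) (x (nat_lit 693)) (x (nat_lit 703)) (x (nat_lit 705))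
    (x (nat_lit 711)) (x (nat_lit 755)) (x (nat_lit 773)) (x (nat_lit 779)) (x (nat_lit 781))
    (x (nat_lit 791)) (x (nat_lit 797)) (x (nat_lit 799)) (x (nat_lit 803)) (x (nat_lit 805))
    (x (nat_lit 807)) (x (nat_lit 827)) (x (nat_lit 833)) (x (nat_lit 835)) (x (nat_lit 845))
    (x (nat_lit 851)) (x (nat_lit 853)) (x (nat_lit 857)) (x (nat_lit 859)) (x (nat_lit 861))
    (x (nat_lit 869)) (x (nat_lit 871)) (x (nat_lit 875)) (x (nat_lit 877)) (x (nat_lit 879))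
    (x (nat_lit 883)) (x (nat_lit 885)) (x (nat_lit 899)) (x (nat_lit 905)) (x (nat_lit 907))
    (x (nat_lit 911)) (x (nat_lit 913)) (x (nat_lit 915)) (x (nat_lit 923)) (x (nat_lit 925))
    (x (nat_lit 929)) (x (nat_lit 931)) (x (nat_lit 933)) (x (nat_lit 937)) (x (nat_lit 939))
    (x (nat_lit 947)) (x (nat_lit 949)) (x (nat_lit 951)) (x (nat_lit 955)) (x (nat_lit 957))
    (x (nat_lit 963)) (x (nat_lit 989)) (x (nat_lit 995)) (x (nat_lit 997)) (x (nat_lit 1007))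
    (x (nat_lit 1013)) (x (nat_lit 1015)) (x (nat_lit 1019)) (x (nat_lit 1021)) (x (nat_lit 1023))
    (x (nat_lit 1031)) (x (nat_lit 1033)) (x (nat_lit 1037)) (x (nat_lit 1039)) (x (nat_lit 1041))
    (x (nat_lit 1045)) (x (nat_lit 1047)) (x (nat_lit 1061)) (x (nat_lit 1067)) (x (nat_lit 1069))
    (x (nat_lit 1073)) (x (nat_lit 1075)) (x (nat_lit 1077)) (x (nat_lit 1085)) (x (nat_lit 1087))
    (x (nat_lit 1091)) (x (nat_lit 1093)) (x (nat_lit 1095)) (x (nat_lit 1099)) (x (nat_lit 1101))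
    (x (nat_lit 1109)) (x (nat_lit 1111)) (x (nat_lit 1113)) (x (nat_lit 1117)) (x (nat_lit 1119))
    (x (nat_lit 1125)) (x (nat_lit 1139)) (x (nat_lit 1141)) (x (nat_lit 1145)) (x (nat_lit 1147))
    (x (nat_lit 1149)) (x (nat_lit 1153)) (x (nat_lit 1155)) (x (nat_lit 1163)) (x (nat_lit 1165))
    (x (nat_lit 1167)) (x (nat_lit 1171)) (x (nat_lit 1173)) (x (nat_lit 1179)) (x (nat_lit 1189))
    (x (nat_lit 1191)) (x (nat_lit 1197)) (x (nat_lit 1223)) (x (nat_lit 1229)) (x (nat_lit 1231))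
    (x (nat_lit 1235)) (x (nat_lit 1237)) (x (nat_lit 1239)) (x (nat_lit 1247)) (x (nat_lit 1249))
    (x (nat_lit 1253)) (x (nat_lit 1255)) (x (nat_lit 1257)) (x (nat_lit 1261)) (x (nat_lit 1263))
    (x (nat_lit 1271)) (x (nat_lit 1273)) (x (nat_lit 1275)) (x (nat_lit 1279)) (x (nat_lit 1281))
    (x (nat_lit 1287)) (x (nat_lit 1301)) (x (nat_lit 1303)) (x (nat_lit 1307)) (x (nat_lit 1309))
    (x (nat_lit 1311)) (x (nat_lit 1315)) (x (nat_lit 1317)) (x (nat_lit 1325)) (x (nat_lit 1327))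
    (x (nat_lit 1329)) (x (nat_lit 1333)) (x (nat_lit 1335)) (x (nat_lit 1341)) (x (nat_lit 1351))
    (x (nat_lit 1353)) (x (nat_lit 1359)) (x (nat_lit 1379)) (x (nat_lit 1381)) (x (nat_lit 1383))
    (x (nat_lit 1387)) (x (nat_lit 1389)) (x (nat_lit 1395)) (x (nat_lit 1405)) (x (nat_lit 1407))
    (x (nat_lit 1413)) (x (nat_lit 1431)) (x (nat_lit 1475)) (x (nat_lit 1481)) (x (nat_lit 1483))
    (x (nat_lit 1493)) (x (nat_lit 1499)) (x (nat_lit 1501)) (x (nat_lit 1505)) (x (nat_lit 1507))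
    (x (nat_lit 1509)) (x (nat_lit 1517)) (x (nat_lit 1519)) (x (nat_lit 1523)) (x (nat_lit 1525))
    (x (nat_lit 1527)) (x (nat_lit 1531)) (x (nat_lit 1533)) (x (nat_lit 1547)) (x (nat_lit 1553))
    (x (nat_lit 1555)) (x (nat_lit 1559)) (x (nat_lit 1561)) (x (nat_lit 1563)) (x (nat_lit 1571))
    (x (nat_lit 1573)) (x (nat_lit 1577)) (x (nat_lit 1579)) (x (nat_lit 1581)) (x (nat_lit 1585))
    (x (nat_lit 1587)) (x (nat_lit 1595)) (x (nat_lit 1597)) (x (nat_lit 1599)) (x (nat_lit 1603))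
    (x (nat_lit 1605)) (x (nat_lit 1611)) (x (nat_lit 1625)) (x (nat_lit 1627)) (x (nat_lit 1631))
    (x (nat_lit 1633)) (x (nat_lit 1635)) (x (nat_lit 1639)) (x (nat_lit 1641)) (x (nat_lit 1649))
    (x (nat_lit 1651)) (x (nat_lit 1653)) (x (nat_lit 1657)) (x (nat_lit 1659)) (x (nat_lit 1665))
    (x (nat_lit 1675)) (x (nat_lit 1677)) (x (nat_lit 1683)) (x (nat_lit 1709)) (x (nat_lit 1715))
    (x (nat_lit 1717)) (x (nat_lit 1721)) (x (nat_lit 1723)) (x (nat_lit 1725)) (x (nat_lit 1733))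
    (x (nat_lit 1735)) (x (nat_lit 1739)) (x (nat_lit 1741)) (x (nat_lit 1743)) (x (nat_lit 1747))
    (x (nat_lit 1749)) (x (nat_lit 1757)) (x (nat_lit 1759)) (x (nat_lit 1761)) (x (nat_lit 1765))
    (x (nat_lit 1767)) (x (nat_lit 1773)) (x (nat_lit 1787)) (x (nat_lit 1789)) (x (nat_lit 1793))
    (x (nat_lit 1795)) (x (nat_lit 1797)) (x (nat_lit 1801)) (x (nat_lit 1803)) (x (nat_lit 1811))
    (x (nat_lit 1813)) (x (nat_lit 1815)) (x (nat_lit 1819)) (x (nat_lit 1821)) (x (nat_lit 1827))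
    (x (nat_lit 1837)) (x (nat_lit 1839)) (x (nat_lit 1845)) (x (nat_lit 1865)) (x (nat_lit 1867))
    (x (nat_lit 1869)) (x (nat_lit 1873)) (x (nat_lit 1875)) (x (nat_lit 1881)) (x (nat_lit 1891))
    (x (nat_lit 1893)) (x (nat_lit 1899)) (x (nat_lit 1917)) (x (nat_lit 1949)) (x (nat_lit 1951))
    (x (nat_lit 1955)) (x (nat_lit 1957)) (x (nat_lit 1959)) (x (nat_lit 1963)) (x (nat_lit 1965))
    (x (nat_lit 1973)) (x (nat_lit 1975)) (x (nat_lit 1977)) (x (nat_lit 1981)) (x (nat_lit 1983))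
    (x (nat_lit 1989)) (x (nat_lit 1999)) (x (nat_lit 2001)) (x (nat_lit 2007)) (x (nat_lit 2027))
    (x (nat_lit 2029)) (x (nat_lit 2031)) (x (nat_lit 2035)) (x (nat_lit 2037)) (x (nat_lit 2043))
    (x (nat_lit 2053)) (x (nat_lit 2055)) (x (nat_lit 2061)) (x (nat_lit 2079)) (x (nat_lit 2107))
    (x (nat_lit 2109)) (x (nat_lit 2115)) (x (nat_lit 2133))

theorem ap_eq (x : Nat → Nat) (k : FnLL cds) : apLL (fun t => x t.cd) cds k = ap x k :=
  Eq.refl (ap x k)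

theorem codes_ok : beqL (codes cds) (secL 7 7 0 []) = true := by decide +kernel

noncomputable def fin (f : Nat → Nat) (v1 : Nat) (
    x53 x71 x77 x79 x107 x125 x131 x133 x143 x149 x151 x155 x157 x159 x179 x185 x187 x197 x203 x205
    x209 x211 x213 x221 x223 x227 x229 x231 x235 x237 x269 x287 x293 x295 x305 x311 x313 x317 x319
    x321 x341 x347 x349 x359 x365 x367 x371 x373 x375 x383 x385 x389 x391 x393 x397 x399 x413 x419
    x421 x425 x427 x429 x437 x439 x443 x445 x447 x451 x453 x461 x463 x465 x469 x471 x477 x503 x509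
    x511 x521 x527 x529 x533 x535 x537 x545 x547 x551 x553 x555 x559 x561 x575 x581 x583 x587 x589
    x591 x599 x601 x605 x607 x609 x613 x615 x623 x625 x627 x631 x633 x639 x653 x655 x659 x661 x663
    x667 x669 x677 x679 x681 x685 x687 x693 x703 x705 x711 x755 x773 x779 x781 x791 x797 x799 x803
    x805 x807 x827 x833 x835 x845 x851 x853 x857 x859 x861 x869 x871 x875 x877 x879 x883 x885 x899
    x905 x907 x911 x913 x915 x923 x925 x929 x931 x933 x937 x939 x947 x949 x951 x955 x957 x963 x989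
    x995 x997 x1007 x1013 x1015 x1019 x1021 x1023 x1031 x1033 x1037 x1039 x1041 x1045 x1047 x1061
    x1067 x1069 x1073 x1075 x1077 x1085 x1087 x1091 x1093 x1095 x1099 x1101 x1109 x1111 x1113 x1117
    x1119 x1125 x1139 x1141 x1145 x1147 x1149 x1153 x1155 x1163 x1165 x1167 x1171 x1173 x1179 x1189
    x1191 x1197 x1223 x1229 x1231 x1235 x1237 x1239 x1247 x1249 x1253 x1255 x1257 x1261 x1263 x1271
    x1273 x1275 x1279 x1281 x1287 x1301 x1303 x1307 x1309 x1311 x1315 x1317 x1325 x1327 x1329 x1333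
    x1335 x1341 x1351 x1353 x1359 x1379 x1381 x1383 x1387 x1389 x1395 x1405 x1407 x1413 x1431 x1475
    x1481 x1483 x1493 x1499 x1501 x1505 x1507 x1509 x1517 x1519 x1523 x1525 x1527 x1531 x1533 x1547
    x1553 x1555 x1559 x1561 x1563 x1571 x1573 x1577 x1579 x1581 x1585 x1587 x1595 x1597 x1599 x1603
    x1605 x1611 x1625 x1627 x1631 x1633 x1635 x1639 x1641 x1649 x1651 x1653 x1657 x1659 x1665 x1675
    x1677 x1683 x1709 x1715 x1717 x1721 x1723 x1725 x1733 x1735 x1739 x1741 x1743 x1747 x1749 x1757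
    x1759 x1761 x1765 x1767 x1773 x1787 x1789 x1793 x1795 x1797 x1801 x1803 x1811 x1813 x1815 x1819
    x1821 x1827 x1837 x1839 x1845 x1865 x1867 x1869 x1873 x1875 x1881 x1891 x1893 x1899 x1917 x1949
    x1951 x1955 x1957 x1959 x1963 x1965 x1973 x1975 x1977 x1981 x1983 x1989 x1999 x2001 x2007 x2027
    x2029 x2031 x2035 x2037 x2043 x2053 x2055 x2061 x2079 x2107 x2109 x2115 x2133 : Nat) : Bool :=
  Nat.beq
    (Nat.add (Nat.add (f x53) (Nat.add (f x71) (Nat.add (f x77) (Nat.add (f x79) (Nat.add (f x107)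
    (Nat.add (f x125) (Nat.add (f x131) (Nat.add (f x133) (Nat.add (f x143) (Nat.add (f x149)
    (Nat.add (f x151) (Nat.add (f x155) (Nat.add (f x157) (Nat.add (f x159) (Nat.add (f x179)
    (Nat.add (f x185) (Nat.add (f x187) (Nat.add (f x197) (Nat.add (f x203) (Nat.add (f x205)
    (Nat.add (f x209) (Nat.add (f x211) (Nat.add (f x213) (Nat.add (f x221) (Nat.add (f x223)
    (Nat.add (f x227) (Nat.add (f x229) (Nat.add (f x231) (Nat.add (f x235) (Nat.add (f x237)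
    (Nat.add (f x269) (Nat.add (f x287) (Nat.add (f x293) (Nat.add (f x295) (Nat.add (f x305)
    (Nat.add (f x311) (Nat.add (f x313) (Nat.add (f x317) (Nat.add (f x319) (Nat.add (f x321)
    (Nat.add (f x341) (Nat.add (f x347) (Nat.add (f x349) (Nat.add (f x359) (Nat.add (f x365)
    (Nat.add (f x367) (Nat.add (f x371) (Nat.add (f x373) (Nat.add (f x375) (Nat.add (f x383)
    (Nat.add (f x385) (Nat.add (f x389) (Nat.add (f x391) (Nat.add (f x393) (Nat.add (f x397)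
    (Nat.add (f x399) (Nat.add (f x413) (Nat.add (f x419) (Nat.add (f x421) (Nat.add (f x425)
    0)))))))))))))))))))))))))))))))))))))))))))))))))))))))))))) (Nat.add (Nat.add (f x427)
    (Nat.add (f x429) (Nat.add (f x437) (Nat.add (f x439) (Nat.add (f x443) (Nat.add (f x445)
    (Nat.add (f x447) (Nat.add (f x451) (Nat.add (f x453) (Nat.add (f x461) (Nat.add (f x463)
    (Nat.add (f x465) (Nat.add (f x469) (Nat.add (f x471) (Nat.add (f x477) (Nat.add (f x503)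
    (Nat.add (f x509) (Nat.add (f x511) (Nat.add (f x521) (Nat.add (f x527) (Nat.add (f x529)
    (Nat.add (f x533) (Nat.add (f x535) (Nat.add (f x537) (Nat.add (f x545) (Nat.add (f x547)
    (Nat.add (f x551) (Nat.add (f x553) (Nat.add (f x555) (Nat.add (f x559) (Nat.add (f x561)
    (Nat.add (f x575) (Nat.add (f x581) (Nat.add (f x583) (Nat.add (f x587) (Nat.add (f x589)
    (Nat.add (f x591) (Nat.add (f x599) (Nat.add (f x601) (Nat.add (f x605) (Nat.add (f x607)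
    (Nat.add (f x609) (Nat.add (f x613) (Nat.add (f x615) (Nat.add (f x623) (Nat.add (f x625)
    (Nat.add (f x627) (Nat.add (f x631) (Nat.add (f x633) (Nat.add (f x639) (Nat.add (f x653)
    (Nat.add (f x655) (Nat.add (f x659) (Nat.add (f x661) (Nat.add (f x663) (Nat.add (f x667)
    (Nat.add (f x669) (Nat.add (f x677) (Nat.add (f x679) (Nat.add (f x681)
    0)))))))))))))))))))))))))))))))))))))))))))))))))))))))))))) (Nat.add (Nat.add (f x685)
    (Nat.add (f x687) (Nat.add (f x693) (Nat.add (f x703) (Nat.add (f x705) (Nat.add (f x711)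
    (Nat.add (f x755) (Nat.add (f x773) (Nat.add (f x779) (Nat.add (f x781) (Nat.add (f x791)
    (Nat.add (f x797) (Nat.add (f x799) (Nat.add (f x803) (Nat.add (f x805) (Nat.add (f x807)
    (Nat.add (f x827) (Nat.add (f x833) (Nat.add (f x835) (Nat.add (f x845) (Nat.add (f x851)
    (Nat.add (f x853) (Nat.add (f x857) (Nat.add (f x859) (Nat.add (f x861) (Nat.add (f x869)
    (Nat.add (f x871) (Nat.add (f x875) (Nat.add (f x877) (Nat.add (f x879) (Nat.add (f x883)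
    (Nat.add (f x885) (Nat.add (f x899) (Nat.add (f x905) (Nat.add (f x907) (Nat.add (f x911)
    (Nat.add (f x913) (Nat.add (f x915) (Nat.add (f x923) (Nat.add (f x925) (Nat.add (f x929)
    (Nat.add (f x931) (Nat.add (f x933) (Nat.add (f x937) (Nat.add (f x939) (Nat.add (f x947)
    (Nat.add (f x949) (Nat.add (f x951) (Nat.add (f x955) (Nat.add (f x957) (Nat.add (f x963)
    (Nat.add (f x989) (Nat.add (f x995) (Nat.add (f x997) (Nat.add (f x1007) (Nat.add (f x1013)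
    (Nat.add (f x1015) (Nat.add (f x1019) (Nat.add (f x1021) (Nat.add (f x1023)
    0)))))))))))))))))))))))))))))))))))))))))))))))))))))))))))) (Nat.add (Nat.add (f x1031)
    (Nat.add (f x1033) (Nat.add (f x1037) (Nat.add (f x1039) (Nat.add (f x1041) (Nat.add (f x1045)
    (Nat.add (f x1047) (Nat.add (f x1061) (Nat.add (f x1067) (Nat.add (f x1069) (Nat.add (f x1073)
    (Nat.add (f x1075) (Nat.add (f x1077) (Nat.add (f x1085) (Nat.add (f x1087) (Nat.add (f x1091)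
    (Nat.add (f x1093) (Nat.add (f x1095) (Nat.add (f x1099) (Nat.add (f x1101) (Nat.add (f x1109)
    (Nat.add (f x1111) (Nat.add (f x1113) (Nat.add (f x1117) (Nat.add (f x1119) (Nat.add (f x1125)
    (Nat.add (f x1139) (Nat.add (f x1141) (Nat.add (f x1145) (Nat.add (f x1147) (Nat.add (f x1149)
    (Nat.add (f x1153) (Nat.add (f x1155) (Nat.add (f x1163) (Nat.add (f x1165) (Nat.add (f x1167)
    (Nat.add (f x1171) (Nat.add (f x1173) (Nat.add (f x1179) (Nat.add (f x1189) (Nat.add (f x1191)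
    (Nat.add (f x1197) (Nat.add (f x1223) (Nat.add (f x1229) (Nat.add (f x1231) (Nat.add (f x1235)
    (Nat.add (f x1237) (Nat.add (f x1239) (Nat.add (f x1247) (Nat.add (f x1249) (Nat.add (f x1253)
    (Nat.add (f x1255) (Nat.add (f x1257) (Nat.add (f x1261) (Nat.add (f x1263) (Nat.add (f x1271)
    (Nat.add (f x1273) (Nat.add (f x1275) (Nat.add (f x1279) (Nat.add (f x1281)
    0)))))))))))))))))))))))))))))))))))))))))))))))))))))))))))) (Nat.add (Nat.add (f x1287)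
    (Nat.add (f x1301) (Nat.add (f x1303) (Nat.add (f x1307) (Nat.add (f x1309) (Nat.add (f x1311)
    (Nat.add (f x1315) (Nat.add (f x1317) (Nat.add (f x1325) (Nat.add (f x1327) (Nat.add (f x1329)
    (Nat.add (f x1333) (Nat.add (f x1335) (Nat.add (f x1341) (Nat.add (f x1351) (Nat.add (f x1353)
    (Nat.add (f x1359) (Nat.add (f x1379) (Nat.add (f x1381) (Nat.add (f x1383) (Nat.add (f x1387)
    (Nat.add (f x1389) (Nat.add (f x1395) (Nat.add (f x1405) (Nat.add (f x1407) (Nat.add (f x1413)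
    (Nat.add (f x1431) (Nat.add (f x1475) (Nat.add (f x1481) (Nat.add (f x1483) (Nat.add (f x1493)
    (Nat.add (f x1499) (Nat.add (f x1501) (Nat.add (f x1505) (Nat.add (f x1507) (Nat.add (f x1509)
    (Nat.add (f x1517) (Nat.add (f x1519) (Nat.add (f x1523) (Nat.add (f x1525) (Nat.add (f x1527)
    (Nat.add (f x1531) (Nat.add (f x1533) (Nat.add (f x1547) (Nat.add (f x1553) (Nat.add (f x1555)
    (Nat.add (f x1559) (Nat.add (f x1561) (Nat.add (f x1563) (Nat.add (f x1571) (Nat.add (f x1573)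
    (Nat.add (f x1577) (Nat.add (f x1579) (Nat.add (f x1581) (Nat.add (f x1585) (Nat.add (f x1587)
    (Nat.add (f x1595) (Nat.add (f x1597) (Nat.add (f x1599) (Nat.add (f x1603)
    0)))))))))))))))))))))))))))))))))))))))))))))))))))))))))))) (Nat.add (Nat.add (f x1605)
    (Nat.add (f x1611) (Nat.add (f x1625) (Nat.add (f x1627) (Nat.add (f x1631) (Nat.add (f x1633)
    (Nat.add (f x1635) (Nat.add (f x1639) (Nat.add (f x1641) (Nat.add (f x1649) (Nat.add (f x1651)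
    (Nat.add (f x1653) (Nat.add (f x1657) (Nat.add (f x1659) (Nat.add (f x1665) (Nat.add (f x1675)
    (Nat.add (f x1677) (Nat.add (f x1683) (Nat.add (f x1709) (Nat.add (f x1715) (Nat.add (f x1717)
    (Nat.add (f x1721) (Nat.add (f x1723) (Nat.add (f x1725) (Nat.add (f x1733) (Nat.add (f x1735)
    (Nat.add (f x1739) (Nat.add (f x1741) (Nat.add (f x1743) (Nat.add (f x1747) (Nat.add (f x1749)
    (Nat.add (f x1757) (Nat.add (f x1759) (Nat.add (f x1761) (Nat.add (f x1765) (Nat.add (f x1767)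
    (Nat.add (f x1773) (Nat.add (f x1787) (Nat.add (f x1789) (Nat.add (f x1793) (Nat.add (f x1795)
    (Nat.add (f x1797) (Nat.add (f x1801) (Nat.add (f x1803) (Nat.add (f x1811) (Nat.add (f x1813)
    (Nat.add (f x1815) (Nat.add (f x1819) (Nat.add (f x1821) (Nat.add (f x1827) (Nat.add (f x1837)
    (Nat.add (f x1839) (Nat.add (f x1845) (Nat.add (f x1865) (Nat.add (f x1867) (Nat.add (f x1869)
    (Nat.add (f x1873) (Nat.add (f x1875) (Nat.add (f x1881) (Nat.add (f x1891)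
    0)))))))))))))))))))))))))))))))))))))))))))))))))))))))))))) (Nat.add (Nat.add (f x1893)
    (Nat.add (f x1899) (Nat.add (f x1917) (Nat.add (f x1949) (Nat.add (f x1951) (Nat.add (f x1955)
    (Nat.add (f x1957) (Nat.add (f x1959) (Nat.add (f x1963) (Nat.add (f x1965) (Nat.add (f x1973)
    (Nat.add (f x1975) (Nat.add (f x1977) (Nat.add (f x1981) (Nat.add (f x1983) (Nat.add (f x1989)
    (Nat.add (f x1999) (Nat.add (f x2001) (Nat.add (f x2007) (Nat.add (f x2027) (Nat.add (f x2029)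
    (Nat.add (f x2031) (Nat.add (f x2035) (Nat.add (f x2037) (Nat.add (f x2043) (Nat.add (f x2053)
    (Nat.add (f x2055) (Nat.add (f x2061) (Nat.add (f x2079) (Nat.add (f x2107) (Nat.add (f x2109)
    (Nat.add (f x2115) (Nat.add (f x2133) 0))))))))))))))))))))))))))))))))) 0))))))) v1

theorem fin_eq0 (f : Nat → Nat) (v1 : Nat) (x : Nat → Nat) :
    apLL (fun t => x t.cd) cds (fin f v1) = Nat.beq (sum2 (fun t => f (x t.cd)) cds) v1 :=
  Eq.refl (apLL (fun t => x t.cd) cds (fin f v1))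

theorem fin_eq (f : Nat → Nat) (v1 : Nat) (x : Nat → Nat) :
    ap x (fin f v1) = Nat.beq (sumL (fun s => f (x s)) (secL 7 7 0 [])) v1 :=
  ((ap_eq x (fin f v1)).symm.trans (fin_eq0 f v1 x)).trans
    (congrArg (fun z => Nat.beq z v1) (sum2_eq cds _ codes_ok (fun s => f (x s))))

noncomputable def fin2 (f : Nat → Nat) (v1 v2 : Nat) (
    x53 x71 x77 x79 x107 x125 x131 x133 x143 x149 x151 x155 x157 x159 x179 x185 x187 x197 x203 x205
    x209 x211 x213 x221 x223 x227 x229 x231 x235 x237 x269 x287 x293 x295 x305 x311 x313 x317 x319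
    x321 x341 x347 x349 x359 x365 x367 x371 x373 x375 x383 x385 x389 x391 x393 x397 x399 x413 x419
    x421 x425 x427 x429 x437 x439 x443 x445 x447 x451 x453 x461 x463 x465 x469 x471 x477 x503 x509
    x511 x521 x527 x529 x533 x535 x537 x545 x547 x551 x553 x555 x559 x561 x575 x581 x583 x587 x589
    x591 x599 x601 x605 x607 x609 x613 x615 x623 x625 x627 x631 x633 x639 x653 x655 x659 x661 x663
    x667 x669 x677 x679 x681 x685 x687 x693 x703 x705 x711 x755 x773 x779 x781 x791 x797 x799 x803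
    x805 x807 x827 x833 x835 x845 x851 x853 x857 x859 x861 x869 x871 x875 x877 x879 x883 x885 x899
    x905 x907 x911 x913 x915 x923 x925 x929 x931 x933 x937 x939 x947 x949 x951 x955 x957 x963 x989
    x995 x997 x1007 x1013 x1015 x1019 x1021 x1023 x1031 x1033 x1037 x1039 x1041 x1045 x1047 x1061
    x1067 x1069 x1073 x1075 x1077 x1085 x1087 x1091 x1093 x1095 x1099 x1101 x1109 x1111 x1113 x1117
    x1119 x1125 x1139 x1141 x1145 x1147 x1149 x1153 x1155 x1163 x1165 x1167 x1171 x1173 x1179 x1189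
    x1191 x1197 x1223 x1229 x1231 x1235 x1237 x1239 x1247 x1249 x1253 x1255 x1257 x1261 x1263 x1271
    x1273 x1275 x1279 x1281 x1287 x1301 x1303 x1307 x1309 x1311 x1315 x1317 x1325 x1327 x1329 x1333
    x1335 x1341 x1351 x1353 x1359 x1379 x1381 x1383 x1387 x1389 x1395 x1405 x1407 x1413 x1431 x1475
    x1481 x1483 x1493 x1499 x1501 x1505 x1507 x1509 x1517 x1519 x1523 x1525 x1527 x1531 x1533 x1547
    x1553 x1555 x1559 x1561 x1563 x1571 x1573 x1577 x1579 x1581 x1585 x1587 x1595 x1597 x1599 x1603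
    x1605 x1611 x1625 x1627 x1631 x1633 x1635 x1639 x1641 x1649 x1651 x1653 x1657 x1659 x1665 x1675
    x1677 x1683 x1709 x1715 x1717 x1721 x1723 x1725 x1733 x1735 x1739 x1741 x1743 x1747 x1749 x1757
    x1759 x1761 x1765 x1767 x1773 x1787 x1789 x1793 x1795 x1797 x1801 x1803 x1811 x1813 x1815 x1819
    x1821 x1827 x1837 x1839 x1845 x1865 x1867 x1869 x1873 x1875 x1881 x1891 x1893 x1899 x1917 x1949
    x1951 x1955 x1957 x1959 x1963 x1965 x1973 x1975 x1977 x1981 x1983 x1989 x1999 x2001 x2007 x2027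
    x2029 x2031 x2035 x2037 x2043 x2053 x2055 x2061 x2079 x2107 x2109 x2115 x2133 : Nat) : Bool :=
  and (Nat.beq
    (Nat.add (Nat.add (f x53) (Nat.add (f x71) (Nat.add (f x77) (Nat.add (f x79) (Nat.add (f x107)
    (Nat.add (f x125) (Nat.add (f x131) (Nat.add (f x133) (Nat.add (f x143) (Nat.add (f x149)
    (Nat.add (f x151) (Nat.add (f x155) (Nat.add (f x157) (Nat.add (f x159) (Nat.add (f x179)
    (Nat.add (f x185) (Nat.add (f x187) (Nat.add (f x197) (Nat.add (f x203) (Nat.add (f x205)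
    (Nat.add (f x209) (Nat.add (f x211) (Nat.add (f x213) (Nat.add (f x221) (Nat.add (f x223)
    (Nat.add (f x227) (Nat.add (f x229) (Nat.add (f x231) (Nat.add (f x235) (Nat.add (f x237)
    (Nat.add (f x269) (Nat.add (f x287) (Nat.add (f x293) (Nat.add (f x295) (Nat.add (f x305)
    (Nat.add (f x311) (Nat.add (f x313) (Nat.add (f x317) (Nat.add (f x319) (Nat.add (f x321)
    (Nat.add (f x341) (Nat.add (f x347) (Nat.add (f x349) (Nat.add (f x359) (Nat.add (f x365)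
    (Nat.add (f x367) (Nat.add (f x371) (Nat.add (f x373) (Nat.add (f x375) (Nat.add (f x383)
    (Nat.add (f x385) (Nat.add (f x389) (Nat.add (f x391) (Nat.add (f x393) (Nat.add (f x397)
    (Nat.add (f x399) (Nat.add (f x413) (Nat.add (f x419) (Nat.add (f x421) (Nat.add (f x425)
    0)))))))))))))))))))))))))))))))))))))))))))))))))))))))))))) (Nat.add (Nat.add (f x427)
    (Nat.add (f x429) (Nat.add (f x437) (Nat.add (f x439) (Nat.add (f x443) (Nat.add (f x445)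
    (Nat.add (f x447) (Nat.add (f x451) (Nat.add (f x453) (Nat.add (f x461) (Nat.add (f x463)
    (Nat.add (f x465) (Nat.add (f x469) (Nat.add (f x471) (Nat.add (f x477) (Nat.add (f x503)
    (Nat.add (f x509) (Nat.add (f x511) (Nat.add (f x521) (Nat.add (f x527) (Nat.add (f x529)
    (Nat.add (f x533) (Nat.add (f x535) (Nat.add (f x537) (Nat.add (f x545) (Nat.add (f x547)
    (Nat.add (f x551) (Nat.add (f x553) (Nat.add (f x555) (Nat.add (f x559) (Nat.add (f x561)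
    (Nat.add (f x575) (Nat.add (f x581) (Nat.add (f x583) (Nat.add (f x587) (Nat.add (f x589)
    (Nat.add (f x591) (Nat.add (f x599) (Nat.add (f x601) (Nat.add (f x605) (Nat.add (f x607)
    (Nat.add (f x609) (Nat.add (f x613) (Nat.add (f x615) (Nat.add (f x623) (Nat.add (f x625)
    (Nat.add (f x627) (Nat.add (f x631) (Nat.add (f x633) (Nat.add (f x639) (Nat.add (f x653)
    (Nat.add (f x655) (Nat.add (f x659) (Nat.add (f x661) (Nat.add (f x663) (Nat.add (f x667)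
    (Nat.add (f x669) (Nat.add (f x677) (Nat.add (f x679) (Nat.add (f x681)
    0)))))))))))))))))))))))))))))))))))))))))))))))))))))))))))) (Nat.add (Nat.add (f x685)
    (Nat.add (f x687) (Nat.add (f x693) (Nat.add (f x703) (Nat.add (f x705) (Nat.add (f x711)
    (Nat.add (f x755) (Nat.add (f x773) (Nat.add (f x779) (Nat.add (f x781) (Nat.add (f x791)
    (Nat.add (f x797) (Nat.add (f x799) (Nat.add (f x803) (Nat.add (f x805) (Nat.add (f x807)
    (Nat.add (f x827) (Nat.add (f x833) (Nat.add (f x835) (Nat.add (f x845) (Nat.add (f x851)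
    (Nat.add (f x853) (Nat.add (f x857) (Nat.add (f x859) (Nat.add (f x861) (Nat.add (f x869)
    (Nat.add (f x871) (Nat.add (f x875) (Nat.add (f x877) (Nat.add (f x879) (Nat.add (f x883)
    (Nat.add (f x885) (Nat.add (f x899) (Nat.add (f x905) (Nat.add (f x907) (Nat.add (f x911)
    (Nat.add (f x913) (Nat.add (f x915) (Nat.add (f x923) (Nat.add (f x925) (Nat.add (f x929)
    (Nat.add (f x931) (Nat.add (f x933) (Nat.add (f x937) (Nat.add (f x939) (Nat.add (f x947)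
    (Nat.add (f x949) (Nat.add (f x951) (Nat.add (f x955) (Nat.add (f x957) (Nat.add (f x963)
    (Nat.add (f x989) (Nat.add (f x995) (Nat.add (f x997) (Nat.add (f x1007) (Nat.add (f x1013)
    (Nat.add (f x1015) (Nat.add (f x1019) (Nat.add (f x1021) (Nat.add (f x1023)
    0)))))))))))))))))))))))))))))))))))))))))))))))))))))))))))) (Nat.add (Nat.add (f x1031)
    (Nat.add (f x1033) (Nat.add (f x1037) (Nat.add (f x1039) (Nat.add (f x1041) (Nat.add (f x1045)
    (Nat.add (f x1047) (Nat.add (f x1061) (Nat.add (f x1067) (Nat.add (f x1069) (Nat.add (f x1073)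
    (Nat.add (f x1075) (Nat.add (f x1077) (Nat.add (f x1085) (Nat.add (f x1087) (Nat.add (f x1091)
    (Nat.add (f x1093) (Nat.add (f x1095) (Nat.add (f x1099) (Nat.add (f x1101) (Nat.add (f x1109)
    (Nat.add (f x1111) (Nat.add (f x1113) (Nat.add (f x1117) (Nat.add (f x1119) (Nat.add (f x1125)
    (Nat.add (f x1139) (Nat.add (f x1141) (Nat.add (f x1145) (Nat.add (f x1147) (Nat.add (f x1149)
    (Nat.add (f x1153) (Nat.add (f x1155) (Nat.add (f x1163) (Nat.add (f x1165) (Nat.add (f x1167)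
    (Nat.add (f x1171) (Nat.add (f x1173) (Nat.add (f x1179) (Nat.add (f x1189) (Nat.add (f x1191)
    (Nat.add (f x1197) (Nat.add (f x1223) (Nat.add (f x1229) (Nat.add (f x1231) (Nat.add (f x1235)
    (Nat.add (f x1237) (Nat.add (f x1239) (Nat.add (f x1247) (Nat.add (f x1249) (Nat.add (f x1253)
    (Nat.add (f x1255) (Nat.add (f x1257) (Nat.add (f x1261) (Nat.add (f x1263) (Nat.add (f x1271)
    (Nat.add (f x1273) (Nat.add (f x1275) (Nat.add (f x1279) (Nat.add (f x1281)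
    0)))))))))))))))))))))))))))))))))))))))))))))))))))))))))))) (Nat.add (Nat.add (f x1287)
    (Nat.add (f x1301) (Nat.add (f x1303) (Nat.add (f x1307) (Nat.add (f x1309) (Nat.add (f x1311)
    (Nat.add (f x1315) (Nat.add (f x1317) (Nat.add (f x1325) (Nat.add (f x1327) (Nat.add (f x1329)
    (Nat.add (f x1333) (Nat.add (f x1335) (Nat.add (f x1341) (Nat.add (f x1351) (Nat.add (f x1353)
    (Nat.add (f x1359) (Nat.add (f x1379) (Nat.add (f x1381) (Nat.add (f x1383) (Nat.add (f x1387)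
    (Nat.add (f x1389) (Nat.add (f x1395) (Nat.add (f x1405) (Nat.add (f x1407) (Nat.add (f x1413)
    (Nat.add (f x1431) (Nat.add (f x1475) (Nat.add (f x1481) (Nat.add (f x1483) (Nat.add (f x1493)
    (Nat.add (f x1499) (Nat.add (f x1501) (Nat.add (f x1505) (Nat.add (f x1507) (Nat.add (f x1509)
    (Nat.add (f x1517) (Nat.add (f x1519) (Nat.add (f x1523) (Nat.add (f x1525) (Nat.add (f x1527)
    (Nat.add (f x1531) (Nat.add (f x1533) (Nat.add (f x1547) (Nat.add (f x1553) (Nat.add (f x1555)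
    (Nat.add (f x1559) (Nat.add (f x1561) (Nat.add (f x1563) (Nat.add (f x1571) (Nat.add (f x1573)
    (Nat.add (f x1577) (Nat.add (f x1579) (Nat.add (f x1581) (Nat.add (f x1585) (Nat.add (f x1587)
    (Nat.add (f x1595) (Nat.add (f x1597) (Nat.add (f x1599) (Nat.add (f x1603)
    0)))))))))))))))))))))))))))))))))))))))))))))))))))))))))))) (Nat.add (Nat.add (f x1605)
    (Nat.add (f x1611) (Nat.add (f x1625) (Nat.add (f x1627) (Nat.add (f x1631) (Nat.add (f x1633)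
    (Nat.add (f x1635) (Nat.add (f x1639) (Nat.add (f x1641) (Nat.add (f x1649) (Nat.add (f x1651)
    (Nat.add (f x1653) (Nat.add (f x1657) (Nat.add (f x1659) (Nat.add (f x1665) (Nat.add (f x1675)
    (Nat.add (f x1677) (Nat.add (f x1683) (Nat.add (f x1709) (Nat.add (f x1715) (Nat.add (f x1717)
    (Nat.add (f x1721) (Nat.add (f x1723) (Nat.add (f x1725) (Nat.add (f x1733) (Nat.add (f x1735)
    (Nat.add (f x1739) (Nat.add (f x1741) (Nat.add (f x1743) (Nat.add (f x1747) (Nat.add (f x1749)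
    (Nat.add (f x1757) (Nat.add (f x1759) (Nat.add (f x1761) (Nat.add (f x1765) (Nat.add (f x1767)
    (Nat.add (f x1773) (Nat.add (f x1787) (Nat.add (f x1789) (Nat.add (f x1793) (Nat.add (f x1795)
    (Nat.add (f x1797) (Nat.add (f x1801) (Nat.add (f x1803) (Nat.add (f x1811) (Nat.add (f x1813)
    (Nat.add (f x1815) (Nat.add (f x1819) (Nat.add (f x1821) (Nat.add (f x1827) (Nat.add (f x1837)
    (Nat.add (f x1839) (Nat.add (f x1845) (Nat.add (f x1865) (Nat.add (f x1867) (Nat.add (f x1869)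
    (Nat.add (f x1873) (Nat.add (f x1875) (Nat.add (f x1881) (Nat.add (f x1891)
    0)))))))))))))))))))))))))))))))))))))))))))))))))))))))))))) (Nat.add (Nat.add (f x1893)
    (Nat.add (f x1899) (Nat.add (f x1917) (Nat.add (f x1949) (Nat.add (f x1951) (Nat.add (f x1955)
    (Nat.add (f x1957) (Nat.add (f x1959) (Nat.add (f x1963) (Nat.add (f x1965) (Nat.add (f x1973)
    (Nat.add (f x1975) (Nat.add (f x1977) (Nat.add (f x1981) (Nat.add (f x1983) (Nat.add (f x1989)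
    (Nat.add (f x1999) (Nat.add (f x2001) (Nat.add (f x2007) (Nat.add (f x2027) (Nat.add (f x2029)
    (Nat.add (f x2031) (Nat.add (f x2035) (Nat.add (f x2037) (Nat.add (f x2043) (Nat.add (f x2053)
    (Nat.add (f x2055) (Nat.add (f x2061) (Nat.add (f x2079) (Nat.add (f x2107) (Nat.add (f x2109)
    (Nat.add (f x2115) (Nat.add (f x2133) 0))))))))))))))))))))))))))))))))) 0))))))) v1) (Nat.beq
    (Nat.add (Nat.add (f (Nat.add x53 x2133)) (Nat.add (f (Nat.add x71 x2115)) (Nat.add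
    (f (Nat.add x77 x2109)) (Nat.add (f (Nat.add x79 x2107)) (Nat.add (f (Nat.add x107 x2079))
    (Nat.add (f (Nat.add x125 x2061)) (Nat.add (f (Nat.add x131 x2055)) (Nat.add
    (f (Nat.add x133 x2053)) (Nat.add (f (Nat.add x143 x2043)) (Nat.add (f (Nat.add x149 x2037))
    (Nat.add (f (Nat.add x151 x2035)) (Nat.add (f (Nat.add x155 x2031)) (Nat.add
    (f (Nat.add x157 x2029)) (Nat.add (f (Nat.add x159 x2027)) (Nat.add (f (Nat.add x179 x2007))
    (Nat.add (f (Nat.add x185 x2001)) (Nat.add (f (Nat.add x187 x1999)) (Nat.add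
    (f (Nat.add x197 x1989)) (Nat.add (f (Nat.add x203 x1983)) (Nat.add (f (Nat.add x205 x1981))
    (Nat.add (f (Nat.add x209 x1977)) (Nat.add (f (Nat.add x211 x1975)) (Nat.add
    (f (Nat.add x213 x1973)) (Nat.add (f (Nat.add x221 x1965)) (Nat.add (f (Nat.add x223 x1963))
    (Nat.add (f (Nat.add x227 x1959)) (Nat.add (f (Nat.add x229 x1957)) (Nat.add
    (f (Nat.add x231 x1955)) (Nat.add (f (Nat.add x235 x1951)) (Nat.add (f (Nat.add x237 x1949))
    (Nat.add (f (Nat.add x269 x1917)) (Nat.add (f (Nat.add x287 x1899)) (Nat.add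
    (f (Nat.add x293 x1893)) (Nat.add (f (Nat.add x295 x1891)) (Nat.add (f (Nat.add x305 x1881))
    (Nat.add (f (Nat.add x311 x1875)) (Nat.add (f (Nat.add x313 x1873)) (Nat.add
    (f (Nat.add x317 x1869)) (Nat.add (f (Nat.add x319 x1867)) (Nat.add (f (Nat.add x321 x1865))
    (Nat.add (f (Nat.add x341 x1845)) (Nat.add (f (Nat.add x347 x1839)) (Nat.add
    (f (Nat.add x349 x1837)) (Nat.add (f (Nat.add x359 x1827)) (Nat.add (f (Nat.add x365 x1821))
    (Nat.add (f (Nat.add x367 x1819)) (Nat.add (f (Nat.add x371 x1815)) (Nat.add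
    (f (Nat.add x373 x1813)) (Nat.add (f (Nat.add x375 x1811)) (Nat.add (f (Nat.add x383 x1803))
    (Nat.add (f (Nat.add x385 x1801)) (Nat.add (f (Nat.add x389 x1797)) (Nat.add
    (f (Nat.add x391 x1795)) (Nat.add (f (Nat.add x393 x1793)) (Nat.add (f (Nat.add x397 x1789))
    (Nat.add (f (Nat.add x399 x1787)) (Nat.add (f (Nat.add x413 x1773)) (Nat.add
    (f (Nat.add x419 x1767)) (Nat.add (f (Nat.add x421 x1765)) (Nat.add (f (Nat.add x425 x1761))
    0)))))))))))))))))))))))))))))))))))))))))))))))))))))))))))) (Nat.add (Nat.add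
    (f (Nat.add x427 x1759)) (Nat.add (f (Nat.add x429 x1757)) (Nat.add (f (Nat.add x437 x1749))
    (Nat.add (f (Nat.add x439 x1747)) (Nat.add (f (Nat.add x443 x1743)) (Nat.add
    (f (Nat.add x445 x1741)) (Nat.add (f (Nat.add x447 x1739)) (Nat.add (f (Nat.add x451 x1735))
    (Nat.add (f (Nat.add x453 x1733)) (Nat.add (f (Nat.add x461 x1725)) (Nat.add
    (f (Nat.add x463 x1723)) (Nat.add (f (Nat.add x465 x1721)) (Nat.add (f (Nat.add x469 x1717))
    (Nat.add (f (Nat.add x471 x1715)) (Nat.add (f (Nat.add x477 x1709)) (Nat.add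
    (f (Nat.add x503 x1683)) (Nat.add (f (Nat.add x509 x1677)) (Nat.add (f (Nat.add x511 x1675))
    (Nat.add (f (Nat.add x521 x1665)) (Nat.add (f (Nat.add x527 x1659)) (Nat.add
    (f (Nat.add x529 x1657)) (Nat.add (f (Nat.add x533 x1653)) (Nat.add (f (Nat.add x535 x1651))
    (Nat.add (f (Nat.add x537 x1649)) (Nat.add (f (Nat.add x545 x1641)) (Nat.add
    (f (Nat.add x547 x1639)) (Nat.add (f (Nat.add x551 x1635)) (Nat.add (f (Nat.add x553 x1633))
    (Nat.add (f (Nat.add x555 x1631)) (Nat.add (f (Nat.add x559 x1627)) (Nat.add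
    (f (Nat.add x561 x1625)) (Nat.add (f (Nat.add x575 x1611)) (Nat.add (f (Nat.add x581 x1605))
    (Nat.add (f (Nat.add x583 x1603)) (Nat.add (f (Nat.add x587 x1599)) (Nat.add
    (f (Nat.add x589 x1597)) (Nat.add (f (Nat.add x591 x1595)) (Nat.add (f (Nat.add x599 x1587))
    (Nat.add (f (Nat.add x601 x1585)) (Nat.add (f (Nat.add x605 x1581)) (Nat.add
    (f (Nat.add x607 x1579)) (Nat.add (f (Nat.add x609 x1577)) (Nat.add (f (Nat.add x613 x1573))
    (Nat.add (f (Nat.add x615 x1571)) (Nat.add (f (Nat.add x623 x1563)) (Nat.add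
    (f (Nat.add x625 x1561)) (Nat.add (f (Nat.add x627 x1559)) (Nat.add (f (Nat.add x631 x1555))
    (Nat.add (f (Nat.add x633 x1553)) (Nat.add (f (Nat.add x639 x1547)) (Nat.add
    (f (Nat.add x653 x1533)) (Nat.add (f (Nat.add x655 x1531)) (Nat.add (f (Nat.add x659 x1527))
    (Nat.add (f (Nat.add x661 x1525)) (Nat.add (f (Nat.add x663 x1523)) (Nat.add
    (f (Nat.add x667 x1519)) (Nat.add (f (Nat.add x669 x1517)) (Nat.add (f (Nat.add x677 x1509))
    (Nat.add (f (Nat.add x679 x1507)) (Nat.add (f (Nat.add x681 x1505))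
    0)))))))))))))))))))))))))))))))))))))))))))))))))))))))))))) (Nat.add (Nat.add
    (f (Nat.add x685 x1501)) (Nat.add (f (Nat.add x687 x1499)) (Nat.add (f (Nat.add x693 x1493))
    (Nat.add (f (Nat.add x703 x1483)) (Nat.add (f (Nat.add x705 x1481)) (Nat.add
    (f (Nat.add x711 x1475)) (Nat.add (f (Nat.add x755 x1431)) (Nat.add (f (Nat.add x773 x1413))
    (Nat.add (f (Nat.add x779 x1407)) (Nat.add (f (Nat.add x781 x1405)) (Nat.add
    (f (Nat.add x791 x1395)) (Nat.add (f (Nat.add x797 x1389)) (Nat.add (f (Nat.add x799 x1387))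
    (Nat.add (f (Nat.add x803 x1383)) (Nat.add (f (Nat.add x805 x1381)) (Nat.add
    (f (Nat.add x807 x1379)) (Nat.add (f (Nat.add x827 x1359)) (Nat.add (f (Nat.add x833 x1353))
    (Nat.add (f (Nat.add x835 x1351)) (Nat.add (f (Nat.add x845 x1341)) (Nat.add
    (f (Nat.add x851 x1335)) (Nat.add (f (Nat.add x853 x1333)) (Nat.add (f (Nat.add x857 x1329))
    (Nat.add (f (Nat.add x859 x1327)) (Nat.add (f (Nat.add x861 x1325)) (Nat.add
    (f (Nat.add x869 x1317)) (Nat.add (f (Nat.add x871 x1315)) (Nat.add (f (Nat.add x875 x1311))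
    (Nat.add (f (Nat.add x877 x1309)) (Nat.add (f (Nat.add x879 x1307)) (Nat.add
    (f (Nat.add x883 x1303)) (Nat.add (f (Nat.add x885 x1301)) (Nat.add (f (Nat.add x899 x1287))
    (Nat.add (f (Nat.add x905 x1281)) (Nat.add (f (Nat.add x907 x1279)) (Nat.add
    (f (Nat.add x911 x1275)) (Nat.add (f (Nat.add x913 x1273)) (Nat.add (f (Nat.add x915 x1271))
    (Nat.add (f (Nat.add x923 x1263)) (Nat.add (f (Nat.add x925 x1261)) (Nat.add
    (f (Nat.add x929 x1257)) (Nat.add (f (Nat.add x931 x1255)) (Nat.add (f (Nat.add x933 x1253))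
    (Nat.add (f (Nat.add x937 x1249)) (Nat.add (f (Nat.add x939 x1247)) (Nat.add
    (f (Nat.add x947 x1239)) (Nat.add (f (Nat.add x949 x1237)) (Nat.add (f (Nat.add x951 x1235))
    (Nat.add (f (Nat.add x955 x1231)) (Nat.add (f (Nat.add x957 x1229)) (Nat.add
    (f (Nat.add x963 x1223)) (Nat.add (f (Nat.add x989 x1197)) (Nat.add (f (Nat.add x995 x1191))
    (Nat.add (f (Nat.add x997 x1189)) (Nat.add (f (Nat.add x1007 x1179)) (Nat.add
    (f (Nat.add x1013 x1173)) (Nat.add (f (Nat.add x1015 x1171)) (Nat.add (f (Nat.add x1019 x1167))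
    (Nat.add (f (Nat.add x1021 x1165)) (Nat.add (f (Nat.add x1023 x1163))
    0)))))))))))))))))))))))))))))))))))))))))))))))))))))))))))) (Nat.add (Nat.add
    (f (Nat.add x1031 x1155)) (Nat.add (f (Nat.add x1033 x1153)) (Nat.add (f (Nat.add x1037 x1149))
    (Nat.add (f (Nat.add x1039 x1147)) (Nat.add (f (Nat.add x1041 x1145)) (Nat.add
    (f (Nat.add x1045 x1141)) (Nat.add (f (Nat.add x1047 x1139)) (Nat.add (f (Nat.add x1061 x1125))
    (Nat.add (f (Nat.add x1067 x1119)) (Nat.add (f (Nat.add x1069 x1117)) (Nat.add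
    (f (Nat.add x1073 x1113)) (Nat.add (f (Nat.add x1075 x1111)) (Nat.add (f (Nat.add x1077 x1109))
    (Nat.add (f (Nat.add x1085 x1101)) (Nat.add (f (Nat.add x1087 x1099)) (Nat.add
    (f (Nat.add x1091 x1095)) (Nat.add (f (Nat.add x1093 x1093)) (Nat.add (f (Nat.add x1095 x1091))
    (Nat.add (f (Nat.add x1099 x1087)) (Nat.add (f (Nat.add x1101 x1085)) (Nat.add
    (f (Nat.add x1109 x1077)) (Nat.add (f (Nat.add x1111 x1075)) (Nat.add (f (Nat.add x1113 x1073))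
    (Nat.add (f (Nat.add x1117 x1069)) (Nat.add (f (Nat.add x1119 x1067)) (Nat.add
    (f (Nat.add x1125 x1061)) (Nat.add (f (Nat.add x1139 x1047)) (Nat.add (f (Nat.add x1141 x1045))
    (Nat.add (f (Nat.add x1145 x1041)) (Nat.add (f (Nat.add x1147 x1039)) (Nat.add
    (f (Nat.add x1149 x1037)) (Nat.add (f (Nat.add x1153 x1033)) (Nat.add (f (Nat.add x1155 x1031))
    (Nat.add (f (Nat.add x1163 x1023)) (Nat.add (f (Nat.add x1165 x1021)) (Nat.add
    (f (Nat.add x1167 x1019)) (Nat.add (f (Nat.add x1171 x1015)) (Nat.add (f (Nat.add x1173 x1013))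
    (Nat.add (f (Nat.add x1179 x1007)) (Nat.add (f (Nat.add x1189 x997)) (Nat.add
    (f (Nat.add x1191 x995)) (Nat.add (f (Nat.add x1197 x989)) (Nat.add (f (Nat.add x1223 x963))
    (Nat.add (f (Nat.add x1229 x957)) (Nat.add (f (Nat.add x1231 x955)) (Nat.add
    (f (Nat.add x1235 x951)) (Nat.add (f (Nat.add x1237 x949)) (Nat.add (f (Nat.add x1239 x947))
    (Nat.add (f (Nat.add x1247 x939)) (Nat.add (f (Nat.add x1249 x937)) (Nat.add
    (f (Nat.add x1253 x933)) (Nat.add (f (Nat.add x1255 x931)) (Nat.add (f (Nat.add x1257 x929))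
    (Nat.add (f (Nat.add x1261 x925)) (Nat.add (f (Nat.add x1263 x923)) (Nat.add
    (f (Nat.add x1271 x915)) (Nat.add (f (Nat.add x1273 x913)) (Nat.add (f (Nat.add x1275 x911))
    (Nat.add (f (Nat.add x1279 x907)) (Nat.add (f (Nat.add x1281 x905))
    0)))))))))))))))))))))))))))))))))))))))))))))))))))))))))))) (Nat.add (Nat.add
    (f (Nat.add x1287 x899)) (Nat.add (f (Nat.add x1301 x885)) (Nat.add (f (Nat.add x1303 x883))
    (Nat.add (f (Nat.add x1307 x879)) (Nat.add (f (Nat.add x1309 x877)) (Nat.add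
    (f (Nat.add x1311 x875)) (Nat.add (f (Nat.add x1315 x871)) (Nat.add (f (Nat.add x1317 x869))
    (Nat.add (f (Nat.add x1325 x861)) (Nat.add (f (Nat.add x1327 x859)) (Nat.add
    (f (Nat.add x1329 x857)) (Nat.add (f (Nat.add x1333 x853)) (Nat.add (f (Nat.add x1335 x851))
    (Nat.add (f (Nat.add x1341 x845)) (Nat.add (f (Nat.add x1351 x835)) (Nat.add
    (f (Nat.add x1353 x833)) (Nat.add (f (Nat.add x1359 x827)) (Nat.add (f (Nat.add x1379 x807))
    (Nat.add (f (Nat.add x1381 x805)) (Nat.add (f (Nat.add x1383 x803)) (Nat.add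
    (f (Nat.add x1387 x799)) (Nat.add (f (Nat.add x1389 x797)) (Nat.add (f (Nat.add x1395 x791))
    (Nat.add (f (Nat.add x1405 x781)) (Nat.add (f (Nat.add x1407 x779)) (Nat.add
    (f (Nat.add x1413 x773)) (Nat.add (f (Nat.add x1431 x755)) (Nat.add (f (Nat.add x1475 x711))
    (Nat.add (f (Nat.add x1481 x705)) (Nat.add (f (Nat.add x1483 x703)) (Nat.add
    (f (Nat.add x1493 x693)) (Nat.add (f (Nat.add x1499 x687)) (Nat.add (f (Nat.add x1501 x685))
    (Nat.add (f (Nat.add x1505 x681)) (Nat.add (f (Nat.add x1507 x679)) (Nat.add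
    (f (Nat.add x1509 x677)) (Nat.add (f (Nat.add x1517 x669)) (Nat.add (f (Nat.add x1519 x667))
    (Nat.add (f (Nat.add x1523 x663)) (Nat.add (f (Nat.add x1525 x661)) (Nat.add
    (f (Nat.add x1527 x659)) (Nat.add (f (Nat.add x1531 x655)) (Nat.add (f (Nat.add x1533 x653))
    (Nat.add (f (Nat.add x1547 x639)) (Nat.add (f (Nat.add x1553 x633)) (Nat.add
    (f (Nat.add x1555 x631)) (Nat.add (f (Nat.add x1559 x627)) (Nat.add (f (Nat.add x1561 x625))
    (Nat.add (f (Nat.add x1563 x623)) (Nat.add (f (Nat.add x1571 x615)) (Nat.add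
    (f (Nat.add x1573 x613)) (Nat.add (f (Nat.add x1577 x609)) (Nat.add (f (Nat.add x1579 x607))
    (Nat.add (f (Nat.add x1581 x605)) (Nat.add (f (Nat.add x1585 x601)) (Nat.add
    (f (Nat.add x1587 x599)) (Nat.add (f (Nat.add x1595 x591)) (Nat.add (f (Nat.add x1597 x589))
    (Nat.add (f (Nat.add x1599 x587)) (Nat.add (f (Nat.add x1603 x583))
    0)))))))))))))))))))))))))))))))))))))))))))))))))))))))))))) (Nat.add (Nat.add
    (f (Nat.add x1605 x581)) (Nat.add (f (Nat.add x1611 x575)) (Nat.add (f (Nat.add x1625 x561))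
    (Nat.add (f (Nat.add x1627 x559)) (Nat.add (f (Nat.add x1631 x555)) (Nat.add
    (f (Nat.add x1633 x553)) (Nat.add (f (Nat.add x1635 x551)) (Nat.add (f (Nat.add x1639 x547))
    (Nat.add (f (Nat.add x1641 x545)) (Nat.add (f (Nat.add x1649 x537)) (Nat.add
    (f (Nat.add x1651 x535)) (Nat.add (f (Nat.add x1653 x533)) (Nat.add (f (Nat.add x1657 x529))
    (Nat.add (f (Nat.add x1659 x527)) (Nat.add (f (Nat.add x1665 x521)) (Nat.add
    (f (Nat.add x1675 x511)) (Nat.add (f (Nat.add x1677 x509)) (Nat.add (f (Nat.add x1683 x503))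
    (Nat.add (f (Nat.add x1709 x477)) (Nat.add (f (Nat.add x1715 x471)) (Nat.add
    (f (Nat.add x1717 x469)) (Nat.add (f (Nat.add x1721 x465)) (Nat.add (f (Nat.add x1723 x463))
    (Nat.add (f (Nat.add x1725 x461)) (Nat.add (f (Nat.add x1733 x453)) (Nat.add
    (f (Nat.add x1735 x451)) (Nat.add (f (Nat.add x1739 x447)) (Nat.add (f (Nat.add x1741 x445))
    (Nat.add (f (Nat.add x1743 x443)) (Nat.add (f (Nat.add x1747 x439)) (Nat.add
    (f (Nat.add x1749 x437)) (Nat.add (f (Nat.add x1757 x429)) (Nat.add (f (Nat.add x1759 x427))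
    (Nat.add (f (Nat.add x1761 x425)) (Nat.add (f (Nat.add x1765 x421)) (Nat.add
    (f (Nat.add x1767 x419)) (Nat.add (f (Nat.add x1773 x413)) (Nat.add (f (Nat.add x1787 x399))
    (Nat.add (f (Nat.add x1789 x397)) (Nat.add (f (Nat.add x1793 x393)) (Nat.add
    (f (Nat.add x1795 x391)) (Nat.add (f (Nat.add x1797 x389)) (Nat.add (f (Nat.add x1801 x385))
    (Nat.add (f (Nat.add x1803 x383)) (Nat.add (f (Nat.add x1811 x375)) (Nat.add
    (f (Nat.add x1813 x373)) (Nat.add (f (Nat.add x1815 x371)) (Nat.add (f (Nat.add x1819 x367))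
    (Nat.add (f (Nat.add x1821 x365)) (Nat.add (f (Nat.add x1827 x359)) (Nat.add
    (f (Nat.add x1837 x349)) (Nat.add (f (Nat.add x1839 x347)) (Nat.add (f (Nat.add x1845 x341))
    (Nat.add (f (Nat.add x1865 x321)) (Nat.add (f (Nat.add x1867 x319)) (Nat.add
    (f (Nat.add x1869 x317)) (Nat.add (f (Nat.add x1873 x313)) (Nat.add (f (Nat.add x1875 x311))
    (Nat.add (f (Nat.add x1881 x305)) (Nat.add (f (Nat.add x1891 x295))
    0)))))))))))))))))))))))))))))))))))))))))))))))))))))))))))) (Nat.add (Nat.add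
    (f (Nat.add x1893 x293)) (Nat.add (f (Nat.add x1899 x287)) (Nat.add (f (Nat.add x1917 x269))
    (Nat.add (f (Nat.add x1949 x237)) (Nat.add (f (Nat.add x1951 x235)) (Nat.add
    (f (Nat.add x1955 x231)) (Nat.add (f (Nat.add x1957 x229)) (Nat.add (f (Nat.add x1959 x227))
    (Nat.add (f (Nat.add x1963 x223)) (Nat.add (f (Nat.add x1965 x221)) (Nat.add
    (f (Nat.add x1973 x213)) (Nat.add (f (Nat.add x1975 x211)) (Nat.add (f (Nat.add x1977 x209))
    (Nat.add (f (Nat.add x1981 x205)) (Nat.add (f (Nat.add x1983 x203)) (Nat.add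
    (f (Nat.add x1989 x197)) (Nat.add (f (Nat.add x1999 x187)) (Nat.add (f (Nat.add x2001 x185))
    (Nat.add (f (Nat.add x2007 x179)) (Nat.add (f (Nat.add x2027 x159)) (Nat.add
    (f (Nat.add x2029 x157)) (Nat.add (f (Nat.add x2031 x155)) (Nat.add (f (Nat.add x2035 x151))
    (Nat.add (f (Nat.add x2037 x149)) (Nat.add (f (Nat.add x2043 x143)) (Nat.add
    (f (Nat.add x2053 x133)) (Nat.add (f (Nat.add x2055 x131)) (Nat.add (f (Nat.add x2061 x125))
    (Nat.add (f (Nat.add x2079 x107)) (Nat.add (f (Nat.add x2107 x79)) (Nat.add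
    (f (Nat.add x2109 x77)) (Nat.add (f (Nat.add x2115 x71)) (Nat.add (f (Nat.add x2133 x53))
    0))))))))))))))))))))))))))))))))) 0))))))) v2)

theorem fin2_eq0 (f : Nat → Nat) (v1 v2 : Nat) (x : Nat → Nat) :
    apLL (fun t => x t.cd) cds (fin2 f v1 v2) =
    and (Nat.beq (sum2 (fun t => f (x t.cd)) cds) v1)
      (Nat.beq (sum2 (fun t => f (Nat.add (x t.cd) (x (Nat.sub 2186 t.cd)))) cds) v2) :=
  Eq.refl (apLL (fun t => x t.cd) cds (fin2 f v1 v2))

theorem fin2_eq (f : Nat → Nat) (v1 v2 : Nat) (x : Nat → Nat) :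
    ap x (fin2 f v1 v2) = and (Nat.beq (sumL (fun s => f (x s)) (secL 7 7 0 [])) v1)
      (Nat.beq (sumL (fun s => f (Nat.add (x s) (x (Nat.sub 2186 s)))) (secL 7 7 0 [])) v2) :=
  ((ap_eq x (fin2 f v1 v2)).symm.trans (fin2_eq0 f v1 v2 x)).trans
    (congr (congrArg and (congrArg (fun z => Nat.beq z v1) (sum2_eq cds _ codes_ok (fun s => f (x s)))))
      (congrArg (fun z => Nat.beq z v2)
        (sum2_eq cds _ codes_ok (fun s => f (Nat.add (x s) (x (Nat.sub 2186 s)))))))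

def ch0 : List (Nat × Nat) :=
    [(53,14), (71,28), (125,14), (131,28), (133,14), (143,28), (149,28), (151,14), (155,14),
    (185,28), (197,14), (203,14), (293,14), (311,14), (365,14), (367,14), (371,14), (373,14),
    (383,14), (385,28), (421,14), (425,14), (1093,1)]

def sqA0 (X M
    u0 u1 u2 u3 u4 u5 u6 u7 u8 u9 u10 u11 u12 u13 u14 u15 u16 u17 u18 u19 u20 u21 u22 : Nat) : Nat :=
    (Nat.add (Nat.mul (Nat.mul (Nat.land u0 M) (Nat.sub X (Nat.land u0 M))) 14)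
    (Nat.add (Nat.mul (Nat.mul (Nat.land u1 M) (Nat.sub X (Nat.land u1 M))) 28)
    (Nat.add (Nat.mul (Nat.mul (Nat.land u2 M) (Nat.sub X (Nat.land u2 M))) 14)
    (Nat.add (Nat.mul (Nat.mul (Nat.land u3 M) (Nat.sub X (Nat.land u3 M))) 28)
    (Nat.add (Nat.mul (Nat.mul (Nat.land u4 M) (Nat.sub X (Nat.land u4 M))) 14)
    (Nat.add (Nat.mul (Nat.mul (Nat.land u5 M) (Nat.sub X (Nat.land u5 M))) 28)
    (Nat.add (Nat.mul (Nat.mul (Nat.land u6 M) (Nat.sub X (Nat.land u6 M))) 28)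
    (Nat.add (Nat.mul (Nat.mul (Nat.land u7 M) (Nat.sub X (Nat.land u7 M))) 14)
    (Nat.add (Nat.mul (Nat.mul (Nat.land u8 M) (Nat.sub X (Nat.land u8 M))) 14)
    (Nat.add (Nat.mul (Nat.mul (Nat.land u9 M) (Nat.sub X (Nat.land u9 M))) 28)
    (Nat.add (Nat.mul (Nat.mul (Nat.land u10 M) (Nat.sub X (Nat.land u10 M))) 14)
    (Nat.add (Nat.mul (Nat.mul (Nat.land u11 M) (Nat.sub X (Nat.land u11 M))) 14)
    (Nat.add (Nat.mul (Nat.mul (Nat.land u12 M) (Nat.sub X (Nat.land u12 M))) 14)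
    (Nat.add (Nat.mul (Nat.mul (Nat.land u13 M) (Nat.sub X (Nat.land u13 M))) 14)
    (Nat.add (Nat.mul (Nat.mul (Nat.land u14 M) (Nat.sub X (Nat.land u14 M))) 14)
    (Nat.add (Nat.mul (Nat.mul (Nat.land u15 M) (Nat.sub X (Nat.land u15 M))) 14)
    (Nat.add (Nat.mul (Nat.mul (Nat.land u16 M) (Nat.sub X (Nat.land u16 M))) 14)
    (Nat.add (Nat.mul (Nat.mul (Nat.land u17 M) (Nat.sub X (Nat.land u17 M))) 14)
    (Nat.add (Nat.mul (Nat.mul (Nat.land u18 M) (Nat.sub X (Nat.land u18 M))) 14)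
    (Nat.add (Nat.mul (Nat.mul (Nat.land u19 M) (Nat.sub X (Nat.land u19 M))) 28)
    (Nat.add (Nat.mul (Nat.mul (Nat.land u20 M) (Nat.sub X (Nat.land u20 M))) 14)
    (Nat.add (Nat.mul (Nat.mul (Nat.land u21 M) (Nat.sub X (Nat.land u21 M))) 14)
    (Nat.add (Nat.mul (Nat.mul (Nat.land u22 M) (Nat.sub X (Nat.land u22 M))) 1)
    0)))))))))))))))))))))))

def sqB0 (z0 z1 z2 z3 : Nat) : Nat :=
  sqA0 (Nat.shiftLeft 1 122) (Nat.sub (Nat.shiftLeft 1 122) 1)
    z0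
    (Nat.shiftRight z0 122)
    (Nat.shiftRight (Nat.shiftRight z0 122) 122)
    (Nat.shiftRight (Nat.shiftRight (Nat.shiftRight z0 122) 122) 122)
    (Nat.shiftRight (Nat.shiftRight (Nat.shiftRight (Nat.shiftRight z0 122) 122) 122) 122)
    (Nat.shiftRight (Nat.shiftRight (Nat.shiftRight (Nat.shiftRight (Nat.shiftRight z0 122) 122) 122) 122) 122)
    z1
    (Nat.shiftRight z1 122)
    (Nat.shiftRight (Nat.shiftRight z1 122) 122)
    (Nat.shiftRight (Nat.shiftRight (Nat.shiftRight z1 122) 122) 122)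
    (Nat.shiftRight (Nat.shiftRight (Nat.shiftRight (Nat.shiftRight z1 122) 122) 122) 122)
    (Nat.shiftRight (Nat.shiftRight (Nat.shiftRight (Nat.shiftRight (Nat.shiftRight z1 122) 122) 122) 122) 122)
    z2
    (Nat.shiftRight z2 122)
    (Nat.shiftRight (Nat.shiftRight z2 122) 122)
    (Nat.shiftRight (Nat.shiftRight (Nat.shiftRight z2 122) 122) 122)
    (Nat.shiftRight (Nat.shiftRight (Nat.shiftRight (Nat.shiftRight z2 122) 122) 122) 122)
    (Nat.shiftRight (Nat.shiftRight (Nat.shiftRight (Nat.shiftRight (Nat.shiftRight z2 122) 122) 122) 122) 122)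
    z3
    (Nat.shiftRight z3 122)
    (Nat.shiftRight (Nat.shiftRight z3 122) 122)
    (Nat.shiftRight (Nat.shiftRight (Nat.shiftRight z3 122) 122) 122)
    (Nat.shiftRight (Nat.shiftRight (Nat.shiftRight (Nat.shiftRight z3 122) 122) 122) 122)

def sqC0 (u : Nat) : Nat :=
  sqB0
    u
    (sh6 122 u)
    (sh6 122 (sh6 122 u))
    (sh6 122 (sh6 122 (sh6 122 u)))

noncomputable def sq0 (v : Nat) : Nat := sqC0 (Nat.add v (offs 122 (Nat.shiftLeft 1 (Nat.sub 122 1)) ch0))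

theorem sq_eq0 : sq0 = sqF 122 ch0 := Eq.refl sq0

theorem side_ok0 : sideOK 7 122 mask cf7 ch0 = true := by decide +kernel

theorem cover : beqP (repL 7 7) (ch0 ++ []) = true := by decide +kernel

theorem len_ok : (secL 7 7 0 []).length = 393 := by decide +kernel

theorem wt_ok : (List.map Prod.snd (ch0 ++ [])).sum = 393 := by decide +kernel

end Vale.Agent.P348.A7_7
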