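import Vale.Agent.P348.G.A10_10

set_option maxRecDepth 1000000
set_option maxHeartbeats 0
set_option linter.all false

namespace Vale.Agent.P348.G10_10_1

noncomputable def sp0 : List Spec :=
  [Spec.mk (nat_lit 242) (nat_lit 6) [nat_lit 404] (nat_lit 0) [nat_lit 19924] true,
   Spec.mk (nat_lit 404) (nat_lit 5) [nat_lit 890, nat_lit 242, nat_lit 566, nat_lit 458] (nat_lit 0) [nat_lit 20086] true,
   Spec.mk (nat_lit 458) (nat_lit 4) [nat_lit 944, nat_lit 620, nat_lit 404, nat_lit 476] (nat_lit 0) [nat_lit 20140] true,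
   Spec.mk (nat_lit 476) (nat_lit 4) [nat_lit 962, nat_lit 638, nat_lit 458, nat_lit 482] (nat_lit 0) [nat_lit 20158] true,
   Spec.mk (nat_lit 482) (nat_lit 4) [nat_lit 968, nat_lit 644, nat_lit 476, nat_lit 484] (nat_lit 0) [nat_lit 20164] true,
   Spec.mk (nat_lit 484) (nat_lit 6) [nat_lit 970, nat_lit 646, nat_lit 482] (nat_lit 0) [nat_lit 20166] true,
   Spec.mk (nat_lit 566) (nat_lit 2) [nat_lit 1052, nat_lit 404, nat_lit 620] (nat_lit 0) [nat_lit 20248] true,
   Spec.mk (nat_lit 620) (nat_lit 3) [nat_lit 1106, nat_lit 458, nat_lit 566, nat_lit 674, nat_lit 638] (nat_lit 0) [nat_lit 20302] true,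
   Spec.mk (nat_lit 638) (nat_lit 2) [nat_lit 1124, nat_lit 476, nat_lit 692, nat_lit 620, nat_lit 644] (nat_lit 0) [nat_lit 20320] true,
   Spec.mk (nat_lit 644) (nat_lit 2) [nat_lit 1130, nat_lit 482, nat_lit 698, nat_lit 638, nat_lit 646] (nat_lit 0) [nat_lit 20326] true,
   Spec.mk (nat_lit 646) (nat_lit 4) [nat_lit 1132, nat_lit 484, nat_lit 700, nat_lit 644] (nat_lit 0) [nat_lit 20328] false,
   Spec.mk (nat_lit 674) (nat_lit 2) [nat_lit 1160, nat_lit 620, nat_lit 692] (nat_lit 0) [nat_lit 20356] true,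
   Spec.mk (nat_lit 692) (nat_lit 3) [nat_lit 1178, nat_lit 638, nat_lit 674, nat_lit 710, nat_lit 698] (nat_lit 0) [nat_lit 20374] true,
   Spec.mk (nat_lit 698) (nat_lit 2) [nat_lit 1184, nat_lit 644, nat_lit 716, nat_lit 692, nat_lit 700] (nat_lit 0) [nat_lit 20380] false,
   Spec.mk (nat_lit 700) (nat_lit 4) [nat_lit 1186, nat_lit 646, nat_lit 718, nat_lit 698] (nat_lit 0) [nat_lit 20382] false,
   Spec.mk (nat_lit 710) (nat_lit 2) [nat_lit 1196, nat_lit 692, nat_lit 716] (nat_lit 0) [nat_lit 20392] false,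
   Spec.mk (nat_lit 716) (nat_lit 3) [nat_lit 1202, nat_lit 698, nat_lit 710, nat_lit 722, nat_lit 718] (nat_lit 0) [nat_lit 20398] false,
   Spec.mk (nat_lit 718) (nat_lit 4) [nat_lit 1204, nat_lit 700, nat_lit 724, nat_lit 716] (nat_lit 0) [nat_lit 20400] false,
   Spec.mk (nat_lit 722) (nat_lit 2) [nat_lit 1208, nat_lit 716, nat_lit 724] (nat_lit 0) [nat_lit 20404] false,
   Spec.mk (nat_lit 724) (nat_lit 5) [nat_lit 1210, nat_lit 718, nat_lit 722, nat_lit 726] (nat_lit 0) [nat_lit 20406] false,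
   Spec.mk (nat_lit 726) (nat_lit 6) [nat_lit 1212, nat_lit 724] (nat_lit 0) [] false,
   Spec.mk (nat_lit 890) (nat_lit 4) [nat_lit 2348, nat_lit 404, nat_lit 1052, nat_lit 944] (nat_lit 0) [nat_lit 20572] false,
   Spec.mk (nat_lit 944) (nat_lit 2) [nat_lit 2402, nat_lit 458, nat_lit 1106, nat_lit 890, nat_lit 962] (nat_lit 0) [nat_lit 20626] true,
   Spec.mk (nat_lit 962) (nat_lit 2) [nat_lit 2420, nat_lit 476, nat_lit 1124, nat_lit 944, nat_lit 968] (nat_lit 0) [nat_lit 20644] true,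
   Spec.mk (nat_lit 968) (nat_lit 2) [nat_lit 2426, nat_lit 482, nat_lit 1130, nat_lit 962, nat_lit 970] (nat_lit 0) [nat_lit 20650] true,
   Spec.mk (nat_lit 970) (nat_lit 4) [nat_lit 2428, nat_lit 484, nat_lit 1132, nat_lit 968] (nat_lit 0) [nat_lit 20652] false,
   Spec.mk (nat_lit 1052) (nat_lit 3) [nat_lit 2510, nat_lit 566, nat_lit 1538, nat_lit 890, nat_lit 1106] (nat_lit 0) [nat_lit 20734] false,
   Spec.mk (nat_lit 1106) (nat_lit 3) [nat_lit 2564, nat_lit 620, nat_lit 1592, nat_lit 944, nat_lit 1268, nat_lit 1052, nat_lit 1160, nat_lit 1124] (nat_lit 0) [nat_lit 20788] true,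
   Spec.mk (nat_lit 1124) (nat_lit 2) [nat_lit 2582, nat_lit 638, nat_lit 1610, nat_lit 962, nat_lit 1286, nat_lit 1178, nat_lit 1106, nat_lit 1130] (nat_lit 0) [nat_lit 20806] true,
   Spec.mk (nat_lit 1130) (nat_lit 2) [nat_lit 2588, nat_lit 644, nat_lit 1616, nat_lit 968, nat_lit 1292, nat_lit 1184, nat_lit 1124, nat_lit 1132] (nat_lit 0) [nat_lit 20812] true,
   Spec.mk (nat_lit 1132) (nat_lit 4) [nat_lit 2590, nat_lit 646, nat_lit 1618, nat_lit 970, nat_lit 1294, nat_lit 1186, nat_lit 1130] (nat_lit 0) [nat_lit 20814] true,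
   Spec.mk (nat_lit 1160) (nat_lit 1) [nat_lit 2618, nat_lit 674, nat_lit 1646, nat_lit 1322, nat_lit 1106, nat_lit 1178] (nat_lit 0) [nat_lit 20842] true,
   Spec.mk (nat_lit 1178) (nat_lit 2) [nat_lit 2636, nat_lit 692, nat_lit 1664, nat_lit 1340, nat_lit 1124, nat_lit 1160, nat_lit 1196, nat_lit 1184] (nat_lit 0) [nat_lit 20860] true,
   Spec.mk (nat_lit 1184) (nat_lit 1) [nat_lit 2642, nat_lit 698, nat_lit 1670, nat_lit 1346, nat_lit 1130, nat_lit 1202, nat_lit 1178, nat_lit 1186] (nat_lit 0) [nat_lit 20866] true,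
   Spec.mk (nat_lit 1186) (nat_lit 3) [nat_lit 2644, nat_lit 700, nat_lit 1672, nat_lit 1348, nat_lit 1132, nat_lit 1204, nat_lit 1184] (nat_lit 0) [nat_lit 20868] true,
   Spec.mk (nat_lit 1196) (nat_lit 1) [nat_lit 2654, nat_lit 710, nat_lit 1682, nat_lit 1358, nat_lit 1178, nat_lit 1202] (nat_lit 0) [nat_lit 20878] true,
   Spec.mk (nat_lit 1202) (nat_lit 2) [nat_lit 2660, nat_lit 716, nat_lit 1688, nat_lit 1364, nat_lit 1184, nat_lit 1196, nat_lit 1208, nat_lit 1204] (nat_lit 0) [nat_lit 20884] true,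
   Spec.mk (nat_lit 1204) (nat_lit 3) [nat_lit 2662, nat_lit 718, nat_lit 1690, nat_lit 1366, nat_lit 1186, nat_lit 1210, nat_lit 1202] (nat_lit 0) [nat_lit 20886] true,
   Spec.mk (nat_lit 1208) (nat_lit 1) [nat_lit 2666, nat_lit 722, nat_lit 1694, nat_lit 1370, nat_lit 1202, nat_lit 1210] (nat_lit 0) [nat_lit 20890] true,
   Spec.mk (nat_lit 1210) (nat_lit 4) [nat_lit 2668, nat_lit 724, nat_lit 1696, nat_lit 1372, nat_lit 1204, nat_lit 1208, nat_lit 1212] (nat_lit 0) [nat_lit 20892] true,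
   Spec.mk (nat_lit 1212) (nat_lit 5) [nat_lit 2670, nat_lit 726, nat_lit 1698, nat_lit 1374, nat_lit 1210] (nat_lit 0) [] false,
   Spec.mk (nat_lit 1268) (nat_lit 2) [nat_lit 2726, nat_lit 1754, nat_lit 1106, nat_lit 1322, nat_lit 1286] (nat_lit 0) [nat_lit 20950] true,
   Spec.mk (nat_lit 1286) (nat_lit 0) [nat_lit 2744, nat_lit 1772, nat_lit 1124, nat_lit 1340, nat_lit 1268, nat_lit 1292] (nat_lit 0) [nat_lit 20968] true,
   Spec.mk (nat_lit 1292) (nat_lit 0) [nat_lit 2750, nat_lit 1778, nat_lit 1130, nat_lit 1346, nat_lit 1286, nat_lit 1294] (nat_lit 0) [nat_lit 20974] true,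
   Spec.mk (nat_lit 1294) (nat_lit 2) [nat_lit 2752, nat_lit 1780, nat_lit 1132, nat_lit 1348, nat_lit 1292] (nat_lit 0) [nat_lit 20976] true,
   Spec.mk (nat_lit 1322) (nat_lit 2) [nat_lit 2780, nat_lit 1808, nat_lit 1160, nat_lit 1268, nat_lit 1340] (nat_lit 0) [nat_lit 21004] true,
   Spec.mk (nat_lit 1340) (nat_lit 2) [nat_lit 2798, nat_lit 1826, nat_lit 1178, nat_lit 1286, nat_lit 1394, nat_lit 1322, nat_lit 1358, nat_lit 1346] (nat_lit 0) [nat_lit 21022] true,
   Spec.mk (nat_lit 1346) (nat_lit 1) [nat_lit 2804, nat_lit 1832, nat_lit 1184, nat_lit 1292, nat_lit 1400, nat_lit 1364, nat_lit 1340, nat_lit 1348] (nat_lit 0) [nat_lit 21028] true,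
   Spec.mk (nat_lit 1348) (nat_lit 3) [nat_lit 2806, nat_lit 1834, nat_lit 1186, nat_lit 1294, nat_lit 1402, nat_lit 1366, nat_lit 1346] (nat_lit 0) [nat_lit 21030] true,
   Spec.mk (nat_lit 1358) (nat_lit 0) [nat_lit 2816, nat_lit 1844, nat_lit 1196, nat_lit 1412, nat_lit 1340, nat_lit 1364] (nat_lit 0) [nat_lit 21040] true,
   Spec.mk (nat_lit 1364) (nat_lit 1) [nat_lit 2822, nat_lit 1850, nat_lit 1202, nat_lit 1418, nat_lit 1346, nat_lit 1358, nat_lit 1370, nat_lit 1366] (nat_lit 0) [nat_lit 21046] true,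
   Spec.mk (nat_lit 1366) (nat_lit 2) [nat_lit 2824, nat_lit 1852, nat_lit 1204, nat_lit 1420, nat_lit 1348, nat_lit 1372, nat_lit 1364] (nat_lit 0) [nat_lit 21048] true,
   Spec.mk (nat_lit 1370) (nat_lit 0) [nat_lit 2828, nat_lit 1856, nat_lit 1208, nat_lit 1424, nat_lit 1364, nat_lit 1372] (nat_lit 0) [nat_lit 21052] true,
   Spec.mk (nat_lit 1372) (nat_lit 3) [nat_lit 2830, nat_lit 1858, nat_lit 1210, nat_lit 1426, nat_lit 1366, nat_lit 1370, nat_lit 1374] (nat_lit 0) [nat_lit 21054] false,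
   Spec.mk (nat_lit 1374) (nat_lit 4) [nat_lit 2832, nat_lit 1860, nat_lit 1212, nat_lit 1428, nat_lit 1372] (nat_lit 0) [] false,
   Spec.mk (nat_lit 1394) (nat_lit 2) [nat_lit 2852, nat_lit 1880, nat_lit 1340, nat_lit 1412, nat_lit 1400] (nat_lit 0) [nat_lit 21076] true,
   Spec.mk (nat_lit 1400) (nat_lit 0) [nat_lit 2858, nat_lit 1886, nat_lit 1346, nat_lit 1418, nat_lit 1394, nat_lit 1402] (nat_lit 0) [nat_lit 21082] true,
   Spec.mk (nat_lit 1402) (nat_lit 2) [nat_lit 2860, nat_lit 1888, nat_lit 1348, nat_lit 1420, nat_lit 1400] (nat_lit 0) [nat_lit 21084] true,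
   Spec.mk (nat_lit 1412) (nat_lit 2) [nat_lit 2870, nat_lit 1898, nat_lit 1358, nat_lit 1394, nat_lit 1418] (nat_lit 0) [nat_lit 21094] true,
   Spec.mk (nat_lit 1418) (nat_lit 2) [nat_lit 2876, nat_lit 1904, nat_lit 1364, nat_lit 1400, nat_lit 1436, nat_lit 1412, nat_lit 1424, nat_lit 1420] (nat_lit 0) [nat_lit 21100] true]

noncomputable def sp1 : List Spec :=
  [Spec.mk (nat_lit 1420) (nat_lit 3) [nat_lit 2878, nat_lit 1906, nat_lit 1366, nat_lit 1402, nat_lit 1438, nat_lit 1426, nat_lit 1418] (nat_lit 0) [nat_lit 21102] false,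
   Spec.mk (nat_lit 1424) (nat_lit 0) [nat_lit 2882, nat_lit 1910, nat_lit 1370, nat_lit 1442, nat_lit 1418, nat_lit 1426] (nat_lit 0) [nat_lit 21106] true,
   Spec.mk (nat_lit 1426) (nat_lit 3) [nat_lit 2884, nat_lit 1912, nat_lit 1372, nat_lit 1444, nat_lit 1420, nat_lit 1424, nat_lit 1428] (nat_lit 0) [nat_lit 21108] false,
   Spec.mk (nat_lit 1428) (nat_lit 4) [nat_lit 2886, nat_lit 1914, nat_lit 1374, nat_lit 1446, nat_lit 1426] (nat_lit 0) [] false,
   Spec.mk (nat_lit 1436) (nat_lit 2) [nat_lit 2894, nat_lit 1922, nat_lit 1418, nat_lit 1442, nat_lit 1438] (nat_lit 0) [nat_lit 21118] true,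
   Spec.mk (nat_lit 1438) (nat_lit 2) [nat_lit 2896, nat_lit 1924, nat_lit 1420, nat_lit 1444, nat_lit 1436] (nat_lit 0) [nat_lit 21120] false,
   Spec.mk (nat_lit 1442) (nat_lit 2) [nat_lit 2900, nat_lit 1928, nat_lit 1424, nat_lit 1436, nat_lit 1444] (nat_lit 0) [nat_lit 21124] false,
   Spec.mk (nat_lit 1444) (nat_lit 4) [nat_lit 2902, nat_lit 1930, nat_lit 1426, nat_lit 1438, nat_lit 1450, nat_lit 1442, nat_lit 1446] (nat_lit 0) [nat_lit 21126] false,
   Spec.mk (nat_lit 1446) (nat_lit 4) [nat_lit 2904, nat_lit 1932, nat_lit 1428, nat_lit 1452, nat_lit 1444] (nat_lit 0) [] false,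
   Spec.mk (nat_lit 1450) (nat_lit 4) [nat_lit 2908, nat_lit 1936, nat_lit 1444, nat_lit 1452] (nat_lit 0) [nat_lit 21132] false,
   Spec.mk (nat_lit 1452) (nat_lit 6) [nat_lit 2910, nat_lit 1938, nat_lit 1446, nat_lit 1450] (nat_lit 0) [] false,
   Spec.mk (nat_lit 1538) (nat_lit 2) [nat_lit 2996, nat_lit 1052, nat_lit 1592] (nat_lit 0) [nat_lit 21220] false,
   Spec.mk (nat_lit 1592) (nat_lit 1) [nat_lit 3050, nat_lit 1106, nat_lit 1754, nat_lit 1538, nat_lit 1646, nat_lit 1610] (nat_lit 0) [nat_lit 21274] false,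
   Spec.mk (nat_lit 1610) (nat_lit 0) [nat_lit 3068, nat_lit 1124, nat_lit 1772, nat_lit 1664, nat_lit 1592, nat_lit 1616] (nat_lit 0) [nat_lit 21292] true,
   Spec.mk (nat_lit 1616) (nat_lit 0) [nat_lit 3074, nat_lit 1130, nat_lit 1778, nat_lit 1670, nat_lit 1610, nat_lit 1618] (nat_lit 0) [nat_lit 21298] true,
   Spec.mk (nat_lit 1618) (nat_lit 2) [nat_lit 3076, nat_lit 1132, nat_lit 1780, nat_lit 1672, nat_lit 1616] (nat_lit 0) [nat_lit 21300] false,
   Spec.mk (nat_lit 1646) (nat_lit 0) [nat_lit 3104, nat_lit 1160, nat_lit 1808, nat_lit 1592, nat_lit 1664] (nat_lit 2) [nat_lit 21328] true,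
   Spec.mk (nat_lit 1664) (nat_lit 0) [nat_lit 3122, nat_lit 1178, nat_lit 1826, nat_lit 1610, nat_lit 1646, nat_lit 1682, nat_lit 1670] (nat_lit 1) [nat_lit 21346] true,
   Spec.mk (nat_lit 1670) (nat_lit 0) [nat_lit 3128, nat_lit 1184, nat_lit 1832, nat_lit 1616, nat_lit 1688, nat_lit 1664, nat_lit 1672] (nat_lit 2) [nat_lit 21352] true,
   Spec.mk (nat_lit 1672) (nat_lit 0) [nat_lit 3130, nat_lit 1186, nat_lit 1834, nat_lit 1618, nat_lit 1690, nat_lit 1670] (nat_lit 0) [nat_lit 21354] false,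
   Spec.mk (nat_lit 1682) (nat_lit 0) [nat_lit 3140, nat_lit 1196, nat_lit 1844, nat_lit 1664, nat_lit 1688] (nat_lit 2) [nat_lit 21364] true,
   Spec.mk (nat_lit 1688) (nat_lit 0) [nat_lit 3146, nat_lit 1202, nat_lit 1850, nat_lit 1670, nat_lit 1682, nat_lit 1694, nat_lit 1690] (nat_lit 1) [nat_lit 21370] true,
   Spec.mk (nat_lit 1690) (nat_lit 0) [nat_lit 3148, nat_lit 1204, nat_lit 1852, nat_lit 1672, nat_lit 1696, nat_lit 1688] (nat_lit 0) [nat_lit 21372] false,
   Spec.mk (nat_lit 1694) (nat_lit 0) [nat_lit 3152, nat_lit 1208, nat_lit 1856, nat_lit 1688, nat_lit 1696] (nat_lit 2) [nat_lit 21376] true,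
   Spec.mk (nat_lit 1696) (nat_lit 1) [nat_lit 3154, nat_lit 1210, nat_lit 1858, nat_lit 1690, nat_lit 1694, nat_lit 1698] (nat_lit 0) [nat_lit 21378] false,
   Spec.mk (nat_lit 1698) (nat_lit 2) [nat_lit 3156, nat_lit 1212, nat_lit 1860, nat_lit 1696] (nat_lit 0) [] false,
   Spec.mk (nat_lit 1754) (nat_lit 2) [nat_lit 3212, nat_lit 1268, nat_lit 1592, nat_lit 1808, nat_lit 1772] (nat_lit 0) [nat_lit 21436] false,
   Spec.mk (nat_lit 1772) (nat_lit 0) [nat_lit 3230, nat_lit 1286, nat_lit 1610, nat_lit 1826, nat_lit 1754, nat_lit 1778] (nat_lit 0) [nat_lit 21454] true,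
   Spec.mk (nat_lit 1778) (nat_lit 0) [nat_lit 3236, nat_lit 1292, nat_lit 1616, nat_lit 1832, nat_lit 1772, nat_lit 1780] (nat_lit 0) [nat_lit 21460] true,
   Spec.mk (nat_lit 1780) (nat_lit 2) [nat_lit 3238, nat_lit 1294, nat_lit 1618, nat_lit 1834, nat_lit 1778] (nat_lit 0) [nat_lit 21462] false,
   Spec.mk (nat_lit 1808) (nat_lit 1) [nat_lit 3266, nat_lit 1322, nat_lit 1646, nat_lit 1970, nat_lit 1754, nat_lit 1826] (nat_lit 0) [nat_lit 21490] true,
   Spec.mk (nat_lit 1826) (nat_lit 1) [nat_lit 3284, nat_lit 1340, nat_lit 1664, nat_lit 1988, nat_lit 1772, nat_lit 1880, nat_lit 1808, nat_lit 1844, nat_lit 1832] (nat_lit 0) [nat_lit 21508] true,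
   Spec.mk (nat_lit 1832) (nat_lit 0) [nat_lit 3290, nat_lit 1346, nat_lit 1670, nat_lit 1994, nat_lit 1778, nat_lit 1886, nat_lit 1850, nat_lit 1826, nat_lit 1834] (nat_lit 0) [nat_lit 21514] true,
   Spec.mk (nat_lit 1834) (nat_lit 2) [nat_lit 3292, nat_lit 1348, nat_lit 1672, nat_lit 1996, nat_lit 1780, nat_lit 1888, nat_lit 1852, nat_lit 1832] (nat_lit 0) [nat_lit 21516] false,
   Spec.mk (nat_lit 1844) (nat_lit 0) [nat_lit 3302, nat_lit 1358, nat_lit 1682, nat_lit 2006, nat_lit 1898, nat_lit 1826, nat_lit 1850] (nat_lit 1) [nat_lit 21526] true,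
   Spec.mk (nat_lit 1850) (nat_lit 0) [nat_lit 3308, nat_lit 1364, nat_lit 1688, nat_lit 2012, nat_lit 1904, nat_lit 1832, nat_lit 1844, nat_lit 1856, nat_lit 1852] (nat_lit 0) [nat_lit 21532] true,
   Spec.mk (nat_lit 1852) (nat_lit 1) [nat_lit 3310, nat_lit 1366, nat_lit 1690, nat_lit 2014, nat_lit 1906, nat_lit 1834, nat_lit 1858, nat_lit 1850] (nat_lit 0) [nat_lit 21534] false,
   Spec.mk (nat_lit 1856) (nat_lit 0) [nat_lit 3314, nat_lit 1370, nat_lit 1694, nat_lit 2018, nat_lit 1910, nat_lit 1850, nat_lit 1858] (nat_lit 1) [nat_lit 21538] false,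
   Spec.mk (nat_lit 1858) (nat_lit 2) [nat_lit 3316, nat_lit 1372, nat_lit 1696, nat_lit 2020, nat_lit 1912, nat_lit 1852, nat_lit 1856, nat_lit 1860] (nat_lit 0) [nat_lit 21540] false,
   Spec.mk (nat_lit 1860) (nat_lit 3) [nat_lit 3318, nat_lit 1374, nat_lit 1698, nat_lit 2022, nat_lit 1914, nat_lit 1858] (nat_lit 0) [] false,
   Spec.mk (nat_lit 1880) (nat_lit 0) [nat_lit 3338, nat_lit 1394, nat_lit 2042, nat_lit 1826, nat_lit 1898, nat_lit 1886] (nat_lit 0) [nat_lit 21562] true,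
   Spec.mk (nat_lit 1886) (nat_lit 0) [nat_lit 3344, nat_lit 1400, nat_lit 2048, nat_lit 1832, nat_lit 1904, nat_lit 1880, nat_lit 1888] (nat_lit 2) [nat_lit 21568] true,
   Spec.mk (nat_lit 1888) (nat_lit 0) [nat_lit 3346, nat_lit 1402, nat_lit 2050, nat_lit 1834, nat_lit 1906, nat_lit 1886] (nat_lit 0) [nat_lit 21570] false,
   Spec.mk (nat_lit 1898) (nat_lit 0) [nat_lit 3356, nat_lit 1412, nat_lit 2060, nat_lit 1844, nat_lit 1880, nat_lit 1904] (nat_lit 0) [nat_lit 21580] true,
   Spec.mk (nat_lit 1904) (nat_lit 0) [nat_lit 3362, nat_lit 1418, nat_lit 2066, nat_lit 1850, nat_lit 1886, nat_lit 1922, nat_lit 1898, nat_lit 1910, nat_lit 1906] (nat_lit 0) [nat_lit 21586] false,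
   Spec.mk (nat_lit 1906) (nat_lit 1) [nat_lit 3364, nat_lit 1420, nat_lit 2068, nat_lit 1852, nat_lit 1888, nat_lit 1924, nat_lit 1912, nat_lit 1904] (nat_lit 0) [nat_lit 21588] false,
   Spec.mk (nat_lit 1910) (nat_lit 0) [nat_lit 3368, nat_lit 1424, nat_lit 2072, nat_lit 1856, nat_lit 1928, nat_lit 1904, nat_lit 1912] (nat_lit 2) [nat_lit 21592] false,
   Spec.mk (nat_lit 1912) (nat_lit 1) [nat_lit 3370, nat_lit 1426, nat_lit 2074, nat_lit 1858, nat_lit 1930, nat_lit 1906, nat_lit 1910, nat_lit 1914] (nat_lit 0) [nat_lit 21594] false,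
   Spec.mk (nat_lit 1914) (nat_lit 2) [nat_lit 3372, nat_lit 1428, nat_lit 2076, nat_lit 1860, nat_lit 1932, nat_lit 1912] (nat_lit 0) [] false,
   Spec.mk (nat_lit 1922) (nat_lit 0) [nat_lit 3380, nat_lit 1436, nat_lit 2084, nat_lit 1904, nat_lit 1928, nat_lit 1924] (nat_lit 0) [nat_lit 21604] false,
   Spec.mk (nat_lit 1924) (nat_lit 0) [nat_lit 3382, nat_lit 1438, nat_lit 2086, nat_lit 1906, nat_lit 1930, nat_lit 1922] (nat_lit 0) [nat_lit 21606] false,
   Spec.mk (nat_lit 1928) (nat_lit 0) [nat_lit 3386, nat_lit 1442, nat_lit 2090, nat_lit 1910, nat_lit 1922, nat_lit 1930] (nat_lit 0) [nat_lit 21610] false,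
   Spec.mk (nat_lit 1930) (nat_lit 2) [nat_lit 3388, nat_lit 1444, nat_lit 2092, nat_lit 1912, nat_lit 1924, nat_lit 1936, nat_lit 1928, nat_lit 1932] (nat_lit 0) [nat_lit 21612] false,
   Spec.mk (nat_lit 1932) (nat_lit 2) [nat_lit 3390, nat_lit 1446, nat_lit 2094, nat_lit 1914, nat_lit 1938, nat_lit 1930] (nat_lit 0) [] false,
   Spec.mk (nat_lit 1936) (nat_lit 2) [nat_lit 3394, nat_lit 1450, nat_lit 2098, nat_lit 1930, nat_lit 1938] (nat_lit 0) [nat_lit 21618] false,
   Spec.mk (nat_lit 1938) (nat_lit 4) [nat_lit 3396, nat_lit 1452, nat_lit 2100, nat_lit 1932, nat_lit 1936] (nat_lit 0) [] false,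
   Spec.mk (nat_lit 1970) (nat_lit 2) [nat_lit 3428, nat_lit 1808, nat_lit 1988] (nat_lit 0) [nat_lit 21652] true,
   Spec.mk (nat_lit 1988) (nat_lit 1) [nat_lit 3446, nat_lit 1826, nat_lit 2042, nat_lit 1970, nat_lit 2006, nat_lit 1994] (nat_lit 0) [nat_lit 21670] true,
   Spec.mk (nat_lit 1994) (nat_lit 0) [nat_lit 3452, nat_lit 1832, nat_lit 2048, nat_lit 2012, nat_lit 1988, nat_lit 1996] (nat_lit 0) [nat_lit 21676] false,
   Spec.mk (nat_lit 1996) (nat_lit 2) [nat_lit 3454, nat_lit 1834, nat_lit 2050, nat_lit 2014, nat_lit 1994] (nat_lit 0) [nat_lit 21678] false]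

noncomputable def sp2 : List Spec :=
  [Spec.mk (nat_lit 2006) (nat_lit 0) [nat_lit 3464, nat_lit 1844, nat_lit 2060, nat_lit 1988, nat_lit 2012] (nat_lit 2) [nat_lit 21688] true,
   Spec.mk (nat_lit 2012) (nat_lit 0) [nat_lit 3470, nat_lit 1850, nat_lit 2066, nat_lit 1994, nat_lit 2006, nat_lit 2018, nat_lit 2014] (nat_lit 1) [nat_lit 21694] false,
   Spec.mk (nat_lit 2014) (nat_lit 0) [nat_lit 3472, nat_lit 1852, nat_lit 2068, nat_lit 1996, nat_lit 2020, nat_lit 2012] (nat_lit 0) [nat_lit 21696] false,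
   Spec.mk (nat_lit 2018) (nat_lit 0) [nat_lit 3476, nat_lit 1856, nat_lit 2072, nat_lit 2012, nat_lit 2020] (nat_lit 2) [nat_lit 21700] false,
   Spec.mk (nat_lit 2020) (nat_lit 1) [nat_lit 3478, nat_lit 1858, nat_lit 2074, nat_lit 2014, nat_lit 2018, nat_lit 2022] (nat_lit 0) [nat_lit 21702] false,
   Spec.mk (nat_lit 2022) (nat_lit 2) [nat_lit 3480, nat_lit 1860, nat_lit 2076, nat_lit 2020] (nat_lit 0) [] false,
   Spec.mk (nat_lit 2042) (nat_lit 2) [nat_lit 3500, nat_lit 1880, nat_lit 1988, nat_lit 2060, nat_lit 2048] (nat_lit 0) [nat_lit 21724] true,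
   Spec.mk (nat_lit 2048) (nat_lit 0) [nat_lit 3506, nat_lit 1886, nat_lit 1994, nat_lit 2066, nat_lit 2042, nat_lit 2050] (nat_lit 0) [nat_lit 21730] false,
   Spec.mk (nat_lit 2050) (nat_lit 2) [nat_lit 3508, nat_lit 1888, nat_lit 1996, nat_lit 2068, nat_lit 2048] (nat_lit 0) [nat_lit 21732] false,
   Spec.mk (nat_lit 2060) (nat_lit 1) [nat_lit 3518, nat_lit 1898, nat_lit 2006, nat_lit 2114, nat_lit 2042, nat_lit 2066] (nat_lit 0) [nat_lit 21742] false,
   Spec.mk (nat_lit 2066) (nat_lit 1) [nat_lit 3524, nat_lit 1904, nat_lit 2012, nat_lit 2120, nat_lit 2048, nat_lit 2084, nat_lit 2060, nat_lit 2072, nat_lit 2068] (nat_lit 0) [nat_lit 21748] false,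
   Spec.mk (nat_lit 2068) (nat_lit 2) [nat_lit 3526, nat_lit 1906, nat_lit 2014, nat_lit 2122, nat_lit 2050, nat_lit 2086, nat_lit 2074, nat_lit 2066] (nat_lit 0) [nat_lit 21750] false,
   Spec.mk (nat_lit 2072) (nat_lit 0) [nat_lit 3530, nat_lit 1910, nat_lit 2018, nat_lit 2126, nat_lit 2090, nat_lit 2066, nat_lit 2074] (nat_lit 1) [nat_lit 21754] false,
   Spec.mk (nat_lit 2074) (nat_lit 2) [nat_lit 3532, nat_lit 1912, nat_lit 2020, nat_lit 2128, nat_lit 2092, nat_lit 2068, nat_lit 2072, nat_lit 2076] (nat_lit 0) [nat_lit 21756] false,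
   Spec.mk (nat_lit 2076) (nat_lit 3) [nat_lit 3534, nat_lit 1914, nat_lit 2022, nat_lit 2130, nat_lit 2094, nat_lit 2074] (nat_lit 0) [] false,
   Spec.mk (nat_lit 2084) (nat_lit 0) [nat_lit 3542, nat_lit 1922, nat_lit 2138, nat_lit 2066, nat_lit 2090, nat_lit 2086] (nat_lit 0) [nat_lit 21766] false,
   Spec.mk (nat_lit 2086) (nat_lit 0) [nat_lit 3544, nat_lit 1924, nat_lit 2140, nat_lit 2068, nat_lit 2092, nat_lit 2084] (nat_lit 0) [nat_lit 21768] false,
   Spec.mk (nat_lit 2090) (nat_lit 0) [nat_lit 3548, nat_lit 1928, nat_lit 2144, nat_lit 2072, nat_lit 2084, nat_lit 2092] (nat_lit 0) [nat_lit 21772] false,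
   Spec.mk (nat_lit 2092) (nat_lit 2) [nat_lit 3550, nat_lit 1930, nat_lit 2146, nat_lit 2074, nat_lit 2086, nat_lit 2098, nat_lit 2090, nat_lit 2094] (nat_lit 0) [nat_lit 21774] false,
   Spec.mk (nat_lit 2094) (nat_lit 2) [nat_lit 3552, nat_lit 1932, nat_lit 2148, nat_lit 2076, nat_lit 2100, nat_lit 2092] (nat_lit 0) [] false,
   Spec.mk (nat_lit 2098) (nat_lit 2) [nat_lit 3556, nat_lit 1936, nat_lit 2152, nat_lit 2092, nat_lit 2100] (nat_lit 0) [nat_lit 21780] false,
   Spec.mk (nat_lit 2100) (nat_lit 4) [nat_lit 3558, nat_lit 1938, nat_lit 2154, nat_lit 2094, nat_lit 2098] (nat_lit 0) [] false,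
   Spec.mk (nat_lit 2114) (nat_lit 2) [nat_lit 3572, nat_lit 2060, nat_lit 2120] (nat_lit 0) [nat_lit 21796] false,
   Spec.mk (nat_lit 2120) (nat_lit 1) [nat_lit 3578, nat_lit 2066, nat_lit 2138, nat_lit 2114, nat_lit 2126, nat_lit 2122] (nat_lit 0) [nat_lit 21802] false,
   Spec.mk (nat_lit 2122) (nat_lit 2) [nat_lit 3580, nat_lit 2068, nat_lit 2140, nat_lit 2128, nat_lit 2120] (nat_lit 0) [nat_lit 21804] false,
   Spec.mk (nat_lit 2126) (nat_lit 0) [nat_lit 3584, nat_lit 2072, nat_lit 2144, nat_lit 2120, nat_lit 2128] (nat_lit 2) [nat_lit 21808] false,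
   Spec.mk (nat_lit 2128) (nat_lit 1) [nat_lit 3586, nat_lit 2074, nat_lit 2146, nat_lit 2122, nat_lit 2126, nat_lit 2130] (nat_lit 0) [nat_lit 21810] false,
   Spec.mk (nat_lit 2130) (nat_lit 2) [nat_lit 3588, nat_lit 2076, nat_lit 2148, nat_lit 2128] (nat_lit 0) [] false,
   Spec.mk (nat_lit 2138) (nat_lit 2) [nat_lit 3596, nat_lit 2084, nat_lit 2120, nat_lit 2144, nat_lit 2140] (nat_lit 0) [nat_lit 21820] false,
   Spec.mk (nat_lit 2140) (nat_lit 2) [nat_lit 3598, nat_lit 2086, nat_lit 2122, nat_lit 2146, nat_lit 2138] (nat_lit 0) [nat_lit 21822] false,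
   Spec.mk (nat_lit 2144) (nat_lit 1) [nat_lit 3602, nat_lit 2090, nat_lit 2126, nat_lit 2162, nat_lit 2138, nat_lit 2146] (nat_lit 0) [nat_lit 21826] false,
   Spec.mk (nat_lit 2146) (nat_lit 3) [nat_lit 3604, nat_lit 2092, nat_lit 2128, nat_lit 2164, nat_lit 2140, nat_lit 2152, nat_lit 2144, nat_lit 2148] (nat_lit 0) [nat_lit 21828] false,
   Spec.mk (nat_lit 2148) (nat_lit 3) [nat_lit 3606, nat_lit 2094, nat_lit 2130, nat_lit 2166, nat_lit 2154, nat_lit 2146] (nat_lit 0) [] false,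
   Spec.mk (nat_lit 2152) (nat_lit 2) [nat_lit 3610, nat_lit 2098, nat_lit 2170, nat_lit 2146, nat_lit 2154] (nat_lit 0) [nat_lit 21834] false,
   Spec.mk (nat_lit 2154) (nat_lit 4) [nat_lit 3612, nat_lit 2100, nat_lit 2172, nat_lit 2148, nat_lit 2152] (nat_lit 0) [] false,
   Spec.mk (nat_lit 2162) (nat_lit 2) [nat_lit 3620, nat_lit 2144, nat_lit 2164] (nat_lit 0) [nat_lit 21844] false,
   Spec.mk (nat_lit 2164) (nat_lit 3) [nat_lit 3622, nat_lit 2146, nat_lit 2170, nat_lit 2162, nat_lit 2166] (nat_lit 0) [nat_lit 21846] false,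
   Spec.mk (nat_lit 2166) (nat_lit 2) [nat_lit 3624, nat_lit 2148, nat_lit 2172, nat_lit 2164] (nat_lit 0) [] false,
   Spec.mk (nat_lit 2170) (nat_lit 4) [nat_lit 3628, nat_lit 2152, nat_lit 2164, nat_lit 2172] (nat_lit 0) [nat_lit 21852] false,
   Spec.mk (nat_lit 2172) (nat_lit 5) [nat_lit 3630, nat_lit 2154, nat_lit 2166, nat_lit 2178, nat_lit 2170] (nat_lit 0) [] false,
   Spec.mk (nat_lit 2178) (nat_lit 6) [nat_lit 3636, nat_lit 2172] (nat_lit 0) [] false,
   Spec.mk (nat_lit 2348) (nat_lit 4) [nat_lit 6722, nat_lit 890, nat_lit 2510, nat_lit 2402] (nat_lit 0) [nat_lit 22030] false,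
   Spec.mk (nat_lit 2402) (nat_lit 2) [nat_lit 6776, nat_lit 944, nat_lit 2564, nat_lit 2348, nat_lit 2420] (nat_lit 0) [nat_lit 22084] false,
   Spec.mk (nat_lit 2420) (nat_lit 2) [nat_lit 6794, nat_lit 962, nat_lit 2582, nat_lit 2402, nat_lit 2426] (nat_lit 0) [nat_lit 22102] true,
   Spec.mk (nat_lit 2426) (nat_lit 2) [nat_lit 6800, nat_lit 968, nat_lit 2588, nat_lit 2420, nat_lit 2428] (nat_lit 0) [nat_lit 22108] false,
   Spec.mk (nat_lit 2428) (nat_lit 4) [nat_lit 6802, nat_lit 970, nat_lit 2590, nat_lit 2426] (nat_lit 0) [nat_lit 22110] false,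
   Spec.mk (nat_lit 2510) (nat_lit 2) [nat_lit 6884, nat_lit 1052, nat_lit 2996, nat_lit 2348, nat_lit 2564] (nat_lit 0) [nat_lit 22192] false,
   Spec.mk (nat_lit 2564) (nat_lit 2) [nat_lit 6938, nat_lit 1106, nat_lit 3050, nat_lit 2402, nat_lit 2726, nat_lit 2510, nat_lit 2618, nat_lit 2582] (nat_lit 0) [nat_lit 22246] false,
   Spec.mk (nat_lit 2582) (nat_lit 1) [nat_lit 6956, nat_lit 1124, nat_lit 3068, nat_lit 2420, nat_lit 2744, nat_lit 2636, nat_lit 2564, nat_lit 2588] (nat_lit 0) [nat_lit 22264] true,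
   Spec.mk (nat_lit 2588) (nat_lit 1) [nat_lit 6962, nat_lit 1130, nat_lit 3074, nat_lit 2426, nat_lit 2750, nat_lit 2642, nat_lit 2582, nat_lit 2590] (nat_lit 0) [nat_lit 22270] true,
   Spec.mk (nat_lit 2590) (nat_lit 3) [nat_lit 6964, nat_lit 1132, nat_lit 3076, nat_lit 2428, nat_lit 2752, nat_lit 2644, nat_lit 2588] (nat_lit 0) [nat_lit 22272] false,
   Spec.mk (nat_lit 2618) (nat_lit 0) [nat_lit 6992, nat_lit 1160, nat_lit 3104, nat_lit 2780, nat_lit 2564, nat_lit 2636] (nat_lit 0) [nat_lit 22300] false,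
   Spec.mk (nat_lit 2636) (nat_lit 1) [nat_lit 7010, nat_lit 1178, nat_lit 3122, nat_lit 2798, nat_lit 2582, nat_lit 2618, nat_lit 2654, nat_lit 2642] (nat_lit 0) [nat_lit 22318] true,
   Spec.mk (nat_lit 2642) (nat_lit 0) [nat_lit 7016, nat_lit 1184, nat_lit 3128, nat_lit 2804, nat_lit 2588, nat_lit 2660, nat_lit 2636, nat_lit 2644] (nat_lit 0) [nat_lit 22324] true,
   Spec.mk (nat_lit 2644) (nat_lit 2) [nat_lit 7018, nat_lit 1186, nat_lit 3130, nat_lit 2806, nat_lit 2590, nat_lit 2662, nat_lit 2642] (nat_lit 0) [nat_lit 22326] true,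
   Spec.mk (nat_lit 2654) (nat_lit 0) [nat_lit 7028, nat_lit 1196, nat_lit 3140, nat_lit 2816, nat_lit 2636, nat_lit 2660] (nat_lit 0) [nat_lit 22336] true,
   Spec.mk (nat_lit 2660) (nat_lit 1) [nat_lit 7034, nat_lit 1202, nat_lit 3146, nat_lit 2822, nat_lit 2642, nat_lit 2654, nat_lit 2666, nat_lit 2662] (nat_lit 0) [nat_lit 22342] true,
   Spec.mk (nat_lit 2662) (nat_lit 2) [nat_lit 7036, nat_lit 1204, nat_lit 3148, nat_lit 2824, nat_lit 2644, nat_lit 2668, nat_lit 2660] (nat_lit 0) [nat_lit 22344] true,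
   Spec.mk (nat_lit 2666) (nat_lit 0) [nat_lit 7040, nat_lit 1208, nat_lit 3152, nat_lit 2828, nat_lit 2660, nat_lit 2668] (nat_lit 0) [nat_lit 22348] false,
   Spec.mk (nat_lit 2668) (nat_lit 3) [nat_lit 7042, nat_lit 1210, nat_lit 3154, nat_lit 2830, nat_lit 2662, nat_lit 2666, nat_lit 2670] (nat_lit 0) [nat_lit 22350] false]

noncomputable def sp3 : List Spec :=
  [Spec.mk (nat_lit 2670) (nat_lit 4) [nat_lit 7044, nat_lit 1212, nat_lit 3156, nat_lit 2832, nat_lit 2668] (nat_lit 0) [] false,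
   Spec.mk (nat_lit 2726) (nat_lit 0) [nat_lit 7100, nat_lit 1268, nat_lit 3212, nat_lit 2564, nat_lit 2780, nat_lit 2744] (nat_lit 0) [nat_lit 22408] false,
   Spec.mk (nat_lit 2744) (nat_lit 0) [nat_lit 7118, nat_lit 1286, nat_lit 3230, nat_lit 2582, nat_lit 2798, nat_lit 2726, nat_lit 2750] (nat_lit 2) [nat_lit 22426] true,
   Spec.mk (nat_lit 2750) (nat_lit 0) [nat_lit 7124, nat_lit 1292, nat_lit 3236, nat_lit 2588, nat_lit 2804, nat_lit 2744, nat_lit 2752] (nat_lit 2) [nat_lit 22432] true,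
   Spec.mk (nat_lit 2752) (nat_lit 0) [nat_lit 7126, nat_lit 1294, nat_lit 3238, nat_lit 2590, nat_lit 2806, nat_lit 2750] (nat_lit 0) [nat_lit 22434] false,
   Spec.mk (nat_lit 2780) (nat_lit 0) [nat_lit 7154, nat_lit 1322, nat_lit 3266, nat_lit 2618, nat_lit 2726, nat_lit 2798] (nat_lit 0) [nat_lit 22462] false,
   Spec.mk (nat_lit 2798) (nat_lit 0) [nat_lit 7172, nat_lit 1340, nat_lit 3284, nat_lit 2636, nat_lit 2744, nat_lit 2852, nat_lit 2780, nat_lit 2816, nat_lit 2804] (nat_lit 0) [nat_lit 22480] true,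
   Spec.mk (nat_lit 2804) (nat_lit 0) [nat_lit 7178, nat_lit 1346, nat_lit 3290, nat_lit 2642, nat_lit 2750, nat_lit 2858, nat_lit 2822, nat_lit 2798, nat_lit 2806] (nat_lit 1) [nat_lit 22486] true,
   Spec.mk (nat_lit 2806) (nat_lit 1) [nat_lit 7180, nat_lit 1348, nat_lit 3292, nat_lit 2644, nat_lit 2752, nat_lit 2860, nat_lit 2824, nat_lit 2804] (nat_lit 0) [nat_lit 22488] true,
   Spec.mk (nat_lit 2816) (nat_lit 0) [nat_lit 7190, nat_lit 1358, nat_lit 3302, nat_lit 2654, nat_lit 2870, nat_lit 2798, nat_lit 2822] (nat_lit 2) [nat_lit 22498] true,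
   Spec.mk (nat_lit 2822) (nat_lit 0) [nat_lit 7196, nat_lit 1364, nat_lit 3308, nat_lit 2660, nat_lit 2876, nat_lit 2804, nat_lit 2816, nat_lit 2828, nat_lit 2824] (nat_lit 1) [nat_lit 22504] true,
   Spec.mk (nat_lit 2824) (nat_lit 0) [nat_lit 7198, nat_lit 1366, nat_lit 3310, nat_lit 2662, nat_lit 2878, nat_lit 2806, nat_lit 2830, nat_lit 2822] (nat_lit 0) [nat_lit 22506] true,
   Spec.mk (nat_lit 2828) (nat_lit 0) [nat_lit 7202, nat_lit 1370, nat_lit 3314, nat_lit 2666, nat_lit 2882, nat_lit 2822, nat_lit 2830] (nat_lit 2) [nat_lit 22510] true,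
   Spec.mk (nat_lit 2830) (nat_lit 1) [nat_lit 7204, nat_lit 1372, nat_lit 3316, nat_lit 2668, nat_lit 2884, nat_lit 2824, nat_lit 2828, nat_lit 2832] (nat_lit 0) [nat_lit 22512] true,
   Spec.mk (nat_lit 2832) (nat_lit 2) [nat_lit 7206, nat_lit 1374, nat_lit 3318, nat_lit 2670, nat_lit 2886, nat_lit 2830] (nat_lit 0) [] false,
   Spec.mk (nat_lit 2852) (nat_lit 0) [nat_lit 7226, nat_lit 1394, nat_lit 3338, nat_lit 2798, nat_lit 2870, nat_lit 2858] (nat_lit 0) [nat_lit 22534] true,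
   Spec.mk (nat_lit 2858) (nat_lit 0) [nat_lit 7232, nat_lit 1400, nat_lit 3344, nat_lit 2804, nat_lit 2876, nat_lit 2852, nat_lit 2860] (nat_lit 2) [nat_lit 22540] true,
   Spec.mk (nat_lit 2860) (nat_lit 0) [nat_lit 7234, nat_lit 1402, nat_lit 3346, nat_lit 2806, nat_lit 2878, nat_lit 2858] (nat_lit 0) [nat_lit 22542] true,
   Spec.mk (nat_lit 2870) (nat_lit 0) [nat_lit 7244, nat_lit 1412, nat_lit 3356, nat_lit 2816, nat_lit 2852, nat_lit 2876] (nat_lit 0) [nat_lit 22552] true,
   Spec.mk (nat_lit 2876) (nat_lit 0) [nat_lit 7250, nat_lit 1418, nat_lit 3362, nat_lit 2822, nat_lit 2858, nat_lit 2894, nat_lit 2870, nat_lit 2882, nat_lit 2878] (nat_lit 0) [nat_lit 22558] true,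
   Spec.mk (nat_lit 2878) (nat_lit 1) [nat_lit 7252, nat_lit 1420, nat_lit 3364, nat_lit 2824, nat_lit 2860, nat_lit 2896, nat_lit 2884, nat_lit 2876] (nat_lit 0) [nat_lit 22560] true,
   Spec.mk (nat_lit 2882) (nat_lit 0) [nat_lit 7256, nat_lit 1424, nat_lit 3368, nat_lit 2828, nat_lit 2900, nat_lit 2876, nat_lit 2884] (nat_lit 2) [nat_lit 22564] false,
   Spec.mk (nat_lit 2884) (nat_lit 1) [nat_lit 7258, nat_lit 1426, nat_lit 3370, nat_lit 2830, nat_lit 2902, nat_lit 2878, nat_lit 2882, nat_lit 2886] (nat_lit 0) [nat_lit 22566] false,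
   Spec.mk (nat_lit 2886) (nat_lit 2) [nat_lit 7260, nat_lit 1428, nat_lit 3372, nat_lit 2832, nat_lit 2904, nat_lit 2884] (nat_lit 0) [] false,
   Spec.mk (nat_lit 2894) (nat_lit 0) [nat_lit 7268, nat_lit 1436, nat_lit 3380, nat_lit 2876, nat_lit 2900, nat_lit 2896] (nat_lit 0) [nat_lit 22576] false,
   Spec.mk (nat_lit 2896) (nat_lit 0) [nat_lit 7270, nat_lit 1438, nat_lit 3382, nat_lit 2878, nat_lit 2902, nat_lit 2894] (nat_lit 0) [nat_lit 22578] false,
   Spec.mk (nat_lit 2900) (nat_lit 0) [nat_lit 7274, nat_lit 1442, nat_lit 3386, nat_lit 2882, nat_lit 2894, nat_lit 2902] (nat_lit 0) [nat_lit 22582] false,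
   Spec.mk (nat_lit 2902) (nat_lit 2) [nat_lit 7276, nat_lit 1444, nat_lit 3388, nat_lit 2884, nat_lit 2896, nat_lit 2908, nat_lit 2900, nat_lit 2904] (nat_lit 0) [nat_lit 22584] false,
   Spec.mk (nat_lit 2904) (nat_lit 2) [nat_lit 7278, nat_lit 1446, nat_lit 3390, nat_lit 2886, nat_lit 2910, nat_lit 2902] (nat_lit 0) [] false,
   Spec.mk (nat_lit 2908) (nat_lit 2) [nat_lit 7282, nat_lit 1450, nat_lit 3394, nat_lit 2902, nat_lit 2910] (nat_lit 0) [nat_lit 22590] false,
   Spec.mk (nat_lit 2910) (nat_lit 4) [nat_lit 7284, nat_lit 1452, nat_lit 3396, nat_lit 2904, nat_lit 2908] (nat_lit 0) [] false,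
   Spec.mk (nat_lit 2996) (nat_lit 3) [nat_lit 7370, nat_lit 1538, nat_lit 4454, nat_lit 2510, nat_lit 3050] (nat_lit 0) [nat_lit 22678] false,
   Spec.mk (nat_lit 3050) (nat_lit 2) [nat_lit 7424, nat_lit 1592, nat_lit 4508, nat_lit 2564, nat_lit 3212, nat_lit 2996, nat_lit 3104, nat_lit 3068] (nat_lit 0) [nat_lit 22732] false,
   Spec.mk (nat_lit 3068) (nat_lit 1) [nat_lit 7442, nat_lit 1610, nat_lit 4526, nat_lit 2582, nat_lit 3230, nat_lit 3122, nat_lit 3050, nat_lit 3074] (nat_lit 0) [nat_lit 22750] false,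
   Spec.mk (nat_lit 3074) (nat_lit 1) [nat_lit 7448, nat_lit 1616, nat_lit 4532, nat_lit 2588, nat_lit 3236, nat_lit 3128, nat_lit 3068, nat_lit 3076] (nat_lit 0) [nat_lit 22756] false,
   Spec.mk (nat_lit 3076) (nat_lit 3) [nat_lit 7450, nat_lit 1618, nat_lit 4534, nat_lit 2590, nat_lit 3238, nat_lit 3130, nat_lit 3074] (nat_lit 0) [nat_lit 22758] false,
   Spec.mk (nat_lit 3104) (nat_lit 0) [nat_lit 7478, nat_lit 1646, nat_lit 4562, nat_lit 2618, nat_lit 3266, nat_lit 3050, nat_lit 3122] (nat_lit 1) [nat_lit 22786] false,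
   Spec.mk (nat_lit 3122) (nat_lit 0) [nat_lit 7496, nat_lit 1664, nat_lit 4580, nat_lit 2636, nat_lit 3284, nat_lit 3068, nat_lit 3104, nat_lit 3140, nat_lit 3128] (nat_lit 0) [nat_lit 22804] true,
   Spec.mk (nat_lit 3128) (nat_lit 0) [nat_lit 7502, nat_lit 1670, nat_lit 4586, nat_lit 2642, nat_lit 3290, nat_lit 3074, nat_lit 3146, nat_lit 3122, nat_lit 3130] (nat_lit 1) [nat_lit 22810] true,
   Spec.mk (nat_lit 3130) (nat_lit 1) [nat_lit 7504, nat_lit 1672, nat_lit 4588, nat_lit 2644, nat_lit 3292, nat_lit 3076, nat_lit 3148, nat_lit 3128] (nat_lit 0) [nat_lit 22812] false,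
   Spec.mk (nat_lit 3140) (nat_lit 0) [nat_lit 7514, nat_lit 1682, nat_lit 4598, nat_lit 2654, nat_lit 3302, nat_lit 3122, nat_lit 3146] (nat_lit 1) [nat_lit 22822] true,
   Spec.mk (nat_lit 3146) (nat_lit 0) [nat_lit 7520, nat_lit 1688, nat_lit 4604, nat_lit 2660, nat_lit 3308, nat_lit 3128, nat_lit 3140, nat_lit 3152, nat_lit 3148] (nat_lit 0) [nat_lit 22828] true,
   Spec.mk (nat_lit 3148) (nat_lit 1) [nat_lit 7522, nat_lit 1690, nat_lit 4606, nat_lit 2662, nat_lit 3310, nat_lit 3130, nat_lit 3154, nat_lit 3146] (nat_lit 0) [nat_lit 22830] false,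
   Spec.mk (nat_lit 3152) (nat_lit 0) [nat_lit 7526, nat_lit 1694, nat_lit 4610, nat_lit 2666, nat_lit 3314, nat_lit 3146, nat_lit 3154] (nat_lit 1) [nat_lit 22834] false,
   Spec.mk (nat_lit 3154) (nat_lit 2) [nat_lit 7528, nat_lit 1696, nat_lit 4612, nat_lit 2668, nat_lit 3316, nat_lit 3148, nat_lit 3152, nat_lit 3156] (nat_lit 0) [nat_lit 22836] false,
   Spec.mk (nat_lit 3156) (nat_lit 3) [nat_lit 7530, nat_lit 1698, nat_lit 4614, nat_lit 2670, nat_lit 3318, nat_lit 3154] (nat_lit 0) [] false,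
   Spec.mk (nat_lit 3212) (nat_lit 2) [nat_lit 7586, nat_lit 1754, nat_lit 4670, nat_lit 2726, nat_lit 3698, nat_lit 3050, nat_lit 3266, nat_lit 3230] (nat_lit 0) [nat_lit 22894] false,
   Spec.mk (nat_lit 3230) (nat_lit 0) [nat_lit 7604, nat_lit 1772, nat_lit 4688, nat_lit 2744, nat_lit 3716, nat_lit 3068, nat_lit 3284, nat_lit 3212, nat_lit 3236] (nat_lit 0) [nat_lit 22912] false,
   Spec.mk (nat_lit 3236) (nat_lit 0) [nat_lit 7610, nat_lit 1778, nat_lit 4694, nat_lit 2750, nat_lit 3722, nat_lit 3074, nat_lit 3290, nat_lit 3230, nat_lit 3238] (nat_lit 0) [nat_lit 22918] false,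
   Spec.mk (nat_lit 3238) (nat_lit 2) [nat_lit 7612, nat_lit 1780, nat_lit 4696, nat_lit 2752, nat_lit 3724, nat_lit 3076, nat_lit 3292, nat_lit 3236] (nat_lit 0) [nat_lit 22920] false,
   Spec.mk (nat_lit 3266) (nat_lit 1) [nat_lit 7640, nat_lit 1808, nat_lit 4724, nat_lit 2780, nat_lit 3752, nat_lit 3104, nat_lit 3428, nat_lit 3212, nat_lit 3284] (nat_lit 0) [nat_lit 22948] false,
   Spec.mk (nat_lit 3284) (nat_lit 1) [nat_lit 7658, nat_lit 1826, nat_lit 4742, nat_lit 2798, nat_lit 3770, nat_lit 3122, nat_lit 3446, nat_lit 3230, nat_lit 3338, nat_lit 3266, nat_lit 3302, nat_lit 3290] (nat_lit 0) [nat_lit 22966] true,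
   Spec.mk (nat_lit 3290) (nat_lit 0) [nat_lit 7664, nat_lit 1832, nat_lit 4748, nat_lit 2804, nat_lit 3776, nat_lit 3128, nat_lit 3452, nat_lit 3236, nat_lit 3344, nat_lit 3308, nat_lit 3284, nat_lit 3292] (nat_lit 0) [nat_lit 22972] true,
   Spec.mk (nat_lit 3292) (nat_lit 2) [nat_lit 7666, nat_lit 1834, nat_lit 4750, nat_lit 2806, nat_lit 3778, nat_lit 3130, nat_lit 3454, nat_lit 3238, nat_lit 3346, nat_lit 3310, nat_lit 3290] (nat_lit 0) [nat_lit 22974] true,
   Spec.mk (nat_lit 3302) (nat_lit 0) [nat_lit 7676, nat_lit 1844, nat_lit 4760, nat_lit 2816, nat_lit 3788, nat_lit 3140, nat_lit 3464, nat_lit 3356, nat_lit 3284, nat_lit 3308] (nat_lit 1) [nat_lit 22984] true,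
   Spec.mk (nat_lit 3308) (nat_lit 0) [nat_lit 7682, nat_lit 1850, nat_lit 4766, nat_lit 2822, nat_lit 3794, nat_lit 3146, nat_lit 3470, nat_lit 3362, nat_lit 3290, nat_lit 3302, nat_lit 3314, nat_lit 3310] (nat_lit 0) [nat_lit 22990] true,
   Spec.mk (nat_lit 3310) (nat_lit 1) [nat_lit 7684, nat_lit 1852, nat_lit 4768, nat_lit 2824, nat_lit 3796, nat_lit 3148, nat_lit 3472, nat_lit 3364, nat_lit 3292, nat_lit 3316, nat_lit 3308] (nat_lit 0) [nat_lit 22992] true,
   Spec.mk (nat_lit 3314) (nat_lit 0) [nat_lit 7688, nat_lit 1856, nat_lit 4772, nat_lit 2828, nat_lit 3800, nat_lit 3152, nat_lit 3476, nat_lit 3368, nat_lit 3308, nat_lit 3316] (nat_lit 1) [nat_lit 22996] true,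
   Spec.mk (nat_lit 3316) (nat_lit 2) [nat_lit 7690, nat_lit 1858, nat_lit 4774, nat_lit 2830, nat_lit 3802, nat_lit 3154, nat_lit 3478, nat_lit 3370, nat_lit 3310, nat_lit 3314, nat_lit 3318] (nat_lit 0) [nat_lit 22998] true,
   Spec.mk (nat_lit 3318) (nat_lit 3) [nat_lit 7692, nat_lit 1860, nat_lit 4776, nat_lit 2832, nat_lit 3804, nat_lit 3156, nat_lit 3480, nat_lit 3372, nat_lit 3316] (nat_lit 0) [] false]

noncomputable def sp4 : List Spec :=
  [Spec.mk (nat_lit 3338) (nat_lit 0) [nat_lit 7712, nat_lit 1880, nat_lit 4796, nat_lit 2852, nat_lit 3824, nat_lit 3500, nat_lit 3284, nat_lit 3356, nat_lit 3344] (nat_lit 0) [nat_lit 23020] true,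
   Spec.mk (nat_lit 3344) (nat_lit 0) [nat_lit 7718, nat_lit 1886, nat_lit 4802, nat_lit 2858, nat_lit 3830, nat_lit 3506, nat_lit 3290, nat_lit 3362, nat_lit 3338, nat_lit 3346] (nat_lit 2) [nat_lit 23026] true,
   Spec.mk (nat_lit 3346) (nat_lit 0) [nat_lit 7720, nat_lit 1888, nat_lit 4804, nat_lit 2860, nat_lit 3832, nat_lit 3508, nat_lit 3292, nat_lit 3364, nat_lit 3344] (nat_lit 0) [nat_lit 23028] true,
   Spec.mk (nat_lit 3356) (nat_lit 0) [nat_lit 7730, nat_lit 1898, nat_lit 4814, nat_lit 2870, nat_lit 3842, nat_lit 3518, nat_lit 3302, nat_lit 3338, nat_lit 3362] (nat_lit 0) [nat_lit 23038] true,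
   Spec.mk (nat_lit 3362) (nat_lit 0) [nat_lit 7736, nat_lit 1904, nat_lit 4820, nat_lit 2876, nat_lit 3848, nat_lit 3524, nat_lit 3308, nat_lit 3344, nat_lit 3380, nat_lit 3356, nat_lit 3368, nat_lit 3364] (nat_lit 0) [nat_lit 23044] true,
   Spec.mk (nat_lit 3364) (nat_lit 1) [nat_lit 7738, nat_lit 1906, nat_lit 4822, nat_lit 2878, nat_lit 3850, nat_lit 3526, nat_lit 3310, nat_lit 3346, nat_lit 3382, nat_lit 3370, nat_lit 3362] (nat_lit 0) [nat_lit 23046] true,
   Spec.mk (nat_lit 3368) (nat_lit 0) [nat_lit 7742, nat_lit 1910, nat_lit 4826, nat_lit 2882, nat_lit 3854, nat_lit 3530, nat_lit 3314, nat_lit 3386, nat_lit 3362, nat_lit 3370] (nat_lit 2) [nat_lit 23050] true,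
   Spec.mk (nat_lit 3370) (nat_lit 1) [nat_lit 7744, nat_lit 1912, nat_lit 4828, nat_lit 2884, nat_lit 3856, nat_lit 3532, nat_lit 3316, nat_lit 3388, nat_lit 3364, nat_lit 3368, nat_lit 3372] (nat_lit 0) [nat_lit 23052] true,
   Spec.mk (nat_lit 3372) (nat_lit 2) [nat_lit 7746, nat_lit 1914, nat_lit 4830, nat_lit 2886, nat_lit 3858, nat_lit 3534, nat_lit 3318, nat_lit 3390, nat_lit 3370] (nat_lit 0) [] false,
   Spec.mk (nat_lit 3380) (nat_lit 0) [nat_lit 7754, nat_lit 1922, nat_lit 4838, nat_lit 2894, nat_lit 3866, nat_lit 3542, nat_lit 3362, nat_lit 3386, nat_lit 3382] (nat_lit 0) [nat_lit 23062] true,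
   Spec.mk (nat_lit 3382) (nat_lit 0) [nat_lit 7756, nat_lit 1924, nat_lit 4840, nat_lit 2896, nat_lit 3868, nat_lit 3544, nat_lit 3364, nat_lit 3388, nat_lit 3380] (nat_lit 0) [nat_lit 23064] true,
   Spec.mk (nat_lit 3386) (nat_lit 0) [nat_lit 7760, nat_lit 1928, nat_lit 4844, nat_lit 2900, nat_lit 3872, nat_lit 3548, nat_lit 3368, nat_lit 3380, nat_lit 3388] (nat_lit 0) [nat_lit 23068] false,
   Spec.mk (nat_lit 3388) (nat_lit 2) [nat_lit 7762, nat_lit 1930, nat_lit 4846, nat_lit 2902, nat_lit 3874, nat_lit 3550, nat_lit 3370, nat_lit 3382, nat_lit 3394, nat_lit 3386, nat_lit 3390] (nat_lit 0) [nat_lit 23070] true,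
   Spec.mk (nat_lit 3390) (nat_lit 2) [nat_lit 7764, nat_lit 1932, nat_lit 4848, nat_lit 2904, nat_lit 3876, nat_lit 3552, nat_lit 3372, nat_lit 3396, nat_lit 3388] (nat_lit 0) [] false,
   Spec.mk (nat_lit 3394) (nat_lit 2) [nat_lit 7768, nat_lit 1936, nat_lit 4852, nat_lit 2908, nat_lit 3880, nat_lit 3556, nat_lit 3388, nat_lit 3396] (nat_lit 0) [nat_lit 23076] false,
   Spec.mk (nat_lit 3396) (nat_lit 4) [nat_lit 7770, nat_lit 1938, nat_lit 4854, nat_lit 2910, nat_lit 3882, nat_lit 3558, nat_lit 3390, nat_lit 3394] (nat_lit 0) [] false,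
   Spec.mk (nat_lit 3428) (nat_lit 1) [nat_lit 7802, nat_lit 1970, nat_lit 4886, nat_lit 3914, nat_lit 3266, nat_lit 3446] (nat_lit 0) [nat_lit 23110] false,
   Spec.mk (nat_lit 3446) (nat_lit 0) [nat_lit 7820, nat_lit 1988, nat_lit 4904, nat_lit 3932, nat_lit 3284, nat_lit 3500, nat_lit 3428, nat_lit 3464, nat_lit 3452] (nat_lit 0) [nat_lit 23128] true,
   Spec.mk (nat_lit 3452) (nat_lit 0) [nat_lit 7826, nat_lit 1994, nat_lit 4910, nat_lit 3938, nat_lit 3290, nat_lit 3506, nat_lit 3470, nat_lit 3446, nat_lit 3454] (nat_lit 1) [nat_lit 23134] true,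
   Spec.mk (nat_lit 3454) (nat_lit 1) [nat_lit 7828, nat_lit 1996, nat_lit 4912, nat_lit 3940, nat_lit 3292, nat_lit 3508, nat_lit 3472, nat_lit 3452] (nat_lit 0) [nat_lit 23136] true,
   Spec.mk (nat_lit 3464) (nat_lit 0) [nat_lit 7838, nat_lit 2006, nat_lit 4922, nat_lit 3950, nat_lit 3302, nat_lit 3518, nat_lit 3446, nat_lit 3470] (nat_lit 3) [nat_lit 23146] true,
   Spec.mk (nat_lit 3470) (nat_lit 0) [nat_lit 7844, nat_lit 2012, nat_lit 4928, nat_lit 3956, nat_lit 3308, nat_lit 3524, nat_lit 3452, nat_lit 3464, nat_lit 3476, nat_lit 3472] (nat_lit 2) [nat_lit 23152] true,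
   Spec.mk (nat_lit 3472) (nat_lit 0) [nat_lit 7846, nat_lit 2014, nat_lit 4930, nat_lit 3958, nat_lit 3310, nat_lit 3526, nat_lit 3454, nat_lit 3478, nat_lit 3470] (nat_lit 1) [nat_lit 23154] true,
   Spec.mk (nat_lit 3476) (nat_lit 0) [nat_lit 7850, nat_lit 2018, nat_lit 4934, nat_lit 3962, nat_lit 3314, nat_lit 3530, nat_lit 3470, nat_lit 3478] (nat_lit 3) [nat_lit 23158] true,
   Spec.mk (nat_lit 3478) (nat_lit 0) [nat_lit 7852, nat_lit 2020, nat_lit 4936, nat_lit 3964, nat_lit 3316, nat_lit 3532, nat_lit 3472, nat_lit 3476, nat_lit 3480] (nat_lit 0) [nat_lit 23160] true,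
   Spec.mk (nat_lit 3480) (nat_lit 1) [nat_lit 7854, nat_lit 2022, nat_lit 4938, nat_lit 3966, nat_lit 3318, nat_lit 3534, nat_lit 3478] (nat_lit 0) [] false,
   Spec.mk (nat_lit 3500) (nat_lit 1) [nat_lit 7874, nat_lit 2042, nat_lit 4958, nat_lit 3986, nat_lit 3338, nat_lit 3446, nat_lit 3518, nat_lit 3506] (nat_lit 0) [nat_lit 23182] true,
   Spec.mk (nat_lit 3506) (nat_lit 0) [nat_lit 7880, nat_lit 2048, nat_lit 4964, nat_lit 3992, nat_lit 3344, nat_lit 3452, nat_lit 3524, nat_lit 3500, nat_lit 3508] (nat_lit 1) [nat_lit 23188] true,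
   Spec.mk (nat_lit 3508) (nat_lit 1) [nat_lit 7882, nat_lit 2050, nat_lit 4966, nat_lit 3994, nat_lit 3346, nat_lit 3454, nat_lit 3526, nat_lit 3506] (nat_lit 0) [nat_lit 23190] true,
   Spec.mk (nat_lit 3518) (nat_lit 0) [nat_lit 7892, nat_lit 2060, nat_lit 4976, nat_lit 4004, nat_lit 3356, nat_lit 3464, nat_lit 3572, nat_lit 3500, nat_lit 3524] (nat_lit 0) [nat_lit 23200] true,
   Spec.mk (nat_lit 3524) (nat_lit 0) [nat_lit 7898, nat_lit 2066, nat_lit 4982, nat_lit 4010, nat_lit 3362, nat_lit 3470, nat_lit 3578, nat_lit 3506, nat_lit 3542, nat_lit 3518, nat_lit 3530, nat_lit 3526] (nat_lit 0) [nat_lit 23206] true,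
   Spec.mk (nat_lit 3526) (nat_lit 1) [nat_lit 7900, nat_lit 2068, nat_lit 4984, nat_lit 4012, nat_lit 3364, nat_lit 3472, nat_lit 3580, nat_lit 3508, nat_lit 3544, nat_lit 3532, nat_lit 3524] (nat_lit 0) [nat_lit 23208] true,
   Spec.mk (nat_lit 3530) (nat_lit 0) [nat_lit 7904, nat_lit 2072, nat_lit 4988, nat_lit 4016, nat_lit 3368, nat_lit 3476, nat_lit 3584, nat_lit 3548, nat_lit 3524, nat_lit 3532] (nat_lit 2) [nat_lit 23212] true,
   Spec.mk (nat_lit 3532) (nat_lit 1) [nat_lit 7906, nat_lit 2074, nat_lit 4990, nat_lit 4018, nat_lit 3370, nat_lit 3478, nat_lit 3586, nat_lit 3550, nat_lit 3526, nat_lit 3530, nat_lit 3534] (nat_lit 0) [nat_lit 23214] true,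
   Spec.mk (nat_lit 3534) (nat_lit 2) [nat_lit 7908, nat_lit 2076, nat_lit 4992, nat_lit 4020, nat_lit 3372, nat_lit 3480, nat_lit 3588, nat_lit 3552, nat_lit 3532] (nat_lit 0) [] false,
   Spec.mk (nat_lit 3542) (nat_lit 0) [nat_lit 7916, nat_lit 2084, nat_lit 5000, nat_lit 4028, nat_lit 3380, nat_lit 3596, nat_lit 3524, nat_lit 3548, nat_lit 3544] (nat_lit 1) [nat_lit 23224] true,
   Spec.mk (nat_lit 3544) (nat_lit 0) [nat_lit 7918, nat_lit 2086, nat_lit 5002, nat_lit 4030, nat_lit 3382, nat_lit 3598, nat_lit 3526, nat_lit 3550, nat_lit 3542] (nat_lit 1) [nat_lit 23226] true,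
   Spec.mk (nat_lit 3548) (nat_lit 0) [nat_lit 7922, nat_lit 2090, nat_lit 5006, nat_lit 4034, nat_lit 3386, nat_lit 3602, nat_lit 3530, nat_lit 3542, nat_lit 3550] (nat_lit 1) [nat_lit 23230] true,
   Spec.mk (nat_lit 3550) (nat_lit 1) [nat_lit 7924, nat_lit 2092, nat_lit 5008, nat_lit 4036, nat_lit 3388, nat_lit 3604, nat_lit 3532, nat_lit 3544, nat_lit 3556, nat_lit 3548, nat_lit 3552] (nat_lit 0) [nat_lit 23232] false,
   Spec.mk (nat_lit 3552) (nat_lit 1) [nat_lit 7926, nat_lit 2094, nat_lit 5010, nat_lit 4038, nat_lit 3390, nat_lit 3606, nat_lit 3534, nat_lit 3558, nat_lit 3550] (nat_lit 0) [] false,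
   Spec.mk (nat_lit 3556) (nat_lit 1) [nat_lit 7930, nat_lit 2098, nat_lit 5014, nat_lit 4042, nat_lit 3394, nat_lit 3610, nat_lit 3550, nat_lit 3558] (nat_lit 0) [nat_lit 23238] false,
   Spec.mk (nat_lit 3558) (nat_lit 3) [nat_lit 7932, nat_lit 2100, nat_lit 5016, nat_lit 4044, nat_lit 3396, nat_lit 3612, nat_lit 3552, nat_lit 3556] (nat_lit 0) [] false,
   Spec.mk (nat_lit 3572) (nat_lit 1) [nat_lit 7946, nat_lit 2114, nat_lit 5030, nat_lit 4058, nat_lit 3518, nat_lit 3578] (nat_lit 0) [nat_lit 23254] true,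
   Spec.mk (nat_lit 3578) (nat_lit 0) [nat_lit 7952, nat_lit 2120, nat_lit 5036, nat_lit 4064, nat_lit 3524, nat_lit 3596, nat_lit 3572, nat_lit 3584, nat_lit 3580] (nat_lit 0) [nat_lit 23260] true,
   Spec.mk (nat_lit 3580) (nat_lit 1) [nat_lit 7954, nat_lit 2122, nat_lit 5038, nat_lit 4066, nat_lit 3526, nat_lit 3598, nat_lit 3586, nat_lit 3578] (nat_lit 0) [nat_lit 23262] true,
   Spec.mk (nat_lit 3584) (nat_lit 0) [nat_lit 7958, nat_lit 2126, nat_lit 5042, nat_lit 4070, nat_lit 3530, nat_lit 3602, nat_lit 3578, nat_lit 3586] (nat_lit 3) [nat_lit 23266] true,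
   Spec.mk (nat_lit 3586) (nat_lit 0) [nat_lit 7960, nat_lit 2128, nat_lit 5044, nat_lit 4072, nat_lit 3532, nat_lit 3604, nat_lit 3580, nat_lit 3584, nat_lit 3588] (nat_lit 0) [nat_lit 23268] false,
   Spec.mk (nat_lit 3588) (nat_lit 1) [nat_lit 7962, nat_lit 2130, nat_lit 5046, nat_lit 4074, nat_lit 3534, nat_lit 3606, nat_lit 3586] (nat_lit 0) [] false,
   Spec.mk (nat_lit 3596) (nat_lit 1) [nat_lit 7970, nat_lit 2138, nat_lit 5054, nat_lit 4082, nat_lit 3542, nat_lit 3578, nat_lit 3602, nat_lit 3598] (nat_lit 0) [nat_lit 23278] false,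
   Spec.mk (nat_lit 3598) (nat_lit 1) [nat_lit 7972, nat_lit 2140, nat_lit 5056, nat_lit 4084, nat_lit 3544, nat_lit 3580, nat_lit 3604, nat_lit 3596] (nat_lit 0) [nat_lit 23280] true,
   Spec.mk (nat_lit 3602) (nat_lit 0) [nat_lit 7976, nat_lit 2144, nat_lit 5060, nat_lit 4088, nat_lit 3548, nat_lit 3584, nat_lit 3620, nat_lit 3596, nat_lit 3604] (nat_lit 0) [nat_lit 23284] false,
   Spec.mk (nat_lit 3604) (nat_lit 2) [nat_lit 7978, nat_lit 2146, nat_lit 5062, nat_lit 4090, nat_lit 3550, nat_lit 3586, nat_lit 3622, nat_lit 3598, nat_lit 3610, nat_lit 3602, nat_lit 3606] (nat_lit 0) [nat_lit 23286] false,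
   Spec.mk (nat_lit 3606) (nat_lit 2) [nat_lit 7980, nat_lit 2148, nat_lit 5064, nat_lit 4092, nat_lit 3552, nat_lit 3588, nat_lit 3624, nat_lit 3612, nat_lit 3604] (nat_lit 0) [] false,
   Spec.mk (nat_lit 3610) (nat_lit 1) [nat_lit 7984, nat_lit 2152, nat_lit 5068, nat_lit 4096, nat_lit 3556, nat_lit 3628, nat_lit 3604, nat_lit 3612] (nat_lit 0) [nat_lit 23292] false,
   Spec.mk (nat_lit 3612) (nat_lit 3) [nat_lit 7986, nat_lit 2154, nat_lit 5070, nat_lit 4098, nat_lit 3558, nat_lit 3630, nat_lit 3606, nat_lit 3610] (nat_lit 0) [] false,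
   Spec.mk (nat_lit 3620) (nat_lit 1) [nat_lit 7994, nat_lit 2162, nat_lit 5078, nat_lit 4106, nat_lit 3602, nat_lit 3622] (nat_lit 0) [nat_lit 23302] false,
   Spec.mk (nat_lit 3622) (nat_lit 2) [nat_lit 7996, nat_lit 2164, nat_lit 5080, nat_lit 4108, nat_lit 3604, nat_lit 3628, nat_lit 3620, nat_lit 3624] (nat_lit 0) [nat_lit 23304] false,
   Spec.mk (nat_lit 3624) (nat_lit 1) [nat_lit 7998, nat_lit 2166, nat_lit 5082, nat_lit 4110, nat_lit 3606, nat_lit 3630, nat_lit 3622] (nat_lit 0) [] false,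
   Spec.mk (nat_lit 3628) (nat_lit 3) [nat_lit 8002, nat_lit 2170, nat_lit 5086, nat_lit 4114, nat_lit 3610, nat_lit 3622, nat_lit 3630] (nat_lit 0) [nat_lit 23310] false,
   Spec.mk (nat_lit 3630) (nat_lit 4) [nat_lit 8004, nat_lit 2172, nat_lit 5088, nat_lit 4116, nat_lit 3612, nat_lit 3624, nat_lit 3636, nat_lit 3628] (nat_lit 0) [] false]

noncomputable def sp5 : List Spec :=
  [Spec.mk (nat_lit 3636) (nat_lit 5) [nat_lit 8010, nat_lit 2178, nat_lit 5094, nat_lit 4122, nat_lit 3630] (nat_lit 0) [] false,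
   Spec.mk (nat_lit 3698) (nat_lit 2) [nat_lit 8072, nat_lit 5156, nat_lit 3212, nat_lit 3752, nat_lit 3716] (nat_lit 0) [nat_lit 23380] false,
   Spec.mk (nat_lit 3716) (nat_lit 0) [nat_lit 8090, nat_lit 5174, nat_lit 3230, nat_lit 3770, nat_lit 3698, nat_lit 3722] (nat_lit 0) [nat_lit 23398] false,
   Spec.mk (nat_lit 3722) (nat_lit 0) [nat_lit 8096, nat_lit 5180, nat_lit 3236, nat_lit 3776, nat_lit 3716, nat_lit 3724] (nat_lit 0) [nat_lit 23404] false,
   Spec.mk (nat_lit 3724) (nat_lit 2) [nat_lit 8098, nat_lit 5182, nat_lit 3238, nat_lit 3778, nat_lit 3722] (nat_lit 0) [nat_lit 23406] false,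
   Spec.mk (nat_lit 3752) (nat_lit 0) [nat_lit 8126, nat_lit 5210, nat_lit 3266, nat_lit 3914, nat_lit 3698, nat_lit 3770] (nat_lit 0) [nat_lit 23434] false,
   Spec.mk (nat_lit 3770) (nat_lit 0) [nat_lit 8144, nat_lit 5228, nat_lit 3284, nat_lit 3932, nat_lit 3716, nat_lit 3824, nat_lit 3752, nat_lit 3788, nat_lit 3776] (nat_lit 0) [nat_lit 23452] false,
   Spec.mk (nat_lit 3776) (nat_lit 0) [nat_lit 8150, nat_lit 5234, nat_lit 3290, nat_lit 3938, nat_lit 3722, nat_lit 3830, nat_lit 3794, nat_lit 3770, nat_lit 3778] (nat_lit 1) [nat_lit 23458] true,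
   Spec.mk (nat_lit 3778) (nat_lit 1) [nat_lit 8152, nat_lit 5236, nat_lit 3292, nat_lit 3940, nat_lit 3724, nat_lit 3832, nat_lit 3796, nat_lit 3776] (nat_lit 0) [nat_lit 23460] false,
   Spec.mk (nat_lit 3788) (nat_lit 0) [nat_lit 8162, nat_lit 5246, nat_lit 3302, nat_lit 3950, nat_lit 3842, nat_lit 3770, nat_lit 3794] (nat_lit 2) [nat_lit 23470] true,
   Spec.mk (nat_lit 3794) (nat_lit 0) [nat_lit 8168, nat_lit 5252, nat_lit 3308, nat_lit 3956, nat_lit 3848, nat_lit 3776, nat_lit 3788, nat_lit 3800, nat_lit 3796] (nat_lit 1) [nat_lit 23476] true,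
   Spec.mk (nat_lit 3796) (nat_lit 0) [nat_lit 8170, nat_lit 5254, nat_lit 3310, nat_lit 3958, nat_lit 3850, nat_lit 3778, nat_lit 3802, nat_lit 3794] (nat_lit 0) [nat_lit 23478] true,
   Spec.mk (nat_lit 3800) (nat_lit 0) [nat_lit 8174, nat_lit 5258, nat_lit 3314, nat_lit 3962, nat_lit 3854, nat_lit 3794, nat_lit 3802] (nat_lit 2) [nat_lit 23482] true,
   Spec.mk (nat_lit 3802) (nat_lit 1) [nat_lit 8176, nat_lit 5260, nat_lit 3316, nat_lit 3964, nat_lit 3856, nat_lit 3796, nat_lit 3800, nat_lit 3804] (nat_lit 0) [nat_lit 23484] false,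
   Spec.mk (nat_lit 3804) (nat_lit 2) [nat_lit 8178, nat_lit 5262, nat_lit 3318, nat_lit 3966, nat_lit 3858, nat_lit 3802] (nat_lit 0) [] false,
   Spec.mk (nat_lit 3824) (nat_lit 0) [nat_lit 8198, nat_lit 5282, nat_lit 3338, nat_lit 3986, nat_lit 3770, nat_lit 3842, nat_lit 3830] (nat_lit 2) [nat_lit 23506] true,
   Spec.mk (nat_lit 3830) (nat_lit 0) [nat_lit 8204, nat_lit 5288, nat_lit 3344, nat_lit 3992, nat_lit 3776, nat_lit 3848, nat_lit 3824, nat_lit 3832] (nat_lit 4) [nat_lit 23512] true,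
   Spec.mk (nat_lit 3832) (nat_lit 0) [nat_lit 8206, nat_lit 5290, nat_lit 3346, nat_lit 3994, nat_lit 3778, nat_lit 3850, nat_lit 3830] (nat_lit 2) [nat_lit 23514] true,
   Spec.mk (nat_lit 3842) (nat_lit 0) [nat_lit 8216, nat_lit 5300, nat_lit 3356, nat_lit 4004, nat_lit 3788, nat_lit 3824, nat_lit 3848] (nat_lit 2) [nat_lit 23524] true,
   Spec.mk (nat_lit 3848) (nat_lit 0) [nat_lit 8222, nat_lit 5306, nat_lit 3362, nat_lit 4010, nat_lit 3794, nat_lit 3830, nat_lit 3866, nat_lit 3842, nat_lit 3854, nat_lit 3850] (nat_lit 2) [nat_lit 23530] true,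
   Spec.mk (nat_lit 3850) (nat_lit 0) [nat_lit 8224, nat_lit 5308, nat_lit 3364, nat_lit 4012, nat_lit 3796, nat_lit 3832, nat_lit 3868, nat_lit 3856, nat_lit 3848] (nat_lit 1) [nat_lit 23532] true,
   Spec.mk (nat_lit 3854) (nat_lit 0) [nat_lit 8228, nat_lit 5312, nat_lit 3368, nat_lit 4016, nat_lit 3800, nat_lit 3872, nat_lit 3848, nat_lit 3856] (nat_lit 4) [nat_lit 23536] true,
   Spec.mk (nat_lit 3856) (nat_lit 0) [nat_lit 8230, nat_lit 5314, nat_lit 3370, nat_lit 4018, nat_lit 3802, nat_lit 3874, nat_lit 3850, nat_lit 3854, nat_lit 3858] (nat_lit 1) [nat_lit 23538] false,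
   Spec.mk (nat_lit 3858) (nat_lit 0) [nat_lit 8232, nat_lit 5316, nat_lit 3372, nat_lit 4020, nat_lit 3804, nat_lit 3876, nat_lit 3856] (nat_lit 0) [] false,
   Spec.mk (nat_lit 3866) (nat_lit 0) [nat_lit 8240, nat_lit 5324, nat_lit 3380, nat_lit 4028, nat_lit 3848, nat_lit 3872, nat_lit 3868] (nat_lit 2) [nat_lit 23548] true,
   Spec.mk (nat_lit 3868) (nat_lit 0) [nat_lit 8242, nat_lit 5326, nat_lit 3382, nat_lit 4030, nat_lit 3850, nat_lit 3874, nat_lit 3866] (nat_lit 2) [nat_lit 23550] true,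
   Spec.mk (nat_lit 3872) (nat_lit 0) [nat_lit 8246, nat_lit 5330, nat_lit 3386, nat_lit 4034, nat_lit 3854, nat_lit 3866, nat_lit 3874] (nat_lit 2) [nat_lit 23554] true,
   Spec.mk (nat_lit 3874) (nat_lit 0) [nat_lit 8248, nat_lit 5332, nat_lit 3388, nat_lit 4036, nat_lit 3856, nat_lit 3868, nat_lit 3880, nat_lit 3872, nat_lit 3876] (nat_lit 0) [nat_lit 23556] false,
   Spec.mk (nat_lit 3876) (nat_lit 0) [nat_lit 8250, nat_lit 5334, nat_lit 3390, nat_lit 4038, nat_lit 3858, nat_lit 3882, nat_lit 3874] (nat_lit 0) [] false,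
   Spec.mk (nat_lit 3880) (nat_lit 0) [nat_lit 8254, nat_lit 5338, nat_lit 3394, nat_lit 4042, nat_lit 3874, nat_lit 3882] (nat_lit 0) [nat_lit 23562] false,
   Spec.mk (nat_lit 3882) (nat_lit 2) [nat_lit 8256, nat_lit 5340, nat_lit 3396, nat_lit 4044, nat_lit 3876, nat_lit 3880] (nat_lit 0) [] false,
   Spec.mk (nat_lit 3914) (nat_lit 2) [nat_lit 8288, nat_lit 5372, nat_lit 3428, nat_lit 3752, nat_lit 3932] (nat_lit 0) [nat_lit 23596] false,
   Spec.mk (nat_lit 3932) (nat_lit 1) [nat_lit 8306, nat_lit 5390, nat_lit 3446, nat_lit 3770, nat_lit 3986, nat_lit 3914, nat_lit 3950, nat_lit 3938] (nat_lit 0) [nat_lit 23614] false,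
   Spec.mk (nat_lit 3938) (nat_lit 0) [nat_lit 8312, nat_lit 5396, nat_lit 3452, nat_lit 3776, nat_lit 3992, nat_lit 3956, nat_lit 3932, nat_lit 3940] (nat_lit 0) [nat_lit 23620] true,
   Spec.mk (nat_lit 3940) (nat_lit 2) [nat_lit 8314, nat_lit 5398, nat_lit 3454, nat_lit 3778, nat_lit 3994, nat_lit 3958, nat_lit 3938] (nat_lit 0) [nat_lit 23622] true,
   Spec.mk (nat_lit 3950) (nat_lit 0) [nat_lit 8324, nat_lit 5408, nat_lit 3464, nat_lit 3788, nat_lit 4004, nat_lit 3932, nat_lit 3956] (nat_lit 2) [nat_lit 23632] true,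
   Spec.mk (nat_lit 3956) (nat_lit 0) [nat_lit 8330, nat_lit 5414, nat_lit 3470, nat_lit 3794, nat_lit 4010, nat_lit 3938, nat_lit 3950, nat_lit 3962, nat_lit 3958] (nat_lit 1) [nat_lit 23638] true,
   Spec.mk (nat_lit 3958) (nat_lit 0) [nat_lit 8332, nat_lit 5416, nat_lit 3472, nat_lit 3796, nat_lit 4012, nat_lit 3940, nat_lit 3964, nat_lit 3956] (nat_lit 0) [nat_lit 23640] true,
   Spec.mk (nat_lit 3962) (nat_lit 0) [nat_lit 8336, nat_lit 5420, nat_lit 3476, nat_lit 3800, nat_lit 4016, nat_lit 3956, nat_lit 3964] (nat_lit 2) [nat_lit 23644] true,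
   Spec.mk (nat_lit 3964) (nat_lit 1) [nat_lit 8338, nat_lit 5422, nat_lit 3478, nat_lit 3802, nat_lit 4018, nat_lit 3958, nat_lit 3962, nat_lit 3966] (nat_lit 0) [nat_lit 23646] false,
   Spec.mk (nat_lit 3966) (nat_lit 2) [nat_lit 8340, nat_lit 5424, nat_lit 3480, nat_lit 3804, nat_lit 4020, nat_lit 3964] (nat_lit 0) [] false,
   Spec.mk (nat_lit 3986) (nat_lit 1) [nat_lit 8360, nat_lit 5444, nat_lit 3500, nat_lit 3824, nat_lit 4148, nat_lit 3932, nat_lit 4004, nat_lit 3992] (nat_lit 0) [nat_lit 23668] true,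
   Spec.mk (nat_lit 3992) (nat_lit 0) [nat_lit 8366, nat_lit 5450, nat_lit 3506, nat_lit 3830, nat_lit 4154, nat_lit 3938, nat_lit 4010, nat_lit 3986, nat_lit 3994] (nat_lit 1) [nat_lit 23674] true,
   Spec.mk (nat_lit 3994) (nat_lit 1) [nat_lit 8368, nat_lit 5452, nat_lit 3508, nat_lit 3832, nat_lit 4156, nat_lit 3940, nat_lit 4012, nat_lit 3992] (nat_lit 0) [nat_lit 23676] true,
   Spec.mk (nat_lit 4004) (nat_lit 0) [nat_lit 8378, nat_lit 5462, nat_lit 3518, nat_lit 3842, nat_lit 4166, nat_lit 3950, nat_lit 4058, nat_lit 3986, nat_lit 4010] (nat_lit 0) [nat_lit 23686] true,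
   Spec.mk (nat_lit 4010) (nat_lit 0) [nat_lit 8384, nat_lit 5468, nat_lit 3524, nat_lit 3848, nat_lit 4172, nat_lit 3956, nat_lit 4064, nat_lit 3992, nat_lit 4028, nat_lit 4004, nat_lit 4016, nat_lit 4012] (nat_lit 0) [nat_lit 23692] true,
   Spec.mk (nat_lit 4012) (nat_lit 1) [nat_lit 8386, nat_lit 5470, nat_lit 3526, nat_lit 3850, nat_lit 4174, nat_lit 3958, nat_lit 4066, nat_lit 3994, nat_lit 4030, nat_lit 4018, nat_lit 4010] (nat_lit 0) [nat_lit 23694] true,
   Spec.mk (nat_lit 4016) (nat_lit 0) [nat_lit 8390, nat_lit 5474, nat_lit 3530, nat_lit 3854, nat_lit 4178, nat_lit 3962, nat_lit 4070, nat_lit 4034, nat_lit 4010, nat_lit 4018] (nat_lit 2) [nat_lit 23698] true,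
   Spec.mk (nat_lit 4018) (nat_lit 1) [nat_lit 8392, nat_lit 5476, nat_lit 3532, nat_lit 3856, nat_lit 4180, nat_lit 3964, nat_lit 4072, nat_lit 4036, nat_lit 4012, nat_lit 4016, nat_lit 4020] (nat_lit 0) [nat_lit 23700] false,
   Spec.mk (nat_lit 4020) (nat_lit 2) [nat_lit 8394, nat_lit 5478, nat_lit 3534, nat_lit 3858, nat_lit 4182, nat_lit 3966, nat_lit 4074, nat_lit 4038, nat_lit 4018] (nat_lit 0) [] false,
   Spec.mk (nat_lit 4028) (nat_lit 0) [nat_lit 8402, nat_lit 5486, nat_lit 3542, nat_lit 3866, nat_lit 4190, nat_lit 4082, nat_lit 4010, nat_lit 4034, nat_lit 4030] (nat_lit 1) [nat_lit 23710] true,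
   Spec.mk (nat_lit 4030) (nat_lit 0) [nat_lit 8404, nat_lit 5488, nat_lit 3544, nat_lit 3868, nat_lit 4192, nat_lit 4084, nat_lit 4012, nat_lit 4036, nat_lit 4028] (nat_lit 1) [nat_lit 23712] false,
   Spec.mk (nat_lit 4034) (nat_lit 0) [nat_lit 8408, nat_lit 5492, nat_lit 3548, nat_lit 3872, nat_lit 4196, nat_lit 4088, nat_lit 4016, nat_lit 4028, nat_lit 4036] (nat_lit 1) [nat_lit 23716] true,
   Spec.mk (nat_lit 4036) (nat_lit 1) [nat_lit 8410, nat_lit 5494, nat_lit 3550, nat_lit 3874, nat_lit 4198, nat_lit 4090, nat_lit 4018, nat_lit 4030, nat_lit 4042, nat_lit 4034, nat_lit 4038] (nat_lit 0) [nat_lit 23718] false,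
   Spec.mk (nat_lit 4038) (nat_lit 1) [nat_lit 8412, nat_lit 5496, nat_lit 3552, nat_lit 3876, nat_lit 4200, nat_lit 4092, nat_lit 4020, nat_lit 4044, nat_lit 4036] (nat_lit 0) [] false,
   Spec.mk (nat_lit 4042) (nat_lit 1) [nat_lit 8416, nat_lit 5500, nat_lit 3556, nat_lit 3880, nat_lit 4204, nat_lit 4096, nat_lit 4036, nat_lit 4044] (nat_lit 0) [nat_lit 23724] false,
   Spec.mk (nat_lit 4044) (nat_lit 3) [nat_lit 8418, nat_lit 5502, nat_lit 3558, nat_lit 3882, nat_lit 4206, nat_lit 4098, nat_lit 4038, nat_lit 4042] (nat_lit 0) [] false,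
   Spec.mk (nat_lit 4058) (nat_lit 0) [nat_lit 8432, nat_lit 5516, nat_lit 3572, nat_lit 4220, nat_lit 4004, nat_lit 4064] (nat_lit 0) [nat_lit 23740] true,
   Spec.mk (nat_lit 4064) (nat_lit 0) [nat_lit 8438, nat_lit 5522, nat_lit 3578, nat_lit 4226, nat_lit 4010, nat_lit 4082, nat_lit 4058, nat_lit 4070, nat_lit 4066] (nat_lit 1) [nat_lit 23746] true,
   Spec.mk (nat_lit 4066) (nat_lit 0) [nat_lit 8440, nat_lit 5524, nat_lit 3580, nat_lit 4228, nat_lit 4012, nat_lit 4084, nat_lit 4072, nat_lit 4064] (nat_lit 0) [nat_lit 23748] false]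

noncomputable def sp6 : List Spec :=
  [Spec.mk (nat_lit 4070) (nat_lit 0) [nat_lit 8444, nat_lit 5528, nat_lit 3584, nat_lit 4232, nat_lit 4016, nat_lit 4088, nat_lit 4064, nat_lit 4072] (nat_lit 4) [nat_lit 23752] true,
   Spec.mk (nat_lit 4072) (nat_lit 0) [nat_lit 8446, nat_lit 5530, nat_lit 3586, nat_lit 4234, nat_lit 4018, nat_lit 4090, nat_lit 4066, nat_lit 4070, nat_lit 4074] (nat_lit 1) [nat_lit 23754] false,
   Spec.mk (nat_lit 4074) (nat_lit 0) [nat_lit 8448, nat_lit 5532, nat_lit 3588, nat_lit 4236, nat_lit 4020, nat_lit 4092, nat_lit 4072] (nat_lit 0) [] false,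
   Spec.mk (nat_lit 4082) (nat_lit 0) [nat_lit 8456, nat_lit 5540, nat_lit 3596, nat_lit 4244, nat_lit 4028, nat_lit 4064, nat_lit 4088, nat_lit 4084] (nat_lit 0) [nat_lit 23764] true,
   Spec.mk (nat_lit 4084) (nat_lit 0) [nat_lit 8458, nat_lit 5542, nat_lit 3598, nat_lit 4246, nat_lit 4030, nat_lit 4066, nat_lit 4090, nat_lit 4082] (nat_lit 0) [nat_lit 23766] false,
   Spec.mk (nat_lit 4088) (nat_lit 0) [nat_lit 8462, nat_lit 5546, nat_lit 3602, nat_lit 4250, nat_lit 4034, nat_lit 4070, nat_lit 4106, nat_lit 4082, nat_lit 4090] (nat_lit 1) [nat_lit 23770] true,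
   Spec.mk (nat_lit 4090) (nat_lit 1) [nat_lit 8464, nat_lit 5548, nat_lit 3604, nat_lit 4252, nat_lit 4036, nat_lit 4072, nat_lit 4108, nat_lit 4084, nat_lit 4096, nat_lit 4088, nat_lit 4092] (nat_lit 0) [nat_lit 23772] false,
   Spec.mk (nat_lit 4092) (nat_lit 1) [nat_lit 8466, nat_lit 5550, nat_lit 3606, nat_lit 4254, nat_lit 4038, nat_lit 4074, nat_lit 4110, nat_lit 4098, nat_lit 4090] (nat_lit 0) [] false,
   Spec.mk (nat_lit 4096) (nat_lit 0) [nat_lit 8470, nat_lit 5554, nat_lit 3610, nat_lit 4258, nat_lit 4042, nat_lit 4114, nat_lit 4090, nat_lit 4098] (nat_lit 0) [nat_lit 23778] false,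
   Spec.mk (nat_lit 4098) (nat_lit 2) [nat_lit 8472, nat_lit 5556, nat_lit 3612, nat_lit 4260, nat_lit 4044, nat_lit 4116, nat_lit 4092, nat_lit 4096] (nat_lit 0) [] false,
   Spec.mk (nat_lit 4106) (nat_lit 0) [nat_lit 8480, nat_lit 5564, nat_lit 3620, nat_lit 4268, nat_lit 4088, nat_lit 4108] (nat_lit 0) [nat_lit 23788] false,
   Spec.mk (nat_lit 4108) (nat_lit 1) [nat_lit 8482, nat_lit 5566, nat_lit 3622, nat_lit 4270, nat_lit 4090, nat_lit 4114, nat_lit 4106, nat_lit 4110] (nat_lit 0) [nat_lit 23790] false,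
   Spec.mk (nat_lit 4110) (nat_lit 0) [nat_lit 8484, nat_lit 5568, nat_lit 3624, nat_lit 4272, nat_lit 4092, nat_lit 4116, nat_lit 4108] (nat_lit 0) [] false,
   Spec.mk (nat_lit 4114) (nat_lit 2) [nat_lit 8488, nat_lit 5572, nat_lit 3628, nat_lit 4276, nat_lit 4096, nat_lit 4108, nat_lit 4116] (nat_lit 0) [nat_lit 23796] false,
   Spec.mk (nat_lit 4116) (nat_lit 3) [nat_lit 8490, nat_lit 5574, nat_lit 3630, nat_lit 4278, nat_lit 4098, nat_lit 4110, nat_lit 4122, nat_lit 4114] (nat_lit 0) [] false,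
   Spec.mk (nat_lit 4122) (nat_lit 4) [nat_lit 8496, nat_lit 5580, nat_lit 3636, nat_lit 4284, nat_lit 4116] (nat_lit 0) [] false,
   Spec.mk (nat_lit 4148) (nat_lit 2) [nat_lit 8522, nat_lit 5606, nat_lit 3986, nat_lit 4166, nat_lit 4154] (nat_lit 0) [nat_lit 23830] true,
   Spec.mk (nat_lit 4154) (nat_lit 0) [nat_lit 8528, nat_lit 5612, nat_lit 3992, nat_lit 4172, nat_lit 4148, nat_lit 4156] (nat_lit 0) [nat_lit 23836] true,
   Spec.mk (nat_lit 4156) (nat_lit 2) [nat_lit 8530, nat_lit 5614, nat_lit 3994, nat_lit 4174, nat_lit 4154] (nat_lit 0) [nat_lit 23838] true,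
   Spec.mk (nat_lit 4166) (nat_lit 0) [nat_lit 8540, nat_lit 5624, nat_lit 4004, nat_lit 4220, nat_lit 4148, nat_lit 4172] (nat_lit 0) [nat_lit 23848] false,
   Spec.mk (nat_lit 4172) (nat_lit 0) [nat_lit 8546, nat_lit 5630, nat_lit 4010, nat_lit 4226, nat_lit 4154, nat_lit 4190, nat_lit 4166, nat_lit 4178, nat_lit 4174] (nat_lit 0) [nat_lit 23854] true,
   Spec.mk (nat_lit 4174) (nat_lit 1) [nat_lit 8548, nat_lit 5632, nat_lit 4012, nat_lit 4228, nat_lit 4156, nat_lit 4192, nat_lit 4180, nat_lit 4172] (nat_lit 0) [nat_lit 23856] false,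
   Spec.mk (nat_lit 4178) (nat_lit 0) [nat_lit 8552, nat_lit 5636, nat_lit 4016, nat_lit 4232, nat_lit 4196, nat_lit 4172, nat_lit 4180] (nat_lit 2) [nat_lit 23860] true,
   Spec.mk (nat_lit 4180) (nat_lit 1) [nat_lit 8554, nat_lit 5638, nat_lit 4018, nat_lit 4234, nat_lit 4198, nat_lit 4174, nat_lit 4178, nat_lit 4182] (nat_lit 0) [nat_lit 23862] false,
   Spec.mk (nat_lit 4182) (nat_lit 2) [nat_lit 8556, nat_lit 5640, nat_lit 4020, nat_lit 4236, nat_lit 4200, nat_lit 4180] (nat_lit 0) [] false,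
   Spec.mk (nat_lit 4190) (nat_lit 0) [nat_lit 8564, nat_lit 5648, nat_lit 4028, nat_lit 4244, nat_lit 4172, nat_lit 4196, nat_lit 4192] (nat_lit 2) [nat_lit 23872] false,
   Spec.mk (nat_lit 4192) (nat_lit 0) [nat_lit 8566, nat_lit 5650, nat_lit 4030, nat_lit 4246, nat_lit 4174, nat_lit 4198, nat_lit 4190] (nat_lit 2) [nat_lit 23874] false,
   Spec.mk (nat_lit 4196) (nat_lit 0) [nat_lit 8570, nat_lit 5654, nat_lit 4034, nat_lit 4250, nat_lit 4178, nat_lit 4190, nat_lit 4198] (nat_lit 2) [nat_lit 23878] true,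
   Spec.mk (nat_lit 4198) (nat_lit 0) [nat_lit 8572, nat_lit 5656, nat_lit 4036, nat_lit 4252, nat_lit 4180, nat_lit 4192, nat_lit 4204, nat_lit 4196, nat_lit 4200] (nat_lit 0) [nat_lit 23880] false,
   Spec.mk (nat_lit 4200) (nat_lit 0) [nat_lit 8574, nat_lit 5658, nat_lit 4038, nat_lit 4254, nat_lit 4182, nat_lit 4206, nat_lit 4198] (nat_lit 0) [] false,
   Spec.mk (nat_lit 4204) (nat_lit 0) [nat_lit 8578, nat_lit 5662, nat_lit 4042, nat_lit 4258, nat_lit 4198, nat_lit 4206] (nat_lit 0) [nat_lit 23886] false,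
   Spec.mk (nat_lit 4206) (nat_lit 2) [nat_lit 8580, nat_lit 5664, nat_lit 4044, nat_lit 4260, nat_lit 4200, nat_lit 4204] (nat_lit 0) [] false,
   Spec.mk (nat_lit 4220) (nat_lit 2) [nat_lit 8594, nat_lit 5678, nat_lit 4058, nat_lit 4166, nat_lit 4226] (nat_lit 0) [nat_lit 23902] false,
   Spec.mk (nat_lit 4226) (nat_lit 1) [nat_lit 8600, nat_lit 5684, nat_lit 4064, nat_lit 4172, nat_lit 4244, nat_lit 4220, nat_lit 4232, nat_lit 4228] (nat_lit 0) [nat_lit 23908] false,
   Spec.mk (nat_lit 4228) (nat_lit 2) [nat_lit 8602, nat_lit 5686, nat_lit 4066, nat_lit 4174, nat_lit 4246, nat_lit 4234, nat_lit 4226] (nat_lit 0) [nat_lit 23910] false,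
   Spec.mk (nat_lit 4232) (nat_lit 0) [nat_lit 8606, nat_lit 5690, nat_lit 4070, nat_lit 4178, nat_lit 4250, nat_lit 4226, nat_lit 4234] (nat_lit 2) [nat_lit 23914] false,
   Spec.mk (nat_lit 4234) (nat_lit 1) [nat_lit 8608, nat_lit 5692, nat_lit 4072, nat_lit 4180, nat_lit 4252, nat_lit 4228, nat_lit 4232, nat_lit 4236] (nat_lit 0) [nat_lit 23916] false,
   Spec.mk (nat_lit 4236) (nat_lit 2) [nat_lit 8610, nat_lit 5694, nat_lit 4074, nat_lit 4182, nat_lit 4254, nat_lit 4234] (nat_lit 0) [] false,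
   Spec.mk (nat_lit 4244) (nat_lit 1) [nat_lit 8618, nat_lit 5702, nat_lit 4082, nat_lit 4190, nat_lit 4298, nat_lit 4226, nat_lit 4250, nat_lit 4246] (nat_lit 0) [nat_lit 23926] false,
   Spec.mk (nat_lit 4246) (nat_lit 1) [nat_lit 8620, nat_lit 5704, nat_lit 4084, nat_lit 4192, nat_lit 4300, nat_lit 4228, nat_lit 4252, nat_lit 4244] (nat_lit 0) [nat_lit 23928] false,
   Spec.mk (nat_lit 4250) (nat_lit 0) [nat_lit 8624, nat_lit 5708, nat_lit 4088, nat_lit 4196, nat_lit 4304, nat_lit 4232, nat_lit 4268, nat_lit 4244, nat_lit 4252] (nat_lit 0) [nat_lit 23932] false,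
   Spec.mk (nat_lit 4252) (nat_lit 2) [nat_lit 8626, nat_lit 5710, nat_lit 4090, nat_lit 4198, nat_lit 4306, nat_lit 4234, nat_lit 4270, nat_lit 4246, nat_lit 4258, nat_lit 4250, nat_lit 4254] (nat_lit 0) [nat_lit 23934] false,
   Spec.mk (nat_lit 4254) (nat_lit 2) [nat_lit 8628, nat_lit 5712, nat_lit 4092, nat_lit 4200, nat_lit 4308, nat_lit 4236, nat_lit 4272, nat_lit 4260, nat_lit 4252] (nat_lit 0) [] false,
   Spec.mk (nat_lit 4258) (nat_lit 1) [nat_lit 8632, nat_lit 5716, nat_lit 4096, nat_lit 4204, nat_lit 4312, nat_lit 4276, nat_lit 4252, nat_lit 4260] (nat_lit 0) [nat_lit 23940] false,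
   Spec.mk (nat_lit 4260) (nat_lit 3) [nat_lit 8634, nat_lit 5718, nat_lit 4098, nat_lit 4206, nat_lit 4314, nat_lit 4278, nat_lit 4254, nat_lit 4258] (nat_lit 0) [] false,
   Spec.mk (nat_lit 4268) (nat_lit 0) [nat_lit 8642, nat_lit 5726, nat_lit 4106, nat_lit 4322, nat_lit 4250, nat_lit 4270] (nat_lit 0) [nat_lit 23950] false,
   Spec.mk (nat_lit 4270) (nat_lit 1) [nat_lit 8644, nat_lit 5728, nat_lit 4108, nat_lit 4324, nat_lit 4252, nat_lit 4276, nat_lit 4268, nat_lit 4272] (nat_lit 0) [nat_lit 23952] false,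
   Spec.mk (nat_lit 4272) (nat_lit 0) [nat_lit 8646, nat_lit 5730, nat_lit 4110, nat_lit 4326, nat_lit 4254, nat_lit 4278, nat_lit 4270] (nat_lit 0) [] false,
   Spec.mk (nat_lit 4276) (nat_lit 2) [nat_lit 8650, nat_lit 5734, nat_lit 4114, nat_lit 4330, nat_lit 4258, nat_lit 4270, nat_lit 4278] (nat_lit 0) [nat_lit 23958] false,
   Spec.mk (nat_lit 4278) (nat_lit 3) [nat_lit 8652, nat_lit 5736, nat_lit 4116, nat_lit 4332, nat_lit 4260, nat_lit 4272, nat_lit 4284, nat_lit 4276] (nat_lit 0) [] false,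
   Spec.mk (nat_lit 4284) (nat_lit 4) [nat_lit 8658, nat_lit 5742, nat_lit 4122, nat_lit 4338, nat_lit 4278] (nat_lit 0) [] false,
   Spec.mk (nat_lit 4298) (nat_lit 2) [nat_lit 8672, nat_lit 5756, nat_lit 4244, nat_lit 4304, nat_lit 4300] (nat_lit 0) [nat_lit 23980] false,
   Spec.mk (nat_lit 4300) (nat_lit 2) [nat_lit 8674, nat_lit 5758, nat_lit 4246, nat_lit 4306, nat_lit 4298] (nat_lit 0) [nat_lit 23982] false,
   Spec.mk (nat_lit 4304) (nat_lit 0) [nat_lit 8678, nat_lit 5762, nat_lit 4250, nat_lit 4322, nat_lit 4298, nat_lit 4306] (nat_lit 0) [nat_lit 23986] false,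
   Spec.mk (nat_lit 4306) (nat_lit 2) [nat_lit 8680, nat_lit 5764, nat_lit 4252, nat_lit 4324, nat_lit 4300, nat_lit 4312, nat_lit 4304, nat_lit 4308] (nat_lit 0) [nat_lit 23988] false,
   Spec.mk (nat_lit 4308) (nat_lit 2) [nat_lit 8682, nat_lit 5766, nat_lit 4254, nat_lit 4326, nat_lit 4314, nat_lit 4306] (nat_lit 0) [] false,
   Spec.mk (nat_lit 4312) (nat_lit 0) [nat_lit 8686, nat_lit 5770, nat_lit 4258, nat_lit 4330, nat_lit 4306, nat_lit 4314] (nat_lit 0) [nat_lit 23994] false,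
   Spec.mk (nat_lit 4314) (nat_lit 2) [nat_lit 8688, nat_lit 5772, nat_lit 4260, nat_lit 4332, nat_lit 4308, nat_lit 4312] (nat_lit 0) [] false,
   Spec.mk (nat_lit 4322) (nat_lit 2) [nat_lit 8696, nat_lit 5780, nat_lit 4268, nat_lit 4304, nat_lit 4324] (nat_lit 0) [nat_lit 24004] false,
   Spec.mk (nat_lit 4324) (nat_lit 3) [nat_lit 8698, nat_lit 5782, nat_lit 4270, nat_lit 4306, nat_lit 4330, nat_lit 4322, nat_lit 4326] (nat_lit 0) [nat_lit 24006] false]

noncomputable def sp7 : List Spec :=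
  [Spec.mk (nat_lit 4326) (nat_lit 2) [nat_lit 8700, nat_lit 5784, nat_lit 4272, nat_lit 4308, nat_lit 4332, nat_lit 4324] (nat_lit 0) [] false,
   Spec.mk (nat_lit 4330) (nat_lit 3) [nat_lit 8704, nat_lit 5788, nat_lit 4276, nat_lit 4312, nat_lit 4348, nat_lit 4324, nat_lit 4332] (nat_lit 0) [nat_lit 24012] false,
   Spec.mk (nat_lit 4332) (nat_lit 4) [nat_lit 8706, nat_lit 5790, nat_lit 4278, nat_lit 4314, nat_lit 4350, nat_lit 4326, nat_lit 4338, nat_lit 4330] (nat_lit 0) [] false,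
   Spec.mk (nat_lit 4338) (nat_lit 4) [nat_lit 8712, nat_lit 5796, nat_lit 4284, nat_lit 4356, nat_lit 4332] (nat_lit 0) [] false,
   Spec.mk (nat_lit 4348) (nat_lit 4) [nat_lit 8722, nat_lit 5806, nat_lit 4330, nat_lit 4350] (nat_lit 0) [nat_lit 24030] false,
   Spec.mk (nat_lit 4350) (nat_lit 4) [nat_lit 8724, nat_lit 5808, nat_lit 4332, nat_lit 4356, nat_lit 4348] (nat_lit 0) [] false,
   Spec.mk (nat_lit 4356) (nat_lit 6) [nat_lit 8730, nat_lit 5814, nat_lit 4338, nat_lit 4350] (nat_lit 0) [] false,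
   Spec.mk (nat_lit 4454) (nat_lit 2) [nat_lit 8828, nat_lit 2996, nat_lit 4508] (nat_lit 0) [nat_lit 24136] false,
   Spec.mk (nat_lit 4508) (nat_lit 1) [nat_lit 8882, nat_lit 3050, nat_lit 4670, nat_lit 4454, nat_lit 4562, nat_lit 4526] (nat_lit 0) [nat_lit 24190] false,
   Spec.mk (nat_lit 4526) (nat_lit 0) [nat_lit 8900, nat_lit 3068, nat_lit 4688, nat_lit 4580, nat_lit 4508, nat_lit 4532] (nat_lit 0) [nat_lit 24208] false,
   Spec.mk (nat_lit 4532) (nat_lit 0) [nat_lit 8906, nat_lit 3074, nat_lit 4694, nat_lit 4586, nat_lit 4526, nat_lit 4534] (nat_lit 0) [nat_lit 24214] false,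
   Spec.mk (nat_lit 4534) (nat_lit 2) [nat_lit 8908, nat_lit 3076, nat_lit 4696, nat_lit 4588, nat_lit 4532] (nat_lit 0) [nat_lit 24216] false,
   Spec.mk (nat_lit 4562) (nat_lit 0) [nat_lit 8936, nat_lit 3104, nat_lit 4724, nat_lit 4508, nat_lit 4580] (nat_lit 2) [nat_lit 24244] false,
   Spec.mk (nat_lit 4580) (nat_lit 0) [nat_lit 8954, nat_lit 3122, nat_lit 4742, nat_lit 4526, nat_lit 4562, nat_lit 4598, nat_lit 4586] (nat_lit 1) [nat_lit 24262] false,
   Spec.mk (nat_lit 4586) (nat_lit 0) [nat_lit 8960, nat_lit 3128, nat_lit 4748, nat_lit 4532, nat_lit 4604, nat_lit 4580, nat_lit 4588] (nat_lit 2) [nat_lit 24268] true,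
   Spec.mk (nat_lit 4588) (nat_lit 0) [nat_lit 8962, nat_lit 3130, nat_lit 4750, nat_lit 4534, nat_lit 4606, nat_lit 4586] (nat_lit 0) [nat_lit 24270] false,
   Spec.mk (nat_lit 4598) (nat_lit 0) [nat_lit 8972, nat_lit 3140, nat_lit 4760, nat_lit 4580, nat_lit 4604] (nat_lit 2) [nat_lit 24280] true,
   Spec.mk (nat_lit 4604) (nat_lit 0) [nat_lit 8978, nat_lit 3146, nat_lit 4766, nat_lit 4586, nat_lit 4598, nat_lit 4610, nat_lit 4606] (nat_lit 1) [nat_lit 24286] false,
   Spec.mk (nat_lit 4606) (nat_lit 0) [nat_lit 8980, nat_lit 3148, nat_lit 4768, nat_lit 4588, nat_lit 4612, nat_lit 4604] (nat_lit 0) [nat_lit 24288] false,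
   Spec.mk (nat_lit 4610) (nat_lit 0) [nat_lit 8984, nat_lit 3152, nat_lit 4772, nat_lit 4604, nat_lit 4612] (nat_lit 2) [nat_lit 24292] false,
   Spec.mk (nat_lit 4612) (nat_lit 1) [nat_lit 8986, nat_lit 3154, nat_lit 4774, nat_lit 4606, nat_lit 4610, nat_lit 4614] (nat_lit 0) [nat_lit 24294] false,
   Spec.mk (nat_lit 4614) (nat_lit 2) [nat_lit 8988, nat_lit 3156, nat_lit 4776, nat_lit 4612] (nat_lit 0) [] false,
   Spec.mk (nat_lit 4670) (nat_lit 0) [nat_lit 9044, nat_lit 3212, nat_lit 5156, nat_lit 4508, nat_lit 4724, nat_lit 4688] (nat_lit 0) [nat_lit 24352] false,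
   Spec.mk (nat_lit 4688) (nat_lit 0) [nat_lit 9062, nat_lit 3230, nat_lit 5174, nat_lit 4526, nat_lit 4742, nat_lit 4670, nat_lit 4694] (nat_lit 2) [nat_lit 24370] false,
   Spec.mk (nat_lit 4694) (nat_lit 0) [nat_lit 9068, nat_lit 3236, nat_lit 5180, nat_lit 4532, nat_lit 4748, nat_lit 4688, nat_lit 4696] (nat_lit 2) [nat_lit 24376] false,
   Spec.mk (nat_lit 4696) (nat_lit 0) [nat_lit 9070, nat_lit 3238, nat_lit 5182, nat_lit 4534, nat_lit 4750, nat_lit 4694] (nat_lit 0) [nat_lit 24378] false,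
   Spec.mk (nat_lit 4724) (nat_lit 0) [nat_lit 9098, nat_lit 3266, nat_lit 5210, nat_lit 4562, nat_lit 4886, nat_lit 4670, nat_lit 4742] (nat_lit 1) [nat_lit 24406] false,
   Spec.mk (nat_lit 4742) (nat_lit 0) [nat_lit 9116, nat_lit 3284, nat_lit 5228, nat_lit 4580, nat_lit 4904, nat_lit 4688, nat_lit 4796, nat_lit 4724, nat_lit 4760, nat_lit 4748] (nat_lit 1) [nat_lit 24424] false,
   Spec.mk (nat_lit 4748) (nat_lit 0) [nat_lit 9122, nat_lit 3290, nat_lit 5234, nat_lit 4586, nat_lit 4910, nat_lit 4694, nat_lit 4802, nat_lit 4766, nat_lit 4742, nat_lit 4750] (nat_lit 2) [nat_lit 24430] true,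
   Spec.mk (nat_lit 4750) (nat_lit 0) [nat_lit 9124, nat_lit 3292, nat_lit 5236, nat_lit 4588, nat_lit 4912, nat_lit 4696, nat_lit 4804, nat_lit 4768, nat_lit 4748] (nat_lit 0) [nat_lit 24432] false,
   Spec.mk (nat_lit 4760) (nat_lit 0) [nat_lit 9134, nat_lit 3302, nat_lit 5246, nat_lit 4598, nat_lit 4922, nat_lit 4814, nat_lit 4742, nat_lit 4766] (nat_lit 3) [nat_lit 24442] true,
   Spec.mk (nat_lit 4766) (nat_lit 0) [nat_lit 9140, nat_lit 3308, nat_lit 5252, nat_lit 4604, nat_lit 4928, nat_lit 4820, nat_lit 4748, nat_lit 4760, nat_lit 4772, nat_lit 4768] (nat_lit 2) [nat_lit 24448] true,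
   Spec.mk (nat_lit 4768) (nat_lit 0) [nat_lit 9142, nat_lit 3310, nat_lit 5254, nat_lit 4606, nat_lit 4930, nat_lit 4822, nat_lit 4750, nat_lit 4774, nat_lit 4766] (nat_lit 1) [nat_lit 24450] false,
   Spec.mk (nat_lit 4772) (nat_lit 0) [nat_lit 9146, nat_lit 3314, nat_lit 5258, nat_lit 4610, nat_lit 4934, nat_lit 4826, nat_lit 4766, nat_lit 4774] (nat_lit 3) [nat_lit 24454] false,
   Spec.mk (nat_lit 4774) (nat_lit 0) [nat_lit 9148, nat_lit 3316, nat_lit 5260, nat_lit 4612, nat_lit 4936, nat_lit 4828, nat_lit 4768, nat_lit 4772, nat_lit 4776] (nat_lit 0) [nat_lit 24456] false,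
   Spec.mk (nat_lit 4776) (nat_lit 1) [nat_lit 9150, nat_lit 3318, nat_lit 5262, nat_lit 4614, nat_lit 4938, nat_lit 4830, nat_lit 4774] (nat_lit 0) [] false,
   Spec.mk (nat_lit 4796) (nat_lit 0) [nat_lit 9170, nat_lit 3338, nat_lit 5282, nat_lit 4958, nat_lit 4742, nat_lit 4814, nat_lit 4802] (nat_lit 2) [nat_lit 24478] false,
   Spec.mk (nat_lit 4802) (nat_lit 0) [nat_lit 9176, nat_lit 3344, nat_lit 5288, nat_lit 4964, nat_lit 4748, nat_lit 4820, nat_lit 4796, nat_lit 4804] (nat_lit 4) [nat_lit 24484] true,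
   Spec.mk (nat_lit 4804) (nat_lit 0) [nat_lit 9178, nat_lit 3346, nat_lit 5290, nat_lit 4966, nat_lit 4750, nat_lit 4822, nat_lit 4802] (nat_lit 2) [nat_lit 24486] false,
   Spec.mk (nat_lit 4814) (nat_lit 0) [nat_lit 9188, nat_lit 3356, nat_lit 5300, nat_lit 4976, nat_lit 4760, nat_lit 4796, nat_lit 4820] (nat_lit 2) [nat_lit 24496] true,
   Spec.mk (nat_lit 4820) (nat_lit 0) [nat_lit 9194, nat_lit 3362, nat_lit 5306, nat_lit 4982, nat_lit 4766, nat_lit 4802, nat_lit 4838, nat_lit 4814, nat_lit 4826, nat_lit 4822] (nat_lit 2) [nat_lit 24502] true,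
   Spec.mk (nat_lit 4822) (nat_lit 0) [nat_lit 9196, nat_lit 3364, nat_lit 5308, nat_lit 4984, nat_lit 4768, nat_lit 4804, nat_lit 4840, nat_lit 4828, nat_lit 4820] (nat_lit 1) [nat_lit 24504] false,
   Spec.mk (nat_lit 4826) (nat_lit 0) [nat_lit 9200, nat_lit 3368, nat_lit 5312, nat_lit 4988, nat_lit 4772, nat_lit 4844, nat_lit 4820, nat_lit 4828] (nat_lit 4) [nat_lit 24508] true,
   Spec.mk (nat_lit 4828) (nat_lit 0) [nat_lit 9202, nat_lit 3370, nat_lit 5314, nat_lit 4990, nat_lit 4774, nat_lit 4846, nat_lit 4822, nat_lit 4826, nat_lit 4830] (nat_lit 1) [nat_lit 24510] false,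
   Spec.mk (nat_lit 4830) (nat_lit 0) [nat_lit 9204, nat_lit 3372, nat_lit 5316, nat_lit 4992, nat_lit 4776, nat_lit 4848, nat_lit 4828] (nat_lit 0) [] false,
   Spec.mk (nat_lit 4838) (nat_lit 0) [nat_lit 9212, nat_lit 3380, nat_lit 5324, nat_lit 5000, nat_lit 4820, nat_lit 4844, nat_lit 4840] (nat_lit 2) [nat_lit 24520] false,
   Spec.mk (nat_lit 4840) (nat_lit 0) [nat_lit 9214, nat_lit 3382, nat_lit 5326, nat_lit 5002, nat_lit 4822, nat_lit 4846, nat_lit 4838] (nat_lit 2) [nat_lit 24522] false,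
   Spec.mk (nat_lit 4844) (nat_lit 0) [nat_lit 9218, nat_lit 3386, nat_lit 5330, nat_lit 5006, nat_lit 4826, nat_lit 4838, nat_lit 4846] (nat_lit 2) [nat_lit 24526] false,
   Spec.mk (nat_lit 4846) (nat_lit 0) [nat_lit 9220, nat_lit 3388, nat_lit 5332, nat_lit 5008, nat_lit 4828, nat_lit 4840, nat_lit 4852, nat_lit 4844, nat_lit 4848] (nat_lit 0) [nat_lit 24528] false,
   Spec.mk (nat_lit 4848) (nat_lit 0) [nat_lit 9222, nat_lit 3390, nat_lit 5334, nat_lit 5010, nat_lit 4830, nat_lit 4854, nat_lit 4846] (nat_lit 0) [] false,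
   Spec.mk (nat_lit 4852) (nat_lit 0) [nat_lit 9226, nat_lit 3394, nat_lit 5338, nat_lit 5014, nat_lit 4846, nat_lit 4854] (nat_lit 0) [nat_lit 24534] false,
   Spec.mk (nat_lit 4854) (nat_lit 2) [nat_lit 9228, nat_lit 3396, nat_lit 5340, nat_lit 5016, nat_lit 4848, nat_lit 4852] (nat_lit 0) [] false,
   Spec.mk (nat_lit 4886) (nat_lit 0) [nat_lit 9260, nat_lit 3428, nat_lit 5372, nat_lit 4724, nat_lit 4904] (nat_lit 2) [nat_lit 24568] false,
   Spec.mk (nat_lit 4904) (nat_lit 0) [nat_lit 9278, nat_lit 3446, nat_lit 5390, nat_lit 4742, nat_lit 4958, nat_lit 4886, nat_lit 4922, nat_lit 4910] (nat_lit 3) [nat_lit 24586] false,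
   Spec.mk (nat_lit 4910) (nat_lit 0) [nat_lit 9284, nat_lit 3452, nat_lit 5396, nat_lit 4748, nat_lit 4964, nat_lit 4928, nat_lit 4904, nat_lit 4912] (nat_lit 4) [nat_lit 24592] true,
   Spec.mk (nat_lit 4912) (nat_lit 0) [nat_lit 9286, nat_lit 3454, nat_lit 5398, nat_lit 4750, nat_lit 4966, nat_lit 4930, nat_lit 4910] (nat_lit 2) [nat_lit 24594] false,
   Spec.mk (nat_lit 4922) (nat_lit 0) [nat_lit 9296, nat_lit 3464, nat_lit 5408, nat_lit 4760, nat_lit 4976, nat_lit 4904, nat_lit 4928] (nat_lit 6) [nat_lit 24604] true,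
   Spec.mk (nat_lit 4928) (nat_lit 0) [nat_lit 9302, nat_lit 3470, nat_lit 5414, nat_lit 4766, nat_lit 4982, nat_lit 4910, nat_lit 4922, nat_lit 4934, nat_lit 4930] (nat_lit 5) [nat_lit 24610] true,
   Spec.mk (nat_lit 4930) (nat_lit 0) [nat_lit 9304, nat_lit 3472, nat_lit 5416, nat_lit 4768, nat_lit 4984, nat_lit 4912, nat_lit 4936, nat_lit 4928] (nat_lit 4) [nat_lit 24612] false,
   Spec.mk (nat_lit 4934) (nat_lit 0) [nat_lit 9308, nat_lit 3476, nat_lit 5420, nat_lit 4772, nat_lit 4988, nat_lit 4928, nat_lit 4936] (nat_lit 6) [nat_lit 24616] true]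

noncomputable def sp8 : List Spec :=
  [Spec.mk (nat_lit 4936) (nat_lit 0) [nat_lit 9310, nat_lit 3478, nat_lit 5422, nat_lit 4774, nat_lit 4990, nat_lit 4930, nat_lit 4934, nat_lit 4938] (nat_lit 3) [nat_lit 24618] false,
   Spec.mk (nat_lit 4938) (nat_lit 0) [nat_lit 9312, nat_lit 3480, nat_lit 5424, nat_lit 4776, nat_lit 4992, nat_lit 4936] (nat_lit 2) [] false,
   Spec.mk (nat_lit 4958) (nat_lit 0) [nat_lit 9332, nat_lit 3500, nat_lit 5444, nat_lit 4796, nat_lit 4904, nat_lit 4976, nat_lit 4964] (nat_lit 2) [nat_lit 24640] false,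
   Spec.mk (nat_lit 4964) (nat_lit 0) [nat_lit 9338, nat_lit 3506, nat_lit 5450, nat_lit 4802, nat_lit 4910, nat_lit 4982, nat_lit 4958, nat_lit 4966] (nat_lit 4) [nat_lit 24646] true,
   Spec.mk (nat_lit 4966) (nat_lit 0) [nat_lit 9340, nat_lit 3508, nat_lit 5452, nat_lit 4804, nat_lit 4912, nat_lit 4984, nat_lit 4964] (nat_lit 2) [nat_lit 24648] false,
   Spec.mk (nat_lit 4976) (nat_lit 0) [nat_lit 9350, nat_lit 3518, nat_lit 5462, nat_lit 4814, nat_lit 4922, nat_lit 5030, nat_lit 4958, nat_lit 4982] (nat_lit 3) [nat_lit 24658] true,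
   Spec.mk (nat_lit 4982) (nat_lit 0) [nat_lit 9356, nat_lit 3524, nat_lit 5468, nat_lit 4820, nat_lit 4928, nat_lit 5036, nat_lit 4964, nat_lit 5000, nat_lit 4976, nat_lit 4988, nat_lit 4984] (nat_lit 3) [nat_lit 24664] true,
   Spec.mk (nat_lit 4984) (nat_lit 0) [nat_lit 9358, nat_lit 3526, nat_lit 5470, nat_lit 4822, nat_lit 4930, nat_lit 5038, nat_lit 4966, nat_lit 5002, nat_lit 4990, nat_lit 4982] (nat_lit 2) [nat_lit 24666] false,
   Spec.mk (nat_lit 4988) (nat_lit 0) [nat_lit 9362, nat_lit 3530, nat_lit 5474, nat_lit 4826, nat_lit 4934, nat_lit 5042, nat_lit 5006, nat_lit 4982, nat_lit 4990] (nat_lit 5) [nat_lit 24670] true,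
   Spec.mk (nat_lit 4990) (nat_lit 0) [nat_lit 9364, nat_lit 3532, nat_lit 5476, nat_lit 4828, nat_lit 4936, nat_lit 5044, nat_lit 5008, nat_lit 4984, nat_lit 4988, nat_lit 4992] (nat_lit 2) [nat_lit 24672] false,
   Spec.mk (nat_lit 4992) (nat_lit 0) [nat_lit 9366, nat_lit 3534, nat_lit 5478, nat_lit 4830, nat_lit 4938, nat_lit 5046, nat_lit 5010, nat_lit 4990] (nat_lit 1) [] false,
   Spec.mk (nat_lit 5000) (nat_lit 0) [nat_lit 9374, nat_lit 3542, nat_lit 5486, nat_lit 4838, nat_lit 5054, nat_lit 4982, nat_lit 5006, nat_lit 5002] (nat_lit 4) [nat_lit 24682] true,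
   Spec.mk (nat_lit 5002) (nat_lit 0) [nat_lit 9376, nat_lit 3544, nat_lit 5488, nat_lit 4840, nat_lit 5056, nat_lit 4984, nat_lit 5008, nat_lit 5000] (nat_lit 4) [nat_lit 24684] false,
   Spec.mk (nat_lit 5006) (nat_lit 0) [nat_lit 9380, nat_lit 3548, nat_lit 5492, nat_lit 4844, nat_lit 5060, nat_lit 4988, nat_lit 5000, nat_lit 5008] (nat_lit 4) [nat_lit 24688] false,
   Spec.mk (nat_lit 5008) (nat_lit 0) [nat_lit 9382, nat_lit 3550, nat_lit 5494, nat_lit 4846, nat_lit 5062, nat_lit 4990, nat_lit 5002, nat_lit 5014, nat_lit 5006, nat_lit 5010] (nat_lit 2) [nat_lit 24690] false,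
   Spec.mk (nat_lit 5010) (nat_lit 0) [nat_lit 9384, nat_lit 3552, nat_lit 5496, nat_lit 4848, nat_lit 5064, nat_lit 4992, nat_lit 5016, nat_lit 5008] (nat_lit 2) [] false,
   Spec.mk (nat_lit 5014) (nat_lit 0) [nat_lit 9388, nat_lit 3556, nat_lit 5500, nat_lit 4852, nat_lit 5068, nat_lit 5008, nat_lit 5016] (nat_lit 2) [nat_lit 24696] false,
   Spec.mk (nat_lit 5016) (nat_lit 0) [nat_lit 9390, nat_lit 3558, nat_lit 5502, nat_lit 4854, nat_lit 5070, nat_lit 5010, nat_lit 5014] (nat_lit 0) [] false,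
   Spec.mk (nat_lit 5030) (nat_lit 0) [nat_lit 9404, nat_lit 3572, nat_lit 5516, nat_lit 4976, nat_lit 5036] (nat_lit 2) [nat_lit 24712] true,
   Spec.mk (nat_lit 5036) (nat_lit 0) [nat_lit 9410, nat_lit 3578, nat_lit 5522, nat_lit 4982, nat_lit 5054, nat_lit 5030, nat_lit 5042, nat_lit 5038] (nat_lit 3) [nat_lit 24718] true,
   Spec.mk (nat_lit 5038) (nat_lit 0) [nat_lit 9412, nat_lit 3580, nat_lit 5524, nat_lit 4984, nat_lit 5056, nat_lit 5044, nat_lit 5036] (nat_lit 2) [nat_lit 24720] false,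
   Spec.mk (nat_lit 5042) (nat_lit 0) [nat_lit 9416, nat_lit 3584, nat_lit 5528, nat_lit 4988, nat_lit 5060, nat_lit 5036, nat_lit 5044] (nat_lit 6) [nat_lit 24724] false,
   Spec.mk (nat_lit 5044) (nat_lit 0) [nat_lit 9418, nat_lit 3586, nat_lit 5530, nat_lit 4990, nat_lit 5062, nat_lit 5038, nat_lit 5042, nat_lit 5046] (nat_lit 3) [nat_lit 24726] false,
   Spec.mk (nat_lit 5046) (nat_lit 0) [nat_lit 9420, nat_lit 3588, nat_lit 5532, nat_lit 4992, nat_lit 5064, nat_lit 5044] (nat_lit 2) [] false,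
   Spec.mk (nat_lit 5054) (nat_lit 0) [nat_lit 9428, nat_lit 3596, nat_lit 5540, nat_lit 5000, nat_lit 5036, nat_lit 5060, nat_lit 5056] (nat_lit 2) [nat_lit 24736] false,
   Spec.mk (nat_lit 5056) (nat_lit 0) [nat_lit 9430, nat_lit 3598, nat_lit 5542, nat_lit 5002, nat_lit 5038, nat_lit 5062, nat_lit 5054] (nat_lit 2) [nat_lit 24738] false,
   Spec.mk (nat_lit 5060) (nat_lit 0) [nat_lit 9434, nat_lit 3602, nat_lit 5546, nat_lit 5006, nat_lit 5042, nat_lit 5078, nat_lit 5054, nat_lit 5062] (nat_lit 3) [nat_lit 24742] false,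
   Spec.mk (nat_lit 5062) (nat_lit 0) [nat_lit 9436, nat_lit 3604, nat_lit 5548, nat_lit 5008, nat_lit 5044, nat_lit 5080, nat_lit 5056, nat_lit 5068, nat_lit 5060, nat_lit 5064] (nat_lit 1) [nat_lit 24744] false,
   Spec.mk (nat_lit 5064) (nat_lit 0) [nat_lit 9438, nat_lit 3606, nat_lit 5550, nat_lit 5010, nat_lit 5046, nat_lit 5082, nat_lit 5070, nat_lit 5062] (nat_lit 1) [] false,
   Spec.mk (nat_lit 5068) (nat_lit 0) [nat_lit 9442, nat_lit 3610, nat_lit 5554, nat_lit 5014, nat_lit 5086, nat_lit 5062, nat_lit 5070] (nat_lit 2) [nat_lit 24750] false,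
   Spec.mk (nat_lit 5070) (nat_lit 0) [nat_lit 9444, nat_lit 3612, nat_lit 5556, nat_lit 5016, nat_lit 5088, nat_lit 5064, nat_lit 5068] (nat_lit 0) [] false,
   Spec.mk (nat_lit 5078) (nat_lit 0) [nat_lit 9452, nat_lit 3620, nat_lit 5564, nat_lit 5060, nat_lit 5080] (nat_lit 2) [nat_lit 24760] false,
   Spec.mk (nat_lit 5080) (nat_lit 0) [nat_lit 9454, nat_lit 3622, nat_lit 5566, nat_lit 5062, nat_lit 5086, nat_lit 5078, nat_lit 5082] (nat_lit 1) [nat_lit 24762] false,
   Spec.mk (nat_lit 5082) (nat_lit 0) [nat_lit 9456, nat_lit 3624, nat_lit 5568, nat_lit 5064, nat_lit 5088, nat_lit 5080] (nat_lit 2) [] false,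
   Spec.mk (nat_lit 5086) (nat_lit 0) [nat_lit 9460, nat_lit 3628, nat_lit 5572, nat_lit 5068, nat_lit 5080, nat_lit 5088] (nat_lit 0) [nat_lit 24768] false,
   Spec.mk (nat_lit 5088) (nat_lit 1) [nat_lit 9462, nat_lit 3630, nat_lit 5574, nat_lit 5070, nat_lit 5082, nat_lit 5094, nat_lit 5086] (nat_lit 0) [] false,
   Spec.mk (nat_lit 5094) (nat_lit 2) [nat_lit 9468, nat_lit 3636, nat_lit 5580, nat_lit 5088] (nat_lit 0) [] false,
   Spec.mk (nat_lit 5156) (nat_lit 2) [nat_lit 9530, nat_lit 3698, nat_lit 4670, nat_lit 5210, nat_lit 5174] (nat_lit 0) [nat_lit 24838] false,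
   Spec.mk (nat_lit 5174) (nat_lit 0) [nat_lit 9548, nat_lit 3716, nat_lit 4688, nat_lit 5228, nat_lit 5156, nat_lit 5180] (nat_lit 0) [nat_lit 24856] false,
   Spec.mk (nat_lit 5180) (nat_lit 0) [nat_lit 9554, nat_lit 3722, nat_lit 4694, nat_lit 5234, nat_lit 5174, nat_lit 5182] (nat_lit 0) [nat_lit 24862] false,
   Spec.mk (nat_lit 5182) (nat_lit 2) [nat_lit 9556, nat_lit 3724, nat_lit 4696, nat_lit 5236, nat_lit 5180] (nat_lit 0) [nat_lit 24864] false,
   Spec.mk (nat_lit 5210) (nat_lit 0) [nat_lit 9584, nat_lit 3752, nat_lit 4724, nat_lit 5372, nat_lit 5156, nat_lit 5228] (nat_lit 0) [nat_lit 24892] false,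
   Spec.mk (nat_lit 5228) (nat_lit 0) [nat_lit 9602, nat_lit 3770, nat_lit 4742, nat_lit 5390, nat_lit 5174, nat_lit 5282, nat_lit 5210, nat_lit 5246, nat_lit 5234] (nat_lit 0) [nat_lit 24910] false,
   Spec.mk (nat_lit 5234) (nat_lit 0) [nat_lit 9608, nat_lit 3776, nat_lit 4748, nat_lit 5396, nat_lit 5180, nat_lit 5288, nat_lit 5252, nat_lit 5228, nat_lit 5236] (nat_lit 1) [nat_lit 24916] true,
   Spec.mk (nat_lit 5236) (nat_lit 1) [nat_lit 9610, nat_lit 3778, nat_lit 4750, nat_lit 5398, nat_lit 5182, nat_lit 5290, nat_lit 5254, nat_lit 5234] (nat_lit 0) [nat_lit 24918] false,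
   Spec.mk (nat_lit 5246) (nat_lit 0) [nat_lit 9620, nat_lit 3788, nat_lit 4760, nat_lit 5408, nat_lit 5300, nat_lit 5228, nat_lit 5252] (nat_lit 2) [nat_lit 24928] false,
   Spec.mk (nat_lit 5252) (nat_lit 0) [nat_lit 9626, nat_lit 3794, nat_lit 4766, nat_lit 5414, nat_lit 5306, nat_lit 5234, nat_lit 5246, nat_lit 5258, nat_lit 5254] (nat_lit 1) [nat_lit 24934] true,
   Spec.mk (nat_lit 5254) (nat_lit 0) [nat_lit 9628, nat_lit 3796, nat_lit 4768, nat_lit 5416, nat_lit 5308, nat_lit 5236, nat_lit 5260, nat_lit 5252] (nat_lit 0) [nat_lit 24936] false,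
   Spec.mk (nat_lit 5258) (nat_lit 0) [nat_lit 9632, nat_lit 3800, nat_lit 4772, nat_lit 5420, nat_lit 5312, nat_lit 5252, nat_lit 5260] (nat_lit 2) [nat_lit 24940] false,
   Spec.mk (nat_lit 5260) (nat_lit 1) [nat_lit 9634, nat_lit 3802, nat_lit 4774, nat_lit 5422, nat_lit 5314, nat_lit 5254, nat_lit 5258, nat_lit 5262] (nat_lit 0) [nat_lit 24942] false,
   Spec.mk (nat_lit 5262) (nat_lit 2) [nat_lit 9636, nat_lit 3804, nat_lit 4776, nat_lit 5424, nat_lit 5316, nat_lit 5260] (nat_lit 0) [] false,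
   Spec.mk (nat_lit 5282) (nat_lit 0) [nat_lit 9656, nat_lit 3824, nat_lit 4796, nat_lit 5444, nat_lit 5228, nat_lit 5300, nat_lit 5288] (nat_lit 2) [nat_lit 24964] false,
   Spec.mk (nat_lit 5288) (nat_lit 0) [nat_lit 9662, nat_lit 3830, nat_lit 4802, nat_lit 5450, nat_lit 5234, nat_lit 5306, nat_lit 5282, nat_lit 5290] (nat_lit 4) [nat_lit 24970] true,
   Spec.mk (nat_lit 5290) (nat_lit 0) [nat_lit 9664, nat_lit 3832, nat_lit 4804, nat_lit 5452, nat_lit 5236, nat_lit 5308, nat_lit 5288] (nat_lit 2) [nat_lit 24972] false,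
   Spec.mk (nat_lit 5300) (nat_lit 0) [nat_lit 9674, nat_lit 3842, nat_lit 4814, nat_lit 5462, nat_lit 5246, nat_lit 5282, nat_lit 5306] (nat_lit 2) [nat_lit 24982] true,
   Spec.mk (nat_lit 5306) (nat_lit 0) [nat_lit 9680, nat_lit 3848, nat_lit 4820, nat_lit 5468, nat_lit 5252, nat_lit 5288, nat_lit 5324, nat_lit 5300, nat_lit 5312, nat_lit 5308] (nat_lit 2) [nat_lit 24988] true,
   Spec.mk (nat_lit 5308) (nat_lit 0) [nat_lit 9682, nat_lit 3850, nat_lit 4822, nat_lit 5470, nat_lit 5254, nat_lit 5290, nat_lit 5326, nat_lit 5314, nat_lit 5306] (nat_lit 1) [nat_lit 24990] false,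
   Spec.mk (nat_lit 5312) (nat_lit 0) [nat_lit 9686, nat_lit 3854, nat_lit 4826, nat_lit 5474, nat_lit 5258, nat_lit 5330, nat_lit 5306, nat_lit 5314] (nat_lit 4) [nat_lit 24994] false,
   Spec.mk (nat_lit 5314) (nat_lit 0) [nat_lit 9688, nat_lit 3856, nat_lit 4828, nat_lit 5476, nat_lit 5260, nat_lit 5332, nat_lit 5308, nat_lit 5312, nat_lit 5316] (nat_lit 1) [nat_lit 24996] false,
   Spec.mk (nat_lit 5316) (nat_lit 0) [nat_lit 9690, nat_lit 3858, nat_lit 4830, nat_lit 5478, nat_lit 5262, nat_lit 5334, nat_lit 5314] (nat_lit 0) [] false]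

noncomputable def sp9 : List Spec :=
  [Spec.mk (nat_lit 5324) (nat_lit 0) [nat_lit 9698, nat_lit 3866, nat_lit 4838, nat_lit 5486, nat_lit 5306, nat_lit 5330, nat_lit 5326] (nat_lit 2) [nat_lit 25006] true,
   Spec.mk (nat_lit 5326) (nat_lit 0) [nat_lit 9700, nat_lit 3868, nat_lit 4840, nat_lit 5488, nat_lit 5308, nat_lit 5332, nat_lit 5324] (nat_lit 2) [nat_lit 25008] false,
   Spec.mk (nat_lit 5330) (nat_lit 0) [nat_lit 9704, nat_lit 3872, nat_lit 4844, nat_lit 5492, nat_lit 5312, nat_lit 5324, nat_lit 5332] (nat_lit 2) [nat_lit 25012] false,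
   Spec.mk (nat_lit 5332) (nat_lit 0) [nat_lit 9706, nat_lit 3874, nat_lit 4846, nat_lit 5494, nat_lit 5314, nat_lit 5326, nat_lit 5338, nat_lit 5330, nat_lit 5334] (nat_lit 0) [nat_lit 25014] false,
   Spec.mk (nat_lit 5334) (nat_lit 0) [nat_lit 9708, nat_lit 3876, nat_lit 4848, nat_lit 5496, nat_lit 5316, nat_lit 5340, nat_lit 5332] (nat_lit 0) [] false,
   Spec.mk (nat_lit 5338) (nat_lit 0) [nat_lit 9712, nat_lit 3880, nat_lit 4852, nat_lit 5500, nat_lit 5332, nat_lit 5340] (nat_lit 0) [nat_lit 25020] false,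
   Spec.mk (nat_lit 5340) (nat_lit 2) [nat_lit 9714, nat_lit 3882, nat_lit 4854, nat_lit 5502, nat_lit 5334, nat_lit 5338] (nat_lit 0) [] false,
   Spec.mk (nat_lit 5372) (nat_lit 1) [nat_lit 9746, nat_lit 3914, nat_lit 4886, nat_lit 5858, nat_lit 5210, nat_lit 5390] (nat_lit 0) [nat_lit 25054] false,
   Spec.mk (nat_lit 5390) (nat_lit 0) [nat_lit 9764, nat_lit 3932, nat_lit 4904, nat_lit 5876, nat_lit 5228, nat_lit 5444, nat_lit 5372, nat_lit 5408, nat_lit 5396] (nat_lit 0) [nat_lit 25072] false,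
   Spec.mk (nat_lit 5396) (nat_lit 0) [nat_lit 9770, nat_lit 3938, nat_lit 4910, nat_lit 5882, nat_lit 5234, nat_lit 5450, nat_lit 5414, nat_lit 5390, nat_lit 5398] (nat_lit 1) [nat_lit 25078] true,
   Spec.mk (nat_lit 5398) (nat_lit 1) [nat_lit 9772, nat_lit 3940, nat_lit 4912, nat_lit 5884, nat_lit 5236, nat_lit 5452, nat_lit 5416, nat_lit 5396] (nat_lit 0) [nat_lit 25080] false,
   Spec.mk (nat_lit 5408) (nat_lit 0) [nat_lit 9782, nat_lit 3950, nat_lit 4922, nat_lit 5894, nat_lit 5246, nat_lit 5462, nat_lit 5390, nat_lit 5414] (nat_lit 3) [nat_lit 25090] false,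
   Spec.mk (nat_lit 5414) (nat_lit 0) [nat_lit 9788, nat_lit 3956, nat_lit 4928, nat_lit 5900, nat_lit 5252, nat_lit 5468, nat_lit 5396, nat_lit 5408, nat_lit 5420, nat_lit 5416] (nat_lit 2) [nat_lit 25096] true,
   Spec.mk (nat_lit 5416) (nat_lit 0) [nat_lit 9790, nat_lit 3958, nat_lit 4930, nat_lit 5902, nat_lit 5254, nat_lit 5470, nat_lit 5398, nat_lit 5422, nat_lit 5414] (nat_lit 1) [nat_lit 25098] false,
   Spec.mk (nat_lit 5420) (nat_lit 0) [nat_lit 9794, nat_lit 3962, nat_lit 4934, nat_lit 5906, nat_lit 5258, nat_lit 5474, nat_lit 5414, nat_lit 5422] (nat_lit 3) [nat_lit 25102] false,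
   Spec.mk (nat_lit 5422) (nat_lit 0) [nat_lit 9796, nat_lit 3964, nat_lit 4936, nat_lit 5908, nat_lit 5260, nat_lit 5476, nat_lit 5416, nat_lit 5420, nat_lit 5424] (nat_lit 0) [nat_lit 25104] false,
   Spec.mk (nat_lit 5424) (nat_lit 1) [nat_lit 9798, nat_lit 3966, nat_lit 4938, nat_lit 5910, nat_lit 5262, nat_lit 5478, nat_lit 5422] (nat_lit 0) [] false,
   Spec.mk (nat_lit 5444) (nat_lit 0) [nat_lit 9818, nat_lit 3986, nat_lit 4958, nat_lit 5930, nat_lit 5282, nat_lit 5606, nat_lit 5390, nat_lit 5462, nat_lit 5450] (nat_lit 0) [nat_lit 25126] false,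
   Spec.mk (nat_lit 5450) (nat_lit 0) [nat_lit 9824, nat_lit 3992, nat_lit 4964, nat_lit 5936, nat_lit 5288, nat_lit 5612, nat_lit 5396, nat_lit 5468, nat_lit 5444, nat_lit 5452] (nat_lit 2) [nat_lit 25132] true,
   Spec.mk (nat_lit 5452) (nat_lit 0) [nat_lit 9826, nat_lit 3994, nat_lit 4966, nat_lit 5938, nat_lit 5290, nat_lit 5614, nat_lit 5398, nat_lit 5470, nat_lit 5450] (nat_lit 0) [nat_lit 25134] false,
   Spec.mk (nat_lit 5462) (nat_lit 0) [nat_lit 9836, nat_lit 4004, nat_lit 4976, nat_lit 5948, nat_lit 5300, nat_lit 5624, nat_lit 5408, nat_lit 5516, nat_lit 5444, nat_lit 5468] (nat_lit 1) [nat_lit 25144] true,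
   Spec.mk (nat_lit 5468) (nat_lit 0) [nat_lit 9842, nat_lit 4010, nat_lit 4982, nat_lit 5954, nat_lit 5306, nat_lit 5630, nat_lit 5414, nat_lit 5522, nat_lit 5450, nat_lit 5486, nat_lit 5462, nat_lit 5474, nat_lit 5470] (nat_lit 1) [nat_lit 25150] true,
   Spec.mk (nat_lit 5470) (nat_lit 0) [nat_lit 9844, nat_lit 4012, nat_lit 4984, nat_lit 5956, nat_lit 5308, nat_lit 5632, nat_lit 5416, nat_lit 5524, nat_lit 5452, nat_lit 5488, nat_lit 5476, nat_lit 5468] (nat_lit 0) [nat_lit 25152] false,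
   Spec.mk (nat_lit 5474) (nat_lit 0) [nat_lit 9848, nat_lit 4016, nat_lit 4988, nat_lit 5960, nat_lit 5312, nat_lit 5636, nat_lit 5420, nat_lit 5528, nat_lit 5492, nat_lit 5468, nat_lit 5476] (nat_lit 3) [nat_lit 25156] false,
   Spec.mk (nat_lit 5476) (nat_lit 0) [nat_lit 9850, nat_lit 4018, nat_lit 4990, nat_lit 5962, nat_lit 5314, nat_lit 5638, nat_lit 5422, nat_lit 5530, nat_lit 5494, nat_lit 5470, nat_lit 5474, nat_lit 5478] (nat_lit 0) [nat_lit 25158] false,
   Spec.mk (nat_lit 5478) (nat_lit 1) [nat_lit 9852, nat_lit 4020, nat_lit 4992, nat_lit 5964, nat_lit 5316, nat_lit 5640, nat_lit 5424, nat_lit 5532, nat_lit 5496, nat_lit 5476] (nat_lit 0) [] false,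
   Spec.mk (nat_lit 5486) (nat_lit 0) [nat_lit 9860, nat_lit 4028, nat_lit 5000, nat_lit 5972, nat_lit 5324, nat_lit 5648, nat_lit 5540, nat_lit 5468, nat_lit 5492, nat_lit 5488] (nat_lit 2) [nat_lit 25168] false,
   Spec.mk (nat_lit 5488) (nat_lit 0) [nat_lit 9862, nat_lit 4030, nat_lit 5002, nat_lit 5974, nat_lit 5326, nat_lit 5650, nat_lit 5542, nat_lit 5470, nat_lit 5494, nat_lit 5486] (nat_lit 2) [nat_lit 25170] false,
   Spec.mk (nat_lit 5492) (nat_lit 0) [nat_lit 9866, nat_lit 4034, nat_lit 5006, nat_lit 5978, nat_lit 5330, nat_lit 5654, nat_lit 5546, nat_lit 5474, nat_lit 5486, nat_lit 5494] (nat_lit 2) [nat_lit 25174] false,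
   Spec.mk (nat_lit 5494) (nat_lit 0) [nat_lit 9868, nat_lit 4036, nat_lit 5008, nat_lit 5980, nat_lit 5332, nat_lit 5656, nat_lit 5548, nat_lit 5476, nat_lit 5488, nat_lit 5500, nat_lit 5492, nat_lit 5496] (nat_lit 0) [nat_lit 25176] false,
   Spec.mk (nat_lit 5496) (nat_lit 0) [nat_lit 9870, nat_lit 4038, nat_lit 5010, nat_lit 5982, nat_lit 5334, nat_lit 5658, nat_lit 5550, nat_lit 5478, nat_lit 5502, nat_lit 5494] (nat_lit 0) [] false,
   Spec.mk (nat_lit 5500) (nat_lit 0) [nat_lit 9874, nat_lit 4042, nat_lit 5014, nat_lit 5986, nat_lit 5338, nat_lit 5662, nat_lit 5554, nat_lit 5494, nat_lit 5502] (nat_lit 0) [nat_lit 25182] false,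
   Spec.mk (nat_lit 5502) (nat_lit 2) [nat_lit 9876, nat_lit 4044, nat_lit 5016, nat_lit 5988, nat_lit 5340, nat_lit 5664, nat_lit 5556, nat_lit 5496, nat_lit 5500] (nat_lit 0) [] false,
   Spec.mk (nat_lit 5516) (nat_lit 0) [nat_lit 9890, nat_lit 4058, nat_lit 5030, nat_lit 6002, nat_lit 5678, nat_lit 5462, nat_lit 5522] (nat_lit 1) [nat_lit 25198] true,
   Spec.mk (nat_lit 5522) (nat_lit 0) [nat_lit 9896, nat_lit 4064, nat_lit 5036, nat_lit 6008, nat_lit 5684, nat_lit 5468, nat_lit 5540, nat_lit 5516, nat_lit 5528, nat_lit 5524] (nat_lit 2) [nat_lit 25204] false,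
   Spec.mk (nat_lit 5524) (nat_lit 0) [nat_lit 9898, nat_lit 4066, nat_lit 5038, nat_lit 6010, nat_lit 5686, nat_lit 5470, nat_lit 5542, nat_lit 5530, nat_lit 5522] (nat_lit 1) [nat_lit 25206] false,
   Spec.mk (nat_lit 5528) (nat_lit 0) [nat_lit 9902, nat_lit 4070, nat_lit 5042, nat_lit 6014, nat_lit 5690, nat_lit 5474, nat_lit 5546, nat_lit 5522, nat_lit 5530] (nat_lit 5) [nat_lit 25210] false,
   Spec.mk (nat_lit 5530) (nat_lit 0) [nat_lit 9904, nat_lit 4072, nat_lit 5044, nat_lit 6016, nat_lit 5692, nat_lit 5476, nat_lit 5548, nat_lit 5524, nat_lit 5528, nat_lit 5532] (nat_lit 2) [nat_lit 25212] false,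
   Spec.mk (nat_lit 5532) (nat_lit 0) [nat_lit 9906, nat_lit 4074, nat_lit 5046, nat_lit 6018, nat_lit 5694, nat_lit 5478, nat_lit 5550, nat_lit 5530] (nat_lit 1) [] false,
   Spec.mk (nat_lit 5540) (nat_lit 0) [nat_lit 9914, nat_lit 4082, nat_lit 5054, nat_lit 6026, nat_lit 5702, nat_lit 5486, nat_lit 5522, nat_lit 5546, nat_lit 5542] (nat_lit 1) [nat_lit 25222] false,
   Spec.mk (nat_lit 5542) (nat_lit 0) [nat_lit 9916, nat_lit 4084, nat_lit 5056, nat_lit 6028, nat_lit 5704, nat_lit 5488, nat_lit 5524, nat_lit 5548, nat_lit 5540] (nat_lit 1) [nat_lit 25224] false,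
   Spec.mk (nat_lit 5546) (nat_lit 0) [nat_lit 9920, nat_lit 4088, nat_lit 5060, nat_lit 6032, nat_lit 5708, nat_lit 5492, nat_lit 5528, nat_lit 5564, nat_lit 5540, nat_lit 5548] (nat_lit 2) [nat_lit 25228] false,
   Spec.mk (nat_lit 5548) (nat_lit 0) [nat_lit 9922, nat_lit 4090, nat_lit 5062, nat_lit 6034, nat_lit 5710, nat_lit 5494, nat_lit 5530, nat_lit 5566, nat_lit 5542, nat_lit 5554, nat_lit 5546, nat_lit 5550] (nat_lit 0) [nat_lit 25230] false,
   Spec.mk (nat_lit 5550) (nat_lit 0) [nat_lit 9924, nat_lit 4092, nat_lit 5064, nat_lit 6036, nat_lit 5712, nat_lit 5496, nat_lit 5532, nat_lit 5568, nat_lit 5556, nat_lit 5548] (nat_lit 0) [] false,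
   Spec.mk (nat_lit 5554) (nat_lit 0) [nat_lit 9928, nat_lit 4096, nat_lit 5068, nat_lit 6040, nat_lit 5716, nat_lit 5500, nat_lit 5572, nat_lit 5548, nat_lit 5556] (nat_lit 1) [nat_lit 25236] false,
   Spec.mk (nat_lit 5556) (nat_lit 1) [nat_lit 9930, nat_lit 4098, nat_lit 5070, nat_lit 6042, nat_lit 5718, nat_lit 5502, nat_lit 5574, nat_lit 5550, nat_lit 5554] (nat_lit 0) [] false,
   Spec.mk (nat_lit 5564) (nat_lit 0) [nat_lit 9938, nat_lit 4106, nat_lit 5078, nat_lit 6050, nat_lit 5726, nat_lit 5546, nat_lit 5566] (nat_lit 1) [nat_lit 25246] false,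
   Spec.mk (nat_lit 5566) (nat_lit 0) [nat_lit 9940, nat_lit 4108, nat_lit 5080, nat_lit 6052, nat_lit 5728, nat_lit 5548, nat_lit 5572, nat_lit 5564, nat_lit 5568] (nat_lit 0) [nat_lit 25248] false,
   Spec.mk (nat_lit 5568) (nat_lit 0) [nat_lit 9942, nat_lit 4110, nat_lit 5082, nat_lit 6054, nat_lit 5730, nat_lit 5550, nat_lit 5574, nat_lit 5566] (nat_lit 1) [] false,
   Spec.mk (nat_lit 5572) (nat_lit 1) [nat_lit 9946, nat_lit 4114, nat_lit 5086, nat_lit 6058, nat_lit 5734, nat_lit 5554, nat_lit 5566, nat_lit 5574] (nat_lit 0) [nat_lit 25254] false,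
   Spec.mk (nat_lit 5574) (nat_lit 2) [nat_lit 9948, nat_lit 4116, nat_lit 5088, nat_lit 6060, nat_lit 5736, nat_lit 5556, nat_lit 5568, nat_lit 5580, nat_lit 5572] (nat_lit 0) [] false,
   Spec.mk (nat_lit 5580) (nat_lit 3) [nat_lit 9954, nat_lit 4122, nat_lit 5094, nat_lit 6066, nat_lit 5742, nat_lit 5574] (nat_lit 0) [] false,
   Spec.mk (nat_lit 5606) (nat_lit 0) [nat_lit 9980, nat_lit 4148, nat_lit 6092, nat_lit 5444, nat_lit 5624, nat_lit 5612] (nat_lit 0) [nat_lit 25288] false,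
   Spec.mk (nat_lit 5612) (nat_lit 0) [nat_lit 9986, nat_lit 4154, nat_lit 6098, nat_lit 5450, nat_lit 5630, nat_lit 5606, nat_lit 5614] (nat_lit 2) [nat_lit 25294] true,
   Spec.mk (nat_lit 5614) (nat_lit 0) [nat_lit 9988, nat_lit 4156, nat_lit 6100, nat_lit 5452, nat_lit 5632, nat_lit 5612] (nat_lit 0) [nat_lit 25296] false,
   Spec.mk (nat_lit 5624) (nat_lit 0) [nat_lit 9998, nat_lit 4166, nat_lit 6110, nat_lit 5462, nat_lit 5678, nat_lit 5606, nat_lit 5630] (nat_lit 2) [nat_lit 25306] true,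
   Spec.mk (nat_lit 5630) (nat_lit 0) [nat_lit 10004, nat_lit 4172, nat_lit 6116, nat_lit 5468, nat_lit 5684, nat_lit 5612, nat_lit 5648, nat_lit 5624, nat_lit 5636, nat_lit 5632] (nat_lit 2) [nat_lit 25312] false,
   Spec.mk (nat_lit 5632) (nat_lit 0) [nat_lit 10006, nat_lit 4174, nat_lit 6118, nat_lit 5470, nat_lit 5686, nat_lit 5614, nat_lit 5650, nat_lit 5638, nat_lit 5630] (nat_lit 1) [nat_lit 25314] false,
   Spec.mk (nat_lit 5636) (nat_lit 0) [nat_lit 10010, nat_lit 4178, nat_lit 6122, nat_lit 5474, nat_lit 5690, nat_lit 5654, nat_lit 5630, nat_lit 5638] (nat_lit 4) [nat_lit 25318] false,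
   Spec.mk (nat_lit 5638) (nat_lit 0) [nat_lit 10012, nat_lit 4180, nat_lit 6124, nat_lit 5476, nat_lit 5692, nat_lit 5656, nat_lit 5632, nat_lit 5636, nat_lit 5640] (nat_lit 1) [nat_lit 25320] false]

noncomputable def sp10 : List Spec :=
  [Spec.mk (nat_lit 5640) (nat_lit 0) [nat_lit 10014, nat_lit 4182, nat_lit 6126, nat_lit 5478, nat_lit 5694, nat_lit 5658, nat_lit 5638] (nat_lit 0) [] false,
   Spec.mk (nat_lit 5648) (nat_lit 0) [nat_lit 10022, nat_lit 4190, nat_lit 6134, nat_lit 5486, nat_lit 5702, nat_lit 5630, nat_lit 5654, nat_lit 5650] (nat_lit 4) [nat_lit 25330] false,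
   Spec.mk (nat_lit 5650) (nat_lit 0) [nat_lit 10024, nat_lit 4192, nat_lit 6136, nat_lit 5488, nat_lit 5704, nat_lit 5632, nat_lit 5656, nat_lit 5648] (nat_lit 4) [nat_lit 25332] false,
   Spec.mk (nat_lit 5654) (nat_lit 0) [nat_lit 10028, nat_lit 4196, nat_lit 6140, nat_lit 5492, nat_lit 5708, nat_lit 5636, nat_lit 5648, nat_lit 5656] (nat_lit 4) [nat_lit 25336] false,
   Spec.mk (nat_lit 5656) (nat_lit 0) [nat_lit 10030, nat_lit 4198, nat_lit 6142, nat_lit 5494, nat_lit 5710, nat_lit 5638, nat_lit 5650, nat_lit 5662, nat_lit 5654, nat_lit 5658] (nat_lit 2) [nat_lit 25338] false,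
   Spec.mk (nat_lit 5658) (nat_lit 0) [nat_lit 10032, nat_lit 4200, nat_lit 6144, nat_lit 5496, nat_lit 5712, nat_lit 5640, nat_lit 5664, nat_lit 5656] (nat_lit 2) [] false,
   Spec.mk (nat_lit 5662) (nat_lit 0) [nat_lit 10036, nat_lit 4204, nat_lit 6148, nat_lit 5500, nat_lit 5716, nat_lit 5656, nat_lit 5664] (nat_lit 2) [nat_lit 25344] false,
   Spec.mk (nat_lit 5664) (nat_lit 0) [nat_lit 10038, nat_lit 4206, nat_lit 6150, nat_lit 5502, nat_lit 5718, nat_lit 5658, nat_lit 5662] (nat_lit 0) [] false,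
   Spec.mk (nat_lit 5678) (nat_lit 0) [nat_lit 10052, nat_lit 4220, nat_lit 6164, nat_lit 5516, nat_lit 5624, nat_lit 5684] (nat_lit 0) [nat_lit 25360] false,
   Spec.mk (nat_lit 5684) (nat_lit 0) [nat_lit 10058, nat_lit 4226, nat_lit 6170, nat_lit 5522, nat_lit 5630, nat_lit 5702, nat_lit 5678, nat_lit 5690, nat_lit 5686] (nat_lit 1) [nat_lit 25366] false,
   Spec.mk (nat_lit 5686) (nat_lit 0) [nat_lit 10060, nat_lit 4228, nat_lit 6172, nat_lit 5524, nat_lit 5632, nat_lit 5704, nat_lit 5692, nat_lit 5684] (nat_lit 0) [nat_lit 25368] false,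
   Spec.mk (nat_lit 5690) (nat_lit 0) [nat_lit 10064, nat_lit 4232, nat_lit 6176, nat_lit 5528, nat_lit 5636, nat_lit 5708, nat_lit 5684, nat_lit 5692] (nat_lit 4) [nat_lit 25372] false,
   Spec.mk (nat_lit 5692) (nat_lit 0) [nat_lit 10066, nat_lit 4234, nat_lit 6178, nat_lit 5530, nat_lit 5638, nat_lit 5710, nat_lit 5686, nat_lit 5690, nat_lit 5694] (nat_lit 1) [nat_lit 25374] false,
   Spec.mk (nat_lit 5694) (nat_lit 0) [nat_lit 10068, nat_lit 4236, nat_lit 6180, nat_lit 5532, nat_lit 5640, nat_lit 5712, nat_lit 5692] (nat_lit 0) [] false,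
   Spec.mk (nat_lit 5702) (nat_lit 0) [nat_lit 10076, nat_lit 4244, nat_lit 6188, nat_lit 5540, nat_lit 5648, nat_lit 5756, nat_lit 5684, nat_lit 5708, nat_lit 5704] (nat_lit 1) [nat_lit 25384] false,
   Spec.mk (nat_lit 5704) (nat_lit 0) [nat_lit 10078, nat_lit 4246, nat_lit 6190, nat_lit 5542, nat_lit 5650, nat_lit 5758, nat_lit 5686, nat_lit 5710, nat_lit 5702] (nat_lit 1) [nat_lit 25386] false,
   Spec.mk (nat_lit 5708) (nat_lit 0) [nat_lit 10082, nat_lit 4250, nat_lit 6194, nat_lit 5546, nat_lit 5654, nat_lit 5762, nat_lit 5690, nat_lit 5726, nat_lit 5702, nat_lit 5710] (nat_lit 2) [nat_lit 25390] false,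
   Spec.mk (nat_lit 5710) (nat_lit 0) [nat_lit 10084, nat_lit 4252, nat_lit 6196, nat_lit 5548, nat_lit 5656, nat_lit 5764, nat_lit 5692, nat_lit 5728, nat_lit 5704, nat_lit 5716, nat_lit 5708, nat_lit 5712] (nat_lit 0) [nat_lit 25392] false,
   Spec.mk (nat_lit 5712) (nat_lit 0) [nat_lit 10086, nat_lit 4254, nat_lit 6198, nat_lit 5550, nat_lit 5658, nat_lit 5766, nat_lit 5694, nat_lit 5730, nat_lit 5718, nat_lit 5710] (nat_lit 0) [] false,
   Spec.mk (nat_lit 5716) (nat_lit 0) [nat_lit 10090, nat_lit 4258, nat_lit 6202, nat_lit 5554, nat_lit 5662, nat_lit 5770, nat_lit 5734, nat_lit 5710, nat_lit 5718] (nat_lit 1) [nat_lit 25398] false,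
   Spec.mk (nat_lit 5718) (nat_lit 1) [nat_lit 10092, nat_lit 4260, nat_lit 6204, nat_lit 5556, nat_lit 5664, nat_lit 5772, nat_lit 5736, nat_lit 5712, nat_lit 5716] (nat_lit 0) [] false,
   Spec.mk (nat_lit 5726) (nat_lit 0) [nat_lit 10100, nat_lit 4268, nat_lit 6212, nat_lit 5564, nat_lit 5780, nat_lit 5708, nat_lit 5728] (nat_lit 2) [nat_lit 25408] false,
   Spec.mk (nat_lit 5728) (nat_lit 0) [nat_lit 10102, nat_lit 4270, nat_lit 6214, nat_lit 5566, nat_lit 5782, nat_lit 5710, nat_lit 5734, nat_lit 5726, nat_lit 5730] (nat_lit 1) [nat_lit 25410] false,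
   Spec.mk (nat_lit 5730) (nat_lit 0) [nat_lit 10104, nat_lit 4272, nat_lit 6216, nat_lit 5568, nat_lit 5784, nat_lit 5712, nat_lit 5736, nat_lit 5728] (nat_lit 2) [] false,
   Spec.mk (nat_lit 5734) (nat_lit 0) [nat_lit 10108, nat_lit 4276, nat_lit 6220, nat_lit 5572, nat_lit 5788, nat_lit 5716, nat_lit 5728, nat_lit 5736] (nat_lit 0) [nat_lit 25416] false,
   Spec.mk (nat_lit 5736) (nat_lit 1) [nat_lit 10110, nat_lit 4278, nat_lit 6222, nat_lit 5574, nat_lit 5790, nat_lit 5718, nat_lit 5730, nat_lit 5742, nat_lit 5734] (nat_lit 0) [] false,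
   Spec.mk (nat_lit 5742) (nat_lit 2) [nat_lit 10116, nat_lit 4284, nat_lit 6228, nat_lit 5580, nat_lit 5796, nat_lit 5736] (nat_lit 0) [] false,
   Spec.mk (nat_lit 5756) (nat_lit 0) [nat_lit 10130, nat_lit 4298, nat_lit 6242, nat_lit 5702, nat_lit 5762, nat_lit 5758] (nat_lit 0) [nat_lit 25438] false,
   Spec.mk (nat_lit 5758) (nat_lit 0) [nat_lit 10132, nat_lit 4300, nat_lit 6244, nat_lit 5704, nat_lit 5764, nat_lit 5756] (nat_lit 0) [nat_lit 25440] false,
   Spec.mk (nat_lit 5762) (nat_lit 0) [nat_lit 10136, nat_lit 4304, nat_lit 6248, nat_lit 5708, nat_lit 5780, nat_lit 5756, nat_lit 5764] (nat_lit 2) [nat_lit 25444] false,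
   Spec.mk (nat_lit 5764) (nat_lit 0) [nat_lit 10138, nat_lit 4306, nat_lit 6250, nat_lit 5710, nat_lit 5782, nat_lit 5758, nat_lit 5770, nat_lit 5762, nat_lit 5766] (nat_lit 0) [nat_lit 25446] false,
   Spec.mk (nat_lit 5766) (nat_lit 0) [nat_lit 10140, nat_lit 4308, nat_lit 6252, nat_lit 5712, nat_lit 5784, nat_lit 5772, nat_lit 5764] (nat_lit 0) [] false,
   Spec.mk (nat_lit 5770) (nat_lit 0) [nat_lit 10144, nat_lit 4312, nat_lit 6256, nat_lit 5716, nat_lit 5788, nat_lit 5764, nat_lit 5772] (nat_lit 2) [nat_lit 25452] false,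
   Spec.mk (nat_lit 5772) (nat_lit 0) [nat_lit 10146, nat_lit 4314, nat_lit 6258, nat_lit 5718, nat_lit 5790, nat_lit 5766, nat_lit 5770] (nat_lit 0) [] false,
   Spec.mk (nat_lit 5780) (nat_lit 0) [nat_lit 10154, nat_lit 4322, nat_lit 6266, nat_lit 5726, nat_lit 5762, nat_lit 5782] (nat_lit 0) [nat_lit 25462] false,
   Spec.mk (nat_lit 5782) (nat_lit 1) [nat_lit 10156, nat_lit 4324, nat_lit 6268, nat_lit 5728, nat_lit 5764, nat_lit 5788, nat_lit 5780, nat_lit 5784] (nat_lit 0) [nat_lit 25464] false,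
   Spec.mk (nat_lit 5784) (nat_lit 0) [nat_lit 10158, nat_lit 4326, nat_lit 6270, nat_lit 5730, nat_lit 5766, nat_lit 5790, nat_lit 5782] (nat_lit 0) [] false,
   Spec.mk (nat_lit 5788) (nat_lit 1) [nat_lit 10162, nat_lit 4330, nat_lit 6274, nat_lit 5734, nat_lit 5770, nat_lit 5806, nat_lit 5782, nat_lit 5790] (nat_lit 0) [nat_lit 25470] false,
   Spec.mk (nat_lit 5790) (nat_lit 2) [nat_lit 10164, nat_lit 4332, nat_lit 6276, nat_lit 5736, nat_lit 5772, nat_lit 5808, nat_lit 5784, nat_lit 5796, nat_lit 5788] (nat_lit 0) [] false,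
   Spec.mk (nat_lit 5796) (nat_lit 2) [nat_lit 10170, nat_lit 4338, nat_lit 6282, nat_lit 5742, nat_lit 5814, nat_lit 5790] (nat_lit 0) [] false,
   Spec.mk (nat_lit 5806) (nat_lit 2) [nat_lit 10180, nat_lit 4348, nat_lit 6292, nat_lit 5788, nat_lit 5808] (nat_lit 0) [nat_lit 25488] false,
   Spec.mk (nat_lit 5808) (nat_lit 2) [nat_lit 10182, nat_lit 4350, nat_lit 6294, nat_lit 5790, nat_lit 5814, nat_lit 5806] (nat_lit 0) [] false,
   Spec.mk (nat_lit 5814) (nat_lit 4) [nat_lit 10188, nat_lit 4356, nat_lit 6300, nat_lit 5796, nat_lit 5808] (nat_lit 0) [] false,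
   Spec.mk (nat_lit 5858) (nat_lit 2) [nat_lit 10232, nat_lit 5372, nat_lit 5876] (nat_lit 0) [nat_lit 25540] false,
   Spec.mk (nat_lit 5876) (nat_lit 1) [nat_lit 10250, nat_lit 5390, nat_lit 5930, nat_lit 5858, nat_lit 5894, nat_lit 5882] (nat_lit 0) [nat_lit 25558] false,
   Spec.mk (nat_lit 5882) (nat_lit 0) [nat_lit 10256, nat_lit 5396, nat_lit 5936, nat_lit 5900, nat_lit 5876, nat_lit 5884] (nat_lit 0) [nat_lit 25564] false,
   Spec.mk (nat_lit 5884) (nat_lit 2) [nat_lit 10258, nat_lit 5398, nat_lit 5938, nat_lit 5902, nat_lit 5882] (nat_lit 0) [nat_lit 25566] false,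
   Spec.mk (nat_lit 5894) (nat_lit 0) [nat_lit 10268, nat_lit 5408, nat_lit 5948, nat_lit 5876, nat_lit 5900] (nat_lit 2) [nat_lit 25576] false,
   Spec.mk (nat_lit 5900) (nat_lit 0) [nat_lit 10274, nat_lit 5414, nat_lit 5954, nat_lit 5882, nat_lit 5894, nat_lit 5906, nat_lit 5902] (nat_lit 1) [nat_lit 25582] false,
   Spec.mk (nat_lit 5902) (nat_lit 0) [nat_lit 10276, nat_lit 5416, nat_lit 5956, nat_lit 5884, nat_lit 5908, nat_lit 5900] (nat_lit 0) [nat_lit 25584] false,
   Spec.mk (nat_lit 5906) (nat_lit 0) [nat_lit 10280, nat_lit 5420, nat_lit 5960, nat_lit 5900, nat_lit 5908] (nat_lit 2) [nat_lit 25588] false,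
   Spec.mk (nat_lit 5908) (nat_lit 1) [nat_lit 10282, nat_lit 5422, nat_lit 5962, nat_lit 5902, nat_lit 5906, nat_lit 5910] (nat_lit 0) [nat_lit 25590] false,
   Spec.mk (nat_lit 5910) (nat_lit 2) [nat_lit 10284, nat_lit 5424, nat_lit 5964, nat_lit 5908] (nat_lit 0) [] false,
   Spec.mk (nat_lit 5930) (nat_lit 0) [nat_lit 10304, nat_lit 5444, nat_lit 6092, nat_lit 5876, nat_lit 5948, nat_lit 5936] (nat_lit 0) [nat_lit 25612] false,
   Spec.mk (nat_lit 5936) (nat_lit 0) [nat_lit 10310, nat_lit 5450, nat_lit 6098, nat_lit 5882, nat_lit 5954, nat_lit 5930, nat_lit 5938] (nat_lit 2) [nat_lit 25618] false,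
   Spec.mk (nat_lit 5938) (nat_lit 0) [nat_lit 10312, nat_lit 5452, nat_lit 6100, nat_lit 5884, nat_lit 5956, nat_lit 5936] (nat_lit 0) [nat_lit 25620] false,
   Spec.mk (nat_lit 5948) (nat_lit 0) [nat_lit 10322, nat_lit 5462, nat_lit 6110, nat_lit 5894, nat_lit 6002, nat_lit 5930, nat_lit 5954] (nat_lit 1) [nat_lit 25630] false,
   Spec.mk (nat_lit 5954) (nat_lit 0) [nat_lit 10328, nat_lit 5468, nat_lit 6116, nat_lit 5900, nat_lit 6008, nat_lit 5936, nat_lit 5972, nat_lit 5948, nat_lit 5960, nat_lit 5956] (nat_lit 1) [nat_lit 25636] false,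
   Spec.mk (nat_lit 5956) (nat_lit 0) [nat_lit 10330, nat_lit 5470, nat_lit 6118, nat_lit 5902, nat_lit 6010, nat_lit 5938, nat_lit 5974, nat_lit 5962, nat_lit 5954] (nat_lit 0) [nat_lit 25638] false,
   Spec.mk (nat_lit 5960) (nat_lit 0) [nat_lit 10334, nat_lit 5474, nat_lit 6122, nat_lit 5906, nat_lit 6014, nat_lit 5978, nat_lit 5954, nat_lit 5962] (nat_lit 3) [nat_lit 25642] false]

noncomputable def sp11 : List Spec :=
  [Spec.mk (nat_lit 5962) (nat_lit 0) [nat_lit 10336, nat_lit 5476, nat_lit 6124, nat_lit 5908, nat_lit 6016, nat_lit 5980, nat_lit 5956, nat_lit 5960, nat_lit 5964] (nat_lit 0) [nat_lit 25644] false,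
   Spec.mk (nat_lit 5964) (nat_lit 1) [nat_lit 10338, nat_lit 5478, nat_lit 6126, nat_lit 5910, nat_lit 6018, nat_lit 5982, nat_lit 5962] (nat_lit 0) [] false,
   Spec.mk (nat_lit 5972) (nat_lit 0) [nat_lit 10346, nat_lit 5486, nat_lit 6134, nat_lit 6026, nat_lit 5954, nat_lit 5978, nat_lit 5974] (nat_lit 2) [nat_lit 25654] false,
   Spec.mk (nat_lit 5974) (nat_lit 0) [nat_lit 10348, nat_lit 5488, nat_lit 6136, nat_lit 6028, nat_lit 5956, nat_lit 5980, nat_lit 5972] (nat_lit 2) [nat_lit 25656] false,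
   Spec.mk (nat_lit 5978) (nat_lit 0) [nat_lit 10352, nat_lit 5492, nat_lit 6140, nat_lit 6032, nat_lit 5960, nat_lit 5972, nat_lit 5980] (nat_lit 2) [nat_lit 25660] false,
   Spec.mk (nat_lit 5980) (nat_lit 0) [nat_lit 10354, nat_lit 5494, nat_lit 6142, nat_lit 6034, nat_lit 5962, nat_lit 5974, nat_lit 5986, nat_lit 5978, nat_lit 5982] (nat_lit 0) [nat_lit 25662] false,
   Spec.mk (nat_lit 5982) (nat_lit 0) [nat_lit 10356, nat_lit 5496, nat_lit 6144, nat_lit 6036, nat_lit 5964, nat_lit 5988, nat_lit 5980] (nat_lit 0) [] false,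
   Spec.mk (nat_lit 5986) (nat_lit 0) [nat_lit 10360, nat_lit 5500, nat_lit 6148, nat_lit 6040, nat_lit 5980, nat_lit 5988] (nat_lit 0) [nat_lit 25668] false,
   Spec.mk (nat_lit 5988) (nat_lit 2) [nat_lit 10362, nat_lit 5502, nat_lit 6150, nat_lit 6042, nat_lit 5982, nat_lit 5986] (nat_lit 0) [] false,
   Spec.mk (nat_lit 6002) (nat_lit 0) [nat_lit 10376, nat_lit 5516, nat_lit 6164, nat_lit 5948, nat_lit 6008] (nat_lit 2) [nat_lit 25684] false,
   Spec.mk (nat_lit 6008) (nat_lit 0) [nat_lit 10382, nat_lit 5522, nat_lit 6170, nat_lit 5954, nat_lit 6026, nat_lit 6002, nat_lit 6014, nat_lit 6010] (nat_lit 3) [nat_lit 25690] false,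
   Spec.mk (nat_lit 6010) (nat_lit 0) [nat_lit 10384, nat_lit 5524, nat_lit 6172, nat_lit 5956, nat_lit 6028, nat_lit 6016, nat_lit 6008] (nat_lit 2) [nat_lit 25692] false,
   Spec.mk (nat_lit 6014) (nat_lit 0) [nat_lit 10388, nat_lit 5528, nat_lit 6176, nat_lit 5960, nat_lit 6032, nat_lit 6008, nat_lit 6016] (nat_lit 6) [nat_lit 25696] false,
   Spec.mk (nat_lit 6016) (nat_lit 0) [nat_lit 10390, nat_lit 5530, nat_lit 6178, nat_lit 5962, nat_lit 6034, nat_lit 6010, nat_lit 6014, nat_lit 6018] (nat_lit 3) [nat_lit 25698] false,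
   Spec.mk (nat_lit 6018) (nat_lit 0) [nat_lit 10392, nat_lit 5532, nat_lit 6180, nat_lit 5964, nat_lit 6036, nat_lit 6016] (nat_lit 2) [] false,
   Spec.mk (nat_lit 6026) (nat_lit 0) [nat_lit 10400, nat_lit 5540, nat_lit 6188, nat_lit 5972, nat_lit 6008, nat_lit 6032, nat_lit 6028] (nat_lit 2) [nat_lit 25708] false,
   Spec.mk (nat_lit 6028) (nat_lit 0) [nat_lit 10402, nat_lit 5542, nat_lit 6190, nat_lit 5974, nat_lit 6010, nat_lit 6034, nat_lit 6026] (nat_lit 2) [nat_lit 25710] false,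
   Spec.mk (nat_lit 6032) (nat_lit 0) [nat_lit 10406, nat_lit 5546, nat_lit 6194, nat_lit 5978, nat_lit 6014, nat_lit 6050, nat_lit 6026, nat_lit 6034] (nat_lit 3) [nat_lit 25714] false,
   Spec.mk (nat_lit 6034) (nat_lit 0) [nat_lit 10408, nat_lit 5548, nat_lit 6196, nat_lit 5980, nat_lit 6016, nat_lit 6052, nat_lit 6028, nat_lit 6040, nat_lit 6032, nat_lit 6036] (nat_lit 1) [nat_lit 25716] false,
   Spec.mk (nat_lit 6036) (nat_lit 0) [nat_lit 10410, nat_lit 5550, nat_lit 6198, nat_lit 5982, nat_lit 6018, nat_lit 6054, nat_lit 6042, nat_lit 6034] (nat_lit 1) [] false,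
   Spec.mk (nat_lit 6040) (nat_lit 0) [nat_lit 10414, nat_lit 5554, nat_lit 6202, nat_lit 5986, nat_lit 6058, nat_lit 6034, nat_lit 6042] (nat_lit 2) [nat_lit 25722] false,
   Spec.mk (nat_lit 6042) (nat_lit 0) [nat_lit 10416, nat_lit 5556, nat_lit 6204, nat_lit 5988, nat_lit 6060, nat_lit 6036, nat_lit 6040] (nat_lit 0) [] false,
   Spec.mk (nat_lit 6050) (nat_lit 0) [nat_lit 10424, nat_lit 5564, nat_lit 6212, nat_lit 6032, nat_lit 6052] (nat_lit 2) [nat_lit 25732] false,
   Spec.mk (nat_lit 6052) (nat_lit 0) [nat_lit 10426, nat_lit 5566, nat_lit 6214, nat_lit 6034, nat_lit 6058, nat_lit 6050, nat_lit 6054] (nat_lit 1) [nat_lit 25734] false,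
   Spec.mk (nat_lit 6054) (nat_lit 0) [nat_lit 10428, nat_lit 5568, nat_lit 6216, nat_lit 6036, nat_lit 6060, nat_lit 6052] (nat_lit 2) [] false,
   Spec.mk (nat_lit 6058) (nat_lit 0) [nat_lit 10432, nat_lit 5572, nat_lit 6220, nat_lit 6040, nat_lit 6052, nat_lit 6060] (nat_lit 0) [nat_lit 25740] false,
   Spec.mk (nat_lit 6060) (nat_lit 1) [nat_lit 10434, nat_lit 5574, nat_lit 6222, nat_lit 6042, nat_lit 6054, nat_lit 6066, nat_lit 6058] (nat_lit 0) [] false,
   Spec.mk (nat_lit 6066) (nat_lit 2) [nat_lit 10440, nat_lit 5580, nat_lit 6228, nat_lit 6060] (nat_lit 0) [] false,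
   Spec.mk (nat_lit 6092) (nat_lit 2) [nat_lit 10466, nat_lit 5606, nat_lit 5930, nat_lit 6110, nat_lit 6098] (nat_lit 0) [nat_lit 25774] false,
   Spec.mk (nat_lit 6098) (nat_lit 0) [nat_lit 10472, nat_lit 5612, nat_lit 5936, nat_lit 6116, nat_lit 6092, nat_lit 6100] (nat_lit 0) [nat_lit 25780] false,
   Spec.mk (nat_lit 6100) (nat_lit 2) [nat_lit 10474, nat_lit 5614, nat_lit 5938, nat_lit 6118, nat_lit 6098] (nat_lit 0) [nat_lit 25782] false,
   Spec.mk (nat_lit 6110) (nat_lit 0) [nat_lit 10484, nat_lit 5624, nat_lit 5948, nat_lit 6164, nat_lit 6092, nat_lit 6116] (nat_lit 0) [nat_lit 25792] false,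
   Spec.mk (nat_lit 6116) (nat_lit 0) [nat_lit 10490, nat_lit 5630, nat_lit 5954, nat_lit 6170, nat_lit 6098, nat_lit 6134, nat_lit 6110, nat_lit 6122, nat_lit 6118] (nat_lit 0) [nat_lit 25798] false,
   Spec.mk (nat_lit 6118) (nat_lit 1) [nat_lit 10492, nat_lit 5632, nat_lit 5956, nat_lit 6172, nat_lit 6100, nat_lit 6136, nat_lit 6124, nat_lit 6116] (nat_lit 0) [nat_lit 25800] false,
   Spec.mk (nat_lit 6122) (nat_lit 0) [nat_lit 10496, nat_lit 5636, nat_lit 5960, nat_lit 6176, nat_lit 6140, nat_lit 6116, nat_lit 6124] (nat_lit 2) [nat_lit 25804] false,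
   Spec.mk (nat_lit 6124) (nat_lit 1) [nat_lit 10498, nat_lit 5638, nat_lit 5962, nat_lit 6178, nat_lit 6142, nat_lit 6118, nat_lit 6122, nat_lit 6126] (nat_lit 0) [nat_lit 25806] false,
   Spec.mk (nat_lit 6126) (nat_lit 2) [nat_lit 10500, nat_lit 5640, nat_lit 5964, nat_lit 6180, nat_lit 6144, nat_lit 6124] (nat_lit 0) [] false,
   Spec.mk (nat_lit 6134) (nat_lit 0) [nat_lit 10508, nat_lit 5648, nat_lit 5972, nat_lit 6188, nat_lit 6116, nat_lit 6140, nat_lit 6136] (nat_lit 2) [nat_lit 25816] false,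
   Spec.mk (nat_lit 6136) (nat_lit 0) [nat_lit 10510, nat_lit 5650, nat_lit 5974, nat_lit 6190, nat_lit 6118, nat_lit 6142, nat_lit 6134] (nat_lit 2) [nat_lit 25818] false,
   Spec.mk (nat_lit 6140) (nat_lit 0) [nat_lit 10514, nat_lit 5654, nat_lit 5978, nat_lit 6194, nat_lit 6122, nat_lit 6134, nat_lit 6142] (nat_lit 2) [nat_lit 25822] false,
   Spec.mk (nat_lit 6142) (nat_lit 0) [nat_lit 10516, nat_lit 5656, nat_lit 5980, nat_lit 6196, nat_lit 6124, nat_lit 6136, nat_lit 6148, nat_lit 6140, nat_lit 6144] (nat_lit 0) [nat_lit 25824] false,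
   Spec.mk (nat_lit 6144) (nat_lit 0) [nat_lit 10518, nat_lit 5658, nat_lit 5982, nat_lit 6198, nat_lit 6126, nat_lit 6150, nat_lit 6142] (nat_lit 0) [] false,
   Spec.mk (nat_lit 6148) (nat_lit 0) [nat_lit 10522, nat_lit 5662, nat_lit 5986, nat_lit 6202, nat_lit 6142, nat_lit 6150] (nat_lit 0) [nat_lit 25830] false,
   Spec.mk (nat_lit 6150) (nat_lit 2) [nat_lit 10524, nat_lit 5664, nat_lit 5988, nat_lit 6204, nat_lit 6144, nat_lit 6148] (nat_lit 0) [] false,
   Spec.mk (nat_lit 6164) (nat_lit 1) [nat_lit 10538, nat_lit 5678, nat_lit 6002, nat_lit 6326, nat_lit 6110, nat_lit 6170] (nat_lit 0) [nat_lit 25846] false,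
   Spec.mk (nat_lit 6170) (nat_lit 0) [nat_lit 10544, nat_lit 5684, nat_lit 6008, nat_lit 6332, nat_lit 6116, nat_lit 6188, nat_lit 6164, nat_lit 6176, nat_lit 6172] (nat_lit 0) [nat_lit 25852] false,
   Spec.mk (nat_lit 6172) (nat_lit 1) [nat_lit 10546, nat_lit 5686, nat_lit 6010, nat_lit 6334, nat_lit 6118, nat_lit 6190, nat_lit 6178, nat_lit 6170] (nat_lit 0) [nat_lit 25854] false,
   Spec.mk (nat_lit 6176) (nat_lit 0) [nat_lit 10550, nat_lit 5690, nat_lit 6014, nat_lit 6338, nat_lit 6122, nat_lit 6194, nat_lit 6170, nat_lit 6178] (nat_lit 3) [nat_lit 25858] false,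
   Spec.mk (nat_lit 6178) (nat_lit 0) [nat_lit 10552, nat_lit 5692, nat_lit 6016, nat_lit 6340, nat_lit 6124, nat_lit 6196, nat_lit 6172, nat_lit 6176, nat_lit 6180] (nat_lit 0) [nat_lit 25860] false,
   Spec.mk (nat_lit 6180) (nat_lit 1) [nat_lit 10554, nat_lit 5694, nat_lit 6018, nat_lit 6342, nat_lit 6126, nat_lit 6198, nat_lit 6178] (nat_lit 0) [] false,
   Spec.mk (nat_lit 6188) (nat_lit 0) [nat_lit 10562, nat_lit 5702, nat_lit 6026, nat_lit 6350, nat_lit 6134, nat_lit 6242, nat_lit 6170, nat_lit 6194, nat_lit 6190] (nat_lit 0) [nat_lit 25870] false,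
   Spec.mk (nat_lit 6190) (nat_lit 0) [nat_lit 10564, nat_lit 5704, nat_lit 6028, nat_lit 6352, nat_lit 6136, nat_lit 6244, nat_lit 6172, nat_lit 6196, nat_lit 6188] (nat_lit 0) [nat_lit 25872] false,
   Spec.mk (nat_lit 6194) (nat_lit 0) [nat_lit 10568, nat_lit 5708, nat_lit 6032, nat_lit 6356, nat_lit 6140, nat_lit 6248, nat_lit 6176, nat_lit 6212, nat_lit 6188, nat_lit 6196] (nat_lit 1) [nat_lit 25876] false,
   Spec.mk (nat_lit 6196) (nat_lit 1) [nat_lit 10570, nat_lit 5710, nat_lit 6034, nat_lit 6358, nat_lit 6142, nat_lit 6250, nat_lit 6178, nat_lit 6214, nat_lit 6190, nat_lit 6202, nat_lit 6194, nat_lit 6198] (nat_lit 0) [nat_lit 25878] false,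
   Spec.mk (nat_lit 6198) (nat_lit 1) [nat_lit 10572, nat_lit 5712, nat_lit 6036, nat_lit 6360, nat_lit 6144, nat_lit 6252, nat_lit 6180, nat_lit 6216, nat_lit 6204, nat_lit 6196] (nat_lit 0) [] false,
   Spec.mk (nat_lit 6202) (nat_lit 0) [nat_lit 10576, nat_lit 5716, nat_lit 6040, nat_lit 6364, nat_lit 6148, nat_lit 6256, nat_lit 6220, nat_lit 6196, nat_lit 6204] (nat_lit 0) [nat_lit 25884] false,
   Spec.mk (nat_lit 6204) (nat_lit 2) [nat_lit 10578, nat_lit 5718, nat_lit 6042, nat_lit 6366, nat_lit 6150, nat_lit 6258, nat_lit 6222, nat_lit 6198, nat_lit 6202] (nat_lit 0) [] false,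
   Spec.mk (nat_lit 6212) (nat_lit 0) [nat_lit 10586, nat_lit 5726, nat_lit 6050, nat_lit 6374, nat_lit 6266, nat_lit 6194, nat_lit 6214] (nat_lit 1) [nat_lit 25894] false,
   Spec.mk (nat_lit 6214) (nat_lit 0) [nat_lit 10588, nat_lit 5728, nat_lit 6052, nat_lit 6376, nat_lit 6268, nat_lit 6196, nat_lit 6220, nat_lit 6212, nat_lit 6216] (nat_lit 0) [nat_lit 25896] false,
   Spec.mk (nat_lit 6216) (nat_lit 0) [nat_lit 10590, nat_lit 5730, nat_lit 6054, nat_lit 6378, nat_lit 6270, nat_lit 6198, nat_lit 6222, nat_lit 6214] (nat_lit 1) [] false]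

noncomputable def sp12 : List Spec :=
  [Spec.mk (nat_lit 6220) (nat_lit 1) [nat_lit 10594, nat_lit 5734, nat_lit 6058, nat_lit 6382, nat_lit 6274, nat_lit 6202, nat_lit 6214, nat_lit 6222] (nat_lit 0) [nat_lit 25902] false,
   Spec.mk (nat_lit 6222) (nat_lit 2) [nat_lit 10596, nat_lit 5736, nat_lit 6060, nat_lit 6384, nat_lit 6276, nat_lit 6204, nat_lit 6216, nat_lit 6228, nat_lit 6220] (nat_lit 0) [] false,
   Spec.mk (nat_lit 6228) (nat_lit 3) [nat_lit 10602, nat_lit 5742, nat_lit 6066, nat_lit 6390, nat_lit 6282, nat_lit 6222] (nat_lit 0) [] false,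
   Spec.mk (nat_lit 6242) (nat_lit 0) [nat_lit 10616, nat_lit 5756, nat_lit 6404, nat_lit 6188, nat_lit 6248, nat_lit 6244] (nat_lit 0) [nat_lit 25924] false,
   Spec.mk (nat_lit 6244) (nat_lit 0) [nat_lit 10618, nat_lit 5758, nat_lit 6406, nat_lit 6190, nat_lit 6250, nat_lit 6242] (nat_lit 0) [nat_lit 25926] false,
   Spec.mk (nat_lit 6248) (nat_lit 0) [nat_lit 10622, nat_lit 5762, nat_lit 6410, nat_lit 6194, nat_lit 6266, nat_lit 6242, nat_lit 6250] (nat_lit 2) [nat_lit 25930] false,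
   Spec.mk (nat_lit 6250) (nat_lit 0) [nat_lit 10624, nat_lit 5764, nat_lit 6412, nat_lit 6196, nat_lit 6268, nat_lit 6244, nat_lit 6256, nat_lit 6248, nat_lit 6252] (nat_lit 0) [nat_lit 25932] false,
   Spec.mk (nat_lit 6252) (nat_lit 0) [nat_lit 10626, nat_lit 5766, nat_lit 6414, nat_lit 6198, nat_lit 6270, nat_lit 6258, nat_lit 6250] (nat_lit 0) [] false,
   Spec.mk (nat_lit 6256) (nat_lit 0) [nat_lit 10630, nat_lit 5770, nat_lit 6418, nat_lit 6202, nat_lit 6274, nat_lit 6250, nat_lit 6258] (nat_lit 2) [nat_lit 25938] false,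
   Spec.mk (nat_lit 6258) (nat_lit 0) [nat_lit 10632, nat_lit 5772, nat_lit 6420, nat_lit 6204, nat_lit 6276, nat_lit 6252, nat_lit 6256] (nat_lit 0) [] false,
   Spec.mk (nat_lit 6266) (nat_lit 0) [nat_lit 10640, nat_lit 5780, nat_lit 6428, nat_lit 6212, nat_lit 6248, nat_lit 6268] (nat_lit 0) [nat_lit 25948] false,
   Spec.mk (nat_lit 6268) (nat_lit 1) [nat_lit 10642, nat_lit 5782, nat_lit 6430, nat_lit 6214, nat_lit 6250, nat_lit 6274, nat_lit 6266, nat_lit 6270] (nat_lit 0) [nat_lit 25950] false,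
   Spec.mk (nat_lit 6270) (nat_lit 0) [nat_lit 10644, nat_lit 5784, nat_lit 6432, nat_lit 6216, nat_lit 6252, nat_lit 6276, nat_lit 6268] (nat_lit 0) [] false,
   Spec.mk (nat_lit 6274) (nat_lit 1) [nat_lit 10648, nat_lit 5788, nat_lit 6436, nat_lit 6220, nat_lit 6256, nat_lit 6292, nat_lit 6268, nat_lit 6276] (nat_lit 0) [nat_lit 25956] false,
   Spec.mk (nat_lit 6276) (nat_lit 2) [nat_lit 10650, nat_lit 5790, nat_lit 6438, nat_lit 6222, nat_lit 6258, nat_lit 6294, nat_lit 6270, nat_lit 6282, nat_lit 6274] (nat_lit 0) [] false,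
   Spec.mk (nat_lit 6282) (nat_lit 2) [nat_lit 10656, nat_lit 5796, nat_lit 6444, nat_lit 6228, nat_lit 6300, nat_lit 6276] (nat_lit 0) [] false,
   Spec.mk (nat_lit 6292) (nat_lit 2) [nat_lit 10666, nat_lit 5806, nat_lit 6454, nat_lit 6274, nat_lit 6294] (nat_lit 0) [nat_lit 25974] false,
   Spec.mk (nat_lit 6294) (nat_lit 2) [nat_lit 10668, nat_lit 5808, nat_lit 6456, nat_lit 6276, nat_lit 6300, nat_lit 6292] (nat_lit 0) [] false,
   Spec.mk (nat_lit 6300) (nat_lit 4) [nat_lit 10674, nat_lit 5814, nat_lit 6462, nat_lit 6282, nat_lit 6294] (nat_lit 0) [] false,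
   Spec.mk (nat_lit 6326) (nat_lit 2) [nat_lit 10700, nat_lit 6164, nat_lit 6332] (nat_lit 0) [nat_lit 26008] false,
   Spec.mk (nat_lit 6332) (nat_lit 1) [nat_lit 10706, nat_lit 6170, nat_lit 6350, nat_lit 6326, nat_lit 6338, nat_lit 6334] (nat_lit 0) [nat_lit 26014] false,
   Spec.mk (nat_lit 6334) (nat_lit 2) [nat_lit 10708, nat_lit 6172, nat_lit 6352, nat_lit 6340, nat_lit 6332] (nat_lit 0) [nat_lit 26016] false,
   Spec.mk (nat_lit 6338) (nat_lit 0) [nat_lit 10712, nat_lit 6176, nat_lit 6356, nat_lit 6332, nat_lit 6340] (nat_lit 2) [nat_lit 26020] false,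
   Spec.mk (nat_lit 6340) (nat_lit 1) [nat_lit 10714, nat_lit 6178, nat_lit 6358, nat_lit 6334, nat_lit 6338, nat_lit 6342] (nat_lit 0) [nat_lit 26022] false,
   Spec.mk (nat_lit 6342) (nat_lit 2) [nat_lit 10716, nat_lit 6180, nat_lit 6360, nat_lit 6340] (nat_lit 0) [] false,
   Spec.mk (nat_lit 6350) (nat_lit 0) [nat_lit 10724, nat_lit 6188, nat_lit 6404, nat_lit 6332, nat_lit 6356, nat_lit 6352] (nat_lit 0) [nat_lit 26032] false,
   Spec.mk (nat_lit 6352) (nat_lit 0) [nat_lit 10726, nat_lit 6190, nat_lit 6406, nat_lit 6334, nat_lit 6358, nat_lit 6350] (nat_lit 0) [nat_lit 26034] false,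
   Spec.mk (nat_lit 6356) (nat_lit 0) [nat_lit 10730, nat_lit 6194, nat_lit 6410, nat_lit 6338, nat_lit 6374, nat_lit 6350, nat_lit 6358] (nat_lit 1) [nat_lit 26038] false,
   Spec.mk (nat_lit 6358) (nat_lit 1) [nat_lit 10732, nat_lit 6196, nat_lit 6412, nat_lit 6340, nat_lit 6376, nat_lit 6352, nat_lit 6364, nat_lit 6356, nat_lit 6360] (nat_lit 0) [nat_lit 26040] false,
   Spec.mk (nat_lit 6360) (nat_lit 1) [nat_lit 10734, nat_lit 6198, nat_lit 6414, nat_lit 6342, nat_lit 6378, nat_lit 6366, nat_lit 6358] (nat_lit 0) [] false,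
   Spec.mk (nat_lit 6364) (nat_lit 0) [nat_lit 10738, nat_lit 6202, nat_lit 6418, nat_lit 6382, nat_lit 6358, nat_lit 6366] (nat_lit 0) [nat_lit 26046] false,
   Spec.mk (nat_lit 6366) (nat_lit 2) [nat_lit 10740, nat_lit 6204, nat_lit 6420, nat_lit 6384, nat_lit 6360, nat_lit 6364] (nat_lit 0) [] false,
   Spec.mk (nat_lit 6374) (nat_lit 0) [nat_lit 10748, nat_lit 6212, nat_lit 6428, nat_lit 6356, nat_lit 6376] (nat_lit 2) [nat_lit 26056] false,
   Spec.mk (nat_lit 6376) (nat_lit 0) [nat_lit 10750, nat_lit 6214, nat_lit 6430, nat_lit 6358, nat_lit 6382, nat_lit 6374, nat_lit 6378] (nat_lit 1) [nat_lit 26058] false,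
   Spec.mk (nat_lit 6378) (nat_lit 0) [nat_lit 10752, nat_lit 6216, nat_lit 6432, nat_lit 6360, nat_lit 6384, nat_lit 6376] (nat_lit 2) [] false,
   Spec.mk (nat_lit 6382) (nat_lit 0) [nat_lit 10756, nat_lit 6220, nat_lit 6436, nat_lit 6364, nat_lit 6376, nat_lit 6384] (nat_lit 0) [nat_lit 26064] false,
   Spec.mk (nat_lit 6384) (nat_lit 1) [nat_lit 10758, nat_lit 6222, nat_lit 6438, nat_lit 6366, nat_lit 6378, nat_lit 6390, nat_lit 6382] (nat_lit 0) [] false,
   Spec.mk (nat_lit 6390) (nat_lit 2) [nat_lit 10764, nat_lit 6228, nat_lit 6444, nat_lit 6384] (nat_lit 0) [] false,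
   Spec.mk (nat_lit 6404) (nat_lit 2) [nat_lit 10778, nat_lit 6242, nat_lit 6350, nat_lit 6410, nat_lit 6406] (nat_lit 0) [nat_lit 26086] false,
   Spec.mk (nat_lit 6406) (nat_lit 2) [nat_lit 10780, nat_lit 6244, nat_lit 6352, nat_lit 6412, nat_lit 6404] (nat_lit 0) [nat_lit 26088] false,
   Spec.mk (nat_lit 6410) (nat_lit 0) [nat_lit 10784, nat_lit 6248, nat_lit 6356, nat_lit 6428, nat_lit 6404, nat_lit 6412] (nat_lit 0) [nat_lit 26092] false,
   Spec.mk (nat_lit 6412) (nat_lit 2) [nat_lit 10786, nat_lit 6250, nat_lit 6358, nat_lit 6430, nat_lit 6406, nat_lit 6418, nat_lit 6410, nat_lit 6414] (nat_lit 0) [nat_lit 26094] false,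
   Spec.mk (nat_lit 6414) (nat_lit 2) [nat_lit 10788, nat_lit 6252, nat_lit 6360, nat_lit 6432, nat_lit 6420, nat_lit 6412] (nat_lit 0) [] false,
   Spec.mk (nat_lit 6418) (nat_lit 0) [nat_lit 10792, nat_lit 6256, nat_lit 6364, nat_lit 6436, nat_lit 6412, nat_lit 6420] (nat_lit 0) [nat_lit 26100] false,
   Spec.mk (nat_lit 6420) (nat_lit 2) [nat_lit 10794, nat_lit 6258, nat_lit 6366, nat_lit 6438, nat_lit 6414, nat_lit 6418] (nat_lit 0) [] false,
   Spec.mk (nat_lit 6428) (nat_lit 1) [nat_lit 10802, nat_lit 6266, nat_lit 6374, nat_lit 6482, nat_lit 6410, nat_lit 6430] (nat_lit 0) [nat_lit 26110] false,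
   Spec.mk (nat_lit 6430) (nat_lit 2) [nat_lit 10804, nat_lit 6268, nat_lit 6376, nat_lit 6484, nat_lit 6412, nat_lit 6436, nat_lit 6428, nat_lit 6432] (nat_lit 0) [nat_lit 26112] false,
   Spec.mk (nat_lit 6432) (nat_lit 1) [nat_lit 10806, nat_lit 6270, nat_lit 6378, nat_lit 6486, nat_lit 6414, nat_lit 6438, nat_lit 6430] (nat_lit 0) [] false,
   Spec.mk (nat_lit 6436) (nat_lit 2) [nat_lit 10810, nat_lit 6274, nat_lit 6382, nat_lit 6490, nat_lit 6418, nat_lit 6454, nat_lit 6430, nat_lit 6438] (nat_lit 0) [nat_lit 26118] false,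
   Spec.mk (nat_lit 6438) (nat_lit 3) [nat_lit 10812, nat_lit 6276, nat_lit 6384, nat_lit 6492, nat_lit 6420, nat_lit 6456, nat_lit 6432, nat_lit 6444, nat_lit 6436] (nat_lit 0) [] false,
   Spec.mk (nat_lit 6444) (nat_lit 3) [nat_lit 10818, nat_lit 6282, nat_lit 6390, nat_lit 6498, nat_lit 6462, nat_lit 6438] (nat_lit 0) [] false,
   Spec.mk (nat_lit 6454) (nat_lit 2) [nat_lit 10828, nat_lit 6292, nat_lit 6508, nat_lit 6436, nat_lit 6456] (nat_lit 0) [nat_lit 26136] false,
   Spec.mk (nat_lit 6456) (nat_lit 2) [nat_lit 10830, nat_lit 6294, nat_lit 6510, nat_lit 6438, nat_lit 6462, nat_lit 6454] (nat_lit 0) [] false,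
   Spec.mk (nat_lit 6462) (nat_lit 4) [nat_lit 10836, nat_lit 6300, nat_lit 6516, nat_lit 6444, nat_lit 6456] (nat_lit 0) [] false,
   Spec.mk (nat_lit 6482) (nat_lit 2) [nat_lit 10856, nat_lit 6428, nat_lit 6484] (nat_lit 0) [nat_lit 26164] false,
   Spec.mk (nat_lit 6484) (nat_lit 3) [nat_lit 10858, nat_lit 6430, nat_lit 6490, nat_lit 6482, nat_lit 6486] (nat_lit 0) [nat_lit 26166] false,
   Spec.mk (nat_lit 6486) (nat_lit 2) [nat_lit 10860, nat_lit 6432, nat_lit 6492, nat_lit 6484] (nat_lit 0) [] false,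
   Spec.mk (nat_lit 6490) (nat_lit 2) [nat_lit 10864, nat_lit 6436, nat_lit 6508, nat_lit 6484, nat_lit 6492] (nat_lit 0) [nat_lit 26172] false,
   Spec.mk (nat_lit 6492) (nat_lit 3) [nat_lit 10866, nat_lit 6438, nat_lit 6510, nat_lit 6486, nat_lit 6498, nat_lit 6490] (nat_lit 0) [] false,
   Spec.mk (nat_lit 6498) (nat_lit 2) [nat_lit 10872, nat_lit 6444, nat_lit 6516, nat_lit 6492] (nat_lit 0) [] false]

noncomputable def sp13 : List Spec :=
  [Spec.mk (nat_lit 6508) (nat_lit 4) [nat_lit 10882, nat_lit 6454, nat_lit 6490, nat_lit 6510] (nat_lit 0) [nat_lit 26190] false,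
   Spec.mk (nat_lit 6510) (nat_lit 4) [nat_lit 10884, nat_lit 6456, nat_lit 6492, nat_lit 6516, nat_lit 6508] (nat_lit 0) [] false,
   Spec.mk (nat_lit 6516) (nat_lit 5) [nat_lit 10890, nat_lit 6462, nat_lit 6498, nat_lit 6534, nat_lit 6510] (nat_lit 0) [] false,
   Spec.mk (nat_lit 6534) (nat_lit 6) [nat_lit 10908, nat_lit 6516] (nat_lit 0) [] false,
   Spec.mk (nat_lit 6722) (nat_lit 4) [nat_lit 19844, nat_lit 2348, nat_lit 6884, nat_lit 6776] (nat_lit 0) [nat_lit 26404] false,
   Spec.mk (nat_lit 6776) (nat_lit 2) [nat_lit 19898, nat_lit 2402, nat_lit 6938, nat_lit 6722, nat_lit 6794] (nat_lit 0) [nat_lit 26458] false,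
   Spec.mk (nat_lit 6794) (nat_lit 2) [nat_lit 19916, nat_lit 2420, nat_lit 6956, nat_lit 6776, nat_lit 6800] (nat_lit 0) [nat_lit 26476] false,
   Spec.mk (nat_lit 6800) (nat_lit 2) [nat_lit 19922, nat_lit 2426, nat_lit 6962, nat_lit 6794, nat_lit 6802] (nat_lit 0) [nat_lit 26482] false,
   Spec.mk (nat_lit 6802) (nat_lit 4) [nat_lit 19924, nat_lit 2428, nat_lit 6964, nat_lit 6800] (nat_lit 0) [nat_lit 26484] false,
   Spec.mk (nat_lit 6884) (nat_lit 2) [nat_lit 20006, nat_lit 2510, nat_lit 7370, nat_lit 6722, nat_lit 6938] (nat_lit 0) [nat_lit 26566] false,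
   Spec.mk (nat_lit 6938) (nat_lit 2) [nat_lit 20060, nat_lit 2564, nat_lit 7424, nat_lit 6776, nat_lit 7100, nat_lit 6884, nat_lit 6992, nat_lit 6956] (nat_lit 0) [nat_lit 26620] false,
   Spec.mk (nat_lit 6956) (nat_lit 1) [nat_lit 20078, nat_lit 2582, nat_lit 7442, nat_lit 6794, nat_lit 7118, nat_lit 7010, nat_lit 6938, nat_lit 6962] (nat_lit 0) [nat_lit 26638] false,
   Spec.mk (nat_lit 6962) (nat_lit 1) [nat_lit 20084, nat_lit 2588, nat_lit 7448, nat_lit 6800, nat_lit 7124, nat_lit 7016, nat_lit 6956, nat_lit 6964] (nat_lit 0) [nat_lit 26644] false,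
   Spec.mk (nat_lit 6964) (nat_lit 3) [nat_lit 20086, nat_lit 2590, nat_lit 7450, nat_lit 6802, nat_lit 7126, nat_lit 7018, nat_lit 6962] (nat_lit 0) [nat_lit 26646] false,
   Spec.mk (nat_lit 6992) (nat_lit 0) [nat_lit 20114, nat_lit 2618, nat_lit 7478, nat_lit 7154, nat_lit 6938, nat_lit 7010] (nat_lit 0) [nat_lit 26674] false,
   Spec.mk (nat_lit 7010) (nat_lit 1) [nat_lit 20132, nat_lit 2636, nat_lit 7496, nat_lit 7172, nat_lit 6956, nat_lit 6992, nat_lit 7028, nat_lit 7016] (nat_lit 0) [nat_lit 26692] false,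
   Spec.mk (nat_lit 7016) (nat_lit 0) [nat_lit 20138, nat_lit 2642, nat_lit 7502, nat_lit 7178, nat_lit 6962, nat_lit 7034, nat_lit 7010, nat_lit 7018] (nat_lit 0) [nat_lit 26698] false,
   Spec.mk (nat_lit 7018) (nat_lit 2) [nat_lit 20140, nat_lit 2644, nat_lit 7504, nat_lit 7180, nat_lit 6964, nat_lit 7036, nat_lit 7016] (nat_lit 0) [nat_lit 26700] false,
   Spec.mk (nat_lit 7028) (nat_lit 0) [nat_lit 20150, nat_lit 2654, nat_lit 7514, nat_lit 7190, nat_lit 7010, nat_lit 7034] (nat_lit 0) [nat_lit 26710] false,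
   Spec.mk (nat_lit 7034) (nat_lit 1) [nat_lit 20156, nat_lit 2660, nat_lit 7520, nat_lit 7196, nat_lit 7016, nat_lit 7028, nat_lit 7040, nat_lit 7036] (nat_lit 0) [nat_lit 26716] false,
   Spec.mk (nat_lit 7036) (nat_lit 2) [nat_lit 20158, nat_lit 2662, nat_lit 7522, nat_lit 7198, nat_lit 7018, nat_lit 7042, nat_lit 7034] (nat_lit 0) [nat_lit 26718] false,
   Spec.mk (nat_lit 7040) (nat_lit 0) [nat_lit 20162, nat_lit 2666, nat_lit 7526, nat_lit 7202, nat_lit 7034, nat_lit 7042] (nat_lit 0) [nat_lit 26722] false,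
   Spec.mk (nat_lit 7042) (nat_lit 3) [nat_lit 20164, nat_lit 2668, nat_lit 7528, nat_lit 7204, nat_lit 7036, nat_lit 7040, nat_lit 7044] (nat_lit 0) [nat_lit 26724] false,
   Spec.mk (nat_lit 7044) (nat_lit 4) [nat_lit 20166, nat_lit 2670, nat_lit 7530, nat_lit 7206, nat_lit 7042] (nat_lit 0) [] false,
   Spec.mk (nat_lit 7100) (nat_lit 0) [nat_lit 20222, nat_lit 2726, nat_lit 7586, nat_lit 6938, nat_lit 7154, nat_lit 7118] (nat_lit 0) [nat_lit 26782] false,
   Spec.mk (nat_lit 7118) (nat_lit 0) [nat_lit 20240, nat_lit 2744, nat_lit 7604, nat_lit 6956, nat_lit 7172, nat_lit 7100, nat_lit 7124] (nat_lit 2) [nat_lit 26800] false,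
   Spec.mk (nat_lit 7124) (nat_lit 0) [nat_lit 20246, nat_lit 2750, nat_lit 7610, nat_lit 6962, nat_lit 7178, nat_lit 7118, nat_lit 7126] (nat_lit 2) [nat_lit 26806] false,
   Spec.mk (nat_lit 7126) (nat_lit 0) [nat_lit 20248, nat_lit 2752, nat_lit 7612, nat_lit 6964, nat_lit 7180, nat_lit 7124] (nat_lit 0) [nat_lit 26808] false,
   Spec.mk (nat_lit 7154) (nat_lit 0) [nat_lit 20276, nat_lit 2780, nat_lit 7640, nat_lit 6992, nat_lit 7100, nat_lit 7172] (nat_lit 0) [nat_lit 26836] false,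
   Spec.mk (nat_lit 7172) (nat_lit 0) [nat_lit 20294, nat_lit 2798, nat_lit 7658, nat_lit 7010, nat_lit 7118, nat_lit 7226, nat_lit 7154, nat_lit 7190, nat_lit 7178] (nat_lit 0) [nat_lit 26854] false,
   Spec.mk (nat_lit 7178) (nat_lit 0) [nat_lit 20300, nat_lit 2804, nat_lit 7664, nat_lit 7016, nat_lit 7124, nat_lit 7232, nat_lit 7196, nat_lit 7172, nat_lit 7180] (nat_lit 1) [nat_lit 26860] false,
   Spec.mk (nat_lit 7180) (nat_lit 1) [nat_lit 20302, nat_lit 2806, nat_lit 7666, nat_lit 7018, nat_lit 7126, nat_lit 7234, nat_lit 7198, nat_lit 7178] (nat_lit 0) [nat_lit 26862] false,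
   Spec.mk (nat_lit 7190) (nat_lit 0) [nat_lit 20312, nat_lit 2816, nat_lit 7676, nat_lit 7028, nat_lit 7244, nat_lit 7172, nat_lit 7196] (nat_lit 2) [nat_lit 26872] false,
   Spec.mk (nat_lit 7196) (nat_lit 0) [nat_lit 20318, nat_lit 2822, nat_lit 7682, nat_lit 7034, nat_lit 7250, nat_lit 7178, nat_lit 7190, nat_lit 7202, nat_lit 7198] (nat_lit 1) [nat_lit 26878] false,
   Spec.mk (nat_lit 7198) (nat_lit 0) [nat_lit 20320, nat_lit 2824, nat_lit 7684, nat_lit 7036, nat_lit 7252, nat_lit 7180, nat_lit 7204, nat_lit 7196] (nat_lit 0) [nat_lit 26880] false,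
   Spec.mk (nat_lit 7202) (nat_lit 0) [nat_lit 20324, nat_lit 2828, nat_lit 7688, nat_lit 7040, nat_lit 7256, nat_lit 7196, nat_lit 7204] (nat_lit 2) [nat_lit 26884] false,
   Spec.mk (nat_lit 7204) (nat_lit 1) [nat_lit 20326, nat_lit 2830, nat_lit 7690, nat_lit 7042, nat_lit 7258, nat_lit 7198, nat_lit 7202, nat_lit 7206] (nat_lit 0) [nat_lit 26886] false,
   Spec.mk (nat_lit 7206) (nat_lit 2) [nat_lit 20328, nat_lit 2832, nat_lit 7692, nat_lit 7044, nat_lit 7260, nat_lit 7204] (nat_lit 0) [] false,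
   Spec.mk (nat_lit 7226) (nat_lit 0) [nat_lit 20348, nat_lit 2852, nat_lit 7712, nat_lit 7172, nat_lit 7244, nat_lit 7232] (nat_lit 0) [nat_lit 26908] false,
   Spec.mk (nat_lit 7232) (nat_lit 0) [nat_lit 20354, nat_lit 2858, nat_lit 7718, nat_lit 7178, nat_lit 7250, nat_lit 7226, nat_lit 7234] (nat_lit 2) [nat_lit 26914] false,
   Spec.mk (nat_lit 7234) (nat_lit 0) [nat_lit 20356, nat_lit 2860, nat_lit 7720, nat_lit 7180, nat_lit 7252, nat_lit 7232] (nat_lit 0) [nat_lit 26916] false,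
   Spec.mk (nat_lit 7244) (nat_lit 0) [nat_lit 20366, nat_lit 2870, nat_lit 7730, nat_lit 7190, nat_lit 7226, nat_lit 7250] (nat_lit 0) [nat_lit 26926] false,
   Spec.mk (nat_lit 7250) (nat_lit 0) [nat_lit 20372, nat_lit 2876, nat_lit 7736, nat_lit 7196, nat_lit 7232, nat_lit 7268, nat_lit 7244, nat_lit 7256, nat_lit 7252] (nat_lit 0) [nat_lit 26932] false,
   Spec.mk (nat_lit 7252) (nat_lit 1) [nat_lit 20374, nat_lit 2878, nat_lit 7738, nat_lit 7198, nat_lit 7234, nat_lit 7270, nat_lit 7258, nat_lit 7250] (nat_lit 0) [nat_lit 26934] false,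
   Spec.mk (nat_lit 7256) (nat_lit 0) [nat_lit 20378, nat_lit 2882, nat_lit 7742, nat_lit 7202, nat_lit 7274, nat_lit 7250, nat_lit 7258] (nat_lit 2) [nat_lit 26938] false,
   Spec.mk (nat_lit 7258) (nat_lit 1) [nat_lit 20380, nat_lit 2884, nat_lit 7744, nat_lit 7204, nat_lit 7276, nat_lit 7252, nat_lit 7256, nat_lit 7260] (nat_lit 0) [nat_lit 26940] false,
   Spec.mk (nat_lit 7260) (nat_lit 2) [nat_lit 20382, nat_lit 2886, nat_lit 7746, nat_lit 7206, nat_lit 7278, nat_lit 7258] (nat_lit 0) [] false,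
   Spec.mk (nat_lit 7268) (nat_lit 0) [nat_lit 20390, nat_lit 2894, nat_lit 7754, nat_lit 7250, nat_lit 7274, nat_lit 7270] (nat_lit 0) [nat_lit 26950] false,
   Spec.mk (nat_lit 7270) (nat_lit 0) [nat_lit 20392, nat_lit 2896, nat_lit 7756, nat_lit 7252, nat_lit 7276, nat_lit 7268] (nat_lit 0) [nat_lit 26952] false,
   Spec.mk (nat_lit 7274) (nat_lit 0) [nat_lit 20396, nat_lit 2900, nat_lit 7760, nat_lit 7256, nat_lit 7268, nat_lit 7276] (nat_lit 0) [nat_lit 26956] false,
   Spec.mk (nat_lit 7276) (nat_lit 2) [nat_lit 20398, nat_lit 2902, nat_lit 7762, nat_lit 7258, nat_lit 7270, nat_lit 7282, nat_lit 7274, nat_lit 7278] (nat_lit 0) [nat_lit 26958] false,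
   Spec.mk (nat_lit 7278) (nat_lit 2) [nat_lit 20400, nat_lit 2904, nat_lit 7764, nat_lit 7260, nat_lit 7284, nat_lit 7276] (nat_lit 0) [] false,
   Spec.mk (nat_lit 7282) (nat_lit 2) [nat_lit 20404, nat_lit 2908, nat_lit 7768, nat_lit 7276, nat_lit 7284] (nat_lit 0) [nat_lit 26964] false,
   Spec.mk (nat_lit 7284) (nat_lit 4) [nat_lit 20406, nat_lit 2910, nat_lit 7770, nat_lit 7278, nat_lit 7282] (nat_lit 0) [] false,
   Spec.mk (nat_lit 7370) (nat_lit 2) [nat_lit 20492, nat_lit 2996, nat_lit 8828, nat_lit 6884, nat_lit 7424] (nat_lit 0) [nat_lit 27052] false,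
   Spec.mk (nat_lit 7424) (nat_lit 1) [nat_lit 20546, nat_lit 3050, nat_lit 8882, nat_lit 6938, nat_lit 7586, nat_lit 7370, nat_lit 7478, nat_lit 7442] (nat_lit 0) [nat_lit 27106] false,
   Spec.mk (nat_lit 7442) (nat_lit 0) [nat_lit 20564, nat_lit 3068, nat_lit 8900, nat_lit 6956, nat_lit 7604, nat_lit 7496, nat_lit 7424, nat_lit 7448] (nat_lit 0) [nat_lit 27124] false,
   Spec.mk (nat_lit 7448) (nat_lit 0) [nat_lit 20570, nat_lit 3074, nat_lit 8906, nat_lit 6962, nat_lit 7610, nat_lit 7502, nat_lit 7442, nat_lit 7450] (nat_lit 0) [nat_lit 27130] false,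
   Spec.mk (nat_lit 7450) (nat_lit 2) [nat_lit 20572, nat_lit 3076, nat_lit 8908, nat_lit 6964, nat_lit 7612, nat_lit 7504, nat_lit 7448] (nat_lit 0) [nat_lit 27132] false,
   Spec.mk (nat_lit 7478) (nat_lit 0) [nat_lit 20600, nat_lit 3104, nat_lit 8936, nat_lit 6992, nat_lit 7640, nat_lit 7424, nat_lit 7496] (nat_lit 2) [nat_lit 27160] false]

noncomputable def sp14 : List Spec :=
  [Spec.mk (nat_lit 7496) (nat_lit 0) [nat_lit 20618, nat_lit 3122, nat_lit 8954, nat_lit 7010, nat_lit 7658, nat_lit 7442, nat_lit 7478, nat_lit 7514, nat_lit 7502] (nat_lit 1) [nat_lit 27178] false,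
   Spec.mk (nat_lit 7502) (nat_lit 0) [nat_lit 20624, nat_lit 3128, nat_lit 8960, nat_lit 7016, nat_lit 7664, nat_lit 7448, nat_lit 7520, nat_lit 7496, nat_lit 7504] (nat_lit 2) [nat_lit 27184] true,
   Spec.mk (nat_lit 7504) (nat_lit 0) [nat_lit 20626, nat_lit 3130, nat_lit 8962, nat_lit 7018, nat_lit 7666, nat_lit 7450, nat_lit 7522, nat_lit 7502] (nat_lit 0) [nat_lit 27186] false,
   Spec.mk (nat_lit 7514) (nat_lit 0) [nat_lit 20636, nat_lit 3140, nat_lit 8972, nat_lit 7028, nat_lit 7676, nat_lit 7496, nat_lit 7520] (nat_lit 2) [nat_lit 27196] false,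
   Spec.mk (nat_lit 7520) (nat_lit 0) [nat_lit 20642, nat_lit 3146, nat_lit 8978, nat_lit 7034, nat_lit 7682, nat_lit 7502, nat_lit 7514, nat_lit 7526, nat_lit 7522] (nat_lit 1) [nat_lit 27202] false,
   Spec.mk (nat_lit 7522) (nat_lit 0) [nat_lit 20644, nat_lit 3148, nat_lit 8980, nat_lit 7036, nat_lit 7684, nat_lit 7504, nat_lit 7528, nat_lit 7520] (nat_lit 0) [nat_lit 27204] false,
   Spec.mk (nat_lit 7526) (nat_lit 0) [nat_lit 20648, nat_lit 3152, nat_lit 8984, nat_lit 7040, nat_lit 7688, nat_lit 7520, nat_lit 7528] (nat_lit 2) [nat_lit 27208] false,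
   Spec.mk (nat_lit 7528) (nat_lit 1) [nat_lit 20650, nat_lit 3154, nat_lit 8986, nat_lit 7042, nat_lit 7690, nat_lit 7522, nat_lit 7526, nat_lit 7530] (nat_lit 0) [nat_lit 27210] false,
   Spec.mk (nat_lit 7530) (nat_lit 2) [nat_lit 20652, nat_lit 3156, nat_lit 8988, nat_lit 7044, nat_lit 7692, nat_lit 7528] (nat_lit 0) [] false,
   Spec.mk (nat_lit 7586) (nat_lit 1) [nat_lit 20708, nat_lit 3212, nat_lit 9044, nat_lit 7100, nat_lit 8072, nat_lit 7424, nat_lit 7640, nat_lit 7604] (nat_lit 0) [nat_lit 27268] false,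
   Spec.mk (nat_lit 7604) (nat_lit 0) [nat_lit 20726, nat_lit 3230, nat_lit 9062, nat_lit 7118, nat_lit 8090, nat_lit 7442, nat_lit 7658, nat_lit 7586, nat_lit 7610] (nat_lit 1) [nat_lit 27286] false,
   Spec.mk (nat_lit 7610) (nat_lit 0) [nat_lit 20732, nat_lit 3236, nat_lit 9068, nat_lit 7124, nat_lit 8096, nat_lit 7448, nat_lit 7664, nat_lit 7604, nat_lit 7612] (nat_lit 1) [nat_lit 27292] false,
   Spec.mk (nat_lit 7612) (nat_lit 1) [nat_lit 20734, nat_lit 3238, nat_lit 9070, nat_lit 7126, nat_lit 8098, nat_lit 7450, nat_lit 7666, nat_lit 7610] (nat_lit 0) [nat_lit 27294] false,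
   Spec.mk (nat_lit 7640) (nat_lit 0) [nat_lit 20762, nat_lit 3266, nat_lit 9098, nat_lit 7154, nat_lit 8126, nat_lit 7478, nat_lit 7802, nat_lit 7586, nat_lit 7658] (nat_lit 0) [nat_lit 27322] false,
   Spec.mk (nat_lit 7658) (nat_lit 0) [nat_lit 20780, nat_lit 3284, nat_lit 9116, nat_lit 7172, nat_lit 8144, nat_lit 7496, nat_lit 7820, nat_lit 7604, nat_lit 7712, nat_lit 7640, nat_lit 7676, nat_lit 7664] (nat_lit 0) [nat_lit 27340] false,
   Spec.mk (nat_lit 7664) (nat_lit 0) [nat_lit 20786, nat_lit 3290, nat_lit 9122, nat_lit 7178, nat_lit 8150, nat_lit 7502, nat_lit 7826, nat_lit 7610, nat_lit 7718, nat_lit 7682, nat_lit 7658, nat_lit 7666] (nat_lit 1) [nat_lit 27346] true,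
   Spec.mk (nat_lit 7666) (nat_lit 1) [nat_lit 20788, nat_lit 3292, nat_lit 9124, nat_lit 7180, nat_lit 8152, nat_lit 7504, nat_lit 7828, nat_lit 7612, nat_lit 7720, nat_lit 7684, nat_lit 7664] (nat_lit 0) [nat_lit 27348] false,
   Spec.mk (nat_lit 7676) (nat_lit 0) [nat_lit 20798, nat_lit 3302, nat_lit 9134, nat_lit 7190, nat_lit 8162, nat_lit 7514, nat_lit 7838, nat_lit 7730, nat_lit 7658, nat_lit 7682] (nat_lit 2) [nat_lit 27358] false,
   Spec.mk (nat_lit 7682) (nat_lit 0) [nat_lit 20804, nat_lit 3308, nat_lit 9140, nat_lit 7196, nat_lit 8168, nat_lit 7520, nat_lit 7844, nat_lit 7736, nat_lit 7664, nat_lit 7676, nat_lit 7688, nat_lit 7684] (nat_lit 1) [nat_lit 27364] true,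
   Spec.mk (nat_lit 7684) (nat_lit 0) [nat_lit 20806, nat_lit 3310, nat_lit 9142, nat_lit 7198, nat_lit 8170, nat_lit 7522, nat_lit 7846, nat_lit 7738, nat_lit 7666, nat_lit 7690, nat_lit 7682] (nat_lit 0) [nat_lit 27366] true,
   Spec.mk (nat_lit 7688) (nat_lit 0) [nat_lit 20810, nat_lit 3314, nat_lit 9146, nat_lit 7202, nat_lit 8174, nat_lit 7526, nat_lit 7850, nat_lit 7742, nat_lit 7682, nat_lit 7690] (nat_lit 2) [nat_lit 27370] false,
   Spec.mk (nat_lit 7690) (nat_lit 1) [nat_lit 20812, nat_lit 3316, nat_lit 9148, nat_lit 7204, nat_lit 8176, nat_lit 7528, nat_lit 7852, nat_lit 7744, nat_lit 7684, nat_lit 7688, nat_lit 7692] (nat_lit 0) [nat_lit 27372] false,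
   Spec.mk (nat_lit 7692) (nat_lit 2) [nat_lit 20814, nat_lit 3318, nat_lit 9150, nat_lit 7206, nat_lit 8178, nat_lit 7530, nat_lit 7854, nat_lit 7746, nat_lit 7690] (nat_lit 0) [] false,
   Spec.mk (nat_lit 7712) (nat_lit 0) [nat_lit 20834, nat_lit 3338, nat_lit 9170, nat_lit 7226, nat_lit 8198, nat_lit 7874, nat_lit 7658, nat_lit 7730, nat_lit 7718] (nat_lit 1) [nat_lit 27394] false,
   Spec.mk (nat_lit 7718) (nat_lit 0) [nat_lit 20840, nat_lit 3344, nat_lit 9176, nat_lit 7232, nat_lit 8204, nat_lit 7880, nat_lit 7664, nat_lit 7736, nat_lit 7712, nat_lit 7720] (nat_lit 3) [nat_lit 27400] true,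
   Spec.mk (nat_lit 7720) (nat_lit 0) [nat_lit 20842, nat_lit 3346, nat_lit 9178, nat_lit 7234, nat_lit 8206, nat_lit 7882, nat_lit 7666, nat_lit 7738, nat_lit 7718] (nat_lit 1) [nat_lit 27402] false,
   Spec.mk (nat_lit 7730) (nat_lit 0) [nat_lit 20852, nat_lit 3356, nat_lit 9188, nat_lit 7244, nat_lit 8216, nat_lit 7892, nat_lit 7676, nat_lit 7712, nat_lit 7736] (nat_lit 1) [nat_lit 27412] false,
   Spec.mk (nat_lit 7736) (nat_lit 0) [nat_lit 20858, nat_lit 3362, nat_lit 9194, nat_lit 7250, nat_lit 8222, nat_lit 7898, nat_lit 7682, nat_lit 7718, nat_lit 7754, nat_lit 7730, nat_lit 7742, nat_lit 7738] (nat_lit 1) [nat_lit 27418] true,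
   Spec.mk (nat_lit 7738) (nat_lit 0) [nat_lit 20860, nat_lit 3364, nat_lit 9196, nat_lit 7252, nat_lit 8224, nat_lit 7900, nat_lit 7684, nat_lit 7720, nat_lit 7756, nat_lit 7744, nat_lit 7736] (nat_lit 0) [nat_lit 27420] true,
   Spec.mk (nat_lit 7742) (nat_lit 0) [nat_lit 20864, nat_lit 3368, nat_lit 9200, nat_lit 7256, nat_lit 8228, nat_lit 7904, nat_lit 7688, nat_lit 7760, nat_lit 7736, nat_lit 7744] (nat_lit 3) [nat_lit 27424] true,
   Spec.mk (nat_lit 7744) (nat_lit 0) [nat_lit 20866, nat_lit 3370, nat_lit 9202, nat_lit 7258, nat_lit 8230, nat_lit 7906, nat_lit 7690, nat_lit 7762, nat_lit 7738, nat_lit 7742, nat_lit 7746] (nat_lit 0) [nat_lit 27426] true,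
   Spec.mk (nat_lit 7746) (nat_lit 1) [nat_lit 20868, nat_lit 3372, nat_lit 9204, nat_lit 7260, nat_lit 8232, nat_lit 7908, nat_lit 7692, nat_lit 7764, nat_lit 7744] (nat_lit 0) [] false,
   Spec.mk (nat_lit 7754) (nat_lit 0) [nat_lit 20876, nat_lit 3380, nat_lit 9212, nat_lit 7268, nat_lit 8240, nat_lit 7916, nat_lit 7736, nat_lit 7760, nat_lit 7756] (nat_lit 1) [nat_lit 27436] false,
   Spec.mk (nat_lit 7756) (nat_lit 0) [nat_lit 20878, nat_lit 3382, nat_lit 9214, nat_lit 7270, nat_lit 8242, nat_lit 7918, nat_lit 7738, nat_lit 7762, nat_lit 7754] (nat_lit 1) [nat_lit 27438] false,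
   Spec.mk (nat_lit 7760) (nat_lit 0) [nat_lit 20882, nat_lit 3386, nat_lit 9218, nat_lit 7274, nat_lit 8246, nat_lit 7922, nat_lit 7742, nat_lit 7754, nat_lit 7762] (nat_lit 1) [nat_lit 27442] false,
   Spec.mk (nat_lit 7762) (nat_lit 1) [nat_lit 20884, nat_lit 3388, nat_lit 9220, nat_lit 7276, nat_lit 8248, nat_lit 7924, nat_lit 7744, nat_lit 7756, nat_lit 7768, nat_lit 7760, nat_lit 7764] (nat_lit 0) [nat_lit 27444] false,
   Spec.mk (nat_lit 7764) (nat_lit 1) [nat_lit 20886, nat_lit 3390, nat_lit 9222, nat_lit 7278, nat_lit 8250, nat_lit 7926, nat_lit 7746, nat_lit 7770, nat_lit 7762] (nat_lit 0) [] false,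
   Spec.mk (nat_lit 7768) (nat_lit 1) [nat_lit 20890, nat_lit 3394, nat_lit 9226, nat_lit 7282, nat_lit 8254, nat_lit 7930, nat_lit 7762, nat_lit 7770] (nat_lit 0) [nat_lit 27450] false,
   Spec.mk (nat_lit 7770) (nat_lit 3) [nat_lit 20892, nat_lit 3396, nat_lit 9228, nat_lit 7284, nat_lit 8256, nat_lit 7932, nat_lit 7764, nat_lit 7768] (nat_lit 0) [] false,
   Spec.mk (nat_lit 7802) (nat_lit 0) [nat_lit 20924, nat_lit 3428, nat_lit 9260, nat_lit 8288, nat_lit 7640, nat_lit 7820] (nat_lit 0) [nat_lit 27484] false,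
   Spec.mk (nat_lit 7820) (nat_lit 0) [nat_lit 20942, nat_lit 3446, nat_lit 9278, nat_lit 8306, nat_lit 7658, nat_lit 7874, nat_lit 7802, nat_lit 7838, nat_lit 7826] (nat_lit 1) [nat_lit 27502] false,
   Spec.mk (nat_lit 7826) (nat_lit 0) [nat_lit 20948, nat_lit 3452, nat_lit 9284, nat_lit 8312, nat_lit 7664, nat_lit 7880, nat_lit 7844, nat_lit 7820, nat_lit 7828] (nat_lit 2) [nat_lit 27508] true,
   Spec.mk (nat_lit 7828) (nat_lit 0) [nat_lit 20950, nat_lit 3454, nat_lit 9286, nat_lit 8314, nat_lit 7666, nat_lit 7882, nat_lit 7846, nat_lit 7826] (nat_lit 0) [nat_lit 27510] false,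
   Spec.mk (nat_lit 7838) (nat_lit 0) [nat_lit 20960, nat_lit 3464, nat_lit 9296, nat_lit 8324, nat_lit 7676, nat_lit 7892, nat_lit 7820, nat_lit 7844] (nat_lit 4) [nat_lit 27520] false,
   Spec.mk (nat_lit 7844) (nat_lit 0) [nat_lit 20966, nat_lit 3470, nat_lit 9302, nat_lit 8330, nat_lit 7682, nat_lit 7898, nat_lit 7826, nat_lit 7838, nat_lit 7850, nat_lit 7846] (nat_lit 3) [nat_lit 27526] true,
   Spec.mk (nat_lit 7846) (nat_lit 0) [nat_lit 20968, nat_lit 3472, nat_lit 9304, nat_lit 8332, nat_lit 7684, nat_lit 7900, nat_lit 7828, nat_lit 7852, nat_lit 7844] (nat_lit 2) [nat_lit 27528] true,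
   Spec.mk (nat_lit 7850) (nat_lit 0) [nat_lit 20972, nat_lit 3476, nat_lit 9308, nat_lit 8336, nat_lit 7688, nat_lit 7904, nat_lit 7844, nat_lit 7852] (nat_lit 4) [nat_lit 27532] false,
   Spec.mk (nat_lit 7852) (nat_lit 0) [nat_lit 20974, nat_lit 3478, nat_lit 9310, nat_lit 8338, nat_lit 7690, nat_lit 7906, nat_lit 7846, nat_lit 7850, nat_lit 7854] (nat_lit 1) [nat_lit 27534] false,
   Spec.mk (nat_lit 7854) (nat_lit 0) [nat_lit 20976, nat_lit 3480, nat_lit 9312, nat_lit 8340, nat_lit 7692, nat_lit 7908, nat_lit 7852] (nat_lit 0) [] false,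
   Spec.mk (nat_lit 7874) (nat_lit 0) [nat_lit 20996, nat_lit 3500, nat_lit 9332, nat_lit 8360, nat_lit 7712, nat_lit 7820, nat_lit 7892, nat_lit 7880] (nat_lit 0) [nat_lit 27556] false,
   Spec.mk (nat_lit 7880) (nat_lit 0) [nat_lit 21002, nat_lit 3506, nat_lit 9338, nat_lit 8366, nat_lit 7718, nat_lit 7826, nat_lit 7898, nat_lit 7874, nat_lit 7882] (nat_lit 2) [nat_lit 27562] true,
   Spec.mk (nat_lit 7882) (nat_lit 0) [nat_lit 21004, nat_lit 3508, nat_lit 9340, nat_lit 8368, nat_lit 7720, nat_lit 7828, nat_lit 7900, nat_lit 7880] (nat_lit 0) [nat_lit 27564] false,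
   Spec.mk (nat_lit 7892) (nat_lit 0) [nat_lit 21014, nat_lit 3518, nat_lit 9350, nat_lit 8378, nat_lit 7730, nat_lit 7838, nat_lit 7946, nat_lit 7874, nat_lit 7898] (nat_lit 1) [nat_lit 27574] false,
   Spec.mk (nat_lit 7898) (nat_lit 0) [nat_lit 21020, nat_lit 3524, nat_lit 9356, nat_lit 8384, nat_lit 7736, nat_lit 7844, nat_lit 7952, nat_lit 7880, nat_lit 7916, nat_lit 7892, nat_lit 7904, nat_lit 7900] (nat_lit 1) [nat_lit 27580] true,
   Spec.mk (nat_lit 7900) (nat_lit 0) [nat_lit 21022, nat_lit 3526, nat_lit 9358, nat_lit 8386, nat_lit 7738, nat_lit 7846, nat_lit 7954, nat_lit 7882, nat_lit 7918, nat_lit 7906, nat_lit 7898] (nat_lit 0) [nat_lit 27582] true,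
   Spec.mk (nat_lit 7904) (nat_lit 0) [nat_lit 21026, nat_lit 3530, nat_lit 9362, nat_lit 8390, nat_lit 7742, nat_lit 7850, nat_lit 7958, nat_lit 7922, nat_lit 7898, nat_lit 7906] (nat_lit 3) [nat_lit 27586] true,
   Spec.mk (nat_lit 7906) (nat_lit 0) [nat_lit 21028, nat_lit 3532, nat_lit 9364, nat_lit 8392, nat_lit 7744, nat_lit 7852, nat_lit 7960, nat_lit 7924, nat_lit 7900, nat_lit 7904, nat_lit 7908] (nat_lit 0) [nat_lit 27588] false,
   Spec.mk (nat_lit 7908) (nat_lit 1) [nat_lit 21030, nat_lit 3534, nat_lit 9366, nat_lit 8394, nat_lit 7746, nat_lit 7854, nat_lit 7962, nat_lit 7926, nat_lit 7906] (nat_lit 0) [] false,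
   Spec.mk (nat_lit 7916) (nat_lit 0) [nat_lit 21038, nat_lit 3542, nat_lit 9374, nat_lit 8402, nat_lit 7754, nat_lit 7970, nat_lit 7898, nat_lit 7922, nat_lit 7918] (nat_lit 2) [nat_lit 27598] true,
   Spec.mk (nat_lit 7918) (nat_lit 0) [nat_lit 21040, nat_lit 3544, nat_lit 9376, nat_lit 8404, nat_lit 7756, nat_lit 7972, nat_lit 7900, nat_lit 7924, nat_lit 7916] (nat_lit 2) [nat_lit 27600] false]

noncomputable def sp15 : List Spec :=
  [Spec.mk (nat_lit 7922) (nat_lit 0) [nat_lit 21044, nat_lit 3548, nat_lit 9380, nat_lit 8408, nat_lit 7760, nat_lit 7976, nat_lit 7904, nat_lit 7916, nat_lit 7924] (nat_lit 2) [nat_lit 27604] false,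
   Spec.mk (nat_lit 7924) (nat_lit 0) [nat_lit 21046, nat_lit 3550, nat_lit 9382, nat_lit 8410, nat_lit 7762, nat_lit 7978, nat_lit 7906, nat_lit 7918, nat_lit 7930, nat_lit 7922, nat_lit 7926] (nat_lit 0) [nat_lit 27606] false,
   Spec.mk (nat_lit 7926) (nat_lit 0) [nat_lit 21048, nat_lit 3552, nat_lit 9384, nat_lit 8412, nat_lit 7764, nat_lit 7980, nat_lit 7908, nat_lit 7932, nat_lit 7924] (nat_lit 0) [] false,
   Spec.mk (nat_lit 7930) (nat_lit 0) [nat_lit 21052, nat_lit 3556, nat_lit 9388, nat_lit 8416, nat_lit 7768, nat_lit 7984, nat_lit 7924, nat_lit 7932] (nat_lit 0) [nat_lit 27612] false,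
   Spec.mk (nat_lit 7932) (nat_lit 2) [nat_lit 21054, nat_lit 3558, nat_lit 9390, nat_lit 8418, nat_lit 7770, nat_lit 7986, nat_lit 7926, nat_lit 7930] (nat_lit 0) [] false,
   Spec.mk (nat_lit 7946) (nat_lit 0) [nat_lit 21068, nat_lit 3572, nat_lit 9404, nat_lit 8432, nat_lit 7892, nat_lit 7952] (nat_lit 0) [nat_lit 27628] false,
   Spec.mk (nat_lit 7952) (nat_lit 0) [nat_lit 21074, nat_lit 3578, nat_lit 9410, nat_lit 8438, nat_lit 7898, nat_lit 7970, nat_lit 7946, nat_lit 7958, nat_lit 7954] (nat_lit 1) [nat_lit 27634] false,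
   Spec.mk (nat_lit 7954) (nat_lit 0) [nat_lit 21076, nat_lit 3580, nat_lit 9412, nat_lit 8440, nat_lit 7900, nat_lit 7972, nat_lit 7960, nat_lit 7952] (nat_lit 0) [nat_lit 27636] false,
   Spec.mk (nat_lit 7958) (nat_lit 0) [nat_lit 21080, nat_lit 3584, nat_lit 9416, nat_lit 8444, nat_lit 7904, nat_lit 7976, nat_lit 7952, nat_lit 7960] (nat_lit 4) [nat_lit 27640] false,
   Spec.mk (nat_lit 7960) (nat_lit 0) [nat_lit 21082, nat_lit 3586, nat_lit 9418, nat_lit 8446, nat_lit 7906, nat_lit 7978, nat_lit 7954, nat_lit 7958, nat_lit 7962] (nat_lit 1) [nat_lit 27642] false,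
   Spec.mk (nat_lit 7962) (nat_lit 0) [nat_lit 21084, nat_lit 3588, nat_lit 9420, nat_lit 8448, nat_lit 7908, nat_lit 7980, nat_lit 7960] (nat_lit 0) [] false,
   Spec.mk (nat_lit 7970) (nat_lit 0) [nat_lit 21092, nat_lit 3596, nat_lit 9428, nat_lit 8456, nat_lit 7916, nat_lit 7952, nat_lit 7976, nat_lit 7972] (nat_lit 0) [nat_lit 27652] false,
   Spec.mk (nat_lit 7972) (nat_lit 0) [nat_lit 21094, nat_lit 3598, nat_lit 9430, nat_lit 8458, nat_lit 7918, nat_lit 7954, nat_lit 7978, nat_lit 7970] (nat_lit 0) [nat_lit 27654] false,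
   Spec.mk (nat_lit 7976) (nat_lit 0) [nat_lit 21098, nat_lit 3602, nat_lit 9434, nat_lit 8462, nat_lit 7922, nat_lit 7958, nat_lit 7994, nat_lit 7970, nat_lit 7978] (nat_lit 1) [nat_lit 27658] false,
   Spec.mk (nat_lit 7978) (nat_lit 1) [nat_lit 21100, nat_lit 3604, nat_lit 9436, nat_lit 8464, nat_lit 7924, nat_lit 7960, nat_lit 7996, nat_lit 7972, nat_lit 7984, nat_lit 7976, nat_lit 7980] (nat_lit 0) [nat_lit 27660] false,
   Spec.mk (nat_lit 7980) (nat_lit 1) [nat_lit 21102, nat_lit 3606, nat_lit 9438, nat_lit 8466, nat_lit 7926, nat_lit 7962, nat_lit 7998, nat_lit 7986, nat_lit 7978] (nat_lit 0) [] false,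
   Spec.mk (nat_lit 7984) (nat_lit 0) [nat_lit 21106, nat_lit 3610, nat_lit 9442, nat_lit 8470, nat_lit 7930, nat_lit 8002, nat_lit 7978, nat_lit 7986] (nat_lit 0) [nat_lit 27666] false,
   Spec.mk (nat_lit 7986) (nat_lit 2) [nat_lit 21108, nat_lit 3612, nat_lit 9444, nat_lit 8472, nat_lit 7932, nat_lit 8004, nat_lit 7980, nat_lit 7984] (nat_lit 0) [] false,
   Spec.mk (nat_lit 7994) (nat_lit 0) [nat_lit 21116, nat_lit 3620, nat_lit 9452, nat_lit 8480, nat_lit 7976, nat_lit 7996] (nat_lit 0) [nat_lit 27676] false,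
   Spec.mk (nat_lit 7996) (nat_lit 1) [nat_lit 21118, nat_lit 3622, nat_lit 9454, nat_lit 8482, nat_lit 7978, nat_lit 8002, nat_lit 7994, nat_lit 7998] (nat_lit 0) [nat_lit 27678] false,
   Spec.mk (nat_lit 7998) (nat_lit 0) [nat_lit 21120, nat_lit 3624, nat_lit 9456, nat_lit 8484, nat_lit 7980, nat_lit 8004, nat_lit 7996] (nat_lit 0) [] false,
   Spec.mk (nat_lit 8002) (nat_lit 2) [nat_lit 21124, nat_lit 3628, nat_lit 9460, nat_lit 8488, nat_lit 7984, nat_lit 7996, nat_lit 8004] (nat_lit 0) [nat_lit 27684] false,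
   Spec.mk (nat_lit 8004) (nat_lit 3) [nat_lit 21126, nat_lit 3630, nat_lit 9462, nat_lit 8490, nat_lit 7986, nat_lit 7998, nat_lit 8010, nat_lit 8002] (nat_lit 0) [] false,
   Spec.mk (nat_lit 8010) (nat_lit 4) [nat_lit 21132, nat_lit 3636, nat_lit 9468, nat_lit 8496, nat_lit 8004] (nat_lit 0) [] false,
   Spec.mk (nat_lit 8072) (nat_lit 0) [nat_lit 21194, nat_lit 3698, nat_lit 9530, nat_lit 7586, nat_lit 8126, nat_lit 8090] (nat_lit 0) [nat_lit 27754] false,
   Spec.mk (nat_lit 8090) (nat_lit 0) [nat_lit 21212, nat_lit 3716, nat_lit 9548, nat_lit 7604, nat_lit 8144, nat_lit 8072, nat_lit 8096] (nat_lit 2) [nat_lit 27772] false,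
   Spec.mk (nat_lit 8096) (nat_lit 0) [nat_lit 21218, nat_lit 3722, nat_lit 9554, nat_lit 7610, nat_lit 8150, nat_lit 8090, nat_lit 8098] (nat_lit 2) [nat_lit 27778] false,
   Spec.mk (nat_lit 8098) (nat_lit 0) [nat_lit 21220, nat_lit 3724, nat_lit 9556, nat_lit 7612, nat_lit 8152, nat_lit 8096] (nat_lit 0) [nat_lit 27780] false,
   Spec.mk (nat_lit 8126) (nat_lit 0) [nat_lit 21248, nat_lit 3752, nat_lit 9584, nat_lit 7640, nat_lit 8288, nat_lit 8072, nat_lit 8144] (nat_lit 2) [nat_lit 27808] false,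
   Spec.mk (nat_lit 8144) (nat_lit 0) [nat_lit 21266, nat_lit 3770, nat_lit 9602, nat_lit 7658, nat_lit 8306, nat_lit 8090, nat_lit 8198, nat_lit 8126, nat_lit 8162, nat_lit 8150] (nat_lit 2) [nat_lit 27826] false,
   Spec.mk (nat_lit 8150) (nat_lit 0) [nat_lit 21272, nat_lit 3776, nat_lit 9608, nat_lit 7664, nat_lit 8312, nat_lit 8096, nat_lit 8204, nat_lit 8168, nat_lit 8144, nat_lit 8152] (nat_lit 3) [nat_lit 27832] false,
   Spec.mk (nat_lit 8152) (nat_lit 0) [nat_lit 21274, nat_lit 3778, nat_lit 9610, nat_lit 7666, nat_lit 8314, nat_lit 8098, nat_lit 8206, nat_lit 8170, nat_lit 8150] (nat_lit 1) [nat_lit 27834] false,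
   Spec.mk (nat_lit 8162) (nat_lit 0) [nat_lit 21284, nat_lit 3788, nat_lit 9620, nat_lit 7676, nat_lit 8324, nat_lit 8216, nat_lit 8144, nat_lit 8168] (nat_lit 4) [nat_lit 27844] false,
   Spec.mk (nat_lit 8168) (nat_lit 0) [nat_lit 21290, nat_lit 3794, nat_lit 9626, nat_lit 7682, nat_lit 8330, nat_lit 8222, nat_lit 8150, nat_lit 8162, nat_lit 8174, nat_lit 8170] (nat_lit 3) [nat_lit 27850] true,
   Spec.mk (nat_lit 8170) (nat_lit 0) [nat_lit 21292, nat_lit 3796, nat_lit 9628, nat_lit 7684, nat_lit 8332, nat_lit 8224, nat_lit 8152, nat_lit 8176, nat_lit 8168] (nat_lit 2) [nat_lit 27852] false,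
   Spec.mk (nat_lit 8174) (nat_lit 0) [nat_lit 21296, nat_lit 3800, nat_lit 9632, nat_lit 7688, nat_lit 8336, nat_lit 8228, nat_lit 8168, nat_lit 8176] (nat_lit 4) [nat_lit 27856] false,
   Spec.mk (nat_lit 8176) (nat_lit 0) [nat_lit 21298, nat_lit 3802, nat_lit 9634, nat_lit 7690, nat_lit 8338, nat_lit 8230, nat_lit 8170, nat_lit 8174, nat_lit 8178] (nat_lit 1) [nat_lit 27858] false,
   Spec.mk (nat_lit 8178) (nat_lit 0) [nat_lit 21300, nat_lit 3804, nat_lit 9636, nat_lit 7692, nat_lit 8340, nat_lit 8232, nat_lit 8176] (nat_lit 0) [] false,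
   Spec.mk (nat_lit 8198) (nat_lit 0) [nat_lit 21320, nat_lit 3824, nat_lit 9656, nat_lit 7712, nat_lit 8360, nat_lit 8144, nat_lit 8216, nat_lit 8204] (nat_lit 4) [nat_lit 27880] false,
   Spec.mk (nat_lit 8204) (nat_lit 0) [nat_lit 21326, nat_lit 3830, nat_lit 9662, nat_lit 7718, nat_lit 8366, nat_lit 8150, nat_lit 8222, nat_lit 8198, nat_lit 8206] (nat_lit 6) [nat_lit 27886] true,
   Spec.mk (nat_lit 8206) (nat_lit 0) [nat_lit 21328, nat_lit 3832, nat_lit 9664, nat_lit 7720, nat_lit 8368, nat_lit 8152, nat_lit 8224, nat_lit 8204] (nat_lit 4) [nat_lit 27888] false,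
   Spec.mk (nat_lit 8216) (nat_lit 0) [nat_lit 21338, nat_lit 3842, nat_lit 9674, nat_lit 7730, nat_lit 8378, nat_lit 8162, nat_lit 8198, nat_lit 8222] (nat_lit 4) [nat_lit 27898] false,
   Spec.mk (nat_lit 8222) (nat_lit 0) [nat_lit 21344, nat_lit 3848, nat_lit 9680, nat_lit 7736, nat_lit 8384, nat_lit 8168, nat_lit 8204, nat_lit 8240, nat_lit 8216, nat_lit 8228, nat_lit 8224] (nat_lit 4) [nat_lit 27904] true,
   Spec.mk (nat_lit 8224) (nat_lit 0) [nat_lit 21346, nat_lit 3850, nat_lit 9682, nat_lit 7738, nat_lit 8386, nat_lit 8170, nat_lit 8206, nat_lit 8242, nat_lit 8230, nat_lit 8222] (nat_lit 3) [nat_lit 27906] false,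
   Spec.mk (nat_lit 8228) (nat_lit 0) [nat_lit 21350, nat_lit 3854, nat_lit 9686, nat_lit 7742, nat_lit 8390, nat_lit 8174, nat_lit 8246, nat_lit 8222, nat_lit 8230] (nat_lit 6) [nat_lit 27910] true,
   Spec.mk (nat_lit 8230) (nat_lit 0) [nat_lit 21352, nat_lit 3856, nat_lit 9688, nat_lit 7744, nat_lit 8392, nat_lit 8176, nat_lit 8248, nat_lit 8224, nat_lit 8228, nat_lit 8232] (nat_lit 3) [nat_lit 27912] false,
   Spec.mk (nat_lit 8232) (nat_lit 0) [nat_lit 21354, nat_lit 3858, nat_lit 9690, nat_lit 7746, nat_lit 8394, nat_lit 8178, nat_lit 8250, nat_lit 8230] (nat_lit 2) [] false,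
   Spec.mk (nat_lit 8240) (nat_lit 0) [nat_lit 21362, nat_lit 3866, nat_lit 9698, nat_lit 7754, nat_lit 8402, nat_lit 8222, nat_lit 8246, nat_lit 8242] (nat_lit 4) [nat_lit 27922] false,
   Spec.mk (nat_lit 8242) (nat_lit 0) [nat_lit 21364, nat_lit 3868, nat_lit 9700, nat_lit 7756, nat_lit 8404, nat_lit 8224, nat_lit 8248, nat_lit 8240] (nat_lit 4) [nat_lit 27924] false,
   Spec.mk (nat_lit 8246) (nat_lit 0) [nat_lit 21368, nat_lit 3872, nat_lit 9704, nat_lit 7760, nat_lit 8408, nat_lit 8228, nat_lit 8240, nat_lit 8248] (nat_lit 4) [nat_lit 27928] false,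
   Spec.mk (nat_lit 8248) (nat_lit 0) [nat_lit 21370, nat_lit 3874, nat_lit 9706, nat_lit 7762, nat_lit 8410, nat_lit 8230, nat_lit 8242, nat_lit 8254, nat_lit 8246, nat_lit 8250] (nat_lit 2) [nat_lit 27930] false,
   Spec.mk (nat_lit 8250) (nat_lit 0) [nat_lit 21372, nat_lit 3876, nat_lit 9708, nat_lit 7764, nat_lit 8412, nat_lit 8232, nat_lit 8256, nat_lit 8248] (nat_lit 2) [] false,
   Spec.mk (nat_lit 8254) (nat_lit 0) [nat_lit 21376, nat_lit 3880, nat_lit 9712, nat_lit 7768, nat_lit 8416, nat_lit 8248, nat_lit 8256] (nat_lit 2) [nat_lit 27936] false,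
   Spec.mk (nat_lit 8256) (nat_lit 0) [nat_lit 21378, nat_lit 3882, nat_lit 9714, nat_lit 7770, nat_lit 8418, nat_lit 8250, nat_lit 8254] (nat_lit 0) [] false,
   Spec.mk (nat_lit 8288) (nat_lit 0) [nat_lit 21410, nat_lit 3914, nat_lit 9746, nat_lit 7802, nat_lit 8126, nat_lit 8306] (nat_lit 0) [nat_lit 27970] false,
   Spec.mk (nat_lit 8306) (nat_lit 0) [nat_lit 21428, nat_lit 3932, nat_lit 9764, nat_lit 7820, nat_lit 8144, nat_lit 8360, nat_lit 8288, nat_lit 8324, nat_lit 8312] (nat_lit 1) [nat_lit 27988] false,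
   Spec.mk (nat_lit 8312) (nat_lit 0) [nat_lit 21434, nat_lit 3938, nat_lit 9770, nat_lit 7826, nat_lit 8150, nat_lit 8366, nat_lit 8330, nat_lit 8306, nat_lit 8314] (nat_lit 2) [nat_lit 27994] false,
   Spec.mk (nat_lit 8314) (nat_lit 0) [nat_lit 21436, nat_lit 3940, nat_lit 9772, nat_lit 7828, nat_lit 8152, nat_lit 8368, nat_lit 8332, nat_lit 8312] (nat_lit 0) [nat_lit 27996] false,
   Spec.mk (nat_lit 8324) (nat_lit 0) [nat_lit 21446, nat_lit 3950, nat_lit 9782, nat_lit 7838, nat_lit 8162, nat_lit 8378, nat_lit 8306, nat_lit 8330] (nat_lit 4) [nat_lit 28006] false,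
   Spec.mk (nat_lit 8330) (nat_lit 0) [nat_lit 21452, nat_lit 3956, nat_lit 9788, nat_lit 7844, nat_lit 8168, nat_lit 8384, nat_lit 8312, nat_lit 8324, nat_lit 8336, nat_lit 8332] (nat_lit 3) [nat_lit 28012] true]

noncomputable def sp16 : List Spec :=
  [Spec.mk (nat_lit 8332) (nat_lit 0) [nat_lit 21454, nat_lit 3958, nat_lit 9790, nat_lit 7846, nat_lit 8170, nat_lit 8386, nat_lit 8314, nat_lit 8338, nat_lit 8330] (nat_lit 2) [nat_lit 28014] false,
   Spec.mk (nat_lit 8336) (nat_lit 0) [nat_lit 21458, nat_lit 3962, nat_lit 9794, nat_lit 7850, nat_lit 8174, nat_lit 8390, nat_lit 8330, nat_lit 8338] (nat_lit 4) [nat_lit 28018] false,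
   Spec.mk (nat_lit 8338) (nat_lit 0) [nat_lit 21460, nat_lit 3964, nat_lit 9796, nat_lit 7852, nat_lit 8176, nat_lit 8392, nat_lit 8332, nat_lit 8336, nat_lit 8340] (nat_lit 1) [nat_lit 28020] false,
   Spec.mk (nat_lit 8340) (nat_lit 0) [nat_lit 21462, nat_lit 3966, nat_lit 9798, nat_lit 7854, nat_lit 8178, nat_lit 8394, nat_lit 8338] (nat_lit 0) [] false,
   Spec.mk (nat_lit 8360) (nat_lit 0) [nat_lit 21482, nat_lit 3986, nat_lit 9818, nat_lit 7874, nat_lit 8198, nat_lit 8522, nat_lit 8306, nat_lit 8378, nat_lit 8366] (nat_lit 1) [nat_lit 28042] false,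
   Spec.mk (nat_lit 8366) (nat_lit 0) [nat_lit 21488, nat_lit 3992, nat_lit 9824, nat_lit 7880, nat_lit 8204, nat_lit 8528, nat_lit 8312, nat_lit 8384, nat_lit 8360, nat_lit 8368] (nat_lit 3) [nat_lit 28048] true,
   Spec.mk (nat_lit 8368) (nat_lit 0) [nat_lit 21490, nat_lit 3994, nat_lit 9826, nat_lit 7882, nat_lit 8206, nat_lit 8530, nat_lit 8314, nat_lit 8386, nat_lit 8366] (nat_lit 1) [nat_lit 28050] false,
   Spec.mk (nat_lit 8378) (nat_lit 0) [nat_lit 21500, nat_lit 4004, nat_lit 9836, nat_lit 7892, nat_lit 8216, nat_lit 8540, nat_lit 8324, nat_lit 8432, nat_lit 8360, nat_lit 8384] (nat_lit 2) [nat_lit 28060] false,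
   Spec.mk (nat_lit 8384) (nat_lit 0) [nat_lit 21506, nat_lit 4010, nat_lit 9842, nat_lit 7898, nat_lit 8222, nat_lit 8546, nat_lit 8330, nat_lit 8438, nat_lit 8366, nat_lit 8402, nat_lit 8378, nat_lit 8390, nat_lit 8386] (nat_lit 2) [nat_lit 28066] true,
   Spec.mk (nat_lit 8386) (nat_lit 0) [nat_lit 21508, nat_lit 4012, nat_lit 9844, nat_lit 7900, nat_lit 8224, nat_lit 8548, nat_lit 8332, nat_lit 8440, nat_lit 8368, nat_lit 8404, nat_lit 8392, nat_lit 8384] (nat_lit 1) [nat_lit 28068] false,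
   Spec.mk (nat_lit 8390) (nat_lit 0) [nat_lit 21512, nat_lit 4016, nat_lit 9848, nat_lit 7904, nat_lit 8228, nat_lit 8552, nat_lit 8336, nat_lit 8444, nat_lit 8408, nat_lit 8384, nat_lit 8392] (nat_lit 4) [nat_lit 28072] false,
   Spec.mk (nat_lit 8392) (nat_lit 0) [nat_lit 21514, nat_lit 4018, nat_lit 9850, nat_lit 7906, nat_lit 8230, nat_lit 8554, nat_lit 8338, nat_lit 8446, nat_lit 8410, nat_lit 8386, nat_lit 8390, nat_lit 8394] (nat_lit 1) [nat_lit 28074] false,
   Spec.mk (nat_lit 8394) (nat_lit 0) [nat_lit 21516, nat_lit 4020, nat_lit 9852, nat_lit 7908, nat_lit 8232, nat_lit 8556, nat_lit 8340, nat_lit 8448, nat_lit 8412, nat_lit 8392] (nat_lit 0) [] false,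
   Spec.mk (nat_lit 8402) (nat_lit 0) [nat_lit 21524, nat_lit 4028, nat_lit 9860, nat_lit 7916, nat_lit 8240, nat_lit 8564, nat_lit 8456, nat_lit 8384, nat_lit 8408, nat_lit 8404] (nat_lit 3) [nat_lit 28084] false,
   Spec.mk (nat_lit 8404) (nat_lit 0) [nat_lit 21526, nat_lit 4030, nat_lit 9862, nat_lit 7918, nat_lit 8242, nat_lit 8566, nat_lit 8458, nat_lit 8386, nat_lit 8410, nat_lit 8402] (nat_lit 3) [nat_lit 28086] false,
   Spec.mk (nat_lit 8408) (nat_lit 0) [nat_lit 21530, nat_lit 4034, nat_lit 9866, nat_lit 7922, nat_lit 8246, nat_lit 8570, nat_lit 8462, nat_lit 8390, nat_lit 8402, nat_lit 8410] (nat_lit 3) [nat_lit 28090] false,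
   Spec.mk (nat_lit 8410) (nat_lit 0) [nat_lit 21532, nat_lit 4036, nat_lit 9868, nat_lit 7924, nat_lit 8248, nat_lit 8572, nat_lit 8464, nat_lit 8392, nat_lit 8404, nat_lit 8416, nat_lit 8408, nat_lit 8412] (nat_lit 1) [nat_lit 28092] false,
   Spec.mk (nat_lit 8412) (nat_lit 0) [nat_lit 21534, nat_lit 4038, nat_lit 9870, nat_lit 7926, nat_lit 8250, nat_lit 8574, nat_lit 8466, nat_lit 8394, nat_lit 8418, nat_lit 8410] (nat_lit 1) [] false,
   Spec.mk (nat_lit 8416) (nat_lit 0) [nat_lit 21538, nat_lit 4042, nat_lit 9874, nat_lit 7930, nat_lit 8254, nat_lit 8578, nat_lit 8470, nat_lit 8410, nat_lit 8418] (nat_lit 1) [nat_lit 28098] false,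
   Spec.mk (nat_lit 8418) (nat_lit 1) [nat_lit 21540, nat_lit 4044, nat_lit 9876, nat_lit 7932, nat_lit 8256, nat_lit 8580, nat_lit 8472, nat_lit 8412, nat_lit 8416] (nat_lit 0) [] false,
   Spec.mk (nat_lit 8432) (nat_lit 0) [nat_lit 21554, nat_lit 4058, nat_lit 9890, nat_lit 7946, nat_lit 8594, nat_lit 8378, nat_lit 8438] (nat_lit 2) [nat_lit 28114] false,
   Spec.mk (nat_lit 8438) (nat_lit 0) [nat_lit 21560, nat_lit 4064, nat_lit 9896, nat_lit 7952, nat_lit 8600, nat_lit 8384, nat_lit 8456, nat_lit 8432, nat_lit 8444, nat_lit 8440] (nat_lit 3) [nat_lit 28120] false,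
   Spec.mk (nat_lit 8440) (nat_lit 0) [nat_lit 21562, nat_lit 4066, nat_lit 9898, nat_lit 7954, nat_lit 8602, nat_lit 8386, nat_lit 8458, nat_lit 8446, nat_lit 8438] (nat_lit 2) [nat_lit 28122] false,
   Spec.mk (nat_lit 8444) (nat_lit 0) [nat_lit 21566, nat_lit 4070, nat_lit 9902, nat_lit 7958, nat_lit 8606, nat_lit 8390, nat_lit 8462, nat_lit 8438, nat_lit 8446] (nat_lit 6) [nat_lit 28126] false,
   Spec.mk (nat_lit 8446) (nat_lit 0) [nat_lit 21568, nat_lit 4072, nat_lit 9904, nat_lit 7960, nat_lit 8608, nat_lit 8392, nat_lit 8464, nat_lit 8440, nat_lit 8444, nat_lit 8448] (nat_lit 3) [nat_lit 28128] false,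
   Spec.mk (nat_lit 8448) (nat_lit 0) [nat_lit 21570, nat_lit 4074, nat_lit 9906, nat_lit 7962, nat_lit 8610, nat_lit 8394, nat_lit 8466, nat_lit 8446] (nat_lit 2) [] false,
   Spec.mk (nat_lit 8456) (nat_lit 0) [nat_lit 21578, nat_lit 4082, nat_lit 9914, nat_lit 7970, nat_lit 8618, nat_lit 8402, nat_lit 8438, nat_lit 8462, nat_lit 8458] (nat_lit 2) [nat_lit 28138] false,
   Spec.mk (nat_lit 8458) (nat_lit 0) [nat_lit 21580, nat_lit 4084, nat_lit 9916, nat_lit 7972, nat_lit 8620, nat_lit 8404, nat_lit 8440, nat_lit 8464, nat_lit 8456] (nat_lit 2) [nat_lit 28140] false,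
   Spec.mk (nat_lit 8462) (nat_lit 0) [nat_lit 21584, nat_lit 4088, nat_lit 9920, nat_lit 7976, nat_lit 8624, nat_lit 8408, nat_lit 8444, nat_lit 8480, nat_lit 8456, nat_lit 8464] (nat_lit 3) [nat_lit 28144] false,
   Spec.mk (nat_lit 8464) (nat_lit 0) [nat_lit 21586, nat_lit 4090, nat_lit 9922, nat_lit 7978, nat_lit 8626, nat_lit 8410, nat_lit 8446, nat_lit 8482, nat_lit 8458, nat_lit 8470, nat_lit 8462, nat_lit 8466] (nat_lit 1) [nat_lit 28146] false,
   Spec.mk (nat_lit 8466) (nat_lit 0) [nat_lit 21588, nat_lit 4092, nat_lit 9924, nat_lit 7980, nat_lit 8628, nat_lit 8412, nat_lit 8448, nat_lit 8484, nat_lit 8472, nat_lit 8464] (nat_lit 1) [] false,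
   Spec.mk (nat_lit 8470) (nat_lit 0) [nat_lit 21592, nat_lit 4096, nat_lit 9928, nat_lit 7984, nat_lit 8632, nat_lit 8416, nat_lit 8488, nat_lit 8464, nat_lit 8472] (nat_lit 2) [nat_lit 28152] false,
   Spec.mk (nat_lit 8472) (nat_lit 0) [nat_lit 21594, nat_lit 4098, nat_lit 9930, nat_lit 7986, nat_lit 8634, nat_lit 8418, nat_lit 8490, nat_lit 8466, nat_lit 8470] (nat_lit 0) [] false,
   Spec.mk (nat_lit 8480) (nat_lit 0) [nat_lit 21602, nat_lit 4106, nat_lit 9938, nat_lit 7994, nat_lit 8642, nat_lit 8462, nat_lit 8482] (nat_lit 2) [nat_lit 28162] false,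
   Spec.mk (nat_lit 8482) (nat_lit 0) [nat_lit 21604, nat_lit 4108, nat_lit 9940, nat_lit 7996, nat_lit 8644, nat_lit 8464, nat_lit 8488, nat_lit 8480, nat_lit 8484] (nat_lit 1) [nat_lit 28164] false,
   Spec.mk (nat_lit 8484) (nat_lit 0) [nat_lit 21606, nat_lit 4110, nat_lit 9942, nat_lit 7998, nat_lit 8646, nat_lit 8466, nat_lit 8490, nat_lit 8482] (nat_lit 2) [] false,
   Spec.mk (nat_lit 8488) (nat_lit 0) [nat_lit 21610, nat_lit 4114, nat_lit 9946, nat_lit 8002, nat_lit 8650, nat_lit 8470, nat_lit 8482, nat_lit 8490] (nat_lit 0) [nat_lit 28170] false,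
   Spec.mk (nat_lit 8490) (nat_lit 1) [nat_lit 21612, nat_lit 4116, nat_lit 9948, nat_lit 8004, nat_lit 8652, nat_lit 8472, nat_lit 8484, nat_lit 8496, nat_lit 8488] (nat_lit 0) [] false,
   Spec.mk (nat_lit 8496) (nat_lit 2) [nat_lit 21618, nat_lit 4122, nat_lit 9954, nat_lit 8010, nat_lit 8658, nat_lit 8490] (nat_lit 0) [] false,
   Spec.mk (nat_lit 8522) (nat_lit 0) [nat_lit 21644, nat_lit 4148, nat_lit 9980, nat_lit 8360, nat_lit 8540, nat_lit 8528] (nat_lit 0) [nat_lit 28204] false,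
   Spec.mk (nat_lit 8528) (nat_lit 0) [nat_lit 21650, nat_lit 4154, nat_lit 9986, nat_lit 8366, nat_lit 8546, nat_lit 8522, nat_lit 8530] (nat_lit 2) [nat_lit 28210] false,
   Spec.mk (nat_lit 8530) (nat_lit 0) [nat_lit 21652, nat_lit 4156, nat_lit 9988, nat_lit 8368, nat_lit 8548, nat_lit 8528] (nat_lit 0) [nat_lit 28212] false,
   Spec.mk (nat_lit 8540) (nat_lit 0) [nat_lit 21662, nat_lit 4166, nat_lit 9998, nat_lit 8378, nat_lit 8594, nat_lit 8522, nat_lit 8546] (nat_lit 2) [nat_lit 28222] false,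
   Spec.mk (nat_lit 8546) (nat_lit 0) [nat_lit 21668, nat_lit 4172, nat_lit 10004, nat_lit 8384, nat_lit 8600, nat_lit 8528, nat_lit 8564, nat_lit 8540, nat_lit 8552, nat_lit 8548] (nat_lit 2) [nat_lit 28228] false,
   Spec.mk (nat_lit 8548) (nat_lit 0) [nat_lit 21670, nat_lit 4174, nat_lit 10006, nat_lit 8386, nat_lit 8602, nat_lit 8530, nat_lit 8566, nat_lit 8554, nat_lit 8546] (nat_lit 1) [nat_lit 28230] false,
   Spec.mk (nat_lit 8552) (nat_lit 0) [nat_lit 21674, nat_lit 4178, nat_lit 10010, nat_lit 8390, nat_lit 8606, nat_lit 8570, nat_lit 8546, nat_lit 8554] (nat_lit 4) [nat_lit 28234] false,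
   Spec.mk (nat_lit 8554) (nat_lit 0) [nat_lit 21676, nat_lit 4180, nat_lit 10012, nat_lit 8392, nat_lit 8608, nat_lit 8572, nat_lit 8548, nat_lit 8552, nat_lit 8556] (nat_lit 1) [nat_lit 28236] false,
   Spec.mk (nat_lit 8556) (nat_lit 0) [nat_lit 21678, nat_lit 4182, nat_lit 10014, nat_lit 8394, nat_lit 8610, nat_lit 8574, nat_lit 8554] (nat_lit 0) [] false,
   Spec.mk (nat_lit 8564) (nat_lit 0) [nat_lit 21686, nat_lit 4190, nat_lit 10022, nat_lit 8402, nat_lit 8618, nat_lit 8546, nat_lit 8570, nat_lit 8566] (nat_lit 4) [nat_lit 28246] false,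
   Spec.mk (nat_lit 8566) (nat_lit 0) [nat_lit 21688, nat_lit 4192, nat_lit 10024, nat_lit 8404, nat_lit 8620, nat_lit 8548, nat_lit 8572, nat_lit 8564] (nat_lit 4) [nat_lit 28248] false,
   Spec.mk (nat_lit 8570) (nat_lit 0) [nat_lit 21692, nat_lit 4196, nat_lit 10028, nat_lit 8408, nat_lit 8624, nat_lit 8552, nat_lit 8564, nat_lit 8572] (nat_lit 4) [nat_lit 28252] false,
   Spec.mk (nat_lit 8572) (nat_lit 0) [nat_lit 21694, nat_lit 4198, nat_lit 10030, nat_lit 8410, nat_lit 8626, nat_lit 8554, nat_lit 8566, nat_lit 8578, nat_lit 8570, nat_lit 8574] (nat_lit 2) [nat_lit 28254] false,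
   Spec.mk (nat_lit 8574) (nat_lit 0) [nat_lit 21696, nat_lit 4200, nat_lit 10032, nat_lit 8412, nat_lit 8628, nat_lit 8556, nat_lit 8580, nat_lit 8572] (nat_lit 2) [] false,
   Spec.mk (nat_lit 8578) (nat_lit 0) [nat_lit 21700, nat_lit 4204, nat_lit 10036, nat_lit 8416, nat_lit 8632, nat_lit 8572, nat_lit 8580] (nat_lit 2) [nat_lit 28260] false,
   Spec.mk (nat_lit 8580) (nat_lit 0) [nat_lit 21702, nat_lit 4206, nat_lit 10038, nat_lit 8418, nat_lit 8634, nat_lit 8574, nat_lit 8578] (nat_lit 0) [] false,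
   Spec.mk (nat_lit 8594) (nat_lit 0) [nat_lit 21716, nat_lit 4220, nat_lit 10052, nat_lit 8432, nat_lit 8540, nat_lit 8600] (nat_lit 0) [nat_lit 28276] false,
   Spec.mk (nat_lit 8600) (nat_lit 0) [nat_lit 21722, nat_lit 4226, nat_lit 10058, nat_lit 8438, nat_lit 8546, nat_lit 8618, nat_lit 8594, nat_lit 8606, nat_lit 8602] (nat_lit 1) [nat_lit 28282] false,
   Spec.mk (nat_lit 8602) (nat_lit 0) [nat_lit 21724, nat_lit 4228, nat_lit 10060, nat_lit 8440, nat_lit 8548, nat_lit 8620, nat_lit 8608, nat_lit 8600] (nat_lit 0) [nat_lit 28284] false,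
   Spec.mk (nat_lit 8606) (nat_lit 0) [nat_lit 21728, nat_lit 4232, nat_lit 10064, nat_lit 8444, nat_lit 8552, nat_lit 8624, nat_lit 8600, nat_lit 8608] (nat_lit 4) [nat_lit 28288] false,
   Spec.mk (nat_lit 8608) (nat_lit 0) [nat_lit 21730, nat_lit 4234, nat_lit 10066, nat_lit 8446, nat_lit 8554, nat_lit 8626, nat_lit 8602, nat_lit 8606, nat_lit 8610] (nat_lit 1) [nat_lit 28290] false]

noncomputable def sp17 : List Spec :=
  [Spec.mk (nat_lit 8610) (nat_lit 0) [nat_lit 21732, nat_lit 4236, nat_lit 10068, nat_lit 8448, nat_lit 8556, nat_lit 8628, nat_lit 8608] (nat_lit 0) [] false,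
   Spec.mk (nat_lit 8618) (nat_lit 0) [nat_lit 21740, nat_lit 4244, nat_lit 10076, nat_lit 8456, nat_lit 8564, nat_lit 8672, nat_lit 8600, nat_lit 8624, nat_lit 8620] (nat_lit 1) [nat_lit 28300] false,
   Spec.mk (nat_lit 8620) (nat_lit 0) [nat_lit 21742, nat_lit 4246, nat_lit 10078, nat_lit 8458, nat_lit 8566, nat_lit 8674, nat_lit 8602, nat_lit 8626, nat_lit 8618] (nat_lit 1) [nat_lit 28302] false,
   Spec.mk (nat_lit 8624) (nat_lit 0) [nat_lit 21746, nat_lit 4250, nat_lit 10082, nat_lit 8462, nat_lit 8570, nat_lit 8678, nat_lit 8606, nat_lit 8642, nat_lit 8618, nat_lit 8626] (nat_lit 2) [nat_lit 28306] false,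
   Spec.mk (nat_lit 8626) (nat_lit 0) [nat_lit 21748, nat_lit 4252, nat_lit 10084, nat_lit 8464, nat_lit 8572, nat_lit 8680, nat_lit 8608, nat_lit 8644, nat_lit 8620, nat_lit 8632, nat_lit 8624, nat_lit 8628] (nat_lit 0) [nat_lit 28308] false,
   Spec.mk (nat_lit 8628) (nat_lit 0) [nat_lit 21750, nat_lit 4254, nat_lit 10086, nat_lit 8466, nat_lit 8574, nat_lit 8682, nat_lit 8610, nat_lit 8646, nat_lit 8634, nat_lit 8626] (nat_lit 0) [] false,
   Spec.mk (nat_lit 8632) (nat_lit 0) [nat_lit 21754, nat_lit 4258, nat_lit 10090, nat_lit 8470, nat_lit 8578, nat_lit 8686, nat_lit 8650, nat_lit 8626, nat_lit 8634] (nat_lit 1) [nat_lit 28314] false,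
   Spec.mk (nat_lit 8634) (nat_lit 1) [nat_lit 21756, nat_lit 4260, nat_lit 10092, nat_lit 8472, nat_lit 8580, nat_lit 8688, nat_lit 8652, nat_lit 8628, nat_lit 8632] (nat_lit 0) [] false,
   Spec.mk (nat_lit 8642) (nat_lit 0) [nat_lit 21764, nat_lit 4268, nat_lit 10100, nat_lit 8480, nat_lit 8696, nat_lit 8624, nat_lit 8644] (nat_lit 2) [nat_lit 28324] false,
   Spec.mk (nat_lit 8644) (nat_lit 0) [nat_lit 21766, nat_lit 4270, nat_lit 10102, nat_lit 8482, nat_lit 8698, nat_lit 8626, nat_lit 8650, nat_lit 8642, nat_lit 8646] (nat_lit 1) [nat_lit 28326] false,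
   Spec.mk (nat_lit 8646) (nat_lit 0) [nat_lit 21768, nat_lit 4272, nat_lit 10104, nat_lit 8484, nat_lit 8700, nat_lit 8628, nat_lit 8652, nat_lit 8644] (nat_lit 2) [] false,
   Spec.mk (nat_lit 8650) (nat_lit 0) [nat_lit 21772, nat_lit 4276, nat_lit 10108, nat_lit 8488, nat_lit 8704, nat_lit 8632, nat_lit 8644, nat_lit 8652] (nat_lit 0) [nat_lit 28332] false,
   Spec.mk (nat_lit 8652) (nat_lit 1) [nat_lit 21774, nat_lit 4278, nat_lit 10110, nat_lit 8490, nat_lit 8706, nat_lit 8634, nat_lit 8646, nat_lit 8658, nat_lit 8650] (nat_lit 0) [] false,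
   Spec.mk (nat_lit 8658) (nat_lit 2) [nat_lit 21780, nat_lit 4284, nat_lit 10116, nat_lit 8496, nat_lit 8712, nat_lit 8652] (nat_lit 0) [] false,
   Spec.mk (nat_lit 8672) (nat_lit 0) [nat_lit 21794, nat_lit 4298, nat_lit 10130, nat_lit 8618, nat_lit 8678, nat_lit 8674] (nat_lit 0) [nat_lit 28354] false,
   Spec.mk (nat_lit 8674) (nat_lit 0) [nat_lit 21796, nat_lit 4300, nat_lit 10132, nat_lit 8620, nat_lit 8680, nat_lit 8672] (nat_lit 0) [nat_lit 28356] false,
   Spec.mk (nat_lit 8678) (nat_lit 0) [nat_lit 21800, nat_lit 4304, nat_lit 10136, nat_lit 8624, nat_lit 8696, nat_lit 8672, nat_lit 8680] (nat_lit 2) [nat_lit 28360] false,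
   Spec.mk (nat_lit 8680) (nat_lit 0) [nat_lit 21802, nat_lit 4306, nat_lit 10138, nat_lit 8626, nat_lit 8698, nat_lit 8674, nat_lit 8686, nat_lit 8678, nat_lit 8682] (nat_lit 0) [nat_lit 28362] false,
   Spec.mk (nat_lit 8682) (nat_lit 0) [nat_lit 21804, nat_lit 4308, nat_lit 10140, nat_lit 8628, nat_lit 8700, nat_lit 8688, nat_lit 8680] (nat_lit 0) [] false,
   Spec.mk (nat_lit 8686) (nat_lit 0) [nat_lit 21808, nat_lit 4312, nat_lit 10144, nat_lit 8632, nat_lit 8704, nat_lit 8680, nat_lit 8688] (nat_lit 2) [nat_lit 28368] false,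
   Spec.mk (nat_lit 8688) (nat_lit 0) [nat_lit 21810, nat_lit 4314, nat_lit 10146, nat_lit 8634, nat_lit 8706, nat_lit 8682, nat_lit 8686] (nat_lit 0) [] false,
   Spec.mk (nat_lit 8696) (nat_lit 0) [nat_lit 21818, nat_lit 4322, nat_lit 10154, nat_lit 8642, nat_lit 8678, nat_lit 8698] (nat_lit 0) [nat_lit 28378] false,
   Spec.mk (nat_lit 8698) (nat_lit 1) [nat_lit 21820, nat_lit 4324, nat_lit 10156, nat_lit 8644, nat_lit 8680, nat_lit 8704, nat_lit 8696, nat_lit 8700] (nat_lit 0) [nat_lit 28380] false,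
   Spec.mk (nat_lit 8700) (nat_lit 0) [nat_lit 21822, nat_lit 4326, nat_lit 10158, nat_lit 8646, nat_lit 8682, nat_lit 8706, nat_lit 8698] (nat_lit 0) [] false,
   Spec.mk (nat_lit 8704) (nat_lit 1) [nat_lit 21826, nat_lit 4330, nat_lit 10162, nat_lit 8650, nat_lit 8686, nat_lit 8722, nat_lit 8698, nat_lit 8706] (nat_lit 0) [nat_lit 28386] false,
   Spec.mk (nat_lit 8706) (nat_lit 2) [nat_lit 21828, nat_lit 4332, nat_lit 10164, nat_lit 8652, nat_lit 8688, nat_lit 8724, nat_lit 8700, nat_lit 8712, nat_lit 8704] (nat_lit 0) [] false,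
   Spec.mk (nat_lit 8712) (nat_lit 2) [nat_lit 21834, nat_lit 4338, nat_lit 10170, nat_lit 8658, nat_lit 8730, nat_lit 8706] (nat_lit 0) [] false,
   Spec.mk (nat_lit 8722) (nat_lit 2) [nat_lit 21844, nat_lit 4348, nat_lit 10180, nat_lit 8704, nat_lit 8724] (nat_lit 0) [nat_lit 28404] false,
   Spec.mk (nat_lit 8724) (nat_lit 2) [nat_lit 21846, nat_lit 4350, nat_lit 10182, nat_lit 8706, nat_lit 8730, nat_lit 8722] (nat_lit 0) [] false,
   Spec.mk (nat_lit 8730) (nat_lit 4) [nat_lit 21852, nat_lit 4356, nat_lit 10188, nat_lit 8712, nat_lit 8724] (nat_lit 0) [] false,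
   Spec.mk (nat_lit 8828) (nat_lit 3) [nat_lit 21950, nat_lit 4454, nat_lit 13202, nat_lit 7370, nat_lit 8882] (nat_lit 0) [nat_lit 28510] false,
   Spec.mk (nat_lit 8882) (nat_lit 2) [nat_lit 22004, nat_lit 4508, nat_lit 13256, nat_lit 7424, nat_lit 9044, nat_lit 8828, nat_lit 8936, nat_lit 8900] (nat_lit 0) [nat_lit 28564] false,
   Spec.mk (nat_lit 8900) (nat_lit 1) [nat_lit 22022, nat_lit 4526, nat_lit 13274, nat_lit 7442, nat_lit 9062, nat_lit 8954, nat_lit 8882, nat_lit 8906] (nat_lit 0) [nat_lit 28582] false,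
   Spec.mk (nat_lit 8906) (nat_lit 1) [nat_lit 22028, nat_lit 4532, nat_lit 13280, nat_lit 7448, nat_lit 9068, nat_lit 8960, nat_lit 8900, nat_lit 8908] (nat_lit 0) [nat_lit 28588] false,
   Spec.mk (nat_lit 8908) (nat_lit 3) [nat_lit 22030, nat_lit 4534, nat_lit 13282, nat_lit 7450, nat_lit 9070, nat_lit 8962, nat_lit 8906] (nat_lit 0) [nat_lit 28590] false,
   Spec.mk (nat_lit 8936) (nat_lit 0) [nat_lit 22058, nat_lit 4562, nat_lit 13310, nat_lit 7478, nat_lit 9098, nat_lit 8882, nat_lit 8954] (nat_lit 1) [nat_lit 28618] false,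
   Spec.mk (nat_lit 8954) (nat_lit 0) [nat_lit 22076, nat_lit 4580, nat_lit 13328, nat_lit 7496, nat_lit 9116, nat_lit 8900, nat_lit 8936, nat_lit 8972, nat_lit 8960] (nat_lit 0) [nat_lit 28636] false,
   Spec.mk (nat_lit 8960) (nat_lit 0) [nat_lit 22082, nat_lit 4586, nat_lit 13334, nat_lit 7502, nat_lit 9122, nat_lit 8906, nat_lit 8978, nat_lit 8954, nat_lit 8962] (nat_lit 1) [nat_lit 28642] false,
   Spec.mk (nat_lit 8962) (nat_lit 1) [nat_lit 22084, nat_lit 4588, nat_lit 13336, nat_lit 7504, nat_lit 9124, nat_lit 8908, nat_lit 8980, nat_lit 8960] (nat_lit 0) [nat_lit 28644] false,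
   Spec.mk (nat_lit 8972) (nat_lit 0) [nat_lit 22094, nat_lit 4598, nat_lit 13346, nat_lit 7514, nat_lit 9134, nat_lit 8954, nat_lit 8978] (nat_lit 1) [nat_lit 28654] false,
   Spec.mk (nat_lit 8978) (nat_lit 0) [nat_lit 22100, nat_lit 4604, nat_lit 13352, nat_lit 7520, nat_lit 9140, nat_lit 8960, nat_lit 8972, nat_lit 8984, nat_lit 8980] (nat_lit 0) [nat_lit 28660] false,
   Spec.mk (nat_lit 8980) (nat_lit 1) [nat_lit 22102, nat_lit 4606, nat_lit 13354, nat_lit 7522, nat_lit 9142, nat_lit 8962, nat_lit 8986, nat_lit 8978] (nat_lit 0) [nat_lit 28662] false,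
   Spec.mk (nat_lit 8984) (nat_lit 0) [nat_lit 22106, nat_lit 4610, nat_lit 13358, nat_lit 7526, nat_lit 9146, nat_lit 8978, nat_lit 8986] (nat_lit 1) [nat_lit 28666] false,
   Spec.mk (nat_lit 8986) (nat_lit 2) [nat_lit 22108, nat_lit 4612, nat_lit 13360, nat_lit 7528, nat_lit 9148, nat_lit 8980, nat_lit 8984, nat_lit 8988] (nat_lit 0) [nat_lit 28668] false,
   Spec.mk (nat_lit 8988) (nat_lit 3) [nat_lit 22110, nat_lit 4614, nat_lit 13362, nat_lit 7530, nat_lit 9150, nat_lit 8986] (nat_lit 0) [] false,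
   Spec.mk (nat_lit 9044) (nat_lit 1) [nat_lit 22166, nat_lit 4670, nat_lit 13418, nat_lit 7586, nat_lit 9530, nat_lit 8882, nat_lit 9098, nat_lit 9062] (nat_lit 0) [nat_lit 28726] false,
   Spec.mk (nat_lit 9062) (nat_lit 0) [nat_lit 22184, nat_lit 4688, nat_lit 13436, nat_lit 7604, nat_lit 9548, nat_lit 8900, nat_lit 9116, nat_lit 9044, nat_lit 9068] (nat_lit 1) [nat_lit 28744] false,
   Spec.mk (nat_lit 9068) (nat_lit 0) [nat_lit 22190, nat_lit 4694, nat_lit 13442, nat_lit 7610, nat_lit 9554, nat_lit 8906, nat_lit 9122, nat_lit 9062, nat_lit 9070] (nat_lit 1) [nat_lit 28750] false,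
   Spec.mk (nat_lit 9070) (nat_lit 1) [nat_lit 22192, nat_lit 4696, nat_lit 13444, nat_lit 7612, nat_lit 9556, nat_lit 8908, nat_lit 9124, nat_lit 9068] (nat_lit 0) [nat_lit 28752] false,
   Spec.mk (nat_lit 9098) (nat_lit 0) [nat_lit 22220, nat_lit 4724, nat_lit 13472, nat_lit 7640, nat_lit 9584, nat_lit 8936, nat_lit 9260, nat_lit 9044, nat_lit 9116] (nat_lit 0) [nat_lit 28780] false,
   Spec.mk (nat_lit 9116) (nat_lit 0) [nat_lit 22238, nat_lit 4742, nat_lit 13490, nat_lit 7658, nat_lit 9602, nat_lit 8954, nat_lit 9278, nat_lit 9062, nat_lit 9170, nat_lit 9098, nat_lit 9134, nat_lit 9122] (nat_lit 0) [nat_lit 28798] false,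
   Spec.mk (nat_lit 9122) (nat_lit 0) [nat_lit 22244, nat_lit 4748, nat_lit 13496, nat_lit 7664, nat_lit 9608, nat_lit 8960, nat_lit 9284, nat_lit 9068, nat_lit 9176, nat_lit 9140, nat_lit 9116, nat_lit 9124] (nat_lit 1) [nat_lit 28804] false,
   Spec.mk (nat_lit 9124) (nat_lit 1) [nat_lit 22246, nat_lit 4750, nat_lit 13498, nat_lit 7666, nat_lit 9610, nat_lit 8962, nat_lit 9286, nat_lit 9070, nat_lit 9178, nat_lit 9142, nat_lit 9122] (nat_lit 0) [nat_lit 28806] false,
   Spec.mk (nat_lit 9134) (nat_lit 0) [nat_lit 22256, nat_lit 4760, nat_lit 13508, nat_lit 7676, nat_lit 9620, nat_lit 8972, nat_lit 9296, nat_lit 9188, nat_lit 9116, nat_lit 9140] (nat_lit 2) [nat_lit 28816] false,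
   Spec.mk (nat_lit 9140) (nat_lit 0) [nat_lit 22262, nat_lit 4766, nat_lit 13514, nat_lit 7682, nat_lit 9626, nat_lit 8978, nat_lit 9302, nat_lit 9194, nat_lit 9122, nat_lit 9134, nat_lit 9146, nat_lit 9142] (nat_lit 1) [nat_lit 28822] true,
   Spec.mk (nat_lit 9142) (nat_lit 0) [nat_lit 22264, nat_lit 4768, nat_lit 13516, nat_lit 7684, nat_lit 9628, nat_lit 8980, nat_lit 9304, nat_lit 9196, nat_lit 9124, nat_lit 9148, nat_lit 9140] (nat_lit 0) [nat_lit 28824] false,
   Spec.mk (nat_lit 9146) (nat_lit 0) [nat_lit 22268, nat_lit 4772, nat_lit 13520, nat_lit 7688, nat_lit 9632, nat_lit 8984, nat_lit 9308, nat_lit 9200, nat_lit 9140, nat_lit 9148] (nat_lit 2) [nat_lit 28828] false,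
   Spec.mk (nat_lit 9148) (nat_lit 1) [nat_lit 22270, nat_lit 4774, nat_lit 13522, nat_lit 7690, nat_lit 9634, nat_lit 8986, nat_lit 9310, nat_lit 9202, nat_lit 9142, nat_lit 9146, nat_lit 9150] (nat_lit 0) [nat_lit 28830] false,
   Spec.mk (nat_lit 9150) (nat_lit 2) [nat_lit 22272, nat_lit 4776, nat_lit 13524, nat_lit 7692, nat_lit 9636, nat_lit 8988, nat_lit 9312, nat_lit 9204, nat_lit 9148] (nat_lit 0) [] false,
   Spec.mk (nat_lit 9170) (nat_lit 0) [nat_lit 22292, nat_lit 4796, nat_lit 13544, nat_lit 7712, nat_lit 9656, nat_lit 9332, nat_lit 9116, nat_lit 9188, nat_lit 9176] (nat_lit 1) [nat_lit 28852] false]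

noncomputable def sp18 : List Spec :=
  [Spec.mk (nat_lit 9176) (nat_lit 0) [nat_lit 22298, nat_lit 4802, nat_lit 13550, nat_lit 7718, nat_lit 9662, nat_lit 9338, nat_lit 9122, nat_lit 9194, nat_lit 9170, nat_lit 9178] (nat_lit 3) [nat_lit 28858] false,
   Spec.mk (nat_lit 9178) (nat_lit 0) [nat_lit 22300, nat_lit 4804, nat_lit 13552, nat_lit 7720, nat_lit 9664, nat_lit 9340, nat_lit 9124, nat_lit 9196, nat_lit 9176] (nat_lit 1) [nat_lit 28860] false,
   Spec.mk (nat_lit 9188) (nat_lit 0) [nat_lit 22310, nat_lit 4814, nat_lit 13562, nat_lit 7730, nat_lit 9674, nat_lit 9350, nat_lit 9134, nat_lit 9170, nat_lit 9194] (nat_lit 1) [nat_lit 28870] false,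
   Spec.mk (nat_lit 9194) (nat_lit 0) [nat_lit 22316, nat_lit 4820, nat_lit 13568, nat_lit 7736, nat_lit 9680, nat_lit 9356, nat_lit 9140, nat_lit 9176, nat_lit 9212, nat_lit 9188, nat_lit 9200, nat_lit 9196] (nat_lit 1) [nat_lit 28876] true,
   Spec.mk (nat_lit 9196) (nat_lit 0) [nat_lit 22318, nat_lit 4822, nat_lit 13570, nat_lit 7738, nat_lit 9682, nat_lit 9358, nat_lit 9142, nat_lit 9178, nat_lit 9214, nat_lit 9202, nat_lit 9194] (nat_lit 0) [nat_lit 28878] true,
   Spec.mk (nat_lit 9200) (nat_lit 0) [nat_lit 22322, nat_lit 4826, nat_lit 13574, nat_lit 7742, nat_lit 9686, nat_lit 9362, nat_lit 9146, nat_lit 9218, nat_lit 9194, nat_lit 9202] (nat_lit 3) [nat_lit 28882] false,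
   Spec.mk (nat_lit 9202) (nat_lit 0) [nat_lit 22324, nat_lit 4828, nat_lit 13576, nat_lit 7744, nat_lit 9688, nat_lit 9364, nat_lit 9148, nat_lit 9220, nat_lit 9196, nat_lit 9200, nat_lit 9204] (nat_lit 0) [nat_lit 28884] false,
   Spec.mk (nat_lit 9204) (nat_lit 1) [nat_lit 22326, nat_lit 4830, nat_lit 13578, nat_lit 7746, nat_lit 9690, nat_lit 9366, nat_lit 9150, nat_lit 9222, nat_lit 9202] (nat_lit 0) [] false,
   Spec.mk (nat_lit 9212) (nat_lit 0) [nat_lit 22334, nat_lit 4838, nat_lit 13586, nat_lit 7754, nat_lit 9698, nat_lit 9374, nat_lit 9194, nat_lit 9218, nat_lit 9214] (nat_lit 1) [nat_lit 28894] false,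
   Spec.mk (nat_lit 9214) (nat_lit 0) [nat_lit 22336, nat_lit 4840, nat_lit 13588, nat_lit 7756, nat_lit 9700, nat_lit 9376, nat_lit 9196, nat_lit 9220, nat_lit 9212] (nat_lit 1) [nat_lit 28896] false,
   Spec.mk (nat_lit 9218) (nat_lit 0) [nat_lit 22340, nat_lit 4844, nat_lit 13592, nat_lit 7760, nat_lit 9704, nat_lit 9380, nat_lit 9200, nat_lit 9212, nat_lit 9220] (nat_lit 1) [nat_lit 28900] false,
   Spec.mk (nat_lit 9220) (nat_lit 1) [nat_lit 22342, nat_lit 4846, nat_lit 13594, nat_lit 7762, nat_lit 9706, nat_lit 9382, nat_lit 9202, nat_lit 9214, nat_lit 9226, nat_lit 9218, nat_lit 9222] (nat_lit 0) [nat_lit 28902] false,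
   Spec.mk (nat_lit 9222) (nat_lit 1) [nat_lit 22344, nat_lit 4848, nat_lit 13596, nat_lit 7764, nat_lit 9708, nat_lit 9384, nat_lit 9204, nat_lit 9228, nat_lit 9220] (nat_lit 0) [] false,
   Spec.mk (nat_lit 9226) (nat_lit 1) [nat_lit 22348, nat_lit 4852, nat_lit 13600, nat_lit 7768, nat_lit 9712, nat_lit 9388, nat_lit 9220, nat_lit 9228] (nat_lit 0) [nat_lit 28908] false,
   Spec.mk (nat_lit 9228) (nat_lit 3) [nat_lit 22350, nat_lit 4854, nat_lit 13602, nat_lit 7770, nat_lit 9714, nat_lit 9390, nat_lit 9222, nat_lit 9226] (nat_lit 0) [] false,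
   Spec.mk (nat_lit 9260) (nat_lit 0) [nat_lit 22382, nat_lit 4886, nat_lit 13634, nat_lit 7802, nat_lit 9746, nat_lit 9098, nat_lit 9278] (nat_lit 1) [nat_lit 28942] false,
   Spec.mk (nat_lit 9278) (nat_lit 0) [nat_lit 22400, nat_lit 4904, nat_lit 13652, nat_lit 7820, nat_lit 9764, nat_lit 9116, nat_lit 9332, nat_lit 9260, nat_lit 9296, nat_lit 9284] (nat_lit 2) [nat_lit 28960] false,
   Spec.mk (nat_lit 9284) (nat_lit 0) [nat_lit 22406, nat_lit 4910, nat_lit 13658, nat_lit 7826, nat_lit 9770, nat_lit 9122, nat_lit 9338, nat_lit 9302, nat_lit 9278, nat_lit 9286] (nat_lit 3) [nat_lit 28966] false,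
   Spec.mk (nat_lit 9286) (nat_lit 0) [nat_lit 22408, nat_lit 4912, nat_lit 13660, nat_lit 7828, nat_lit 9772, nat_lit 9124, nat_lit 9340, nat_lit 9304, nat_lit 9284] (nat_lit 1) [nat_lit 28968] false,
   Spec.mk (nat_lit 9296) (nat_lit 0) [nat_lit 22418, nat_lit 4922, nat_lit 13670, nat_lit 7838, nat_lit 9782, nat_lit 9134, nat_lit 9350, nat_lit 9278, nat_lit 9302] (nat_lit 5) [nat_lit 28978] false,
   Spec.mk (nat_lit 9302) (nat_lit 0) [nat_lit 22424, nat_lit 4928, nat_lit 13676, nat_lit 7844, nat_lit 9788, nat_lit 9140, nat_lit 9356, nat_lit 9284, nat_lit 9296, nat_lit 9308, nat_lit 9304] (nat_lit 4) [nat_lit 28984] true,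
   Spec.mk (nat_lit 9304) (nat_lit 0) [nat_lit 22426, nat_lit 4930, nat_lit 13678, nat_lit 7846, nat_lit 9790, nat_lit 9142, nat_lit 9358, nat_lit 9286, nat_lit 9310, nat_lit 9302] (nat_lit 3) [nat_lit 28986] false,
   Spec.mk (nat_lit 9308) (nat_lit 0) [nat_lit 22430, nat_lit 4934, nat_lit 13682, nat_lit 7850, nat_lit 9794, nat_lit 9146, nat_lit 9362, nat_lit 9302, nat_lit 9310] (nat_lit 5) [nat_lit 28990] false,
   Spec.mk (nat_lit 9310) (nat_lit 0) [nat_lit 22432, nat_lit 4936, nat_lit 13684, nat_lit 7852, nat_lit 9796, nat_lit 9148, nat_lit 9364, nat_lit 9304, nat_lit 9308, nat_lit 9312] (nat_lit 2) [nat_lit 28992] false,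
   Spec.mk (nat_lit 9312) (nat_lit 0) [nat_lit 22434, nat_lit 4938, nat_lit 13686, nat_lit 7854, nat_lit 9798, nat_lit 9150, nat_lit 9366, nat_lit 9310] (nat_lit 1) [] false,
   Spec.mk (nat_lit 9332) (nat_lit 0) [nat_lit 22454, nat_lit 4958, nat_lit 13706, nat_lit 7874, nat_lit 9818, nat_lit 9170, nat_lit 9278, nat_lit 9350, nat_lit 9338] (nat_lit 1) [nat_lit 29014] false,
   Spec.mk (nat_lit 9338) (nat_lit 0) [nat_lit 22460, nat_lit 4964, nat_lit 13712, nat_lit 7880, nat_lit 9824, nat_lit 9176, nat_lit 9284, nat_lit 9356, nat_lit 9332, nat_lit 9340] (nat_lit 3) [nat_lit 29020] false,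
   Spec.mk (nat_lit 9340) (nat_lit 0) [nat_lit 22462, nat_lit 4966, nat_lit 13714, nat_lit 7882, nat_lit 9826, nat_lit 9178, nat_lit 9286, nat_lit 9358, nat_lit 9338] (nat_lit 1) [nat_lit 29022] false,
   Spec.mk (nat_lit 9350) (nat_lit 0) [nat_lit 22472, nat_lit 4976, nat_lit 13724, nat_lit 7892, nat_lit 9836, nat_lit 9188, nat_lit 9296, nat_lit 9404, nat_lit 9332, nat_lit 9356] (nat_lit 2) [nat_lit 29032] false,
   Spec.mk (nat_lit 9356) (nat_lit 0) [nat_lit 22478, nat_lit 4982, nat_lit 13730, nat_lit 7898, nat_lit 9842, nat_lit 9194, nat_lit 9302, nat_lit 9410, nat_lit 9338, nat_lit 9374, nat_lit 9350, nat_lit 9362, nat_lit 9358] (nat_lit 2) [nat_lit 29038] true,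
   Spec.mk (nat_lit 9358) (nat_lit 0) [nat_lit 22480, nat_lit 4984, nat_lit 13732, nat_lit 7900, nat_lit 9844, nat_lit 9196, nat_lit 9304, nat_lit 9412, nat_lit 9340, nat_lit 9376, nat_lit 9364, nat_lit 9356] (nat_lit 1) [nat_lit 29040] false,
   Spec.mk (nat_lit 9362) (nat_lit 0) [nat_lit 22484, nat_lit 4988, nat_lit 13736, nat_lit 7904, nat_lit 9848, nat_lit 9200, nat_lit 9308, nat_lit 9416, nat_lit 9380, nat_lit 9356, nat_lit 9364] (nat_lit 4) [nat_lit 29044] false,
   Spec.mk (nat_lit 9364) (nat_lit 0) [nat_lit 22486, nat_lit 4990, nat_lit 13738, nat_lit 7906, nat_lit 9850, nat_lit 9202, nat_lit 9310, nat_lit 9418, nat_lit 9382, nat_lit 9358, nat_lit 9362, nat_lit 9366] (nat_lit 1) [nat_lit 29046] false,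
   Spec.mk (nat_lit 9366) (nat_lit 0) [nat_lit 22488, nat_lit 4992, nat_lit 13740, nat_lit 7908, nat_lit 9852, nat_lit 9204, nat_lit 9312, nat_lit 9420, nat_lit 9384, nat_lit 9364] (nat_lit 0) [] false,
   Spec.mk (nat_lit 9374) (nat_lit 0) [nat_lit 22496, nat_lit 5000, nat_lit 13748, nat_lit 7916, nat_lit 9860, nat_lit 9212, nat_lit 9428, nat_lit 9356, nat_lit 9380, nat_lit 9376] (nat_lit 3) [nat_lit 29056] false,
   Spec.mk (nat_lit 9376) (nat_lit 0) [nat_lit 22498, nat_lit 5002, nat_lit 13750, nat_lit 7918, nat_lit 9862, nat_lit 9214, nat_lit 9430, nat_lit 9358, nat_lit 9382, nat_lit 9374] (nat_lit 3) [nat_lit 29058] false,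
   Spec.mk (nat_lit 9380) (nat_lit 0) [nat_lit 22502, nat_lit 5006, nat_lit 13754, nat_lit 7922, nat_lit 9866, nat_lit 9218, nat_lit 9434, nat_lit 9362, nat_lit 9374, nat_lit 9382] (nat_lit 3) [nat_lit 29062] false,
   Spec.mk (nat_lit 9382) (nat_lit 0) [nat_lit 22504, nat_lit 5008, nat_lit 13756, nat_lit 7924, nat_lit 9868, nat_lit 9220, nat_lit 9436, nat_lit 9364, nat_lit 9376, nat_lit 9388, nat_lit 9380, nat_lit 9384] (nat_lit 1) [nat_lit 29064] false,
   Spec.mk (nat_lit 9384) (nat_lit 0) [nat_lit 22506, nat_lit 5010, nat_lit 13758, nat_lit 7926, nat_lit 9870, nat_lit 9222, nat_lit 9438, nat_lit 9366, nat_lit 9390, nat_lit 9382] (nat_lit 1) [] false,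
   Spec.mk (nat_lit 9388) (nat_lit 0) [nat_lit 22510, nat_lit 5014, nat_lit 13762, nat_lit 7930, nat_lit 9874, nat_lit 9226, nat_lit 9442, nat_lit 9382, nat_lit 9390] (nat_lit 1) [nat_lit 29070] false,
   Spec.mk (nat_lit 9390) (nat_lit 1) [nat_lit 22512, nat_lit 5016, nat_lit 13764, nat_lit 7932, nat_lit 9876, nat_lit 9228, nat_lit 9444, nat_lit 9384, nat_lit 9388] (nat_lit 0) [] false,
   Spec.mk (nat_lit 9404) (nat_lit 0) [nat_lit 22526, nat_lit 5030, nat_lit 13778, nat_lit 7946, nat_lit 9890, nat_lit 9350, nat_lit 9410] (nat_lit 1) [nat_lit 29086] false,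
   Spec.mk (nat_lit 9410) (nat_lit 0) [nat_lit 22532, nat_lit 5036, nat_lit 13784, nat_lit 7952, nat_lit 9896, nat_lit 9356, nat_lit 9428, nat_lit 9404, nat_lit 9416, nat_lit 9412] (nat_lit 2) [nat_lit 29092] false,
   Spec.mk (nat_lit 9412) (nat_lit 0) [nat_lit 22534, nat_lit 5038, nat_lit 13786, nat_lit 7954, nat_lit 9898, nat_lit 9358, nat_lit 9430, nat_lit 9418, nat_lit 9410] (nat_lit 1) [nat_lit 29094] false,
   Spec.mk (nat_lit 9416) (nat_lit 0) [nat_lit 22538, nat_lit 5042, nat_lit 13790, nat_lit 7958, nat_lit 9902, nat_lit 9362, nat_lit 9434, nat_lit 9410, nat_lit 9418] (nat_lit 5) [nat_lit 29098] false,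
   Spec.mk (nat_lit 9418) (nat_lit 0) [nat_lit 22540, nat_lit 5044, nat_lit 13792, nat_lit 7960, nat_lit 9904, nat_lit 9364, nat_lit 9436, nat_lit 9412, nat_lit 9416, nat_lit 9420] (nat_lit 2) [nat_lit 29100] false,
   Spec.mk (nat_lit 9420) (nat_lit 0) [nat_lit 22542, nat_lit 5046, nat_lit 13794, nat_lit 7962, nat_lit 9906, nat_lit 9366, nat_lit 9438, nat_lit 9418] (nat_lit 1) [] false,
   Spec.mk (nat_lit 9428) (nat_lit 0) [nat_lit 22550, nat_lit 5054, nat_lit 13802, nat_lit 7970, nat_lit 9914, nat_lit 9374, nat_lit 9410, nat_lit 9434, nat_lit 9430] (nat_lit 1) [nat_lit 29110] false,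
   Spec.mk (nat_lit 9430) (nat_lit 0) [nat_lit 22552, nat_lit 5056, nat_lit 13804, nat_lit 7972, nat_lit 9916, nat_lit 9376, nat_lit 9412, nat_lit 9436, nat_lit 9428] (nat_lit 1) [nat_lit 29112] false,
   Spec.mk (nat_lit 9434) (nat_lit 0) [nat_lit 22556, nat_lit 5060, nat_lit 13808, nat_lit 7976, nat_lit 9920, nat_lit 9380, nat_lit 9416, nat_lit 9452, nat_lit 9428, nat_lit 9436] (nat_lit 2) [nat_lit 29116] false,
   Spec.mk (nat_lit 9436) (nat_lit 0) [nat_lit 22558, nat_lit 5062, nat_lit 13810, nat_lit 7978, nat_lit 9922, nat_lit 9382, nat_lit 9418, nat_lit 9454, nat_lit 9430, nat_lit 9442, nat_lit 9434, nat_lit 9438] (nat_lit 0) [nat_lit 29118] false,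
   Spec.mk (nat_lit 9438) (nat_lit 0) [nat_lit 22560, nat_lit 5064, nat_lit 13812, nat_lit 7980, nat_lit 9924, nat_lit 9384, nat_lit 9420, nat_lit 9456, nat_lit 9444, nat_lit 9436] (nat_lit 0) [] false,
   Spec.mk (nat_lit 9442) (nat_lit 0) [nat_lit 22564, nat_lit 5068, nat_lit 13816, nat_lit 7984, nat_lit 9928, nat_lit 9388, nat_lit 9460, nat_lit 9436, nat_lit 9444] (nat_lit 1) [nat_lit 29124] false,
   Spec.mk (nat_lit 9444) (nat_lit 1) [nat_lit 22566, nat_lit 5070, nat_lit 13818, nat_lit 7986, nat_lit 9930, nat_lit 9390, nat_lit 9462, nat_lit 9438, nat_lit 9442] (nat_lit 0) [] false,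
   Spec.mk (nat_lit 9452) (nat_lit 0) [nat_lit 22574, nat_lit 5078, nat_lit 13826, nat_lit 7994, nat_lit 9938, nat_lit 9434, nat_lit 9454] (nat_lit 1) [nat_lit 29134] false,
   Spec.mk (nat_lit 9454) (nat_lit 0) [nat_lit 22576, nat_lit 5080, nat_lit 13828, nat_lit 7996, nat_lit 9940, nat_lit 9436, nat_lit 9460, nat_lit 9452, nat_lit 9456] (nat_lit 0) [nat_lit 29136] false,
   Spec.mk (nat_lit 9456) (nat_lit 0) [nat_lit 22578, nat_lit 5082, nat_lit 13830, nat_lit 7998, nat_lit 9942, nat_lit 9438, nat_lit 9462, nat_lit 9454] (nat_lit 1) [] false,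
   Spec.mk (nat_lit 9460) (nat_lit 1) [nat_lit 22582, nat_lit 5086, nat_lit 13834, nat_lit 8002, nat_lit 9946, nat_lit 9442, nat_lit 9454, nat_lit 9462] (nat_lit 0) [nat_lit 29142] false,
   Spec.mk (nat_lit 9462) (nat_lit 2) [nat_lit 22584, nat_lit 5088, nat_lit 13836, nat_lit 8004, nat_lit 9948, nat_lit 9444, nat_lit 9456, nat_lit 9468, nat_lit 9460] (nat_lit 0) [] false,
   Spec.mk (nat_lit 9468) (nat_lit 3) [nat_lit 22590, nat_lit 5094, nat_lit 13842, nat_lit 8010, nat_lit 9954, nat_lit 9462] (nat_lit 0) [] false]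

noncomputable def sp19 : List Spec :=
  [Spec.mk (nat_lit 9530) (nat_lit 2) [nat_lit 22652, nat_lit 5156, nat_lit 13904, nat_lit 8072, nat_lit 10988, nat_lit 9044, nat_lit 9584, nat_lit 9548] (nat_lit 0) [nat_lit 29212] false,
   Spec.mk (nat_lit 9548) (nat_lit 0) [nat_lit 22670, nat_lit 5174, nat_lit 13922, nat_lit 8090, nat_lit 11006, nat_lit 9062, nat_lit 9602, nat_lit 9530, nat_lit 9554] (nat_lit 0) [nat_lit 29230] false,
   Spec.mk (nat_lit 9554) (nat_lit 0) [nat_lit 22676, nat_lit 5180, nat_lit 13928, nat_lit 8096, nat_lit 11012, nat_lit 9068, nat_lit 9608, nat_lit 9548, nat_lit 9556] (nat_lit 0) [nat_lit 29236] false,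
   Spec.mk (nat_lit 9556) (nat_lit 2) [nat_lit 22678, nat_lit 5182, nat_lit 13930, nat_lit 8098, nat_lit 11014, nat_lit 9070, nat_lit 9610, nat_lit 9554] (nat_lit 0) [nat_lit 29238] false,
   Spec.mk (nat_lit 9584) (nat_lit 0) [nat_lit 22706, nat_lit 5210, nat_lit 13958, nat_lit 8126, nat_lit 11042, nat_lit 9098, nat_lit 9746, nat_lit 9530, nat_lit 9602] (nat_lit 0) [nat_lit 29266] false,
   Spec.mk (nat_lit 9602) (nat_lit 0) [nat_lit 22724, nat_lit 5228, nat_lit 13976, nat_lit 8144, nat_lit 11060, nat_lit 9116, nat_lit 9764, nat_lit 9548, nat_lit 9656, nat_lit 9584, nat_lit 9620, nat_lit 9608] (nat_lit 0) [nat_lit 29284] false,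
   Spec.mk (nat_lit 9608) (nat_lit 0) [nat_lit 22730, nat_lit 5234, nat_lit 13982, nat_lit 8150, nat_lit 11066, nat_lit 9122, nat_lit 9770, nat_lit 9554, nat_lit 9662, nat_lit 9626, nat_lit 9602, nat_lit 9610] (nat_lit 1) [nat_lit 29290] false,
   Spec.mk (nat_lit 9610) (nat_lit 1) [nat_lit 22732, nat_lit 5236, nat_lit 13984, nat_lit 8152, nat_lit 11068, nat_lit 9124, nat_lit 9772, nat_lit 9556, nat_lit 9664, nat_lit 9628, nat_lit 9608] (nat_lit 0) [nat_lit 29292] false,
   Spec.mk (nat_lit 9620) (nat_lit 0) [nat_lit 22742, nat_lit 5246, nat_lit 13994, nat_lit 8162, nat_lit 11078, nat_lit 9134, nat_lit 9782, nat_lit 9674, nat_lit 9602, nat_lit 9626] (nat_lit 2) [nat_lit 29302] false,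
   Spec.mk (nat_lit 9626) (nat_lit 0) [nat_lit 22748, nat_lit 5252, nat_lit 14000, nat_lit 8168, nat_lit 11084, nat_lit 9140, nat_lit 9788, nat_lit 9680, nat_lit 9608, nat_lit 9620, nat_lit 9632, nat_lit 9628] (nat_lit 1) [nat_lit 29308] false,
   Spec.mk (nat_lit 9628) (nat_lit 0) [nat_lit 22750, nat_lit 5254, nat_lit 14002, nat_lit 8170, nat_lit 11086, nat_lit 9142, nat_lit 9790, nat_lit 9682, nat_lit 9610, nat_lit 9634, nat_lit 9626] (nat_lit 0) [nat_lit 29310] false,
   Spec.mk (nat_lit 9632) (nat_lit 0) [nat_lit 22754, nat_lit 5258, nat_lit 14006, nat_lit 8174, nat_lit 11090, nat_lit 9146, nat_lit 9794, nat_lit 9686, nat_lit 9626, nat_lit 9634] (nat_lit 2) [nat_lit 29314] false,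
   Spec.mk (nat_lit 9634) (nat_lit 1) [nat_lit 22756, nat_lit 5260, nat_lit 14008, nat_lit 8176, nat_lit 11092, nat_lit 9148, nat_lit 9796, nat_lit 9688, nat_lit 9628, nat_lit 9632, nat_lit 9636] (nat_lit 0) [nat_lit 29316] false,
   Spec.mk (nat_lit 9636) (nat_lit 2) [nat_lit 22758, nat_lit 5262, nat_lit 14010, nat_lit 8178, nat_lit 11094, nat_lit 9150, nat_lit 9798, nat_lit 9690, nat_lit 9634] (nat_lit 0) [] false,
   Spec.mk (nat_lit 9656) (nat_lit 0) [nat_lit 22778, nat_lit 5282, nat_lit 14030, nat_lit 8198, nat_lit 11114, nat_lit 9170, nat_lit 9818, nat_lit 9602, nat_lit 9674, nat_lit 9662] (nat_lit 2) [nat_lit 29338] false,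
   Spec.mk (nat_lit 9662) (nat_lit 0) [nat_lit 22784, nat_lit 5288, nat_lit 14036, nat_lit 8204, nat_lit 11120, nat_lit 9176, nat_lit 9824, nat_lit 9608, nat_lit 9680, nat_lit 9656, nat_lit 9664] (nat_lit 4) [nat_lit 29344] false,
   Spec.mk (nat_lit 9664) (nat_lit 0) [nat_lit 22786, nat_lit 5290, nat_lit 14038, nat_lit 8206, nat_lit 11122, nat_lit 9178, nat_lit 9826, nat_lit 9610, nat_lit 9682, nat_lit 9662] (nat_lit 2) [nat_lit 29346] false,
   Spec.mk (nat_lit 9674) (nat_lit 0) [nat_lit 22796, nat_lit 5300, nat_lit 14048, nat_lit 8216, nat_lit 11132, nat_lit 9188, nat_lit 9836, nat_lit 9620, nat_lit 9656, nat_lit 9680] (nat_lit 2) [nat_lit 29356] false,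
   Spec.mk (nat_lit 9680) (nat_lit 0) [nat_lit 22802, nat_lit 5306, nat_lit 14054, nat_lit 8222, nat_lit 11138, nat_lit 9194, nat_lit 9842, nat_lit 9626, nat_lit 9662, nat_lit 9698, nat_lit 9674, nat_lit 9686, nat_lit 9682] (nat_lit 2) [nat_lit 29362] true,
   Spec.mk (nat_lit 9682) (nat_lit 0) [nat_lit 22804, nat_lit 5308, nat_lit 14056, nat_lit 8224, nat_lit 11140, nat_lit 9196, nat_lit 9844, nat_lit 9628, nat_lit 9664, nat_lit 9700, nat_lit 9688, nat_lit 9680] (nat_lit 1) [nat_lit 29364] false,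
   Spec.mk (nat_lit 9686) (nat_lit 0) [nat_lit 22808, nat_lit 5312, nat_lit 14060, nat_lit 8228, nat_lit 11144, nat_lit 9200, nat_lit 9848, nat_lit 9632, nat_lit 9704, nat_lit 9680, nat_lit 9688] (nat_lit 4) [nat_lit 29368] false,
   Spec.mk (nat_lit 9688) (nat_lit 0) [nat_lit 22810, nat_lit 5314, nat_lit 14062, nat_lit 8230, nat_lit 11146, nat_lit 9202, nat_lit 9850, nat_lit 9634, nat_lit 9706, nat_lit 9682, nat_lit 9686, nat_lit 9690] (nat_lit 1) [nat_lit 29370] false,
   Spec.mk (nat_lit 9690) (nat_lit 0) [nat_lit 22812, nat_lit 5316, nat_lit 14064, nat_lit 8232, nat_lit 11148, nat_lit 9204, nat_lit 9852, nat_lit 9636, nat_lit 9708, nat_lit 9688] (nat_lit 0) [] false,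
   Spec.mk (nat_lit 9698) (nat_lit 0) [nat_lit 22820, nat_lit 5324, nat_lit 14072, nat_lit 8240, nat_lit 11156, nat_lit 9212, nat_lit 9860, nat_lit 9680, nat_lit 9704, nat_lit 9700] (nat_lit 2) [nat_lit 29380] false,
   Spec.mk (nat_lit 9700) (nat_lit 0) [nat_lit 22822, nat_lit 5326, nat_lit 14074, nat_lit 8242, nat_lit 11158, nat_lit 9214, nat_lit 9862, nat_lit 9682, nat_lit 9706, nat_lit 9698] (nat_lit 2) [nat_lit 29382] false,
   Spec.mk (nat_lit 9704) (nat_lit 0) [nat_lit 22826, nat_lit 5330, nat_lit 14078, nat_lit 8246, nat_lit 11162, nat_lit 9218, nat_lit 9866, nat_lit 9686, nat_lit 9698, nat_lit 9706] (nat_lit 2) [nat_lit 29386] false,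
   Spec.mk (nat_lit 9706) (nat_lit 0) [nat_lit 22828, nat_lit 5332, nat_lit 14080, nat_lit 8248, nat_lit 11164, nat_lit 9220, nat_lit 9868, nat_lit 9688, nat_lit 9700, nat_lit 9712, nat_lit 9704, nat_lit 9708] (nat_lit 0) [nat_lit 29388] false,
   Spec.mk (nat_lit 9708) (nat_lit 0) [nat_lit 22830, nat_lit 5334, nat_lit 14082, nat_lit 8250, nat_lit 11166, nat_lit 9222, nat_lit 9870, nat_lit 9690, nat_lit 9714, nat_lit 9706] (nat_lit 0) [] false,
   Spec.mk (nat_lit 9712) (nat_lit 0) [nat_lit 22834, nat_lit 5338, nat_lit 14086, nat_lit 8254, nat_lit 11170, nat_lit 9226, nat_lit 9874, nat_lit 9706, nat_lit 9714] (nat_lit 0) [nat_lit 29394] false,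
   Spec.mk (nat_lit 9714) (nat_lit 2) [nat_lit 22836, nat_lit 5340, nat_lit 14088, nat_lit 8256, nat_lit 11172, nat_lit 9228, nat_lit 9876, nat_lit 9708, nat_lit 9712] (nat_lit 0) [] false,
   Spec.mk (nat_lit 9746) (nat_lit 1) [nat_lit 22868, nat_lit 5372, nat_lit 14120, nat_lit 8288, nat_lit 11204, nat_lit 9260, nat_lit 10232, nat_lit 9584, nat_lit 9764] (nat_lit 0) [nat_lit 29428] false,
   Spec.mk (nat_lit 9764) (nat_lit 0) [nat_lit 22886, nat_lit 5390, nat_lit 14138, nat_lit 8306, nat_lit 11222, nat_lit 9278, nat_lit 10250, nat_lit 9602, nat_lit 9818, nat_lit 9746, nat_lit 9782, nat_lit 9770] (nat_lit 0) [nat_lit 29446] false,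
   Spec.mk (nat_lit 9770) (nat_lit 0) [nat_lit 22892, nat_lit 5396, nat_lit 14144, nat_lit 8312, nat_lit 11228, nat_lit 9284, nat_lit 10256, nat_lit 9608, nat_lit 9824, nat_lit 9788, nat_lit 9764, nat_lit 9772] (nat_lit 1) [nat_lit 29452] false,
   Spec.mk (nat_lit 9772) (nat_lit 1) [nat_lit 22894, nat_lit 5398, nat_lit 14146, nat_lit 8314, nat_lit 11230, nat_lit 9286, nat_lit 10258, nat_lit 9610, nat_lit 9826, nat_lit 9790, nat_lit 9770] (nat_lit 0) [nat_lit 29454] false,
   Spec.mk (nat_lit 9782) (nat_lit 0) [nat_lit 22904, nat_lit 5408, nat_lit 14156, nat_lit 8324, nat_lit 11240, nat_lit 9296, nat_lit 10268, nat_lit 9620, nat_lit 9836, nat_lit 9764, nat_lit 9788] (nat_lit 3) [nat_lit 29464] false,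
   Spec.mk (nat_lit 9788) (nat_lit 0) [nat_lit 22910, nat_lit 5414, nat_lit 14162, nat_lit 8330, nat_lit 11246, nat_lit 9302, nat_lit 10274, nat_lit 9626, nat_lit 9842, nat_lit 9770, nat_lit 9782, nat_lit 9794, nat_lit 9790] (nat_lit 2) [nat_lit 29470] false,
   Spec.mk (nat_lit 9790) (nat_lit 0) [nat_lit 22912, nat_lit 5416, nat_lit 14164, nat_lit 8332, nat_lit 11248, nat_lit 9304, nat_lit 10276, nat_lit 9628, nat_lit 9844, nat_lit 9772, nat_lit 9796, nat_lit 9788] (nat_lit 1) [nat_lit 29472] false,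
   Spec.mk (nat_lit 9794) (nat_lit 0) [nat_lit 22916, nat_lit 5420, nat_lit 14168, nat_lit 8336, nat_lit 11252, nat_lit 9308, nat_lit 10280, nat_lit 9632, nat_lit 9848, nat_lit 9788, nat_lit 9796] (nat_lit 3) [nat_lit 29476] false,
   Spec.mk (nat_lit 9796) (nat_lit 0) [nat_lit 22918, nat_lit 5422, nat_lit 14170, nat_lit 8338, nat_lit 11254, nat_lit 9310, nat_lit 10282, nat_lit 9634, nat_lit 9850, nat_lit 9790, nat_lit 9794, nat_lit 9798] (nat_lit 0) [nat_lit 29478] false,
   Spec.mk (nat_lit 9798) (nat_lit 1) [nat_lit 22920, nat_lit 5424, nat_lit 14172, nat_lit 8340, nat_lit 11256, nat_lit 9312, nat_lit 10284, nat_lit 9636, nat_lit 9852, nat_lit 9796] (nat_lit 0) [] false,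
   Spec.mk (nat_lit 9818) (nat_lit 0) [nat_lit 22940, nat_lit 5444, nat_lit 14192, nat_lit 8360, nat_lit 11276, nat_lit 9332, nat_lit 10304, nat_lit 9656, nat_lit 9980, nat_lit 9764, nat_lit 9836, nat_lit 9824] (nat_lit 0) [nat_lit 29500] false,
   Spec.mk (nat_lit 9824) (nat_lit 0) [nat_lit 22946, nat_lit 5450, nat_lit 14198, nat_lit 8366, nat_lit 11282, nat_lit 9338, nat_lit 10310, nat_lit 9662, nat_lit 9986, nat_lit 9770, nat_lit 9842, nat_lit 9818, nat_lit 9826] (nat_lit 2) [nat_lit 29506] false,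
   Spec.mk (nat_lit 9826) (nat_lit 0) [nat_lit 22948, nat_lit 5452, nat_lit 14200, nat_lit 8368, nat_lit 11284, nat_lit 9340, nat_lit 10312, nat_lit 9664, nat_lit 9988, nat_lit 9772, nat_lit 9844, nat_lit 9824] (nat_lit 0) [nat_lit 29508] false,
   Spec.mk (nat_lit 9836) (nat_lit 0) [nat_lit 22958, nat_lit 5462, nat_lit 14210, nat_lit 8378, nat_lit 11294, nat_lit 9350, nat_lit 10322, nat_lit 9674, nat_lit 9998, nat_lit 9782, nat_lit 9890, nat_lit 9818, nat_lit 9842] (nat_lit 1) [nat_lit 29518] false,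
   Spec.mk (nat_lit 9842) (nat_lit 0) [nat_lit 22964, nat_lit 5468, nat_lit 14216, nat_lit 8384, nat_lit 11300, nat_lit 9356, nat_lit 10328, nat_lit 9680, nat_lit 10004, nat_lit 9788, nat_lit 9896, nat_lit 9824, nat_lit 9860, nat_lit 9836, nat_lit 9848, nat_lit 9844] (nat_lit 1) [nat_lit 29524] true,
   Spec.mk (nat_lit 9844) (nat_lit 0) [nat_lit 22966, nat_lit 5470, nat_lit 14218, nat_lit 8386, nat_lit 11302, nat_lit 9358, nat_lit 10330, nat_lit 9682, nat_lit 10006, nat_lit 9790, nat_lit 9898, nat_lit 9826, nat_lit 9862, nat_lit 9850, nat_lit 9842] (nat_lit 0) [nat_lit 29526] true,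
   Spec.mk (nat_lit 9848) (nat_lit 0) [nat_lit 22970, nat_lit 5474, nat_lit 14222, nat_lit 8390, nat_lit 11306, nat_lit 9362, nat_lit 10334, nat_lit 9686, nat_lit 10010, nat_lit 9794, nat_lit 9902, nat_lit 9866, nat_lit 9842, nat_lit 9850] (nat_lit 3) [nat_lit 29530] true,
   Spec.mk (nat_lit 9850) (nat_lit 0) [nat_lit 22972, nat_lit 5476, nat_lit 14224, nat_lit 8392, nat_lit 11308, nat_lit 9364, nat_lit 10336, nat_lit 9688, nat_lit 10012, nat_lit 9796, nat_lit 9904, nat_lit 9868, nat_lit 9844, nat_lit 9848, nat_lit 9852] (nat_lit 0) [nat_lit 29532] true,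
   Spec.mk (nat_lit 9852) (nat_lit 1) [nat_lit 22974, nat_lit 5478, nat_lit 14226, nat_lit 8394, nat_lit 11310, nat_lit 9366, nat_lit 10338, nat_lit 9690, nat_lit 10014, nat_lit 9798, nat_lit 9906, nat_lit 9870, nat_lit 9850] (nat_lit 0) [] false,
   Spec.mk (nat_lit 9860) (nat_lit 0) [nat_lit 22982, nat_lit 5486, nat_lit 14234, nat_lit 8402, nat_lit 11318, nat_lit 9374, nat_lit 10346, nat_lit 9698, nat_lit 10022, nat_lit 9914, nat_lit 9842, nat_lit 9866, nat_lit 9862] (nat_lit 2) [nat_lit 29542] true,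
   Spec.mk (nat_lit 9862) (nat_lit 0) [nat_lit 22984, nat_lit 5488, nat_lit 14236, nat_lit 8404, nat_lit 11320, nat_lit 9376, nat_lit 10348, nat_lit 9700, nat_lit 10024, nat_lit 9916, nat_lit 9844, nat_lit 9868, nat_lit 9860] (nat_lit 2) [nat_lit 29544] true,
   Spec.mk (nat_lit 9866) (nat_lit 0) [nat_lit 22988, nat_lit 5492, nat_lit 14240, nat_lit 8408, nat_lit 11324, nat_lit 9380, nat_lit 10352, nat_lit 9704, nat_lit 10028, nat_lit 9920, nat_lit 9848, nat_lit 9860, nat_lit 9868] (nat_lit 2) [nat_lit 29548] false,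
   Spec.mk (nat_lit 9868) (nat_lit 0) [nat_lit 22990, nat_lit 5494, nat_lit 14242, nat_lit 8410, nat_lit 11326, nat_lit 9382, nat_lit 10354, nat_lit 9706, nat_lit 10030, nat_lit 9922, nat_lit 9850, nat_lit 9862, nat_lit 9874, nat_lit 9866, nat_lit 9870] (nat_lit 0) [nat_lit 29550] true,
   Spec.mk (nat_lit 9870) (nat_lit 0) [nat_lit 22992, nat_lit 5496, nat_lit 14244, nat_lit 8412, nat_lit 11328, nat_lit 9384, nat_lit 10356, nat_lit 9708, nat_lit 10032, nat_lit 9924, nat_lit 9852, nat_lit 9876, nat_lit 9868] (nat_lit 0) [] false,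
   Spec.mk (nat_lit 9874) (nat_lit 0) [nat_lit 22996, nat_lit 5500, nat_lit 14248, nat_lit 8416, nat_lit 11332, nat_lit 9388, nat_lit 10360, nat_lit 9712, nat_lit 10036, nat_lit 9928, nat_lit 9868, nat_lit 9876] (nat_lit 0) [nat_lit 29556] false,
   Spec.mk (nat_lit 9876) (nat_lit 2) [nat_lit 22998, nat_lit 5502, nat_lit 14250, nat_lit 8418, nat_lit 11334, nat_lit 9390, nat_lit 10362, nat_lit 9714, nat_lit 10038, nat_lit 9930, nat_lit 9870, nat_lit 9874] (nat_lit 0) [] false,
   Spec.mk (nat_lit 9890) (nat_lit 0) [nat_lit 23012, nat_lit 5516, nat_lit 14264, nat_lit 8432, nat_lit 11348, nat_lit 9404, nat_lit 10376, nat_lit 10052, nat_lit 9836, nat_lit 9896] (nat_lit 1) [nat_lit 29572] false,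
   Spec.mk (nat_lit 9896) (nat_lit 0) [nat_lit 23018, nat_lit 5522, nat_lit 14270, nat_lit 8438, nat_lit 11354, nat_lit 9410, nat_lit 10382, nat_lit 10058, nat_lit 9842, nat_lit 9914, nat_lit 9890, nat_lit 9902, nat_lit 9898] (nat_lit 2) [nat_lit 29578] true,
   Spec.mk (nat_lit 9898) (nat_lit 0) [nat_lit 23020, nat_lit 5524, nat_lit 14272, nat_lit 8440, nat_lit 11356, nat_lit 9412, nat_lit 10384, nat_lit 10060, nat_lit 9844, nat_lit 9916, nat_lit 9904, nat_lit 9896] (nat_lit 1) [nat_lit 29580] true,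
   Spec.mk (nat_lit 9902) (nat_lit 0) [nat_lit 23024, nat_lit 5528, nat_lit 14276, nat_lit 8444, nat_lit 11360, nat_lit 9416, nat_lit 10388, nat_lit 10064, nat_lit 9848, nat_lit 9920, nat_lit 9896, nat_lit 9904] (nat_lit 5) [nat_lit 29584] true]

noncomputable def sp20 : List Spec :=
  [Spec.mk (nat_lit 9904) (nat_lit 0) [nat_lit 23026, nat_lit 5530, nat_lit 14278, nat_lit 8446, nat_lit 11362, nat_lit 9418, nat_lit 10390, nat_lit 10066, nat_lit 9850, nat_lit 9922, nat_lit 9898, nat_lit 9902, nat_lit 9906] (nat_lit 2) [nat_lit 29586] true,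
   Spec.mk (nat_lit 9906) (nat_lit 0) [nat_lit 23028, nat_lit 5532, nat_lit 14280, nat_lit 8448, nat_lit 11364, nat_lit 9420, nat_lit 10392, nat_lit 10068, nat_lit 9852, nat_lit 9924, nat_lit 9904] (nat_lit 1) [] false,
   Spec.mk (nat_lit 9914) (nat_lit 0) [nat_lit 23036, nat_lit 5540, nat_lit 14288, nat_lit 8456, nat_lit 11372, nat_lit 9428, nat_lit 10400, nat_lit 10076, nat_lit 9860, nat_lit 9896, nat_lit 9920, nat_lit 9916] (nat_lit 1) [nat_lit 29596] false,
   Spec.mk (nat_lit 9916) (nat_lit 0) [nat_lit 23038, nat_lit 5542, nat_lit 14290, nat_lit 8458, nat_lit 11374, nat_lit 9430, nat_lit 10402, nat_lit 10078, nat_lit 9862, nat_lit 9898, nat_lit 9922, nat_lit 9914] (nat_lit 1) [nat_lit 29598] true,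
   Spec.mk (nat_lit 9920) (nat_lit 0) [nat_lit 23042, nat_lit 5546, nat_lit 14294, nat_lit 8462, nat_lit 11378, nat_lit 9434, nat_lit 10406, nat_lit 10082, nat_lit 9866, nat_lit 9902, nat_lit 9938, nat_lit 9914, nat_lit 9922] (nat_lit 2) [nat_lit 29602] false,
   Spec.mk (nat_lit 9922) (nat_lit 0) [nat_lit 23044, nat_lit 5548, nat_lit 14296, nat_lit 8464, nat_lit 11380, nat_lit 9436, nat_lit 10408, nat_lit 10084, nat_lit 9868, nat_lit 9904, nat_lit 9940, nat_lit 9916, nat_lit 9928, nat_lit 9920, nat_lit 9924] (nat_lit 0) [nat_lit 29604] true,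
   Spec.mk (nat_lit 9924) (nat_lit 0) [nat_lit 23046, nat_lit 5550, nat_lit 14298, nat_lit 8466, nat_lit 11382, nat_lit 9438, nat_lit 10410, nat_lit 10086, nat_lit 9870, nat_lit 9906, nat_lit 9942, nat_lit 9930, nat_lit 9922] (nat_lit 0) [] false,
   Spec.mk (nat_lit 9928) (nat_lit 0) [nat_lit 23050, nat_lit 5554, nat_lit 14302, nat_lit 8470, nat_lit 11386, nat_lit 9442, nat_lit 10414, nat_lit 10090, nat_lit 9874, nat_lit 9946, nat_lit 9922, nat_lit 9930] (nat_lit 1) [nat_lit 29610] false,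
   Spec.mk (nat_lit 9930) (nat_lit 1) [nat_lit 23052, nat_lit 5556, nat_lit 14304, nat_lit 8472, nat_lit 11388, nat_lit 9444, nat_lit 10416, nat_lit 10092, nat_lit 9876, nat_lit 9948, nat_lit 9924, nat_lit 9928] (nat_lit 0) [] false,
   Spec.mk (nat_lit 9938) (nat_lit 0) [nat_lit 23060, nat_lit 5564, nat_lit 14312, nat_lit 8480, nat_lit 11396, nat_lit 9452, nat_lit 10424, nat_lit 10100, nat_lit 9920, nat_lit 9940] (nat_lit 1) [nat_lit 29620] false,
   Spec.mk (nat_lit 9940) (nat_lit 0) [nat_lit 23062, nat_lit 5566, nat_lit 14314, nat_lit 8482, nat_lit 11398, nat_lit 9454, nat_lit 10426, nat_lit 10102, nat_lit 9922, nat_lit 9946, nat_lit 9938, nat_lit 9942] (nat_lit 0) [nat_lit 29622] false,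
   Spec.mk (nat_lit 9942) (nat_lit 0) [nat_lit 23064, nat_lit 5568, nat_lit 14316, nat_lit 8484, nat_lit 11400, nat_lit 9456, nat_lit 10428, nat_lit 10104, nat_lit 9924, nat_lit 9948, nat_lit 9940] (nat_lit 1) [] false,
   Spec.mk (nat_lit 9946) (nat_lit 1) [nat_lit 23068, nat_lit 5572, nat_lit 14320, nat_lit 8488, nat_lit 11404, nat_lit 9460, nat_lit 10432, nat_lit 10108, nat_lit 9928, nat_lit 9940, nat_lit 9948] (nat_lit 0) [nat_lit 29628] false,
   Spec.mk (nat_lit 9948) (nat_lit 2) [nat_lit 23070, nat_lit 5574, nat_lit 14322, nat_lit 8490, nat_lit 11406, nat_lit 9462, nat_lit 10434, nat_lit 10110, nat_lit 9930, nat_lit 9942, nat_lit 9954, nat_lit 9946] (nat_lit 0) [] false,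
   Spec.mk (nat_lit 9954) (nat_lit 3) [nat_lit 23076, nat_lit 5580, nat_lit 14328, nat_lit 8496, nat_lit 11412, nat_lit 9468, nat_lit 10440, nat_lit 10116, nat_lit 9948] (nat_lit 0) [] false,
   Spec.mk (nat_lit 9980) (nat_lit 0) [nat_lit 23102, nat_lit 5606, nat_lit 14354, nat_lit 8522, nat_lit 11438, nat_lit 10466, nat_lit 9818, nat_lit 9998, nat_lit 9986] (nat_lit 0) [nat_lit 29662] false,
   Spec.mk (nat_lit 9986) (nat_lit 0) [nat_lit 23108, nat_lit 5612, nat_lit 14360, nat_lit 8528, nat_lit 11444, nat_lit 10472, nat_lit 9824, nat_lit 10004, nat_lit 9980, nat_lit 9988] (nat_lit 2) [nat_lit 29668] false,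
   Spec.mk (nat_lit 9988) (nat_lit 0) [nat_lit 23110, nat_lit 5614, nat_lit 14362, nat_lit 8530, nat_lit 11446, nat_lit 10474, nat_lit 9826, nat_lit 10006, nat_lit 9986] (nat_lit 0) [nat_lit 29670] false,
   Spec.mk (nat_lit 9998) (nat_lit 0) [nat_lit 23120, nat_lit 5624, nat_lit 14372, nat_lit 8540, nat_lit 11456, nat_lit 10484, nat_lit 9836, nat_lit 10052, nat_lit 9980, nat_lit 10004] (nat_lit 2) [nat_lit 29680] false,
   Spec.mk (nat_lit 10004) (nat_lit 0) [nat_lit 23126, nat_lit 5630, nat_lit 14378, nat_lit 8546, nat_lit 11462, nat_lit 10490, nat_lit 9842, nat_lit 10058, nat_lit 9986, nat_lit 10022, nat_lit 9998, nat_lit 10010, nat_lit 10006] (nat_lit 2) [nat_lit 29686] true,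
   Spec.mk (nat_lit 10006) (nat_lit 0) [nat_lit 23128, nat_lit 5632, nat_lit 14380, nat_lit 8548, nat_lit 11464, nat_lit 10492, nat_lit 9844, nat_lit 10060, nat_lit 9988, nat_lit 10024, nat_lit 10012, nat_lit 10004] (nat_lit 1) [nat_lit 29688] true,
   Spec.mk (nat_lit 10010) (nat_lit 0) [nat_lit 23132, nat_lit 5636, nat_lit 14384, nat_lit 8552, nat_lit 11468, nat_lit 10496, nat_lit 9848, nat_lit 10064, nat_lit 10028, nat_lit 10004, nat_lit 10012] (nat_lit 4) [nat_lit 29692] true,
   Spec.mk (nat_lit 10012) (nat_lit 0) [nat_lit 23134, nat_lit 5638, nat_lit 14386, nat_lit 8554, nat_lit 11470, nat_lit 10498, nat_lit 9850, nat_lit 10066, nat_lit 10030, nat_lit 10006, nat_lit 10010, nat_lit 10014] (nat_lit 1) [nat_lit 29694] true,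
   Spec.mk (nat_lit 10014) (nat_lit 0) [nat_lit 23136, nat_lit 5640, nat_lit 14388, nat_lit 8556, nat_lit 11472, nat_lit 10500, nat_lit 9852, nat_lit 10068, nat_lit 10032, nat_lit 10012] (nat_lit 0) [] false,
   Spec.mk (nat_lit 10022) (nat_lit 0) [nat_lit 23144, nat_lit 5648, nat_lit 14396, nat_lit 8564, nat_lit 11480, nat_lit 10508, nat_lit 9860, nat_lit 10076, nat_lit 10004, nat_lit 10028, nat_lit 10024] (nat_lit 4) [nat_lit 29704] false,
   Spec.mk (nat_lit 10024) (nat_lit 0) [nat_lit 23146, nat_lit 5650, nat_lit 14398, nat_lit 8566, nat_lit 11482, nat_lit 10510, nat_lit 9862, nat_lit 10078, nat_lit 10006, nat_lit 10030, nat_lit 10022] (nat_lit 4) [nat_lit 29706] true,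
   Spec.mk (nat_lit 10028) (nat_lit 0) [nat_lit 23150, nat_lit 5654, nat_lit 14402, nat_lit 8570, nat_lit 11486, nat_lit 10514, nat_lit 9866, nat_lit 10082, nat_lit 10010, nat_lit 10022, nat_lit 10030] (nat_lit 4) [nat_lit 29710] true,
   Spec.mk (nat_lit 10030) (nat_lit 0) [nat_lit 23152, nat_lit 5656, nat_lit 14404, nat_lit 8572, nat_lit 11488, nat_lit 10516, nat_lit 9868, nat_lit 10084, nat_lit 10012, nat_lit 10024, nat_lit 10036, nat_lit 10028, nat_lit 10032] (nat_lit 2) [nat_lit 29712] true,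
   Spec.mk (nat_lit 10032) (nat_lit 0) [nat_lit 23154, nat_lit 5658, nat_lit 14406, nat_lit 8574, nat_lit 11490, nat_lit 10518, nat_lit 9870, nat_lit 10086, nat_lit 10014, nat_lit 10038, nat_lit 10030] (nat_lit 2) [] false,
   Spec.mk (nat_lit 10036) (nat_lit 0) [nat_lit 23158, nat_lit 5662, nat_lit 14410, nat_lit 8578, nat_lit 11494, nat_lit 10522, nat_lit 9874, nat_lit 10090, nat_lit 10030, nat_lit 10038] (nat_lit 2) [nat_lit 29718] false,
   Spec.mk (nat_lit 10038) (nat_lit 0) [nat_lit 23160, nat_lit 5664, nat_lit 14412, nat_lit 8580, nat_lit 11496, nat_lit 10524, nat_lit 9876, nat_lit 10092, nat_lit 10032, nat_lit 10036] (nat_lit 0) [] false,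
   Spec.mk (nat_lit 10052) (nat_lit 0) [nat_lit 23174, nat_lit 5678, nat_lit 14426, nat_lit 8594, nat_lit 11510, nat_lit 10538, nat_lit 9890, nat_lit 9998, nat_lit 10058] (nat_lit 0) [nat_lit 29734] false,
   Spec.mk (nat_lit 10058) (nat_lit 0) [nat_lit 23180, nat_lit 5684, nat_lit 14432, nat_lit 8600, nat_lit 11516, nat_lit 10544, nat_lit 9896, nat_lit 10004, nat_lit 10076, nat_lit 10052, nat_lit 10064, nat_lit 10060] (nat_lit 1) [nat_lit 29740] false,
   Spec.mk (nat_lit 10060) (nat_lit 0) [nat_lit 23182, nat_lit 5686, nat_lit 14434, nat_lit 8602, nat_lit 11518, nat_lit 10546, nat_lit 9898, nat_lit 10006, nat_lit 10078, nat_lit 10066, nat_lit 10058] (nat_lit 0) [nat_lit 29742] true,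
   Spec.mk (nat_lit 10064) (nat_lit 0) [nat_lit 23186, nat_lit 5690, nat_lit 14438, nat_lit 8606, nat_lit 11522, nat_lit 10550, nat_lit 9902, nat_lit 10010, nat_lit 10082, nat_lit 10058, nat_lit 10066] (nat_lit 4) [nat_lit 29746] false,
   Spec.mk (nat_lit 10066) (nat_lit 0) [nat_lit 23188, nat_lit 5692, nat_lit 14440, nat_lit 8608, nat_lit 11524, nat_lit 10552, nat_lit 9904, nat_lit 10012, nat_lit 10084, nat_lit 10060, nat_lit 10064, nat_lit 10068] (nat_lit 1) [nat_lit 29748] true,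
   Spec.mk (nat_lit 10068) (nat_lit 0) [nat_lit 23190, nat_lit 5694, nat_lit 14442, nat_lit 8610, nat_lit 11526, nat_lit 10554, nat_lit 9906, nat_lit 10014, nat_lit 10086, nat_lit 10066] (nat_lit 0) [] false,
   Spec.mk (nat_lit 10076) (nat_lit 0) [nat_lit 23198, nat_lit 5702, nat_lit 14450, nat_lit 8618, nat_lit 11534, nat_lit 10562, nat_lit 9914, nat_lit 10022, nat_lit 10130, nat_lit 10058, nat_lit 10082, nat_lit 10078] (nat_lit 1) [nat_lit 29758] false,
   Spec.mk (nat_lit 10078) (nat_lit 0) [nat_lit 23200, nat_lit 5704, nat_lit 14452, nat_lit 8620, nat_lit 11536, nat_lit 10564, nat_lit 9916, nat_lit 10024, nat_lit 10132, nat_lit 10060, nat_lit 10084, nat_lit 10076] (nat_lit 1) [nat_lit 29760] false,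
   Spec.mk (nat_lit 10082) (nat_lit 0) [nat_lit 23204, nat_lit 5708, nat_lit 14456, nat_lit 8624, nat_lit 11540, nat_lit 10568, nat_lit 9920, nat_lit 10028, nat_lit 10136, nat_lit 10064, nat_lit 10100, nat_lit 10076, nat_lit 10084] (nat_lit 2) [nat_lit 29764] false,
   Spec.mk (nat_lit 10084) (nat_lit 0) [nat_lit 23206, nat_lit 5710, nat_lit 14458, nat_lit 8626, nat_lit 11542, nat_lit 10570, nat_lit 9922, nat_lit 10030, nat_lit 10138, nat_lit 10066, nat_lit 10102, nat_lit 10078, nat_lit 10090, nat_lit 10082, nat_lit 10086] (nat_lit 0) [nat_lit 29766] false,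
   Spec.mk (nat_lit 10086) (nat_lit 0) [nat_lit 23208, nat_lit 5712, nat_lit 14460, nat_lit 8628, nat_lit 11544, nat_lit 10572, nat_lit 9924, nat_lit 10032, nat_lit 10140, nat_lit 10068, nat_lit 10104, nat_lit 10092, nat_lit 10084] (nat_lit 0) [] false,
   Spec.mk (nat_lit 10090) (nat_lit 0) [nat_lit 23212, nat_lit 5716, nat_lit 14464, nat_lit 8632, nat_lit 11548, nat_lit 10576, nat_lit 9928, nat_lit 10036, nat_lit 10144, nat_lit 10108, nat_lit 10084, nat_lit 10092] (nat_lit 1) [nat_lit 29772] false,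
   Spec.mk (nat_lit 10092) (nat_lit 1) [nat_lit 23214, nat_lit 5718, nat_lit 14466, nat_lit 8634, nat_lit 11550, nat_lit 10578, nat_lit 9930, nat_lit 10038, nat_lit 10146, nat_lit 10110, nat_lit 10086, nat_lit 10090] (nat_lit 0) [] false,
   Spec.mk (nat_lit 10100) (nat_lit 0) [nat_lit 23222, nat_lit 5726, nat_lit 14474, nat_lit 8642, nat_lit 11558, nat_lit 10586, nat_lit 9938, nat_lit 10154, nat_lit 10082, nat_lit 10102] (nat_lit 2) [nat_lit 29782] false,
   Spec.mk (nat_lit 10102) (nat_lit 0) [nat_lit 23224, nat_lit 5728, nat_lit 14476, nat_lit 8644, nat_lit 11560, nat_lit 10588, nat_lit 9940, nat_lit 10156, nat_lit 10084, nat_lit 10108, nat_lit 10100, nat_lit 10104] (nat_lit 1) [nat_lit 29784] false,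
   Spec.mk (nat_lit 10104) (nat_lit 0) [nat_lit 23226, nat_lit 5730, nat_lit 14478, nat_lit 8646, nat_lit 11562, nat_lit 10590, nat_lit 9942, nat_lit 10158, nat_lit 10086, nat_lit 10110, nat_lit 10102] (nat_lit 2) [] false,
   Spec.mk (nat_lit 10108) (nat_lit 0) [nat_lit 23230, nat_lit 5734, nat_lit 14482, nat_lit 8650, nat_lit 11566, nat_lit 10594, nat_lit 9946, nat_lit 10162, nat_lit 10090, nat_lit 10102, nat_lit 10110] (nat_lit 0) [nat_lit 29790] false,
   Spec.mk (nat_lit 10110) (nat_lit 1) [nat_lit 23232, nat_lit 5736, nat_lit 14484, nat_lit 8652, nat_lit 11568, nat_lit 10596, nat_lit 9948, nat_lit 10164, nat_lit 10092, nat_lit 10104, nat_lit 10116, nat_lit 10108] (nat_lit 0) [] false,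
   Spec.mk (nat_lit 10116) (nat_lit 2) [nat_lit 23238, nat_lit 5742, nat_lit 14490, nat_lit 8658, nat_lit 11574, nat_lit 10602, nat_lit 9954, nat_lit 10170, nat_lit 10110] (nat_lit 0) [] false,
   Spec.mk (nat_lit 10130) (nat_lit 0) [nat_lit 23252, nat_lit 5756, nat_lit 14504, nat_lit 8672, nat_lit 11588, nat_lit 10616, nat_lit 10076, nat_lit 10136, nat_lit 10132] (nat_lit 0) [nat_lit 29812] false,
   Spec.mk (nat_lit 10132) (nat_lit 0) [nat_lit 23254, nat_lit 5758, nat_lit 14506, nat_lit 8674, nat_lit 11590, nat_lit 10618, nat_lit 10078, nat_lit 10138, nat_lit 10130] (nat_lit 0) [nat_lit 29814] false,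
   Spec.mk (nat_lit 10136) (nat_lit 0) [nat_lit 23258, nat_lit 5762, nat_lit 14510, nat_lit 8678, nat_lit 11594, nat_lit 10622, nat_lit 10082, nat_lit 10154, nat_lit 10130, nat_lit 10138] (nat_lit 2) [nat_lit 29818] false,
   Spec.mk (nat_lit 10138) (nat_lit 0) [nat_lit 23260, nat_lit 5764, nat_lit 14512, nat_lit 8680, nat_lit 11596, nat_lit 10624, nat_lit 10084, nat_lit 10156, nat_lit 10132, nat_lit 10144, nat_lit 10136, nat_lit 10140] (nat_lit 0) [nat_lit 29820] false,
   Spec.mk (nat_lit 10140) (nat_lit 0) [nat_lit 23262, nat_lit 5766, nat_lit 14514, nat_lit 8682, nat_lit 11598, nat_lit 10626, nat_lit 10086, nat_lit 10158, nat_lit 10146, nat_lit 10138] (nat_lit 0) [] false,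
   Spec.mk (nat_lit 10144) (nat_lit 0) [nat_lit 23266, nat_lit 5770, nat_lit 14518, nat_lit 8686, nat_lit 11602, nat_lit 10630, nat_lit 10090, nat_lit 10162, nat_lit 10138, nat_lit 10146] (nat_lit 2) [nat_lit 29826] false,
   Spec.mk (nat_lit 10146) (nat_lit 0) [nat_lit 23268, nat_lit 5772, nat_lit 14520, nat_lit 8688, nat_lit 11604, nat_lit 10632, nat_lit 10092, nat_lit 10164, nat_lit 10140, nat_lit 10144] (nat_lit 0) [] false,
   Spec.mk (nat_lit 10154) (nat_lit 0) [nat_lit 23276, nat_lit 5780, nat_lit 14528, nat_lit 8696, nat_lit 11612, nat_lit 10640, nat_lit 10100, nat_lit 10136, nat_lit 10156] (nat_lit 0) [nat_lit 29836] false,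
   Spec.mk (nat_lit 10156) (nat_lit 1) [nat_lit 23278, nat_lit 5782, nat_lit 14530, nat_lit 8698, nat_lit 11614, nat_lit 10642, nat_lit 10102, nat_lit 10138, nat_lit 10162, nat_lit 10154, nat_lit 10158] (nat_lit 0) [nat_lit 29838] false,
   Spec.mk (nat_lit 10158) (nat_lit 0) [nat_lit 23280, nat_lit 5784, nat_lit 14532, nat_lit 8700, nat_lit 11616, nat_lit 10644, nat_lit 10104, nat_lit 10140, nat_lit 10164, nat_lit 10156] (nat_lit 0) [] false]

noncomputable def sp21 : List Spec :=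
  [Spec.mk (nat_lit 10162) (nat_lit 1) [nat_lit 23284, nat_lit 5788, nat_lit 14536, nat_lit 8704, nat_lit 11620, nat_lit 10648, nat_lit 10108, nat_lit 10144, nat_lit 10180, nat_lit 10156, nat_lit 10164] (nat_lit 0) [nat_lit 29844] false,
   Spec.mk (nat_lit 10164) (nat_lit 2) [nat_lit 23286, nat_lit 5790, nat_lit 14538, nat_lit 8706, nat_lit 11622, nat_lit 10650, nat_lit 10110, nat_lit 10146, nat_lit 10182, nat_lit 10158, nat_lit 10170, nat_lit 10162] (nat_lit 0) [] false,
   Spec.mk (nat_lit 10170) (nat_lit 2) [nat_lit 23292, nat_lit 5796, nat_lit 14544, nat_lit 8712, nat_lit 11628, nat_lit 10656, nat_lit 10116, nat_lit 10188, nat_lit 10164] (nat_lit 0) [] false,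
   Spec.mk (nat_lit 10180) (nat_lit 2) [nat_lit 23302, nat_lit 5806, nat_lit 14554, nat_lit 8722, nat_lit 11638, nat_lit 10666, nat_lit 10162, nat_lit 10182] (nat_lit 0) [nat_lit 29862] false,
   Spec.mk (nat_lit 10182) (nat_lit 2) [nat_lit 23304, nat_lit 5808, nat_lit 14556, nat_lit 8724, nat_lit 11640, nat_lit 10668, nat_lit 10164, nat_lit 10188, nat_lit 10180] (nat_lit 0) [] false,
   Spec.mk (nat_lit 10188) (nat_lit 4) [nat_lit 23310, nat_lit 5814, nat_lit 14562, nat_lit 8730, nat_lit 11646, nat_lit 10674, nat_lit 10170, nat_lit 10182] (nat_lit 0) [] false,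
   Spec.mk (nat_lit 10232) (nat_lit 1) [nat_lit 23354, nat_lit 5858, nat_lit 14606, nat_lit 11690, nat_lit 9746, nat_lit 10250] (nat_lit 0) [nat_lit 29914] false,
   Spec.mk (nat_lit 10250) (nat_lit 0) [nat_lit 23372, nat_lit 5876, nat_lit 14624, nat_lit 11708, nat_lit 9764, nat_lit 10304, nat_lit 10232, nat_lit 10268, nat_lit 10256] (nat_lit 0) [nat_lit 29932] false,
   Spec.mk (nat_lit 10256) (nat_lit 0) [nat_lit 23378, nat_lit 5882, nat_lit 14630, nat_lit 11714, nat_lit 9770, nat_lit 10310, nat_lit 10274, nat_lit 10250, nat_lit 10258] (nat_lit 1) [nat_lit 29938] false,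
   Spec.mk (nat_lit 10258) (nat_lit 1) [nat_lit 23380, nat_lit 5884, nat_lit 14632, nat_lit 11716, nat_lit 9772, nat_lit 10312, nat_lit 10276, nat_lit 10256] (nat_lit 0) [nat_lit 29940] false,
   Spec.mk (nat_lit 10268) (nat_lit 0) [nat_lit 23390, nat_lit 5894, nat_lit 14642, nat_lit 11726, nat_lit 9782, nat_lit 10322, nat_lit 10250, nat_lit 10274] (nat_lit 3) [nat_lit 29950] false,
   Spec.mk (nat_lit 10274) (nat_lit 0) [nat_lit 23396, nat_lit 5900, nat_lit 14648, nat_lit 11732, nat_lit 9788, nat_lit 10328, nat_lit 10256, nat_lit 10268, nat_lit 10280, nat_lit 10276] (nat_lit 2) [nat_lit 29956] false,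
   Spec.mk (nat_lit 10276) (nat_lit 0) [nat_lit 23398, nat_lit 5902, nat_lit 14650, nat_lit 11734, nat_lit 9790, nat_lit 10330, nat_lit 10258, nat_lit 10282, nat_lit 10274] (nat_lit 1) [nat_lit 29958] false,
   Spec.mk (nat_lit 10280) (nat_lit 0) [nat_lit 23402, nat_lit 5906, nat_lit 14654, nat_lit 11738, nat_lit 9794, nat_lit 10334, nat_lit 10274, nat_lit 10282] (nat_lit 3) [nat_lit 29962] false,
   Spec.mk (nat_lit 10282) (nat_lit 0) [nat_lit 23404, nat_lit 5908, nat_lit 14656, nat_lit 11740, nat_lit 9796, nat_lit 10336, nat_lit 10276, nat_lit 10280, nat_lit 10284] (nat_lit 0) [nat_lit 29964] false,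
   Spec.mk (nat_lit 10284) (nat_lit 1) [nat_lit 23406, nat_lit 5910, nat_lit 14658, nat_lit 11742, nat_lit 9798, nat_lit 10338, nat_lit 10282] (nat_lit 0) [] false,
   Spec.mk (nat_lit 10304) (nat_lit 0) [nat_lit 23426, nat_lit 5930, nat_lit 14678, nat_lit 11762, nat_lit 9818, nat_lit 10466, nat_lit 10250, nat_lit 10322, nat_lit 10310] (nat_lit 1) [nat_lit 29986] false,
   Spec.mk (nat_lit 10310) (nat_lit 0) [nat_lit 23432, nat_lit 5936, nat_lit 14684, nat_lit 11768, nat_lit 9824, nat_lit 10472, nat_lit 10256, nat_lit 10328, nat_lit 10304, nat_lit 10312] (nat_lit 3) [nat_lit 29992] false,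
   Spec.mk (nat_lit 10312) (nat_lit 0) [nat_lit 23434, nat_lit 5938, nat_lit 14686, nat_lit 11770, nat_lit 9826, nat_lit 10474, nat_lit 10258, nat_lit 10330, nat_lit 10310] (nat_lit 1) [nat_lit 29994] false,
   Spec.mk (nat_lit 10322) (nat_lit 0) [nat_lit 23444, nat_lit 5948, nat_lit 14696, nat_lit 11780, nat_lit 9836, nat_lit 10484, nat_lit 10268, nat_lit 10376, nat_lit 10304, nat_lit 10328] (nat_lit 2) [nat_lit 30004] false,
   Spec.mk (nat_lit 10328) (nat_lit 0) [nat_lit 23450, nat_lit 5954, nat_lit 14702, nat_lit 11786, nat_lit 9842, nat_lit 10490, nat_lit 10274, nat_lit 10382, nat_lit 10310, nat_lit 10346, nat_lit 10322, nat_lit 10334, nat_lit 10330] (nat_lit 2) [nat_lit 30010] false,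
   Spec.mk (nat_lit 10330) (nat_lit 0) [nat_lit 23452, nat_lit 5956, nat_lit 14704, nat_lit 11788, nat_lit 9844, nat_lit 10492, nat_lit 10276, nat_lit 10384, nat_lit 10312, nat_lit 10348, nat_lit 10336, nat_lit 10328] (nat_lit 1) [nat_lit 30012] false,
   Spec.mk (nat_lit 10334) (nat_lit 0) [nat_lit 23456, nat_lit 5960, nat_lit 14708, nat_lit 11792, nat_lit 9848, nat_lit 10496, nat_lit 10280, nat_lit 10388, nat_lit 10352, nat_lit 10328, nat_lit 10336] (nat_lit 4) [nat_lit 30016] true,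
   Spec.mk (nat_lit 10336) (nat_lit 0) [nat_lit 23458, nat_lit 5962, nat_lit 14710, nat_lit 11794, nat_lit 9850, nat_lit 10498, nat_lit 10282, nat_lit 10390, nat_lit 10354, nat_lit 10330, nat_lit 10334, nat_lit 10338] (nat_lit 1) [nat_lit 30018] true,
   Spec.mk (nat_lit 10338) (nat_lit 0) [nat_lit 23460, nat_lit 5964, nat_lit 14712, nat_lit 11796, nat_lit 9852, nat_lit 10500, nat_lit 10284, nat_lit 10392, nat_lit 10356, nat_lit 10336] (nat_lit 0) [] false,
   Spec.mk (nat_lit 10346) (nat_lit 0) [nat_lit 23468, nat_lit 5972, nat_lit 14720, nat_lit 11804, nat_lit 9860, nat_lit 10508, nat_lit 10400, nat_lit 10328, nat_lit 10352, nat_lit 10348] (nat_lit 3) [nat_lit 30028] true,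
   Spec.mk (nat_lit 10348) (nat_lit 0) [nat_lit 23470, nat_lit 5974, nat_lit 14722, nat_lit 11806, nat_lit 9862, nat_lit 10510, nat_lit 10402, nat_lit 10330, nat_lit 10354, nat_lit 10346] (nat_lit 3) [nat_lit 30030] true,
   Spec.mk (nat_lit 10352) (nat_lit 0) [nat_lit 23474, nat_lit 5978, nat_lit 14726, nat_lit 11810, nat_lit 9866, nat_lit 10514, nat_lit 10406, nat_lit 10334, nat_lit 10346, nat_lit 10354] (nat_lit 3) [nat_lit 30034] true,
   Spec.mk (nat_lit 10354) (nat_lit 0) [nat_lit 23476, nat_lit 5980, nat_lit 14728, nat_lit 11812, nat_lit 9868, nat_lit 10516, nat_lit 10408, nat_lit 10336, nat_lit 10348, nat_lit 10360, nat_lit 10352, nat_lit 10356] (nat_lit 1) [nat_lit 30036] false,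
   Spec.mk (nat_lit 10356) (nat_lit 0) [nat_lit 23478, nat_lit 5982, nat_lit 14730, nat_lit 11814, nat_lit 9870, nat_lit 10518, nat_lit 10410, nat_lit 10338, nat_lit 10362, nat_lit 10354] (nat_lit 1) [] false,
   Spec.mk (nat_lit 10360) (nat_lit 0) [nat_lit 23482, nat_lit 5986, nat_lit 14734, nat_lit 11818, nat_lit 9874, nat_lit 10522, nat_lit 10414, nat_lit 10354, nat_lit 10362] (nat_lit 1) [nat_lit 30042] false,
   Spec.mk (nat_lit 10362) (nat_lit 1) [nat_lit 23484, nat_lit 5988, nat_lit 14736, nat_lit 11820, nat_lit 9876, nat_lit 10524, nat_lit 10416, nat_lit 10356, nat_lit 10360] (nat_lit 0) [] false,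
   Spec.mk (nat_lit 10376) (nat_lit 0) [nat_lit 23498, nat_lit 6002, nat_lit 14750, nat_lit 11834, nat_lit 9890, nat_lit 10538, nat_lit 10322, nat_lit 10382] (nat_lit 3) [nat_lit 30058] false,
   Spec.mk (nat_lit 10382) (nat_lit 0) [nat_lit 23504, nat_lit 6008, nat_lit 14756, nat_lit 11840, nat_lit 9896, nat_lit 10544, nat_lit 10328, nat_lit 10400, nat_lit 10376, nat_lit 10388, nat_lit 10384] (nat_lit 4) [nat_lit 30064] false,
   Spec.mk (nat_lit 10384) (nat_lit 0) [nat_lit 23506, nat_lit 6010, nat_lit 14758, nat_lit 11842, nat_lit 9898, nat_lit 10546, nat_lit 10330, nat_lit 10402, nat_lit 10390, nat_lit 10382] (nat_lit 3) [nat_lit 30066] true,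
   Spec.mk (nat_lit 10388) (nat_lit 0) [nat_lit 23510, nat_lit 6014, nat_lit 14762, nat_lit 11846, nat_lit 9902, nat_lit 10550, nat_lit 10334, nat_lit 10406, nat_lit 10382, nat_lit 10390] (nat_lit 7) [nat_lit 30070] true,
   Spec.mk (nat_lit 10390) (nat_lit 0) [nat_lit 23512, nat_lit 6016, nat_lit 14764, nat_lit 11848, nat_lit 9904, nat_lit 10552, nat_lit 10336, nat_lit 10408, nat_lit 10384, nat_lit 10388, nat_lit 10392] (nat_lit 4) [nat_lit 30072] true,
   Spec.mk (nat_lit 10392) (nat_lit 0) [nat_lit 23514, nat_lit 6018, nat_lit 14766, nat_lit 11850, nat_lit 9906, nat_lit 10554, nat_lit 10338, nat_lit 10410, nat_lit 10390] (nat_lit 3) [] false,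
   Spec.mk (nat_lit 10400) (nat_lit 0) [nat_lit 23522, nat_lit 6026, nat_lit 14774, nat_lit 11858, nat_lit 9914, nat_lit 10562, nat_lit 10346, nat_lit 10382, nat_lit 10406, nat_lit 10402] (nat_lit 3) [nat_lit 30082] false,
   Spec.mk (nat_lit 10402) (nat_lit 0) [nat_lit 23524, nat_lit 6028, nat_lit 14776, nat_lit 11860, nat_lit 9916, nat_lit 10564, nat_lit 10348, nat_lit 10384, nat_lit 10408, nat_lit 10400] (nat_lit 3) [nat_lit 30084] true,
   Spec.mk (nat_lit 10406) (nat_lit 0) [nat_lit 23528, nat_lit 6032, nat_lit 14780, nat_lit 11864, nat_lit 9920, nat_lit 10568, nat_lit 10352, nat_lit 10388, nat_lit 10424, nat_lit 10400, nat_lit 10408] (nat_lit 4) [nat_lit 30088] true,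
   Spec.mk (nat_lit 10408) (nat_lit 0) [nat_lit 23530, nat_lit 6034, nat_lit 14782, nat_lit 11866, nat_lit 9922, nat_lit 10570, nat_lit 10354, nat_lit 10390, nat_lit 10426, nat_lit 10402, nat_lit 10414, nat_lit 10406, nat_lit 10410] (nat_lit 2) [nat_lit 30090] false,
   Spec.mk (nat_lit 10410) (nat_lit 0) [nat_lit 23532, nat_lit 6036, nat_lit 14784, nat_lit 11868, nat_lit 9924, nat_lit 10572, nat_lit 10356, nat_lit 10392, nat_lit 10428, nat_lit 10416, nat_lit 10408] (nat_lit 2) [] false,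
   Spec.mk (nat_lit 10414) (nat_lit 0) [nat_lit 23536, nat_lit 6040, nat_lit 14788, nat_lit 11872, nat_lit 9928, nat_lit 10576, nat_lit 10360, nat_lit 10432, nat_lit 10408, nat_lit 10416] (nat_lit 3) [nat_lit 30096] false,
   Spec.mk (nat_lit 10416) (nat_lit 0) [nat_lit 23538, nat_lit 6042, nat_lit 14790, nat_lit 11874, nat_lit 9930, nat_lit 10578, nat_lit 10362, nat_lit 10434, nat_lit 10410, nat_lit 10414] (nat_lit 1) [] false,
   Spec.mk (nat_lit 10424) (nat_lit 0) [nat_lit 23546, nat_lit 6050, nat_lit 14798, nat_lit 11882, nat_lit 9938, nat_lit 10586, nat_lit 10406, nat_lit 10426] (nat_lit 3) [nat_lit 30106] false,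
   Spec.mk (nat_lit 10426) (nat_lit 0) [nat_lit 23548, nat_lit 6052, nat_lit 14800, nat_lit 11884, nat_lit 9940, nat_lit 10588, nat_lit 10408, nat_lit 10432, nat_lit 10424, nat_lit 10428] (nat_lit 2) [nat_lit 30108] false,
   Spec.mk (nat_lit 10428) (nat_lit 0) [nat_lit 23550, nat_lit 6054, nat_lit 14802, nat_lit 11886, nat_lit 9942, nat_lit 10590, nat_lit 10410, nat_lit 10434, nat_lit 10426] (nat_lit 3) [] false,
   Spec.mk (nat_lit 10432) (nat_lit 0) [nat_lit 23554, nat_lit 6058, nat_lit 14806, nat_lit 11890, nat_lit 9946, nat_lit 10594, nat_lit 10414, nat_lit 10426, nat_lit 10434] (nat_lit 1) [nat_lit 30114] false,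
   Spec.mk (nat_lit 10434) (nat_lit 0) [nat_lit 23556, nat_lit 6060, nat_lit 14808, nat_lit 11892, nat_lit 9948, nat_lit 10596, nat_lit 10416, nat_lit 10428, nat_lit 10440, nat_lit 10432] (nat_lit 0) [] false,
   Spec.mk (nat_lit 10440) (nat_lit 1) [nat_lit 23562, nat_lit 6066, nat_lit 14814, nat_lit 11898, nat_lit 9954, nat_lit 10602, nat_lit 10434] (nat_lit 0) [] false,
   Spec.mk (nat_lit 10466) (nat_lit 1) [nat_lit 23588, nat_lit 6092, nat_lit 14840, nat_lit 11924, nat_lit 9980, nat_lit 10304, nat_lit 10484, nat_lit 10472] (nat_lit 0) [nat_lit 30148] false,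
   Spec.mk (nat_lit 10472) (nat_lit 0) [nat_lit 23594, nat_lit 6098, nat_lit 14846, nat_lit 11930, nat_lit 9986, nat_lit 10310, nat_lit 10490, nat_lit 10466, nat_lit 10474] (nat_lit 1) [nat_lit 30154] false,
   Spec.mk (nat_lit 10474) (nat_lit 1) [nat_lit 23596, nat_lit 6100, nat_lit 14848, nat_lit 11932, nat_lit 9988, nat_lit 10312, nat_lit 10492, nat_lit 10472] (nat_lit 0) [nat_lit 30156] false,
   Spec.mk (nat_lit 10484) (nat_lit 0) [nat_lit 23606, nat_lit 6110, nat_lit 14858, nat_lit 11942, nat_lit 9998, nat_lit 10322, nat_lit 10538, nat_lit 10466, nat_lit 10490] (nat_lit 1) [nat_lit 30166] false,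
   Spec.mk (nat_lit 10490) (nat_lit 0) [nat_lit 23612, nat_lit 6116, nat_lit 14864, nat_lit 11948, nat_lit 10004, nat_lit 10328, nat_lit 10544, nat_lit 10472, nat_lit 10508, nat_lit 10484, nat_lit 10496, nat_lit 10492] (nat_lit 1) [nat_lit 30172] false,
   Spec.mk (nat_lit 10492) (nat_lit 0) [nat_lit 23614, nat_lit 6118, nat_lit 14866, nat_lit 11950, nat_lit 10006, nat_lit 10330, nat_lit 10546, nat_lit 10474, nat_lit 10510, nat_lit 10498, nat_lit 10490] (nat_lit 0) [nat_lit 30174] true,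
   Spec.mk (nat_lit 10496) (nat_lit 0) [nat_lit 23618, nat_lit 6122, nat_lit 14870, nat_lit 11954, nat_lit 10010, nat_lit 10334, nat_lit 10550, nat_lit 10514, nat_lit 10490, nat_lit 10498] (nat_lit 3) [nat_lit 30178] false,
   Spec.mk (nat_lit 10498) (nat_lit 0) [nat_lit 23620, nat_lit 6124, nat_lit 14872, nat_lit 11956, nat_lit 10012, nat_lit 10336, nat_lit 10552, nat_lit 10516, nat_lit 10492, nat_lit 10496, nat_lit 10500] (nat_lit 0) [nat_lit 30180] true,
   Spec.mk (nat_lit 10500) (nat_lit 1) [nat_lit 23622, nat_lit 6126, nat_lit 14874, nat_lit 11958, nat_lit 10014, nat_lit 10338, nat_lit 10554, nat_lit 10518, nat_lit 10498] (nat_lit 0) [] false]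

noncomputable def sp22 : List Spec :=
  [Spec.mk (nat_lit 10508) (nat_lit 0) [nat_lit 23630, nat_lit 6134, nat_lit 14882, nat_lit 11966, nat_lit 10022, nat_lit 10346, nat_lit 10562, nat_lit 10490, nat_lit 10514, nat_lit 10510] (nat_lit 3) [nat_lit 30190] false,
   Spec.mk (nat_lit 10510) (nat_lit 0) [nat_lit 23632, nat_lit 6136, nat_lit 14884, nat_lit 11968, nat_lit 10024, nat_lit 10348, nat_lit 10564, nat_lit 10492, nat_lit 10516, nat_lit 10508] (nat_lit 3) [nat_lit 30192] true,
   Spec.mk (nat_lit 10514) (nat_lit 0) [nat_lit 23636, nat_lit 6140, nat_lit 14888, nat_lit 11972, nat_lit 10028, nat_lit 10352, nat_lit 10568, nat_lit 10496, nat_lit 10508, nat_lit 10516] (nat_lit 3) [nat_lit 30196] false,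
   Spec.mk (nat_lit 10516) (nat_lit 0) [nat_lit 23638, nat_lit 6142, nat_lit 14890, nat_lit 11974, nat_lit 10030, nat_lit 10354, nat_lit 10570, nat_lit 10498, nat_lit 10510, nat_lit 10522, nat_lit 10514, nat_lit 10518] (nat_lit 1) [nat_lit 30198] false,
   Spec.mk (nat_lit 10518) (nat_lit 0) [nat_lit 23640, nat_lit 6144, nat_lit 14892, nat_lit 11976, nat_lit 10032, nat_lit 10356, nat_lit 10572, nat_lit 10500, nat_lit 10524, nat_lit 10516] (nat_lit 1) [] false,
   Spec.mk (nat_lit 10522) (nat_lit 0) [nat_lit 23644, nat_lit 6148, nat_lit 14896, nat_lit 11980, nat_lit 10036, nat_lit 10360, nat_lit 10576, nat_lit 10516, nat_lit 10524] (nat_lit 1) [nat_lit 30204] false,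
   Spec.mk (nat_lit 10524) (nat_lit 1) [nat_lit 23646, nat_lit 6150, nat_lit 14898, nat_lit 11982, nat_lit 10038, nat_lit 10362, nat_lit 10578, nat_lit 10518, nat_lit 10522] (nat_lit 0) [] false,
   Spec.mk (nat_lit 10538) (nat_lit 0) [nat_lit 23660, nat_lit 6164, nat_lit 14912, nat_lit 11996, nat_lit 10052, nat_lit 10376, nat_lit 10700, nat_lit 10484, nat_lit 10544] (nat_lit 0) [nat_lit 30220] false,
   Spec.mk (nat_lit 10544) (nat_lit 0) [nat_lit 23666, nat_lit 6170, nat_lit 14918, nat_lit 12002, nat_lit 10058, nat_lit 10382, nat_lit 10706, nat_lit 10490, nat_lit 10562, nat_lit 10538, nat_lit 10550, nat_lit 10546] (nat_lit 1) [nat_lit 30226] false,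
   Spec.mk (nat_lit 10546) (nat_lit 0) [nat_lit 23668, nat_lit 6172, nat_lit 14920, nat_lit 12004, nat_lit 10060, nat_lit 10384, nat_lit 10708, nat_lit 10492, nat_lit 10564, nat_lit 10552, nat_lit 10544] (nat_lit 0) [nat_lit 30228] false,
   Spec.mk (nat_lit 10550) (nat_lit 0) [nat_lit 23672, nat_lit 6176, nat_lit 14924, nat_lit 12008, nat_lit 10064, nat_lit 10388, nat_lit 10712, nat_lit 10496, nat_lit 10568, nat_lit 10544, nat_lit 10552] (nat_lit 4) [nat_lit 30232] false,
   Spec.mk (nat_lit 10552) (nat_lit 0) [nat_lit 23674, nat_lit 6178, nat_lit 14926, nat_lit 12010, nat_lit 10066, nat_lit 10390, nat_lit 10714, nat_lit 10498, nat_lit 10570, nat_lit 10546, nat_lit 10550, nat_lit 10554] (nat_lit 1) [nat_lit 30234] false,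
   Spec.mk (nat_lit 10554) (nat_lit 0) [nat_lit 23676, nat_lit 6180, nat_lit 14928, nat_lit 12012, nat_lit 10068, nat_lit 10392, nat_lit 10716, nat_lit 10500, nat_lit 10572, nat_lit 10552] (nat_lit 0) [] false,
   Spec.mk (nat_lit 10562) (nat_lit 0) [nat_lit 23684, nat_lit 6188, nat_lit 14936, nat_lit 12020, nat_lit 10076, nat_lit 10400, nat_lit 10724, nat_lit 10508, nat_lit 10616, nat_lit 10544, nat_lit 10568, nat_lit 10564] (nat_lit 1) [nat_lit 30244] false,
   Spec.mk (nat_lit 10564) (nat_lit 0) [nat_lit 23686, nat_lit 6190, nat_lit 14938, nat_lit 12022, nat_lit 10078, nat_lit 10402, nat_lit 10726, nat_lit 10510, nat_lit 10618, nat_lit 10546, nat_lit 10570, nat_lit 10562] (nat_lit 1) [nat_lit 30246] false,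
   Spec.mk (nat_lit 10568) (nat_lit 0) [nat_lit 23690, nat_lit 6194, nat_lit 14942, nat_lit 12026, nat_lit 10082, nat_lit 10406, nat_lit 10730, nat_lit 10514, nat_lit 10622, nat_lit 10550, nat_lit 10586, nat_lit 10562, nat_lit 10570] (nat_lit 2) [nat_lit 30250] false,
   Spec.mk (nat_lit 10570) (nat_lit 0) [nat_lit 23692, nat_lit 6196, nat_lit 14944, nat_lit 12028, nat_lit 10084, nat_lit 10408, nat_lit 10732, nat_lit 10516, nat_lit 10624, nat_lit 10552, nat_lit 10588, nat_lit 10564, nat_lit 10576, nat_lit 10568, nat_lit 10572] (nat_lit 0) [nat_lit 30252] false,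
   Spec.mk (nat_lit 10572) (nat_lit 0) [nat_lit 23694, nat_lit 6198, nat_lit 14946, nat_lit 12030, nat_lit 10086, nat_lit 10410, nat_lit 10734, nat_lit 10518, nat_lit 10626, nat_lit 10554, nat_lit 10590, nat_lit 10578, nat_lit 10570] (nat_lit 0) [] false,
   Spec.mk (nat_lit 10576) (nat_lit 0) [nat_lit 23698, nat_lit 6202, nat_lit 14950, nat_lit 12034, nat_lit 10090, nat_lit 10414, nat_lit 10738, nat_lit 10522, nat_lit 10630, nat_lit 10594, nat_lit 10570, nat_lit 10578] (nat_lit 1) [nat_lit 30258] false,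
   Spec.mk (nat_lit 10578) (nat_lit 1) [nat_lit 23700, nat_lit 6204, nat_lit 14952, nat_lit 12036, nat_lit 10092, nat_lit 10416, nat_lit 10740, nat_lit 10524, nat_lit 10632, nat_lit 10596, nat_lit 10572, nat_lit 10576] (nat_lit 0) [] false,
   Spec.mk (nat_lit 10586) (nat_lit 0) [nat_lit 23708, nat_lit 6212, nat_lit 14960, nat_lit 12044, nat_lit 10100, nat_lit 10424, nat_lit 10748, nat_lit 10640, nat_lit 10568, nat_lit 10588] (nat_lit 2) [nat_lit 30268] false,
   Spec.mk (nat_lit 10588) (nat_lit 0) [nat_lit 23710, nat_lit 6214, nat_lit 14962, nat_lit 12046, nat_lit 10102, nat_lit 10426, nat_lit 10750, nat_lit 10642, nat_lit 10570, nat_lit 10594, nat_lit 10586, nat_lit 10590] (nat_lit 1) [nat_lit 30270] false,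
   Spec.mk (nat_lit 10590) (nat_lit 0) [nat_lit 23712, nat_lit 6216, nat_lit 14964, nat_lit 12048, nat_lit 10104, nat_lit 10428, nat_lit 10752, nat_lit 10644, nat_lit 10572, nat_lit 10596, nat_lit 10588] (nat_lit 2) [] false,
   Spec.mk (nat_lit 10594) (nat_lit 0) [nat_lit 23716, nat_lit 6220, nat_lit 14968, nat_lit 12052, nat_lit 10108, nat_lit 10432, nat_lit 10756, nat_lit 10648, nat_lit 10576, nat_lit 10588, nat_lit 10596] (nat_lit 0) [nat_lit 30276] false,
   Spec.mk (nat_lit 10596) (nat_lit 1) [nat_lit 23718, nat_lit 6222, nat_lit 14970, nat_lit 12054, nat_lit 10110, nat_lit 10434, nat_lit 10758, nat_lit 10650, nat_lit 10578, nat_lit 10590, nat_lit 10602, nat_lit 10594] (nat_lit 0) [] false,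
   Spec.mk (nat_lit 10602) (nat_lit 2) [nat_lit 23724, nat_lit 6228, nat_lit 14976, nat_lit 12060, nat_lit 10116, nat_lit 10440, nat_lit 10764, nat_lit 10656, nat_lit 10596] (nat_lit 0) [] false,
   Spec.mk (nat_lit 10616) (nat_lit 0) [nat_lit 23738, nat_lit 6242, nat_lit 14990, nat_lit 12074, nat_lit 10130, nat_lit 10778, nat_lit 10562, nat_lit 10622, nat_lit 10618] (nat_lit 1) [nat_lit 30298] false,
   Spec.mk (nat_lit 10618) (nat_lit 0) [nat_lit 23740, nat_lit 6244, nat_lit 14992, nat_lit 12076, nat_lit 10132, nat_lit 10780, nat_lit 10564, nat_lit 10624, nat_lit 10616] (nat_lit 1) [nat_lit 30300] false,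
   Spec.mk (nat_lit 10622) (nat_lit 0) [nat_lit 23744, nat_lit 6248, nat_lit 14996, nat_lit 12080, nat_lit 10136, nat_lit 10784, nat_lit 10568, nat_lit 10640, nat_lit 10616, nat_lit 10624] (nat_lit 3) [nat_lit 30304] false,
   Spec.mk (nat_lit 10624) (nat_lit 0) [nat_lit 23746, nat_lit 6250, nat_lit 14998, nat_lit 12082, nat_lit 10138, nat_lit 10786, nat_lit 10570, nat_lit 10642, nat_lit 10618, nat_lit 10630, nat_lit 10622, nat_lit 10626] (nat_lit 1) [nat_lit 30306] false,
   Spec.mk (nat_lit 10626) (nat_lit 0) [nat_lit 23748, nat_lit 6252, nat_lit 15000, nat_lit 12084, nat_lit 10140, nat_lit 10788, nat_lit 10572, nat_lit 10644, nat_lit 10632, nat_lit 10624] (nat_lit 1) [] false,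
   Spec.mk (nat_lit 10630) (nat_lit 0) [nat_lit 23752, nat_lit 6256, nat_lit 15004, nat_lit 12088, nat_lit 10144, nat_lit 10792, nat_lit 10576, nat_lit 10648, nat_lit 10624, nat_lit 10632] (nat_lit 3) [nat_lit 30312] false,
   Spec.mk (nat_lit 10632) (nat_lit 0) [nat_lit 23754, nat_lit 6258, nat_lit 15006, nat_lit 12090, nat_lit 10146, nat_lit 10794, nat_lit 10578, nat_lit 10650, nat_lit 10626, nat_lit 10630] (nat_lit 1) [] false,
   Spec.mk (nat_lit 10640) (nat_lit 0) [nat_lit 23762, nat_lit 6266, nat_lit 15014, nat_lit 12098, nat_lit 10154, nat_lit 10802, nat_lit 10586, nat_lit 10622, nat_lit 10642] (nat_lit 1) [nat_lit 30322] false,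
   Spec.mk (nat_lit 10642) (nat_lit 0) [nat_lit 23764, nat_lit 6268, nat_lit 15016, nat_lit 12100, nat_lit 10156, nat_lit 10804, nat_lit 10588, nat_lit 10624, nat_lit 10648, nat_lit 10640, nat_lit 10644] (nat_lit 0) [nat_lit 30324] false,
   Spec.mk (nat_lit 10644) (nat_lit 0) [nat_lit 23766, nat_lit 6270, nat_lit 15018, nat_lit 12102, nat_lit 10158, nat_lit 10806, nat_lit 10590, nat_lit 10626, nat_lit 10650, nat_lit 10642] (nat_lit 1) [] false,
   Spec.mk (nat_lit 10648) (nat_lit 0) [nat_lit 23770, nat_lit 6274, nat_lit 15022, nat_lit 12106, nat_lit 10162, nat_lit 10810, nat_lit 10594, nat_lit 10630, nat_lit 10666, nat_lit 10642, nat_lit 10650] (nat_lit 0) [nat_lit 30330] false,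
   Spec.mk (nat_lit 10650) (nat_lit 1) [nat_lit 23772, nat_lit 6276, nat_lit 15024, nat_lit 12108, nat_lit 10164, nat_lit 10812, nat_lit 10596, nat_lit 10632, nat_lit 10668, nat_lit 10644, nat_lit 10656, nat_lit 10648] (nat_lit 0) [] false,
   Spec.mk (nat_lit 10656) (nat_lit 1) [nat_lit 23778, nat_lit 6282, nat_lit 15030, nat_lit 12114, nat_lit 10170, nat_lit 10818, nat_lit 10602, nat_lit 10674, nat_lit 10650] (nat_lit 0) [] false,
   Spec.mk (nat_lit 10666) (nat_lit 1) [nat_lit 23788, nat_lit 6292, nat_lit 15040, nat_lit 12124, nat_lit 10180, nat_lit 10828, nat_lit 10648, nat_lit 10668] (nat_lit 0) [nat_lit 30348] false,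
   Spec.mk (nat_lit 10668) (nat_lit 1) [nat_lit 23790, nat_lit 6294, nat_lit 15042, nat_lit 12126, nat_lit 10182, nat_lit 10830, nat_lit 10650, nat_lit 10674, nat_lit 10666] (nat_lit 0) [] false,
   Spec.mk (nat_lit 10674) (nat_lit 3) [nat_lit 23796, nat_lit 6300, nat_lit 15048, nat_lit 12132, nat_lit 10188, nat_lit 10836, nat_lit 10656, nat_lit 10668] (nat_lit 0) [] false,
   Spec.mk (nat_lit 10700) (nat_lit 1) [nat_lit 23822, nat_lit 6326, nat_lit 15074, nat_lit 12158, nat_lit 10538, nat_lit 10706] (nat_lit 0) [nat_lit 30382] false,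
   Spec.mk (nat_lit 10706) (nat_lit 0) [nat_lit 23828, nat_lit 6332, nat_lit 15080, nat_lit 12164, nat_lit 10544, nat_lit 10724, nat_lit 10700, nat_lit 10712, nat_lit 10708] (nat_lit 0) [nat_lit 30388] false,
   Spec.mk (nat_lit 10708) (nat_lit 1) [nat_lit 23830, nat_lit 6334, nat_lit 15082, nat_lit 12166, nat_lit 10546, nat_lit 10726, nat_lit 10714, nat_lit 10706] (nat_lit 0) [nat_lit 30390] false,
   Spec.mk (nat_lit 10712) (nat_lit 0) [nat_lit 23834, nat_lit 6338, nat_lit 15086, nat_lit 12170, nat_lit 10550, nat_lit 10730, nat_lit 10706, nat_lit 10714] (nat_lit 3) [nat_lit 30394] false,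
   Spec.mk (nat_lit 10714) (nat_lit 0) [nat_lit 23836, nat_lit 6340, nat_lit 15088, nat_lit 12172, nat_lit 10552, nat_lit 10732, nat_lit 10708, nat_lit 10712, nat_lit 10716] (nat_lit 0) [nat_lit 30396] false,
   Spec.mk (nat_lit 10716) (nat_lit 1) [nat_lit 23838, nat_lit 6342, nat_lit 15090, nat_lit 12174, nat_lit 10554, nat_lit 10734, nat_lit 10714] (nat_lit 0) [] false,
   Spec.mk (nat_lit 10724) (nat_lit 0) [nat_lit 23846, nat_lit 6350, nat_lit 15098, nat_lit 12182, nat_lit 10562, nat_lit 10778, nat_lit 10706, nat_lit 10730, nat_lit 10726] (nat_lit 1) [nat_lit 30406] false,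
   Spec.mk (nat_lit 10726) (nat_lit 0) [nat_lit 23848, nat_lit 6352, nat_lit 15100, nat_lit 12184, nat_lit 10564, nat_lit 10780, nat_lit 10708, nat_lit 10732, nat_lit 10724] (nat_lit 1) [nat_lit 30408] false,
   Spec.mk (nat_lit 10730) (nat_lit 0) [nat_lit 23852, nat_lit 6356, nat_lit 15104, nat_lit 12188, nat_lit 10568, nat_lit 10784, nat_lit 10712, nat_lit 10748, nat_lit 10724, nat_lit 10732] (nat_lit 2) [nat_lit 30412] false,
   Spec.mk (nat_lit 10732) (nat_lit 0) [nat_lit 23854, nat_lit 6358, nat_lit 15106, nat_lit 12190, nat_lit 10570, nat_lit 10786, nat_lit 10714, nat_lit 10750, nat_lit 10726, nat_lit 10738, nat_lit 10730, nat_lit 10734] (nat_lit 0) [nat_lit 30414] false,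
   Spec.mk (nat_lit 10734) (nat_lit 0) [nat_lit 23856, nat_lit 6360, nat_lit 15108, nat_lit 12192, nat_lit 10572, nat_lit 10788, nat_lit 10716, nat_lit 10752, nat_lit 10740, nat_lit 10732] (nat_lit 0) [] false,
   Spec.mk (nat_lit 10738) (nat_lit 0) [nat_lit 23860, nat_lit 6364, nat_lit 15112, nat_lit 12196, nat_lit 10576, nat_lit 10792, nat_lit 10756, nat_lit 10732, nat_lit 10740] (nat_lit 1) [nat_lit 30420] false,
   Spec.mk (nat_lit 10740) (nat_lit 1) [nat_lit 23862, nat_lit 6366, nat_lit 15114, nat_lit 12198, nat_lit 10578, nat_lit 10794, nat_lit 10758, nat_lit 10734, nat_lit 10738] (nat_lit 0) [] false,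
   Spec.mk (nat_lit 10748) (nat_lit 0) [nat_lit 23870, nat_lit 6374, nat_lit 15122, nat_lit 12206, nat_lit 10586, nat_lit 10802, nat_lit 10730, nat_lit 10750] (nat_lit 3) [nat_lit 30430] false,
   Spec.mk (nat_lit 10750) (nat_lit 0) [nat_lit 23872, nat_lit 6376, nat_lit 15124, nat_lit 12208, nat_lit 10588, nat_lit 10804, nat_lit 10732, nat_lit 10756, nat_lit 10748, nat_lit 10752] (nat_lit 2) [nat_lit 30432] false,
   Spec.mk (nat_lit 10752) (nat_lit 0) [nat_lit 23874, nat_lit 6378, nat_lit 15126, nat_lit 12210, nat_lit 10590, nat_lit 10806, nat_lit 10734, nat_lit 10758, nat_lit 10750] (nat_lit 3) [] false,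
   Spec.mk (nat_lit 10756) (nat_lit 0) [nat_lit 23878, nat_lit 6382, nat_lit 15130, nat_lit 12214, nat_lit 10594, nat_lit 10810, nat_lit 10738, nat_lit 10750, nat_lit 10758] (nat_lit 1) [nat_lit 30438] false,
   Spec.mk (nat_lit 10758) (nat_lit 0) [nat_lit 23880, nat_lit 6384, nat_lit 15132, nat_lit 12216, nat_lit 10596, nat_lit 10812, nat_lit 10740, nat_lit 10752, nat_lit 10764, nat_lit 10756] (nat_lit 0) [] false]

noncomputable def sp23 : List Spec :=
  [Spec.mk (nat_lit 10764) (nat_lit 1) [nat_lit 23886, nat_lit 6390, nat_lit 15138, nat_lit 12222, nat_lit 10602, nat_lit 10818, nat_lit 10758] (nat_lit 0) [] false,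
   Spec.mk (nat_lit 10778) (nat_lit 1) [nat_lit 23900, nat_lit 6404, nat_lit 15152, nat_lit 12236, nat_lit 10616, nat_lit 10724, nat_lit 10784, nat_lit 10780] (nat_lit 0) [nat_lit 30460] false,
   Spec.mk (nat_lit 10780) (nat_lit 1) [nat_lit 23902, nat_lit 6406, nat_lit 15154, nat_lit 12238, nat_lit 10618, nat_lit 10726, nat_lit 10786, nat_lit 10778] (nat_lit 0) [nat_lit 30462] false,
   Spec.mk (nat_lit 10784) (nat_lit 0) [nat_lit 23906, nat_lit 6410, nat_lit 15158, nat_lit 12242, nat_lit 10622, nat_lit 10730, nat_lit 10802, nat_lit 10778, nat_lit 10786] (nat_lit 1) [nat_lit 30466] false,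
   Spec.mk (nat_lit 10786) (nat_lit 1) [nat_lit 23908, nat_lit 6412, nat_lit 15160, nat_lit 12244, nat_lit 10624, nat_lit 10732, nat_lit 10804, nat_lit 10780, nat_lit 10792, nat_lit 10784, nat_lit 10788] (nat_lit 0) [nat_lit 30468] false,
   Spec.mk (nat_lit 10788) (nat_lit 1) [nat_lit 23910, nat_lit 6414, nat_lit 15162, nat_lit 12246, nat_lit 10626, nat_lit 10734, nat_lit 10806, nat_lit 10794, nat_lit 10786] (nat_lit 0) [] false,
   Spec.mk (nat_lit 10792) (nat_lit 0) [nat_lit 23914, nat_lit 6418, nat_lit 15166, nat_lit 12250, nat_lit 10630, nat_lit 10738, nat_lit 10810, nat_lit 10786, nat_lit 10794] (nat_lit 1) [nat_lit 30474] false,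
   Spec.mk (nat_lit 10794) (nat_lit 1) [nat_lit 23916, nat_lit 6420, nat_lit 15168, nat_lit 12252, nat_lit 10632, nat_lit 10740, nat_lit 10812, nat_lit 10788, nat_lit 10792] (nat_lit 0) [] false,
   Spec.mk (nat_lit 10802) (nat_lit 0) [nat_lit 23924, nat_lit 6428, nat_lit 15176, nat_lit 12260, nat_lit 10640, nat_lit 10748, nat_lit 10856, nat_lit 10784, nat_lit 10804] (nat_lit 0) [nat_lit 30484] false,
   Spec.mk (nat_lit 10804) (nat_lit 1) [nat_lit 23926, nat_lit 6430, nat_lit 15178, nat_lit 12262, nat_lit 10642, nat_lit 10750, nat_lit 10858, nat_lit 10786, nat_lit 10810, nat_lit 10802, nat_lit 10806] (nat_lit 0) [nat_lit 30486] false,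
   Spec.mk (nat_lit 10806) (nat_lit 0) [nat_lit 23928, nat_lit 6432, nat_lit 15180, nat_lit 12264, nat_lit 10644, nat_lit 10752, nat_lit 10860, nat_lit 10788, nat_lit 10812, nat_lit 10804] (nat_lit 0) [] false,
   Spec.mk (nat_lit 10810) (nat_lit 1) [nat_lit 23932, nat_lit 6436, nat_lit 15184, nat_lit 12268, nat_lit 10648, nat_lit 10756, nat_lit 10864, nat_lit 10792, nat_lit 10828, nat_lit 10804, nat_lit 10812] (nat_lit 0) [nat_lit 30492] false,
   Spec.mk (nat_lit 10812) (nat_lit 2) [nat_lit 23934, nat_lit 6438, nat_lit 15186, nat_lit 12270, nat_lit 10650, nat_lit 10758, nat_lit 10866, nat_lit 10794, nat_lit 10830, nat_lit 10806, nat_lit 10818, nat_lit 10810] (nat_lit 0) [] false,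
   Spec.mk (nat_lit 10818) (nat_lit 2) [nat_lit 23940, nat_lit 6444, nat_lit 15192, nat_lit 12276, nat_lit 10656, nat_lit 10764, nat_lit 10872, nat_lit 10836, nat_lit 10812] (nat_lit 0) [] false,
   Spec.mk (nat_lit 10828) (nat_lit 1) [nat_lit 23950, nat_lit 6454, nat_lit 15202, nat_lit 12286, nat_lit 10666, nat_lit 10882, nat_lit 10810, nat_lit 10830] (nat_lit 0) [nat_lit 30510] false,
   Spec.mk (nat_lit 10830) (nat_lit 1) [nat_lit 23952, nat_lit 6456, nat_lit 15204, nat_lit 12288, nat_lit 10668, nat_lit 10884, nat_lit 10812, nat_lit 10836, nat_lit 10828] (nat_lit 0) [] false,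
   Spec.mk (nat_lit 10836) (nat_lit 3) [nat_lit 23958, nat_lit 6462, nat_lit 15210, nat_lit 12294, nat_lit 10674, nat_lit 10890, nat_lit 10818, nat_lit 10830] (nat_lit 0) [] false,
   Spec.mk (nat_lit 10856) (nat_lit 1) [nat_lit 23978, nat_lit 6482, nat_lit 15230, nat_lit 12314, nat_lit 10802, nat_lit 10858] (nat_lit 0) [nat_lit 30538] false,
   Spec.mk (nat_lit 10858) (nat_lit 2) [nat_lit 23980, nat_lit 6484, nat_lit 15232, nat_lit 12316, nat_lit 10804, nat_lit 10864, nat_lit 10856, nat_lit 10860] (nat_lit 0) [nat_lit 30540] false,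
   Spec.mk (nat_lit 10860) (nat_lit 1) [nat_lit 23982, nat_lit 6486, nat_lit 15234, nat_lit 12318, nat_lit 10806, nat_lit 10866, nat_lit 10858] (nat_lit 0) [] false,
   Spec.mk (nat_lit 10864) (nat_lit 1) [nat_lit 23986, nat_lit 6490, nat_lit 15238, nat_lit 12322, nat_lit 10810, nat_lit 10882, nat_lit 10858, nat_lit 10866] (nat_lit 0) [nat_lit 30546] false,
   Spec.mk (nat_lit 10866) (nat_lit 2) [nat_lit 23988, nat_lit 6492, nat_lit 15240, nat_lit 12324, nat_lit 10812, nat_lit 10884, nat_lit 10860, nat_lit 10872, nat_lit 10864] (nat_lit 0) [] false,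
   Spec.mk (nat_lit 10872) (nat_lit 1) [nat_lit 23994, nat_lit 6498, nat_lit 15246, nat_lit 12330, nat_lit 10818, nat_lit 10890, nat_lit 10866] (nat_lit 0) [] false,
   Spec.mk (nat_lit 10882) (nat_lit 3) [nat_lit 24004, nat_lit 6508, nat_lit 15256, nat_lit 12340, nat_lit 10828, nat_lit 10864, nat_lit 10884] (nat_lit 0) [nat_lit 30564] false,
   Spec.mk (nat_lit 10884) (nat_lit 3) [nat_lit 24006, nat_lit 6510, nat_lit 15258, nat_lit 12342, nat_lit 10830, nat_lit 10866, nat_lit 10890, nat_lit 10882] (nat_lit 0) [] false,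
   Spec.mk (nat_lit 10890) (nat_lit 4) [nat_lit 24012, nat_lit 6516, nat_lit 15264, nat_lit 12348, nat_lit 10836, nat_lit 10872, nat_lit 10908, nat_lit 10884] (nat_lit 0) [] false,
   Spec.mk (nat_lit 10908) (nat_lit 5) [nat_lit 24030, nat_lit 6534, nat_lit 15282, nat_lit 12366, nat_lit 10890] (nat_lit 0) [] false,
   Spec.mk (nat_lit 10988) (nat_lit 2) [nat_lit 24110, nat_lit 15362, nat_lit 9530, nat_lit 11042, nat_lit 11006] (nat_lit 0) [nat_lit 30670] false,
   Spec.mk (nat_lit 11006) (nat_lit 0) [nat_lit 24128, nat_lit 15380, nat_lit 9548, nat_lit 11060, nat_lit 10988, nat_lit 11012] (nat_lit 0) [nat_lit 30688] false,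
   Spec.mk (nat_lit 11012) (nat_lit 0) [nat_lit 24134, nat_lit 15386, nat_lit 9554, nat_lit 11066, nat_lit 11006, nat_lit 11014] (nat_lit 0) [nat_lit 30694] false,
   Spec.mk (nat_lit 11014) (nat_lit 2) [nat_lit 24136, nat_lit 15388, nat_lit 9556, nat_lit 11068, nat_lit 11012] (nat_lit 0) [nat_lit 30696] false,
   Spec.mk (nat_lit 11042) (nat_lit 0) [nat_lit 24164, nat_lit 15416, nat_lit 9584, nat_lit 11204, nat_lit 10988, nat_lit 11060] (nat_lit 0) [nat_lit 30724] false,
   Spec.mk (nat_lit 11060) (nat_lit 0) [nat_lit 24182, nat_lit 15434, nat_lit 9602, nat_lit 11222, nat_lit 11006, nat_lit 11114, nat_lit 11042, nat_lit 11078, nat_lit 11066] (nat_lit 0) [nat_lit 30742] false,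
   Spec.mk (nat_lit 11066) (nat_lit 0) [nat_lit 24188, nat_lit 15440, nat_lit 9608, nat_lit 11228, nat_lit 11012, nat_lit 11120, nat_lit 11084, nat_lit 11060, nat_lit 11068] (nat_lit 1) [nat_lit 30748] false,
   Spec.mk (nat_lit 11068) (nat_lit 1) [nat_lit 24190, nat_lit 15442, nat_lit 9610, nat_lit 11230, nat_lit 11014, nat_lit 11122, nat_lit 11086, nat_lit 11066] (nat_lit 0) [nat_lit 30750] false,
   Spec.mk (nat_lit 11078) (nat_lit 0) [nat_lit 24200, nat_lit 15452, nat_lit 9620, nat_lit 11240, nat_lit 11132, nat_lit 11060, nat_lit 11084] (nat_lit 2) [nat_lit 30760] false,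
   Spec.mk (nat_lit 11084) (nat_lit 0) [nat_lit 24206, nat_lit 15458, nat_lit 9626, nat_lit 11246, nat_lit 11138, nat_lit 11066, nat_lit 11078, nat_lit 11090, nat_lit 11086] (nat_lit 1) [nat_lit 30766] false,
   Spec.mk (nat_lit 11086) (nat_lit 0) [nat_lit 24208, nat_lit 15460, nat_lit 9628, nat_lit 11248, nat_lit 11140, nat_lit 11068, nat_lit 11092, nat_lit 11084] (nat_lit 0) [nat_lit 30768] false,
   Spec.mk (nat_lit 11090) (nat_lit 0) [nat_lit 24212, nat_lit 15464, nat_lit 9632, nat_lit 11252, nat_lit 11144, nat_lit 11084, nat_lit 11092] (nat_lit 2) [nat_lit 30772] false,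
   Spec.mk (nat_lit 11092) (nat_lit 1) [nat_lit 24214, nat_lit 15466, nat_lit 9634, nat_lit 11254, nat_lit 11146, nat_lit 11086, nat_lit 11090, nat_lit 11094] (nat_lit 0) [nat_lit 30774] false,
   Spec.mk (nat_lit 11094) (nat_lit 2) [nat_lit 24216, nat_lit 15468, nat_lit 9636, nat_lit 11256, nat_lit 11148, nat_lit 11092] (nat_lit 0) [] false,
   Spec.mk (nat_lit 11114) (nat_lit 0) [nat_lit 24236, nat_lit 15488, nat_lit 9656, nat_lit 11276, nat_lit 11060, nat_lit 11132, nat_lit 11120] (nat_lit 2) [nat_lit 30796] false,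
   Spec.mk (nat_lit 11120) (nat_lit 0) [nat_lit 24242, nat_lit 15494, nat_lit 9662, nat_lit 11282, nat_lit 11066, nat_lit 11138, nat_lit 11114, nat_lit 11122] (nat_lit 4) [nat_lit 30802] false,
   Spec.mk (nat_lit 11122) (nat_lit 0) [nat_lit 24244, nat_lit 15496, nat_lit 9664, nat_lit 11284, nat_lit 11068, nat_lit 11140, nat_lit 11120] (nat_lit 2) [nat_lit 30804] false,
   Spec.mk (nat_lit 11132) (nat_lit 0) [nat_lit 24254, nat_lit 15506, nat_lit 9674, nat_lit 11294, nat_lit 11078, nat_lit 11114, nat_lit 11138] (nat_lit 2) [nat_lit 30814] false,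
   Spec.mk (nat_lit 11138) (nat_lit 0) [nat_lit 24260, nat_lit 15512, nat_lit 9680, nat_lit 11300, nat_lit 11084, nat_lit 11120, nat_lit 11156, nat_lit 11132, nat_lit 11144, nat_lit 11140] (nat_lit 2) [nat_lit 30820] false,
   Spec.mk (nat_lit 11140) (nat_lit 0) [nat_lit 24262, nat_lit 15514, nat_lit 9682, nat_lit 11302, nat_lit 11086, nat_lit 11122, nat_lit 11158, nat_lit 11146, nat_lit 11138] (nat_lit 1) [nat_lit 30822] false,
   Spec.mk (nat_lit 11144) (nat_lit 0) [nat_lit 24266, nat_lit 15518, nat_lit 9686, nat_lit 11306, nat_lit 11090, nat_lit 11162, nat_lit 11138, nat_lit 11146] (nat_lit 4) [nat_lit 30826] false,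
   Spec.mk (nat_lit 11146) (nat_lit 0) [nat_lit 24268, nat_lit 15520, nat_lit 9688, nat_lit 11308, nat_lit 11092, nat_lit 11164, nat_lit 11140, nat_lit 11144, nat_lit 11148] (nat_lit 1) [nat_lit 30828] false,
   Spec.mk (nat_lit 11148) (nat_lit 0) [nat_lit 24270, nat_lit 15522, nat_lit 9690, nat_lit 11310, nat_lit 11094, nat_lit 11166, nat_lit 11146] (nat_lit 0) [] false,
   Spec.mk (nat_lit 11156) (nat_lit 0) [nat_lit 24278, nat_lit 15530, nat_lit 9698, nat_lit 11318, nat_lit 11138, nat_lit 11162, nat_lit 11158] (nat_lit 2) [nat_lit 30838] false,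
   Spec.mk (nat_lit 11158) (nat_lit 0) [nat_lit 24280, nat_lit 15532, nat_lit 9700, nat_lit 11320, nat_lit 11140, nat_lit 11164, nat_lit 11156] (nat_lit 2) [nat_lit 30840] false,
   Spec.mk (nat_lit 11162) (nat_lit 0) [nat_lit 24284, nat_lit 15536, nat_lit 9704, nat_lit 11324, nat_lit 11144, nat_lit 11156, nat_lit 11164] (nat_lit 2) [nat_lit 30844] false,
   Spec.mk (nat_lit 11164) (nat_lit 0) [nat_lit 24286, nat_lit 15538, nat_lit 9706, nat_lit 11326, nat_lit 11146, nat_lit 11158, nat_lit 11170, nat_lit 11162, nat_lit 11166] (nat_lit 0) [nat_lit 30846] false,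
   Spec.mk (nat_lit 11166) (nat_lit 0) [nat_lit 24288, nat_lit 15540, nat_lit 9708, nat_lit 11328, nat_lit 11148, nat_lit 11172, nat_lit 11164] (nat_lit 0) [] false,
   Spec.mk (nat_lit 11170) (nat_lit 0) [nat_lit 24292, nat_lit 15544, nat_lit 9712, nat_lit 11332, nat_lit 11164, nat_lit 11172] (nat_lit 0) [nat_lit 30852] false,
   Spec.mk (nat_lit 11172) (nat_lit 2) [nat_lit 24294, nat_lit 15546, nat_lit 9714, nat_lit 11334, nat_lit 11166, nat_lit 11170] (nat_lit 0) [] false,
   Spec.mk (nat_lit 11204) (nat_lit 0) [nat_lit 24326, nat_lit 15578, nat_lit 9746, nat_lit 11690, nat_lit 11042, nat_lit 11222] (nat_lit 0) [nat_lit 30886] false,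
   Spec.mk (nat_lit 11222) (nat_lit 0) [nat_lit 24344, nat_lit 15596, nat_lit 9764, nat_lit 11708, nat_lit 11060, nat_lit 11276, nat_lit 11204, nat_lit 11240, nat_lit 11228] (nat_lit 1) [nat_lit 30904] false,
   Spec.mk (nat_lit 11228) (nat_lit 0) [nat_lit 24350, nat_lit 15602, nat_lit 9770, nat_lit 11714, nat_lit 11066, nat_lit 11282, nat_lit 11246, nat_lit 11222, nat_lit 11230] (nat_lit 2) [nat_lit 30910] false]

noncomputable def sp24 : List Spec :=
  [Spec.mk (nat_lit 11230) (nat_lit 0) [nat_lit 24352, nat_lit 15604, nat_lit 9772, nat_lit 11716, nat_lit 11068, nat_lit 11284, nat_lit 11248, nat_lit 11228] (nat_lit 0) [nat_lit 30912] false,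
   Spec.mk (nat_lit 11240) (nat_lit 0) [nat_lit 24362, nat_lit 15614, nat_lit 9782, nat_lit 11726, nat_lit 11078, nat_lit 11294, nat_lit 11222, nat_lit 11246] (nat_lit 4) [nat_lit 30922] false,
   Spec.mk (nat_lit 11246) (nat_lit 0) [nat_lit 24368, nat_lit 15620, nat_lit 9788, nat_lit 11732, nat_lit 11084, nat_lit 11300, nat_lit 11228, nat_lit 11240, nat_lit 11252, nat_lit 11248] (nat_lit 3) [nat_lit 30928] false,
   Spec.mk (nat_lit 11248) (nat_lit 0) [nat_lit 24370, nat_lit 15622, nat_lit 9790, nat_lit 11734, nat_lit 11086, nat_lit 11302, nat_lit 11230, nat_lit 11254, nat_lit 11246] (nat_lit 2) [nat_lit 30930] false,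
   Spec.mk (nat_lit 11252) (nat_lit 0) [nat_lit 24374, nat_lit 15626, nat_lit 9794, nat_lit 11738, nat_lit 11090, nat_lit 11306, nat_lit 11246, nat_lit 11254] (nat_lit 4) [nat_lit 30934] false,
   Spec.mk (nat_lit 11254) (nat_lit 0) [nat_lit 24376, nat_lit 15628, nat_lit 9796, nat_lit 11740, nat_lit 11092, nat_lit 11308, nat_lit 11248, nat_lit 11252, nat_lit 11256] (nat_lit 1) [nat_lit 30936] false,
   Spec.mk (nat_lit 11256) (nat_lit 0) [nat_lit 24378, nat_lit 15630, nat_lit 9798, nat_lit 11742, nat_lit 11094, nat_lit 11310, nat_lit 11254] (nat_lit 0) [] false,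
   Spec.mk (nat_lit 11276) (nat_lit 0) [nat_lit 24398, nat_lit 15650, nat_lit 9818, nat_lit 11762, nat_lit 11114, nat_lit 11438, nat_lit 11222, nat_lit 11294, nat_lit 11282] (nat_lit 1) [nat_lit 30958] false,
   Spec.mk (nat_lit 11282) (nat_lit 0) [nat_lit 24404, nat_lit 15656, nat_lit 9824, nat_lit 11768, nat_lit 11120, nat_lit 11444, nat_lit 11228, nat_lit 11300, nat_lit 11276, nat_lit 11284] (nat_lit 3) [nat_lit 30964] false,
   Spec.mk (nat_lit 11284) (nat_lit 0) [nat_lit 24406, nat_lit 15658, nat_lit 9826, nat_lit 11770, nat_lit 11122, nat_lit 11446, nat_lit 11230, nat_lit 11302, nat_lit 11282] (nat_lit 1) [nat_lit 30966] false,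
   Spec.mk (nat_lit 11294) (nat_lit 0) [nat_lit 24416, nat_lit 15668, nat_lit 9836, nat_lit 11780, nat_lit 11132, nat_lit 11456, nat_lit 11240, nat_lit 11348, nat_lit 11276, nat_lit 11300] (nat_lit 2) [nat_lit 30976] false,
   Spec.mk (nat_lit 11300) (nat_lit 0) [nat_lit 24422, nat_lit 15674, nat_lit 9842, nat_lit 11786, nat_lit 11138, nat_lit 11462, nat_lit 11246, nat_lit 11354, nat_lit 11282, nat_lit 11318, nat_lit 11294, nat_lit 11306, nat_lit 11302] (nat_lit 2) [nat_lit 30982] false,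
   Spec.mk (nat_lit 11302) (nat_lit 0) [nat_lit 24424, nat_lit 15676, nat_lit 9844, nat_lit 11788, nat_lit 11140, nat_lit 11464, nat_lit 11248, nat_lit 11356, nat_lit 11284, nat_lit 11320, nat_lit 11308, nat_lit 11300] (nat_lit 1) [nat_lit 30984] false,
   Spec.mk (nat_lit 11306) (nat_lit 0) [nat_lit 24428, nat_lit 15680, nat_lit 9848, nat_lit 11792, nat_lit 11144, nat_lit 11468, nat_lit 11252, nat_lit 11360, nat_lit 11324, nat_lit 11300, nat_lit 11308] (nat_lit 4) [nat_lit 30988] false,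
   Spec.mk (nat_lit 11308) (nat_lit 0) [nat_lit 24430, nat_lit 15682, nat_lit 9850, nat_lit 11794, nat_lit 11146, nat_lit 11470, nat_lit 11254, nat_lit 11362, nat_lit 11326, nat_lit 11302, nat_lit 11306, nat_lit 11310] (nat_lit 1) [nat_lit 30990] false,
   Spec.mk (nat_lit 11310) (nat_lit 0) [nat_lit 24432, nat_lit 15684, nat_lit 9852, nat_lit 11796, nat_lit 11148, nat_lit 11472, nat_lit 11256, nat_lit 11364, nat_lit 11328, nat_lit 11308] (nat_lit 0) [] false,
   Spec.mk (nat_lit 11318) (nat_lit 0) [nat_lit 24440, nat_lit 15692, nat_lit 9860, nat_lit 11804, nat_lit 11156, nat_lit 11480, nat_lit 11372, nat_lit 11300, nat_lit 11324, nat_lit 11320] (nat_lit 3) [nat_lit 31000] false,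
   Spec.mk (nat_lit 11320) (nat_lit 0) [nat_lit 24442, nat_lit 15694, nat_lit 9862, nat_lit 11806, nat_lit 11158, nat_lit 11482, nat_lit 11374, nat_lit 11302, nat_lit 11326, nat_lit 11318] (nat_lit 3) [nat_lit 31002] false,
   Spec.mk (nat_lit 11324) (nat_lit 0) [nat_lit 24446, nat_lit 15698, nat_lit 9866, nat_lit 11810, nat_lit 11162, nat_lit 11486, nat_lit 11378, nat_lit 11306, nat_lit 11318, nat_lit 11326] (nat_lit 3) [nat_lit 31006] false,
   Spec.mk (nat_lit 11326) (nat_lit 0) [nat_lit 24448, nat_lit 15700, nat_lit 9868, nat_lit 11812, nat_lit 11164, nat_lit 11488, nat_lit 11380, nat_lit 11308, nat_lit 11320, nat_lit 11332, nat_lit 11324, nat_lit 11328] (nat_lit 1) [nat_lit 31008] false,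
   Spec.mk (nat_lit 11328) (nat_lit 0) [nat_lit 24450, nat_lit 15702, nat_lit 9870, nat_lit 11814, nat_lit 11166, nat_lit 11490, nat_lit 11382, nat_lit 11310, nat_lit 11334, nat_lit 11326] (nat_lit 1) [] false,
   Spec.mk (nat_lit 11332) (nat_lit 0) [nat_lit 24454, nat_lit 15706, nat_lit 9874, nat_lit 11818, nat_lit 11170, nat_lit 11494, nat_lit 11386, nat_lit 11326, nat_lit 11334] (nat_lit 1) [nat_lit 31014] false,
   Spec.mk (nat_lit 11334) (nat_lit 1) [nat_lit 24456, nat_lit 15708, nat_lit 9876, nat_lit 11820, nat_lit 11172, nat_lit 11496, nat_lit 11388, nat_lit 11328, nat_lit 11332] (nat_lit 0) [] false,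
   Spec.mk (nat_lit 11348) (nat_lit 0) [nat_lit 24470, nat_lit 15722, nat_lit 9890, nat_lit 11834, nat_lit 11510, nat_lit 11294, nat_lit 11354] (nat_lit 2) [nat_lit 31030] false,
   Spec.mk (nat_lit 11354) (nat_lit 0) [nat_lit 24476, nat_lit 15728, nat_lit 9896, nat_lit 11840, nat_lit 11516, nat_lit 11300, nat_lit 11372, nat_lit 11348, nat_lit 11360, nat_lit 11356] (nat_lit 3) [nat_lit 31036] false,
   Spec.mk (nat_lit 11356) (nat_lit 0) [nat_lit 24478, nat_lit 15730, nat_lit 9898, nat_lit 11842, nat_lit 11518, nat_lit 11302, nat_lit 11374, nat_lit 11362, nat_lit 11354] (nat_lit 2) [nat_lit 31038] true,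
   Spec.mk (nat_lit 11360) (nat_lit 0) [nat_lit 24482, nat_lit 15734, nat_lit 9902, nat_lit 11846, nat_lit 11522, nat_lit 11306, nat_lit 11378, nat_lit 11354, nat_lit 11362] (nat_lit 6) [nat_lit 31042] true,
   Spec.mk (nat_lit 11362) (nat_lit 0) [nat_lit 24484, nat_lit 15736, nat_lit 9904, nat_lit 11848, nat_lit 11524, nat_lit 11308, nat_lit 11380, nat_lit 11356, nat_lit 11360, nat_lit 11364] (nat_lit 3) [nat_lit 31044] false,
   Spec.mk (nat_lit 11364) (nat_lit 0) [nat_lit 24486, nat_lit 15738, nat_lit 9906, nat_lit 11850, nat_lit 11526, nat_lit 11310, nat_lit 11382, nat_lit 11362] (nat_lit 2) [] false,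
   Spec.mk (nat_lit 11372) (nat_lit 0) [nat_lit 24494, nat_lit 15746, nat_lit 9914, nat_lit 11858, nat_lit 11534, nat_lit 11318, nat_lit 11354, nat_lit 11378, nat_lit 11374] (nat_lit 2) [nat_lit 31054] false,
   Spec.mk (nat_lit 11374) (nat_lit 0) [nat_lit 24496, nat_lit 15748, nat_lit 9916, nat_lit 11860, nat_lit 11536, nat_lit 11320, nat_lit 11356, nat_lit 11380, nat_lit 11372] (nat_lit 2) [nat_lit 31056] true,
   Spec.mk (nat_lit 11378) (nat_lit 0) [nat_lit 24500, nat_lit 15752, nat_lit 9920, nat_lit 11864, nat_lit 11540, nat_lit 11324, nat_lit 11360, nat_lit 11396, nat_lit 11372, nat_lit 11380] (nat_lit 3) [nat_lit 31060] false,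
   Spec.mk (nat_lit 11380) (nat_lit 0) [nat_lit 24502, nat_lit 15754, nat_lit 9922, nat_lit 11866, nat_lit 11542, nat_lit 11326, nat_lit 11362, nat_lit 11398, nat_lit 11374, nat_lit 11386, nat_lit 11378, nat_lit 11382] (nat_lit 1) [nat_lit 31062] false,
   Spec.mk (nat_lit 11382) (nat_lit 0) [nat_lit 24504, nat_lit 15756, nat_lit 9924, nat_lit 11868, nat_lit 11544, nat_lit 11328, nat_lit 11364, nat_lit 11400, nat_lit 11388, nat_lit 11380] (nat_lit 1) [] false,
   Spec.mk (nat_lit 11386) (nat_lit 0) [nat_lit 24508, nat_lit 15760, nat_lit 9928, nat_lit 11872, nat_lit 11548, nat_lit 11332, nat_lit 11404, nat_lit 11380, nat_lit 11388] (nat_lit 2) [nat_lit 31068] false,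
   Spec.mk (nat_lit 11388) (nat_lit 0) [nat_lit 24510, nat_lit 15762, nat_lit 9930, nat_lit 11874, nat_lit 11550, nat_lit 11334, nat_lit 11406, nat_lit 11382, nat_lit 11386] (nat_lit 0) [] false,
   Spec.mk (nat_lit 11396) (nat_lit 0) [nat_lit 24518, nat_lit 15770, nat_lit 9938, nat_lit 11882, nat_lit 11558, nat_lit 11378, nat_lit 11398] (nat_lit 2) [nat_lit 31078] false,
   Spec.mk (nat_lit 11398) (nat_lit 0) [nat_lit 24520, nat_lit 15772, nat_lit 9940, nat_lit 11884, nat_lit 11560, nat_lit 11380, nat_lit 11404, nat_lit 11396, nat_lit 11400] (nat_lit 1) [nat_lit 31080] false,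
   Spec.mk (nat_lit 11400) (nat_lit 0) [nat_lit 24522, nat_lit 15774, nat_lit 9942, nat_lit 11886, nat_lit 11562, nat_lit 11382, nat_lit 11406, nat_lit 11398] (nat_lit 2) [] false,
   Spec.mk (nat_lit 11404) (nat_lit 0) [nat_lit 24526, nat_lit 15778, nat_lit 9946, nat_lit 11890, nat_lit 11566, nat_lit 11386, nat_lit 11398, nat_lit 11406] (nat_lit 0) [nat_lit 31086] false,
   Spec.mk (nat_lit 11406) (nat_lit 1) [nat_lit 24528, nat_lit 15780, nat_lit 9948, nat_lit 11892, nat_lit 11568, nat_lit 11388, nat_lit 11400, nat_lit 11412, nat_lit 11404] (nat_lit 0) [] false,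
   Spec.mk (nat_lit 11412) (nat_lit 2) [nat_lit 24534, nat_lit 15786, nat_lit 9954, nat_lit 11898, nat_lit 11574, nat_lit 11406] (nat_lit 0) [] false,
   Spec.mk (nat_lit 11438) (nat_lit 0) [nat_lit 24560, nat_lit 15812, nat_lit 9980, nat_lit 11924, nat_lit 11276, nat_lit 11456, nat_lit 11444] (nat_lit 2) [nat_lit 31120] false,
   Spec.mk (nat_lit 11444) (nat_lit 0) [nat_lit 24566, nat_lit 15818, nat_lit 9986, nat_lit 11930, nat_lit 11282, nat_lit 11462, nat_lit 11438, nat_lit 11446] (nat_lit 4) [nat_lit 31126] false,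
   Spec.mk (nat_lit 11446) (nat_lit 0) [nat_lit 24568, nat_lit 15820, nat_lit 9988, nat_lit 11932, nat_lit 11284, nat_lit 11464, nat_lit 11444] (nat_lit 2) [nat_lit 31128] false,
   Spec.mk (nat_lit 11456) (nat_lit 0) [nat_lit 24578, nat_lit 15830, nat_lit 9998, nat_lit 11942, nat_lit 11294, nat_lit 11510, nat_lit 11438, nat_lit 11462] (nat_lit 4) [nat_lit 31138] false,
   Spec.mk (nat_lit 11462) (nat_lit 0) [nat_lit 24584, nat_lit 15836, nat_lit 10004, nat_lit 11948, nat_lit 11300, nat_lit 11516, nat_lit 11444, nat_lit 11480, nat_lit 11456, nat_lit 11468, nat_lit 11464] (nat_lit 4) [nat_lit 31144] false,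
   Spec.mk (nat_lit 11464) (nat_lit 0) [nat_lit 24586, nat_lit 15838, nat_lit 10006, nat_lit 11950, nat_lit 11302, nat_lit 11518, nat_lit 11446, nat_lit 11482, nat_lit 11470, nat_lit 11462] (nat_lit 3) [nat_lit 31146] false,
   Spec.mk (nat_lit 11468) (nat_lit 0) [nat_lit 24590, nat_lit 15842, nat_lit 10010, nat_lit 11954, nat_lit 11306, nat_lit 11522, nat_lit 11486, nat_lit 11462, nat_lit 11470] (nat_lit 6) [nat_lit 31150] true,
   Spec.mk (nat_lit 11470) (nat_lit 0) [nat_lit 24592, nat_lit 15844, nat_lit 10012, nat_lit 11956, nat_lit 11308, nat_lit 11524, nat_lit 11488, nat_lit 11464, nat_lit 11468, nat_lit 11472] (nat_lit 3) [nat_lit 31152] false,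
   Spec.mk (nat_lit 11472) (nat_lit 0) [nat_lit 24594, nat_lit 15846, nat_lit 10014, nat_lit 11958, nat_lit 11310, nat_lit 11526, nat_lit 11490, nat_lit 11470] (nat_lit 2) [] false,
   Spec.mk (nat_lit 11480) (nat_lit 0) [nat_lit 24602, nat_lit 15854, nat_lit 10022, nat_lit 11966, nat_lit 11318, nat_lit 11534, nat_lit 11462, nat_lit 11486, nat_lit 11482] (nat_lit 6) [nat_lit 31162] false,
   Spec.mk (nat_lit 11482) (nat_lit 0) [nat_lit 24604, nat_lit 15856, nat_lit 10024, nat_lit 11968, nat_lit 11320, nat_lit 11536, nat_lit 11464, nat_lit 11488, nat_lit 11480] (nat_lit 6) [nat_lit 31164] true,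
   Spec.mk (nat_lit 11486) (nat_lit 0) [nat_lit 24608, nat_lit 15860, nat_lit 10028, nat_lit 11972, nat_lit 11324, nat_lit 11540, nat_lit 11468, nat_lit 11480, nat_lit 11488] (nat_lit 6) [nat_lit 31168] true,
   Spec.mk (nat_lit 11488) (nat_lit 0) [nat_lit 24610, nat_lit 15862, nat_lit 10030, nat_lit 11974, nat_lit 11326, nat_lit 11542, nat_lit 11470, nat_lit 11482, nat_lit 11494, nat_lit 11486, nat_lit 11490] (nat_lit 4) [nat_lit 31170] false,
   Spec.mk (nat_lit 11490) (nat_lit 0) [nat_lit 24612, nat_lit 15864, nat_lit 10032, nat_lit 11976, nat_lit 11328, nat_lit 11544, nat_lit 11472, nat_lit 11496, nat_lit 11488] (nat_lit 4) [] false,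
   Spec.mk (nat_lit 11494) (nat_lit 0) [nat_lit 24616, nat_lit 15868, nat_lit 10036, nat_lit 11980, nat_lit 11332, nat_lit 11548, nat_lit 11488, nat_lit 11496] (nat_lit 4) [nat_lit 31176] false,
   Spec.mk (nat_lit 11496) (nat_lit 0) [nat_lit 24618, nat_lit 15870, nat_lit 10038, nat_lit 11982, nat_lit 11334, nat_lit 11550, nat_lit 11490, nat_lit 11494] (nat_lit 2) [] false,
   Spec.mk (nat_lit 11510) (nat_lit 0) [nat_lit 24632, nat_lit 15884, nat_lit 10052, nat_lit 11996, nat_lit 11348, nat_lit 11456, nat_lit 11516] (nat_lit 2) [nat_lit 31192] false,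
   Spec.mk (nat_lit 11516) (nat_lit 0) [nat_lit 24638, nat_lit 15890, nat_lit 10058, nat_lit 12002, nat_lit 11354, nat_lit 11462, nat_lit 11534, nat_lit 11510, nat_lit 11522, nat_lit 11518] (nat_lit 3) [nat_lit 31198] false]

noncomputable def sp25 : List Spec :=
  [Spec.mk (nat_lit 11518) (nat_lit 0) [nat_lit 24640, nat_lit 15892, nat_lit 10060, nat_lit 12004, nat_lit 11356, nat_lit 11464, nat_lit 11536, nat_lit 11524, nat_lit 11516] (nat_lit 2) [nat_lit 31200] true,
   Spec.mk (nat_lit 11522) (nat_lit 0) [nat_lit 24644, nat_lit 15896, nat_lit 10064, nat_lit 12008, nat_lit 11360, nat_lit 11468, nat_lit 11540, nat_lit 11516, nat_lit 11524] (nat_lit 6) [nat_lit 31204] false,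
   Spec.mk (nat_lit 11524) (nat_lit 0) [nat_lit 24646, nat_lit 15898, nat_lit 10066, nat_lit 12010, nat_lit 11362, nat_lit 11470, nat_lit 11542, nat_lit 11518, nat_lit 11522, nat_lit 11526] (nat_lit 3) [nat_lit 31206] false,
   Spec.mk (nat_lit 11526) (nat_lit 0) [nat_lit 24648, nat_lit 15900, nat_lit 10068, nat_lit 12012, nat_lit 11364, nat_lit 11472, nat_lit 11544, nat_lit 11524] (nat_lit 2) [] false,
   Spec.mk (nat_lit 11534) (nat_lit 0) [nat_lit 24656, nat_lit 15908, nat_lit 10076, nat_lit 12020, nat_lit 11372, nat_lit 11480, nat_lit 11588, nat_lit 11516, nat_lit 11540, nat_lit 11536] (nat_lit 3) [nat_lit 31216] false,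
   Spec.mk (nat_lit 11536) (nat_lit 0) [nat_lit 24658, nat_lit 15910, nat_lit 10078, nat_lit 12022, nat_lit 11374, nat_lit 11482, nat_lit 11590, nat_lit 11518, nat_lit 11542, nat_lit 11534] (nat_lit 3) [nat_lit 31218] false,
   Spec.mk (nat_lit 11540) (nat_lit 0) [nat_lit 24662, nat_lit 15914, nat_lit 10082, nat_lit 12026, nat_lit 11378, nat_lit 11486, nat_lit 11594, nat_lit 11522, nat_lit 11558, nat_lit 11534, nat_lit 11542] (nat_lit 4) [nat_lit 31222] false,
   Spec.mk (nat_lit 11542) (nat_lit 0) [nat_lit 24664, nat_lit 15916, nat_lit 10084, nat_lit 12028, nat_lit 11380, nat_lit 11488, nat_lit 11596, nat_lit 11524, nat_lit 11560, nat_lit 11536, nat_lit 11548, nat_lit 11540, nat_lit 11544] (nat_lit 2) [nat_lit 31224] false,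
   Spec.mk (nat_lit 11544) (nat_lit 0) [nat_lit 24666, nat_lit 15918, nat_lit 10086, nat_lit 12030, nat_lit 11382, nat_lit 11490, nat_lit 11598, nat_lit 11526, nat_lit 11562, nat_lit 11550, nat_lit 11542] (nat_lit 2) [] false,
   Spec.mk (nat_lit 11548) (nat_lit 0) [nat_lit 24670, nat_lit 15922, nat_lit 10090, nat_lit 12034, nat_lit 11386, nat_lit 11494, nat_lit 11602, nat_lit 11566, nat_lit 11542, nat_lit 11550] (nat_lit 3) [nat_lit 31230] false,
   Spec.mk (nat_lit 11550) (nat_lit 0) [nat_lit 24672, nat_lit 15924, nat_lit 10092, nat_lit 12036, nat_lit 11388, nat_lit 11496, nat_lit 11604, nat_lit 11568, nat_lit 11544, nat_lit 11548] (nat_lit 1) [] false,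
   Spec.mk (nat_lit 11558) (nat_lit 0) [nat_lit 24680, nat_lit 15932, nat_lit 10100, nat_lit 12044, nat_lit 11396, nat_lit 11612, nat_lit 11540, nat_lit 11560] (nat_lit 4) [nat_lit 31240] false,
   Spec.mk (nat_lit 11560) (nat_lit 0) [nat_lit 24682, nat_lit 15934, nat_lit 10102, nat_lit 12046, nat_lit 11398, nat_lit 11614, nat_lit 11542, nat_lit 11566, nat_lit 11558, nat_lit 11562] (nat_lit 3) [nat_lit 31242] false,
   Spec.mk (nat_lit 11562) (nat_lit 0) [nat_lit 24684, nat_lit 15936, nat_lit 10104, nat_lit 12048, nat_lit 11400, nat_lit 11616, nat_lit 11544, nat_lit 11568, nat_lit 11560] (nat_lit 4) [] false,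
   Spec.mk (nat_lit 11566) (nat_lit 0) [nat_lit 24688, nat_lit 15940, nat_lit 10108, nat_lit 12052, nat_lit 11404, nat_lit 11620, nat_lit 11548, nat_lit 11560, nat_lit 11568] (nat_lit 2) [nat_lit 31248] false,
   Spec.mk (nat_lit 11568) (nat_lit 0) [nat_lit 24690, nat_lit 15942, nat_lit 10110, nat_lit 12054, nat_lit 11406, nat_lit 11622, nat_lit 11550, nat_lit 11562, nat_lit 11574, nat_lit 11566] (nat_lit 1) [] false,
   Spec.mk (nat_lit 11574) (nat_lit 0) [nat_lit 24696, nat_lit 15948, nat_lit 10116, nat_lit 12060, nat_lit 11412, nat_lit 11628, nat_lit 11568] (nat_lit 0) [] false,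
   Spec.mk (nat_lit 11588) (nat_lit 0) [nat_lit 24710, nat_lit 15962, nat_lit 10130, nat_lit 12074, nat_lit 11534, nat_lit 11594, nat_lit 11590] (nat_lit 2) [nat_lit 31270] false,
   Spec.mk (nat_lit 11590) (nat_lit 0) [nat_lit 24712, nat_lit 15964, nat_lit 10132, nat_lit 12076, nat_lit 11536, nat_lit 11596, nat_lit 11588] (nat_lit 2) [nat_lit 31272] false,
   Spec.mk (nat_lit 11594) (nat_lit 0) [nat_lit 24716, nat_lit 15968, nat_lit 10136, nat_lit 12080, nat_lit 11540, nat_lit 11612, nat_lit 11588, nat_lit 11596] (nat_lit 4) [nat_lit 31276] false,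
   Spec.mk (nat_lit 11596) (nat_lit 0) [nat_lit 24718, nat_lit 15970, nat_lit 10138, nat_lit 12082, nat_lit 11542, nat_lit 11614, nat_lit 11590, nat_lit 11602, nat_lit 11594, nat_lit 11598] (nat_lit 2) [nat_lit 31278] false,
   Spec.mk (nat_lit 11598) (nat_lit 0) [nat_lit 24720, nat_lit 15972, nat_lit 10140, nat_lit 12084, nat_lit 11544, nat_lit 11616, nat_lit 11604, nat_lit 11596] (nat_lit 2) [] false,
   Spec.mk (nat_lit 11602) (nat_lit 0) [nat_lit 24724, nat_lit 15976, nat_lit 10144, nat_lit 12088, nat_lit 11548, nat_lit 11620, nat_lit 11596, nat_lit 11604] (nat_lit 4) [nat_lit 31284] false,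
   Spec.mk (nat_lit 11604) (nat_lit 0) [nat_lit 24726, nat_lit 15978, nat_lit 10146, nat_lit 12090, nat_lit 11550, nat_lit 11622, nat_lit 11598, nat_lit 11602] (nat_lit 2) [] false,
   Spec.mk (nat_lit 11612) (nat_lit 0) [nat_lit 24734, nat_lit 15986, nat_lit 10154, nat_lit 12098, nat_lit 11558, nat_lit 11594, nat_lit 11614] (nat_lit 2) [nat_lit 31294] false,
   Spec.mk (nat_lit 11614) (nat_lit 0) [nat_lit 24736, nat_lit 15988, nat_lit 10156, nat_lit 12100, nat_lit 11560, nat_lit 11596, nat_lit 11620, nat_lit 11612, nat_lit 11616] (nat_lit 1) [nat_lit 31296] false,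
   Spec.mk (nat_lit 11616) (nat_lit 0) [nat_lit 24738, nat_lit 15990, nat_lit 10158, nat_lit 12102, nat_lit 11562, nat_lit 11598, nat_lit 11622, nat_lit 11614] (nat_lit 2) [] false,
   Spec.mk (nat_lit 11620) (nat_lit 0) [nat_lit 24742, nat_lit 15994, nat_lit 10162, nat_lit 12106, nat_lit 11566, nat_lit 11602, nat_lit 11638, nat_lit 11614, nat_lit 11622] (nat_lit 1) [nat_lit 31302] false,
   Spec.mk (nat_lit 11622) (nat_lit 0) [nat_lit 24744, nat_lit 15996, nat_lit 10164, nat_lit 12108, nat_lit 11568, nat_lit 11604, nat_lit 11640, nat_lit 11616, nat_lit 11628, nat_lit 11620] (nat_lit 0) [] false,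
   Spec.mk (nat_lit 11628) (nat_lit 0) [nat_lit 24750, nat_lit 16002, nat_lit 10170, nat_lit 12114, nat_lit 11574, nat_lit 11646, nat_lit 11622] (nat_lit 0) [] false,
   Spec.mk (nat_lit 11638) (nat_lit 0) [nat_lit 24760, nat_lit 16012, nat_lit 10180, nat_lit 12124, nat_lit 11620, nat_lit 11640] (nat_lit 0) [nat_lit 31320] false,
   Spec.mk (nat_lit 11640) (nat_lit 0) [nat_lit 24762, nat_lit 16014, nat_lit 10182, nat_lit 12126, nat_lit 11622, nat_lit 11646, nat_lit 11638] (nat_lit 0) [] false,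
   Spec.mk (nat_lit 11646) (nat_lit 2) [nat_lit 24768, nat_lit 16020, nat_lit 10188, nat_lit 12132, nat_lit 11628, nat_lit 11640] (nat_lit 0) [] false,
   Spec.mk (nat_lit 11690) (nat_lit 2) [nat_lit 24812, nat_lit 16064, nat_lit 10232, nat_lit 11204, nat_lit 11708] (nat_lit 0) [nat_lit 31372] false,
   Spec.mk (nat_lit 11708) (nat_lit 1) [nat_lit 24830, nat_lit 16082, nat_lit 10250, nat_lit 11222, nat_lit 11762, nat_lit 11690, nat_lit 11726, nat_lit 11714] (nat_lit 0) [nat_lit 31390] false,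
   Spec.mk (nat_lit 11714) (nat_lit 0) [nat_lit 24836, nat_lit 16088, nat_lit 10256, nat_lit 11228, nat_lit 11768, nat_lit 11732, nat_lit 11708, nat_lit 11716] (nat_lit 0) [nat_lit 31396] false,
   Spec.mk (nat_lit 11716) (nat_lit 2) [nat_lit 24838, nat_lit 16090, nat_lit 10258, nat_lit 11230, nat_lit 11770, nat_lit 11734, nat_lit 11714] (nat_lit 0) [nat_lit 31398] false,
   Spec.mk (nat_lit 11726) (nat_lit 0) [nat_lit 24848, nat_lit 16100, nat_lit 10268, nat_lit 11240, nat_lit 11780, nat_lit 11708, nat_lit 11732] (nat_lit 2) [nat_lit 31408] false,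
   Spec.mk (nat_lit 11732) (nat_lit 0) [nat_lit 24854, nat_lit 16106, nat_lit 10274, nat_lit 11246, nat_lit 11786, nat_lit 11714, nat_lit 11726, nat_lit 11738, nat_lit 11734] (nat_lit 1) [nat_lit 31414] false,
   Spec.mk (nat_lit 11734) (nat_lit 0) [nat_lit 24856, nat_lit 16108, nat_lit 10276, nat_lit 11248, nat_lit 11788, nat_lit 11716, nat_lit 11740, nat_lit 11732] (nat_lit 0) [nat_lit 31416] false,
   Spec.mk (nat_lit 11738) (nat_lit 0) [nat_lit 24860, nat_lit 16112, nat_lit 10280, nat_lit 11252, nat_lit 11792, nat_lit 11732, nat_lit 11740] (nat_lit 2) [nat_lit 31420] false,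
   Spec.mk (nat_lit 11740) (nat_lit 1) [nat_lit 24862, nat_lit 16114, nat_lit 10282, nat_lit 11254, nat_lit 11794, nat_lit 11734, nat_lit 11738, nat_lit 11742] (nat_lit 0) [nat_lit 31422] false,
   Spec.mk (nat_lit 11742) (nat_lit 2) [nat_lit 24864, nat_lit 16116, nat_lit 10284, nat_lit 11256, nat_lit 11796, nat_lit 11740] (nat_lit 0) [] false,
   Spec.mk (nat_lit 11762) (nat_lit 0) [nat_lit 24884, nat_lit 16136, nat_lit 10304, nat_lit 11276, nat_lit 11924, nat_lit 11708, nat_lit 11780, nat_lit 11768] (nat_lit 0) [nat_lit 31444] false,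
   Spec.mk (nat_lit 11768) (nat_lit 0) [nat_lit 24890, nat_lit 16142, nat_lit 10310, nat_lit 11282, nat_lit 11930, nat_lit 11714, nat_lit 11786, nat_lit 11762, nat_lit 11770] (nat_lit 2) [nat_lit 31450] false,
   Spec.mk (nat_lit 11770) (nat_lit 0) [nat_lit 24892, nat_lit 16144, nat_lit 10312, nat_lit 11284, nat_lit 11932, nat_lit 11716, nat_lit 11788, nat_lit 11768] (nat_lit 0) [nat_lit 31452] false,
   Spec.mk (nat_lit 11780) (nat_lit 0) [nat_lit 24902, nat_lit 16154, nat_lit 10322, nat_lit 11294, nat_lit 11942, nat_lit 11726, nat_lit 11834, nat_lit 11762, nat_lit 11786] (nat_lit 1) [nat_lit 31462] false,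
   Spec.mk (nat_lit 11786) (nat_lit 0) [nat_lit 24908, nat_lit 16160, nat_lit 10328, nat_lit 11300, nat_lit 11948, nat_lit 11732, nat_lit 11840, nat_lit 11768, nat_lit 11804, nat_lit 11780, nat_lit 11792, nat_lit 11788] (nat_lit 1) [nat_lit 31468] false,
   Spec.mk (nat_lit 11788) (nat_lit 0) [nat_lit 24910, nat_lit 16162, nat_lit 10330, nat_lit 11302, nat_lit 11950, nat_lit 11734, nat_lit 11842, nat_lit 11770, nat_lit 11806, nat_lit 11794, nat_lit 11786] (nat_lit 0) [nat_lit 31470] false,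
   Spec.mk (nat_lit 11792) (nat_lit 0) [nat_lit 24914, nat_lit 16166, nat_lit 10334, nat_lit 11306, nat_lit 11954, nat_lit 11738, nat_lit 11846, nat_lit 11810, nat_lit 11786, nat_lit 11794] (nat_lit 3) [nat_lit 31474] false,
   Spec.mk (nat_lit 11794) (nat_lit 0) [nat_lit 24916, nat_lit 16168, nat_lit 10336, nat_lit 11308, nat_lit 11956, nat_lit 11740, nat_lit 11848, nat_lit 11812, nat_lit 11788, nat_lit 11792, nat_lit 11796] (nat_lit 0) [nat_lit 31476] false,
   Spec.mk (nat_lit 11796) (nat_lit 1) [nat_lit 24918, nat_lit 16170, nat_lit 10338, nat_lit 11310, nat_lit 11958, nat_lit 11742, nat_lit 11850, nat_lit 11814, nat_lit 11794] (nat_lit 0) [] false,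
   Spec.mk (nat_lit 11804) (nat_lit 0) [nat_lit 24926, nat_lit 16178, nat_lit 10346, nat_lit 11318, nat_lit 11966, nat_lit 11858, nat_lit 11786, nat_lit 11810, nat_lit 11806] (nat_lit 2) [nat_lit 31486] false,
   Spec.mk (nat_lit 11806) (nat_lit 0) [nat_lit 24928, nat_lit 16180, nat_lit 10348, nat_lit 11320, nat_lit 11968, nat_lit 11860, nat_lit 11788, nat_lit 11812, nat_lit 11804] (nat_lit 2) [nat_lit 31488] false,
   Spec.mk (nat_lit 11810) (nat_lit 0) [nat_lit 24932, nat_lit 16184, nat_lit 10352, nat_lit 11324, nat_lit 11972, nat_lit 11864, nat_lit 11792, nat_lit 11804, nat_lit 11812] (nat_lit 2) [nat_lit 31492] false,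
   Spec.mk (nat_lit 11812) (nat_lit 0) [nat_lit 24934, nat_lit 16186, nat_lit 10354, nat_lit 11326, nat_lit 11974, nat_lit 11866, nat_lit 11794, nat_lit 11806, nat_lit 11818, nat_lit 11810, nat_lit 11814] (nat_lit 0) [nat_lit 31494] false,
   Spec.mk (nat_lit 11814) (nat_lit 0) [nat_lit 24936, nat_lit 16188, nat_lit 10356, nat_lit 11328, nat_lit 11976, nat_lit 11868, nat_lit 11796, nat_lit 11820, nat_lit 11812] (nat_lit 0) [] false,
   Spec.mk (nat_lit 11818) (nat_lit 0) [nat_lit 24940, nat_lit 16192, nat_lit 10360, nat_lit 11332, nat_lit 11980, nat_lit 11872, nat_lit 11812, nat_lit 11820] (nat_lit 0) [nat_lit 31500] false,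
   Spec.mk (nat_lit 11820) (nat_lit 2) [nat_lit 24942, nat_lit 16194, nat_lit 10362, nat_lit 11334, nat_lit 11982, nat_lit 11874, nat_lit 11814, nat_lit 11818] (nat_lit 0) [] false,
   Spec.mk (nat_lit 11834) (nat_lit 0) [nat_lit 24956, nat_lit 16208, nat_lit 10376, nat_lit 11348, nat_lit 11996, nat_lit 11780, nat_lit 11840] (nat_lit 2) [nat_lit 31516] false]

noncomputable def sp26 : List Spec :=
  [Spec.mk (nat_lit 11840) (nat_lit 0) [nat_lit 24962, nat_lit 16214, nat_lit 10382, nat_lit 11354, nat_lit 12002, nat_lit 11786, nat_lit 11858, nat_lit 11834, nat_lit 11846, nat_lit 11842] (nat_lit 3) [nat_lit 31522] false,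
   Spec.mk (nat_lit 11842) (nat_lit 0) [nat_lit 24964, nat_lit 16216, nat_lit 10384, nat_lit 11356, nat_lit 12004, nat_lit 11788, nat_lit 11860, nat_lit 11848, nat_lit 11840] (nat_lit 2) [nat_lit 31524] false,
   Spec.mk (nat_lit 11846) (nat_lit 0) [nat_lit 24968, nat_lit 16220, nat_lit 10388, nat_lit 11360, nat_lit 12008, nat_lit 11792, nat_lit 11864, nat_lit 11840, nat_lit 11848] (nat_lit 6) [nat_lit 31528] false,
   Spec.mk (nat_lit 11848) (nat_lit 0) [nat_lit 24970, nat_lit 16222, nat_lit 10390, nat_lit 11362, nat_lit 12010, nat_lit 11794, nat_lit 11866, nat_lit 11842, nat_lit 11846, nat_lit 11850] (nat_lit 3) [nat_lit 31530] false,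
   Spec.mk (nat_lit 11850) (nat_lit 0) [nat_lit 24972, nat_lit 16224, nat_lit 10392, nat_lit 11364, nat_lit 12012, nat_lit 11796, nat_lit 11868, nat_lit 11848] (nat_lit 2) [] false,
   Spec.mk (nat_lit 11858) (nat_lit 0) [nat_lit 24980, nat_lit 16232, nat_lit 10400, nat_lit 11372, nat_lit 12020, nat_lit 11804, nat_lit 11840, nat_lit 11864, nat_lit 11860] (nat_lit 2) [nat_lit 31540] false,
   Spec.mk (nat_lit 11860) (nat_lit 0) [nat_lit 24982, nat_lit 16234, nat_lit 10402, nat_lit 11374, nat_lit 12022, nat_lit 11806, nat_lit 11842, nat_lit 11866, nat_lit 11858] (nat_lit 2) [nat_lit 31542] false,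
   Spec.mk (nat_lit 11864) (nat_lit 0) [nat_lit 24986, nat_lit 16238, nat_lit 10406, nat_lit 11378, nat_lit 12026, nat_lit 11810, nat_lit 11846, nat_lit 11882, nat_lit 11858, nat_lit 11866] (nat_lit 3) [nat_lit 31546] false,
   Spec.mk (nat_lit 11866) (nat_lit 0) [nat_lit 24988, nat_lit 16240, nat_lit 10408, nat_lit 11380, nat_lit 12028, nat_lit 11812, nat_lit 11848, nat_lit 11884, nat_lit 11860, nat_lit 11872, nat_lit 11864, nat_lit 11868] (nat_lit 1) [nat_lit 31548] false,
   Spec.mk (nat_lit 11868) (nat_lit 0) [nat_lit 24990, nat_lit 16242, nat_lit 10410, nat_lit 11382, nat_lit 12030, nat_lit 11814, nat_lit 11850, nat_lit 11886, nat_lit 11874, nat_lit 11866] (nat_lit 1) [] false,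
   Spec.mk (nat_lit 11872) (nat_lit 0) [nat_lit 24994, nat_lit 16246, nat_lit 10414, nat_lit 11386, nat_lit 12034, nat_lit 11818, nat_lit 11890, nat_lit 11866, nat_lit 11874] (nat_lit 2) [nat_lit 31554] false,
   Spec.mk (nat_lit 11874) (nat_lit 0) [nat_lit 24996, nat_lit 16248, nat_lit 10416, nat_lit 11388, nat_lit 12036, nat_lit 11820, nat_lit 11892, nat_lit 11868, nat_lit 11872] (nat_lit 0) [] false,
   Spec.mk (nat_lit 11882) (nat_lit 0) [nat_lit 25004, nat_lit 16256, nat_lit 10424, nat_lit 11396, nat_lit 12044, nat_lit 11864, nat_lit 11884] (nat_lit 2) [nat_lit 31564] false,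
   Spec.mk (nat_lit 11884) (nat_lit 0) [nat_lit 25006, nat_lit 16258, nat_lit 10426, nat_lit 11398, nat_lit 12046, nat_lit 11866, nat_lit 11890, nat_lit 11882, nat_lit 11886] (nat_lit 1) [nat_lit 31566] false,
   Spec.mk (nat_lit 11886) (nat_lit 0) [nat_lit 25008, nat_lit 16260, nat_lit 10428, nat_lit 11400, nat_lit 12048, nat_lit 11868, nat_lit 11892, nat_lit 11884] (nat_lit 2) [] false,
   Spec.mk (nat_lit 11890) (nat_lit 0) [nat_lit 25012, nat_lit 16264, nat_lit 10432, nat_lit 11404, nat_lit 12052, nat_lit 11872, nat_lit 11884, nat_lit 11892] (nat_lit 0) [nat_lit 31572] false,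
   Spec.mk (nat_lit 11892) (nat_lit 1) [nat_lit 25014, nat_lit 16266, nat_lit 10434, nat_lit 11406, nat_lit 12054, nat_lit 11874, nat_lit 11886, nat_lit 11898, nat_lit 11890] (nat_lit 0) [] false,
   Spec.mk (nat_lit 11898) (nat_lit 2) [nat_lit 25020, nat_lit 16272, nat_lit 10440, nat_lit 11412, nat_lit 12060, nat_lit 11892] (nat_lit 0) [] false,
   Spec.mk (nat_lit 11924) (nat_lit 1) [nat_lit 25046, nat_lit 16298, nat_lit 10466, nat_lit 11438, nat_lit 12410, nat_lit 11762, nat_lit 11942, nat_lit 11930] (nat_lit 0) [nat_lit 31606] false,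
   Spec.mk (nat_lit 11930) (nat_lit 0) [nat_lit 25052, nat_lit 16304, nat_lit 10472, nat_lit 11444, nat_lit 12416, nat_lit 11768, nat_lit 11948, nat_lit 11924, nat_lit 11932] (nat_lit 1) [nat_lit 31612] false,
   Spec.mk (nat_lit 11932) (nat_lit 1) [nat_lit 25054, nat_lit 16306, nat_lit 10474, nat_lit 11446, nat_lit 12418, nat_lit 11770, nat_lit 11950, nat_lit 11930] (nat_lit 0) [nat_lit 31614] false,
   Spec.mk (nat_lit 11942) (nat_lit 0) [nat_lit 25064, nat_lit 16316, nat_lit 10484, nat_lit 11456, nat_lit 12428, nat_lit 11780, nat_lit 11996, nat_lit 11924, nat_lit 11948] (nat_lit 1) [nat_lit 31624] false,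
   Spec.mk (nat_lit 11948) (nat_lit 0) [nat_lit 25070, nat_lit 16322, nat_lit 10490, nat_lit 11462, nat_lit 12434, nat_lit 11786, nat_lit 12002, nat_lit 11930, nat_lit 11966, nat_lit 11942, nat_lit 11954, nat_lit 11950] (nat_lit 1) [nat_lit 31630] false,
   Spec.mk (nat_lit 11950) (nat_lit 0) [nat_lit 25072, nat_lit 16324, nat_lit 10492, nat_lit 11464, nat_lit 12436, nat_lit 11788, nat_lit 12004, nat_lit 11932, nat_lit 11968, nat_lit 11956, nat_lit 11948] (nat_lit 0) [nat_lit 31632] false,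
   Spec.mk (nat_lit 11954) (nat_lit 0) [nat_lit 25076, nat_lit 16328, nat_lit 10496, nat_lit 11468, nat_lit 12440, nat_lit 11792, nat_lit 12008, nat_lit 11972, nat_lit 11948, nat_lit 11956] (nat_lit 3) [nat_lit 31636] false,
   Spec.mk (nat_lit 11956) (nat_lit 0) [nat_lit 25078, nat_lit 16330, nat_lit 10498, nat_lit 11470, nat_lit 12442, nat_lit 11794, nat_lit 12010, nat_lit 11974, nat_lit 11950, nat_lit 11954, nat_lit 11958] (nat_lit 0) [nat_lit 31638] false,
   Spec.mk (nat_lit 11958) (nat_lit 1) [nat_lit 25080, nat_lit 16332, nat_lit 10500, nat_lit 11472, nat_lit 12444, nat_lit 11796, nat_lit 12012, nat_lit 11976, nat_lit 11956] (nat_lit 0) [] false,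
   Spec.mk (nat_lit 11966) (nat_lit 0) [nat_lit 25088, nat_lit 16340, nat_lit 10508, nat_lit 11480, nat_lit 12452, nat_lit 11804, nat_lit 12020, nat_lit 11948, nat_lit 11972, nat_lit 11968] (nat_lit 3) [nat_lit 31648] false,
   Spec.mk (nat_lit 11968) (nat_lit 0) [nat_lit 25090, nat_lit 16342, nat_lit 10510, nat_lit 11482, nat_lit 12454, nat_lit 11806, nat_lit 12022, nat_lit 11950, nat_lit 11974, nat_lit 11966] (nat_lit 3) [nat_lit 31650] false,
   Spec.mk (nat_lit 11972) (nat_lit 0) [nat_lit 25094, nat_lit 16346, nat_lit 10514, nat_lit 11486, nat_lit 12458, nat_lit 11810, nat_lit 12026, nat_lit 11954, nat_lit 11966, nat_lit 11974] (nat_lit 3) [nat_lit 31654] false,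
   Spec.mk (nat_lit 11974) (nat_lit 0) [nat_lit 25096, nat_lit 16348, nat_lit 10516, nat_lit 11488, nat_lit 12460, nat_lit 11812, nat_lit 12028, nat_lit 11956, nat_lit 11968, nat_lit 11980, nat_lit 11972, nat_lit 11976] (nat_lit 1) [nat_lit 31656] false,
   Spec.mk (nat_lit 11976) (nat_lit 0) [nat_lit 25098, nat_lit 16350, nat_lit 10518, nat_lit 11490, nat_lit 12462, nat_lit 11814, nat_lit 12030, nat_lit 11958, nat_lit 11982, nat_lit 11974] (nat_lit 1) [] false,
   Spec.mk (nat_lit 11980) (nat_lit 0) [nat_lit 25102, nat_lit 16354, nat_lit 10522, nat_lit 11494, nat_lit 12466, nat_lit 11818, nat_lit 12034, nat_lit 11974, nat_lit 11982] (nat_lit 1) [nat_lit 31662] false,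
   Spec.mk (nat_lit 11982) (nat_lit 1) [nat_lit 25104, nat_lit 16356, nat_lit 10524, nat_lit 11496, nat_lit 12468, nat_lit 11820, nat_lit 12036, nat_lit 11976, nat_lit 11980] (nat_lit 0) [] false,
   Spec.mk (nat_lit 11996) (nat_lit 0) [nat_lit 25118, nat_lit 16370, nat_lit 10538, nat_lit 11510, nat_lit 12482, nat_lit 11834, nat_lit 12158, nat_lit 11942, nat_lit 12002] (nat_lit 0) [nat_lit 31678] false,
   Spec.mk (nat_lit 12002) (nat_lit 0) [nat_lit 25124, nat_lit 16376, nat_lit 10544, nat_lit 11516, nat_lit 12488, nat_lit 11840, nat_lit 12164, nat_lit 11948, nat_lit 12020, nat_lit 11996, nat_lit 12008, nat_lit 12004] (nat_lit 1) [nat_lit 31684] false,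
   Spec.mk (nat_lit 12004) (nat_lit 0) [nat_lit 25126, nat_lit 16378, nat_lit 10546, nat_lit 11518, nat_lit 12490, nat_lit 11842, nat_lit 12166, nat_lit 11950, nat_lit 12022, nat_lit 12010, nat_lit 12002] (nat_lit 0) [nat_lit 31686] false,
   Spec.mk (nat_lit 12008) (nat_lit 0) [nat_lit 25130, nat_lit 16382, nat_lit 10550, nat_lit 11522, nat_lit 12494, nat_lit 11846, nat_lit 12170, nat_lit 11954, nat_lit 12026, nat_lit 12002, nat_lit 12010] (nat_lit 4) [nat_lit 31690] false,
   Spec.mk (nat_lit 12010) (nat_lit 0) [nat_lit 25132, nat_lit 16384, nat_lit 10552, nat_lit 11524, nat_lit 12496, nat_lit 11848, nat_lit 12172, nat_lit 11956, nat_lit 12028, nat_lit 12004, nat_lit 12008, nat_lit 12012] (nat_lit 1) [nat_lit 31692] false,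
   Spec.mk (nat_lit 12012) (nat_lit 0) [nat_lit 25134, nat_lit 16386, nat_lit 10554, nat_lit 11526, nat_lit 12498, nat_lit 11850, nat_lit 12174, nat_lit 11958, nat_lit 12030, nat_lit 12010] (nat_lit 0) [] false,
   Spec.mk (nat_lit 12020) (nat_lit 0) [nat_lit 25142, nat_lit 16394, nat_lit 10562, nat_lit 11534, nat_lit 12506, nat_lit 11858, nat_lit 12182, nat_lit 11966, nat_lit 12074, nat_lit 12002, nat_lit 12026, nat_lit 12022] (nat_lit 1) [nat_lit 31702] false,
   Spec.mk (nat_lit 12022) (nat_lit 0) [nat_lit 25144, nat_lit 16396, nat_lit 10564, nat_lit 11536, nat_lit 12508, nat_lit 11860, nat_lit 12184, nat_lit 11968, nat_lit 12076, nat_lit 12004, nat_lit 12028, nat_lit 12020] (nat_lit 1) [nat_lit 31704] false,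
   Spec.mk (nat_lit 12026) (nat_lit 0) [nat_lit 25148, nat_lit 16400, nat_lit 10568, nat_lit 11540, nat_lit 12512, nat_lit 11864, nat_lit 12188, nat_lit 11972, nat_lit 12080, nat_lit 12008, nat_lit 12044, nat_lit 12020, nat_lit 12028] (nat_lit 2) [nat_lit 31708] false,
   Spec.mk (nat_lit 12028) (nat_lit 0) [nat_lit 25150, nat_lit 16402, nat_lit 10570, nat_lit 11542, nat_lit 12514, nat_lit 11866, nat_lit 12190, nat_lit 11974, nat_lit 12082, nat_lit 12010, nat_lit 12046, nat_lit 12022, nat_lit 12034, nat_lit 12026, nat_lit 12030] (nat_lit 0) [nat_lit 31710] false,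
   Spec.mk (nat_lit 12030) (nat_lit 0) [nat_lit 25152, nat_lit 16404, nat_lit 10572, nat_lit 11544, nat_lit 12516, nat_lit 11868, nat_lit 12192, nat_lit 11976, nat_lit 12084, nat_lit 12012, nat_lit 12048, nat_lit 12036, nat_lit 12028] (nat_lit 0) [] false,
   Spec.mk (nat_lit 12034) (nat_lit 0) [nat_lit 25156, nat_lit 16408, nat_lit 10576, nat_lit 11548, nat_lit 12520, nat_lit 11872, nat_lit 12196, nat_lit 11980, nat_lit 12088, nat_lit 12052, nat_lit 12028, nat_lit 12036] (nat_lit 1) [nat_lit 31716] false,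
   Spec.mk (nat_lit 12036) (nat_lit 1) [nat_lit 25158, nat_lit 16410, nat_lit 10578, nat_lit 11550, nat_lit 12522, nat_lit 11874, nat_lit 12198, nat_lit 11982, nat_lit 12090, nat_lit 12054, nat_lit 12030, nat_lit 12034] (nat_lit 0) [] false,
   Spec.mk (nat_lit 12044) (nat_lit 0) [nat_lit 25166, nat_lit 16418, nat_lit 10586, nat_lit 11558, nat_lit 12530, nat_lit 11882, nat_lit 12206, nat_lit 12098, nat_lit 12026, nat_lit 12046] (nat_lit 2) [nat_lit 31726] false,
   Spec.mk (nat_lit 12046) (nat_lit 0) [nat_lit 25168, nat_lit 16420, nat_lit 10588, nat_lit 11560, nat_lit 12532, nat_lit 11884, nat_lit 12208, nat_lit 12100, nat_lit 12028, nat_lit 12052, nat_lit 12044, nat_lit 12048] (nat_lit 1) [nat_lit 31728] false,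
   Spec.mk (nat_lit 12048) (nat_lit 0) [nat_lit 25170, nat_lit 16422, nat_lit 10590, nat_lit 11562, nat_lit 12534, nat_lit 11886, nat_lit 12210, nat_lit 12102, nat_lit 12030, nat_lit 12054, nat_lit 12046] (nat_lit 2) [] false,
   Spec.mk (nat_lit 12052) (nat_lit 0) [nat_lit 25174, nat_lit 16426, nat_lit 10594, nat_lit 11566, nat_lit 12538, nat_lit 11890, nat_lit 12214, nat_lit 12106, nat_lit 12034, nat_lit 12046, nat_lit 12054] (nat_lit 0) [nat_lit 31734] false,
   Spec.mk (nat_lit 12054) (nat_lit 1) [nat_lit 25176, nat_lit 16428, nat_lit 10596, nat_lit 11568, nat_lit 12540, nat_lit 11892, nat_lit 12216, nat_lit 12108, nat_lit 12036, nat_lit 12048, nat_lit 12060, nat_lit 12052] (nat_lit 0) [] false,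
   Spec.mk (nat_lit 12060) (nat_lit 2) [nat_lit 25182, nat_lit 16434, nat_lit 10602, nat_lit 11574, nat_lit 12546, nat_lit 11898, nat_lit 12222, nat_lit 12114, nat_lit 12054] (nat_lit 0) [] false,
   Spec.mk (nat_lit 12074) (nat_lit 0) [nat_lit 25196, nat_lit 16448, nat_lit 10616, nat_lit 11588, nat_lit 12560, nat_lit 12236, nat_lit 12020, nat_lit 12080, nat_lit 12076] (nat_lit 1) [nat_lit 31756] false,
   Spec.mk (nat_lit 12076) (nat_lit 0) [nat_lit 25198, nat_lit 16450, nat_lit 10618, nat_lit 11590, nat_lit 12562, nat_lit 12238, nat_lit 12022, nat_lit 12082, nat_lit 12074] (nat_lit 1) [nat_lit 31758] false,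
   Spec.mk (nat_lit 12080) (nat_lit 0) [nat_lit 25202, nat_lit 16454, nat_lit 10622, nat_lit 11594, nat_lit 12566, nat_lit 12242, nat_lit 12026, nat_lit 12098, nat_lit 12074, nat_lit 12082] (nat_lit 3) [nat_lit 31762] false,
   Spec.mk (nat_lit 12082) (nat_lit 0) [nat_lit 25204, nat_lit 16456, nat_lit 10624, nat_lit 11596, nat_lit 12568, nat_lit 12244, nat_lit 12028, nat_lit 12100, nat_lit 12076, nat_lit 12088, nat_lit 12080, nat_lit 12084] (nat_lit 1) [nat_lit 31764] false,
   Spec.mk (nat_lit 12084) (nat_lit 0) [nat_lit 25206, nat_lit 16458, nat_lit 10626, nat_lit 11598, nat_lit 12570, nat_lit 12246, nat_lit 12030, nat_lit 12102, nat_lit 12090, nat_lit 12082] (nat_lit 1) [] false,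
   Spec.mk (nat_lit 12088) (nat_lit 0) [nat_lit 25210, nat_lit 16462, nat_lit 10630, nat_lit 11602, nat_lit 12574, nat_lit 12250, nat_lit 12034, nat_lit 12106, nat_lit 12082, nat_lit 12090] (nat_lit 3) [nat_lit 31770] false,
   Spec.mk (nat_lit 12090) (nat_lit 0) [nat_lit 25212, nat_lit 16464, nat_lit 10632, nat_lit 11604, nat_lit 12576, nat_lit 12252, nat_lit 12036, nat_lit 12108, nat_lit 12084, nat_lit 12088] (nat_lit 1) [] false]

noncomputable def sp27 : List Spec :=
  [Spec.mk (nat_lit 12098) (nat_lit 0) [nat_lit 25220, nat_lit 16472, nat_lit 10640, nat_lit 11612, nat_lit 12584, nat_lit 12260, nat_lit 12044, nat_lit 12080, nat_lit 12100] (nat_lit 1) [nat_lit 31780] false,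
   Spec.mk (nat_lit 12100) (nat_lit 0) [nat_lit 25222, nat_lit 16474, nat_lit 10642, nat_lit 11614, nat_lit 12586, nat_lit 12262, nat_lit 12046, nat_lit 12082, nat_lit 12106, nat_lit 12098, nat_lit 12102] (nat_lit 0) [nat_lit 31782] false,
   Spec.mk (nat_lit 12102) (nat_lit 0) [nat_lit 25224, nat_lit 16476, nat_lit 10644, nat_lit 11616, nat_lit 12588, nat_lit 12264, nat_lit 12048, nat_lit 12084, nat_lit 12108, nat_lit 12100] (nat_lit 1) [] false,
   Spec.mk (nat_lit 12106) (nat_lit 0) [nat_lit 25228, nat_lit 16480, nat_lit 10648, nat_lit 11620, nat_lit 12592, nat_lit 12268, nat_lit 12052, nat_lit 12088, nat_lit 12124, nat_lit 12100, nat_lit 12108] (nat_lit 0) [nat_lit 31788] false,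
   Spec.mk (nat_lit 12108) (nat_lit 1) [nat_lit 25230, nat_lit 16482, nat_lit 10650, nat_lit 11622, nat_lit 12594, nat_lit 12270, nat_lit 12054, nat_lit 12090, nat_lit 12126, nat_lit 12102, nat_lit 12114, nat_lit 12106] (nat_lit 0) [] false,
   Spec.mk (nat_lit 12114) (nat_lit 1) [nat_lit 25236, nat_lit 16488, nat_lit 10656, nat_lit 11628, nat_lit 12600, nat_lit 12276, nat_lit 12060, nat_lit 12132, nat_lit 12108] (nat_lit 0) [] false,
   Spec.mk (nat_lit 12124) (nat_lit 1) [nat_lit 25246, nat_lit 16498, nat_lit 10666, nat_lit 11638, nat_lit 12610, nat_lit 12286, nat_lit 12106, nat_lit 12126] (nat_lit 0) [nat_lit 31806] false,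
   Spec.mk (nat_lit 12126) (nat_lit 1) [nat_lit 25248, nat_lit 16500, nat_lit 10668, nat_lit 11640, nat_lit 12612, nat_lit 12288, nat_lit 12108, nat_lit 12132, nat_lit 12124] (nat_lit 0) [] false,
   Spec.mk (nat_lit 12132) (nat_lit 3) [nat_lit 25254, nat_lit 16506, nat_lit 10674, nat_lit 11646, nat_lit 12618, nat_lit 12294, nat_lit 12114, nat_lit 12126] (nat_lit 0) [] false,
   Spec.mk (nat_lit 12158) (nat_lit 0) [nat_lit 25280, nat_lit 16532, nat_lit 10700, nat_lit 12644, nat_lit 11996, nat_lit 12164] (nat_lit 0) [nat_lit 31840] false,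
   Spec.mk (nat_lit 12164) (nat_lit 0) [nat_lit 25286, nat_lit 16538, nat_lit 10706, nat_lit 12650, nat_lit 12002, nat_lit 12182, nat_lit 12158, nat_lit 12170, nat_lit 12166] (nat_lit 1) [nat_lit 31846] false,
   Spec.mk (nat_lit 12166) (nat_lit 0) [nat_lit 25288, nat_lit 16540, nat_lit 10708, nat_lit 12652, nat_lit 12004, nat_lit 12184, nat_lit 12172, nat_lit 12164] (nat_lit 0) [nat_lit 31848] false,
   Spec.mk (nat_lit 12170) (nat_lit 0) [nat_lit 25292, nat_lit 16544, nat_lit 10712, nat_lit 12656, nat_lit 12008, nat_lit 12188, nat_lit 12164, nat_lit 12172] (nat_lit 4) [nat_lit 31852] false,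
   Spec.mk (nat_lit 12172) (nat_lit 0) [nat_lit 25294, nat_lit 16546, nat_lit 10714, nat_lit 12658, nat_lit 12010, nat_lit 12190, nat_lit 12166, nat_lit 12170, nat_lit 12174] (nat_lit 1) [nat_lit 31854] false,
   Spec.mk (nat_lit 12174) (nat_lit 0) [nat_lit 25296, nat_lit 16548, nat_lit 10716, nat_lit 12660, nat_lit 12012, nat_lit 12192, nat_lit 12172] (nat_lit 0) [] false,
   Spec.mk (nat_lit 12182) (nat_lit 0) [nat_lit 25304, nat_lit 16556, nat_lit 10724, nat_lit 12668, nat_lit 12020, nat_lit 12236, nat_lit 12164, nat_lit 12188, nat_lit 12184] (nat_lit 2) [nat_lit 31864] false,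
   Spec.mk (nat_lit 12184) (nat_lit 0) [nat_lit 25306, nat_lit 16558, nat_lit 10726, nat_lit 12670, nat_lit 12022, nat_lit 12238, nat_lit 12166, nat_lit 12190, nat_lit 12182] (nat_lit 2) [nat_lit 31866] false,
   Spec.mk (nat_lit 12188) (nat_lit 0) [nat_lit 25310, nat_lit 16562, nat_lit 10730, nat_lit 12674, nat_lit 12026, nat_lit 12242, nat_lit 12170, nat_lit 12206, nat_lit 12182, nat_lit 12190] (nat_lit 3) [nat_lit 31870] false,
   Spec.mk (nat_lit 12190) (nat_lit 0) [nat_lit 25312, nat_lit 16564, nat_lit 10732, nat_lit 12676, nat_lit 12028, nat_lit 12244, nat_lit 12172, nat_lit 12208, nat_lit 12184, nat_lit 12196, nat_lit 12188, nat_lit 12192] (nat_lit 1) [nat_lit 31872] false,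
   Spec.mk (nat_lit 12192) (nat_lit 0) [nat_lit 25314, nat_lit 16566, nat_lit 10734, nat_lit 12678, nat_lit 12030, nat_lit 12246, nat_lit 12174, nat_lit 12210, nat_lit 12198, nat_lit 12190] (nat_lit 1) [] false,
   Spec.mk (nat_lit 12196) (nat_lit 0) [nat_lit 25318, nat_lit 16570, nat_lit 10738, nat_lit 12682, nat_lit 12034, nat_lit 12250, nat_lit 12214, nat_lit 12190, nat_lit 12198] (nat_lit 2) [nat_lit 31878] false,
   Spec.mk (nat_lit 12198) (nat_lit 0) [nat_lit 25320, nat_lit 16572, nat_lit 10740, nat_lit 12684, nat_lit 12036, nat_lit 12252, nat_lit 12216, nat_lit 12192, nat_lit 12196] (nat_lit 0) [] false,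
   Spec.mk (nat_lit 12206) (nat_lit 0) [nat_lit 25328, nat_lit 16580, nat_lit 10748, nat_lit 12692, nat_lit 12044, nat_lit 12260, nat_lit 12188, nat_lit 12208] (nat_lit 4) [nat_lit 31888] false,
   Spec.mk (nat_lit 12208) (nat_lit 0) [nat_lit 25330, nat_lit 16582, nat_lit 10750, nat_lit 12694, nat_lit 12046, nat_lit 12262, nat_lit 12190, nat_lit 12214, nat_lit 12206, nat_lit 12210] (nat_lit 3) [nat_lit 31890] false,
   Spec.mk (nat_lit 12210) (nat_lit 0) [nat_lit 25332, nat_lit 16584, nat_lit 10752, nat_lit 12696, nat_lit 12048, nat_lit 12264, nat_lit 12192, nat_lit 12216, nat_lit 12208] (nat_lit 4) [] false,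
   Spec.mk (nat_lit 12214) (nat_lit 0) [nat_lit 25336, nat_lit 16588, nat_lit 10756, nat_lit 12700, nat_lit 12052, nat_lit 12268, nat_lit 12196, nat_lit 12208, nat_lit 12216] (nat_lit 2) [nat_lit 31896] false,
   Spec.mk (nat_lit 12216) (nat_lit 0) [nat_lit 25338, nat_lit 16590, nat_lit 10758, nat_lit 12702, nat_lit 12054, nat_lit 12270, nat_lit 12198, nat_lit 12210, nat_lit 12222, nat_lit 12214] (nat_lit 1) [] false,
   Spec.mk (nat_lit 12222) (nat_lit 0) [nat_lit 25344, nat_lit 16596, nat_lit 10764, nat_lit 12708, nat_lit 12060, nat_lit 12276, nat_lit 12216] (nat_lit 0) [] false,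
   Spec.mk (nat_lit 12236) (nat_lit 0) [nat_lit 25358, nat_lit 16610, nat_lit 10778, nat_lit 12722, nat_lit 12074, nat_lit 12182, nat_lit 12242, nat_lit 12238] (nat_lit 0) [nat_lit 31918] false,
   Spec.mk (nat_lit 12238) (nat_lit 0) [nat_lit 25360, nat_lit 16612, nat_lit 10780, nat_lit 12724, nat_lit 12076, nat_lit 12184, nat_lit 12244, nat_lit 12236] (nat_lit 0) [nat_lit 31920] false,
   Spec.mk (nat_lit 12242) (nat_lit 0) [nat_lit 25364, nat_lit 16616, nat_lit 10784, nat_lit 12728, nat_lit 12080, nat_lit 12188, nat_lit 12260, nat_lit 12236, nat_lit 12244] (nat_lit 2) [nat_lit 31924] false,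
   Spec.mk (nat_lit 12244) (nat_lit 0) [nat_lit 25366, nat_lit 16618, nat_lit 10786, nat_lit 12730, nat_lit 12082, nat_lit 12190, nat_lit 12262, nat_lit 12238, nat_lit 12250, nat_lit 12242, nat_lit 12246] (nat_lit 0) [nat_lit 31926] false,
   Spec.mk (nat_lit 12246) (nat_lit 0) [nat_lit 25368, nat_lit 16620, nat_lit 10788, nat_lit 12732, nat_lit 12084, nat_lit 12192, nat_lit 12264, nat_lit 12252, nat_lit 12244] (nat_lit 0) [] false,
   Spec.mk (nat_lit 12250) (nat_lit 0) [nat_lit 25372, nat_lit 16624, nat_lit 10792, nat_lit 12736, nat_lit 12088, nat_lit 12196, nat_lit 12268, nat_lit 12244, nat_lit 12252] (nat_lit 2) [nat_lit 31932] false,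
   Spec.mk (nat_lit 12252) (nat_lit 0) [nat_lit 25374, nat_lit 16626, nat_lit 10794, nat_lit 12738, nat_lit 12090, nat_lit 12198, nat_lit 12270, nat_lit 12246, nat_lit 12250] (nat_lit 0) [] false,
   Spec.mk (nat_lit 12260) (nat_lit 0) [nat_lit 25382, nat_lit 16634, nat_lit 10802, nat_lit 12746, nat_lit 12098, nat_lit 12206, nat_lit 12314, nat_lit 12242, nat_lit 12262] (nat_lit 1) [nat_lit 31942] false,
   Spec.mk (nat_lit 12262) (nat_lit 0) [nat_lit 25384, nat_lit 16636, nat_lit 10804, nat_lit 12748, nat_lit 12100, nat_lit 12208, nat_lit 12316, nat_lit 12244, nat_lit 12268, nat_lit 12260, nat_lit 12264] (nat_lit 0) [nat_lit 31944] false,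
   Spec.mk (nat_lit 12264) (nat_lit 0) [nat_lit 25386, nat_lit 16638, nat_lit 10806, nat_lit 12750, nat_lit 12102, nat_lit 12210, nat_lit 12318, nat_lit 12246, nat_lit 12270, nat_lit 12262] (nat_lit 1) [] false,
   Spec.mk (nat_lit 12268) (nat_lit 0) [nat_lit 25390, nat_lit 16642, nat_lit 10810, nat_lit 12754, nat_lit 12106, nat_lit 12214, nat_lit 12322, nat_lit 12250, nat_lit 12286, nat_lit 12262, nat_lit 12270] (nat_lit 0) [nat_lit 31950] false,
   Spec.mk (nat_lit 12270) (nat_lit 1) [nat_lit 25392, nat_lit 16644, nat_lit 10812, nat_lit 12756, nat_lit 12108, nat_lit 12216, nat_lit 12324, nat_lit 12252, nat_lit 12288, nat_lit 12264, nat_lit 12276, nat_lit 12268] (nat_lit 0) [] false,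
   Spec.mk (nat_lit 12276) (nat_lit 1) [nat_lit 25398, nat_lit 16650, nat_lit 10818, nat_lit 12762, nat_lit 12114, nat_lit 12222, nat_lit 12330, nat_lit 12294, nat_lit 12270] (nat_lit 0) [] false,
   Spec.mk (nat_lit 12286) (nat_lit 0) [nat_lit 25408, nat_lit 16660, nat_lit 10828, nat_lit 12772, nat_lit 12124, nat_lit 12340, nat_lit 12268, nat_lit 12288] (nat_lit 0) [nat_lit 31968] false,
   Spec.mk (nat_lit 12288) (nat_lit 0) [nat_lit 25410, nat_lit 16662, nat_lit 10830, nat_lit 12774, nat_lit 12126, nat_lit 12342, nat_lit 12270, nat_lit 12294, nat_lit 12286] (nat_lit 0) [] false,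
   Spec.mk (nat_lit 12294) (nat_lit 2) [nat_lit 25416, nat_lit 16668, nat_lit 10836, nat_lit 12780, nat_lit 12132, nat_lit 12348, nat_lit 12276, nat_lit 12288] (nat_lit 0) [] false,
   Spec.mk (nat_lit 12314) (nat_lit 0) [nat_lit 25436, nat_lit 16688, nat_lit 10856, nat_lit 12800, nat_lit 12260, nat_lit 12316] (nat_lit 0) [nat_lit 31996] false,
   Spec.mk (nat_lit 12316) (nat_lit 1) [nat_lit 25438, nat_lit 16690, nat_lit 10858, nat_lit 12802, nat_lit 12262, nat_lit 12322, nat_lit 12314, nat_lit 12318] (nat_lit 0) [nat_lit 31998] false,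
   Spec.mk (nat_lit 12318) (nat_lit 0) [nat_lit 25440, nat_lit 16692, nat_lit 10860, nat_lit 12804, nat_lit 12264, nat_lit 12324, nat_lit 12316] (nat_lit 0) [] false,
   Spec.mk (nat_lit 12322) (nat_lit 0) [nat_lit 25444, nat_lit 16696, nat_lit 10864, nat_lit 12808, nat_lit 12268, nat_lit 12340, nat_lit 12316, nat_lit 12324] (nat_lit 0) [nat_lit 32004] false,
   Spec.mk (nat_lit 12324) (nat_lit 1) [nat_lit 25446, nat_lit 16698, nat_lit 10866, nat_lit 12810, nat_lit 12270, nat_lit 12342, nat_lit 12318, nat_lit 12330, nat_lit 12322] (nat_lit 0) [] false,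
   Spec.mk (nat_lit 12330) (nat_lit 0) [nat_lit 25452, nat_lit 16704, nat_lit 10872, nat_lit 12816, nat_lit 12276, nat_lit 12348, nat_lit 12324] (nat_lit 0) [] false,
   Spec.mk (nat_lit 12340) (nat_lit 2) [nat_lit 25462, nat_lit 16714, nat_lit 10882, nat_lit 12826, nat_lit 12286, nat_lit 12322, nat_lit 12342] (nat_lit 0) [nat_lit 32022] false,
   Spec.mk (nat_lit 12342) (nat_lit 2) [nat_lit 25464, nat_lit 16716, nat_lit 10884, nat_lit 12828, nat_lit 12288, nat_lit 12324, nat_lit 12348, nat_lit 12340] (nat_lit 0) [] false,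
   Spec.mk (nat_lit 12348) (nat_lit 3) [nat_lit 25470, nat_lit 16722, nat_lit 10890, nat_lit 12834, nat_lit 12294, nat_lit 12330, nat_lit 12366, nat_lit 12342] (nat_lit 0) [] false,
   Spec.mk (nat_lit 12366) (nat_lit 4) [nat_lit 25488, nat_lit 16740, nat_lit 10908, nat_lit 12852, nat_lit 12348] (nat_lit 0) [] false,
   Spec.mk (nat_lit 12410) (nat_lit 2) [nat_lit 25532, nat_lit 16784, nat_lit 11924, nat_lit 12428, nat_lit 12416] (nat_lit 0) [nat_lit 32092] false,
   Spec.mk (nat_lit 12416) (nat_lit 0) [nat_lit 25538, nat_lit 16790, nat_lit 11930, nat_lit 12434, nat_lit 12410, nat_lit 12418] (nat_lit 0) [nat_lit 32098] false,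
   Spec.mk (nat_lit 12418) (nat_lit 2) [nat_lit 25540, nat_lit 16792, nat_lit 11932, nat_lit 12436, nat_lit 12416] (nat_lit 0) [nat_lit 32100] false,
   Spec.mk (nat_lit 12428) (nat_lit 0) [nat_lit 25550, nat_lit 16802, nat_lit 11942, nat_lit 12482, nat_lit 12410, nat_lit 12434] (nat_lit 0) [nat_lit 32110] false,
   Spec.mk (nat_lit 12434) (nat_lit 0) [nat_lit 25556, nat_lit 16808, nat_lit 11948, nat_lit 12488, nat_lit 12416, nat_lit 12452, nat_lit 12428, nat_lit 12440, nat_lit 12436] (nat_lit 0) [nat_lit 32116] false,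
   Spec.mk (nat_lit 12436) (nat_lit 1) [nat_lit 25558, nat_lit 16810, nat_lit 11950, nat_lit 12490, nat_lit 12418, nat_lit 12454, nat_lit 12442, nat_lit 12434] (nat_lit 0) [nat_lit 32118] false]

noncomputable def sp28 : List Spec :=
  [Spec.mk (nat_lit 12440) (nat_lit 0) [nat_lit 25562, nat_lit 16814, nat_lit 11954, nat_lit 12494, nat_lit 12458, nat_lit 12434, nat_lit 12442] (nat_lit 2) [nat_lit 32122] false,
   Spec.mk (nat_lit 12442) (nat_lit 1) [nat_lit 25564, nat_lit 16816, nat_lit 11956, nat_lit 12496, nat_lit 12460, nat_lit 12436, nat_lit 12440, nat_lit 12444] (nat_lit 0) [nat_lit 32124] false,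
   Spec.mk (nat_lit 12444) (nat_lit 2) [nat_lit 25566, nat_lit 16818, nat_lit 11958, nat_lit 12498, nat_lit 12462, nat_lit 12442] (nat_lit 0) [] false,
   Spec.mk (nat_lit 12452) (nat_lit 0) [nat_lit 25574, nat_lit 16826, nat_lit 11966, nat_lit 12506, nat_lit 12434, nat_lit 12458, nat_lit 12454] (nat_lit 2) [nat_lit 32134] false,
   Spec.mk (nat_lit 12454) (nat_lit 0) [nat_lit 25576, nat_lit 16828, nat_lit 11968, nat_lit 12508, nat_lit 12436, nat_lit 12460, nat_lit 12452] (nat_lit 2) [nat_lit 32136] false,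
   Spec.mk (nat_lit 12458) (nat_lit 0) [nat_lit 25580, nat_lit 16832, nat_lit 11972, nat_lit 12512, nat_lit 12440, nat_lit 12452, nat_lit 12460] (nat_lit 2) [nat_lit 32140] false,
   Spec.mk (nat_lit 12460) (nat_lit 0) [nat_lit 25582, nat_lit 16834, nat_lit 11974, nat_lit 12514, nat_lit 12442, nat_lit 12454, nat_lit 12466, nat_lit 12458, nat_lit 12462] (nat_lit 0) [nat_lit 32142] false,
   Spec.mk (nat_lit 12462) (nat_lit 0) [nat_lit 25584, nat_lit 16836, nat_lit 11976, nat_lit 12516, nat_lit 12444, nat_lit 12468, nat_lit 12460] (nat_lit 0) [] false,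
   Spec.mk (nat_lit 12466) (nat_lit 0) [nat_lit 25588, nat_lit 16840, nat_lit 11980, nat_lit 12520, nat_lit 12460, nat_lit 12468] (nat_lit 0) [nat_lit 32148] false,
   Spec.mk (nat_lit 12468) (nat_lit 2) [nat_lit 25590, nat_lit 16842, nat_lit 11982, nat_lit 12522, nat_lit 12462, nat_lit 12466] (nat_lit 0) [] false,
   Spec.mk (nat_lit 12482) (nat_lit 0) [nat_lit 25604, nat_lit 16856, nat_lit 11996, nat_lit 12644, nat_lit 12428, nat_lit 12488] (nat_lit 0) [nat_lit 32164] false,
   Spec.mk (nat_lit 12488) (nat_lit 0) [nat_lit 25610, nat_lit 16862, nat_lit 12002, nat_lit 12650, nat_lit 12434, nat_lit 12506, nat_lit 12482, nat_lit 12494, nat_lit 12490] (nat_lit 1) [nat_lit 32170] false,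
   Spec.mk (nat_lit 12490) (nat_lit 0) [nat_lit 25612, nat_lit 16864, nat_lit 12004, nat_lit 12652, nat_lit 12436, nat_lit 12508, nat_lit 12496, nat_lit 12488] (nat_lit 0) [nat_lit 32172] false,
   Spec.mk (nat_lit 12494) (nat_lit 0) [nat_lit 25616, nat_lit 16868, nat_lit 12008, nat_lit 12656, nat_lit 12440, nat_lit 12512, nat_lit 12488, nat_lit 12496] (nat_lit 4) [nat_lit 32176] false,
   Spec.mk (nat_lit 12496) (nat_lit 0) [nat_lit 25618, nat_lit 16870, nat_lit 12010, nat_lit 12658, nat_lit 12442, nat_lit 12514, nat_lit 12490, nat_lit 12494, nat_lit 12498] (nat_lit 1) [nat_lit 32178] false,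
   Spec.mk (nat_lit 12498) (nat_lit 0) [nat_lit 25620, nat_lit 16872, nat_lit 12012, nat_lit 12660, nat_lit 12444, nat_lit 12516, nat_lit 12496] (nat_lit 0) [] false,
   Spec.mk (nat_lit 12506) (nat_lit 0) [nat_lit 25628, nat_lit 16880, nat_lit 12020, nat_lit 12668, nat_lit 12452, nat_lit 12560, nat_lit 12488, nat_lit 12512, nat_lit 12508] (nat_lit 1) [nat_lit 32188] false,
   Spec.mk (nat_lit 12508) (nat_lit 0) [nat_lit 25630, nat_lit 16882, nat_lit 12022, nat_lit 12670, nat_lit 12454, nat_lit 12562, nat_lit 12490, nat_lit 12514, nat_lit 12506] (nat_lit 1) [nat_lit 32190] false,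
   Spec.mk (nat_lit 12512) (nat_lit 0) [nat_lit 25634, nat_lit 16886, nat_lit 12026, nat_lit 12674, nat_lit 12458, nat_lit 12566, nat_lit 12494, nat_lit 12530, nat_lit 12506, nat_lit 12514] (nat_lit 2) [nat_lit 32194] false,
   Spec.mk (nat_lit 12514) (nat_lit 0) [nat_lit 25636, nat_lit 16888, nat_lit 12028, nat_lit 12676, nat_lit 12460, nat_lit 12568, nat_lit 12496, nat_lit 12532, nat_lit 12508, nat_lit 12520, nat_lit 12512, nat_lit 12516] (nat_lit 0) [nat_lit 32196] false,
   Spec.mk (nat_lit 12516) (nat_lit 0) [nat_lit 25638, nat_lit 16890, nat_lit 12030, nat_lit 12678, nat_lit 12462, nat_lit 12570, nat_lit 12498, nat_lit 12534, nat_lit 12522, nat_lit 12514] (nat_lit 0) [] false,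
   Spec.mk (nat_lit 12520) (nat_lit 0) [nat_lit 25642, nat_lit 16894, nat_lit 12034, nat_lit 12682, nat_lit 12466, nat_lit 12574, nat_lit 12538, nat_lit 12514, nat_lit 12522] (nat_lit 1) [nat_lit 32202] false,
   Spec.mk (nat_lit 12522) (nat_lit 1) [nat_lit 25644, nat_lit 16896, nat_lit 12036, nat_lit 12684, nat_lit 12468, nat_lit 12576, nat_lit 12540, nat_lit 12516, nat_lit 12520] (nat_lit 0) [] false,
   Spec.mk (nat_lit 12530) (nat_lit 0) [nat_lit 25652, nat_lit 16904, nat_lit 12044, nat_lit 12692, nat_lit 12584, nat_lit 12512, nat_lit 12532] (nat_lit 2) [nat_lit 32212] false,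
   Spec.mk (nat_lit 12532) (nat_lit 0) [nat_lit 25654, nat_lit 16906, nat_lit 12046, nat_lit 12694, nat_lit 12586, nat_lit 12514, nat_lit 12538, nat_lit 12530, nat_lit 12534] (nat_lit 1) [nat_lit 32214] false,
   Spec.mk (nat_lit 12534) (nat_lit 0) [nat_lit 25656, nat_lit 16908, nat_lit 12048, nat_lit 12696, nat_lit 12588, nat_lit 12516, nat_lit 12540, nat_lit 12532] (nat_lit 2) [] false,
   Spec.mk (nat_lit 12538) (nat_lit 0) [nat_lit 25660, nat_lit 16912, nat_lit 12052, nat_lit 12700, nat_lit 12592, nat_lit 12520, nat_lit 12532, nat_lit 12540] (nat_lit 0) [nat_lit 32220] false,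
   Spec.mk (nat_lit 12540) (nat_lit 1) [nat_lit 25662, nat_lit 16914, nat_lit 12054, nat_lit 12702, nat_lit 12594, nat_lit 12522, nat_lit 12534, nat_lit 12546, nat_lit 12538] (nat_lit 0) [] false,
   Spec.mk (nat_lit 12546) (nat_lit 2) [nat_lit 25668, nat_lit 16920, nat_lit 12060, nat_lit 12708, nat_lit 12600, nat_lit 12540] (nat_lit 0) [] false,
   Spec.mk (nat_lit 12560) (nat_lit 0) [nat_lit 25682, nat_lit 16934, nat_lit 12074, nat_lit 12722, nat_lit 12506, nat_lit 12566, nat_lit 12562] (nat_lit 2) [nat_lit 32242] false,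
   Spec.mk (nat_lit 12562) (nat_lit 0) [nat_lit 25684, nat_lit 16936, nat_lit 12076, nat_lit 12724, nat_lit 12508, nat_lit 12568, nat_lit 12560] (nat_lit 2) [nat_lit 32244] false,
   Spec.mk (nat_lit 12566) (nat_lit 0) [nat_lit 25688, nat_lit 16940, nat_lit 12080, nat_lit 12728, nat_lit 12512, nat_lit 12584, nat_lit 12560, nat_lit 12568] (nat_lit 4) [nat_lit 32248] false,
   Spec.mk (nat_lit 12568) (nat_lit 0) [nat_lit 25690, nat_lit 16942, nat_lit 12082, nat_lit 12730, nat_lit 12514, nat_lit 12586, nat_lit 12562, nat_lit 12574, nat_lit 12566, nat_lit 12570] (nat_lit 2) [nat_lit 32250] false,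
   Spec.mk (nat_lit 12570) (nat_lit 0) [nat_lit 25692, nat_lit 16944, nat_lit 12084, nat_lit 12732, nat_lit 12516, nat_lit 12588, nat_lit 12576, nat_lit 12568] (nat_lit 2) [] false,
   Spec.mk (nat_lit 12574) (nat_lit 0) [nat_lit 25696, nat_lit 16948, nat_lit 12088, nat_lit 12736, nat_lit 12520, nat_lit 12592, nat_lit 12568, nat_lit 12576] (nat_lit 4) [nat_lit 32256] false,
   Spec.mk (nat_lit 12576) (nat_lit 0) [nat_lit 25698, nat_lit 16950, nat_lit 12090, nat_lit 12738, nat_lit 12522, nat_lit 12594, nat_lit 12570, nat_lit 12574] (nat_lit 2) [] false,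
   Spec.mk (nat_lit 12584) (nat_lit 0) [nat_lit 25706, nat_lit 16958, nat_lit 12098, nat_lit 12746, nat_lit 12530, nat_lit 12566, nat_lit 12586] (nat_lit 2) [nat_lit 32266] false,
   Spec.mk (nat_lit 12586) (nat_lit 0) [nat_lit 25708, nat_lit 16960, nat_lit 12100, nat_lit 12748, nat_lit 12532, nat_lit 12568, nat_lit 12592, nat_lit 12584, nat_lit 12588] (nat_lit 1) [nat_lit 32268] false,
   Spec.mk (nat_lit 12588) (nat_lit 0) [nat_lit 25710, nat_lit 16962, nat_lit 12102, nat_lit 12750, nat_lit 12534, nat_lit 12570, nat_lit 12594, nat_lit 12586] (nat_lit 2) [] false,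
   Spec.mk (nat_lit 12592) (nat_lit 0) [nat_lit 25714, nat_lit 16966, nat_lit 12106, nat_lit 12754, nat_lit 12538, nat_lit 12574, nat_lit 12610, nat_lit 12586, nat_lit 12594] (nat_lit 1) [nat_lit 32274] false,
   Spec.mk (nat_lit 12594) (nat_lit 0) [nat_lit 25716, nat_lit 16968, nat_lit 12108, nat_lit 12756, nat_lit 12540, nat_lit 12576, nat_lit 12612, nat_lit 12588, nat_lit 12600, nat_lit 12592] (nat_lit 0) [] false,
   Spec.mk (nat_lit 12600) (nat_lit 0) [nat_lit 25722, nat_lit 16974, nat_lit 12114, nat_lit 12762, nat_lit 12546, nat_lit 12618, nat_lit 12594] (nat_lit 0) [] false,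
   Spec.mk (nat_lit 12610) (nat_lit 0) [nat_lit 25732, nat_lit 16984, nat_lit 12124, nat_lit 12772, nat_lit 12592, nat_lit 12612] (nat_lit 0) [nat_lit 32292] false,
   Spec.mk (nat_lit 12612) (nat_lit 0) [nat_lit 25734, nat_lit 16986, nat_lit 12126, nat_lit 12774, nat_lit 12594, nat_lit 12618, nat_lit 12610] (nat_lit 0) [] false,
   Spec.mk (nat_lit 12618) (nat_lit 2) [nat_lit 25740, nat_lit 16992, nat_lit 12132, nat_lit 12780, nat_lit 12600, nat_lit 12612] (nat_lit 0) [] false,
   Spec.mk (nat_lit 12644) (nat_lit 2) [nat_lit 25766, nat_lit 17018, nat_lit 12158, nat_lit 12482, nat_lit 12650] (nat_lit 0) [nat_lit 32326] false,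
   Spec.mk (nat_lit 12650) (nat_lit 1) [nat_lit 25772, nat_lit 17024, nat_lit 12164, nat_lit 12488, nat_lit 12668, nat_lit 12644, nat_lit 12656, nat_lit 12652] (nat_lit 0) [nat_lit 32332] false,
   Spec.mk (nat_lit 12652) (nat_lit 2) [nat_lit 25774, nat_lit 17026, nat_lit 12166, nat_lit 12490, nat_lit 12670, nat_lit 12658, nat_lit 12650] (nat_lit 0) [nat_lit 32334] false,
   Spec.mk (nat_lit 12656) (nat_lit 0) [nat_lit 25778, nat_lit 17030, nat_lit 12170, nat_lit 12494, nat_lit 12674, nat_lit 12650, nat_lit 12658] (nat_lit 2) [nat_lit 32338] false,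
   Spec.mk (nat_lit 12658) (nat_lit 1) [nat_lit 25780, nat_lit 17032, nat_lit 12172, nat_lit 12496, nat_lit 12676, nat_lit 12652, nat_lit 12656, nat_lit 12660] (nat_lit 0) [nat_lit 32340] false,
   Spec.mk (nat_lit 12660) (nat_lit 2) [nat_lit 25782, nat_lit 17034, nat_lit 12174, nat_lit 12498, nat_lit 12678, nat_lit 12658] (nat_lit 0) [] false,
   Spec.mk (nat_lit 12668) (nat_lit 0) [nat_lit 25790, nat_lit 17042, nat_lit 12182, nat_lit 12506, nat_lit 12722, nat_lit 12650, nat_lit 12674, nat_lit 12670] (nat_lit 0) [nat_lit 32350] false,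
   Spec.mk (nat_lit 12670) (nat_lit 0) [nat_lit 25792, nat_lit 17044, nat_lit 12184, nat_lit 12508, nat_lit 12724, nat_lit 12652, nat_lit 12676, nat_lit 12668] (nat_lit 0) [nat_lit 32352] false,
   Spec.mk (nat_lit 12674) (nat_lit 0) [nat_lit 25796, nat_lit 17048, nat_lit 12188, nat_lit 12512, nat_lit 12728, nat_lit 12656, nat_lit 12692, nat_lit 12668, nat_lit 12676] (nat_lit 1) [nat_lit 32356] false,
   Spec.mk (nat_lit 12676) (nat_lit 1) [nat_lit 25798, nat_lit 17050, nat_lit 12190, nat_lit 12514, nat_lit 12730, nat_lit 12658, nat_lit 12694, nat_lit 12670, nat_lit 12682, nat_lit 12674, nat_lit 12678] (nat_lit 0) [nat_lit 32358] false,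
   Spec.mk (nat_lit 12678) (nat_lit 1) [nat_lit 25800, nat_lit 17052, nat_lit 12192, nat_lit 12516, nat_lit 12732, nat_lit 12660, nat_lit 12696, nat_lit 12684, nat_lit 12676] (nat_lit 0) [] false,
   Spec.mk (nat_lit 12682) (nat_lit 0) [nat_lit 25804, nat_lit 17056, nat_lit 12196, nat_lit 12520, nat_lit 12736, nat_lit 12700, nat_lit 12676, nat_lit 12684] (nat_lit 0) [nat_lit 32364] false,
   Spec.mk (nat_lit 12684) (nat_lit 2) [nat_lit 25806, nat_lit 17058, nat_lit 12198, nat_lit 12522, nat_lit 12738, nat_lit 12702, nat_lit 12678, nat_lit 12682] (nat_lit 0) [] false,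
   Spec.mk (nat_lit 12692) (nat_lit 0) [nat_lit 25814, nat_lit 17066, nat_lit 12206, nat_lit 12530, nat_lit 12746, nat_lit 12674, nat_lit 12694] (nat_lit 2) [nat_lit 32374] false,
   Spec.mk (nat_lit 12694) (nat_lit 0) [nat_lit 25816, nat_lit 17068, nat_lit 12208, nat_lit 12532, nat_lit 12748, nat_lit 12676, nat_lit 12700, nat_lit 12692, nat_lit 12696] (nat_lit 1) [nat_lit 32376] false]

noncomputable def sp29 : List Spec :=
  [Spec.mk (nat_lit 12696) (nat_lit 0) [nat_lit 25818, nat_lit 17070, nat_lit 12210, nat_lit 12534, nat_lit 12750, nat_lit 12678, nat_lit 12702, nat_lit 12694] (nat_lit 2) [] false,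
   Spec.mk (nat_lit 12700) (nat_lit 0) [nat_lit 25822, nat_lit 17074, nat_lit 12214, nat_lit 12538, nat_lit 12754, nat_lit 12682, nat_lit 12694, nat_lit 12702] (nat_lit 0) [nat_lit 32382] false,
   Spec.mk (nat_lit 12702) (nat_lit 1) [nat_lit 25824, nat_lit 17076, nat_lit 12216, nat_lit 12540, nat_lit 12756, nat_lit 12684, nat_lit 12696, nat_lit 12708, nat_lit 12700] (nat_lit 0) [] false,
   Spec.mk (nat_lit 12708) (nat_lit 2) [nat_lit 25830, nat_lit 17082, nat_lit 12222, nat_lit 12546, nat_lit 12762, nat_lit 12702] (nat_lit 0) [] false,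
   Spec.mk (nat_lit 12722) (nat_lit 1) [nat_lit 25844, nat_lit 17096, nat_lit 12236, nat_lit 12560, nat_lit 12884, nat_lit 12668, nat_lit 12728, nat_lit 12724] (nat_lit 0) [nat_lit 32404] false,
   Spec.mk (nat_lit 12724) (nat_lit 1) [nat_lit 25846, nat_lit 17098, nat_lit 12238, nat_lit 12562, nat_lit 12886, nat_lit 12670, nat_lit 12730, nat_lit 12722] (nat_lit 0) [nat_lit 32406] false,
   Spec.mk (nat_lit 12728) (nat_lit 0) [nat_lit 25850, nat_lit 17102, nat_lit 12242, nat_lit 12566, nat_lit 12890, nat_lit 12674, nat_lit 12746, nat_lit 12722, nat_lit 12730] (nat_lit 1) [nat_lit 32410] false,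
   Spec.mk (nat_lit 12730) (nat_lit 1) [nat_lit 25852, nat_lit 17104, nat_lit 12244, nat_lit 12568, nat_lit 12892, nat_lit 12676, nat_lit 12748, nat_lit 12724, nat_lit 12736, nat_lit 12728, nat_lit 12732] (nat_lit 0) [nat_lit 32412] false,
   Spec.mk (nat_lit 12732) (nat_lit 1) [nat_lit 25854, nat_lit 17106, nat_lit 12246, nat_lit 12570, nat_lit 12894, nat_lit 12678, nat_lit 12750, nat_lit 12738, nat_lit 12730] (nat_lit 0) [] false,
   Spec.mk (nat_lit 12736) (nat_lit 0) [nat_lit 25858, nat_lit 17110, nat_lit 12250, nat_lit 12574, nat_lit 12898, nat_lit 12682, nat_lit 12754, nat_lit 12730, nat_lit 12738] (nat_lit 1) [nat_lit 32418] false,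
   Spec.mk (nat_lit 12738) (nat_lit 1) [nat_lit 25860, nat_lit 17112, nat_lit 12252, nat_lit 12576, nat_lit 12900, nat_lit 12684, nat_lit 12756, nat_lit 12732, nat_lit 12736] (nat_lit 0) [] false,
   Spec.mk (nat_lit 12746) (nat_lit 0) [nat_lit 25868, nat_lit 17120, nat_lit 12260, nat_lit 12584, nat_lit 12908, nat_lit 12692, nat_lit 12800, nat_lit 12728, nat_lit 12748] (nat_lit 0) [nat_lit 32428] false,
   Spec.mk (nat_lit 12748) (nat_lit 1) [nat_lit 25870, nat_lit 17122, nat_lit 12262, nat_lit 12586, nat_lit 12910, nat_lit 12694, nat_lit 12802, nat_lit 12730, nat_lit 12754, nat_lit 12746, nat_lit 12750] (nat_lit 0) [nat_lit 32430] false,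
   Spec.mk (nat_lit 12750) (nat_lit 0) [nat_lit 25872, nat_lit 17124, nat_lit 12264, nat_lit 12588, nat_lit 12912, nat_lit 12696, nat_lit 12804, nat_lit 12732, nat_lit 12756, nat_lit 12748] (nat_lit 0) [] false,
   Spec.mk (nat_lit 12754) (nat_lit 1) [nat_lit 25876, nat_lit 17128, nat_lit 12268, nat_lit 12592, nat_lit 12916, nat_lit 12700, nat_lit 12808, nat_lit 12736, nat_lit 12772, nat_lit 12748, nat_lit 12756] (nat_lit 0) [nat_lit 32436] false,
   Spec.mk (nat_lit 12756) (nat_lit 2) [nat_lit 25878, nat_lit 17130, nat_lit 12270, nat_lit 12594, nat_lit 12918, nat_lit 12702, nat_lit 12810, nat_lit 12738, nat_lit 12774, nat_lit 12750, nat_lit 12762, nat_lit 12754] (nat_lit 0) [] false,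
   Spec.mk (nat_lit 12762) (nat_lit 2) [nat_lit 25884, nat_lit 17136, nat_lit 12276, nat_lit 12600, nat_lit 12924, nat_lit 12708, nat_lit 12816, nat_lit 12780, nat_lit 12756] (nat_lit 0) [] false,
   Spec.mk (nat_lit 12772) (nat_lit 1) [nat_lit 25894, nat_lit 17146, nat_lit 12286, nat_lit 12610, nat_lit 12934, nat_lit 12826, nat_lit 12754, nat_lit 12774] (nat_lit 0) [nat_lit 32454] false,
   Spec.mk (nat_lit 12774) (nat_lit 1) [nat_lit 25896, nat_lit 17148, nat_lit 12288, nat_lit 12612, nat_lit 12936, nat_lit 12828, nat_lit 12756, nat_lit 12780, nat_lit 12772] (nat_lit 0) [] false,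
   Spec.mk (nat_lit 12780) (nat_lit 3) [nat_lit 25902, nat_lit 17154, nat_lit 12294, nat_lit 12618, nat_lit 12942, nat_lit 12834, nat_lit 12762, nat_lit 12774] (nat_lit 0) [] false,
   Spec.mk (nat_lit 12800) (nat_lit 0) [nat_lit 25922, nat_lit 17174, nat_lit 12314, nat_lit 12962, nat_lit 12746, nat_lit 12802] (nat_lit 0) [nat_lit 32482] false,
   Spec.mk (nat_lit 12802) (nat_lit 1) [nat_lit 25924, nat_lit 17176, nat_lit 12316, nat_lit 12964, nat_lit 12748, nat_lit 12808, nat_lit 12800, nat_lit 12804] (nat_lit 0) [nat_lit 32484] false,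
   Spec.mk (nat_lit 12804) (nat_lit 0) [nat_lit 25926, nat_lit 17178, nat_lit 12318, nat_lit 12966, nat_lit 12750, nat_lit 12810, nat_lit 12802] (nat_lit 0) [] false,
   Spec.mk (nat_lit 12808) (nat_lit 0) [nat_lit 25930, nat_lit 17182, nat_lit 12322, nat_lit 12970, nat_lit 12754, nat_lit 12826, nat_lit 12802, nat_lit 12810] (nat_lit 0) [nat_lit 32490] false,
   Spec.mk (nat_lit 12810) (nat_lit 1) [nat_lit 25932, nat_lit 17184, nat_lit 12324, nat_lit 12972, nat_lit 12756, nat_lit 12828, nat_lit 12804, nat_lit 12816, nat_lit 12808] (nat_lit 0) [] false,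
   Spec.mk (nat_lit 12816) (nat_lit 0) [nat_lit 25938, nat_lit 17190, nat_lit 12330, nat_lit 12978, nat_lit 12762, nat_lit 12834, nat_lit 12810] (nat_lit 0) [] false,
   Spec.mk (nat_lit 12826) (nat_lit 2) [nat_lit 25948, nat_lit 17200, nat_lit 12340, nat_lit 12988, nat_lit 12772, nat_lit 12808, nat_lit 12828] (nat_lit 0) [nat_lit 32508] false,
   Spec.mk (nat_lit 12828) (nat_lit 2) [nat_lit 25950, nat_lit 17202, nat_lit 12342, nat_lit 12990, nat_lit 12774, nat_lit 12810, nat_lit 12834, nat_lit 12826] (nat_lit 0) [] false,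
   Spec.mk (nat_lit 12834) (nat_lit 3) [nat_lit 25956, nat_lit 17208, nat_lit 12348, nat_lit 12996, nat_lit 12780, nat_lit 12816, nat_lit 12852, nat_lit 12828] (nat_lit 0) [] false,
   Spec.mk (nat_lit 12852) (nat_lit 4) [nat_lit 25974, nat_lit 17226, nat_lit 12366, nat_lit 13014, nat_lit 12834] (nat_lit 0) [] false,
   Spec.mk (nat_lit 12884) (nat_lit 2) [nat_lit 26006, nat_lit 17258, nat_lit 12722, nat_lit 12890, nat_lit 12886] (nat_lit 0) [nat_lit 32566] false,
   Spec.mk (nat_lit 12886) (nat_lit 2) [nat_lit 26008, nat_lit 17260, nat_lit 12724, nat_lit 12892, nat_lit 12884] (nat_lit 0) [nat_lit 32568] false,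
   Spec.mk (nat_lit 12890) (nat_lit 0) [nat_lit 26012, nat_lit 17264, nat_lit 12728, nat_lit 12908, nat_lit 12884, nat_lit 12892] (nat_lit 0) [nat_lit 32572] false,
   Spec.mk (nat_lit 12892) (nat_lit 2) [nat_lit 26014, nat_lit 17266, nat_lit 12730, nat_lit 12910, nat_lit 12886, nat_lit 12898, nat_lit 12890, nat_lit 12894] (nat_lit 0) [nat_lit 32574] false,
   Spec.mk (nat_lit 12894) (nat_lit 2) [nat_lit 26016, nat_lit 17268, nat_lit 12732, nat_lit 12912, nat_lit 12900, nat_lit 12892] (nat_lit 0) [] false,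
   Spec.mk (nat_lit 12898) (nat_lit 0) [nat_lit 26020, nat_lit 17272, nat_lit 12736, nat_lit 12916, nat_lit 12892, nat_lit 12900] (nat_lit 0) [nat_lit 32580] false,
   Spec.mk (nat_lit 12900) (nat_lit 2) [nat_lit 26022, nat_lit 17274, nat_lit 12738, nat_lit 12918, nat_lit 12894, nat_lit 12898] (nat_lit 0) [] false,
   Spec.mk (nat_lit 12908) (nat_lit 0) [nat_lit 26030, nat_lit 17282, nat_lit 12746, nat_lit 12962, nat_lit 12890, nat_lit 12910] (nat_lit 0) [nat_lit 32590] false,
   Spec.mk (nat_lit 12910) (nat_lit 1) [nat_lit 26032, nat_lit 17284, nat_lit 12748, nat_lit 12964, nat_lit 12892, nat_lit 12916, nat_lit 12908, nat_lit 12912] (nat_lit 0) [nat_lit 32592] false,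
   Spec.mk (nat_lit 12912) (nat_lit 0) [nat_lit 26034, nat_lit 17286, nat_lit 12750, nat_lit 12966, nat_lit 12894, nat_lit 12918, nat_lit 12910] (nat_lit 0) [] false,
   Spec.mk (nat_lit 12916) (nat_lit 1) [nat_lit 26038, nat_lit 17290, nat_lit 12754, nat_lit 12970, nat_lit 12898, nat_lit 12934, nat_lit 12910, nat_lit 12918] (nat_lit 0) [nat_lit 32598] false,
   Spec.mk (nat_lit 12918) (nat_lit 2) [nat_lit 26040, nat_lit 17292, nat_lit 12756, nat_lit 12972, nat_lit 12900, nat_lit 12936, nat_lit 12912, nat_lit 12924, nat_lit 12916] (nat_lit 0) [] false,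
   Spec.mk (nat_lit 12924) (nat_lit 2) [nat_lit 26046, nat_lit 17298, nat_lit 12762, nat_lit 12978, nat_lit 12942, nat_lit 12918] (nat_lit 0) [] false,
   Spec.mk (nat_lit 12934) (nat_lit 0) [nat_lit 26056, nat_lit 17308, nat_lit 12772, nat_lit 12988, nat_lit 12916, nat_lit 12936] (nat_lit 0) [nat_lit 32616] false,
   Spec.mk (nat_lit 12936) (nat_lit 0) [nat_lit 26058, nat_lit 17310, nat_lit 12774, nat_lit 12990, nat_lit 12918, nat_lit 12942, nat_lit 12934] (nat_lit 0) [] false,
   Spec.mk (nat_lit 12942) (nat_lit 2) [nat_lit 26064, nat_lit 17316, nat_lit 12780, nat_lit 12996, nat_lit 12924, nat_lit 12936] (nat_lit 0) [] false,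
   Spec.mk (nat_lit 12962) (nat_lit 2) [nat_lit 26084, nat_lit 17336, nat_lit 12800, nat_lit 12908, nat_lit 12964] (nat_lit 0) [nat_lit 32644] false,
   Spec.mk (nat_lit 12964) (nat_lit 3) [nat_lit 26086, nat_lit 17338, nat_lit 12802, nat_lit 12910, nat_lit 12970, nat_lit 12962, nat_lit 12966] (nat_lit 0) [nat_lit 32646] false,
   Spec.mk (nat_lit 12966) (nat_lit 2) [nat_lit 26088, nat_lit 17340, nat_lit 12804, nat_lit 12912, nat_lit 12972, nat_lit 12964] (nat_lit 0) [] false,
   Spec.mk (nat_lit 12970) (nat_lit 2) [nat_lit 26092, nat_lit 17344, nat_lit 12808, nat_lit 12916, nat_lit 12988, nat_lit 12964, nat_lit 12972] (nat_lit 0) [nat_lit 32652] false,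
   Spec.mk (nat_lit 12972) (nat_lit 3) [nat_lit 26094, nat_lit 17346, nat_lit 12810, nat_lit 12918, nat_lit 12990, nat_lit 12966, nat_lit 12978, nat_lit 12970] (nat_lit 0) [] false,
   Spec.mk (nat_lit 12978) (nat_lit 2) [nat_lit 26100, nat_lit 17352, nat_lit 12816, nat_lit 12924, nat_lit 12996, nat_lit 12972] (nat_lit 0) [] false,
   Spec.mk (nat_lit 12988) (nat_lit 3) [nat_lit 26110, nat_lit 17362, nat_lit 12826, nat_lit 12934, nat_lit 13042, nat_lit 12970, nat_lit 12990] (nat_lit 0) [nat_lit 32670] false,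
   Spec.mk (nat_lit 12990) (nat_lit 3) [nat_lit 26112, nat_lit 17364, nat_lit 12828, nat_lit 12936, nat_lit 13044, nat_lit 12972, nat_lit 12996, nat_lit 12988] (nat_lit 0) [] false,
   Spec.mk (nat_lit 12996) (nat_lit 4) [nat_lit 26118, nat_lit 17370, nat_lit 12834, nat_lit 12942, nat_lit 13050, nat_lit 12978, nat_lit 13014, nat_lit 12990] (nat_lit 0) [] false,
   Spec.mk (nat_lit 13014) (nat_lit 4) [nat_lit 26136, nat_lit 17388, nat_lit 12852, nat_lit 13068, nat_lit 12996] (nat_lit 0) [] false,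
   Spec.mk (nat_lit 13042) (nat_lit 4) [nat_lit 26164, nat_lit 17416, nat_lit 12988, nat_lit 13044] (nat_lit 0) [nat_lit 32724] false,
   Spec.mk (nat_lit 13044) (nat_lit 4) [nat_lit 26166, nat_lit 17418, nat_lit 12990, nat_lit 13050, nat_lit 13042] (nat_lit 0) [] false,
   Spec.mk (nat_lit 13050) (nat_lit 4) [nat_lit 26172, nat_lit 17424, nat_lit 12996, nat_lit 13068, nat_lit 13044] (nat_lit 0) [] false,
   Spec.mk (nat_lit 13068) (nat_lit 6) [nat_lit 26190, nat_lit 17442, nat_lit 13014, nat_lit 13050] (nat_lit 0) [] false]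

noncomputable def sp30 : List Spec :=
  [Spec.mk (nat_lit 13202) (nat_lit 2) [nat_lit 26324, nat_lit 8828, nat_lit 13256] (nat_lit 0) [nat_lit 32884] false,
   Spec.mk (nat_lit 13256) (nat_lit 1) [nat_lit 26378, nat_lit 8882, nat_lit 13418, nat_lit 13202, nat_lit 13310, nat_lit 13274] (nat_lit 0) [nat_lit 32938] false,
   Spec.mk (nat_lit 13274) (nat_lit 0) [nat_lit 26396, nat_lit 8900, nat_lit 13436, nat_lit 13328, nat_lit 13256, nat_lit 13280] (nat_lit 0) [nat_lit 32956] false,
   Spec.mk (nat_lit 13280) (nat_lit 0) [nat_lit 26402, nat_lit 8906, nat_lit 13442, nat_lit 13334, nat_lit 13274, nat_lit 13282] (nat_lit 0) [nat_lit 32962] false,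
   Spec.mk (nat_lit 13282) (nat_lit 2) [nat_lit 26404, nat_lit 8908, nat_lit 13444, nat_lit 13336, nat_lit 13280] (nat_lit 0) [nat_lit 32964] false,
   Spec.mk (nat_lit 13310) (nat_lit 0) [nat_lit 26432, nat_lit 8936, nat_lit 13472, nat_lit 13256, nat_lit 13328] (nat_lit 2) [nat_lit 32992] false,
   Spec.mk (nat_lit 13328) (nat_lit 0) [nat_lit 26450, nat_lit 8954, nat_lit 13490, nat_lit 13274, nat_lit 13310, nat_lit 13346, nat_lit 13334] (nat_lit 1) [nat_lit 33010] false,
   Spec.mk (nat_lit 13334) (nat_lit 0) [nat_lit 26456, nat_lit 8960, nat_lit 13496, nat_lit 13280, nat_lit 13352, nat_lit 13328, nat_lit 13336] (nat_lit 2) [nat_lit 33016] false,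
   Spec.mk (nat_lit 13336) (nat_lit 0) [nat_lit 26458, nat_lit 8962, nat_lit 13498, nat_lit 13282, nat_lit 13354, nat_lit 13334] (nat_lit 0) [nat_lit 33018] false,
   Spec.mk (nat_lit 13346) (nat_lit 0) [nat_lit 26468, nat_lit 8972, nat_lit 13508, nat_lit 13328, nat_lit 13352] (nat_lit 2) [nat_lit 33028] false,
   Spec.mk (nat_lit 13352) (nat_lit 0) [nat_lit 26474, nat_lit 8978, nat_lit 13514, nat_lit 13334, nat_lit 13346, nat_lit 13358, nat_lit 13354] (nat_lit 1) [nat_lit 33034] false,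
   Spec.mk (nat_lit 13354) (nat_lit 0) [nat_lit 26476, nat_lit 8980, nat_lit 13516, nat_lit 13336, nat_lit 13360, nat_lit 13352] (nat_lit 0) [nat_lit 33036] false,
   Spec.mk (nat_lit 13358) (nat_lit 0) [nat_lit 26480, nat_lit 8984, nat_lit 13520, nat_lit 13352, nat_lit 13360] (nat_lit 2) [nat_lit 33040] false,
   Spec.mk (nat_lit 13360) (nat_lit 1) [nat_lit 26482, nat_lit 8986, nat_lit 13522, nat_lit 13354, nat_lit 13358, nat_lit 13362] (nat_lit 0) [nat_lit 33042] false,
   Spec.mk (nat_lit 13362) (nat_lit 2) [nat_lit 26484, nat_lit 8988, nat_lit 13524, nat_lit 13360] (nat_lit 0) [] false,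
   Spec.mk (nat_lit 13418) (nat_lit 0) [nat_lit 26540, nat_lit 9044, nat_lit 13904, nat_lit 13256, nat_lit 13472, nat_lit 13436] (nat_lit 0) [nat_lit 33100] false,
   Spec.mk (nat_lit 13436) (nat_lit 0) [nat_lit 26558, nat_lit 9062, nat_lit 13922, nat_lit 13274, nat_lit 13490, nat_lit 13418, nat_lit 13442] (nat_lit 2) [nat_lit 33118] false,
   Spec.mk (nat_lit 13442) (nat_lit 0) [nat_lit 26564, nat_lit 9068, nat_lit 13928, nat_lit 13280, nat_lit 13496, nat_lit 13436, nat_lit 13444] (nat_lit 2) [nat_lit 33124] false,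
   Spec.mk (nat_lit 13444) (nat_lit 0) [nat_lit 26566, nat_lit 9070, nat_lit 13930, nat_lit 13282, nat_lit 13498, nat_lit 13442] (nat_lit 0) [nat_lit 33126] false,
   Spec.mk (nat_lit 13472) (nat_lit 0) [nat_lit 26594, nat_lit 9098, nat_lit 13958, nat_lit 13310, nat_lit 13634, nat_lit 13418, nat_lit 13490] (nat_lit 1) [nat_lit 33154] false,
   Spec.mk (nat_lit 13490) (nat_lit 0) [nat_lit 26612, nat_lit 9116, nat_lit 13976, nat_lit 13328, nat_lit 13652, nat_lit 13436, nat_lit 13544, nat_lit 13472, nat_lit 13508, nat_lit 13496] (nat_lit 1) [nat_lit 33172] false,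
   Spec.mk (nat_lit 13496) (nat_lit 0) [nat_lit 26618, nat_lit 9122, nat_lit 13982, nat_lit 13334, nat_lit 13658, nat_lit 13442, nat_lit 13550, nat_lit 13514, nat_lit 13490, nat_lit 13498] (nat_lit 2) [nat_lit 33178] false,
   Spec.mk (nat_lit 13498) (nat_lit 0) [nat_lit 26620, nat_lit 9124, nat_lit 13984, nat_lit 13336, nat_lit 13660, nat_lit 13444, nat_lit 13552, nat_lit 13516, nat_lit 13496] (nat_lit 0) [nat_lit 33180] false,
   Spec.mk (nat_lit 13508) (nat_lit 0) [nat_lit 26630, nat_lit 9134, nat_lit 13994, nat_lit 13346, nat_lit 13670, nat_lit 13562, nat_lit 13490, nat_lit 13514] (nat_lit 3) [nat_lit 33190] false,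
   Spec.mk (nat_lit 13514) (nat_lit 0) [nat_lit 26636, nat_lit 9140, nat_lit 14000, nat_lit 13352, nat_lit 13676, nat_lit 13568, nat_lit 13496, nat_lit 13508, nat_lit 13520, nat_lit 13516] (nat_lit 2) [nat_lit 33196] false,
   Spec.mk (nat_lit 13516) (nat_lit 0) [nat_lit 26638, nat_lit 9142, nat_lit 14002, nat_lit 13354, nat_lit 13678, nat_lit 13570, nat_lit 13498, nat_lit 13522, nat_lit 13514] (nat_lit 1) [nat_lit 33198] false,
   Spec.mk (nat_lit 13520) (nat_lit 0) [nat_lit 26642, nat_lit 9146, nat_lit 14006, nat_lit 13358, nat_lit 13682, nat_lit 13574, nat_lit 13514, nat_lit 13522] (nat_lit 3) [nat_lit 33202] false,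
   Spec.mk (nat_lit 13522) (nat_lit 0) [nat_lit 26644, nat_lit 9148, nat_lit 14008, nat_lit 13360, nat_lit 13684, nat_lit 13576, nat_lit 13516, nat_lit 13520, nat_lit 13524] (nat_lit 0) [nat_lit 33204] false,
   Spec.mk (nat_lit 13524) (nat_lit 1) [nat_lit 26646, nat_lit 9150, nat_lit 14010, nat_lit 13362, nat_lit 13686, nat_lit 13578, nat_lit 13522] (nat_lit 0) [] false,
   Spec.mk (nat_lit 13544) (nat_lit 0) [nat_lit 26666, nat_lit 9170, nat_lit 14030, nat_lit 13706, nat_lit 13490, nat_lit 13562, nat_lit 13550] (nat_lit 2) [nat_lit 33226] false,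
   Spec.mk (nat_lit 13550) (nat_lit 0) [nat_lit 26672, nat_lit 9176, nat_lit 14036, nat_lit 13712, nat_lit 13496, nat_lit 13568, nat_lit 13544, nat_lit 13552] (nat_lit 4) [nat_lit 33232] false,
   Spec.mk (nat_lit 13552) (nat_lit 0) [nat_lit 26674, nat_lit 9178, nat_lit 14038, nat_lit 13714, nat_lit 13498, nat_lit 13570, nat_lit 13550] (nat_lit 2) [nat_lit 33234] false,
   Spec.mk (nat_lit 13562) (nat_lit 0) [nat_lit 26684, nat_lit 9188, nat_lit 14048, nat_lit 13724, nat_lit 13508, nat_lit 13544, nat_lit 13568] (nat_lit 2) [nat_lit 33244] false,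
   Spec.mk (nat_lit 13568) (nat_lit 0) [nat_lit 26690, nat_lit 9194, nat_lit 14054, nat_lit 13730, nat_lit 13514, nat_lit 13550, nat_lit 13586, nat_lit 13562, nat_lit 13574, nat_lit 13570] (nat_lit 2) [nat_lit 33250] false,
   Spec.mk (nat_lit 13570) (nat_lit 0) [nat_lit 26692, nat_lit 9196, nat_lit 14056, nat_lit 13732, nat_lit 13516, nat_lit 13552, nat_lit 13588, nat_lit 13576, nat_lit 13568] (nat_lit 1) [nat_lit 33252] false,
   Spec.mk (nat_lit 13574) (nat_lit 0) [nat_lit 26696, nat_lit 9200, nat_lit 14060, nat_lit 13736, nat_lit 13520, nat_lit 13592, nat_lit 13568, nat_lit 13576] (nat_lit 4) [nat_lit 33256] false,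
   Spec.mk (nat_lit 13576) (nat_lit 0) [nat_lit 26698, nat_lit 9202, nat_lit 14062, nat_lit 13738, nat_lit 13522, nat_lit 13594, nat_lit 13570, nat_lit 13574, nat_lit 13578] (nat_lit 1) [nat_lit 33258] false,
   Spec.mk (nat_lit 13578) (nat_lit 0) [nat_lit 26700, nat_lit 9204, nat_lit 14064, nat_lit 13740, nat_lit 13524, nat_lit 13596, nat_lit 13576] (nat_lit 0) [] false,
   Spec.mk (nat_lit 13586) (nat_lit 0) [nat_lit 26708, nat_lit 9212, nat_lit 14072, nat_lit 13748, nat_lit 13568, nat_lit 13592, nat_lit 13588] (nat_lit 2) [nat_lit 33268] false,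
   Spec.mk (nat_lit 13588) (nat_lit 0) [nat_lit 26710, nat_lit 9214, nat_lit 14074, nat_lit 13750, nat_lit 13570, nat_lit 13594, nat_lit 13586] (nat_lit 2) [nat_lit 33270] false,
   Spec.mk (nat_lit 13592) (nat_lit 0) [nat_lit 26714, nat_lit 9218, nat_lit 14078, nat_lit 13754, nat_lit 13574, nat_lit 13586, nat_lit 13594] (nat_lit 2) [nat_lit 33274] false,
   Spec.mk (nat_lit 13594) (nat_lit 0) [nat_lit 26716, nat_lit 9220, nat_lit 14080, nat_lit 13756, nat_lit 13576, nat_lit 13588, nat_lit 13600, nat_lit 13592, nat_lit 13596] (nat_lit 0) [nat_lit 33276] false,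
   Spec.mk (nat_lit 13596) (nat_lit 0) [nat_lit 26718, nat_lit 9222, nat_lit 14082, nat_lit 13758, nat_lit 13578, nat_lit 13602, nat_lit 13594] (nat_lit 0) [] false,
   Spec.mk (nat_lit 13600) (nat_lit 0) [nat_lit 26722, nat_lit 9226, nat_lit 14086, nat_lit 13762, nat_lit 13594, nat_lit 13602] (nat_lit 0) [nat_lit 33282] false,
   Spec.mk (nat_lit 13602) (nat_lit 2) [nat_lit 26724, nat_lit 9228, nat_lit 14088, nat_lit 13764, nat_lit 13596, nat_lit 13600] (nat_lit 0) [] false,
   Spec.mk (nat_lit 13634) (nat_lit 0) [nat_lit 26756, nat_lit 9260, nat_lit 14120, nat_lit 13472, nat_lit 13652] (nat_lit 2) [nat_lit 33316] false,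
   Spec.mk (nat_lit 13652) (nat_lit 0) [nat_lit 26774, nat_lit 9278, nat_lit 14138, nat_lit 13490, nat_lit 13706, nat_lit 13634, nat_lit 13670, nat_lit 13658] (nat_lit 3) [nat_lit 33334] false,
   Spec.mk (nat_lit 13658) (nat_lit 0) [nat_lit 26780, nat_lit 9284, nat_lit 14144, nat_lit 13496, nat_lit 13712, nat_lit 13676, nat_lit 13652, nat_lit 13660] (nat_lit 4) [nat_lit 33340] false,
   Spec.mk (nat_lit 13660) (nat_lit 0) [nat_lit 26782, nat_lit 9286, nat_lit 14146, nat_lit 13498, nat_lit 13714, nat_lit 13678, nat_lit 13658] (nat_lit 2) [nat_lit 33342] false,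
   Spec.mk (nat_lit 13670) (nat_lit 0) [nat_lit 26792, nat_lit 9296, nat_lit 14156, nat_lit 13508, nat_lit 13724, nat_lit 13652, nat_lit 13676] (nat_lit 6) [nat_lit 33352] false,
   Spec.mk (nat_lit 13676) (nat_lit 0) [nat_lit 26798, nat_lit 9302, nat_lit 14162, nat_lit 13514, nat_lit 13730, nat_lit 13658, nat_lit 13670, nat_lit 13682, nat_lit 13678] (nat_lit 5) [nat_lit 33358] false,
   Spec.mk (nat_lit 13678) (nat_lit 0) [nat_lit 26800, nat_lit 9304, nat_lit 14164, nat_lit 13516, nat_lit 13732, nat_lit 13660, nat_lit 13684, nat_lit 13676] (nat_lit 4) [nat_lit 33360] false,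
   Spec.mk (nat_lit 13682) (nat_lit 0) [nat_lit 26804, nat_lit 9308, nat_lit 14168, nat_lit 13520, nat_lit 13736, nat_lit 13676, nat_lit 13684] (nat_lit 6) [nat_lit 33364] false,
   Spec.mk (nat_lit 13684) (nat_lit 0) [nat_lit 26806, nat_lit 9310, nat_lit 14170, nat_lit 13522, nat_lit 13738, nat_lit 13678, nat_lit 13682, nat_lit 13686] (nat_lit 3) [nat_lit 33366] false,
   Spec.mk (nat_lit 13686) (nat_lit 0) [nat_lit 26808, nat_lit 9312, nat_lit 14172, nat_lit 13524, nat_lit 13740, nat_lit 13684] (nat_lit 2) [] false,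
   Spec.mk (nat_lit 13706) (nat_lit 0) [nat_lit 26828, nat_lit 9332, nat_lit 14192, nat_lit 13544, nat_lit 13652, nat_lit 13724, nat_lit 13712] (nat_lit 2) [nat_lit 33388] false,
   Spec.mk (nat_lit 13712) (nat_lit 0) [nat_lit 26834, nat_lit 9338, nat_lit 14198, nat_lit 13550, nat_lit 13658, nat_lit 13730, nat_lit 13706, nat_lit 13714] (nat_lit 4) [nat_lit 33394] false,
   Spec.mk (nat_lit 13714) (nat_lit 0) [nat_lit 26836, nat_lit 9340, nat_lit 14200, nat_lit 13552, nat_lit 13660, nat_lit 13732, nat_lit 13712] (nat_lit 2) [nat_lit 33396] false,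
   Spec.mk (nat_lit 13724) (nat_lit 0) [nat_lit 26846, nat_lit 9350, nat_lit 14210, nat_lit 13562, nat_lit 13670, nat_lit 13778, nat_lit 13706, nat_lit 13730] (nat_lit 3) [nat_lit 33406] false,
   Spec.mk (nat_lit 13730) (nat_lit 0) [nat_lit 26852, nat_lit 9356, nat_lit 14216, nat_lit 13568, nat_lit 13676, nat_lit 13784, nat_lit 13712, nat_lit 13748, nat_lit 13724, nat_lit 13736, nat_lit 13732] (nat_lit 3) [nat_lit 33412] false]

noncomputable def sp31 : List Spec :=
  [Spec.mk (nat_lit 13732) (nat_lit 0) [nat_lit 26854, nat_lit 9358, nat_lit 14218, nat_lit 13570, nat_lit 13678, nat_lit 13786, nat_lit 13714, nat_lit 13750, nat_lit 13738, nat_lit 13730] (nat_lit 2) [nat_lit 33414] false,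
   Spec.mk (nat_lit 13736) (nat_lit 0) [nat_lit 26858, nat_lit 9362, nat_lit 14222, nat_lit 13574, nat_lit 13682, nat_lit 13790, nat_lit 13754, nat_lit 13730, nat_lit 13738] (nat_lit 5) [nat_lit 33418] false,
   Spec.mk (nat_lit 13738) (nat_lit 0) [nat_lit 26860, nat_lit 9364, nat_lit 14224, nat_lit 13576, nat_lit 13684, nat_lit 13792, nat_lit 13756, nat_lit 13732, nat_lit 13736, nat_lit 13740] (nat_lit 2) [nat_lit 33420] false,
   Spec.mk (nat_lit 13740) (nat_lit 0) [nat_lit 26862, nat_lit 9366, nat_lit 14226, nat_lit 13578, nat_lit 13686, nat_lit 13794, nat_lit 13758, nat_lit 13738] (nat_lit 1) [] false,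
   Spec.mk (nat_lit 13748) (nat_lit 0) [nat_lit 26870, nat_lit 9374, nat_lit 14234, nat_lit 13586, nat_lit 13802, nat_lit 13730, nat_lit 13754, nat_lit 13750] (nat_lit 4) [nat_lit 33430] false,
   Spec.mk (nat_lit 13750) (nat_lit 0) [nat_lit 26872, nat_lit 9376, nat_lit 14236, nat_lit 13588, nat_lit 13804, nat_lit 13732, nat_lit 13756, nat_lit 13748] (nat_lit 4) [nat_lit 33432] false,
   Spec.mk (nat_lit 13754) (nat_lit 0) [nat_lit 26876, nat_lit 9380, nat_lit 14240, nat_lit 13592, nat_lit 13808, nat_lit 13736, nat_lit 13748, nat_lit 13756] (nat_lit 4) [nat_lit 33436] false,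
   Spec.mk (nat_lit 13756) (nat_lit 0) [nat_lit 26878, nat_lit 9382, nat_lit 14242, nat_lit 13594, nat_lit 13810, nat_lit 13738, nat_lit 13750, nat_lit 13762, nat_lit 13754, nat_lit 13758] (nat_lit 2) [nat_lit 33438] false,
   Spec.mk (nat_lit 13758) (nat_lit 0) [nat_lit 26880, nat_lit 9384, nat_lit 14244, nat_lit 13596, nat_lit 13812, nat_lit 13740, nat_lit 13764, nat_lit 13756] (nat_lit 2) [] false,
   Spec.mk (nat_lit 13762) (nat_lit 0) [nat_lit 26884, nat_lit 9388, nat_lit 14248, nat_lit 13600, nat_lit 13816, nat_lit 13756, nat_lit 13764] (nat_lit 2) [nat_lit 33444] false,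
   Spec.mk (nat_lit 13764) (nat_lit 0) [nat_lit 26886, nat_lit 9390, nat_lit 14250, nat_lit 13602, nat_lit 13818, nat_lit 13758, nat_lit 13762] (nat_lit 0) [] false,
   Spec.mk (nat_lit 13778) (nat_lit 0) [nat_lit 26900, nat_lit 9404, nat_lit 14264, nat_lit 13724, nat_lit 13784] (nat_lit 2) [nat_lit 33460] false,
   Spec.mk (nat_lit 13784) (nat_lit 0) [nat_lit 26906, nat_lit 9410, nat_lit 14270, nat_lit 13730, nat_lit 13802, nat_lit 13778, nat_lit 13790, nat_lit 13786] (nat_lit 3) [nat_lit 33466] false,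
   Spec.mk (nat_lit 13786) (nat_lit 0) [nat_lit 26908, nat_lit 9412, nat_lit 14272, nat_lit 13732, nat_lit 13804, nat_lit 13792, nat_lit 13784] (nat_lit 2) [nat_lit 33468] false,
   Spec.mk (nat_lit 13790) (nat_lit 0) [nat_lit 26912, nat_lit 9416, nat_lit 14276, nat_lit 13736, nat_lit 13808, nat_lit 13784, nat_lit 13792] (nat_lit 6) [nat_lit 33472] false,
   Spec.mk (nat_lit 13792) (nat_lit 0) [nat_lit 26914, nat_lit 9418, nat_lit 14278, nat_lit 13738, nat_lit 13810, nat_lit 13786, nat_lit 13790, nat_lit 13794] (nat_lit 3) [nat_lit 33474] false,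
   Spec.mk (nat_lit 13794) (nat_lit 0) [nat_lit 26916, nat_lit 9420, nat_lit 14280, nat_lit 13740, nat_lit 13812, nat_lit 13792] (nat_lit 2) [] false,
   Spec.mk (nat_lit 13802) (nat_lit 0) [nat_lit 26924, nat_lit 9428, nat_lit 14288, nat_lit 13748, nat_lit 13784, nat_lit 13808, nat_lit 13804] (nat_lit 2) [nat_lit 33484] false,
   Spec.mk (nat_lit 13804) (nat_lit 0) [nat_lit 26926, nat_lit 9430, nat_lit 14290, nat_lit 13750, nat_lit 13786, nat_lit 13810, nat_lit 13802] (nat_lit 2) [nat_lit 33486] false,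
   Spec.mk (nat_lit 13808) (nat_lit 0) [nat_lit 26930, nat_lit 9434, nat_lit 14294, nat_lit 13754, nat_lit 13790, nat_lit 13826, nat_lit 13802, nat_lit 13810] (nat_lit 3) [nat_lit 33490] false,
   Spec.mk (nat_lit 13810) (nat_lit 0) [nat_lit 26932, nat_lit 9436, nat_lit 14296, nat_lit 13756, nat_lit 13792, nat_lit 13828, nat_lit 13804, nat_lit 13816, nat_lit 13808, nat_lit 13812] (nat_lit 1) [nat_lit 33492] false,
   Spec.mk (nat_lit 13812) (nat_lit 0) [nat_lit 26934, nat_lit 9438, nat_lit 14298, nat_lit 13758, nat_lit 13794, nat_lit 13830, nat_lit 13818, nat_lit 13810] (nat_lit 1) [] false,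
   Spec.mk (nat_lit 13816) (nat_lit 0) [nat_lit 26938, nat_lit 9442, nat_lit 14302, nat_lit 13762, nat_lit 13834, nat_lit 13810, nat_lit 13818] (nat_lit 2) [nat_lit 33498] false,
   Spec.mk (nat_lit 13818) (nat_lit 0) [nat_lit 26940, nat_lit 9444, nat_lit 14304, nat_lit 13764, nat_lit 13836, nat_lit 13812, nat_lit 13816] (nat_lit 0) [] false,
   Spec.mk (nat_lit 13826) (nat_lit 0) [nat_lit 26948, nat_lit 9452, nat_lit 14312, nat_lit 13808, nat_lit 13828] (nat_lit 2) [nat_lit 33508] false,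
   Spec.mk (nat_lit 13828) (nat_lit 0) [nat_lit 26950, nat_lit 9454, nat_lit 14314, nat_lit 13810, nat_lit 13834, nat_lit 13826, nat_lit 13830] (nat_lit 1) [nat_lit 33510] false,
   Spec.mk (nat_lit 13830) (nat_lit 0) [nat_lit 26952, nat_lit 9456, nat_lit 14316, nat_lit 13812, nat_lit 13836, nat_lit 13828] (nat_lit 2) [] false,
   Spec.mk (nat_lit 13834) (nat_lit 0) [nat_lit 26956, nat_lit 9460, nat_lit 14320, nat_lit 13816, nat_lit 13828, nat_lit 13836] (nat_lit 0) [nat_lit 33516] false,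
   Spec.mk (nat_lit 13836) (nat_lit 1) [nat_lit 26958, nat_lit 9462, nat_lit 14322, nat_lit 13818, nat_lit 13830, nat_lit 13842, nat_lit 13834] (nat_lit 0) [] false,
   Spec.mk (nat_lit 13842) (nat_lit 2) [nat_lit 26964, nat_lit 9468, nat_lit 14328, nat_lit 13836] (nat_lit 0) [] false,
   Spec.mk (nat_lit 13904) (nat_lit 0) [nat_lit 27026, nat_lit 9530, nat_lit 15362, nat_lit 13418, nat_lit 13958, nat_lit 13922] (nat_lit 0) [nat_lit 33586] false,
   Spec.mk (nat_lit 13922) (nat_lit 0) [nat_lit 27044, nat_lit 9548, nat_lit 15380, nat_lit 13436, nat_lit 13976, nat_lit 13904, nat_lit 13928] (nat_lit 2) [nat_lit 33604] false,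
   Spec.mk (nat_lit 13928) (nat_lit 0) [nat_lit 27050, nat_lit 9554, nat_lit 15386, nat_lit 13442, nat_lit 13982, nat_lit 13922, nat_lit 13930] (nat_lit 2) [nat_lit 33610] false,
   Spec.mk (nat_lit 13930) (nat_lit 0) [nat_lit 27052, nat_lit 9556, nat_lit 15388, nat_lit 13444, nat_lit 13984, nat_lit 13928] (nat_lit 0) [nat_lit 33612] false,
   Spec.mk (nat_lit 13958) (nat_lit 0) [nat_lit 27080, nat_lit 9584, nat_lit 15416, nat_lit 13472, nat_lit 14120, nat_lit 13904, nat_lit 13976] (nat_lit 2) [nat_lit 33640] false,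
   Spec.mk (nat_lit 13976) (nat_lit 0) [nat_lit 27098, nat_lit 9602, nat_lit 15434, nat_lit 13490, nat_lit 14138, nat_lit 13922, nat_lit 14030, nat_lit 13958, nat_lit 13994, nat_lit 13982] (nat_lit 2) [nat_lit 33658] false,
   Spec.mk (nat_lit 13982) (nat_lit 0) [nat_lit 27104, nat_lit 9608, nat_lit 15440, nat_lit 13496, nat_lit 14144, nat_lit 13928, nat_lit 14036, nat_lit 14000, nat_lit 13976, nat_lit 13984] (nat_lit 3) [nat_lit 33664] false,
   Spec.mk (nat_lit 13984) (nat_lit 0) [nat_lit 27106, nat_lit 9610, nat_lit 15442, nat_lit 13498, nat_lit 14146, nat_lit 13930, nat_lit 14038, nat_lit 14002, nat_lit 13982] (nat_lit 1) [nat_lit 33666] false,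
   Spec.mk (nat_lit 13994) (nat_lit 0) [nat_lit 27116, nat_lit 9620, nat_lit 15452, nat_lit 13508, nat_lit 14156, nat_lit 14048, nat_lit 13976, nat_lit 14000] (nat_lit 4) [nat_lit 33676] false,
   Spec.mk (nat_lit 14000) (nat_lit 0) [nat_lit 27122, nat_lit 9626, nat_lit 15458, nat_lit 13514, nat_lit 14162, nat_lit 14054, nat_lit 13982, nat_lit 13994, nat_lit 14006, nat_lit 14002] (nat_lit 3) [nat_lit 33682] false,
   Spec.mk (nat_lit 14002) (nat_lit 0) [nat_lit 27124, nat_lit 9628, nat_lit 15460, nat_lit 13516, nat_lit 14164, nat_lit 14056, nat_lit 13984, nat_lit 14008, nat_lit 14000] (nat_lit 2) [nat_lit 33684] false,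
   Spec.mk (nat_lit 14006) (nat_lit 0) [nat_lit 27128, nat_lit 9632, nat_lit 15464, nat_lit 13520, nat_lit 14168, nat_lit 14060, nat_lit 14000, nat_lit 14008] (nat_lit 4) [nat_lit 33688] false,
   Spec.mk (nat_lit 14008) (nat_lit 0) [nat_lit 27130, nat_lit 9634, nat_lit 15466, nat_lit 13522, nat_lit 14170, nat_lit 14062, nat_lit 14002, nat_lit 14006, nat_lit 14010] (nat_lit 1) [nat_lit 33690] false,
   Spec.mk (nat_lit 14010) (nat_lit 0) [nat_lit 27132, nat_lit 9636, nat_lit 15468, nat_lit 13524, nat_lit 14172, nat_lit 14064, nat_lit 14008] (nat_lit 0) [] false,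
   Spec.mk (nat_lit 14030) (nat_lit 0) [nat_lit 27152, nat_lit 9656, nat_lit 15488, nat_lit 13544, nat_lit 14192, nat_lit 13976, nat_lit 14048, nat_lit 14036] (nat_lit 4) [nat_lit 33712] false,
   Spec.mk (nat_lit 14036) (nat_lit 0) [nat_lit 27158, nat_lit 9662, nat_lit 15494, nat_lit 13550, nat_lit 14198, nat_lit 13982, nat_lit 14054, nat_lit 14030, nat_lit 14038] (nat_lit 6) [nat_lit 33718] false,
   Spec.mk (nat_lit 14038) (nat_lit 0) [nat_lit 27160, nat_lit 9664, nat_lit 15496, nat_lit 13552, nat_lit 14200, nat_lit 13984, nat_lit 14056, nat_lit 14036] (nat_lit 4) [nat_lit 33720] false,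
   Spec.mk (nat_lit 14048) (nat_lit 0) [nat_lit 27170, nat_lit 9674, nat_lit 15506, nat_lit 13562, nat_lit 14210, nat_lit 13994, nat_lit 14030, nat_lit 14054] (nat_lit 4) [nat_lit 33730] false,
   Spec.mk (nat_lit 14054) (nat_lit 0) [nat_lit 27176, nat_lit 9680, nat_lit 15512, nat_lit 13568, nat_lit 14216, nat_lit 14000, nat_lit 14036, nat_lit 14072, nat_lit 14048, nat_lit 14060, nat_lit 14056] (nat_lit 4) [nat_lit 33736] false,
   Spec.mk (nat_lit 14056) (nat_lit 0) [nat_lit 27178, nat_lit 9682, nat_lit 15514, nat_lit 13570, nat_lit 14218, nat_lit 14002, nat_lit 14038, nat_lit 14074, nat_lit 14062, nat_lit 14054] (nat_lit 3) [nat_lit 33738] false,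
   Spec.mk (nat_lit 14060) (nat_lit 0) [nat_lit 27182, nat_lit 9686, nat_lit 15518, nat_lit 13574, nat_lit 14222, nat_lit 14006, nat_lit 14078, nat_lit 14054, nat_lit 14062] (nat_lit 6) [nat_lit 33742] false,
   Spec.mk (nat_lit 14062) (nat_lit 0) [nat_lit 27184, nat_lit 9688, nat_lit 15520, nat_lit 13576, nat_lit 14224, nat_lit 14008, nat_lit 14080, nat_lit 14056, nat_lit 14060, nat_lit 14064] (nat_lit 3) [nat_lit 33744] false,
   Spec.mk (nat_lit 14064) (nat_lit 0) [nat_lit 27186, nat_lit 9690, nat_lit 15522, nat_lit 13578, nat_lit 14226, nat_lit 14010, nat_lit 14082, nat_lit 14062] (nat_lit 2) [] false,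
   Spec.mk (nat_lit 14072) (nat_lit 0) [nat_lit 27194, nat_lit 9698, nat_lit 15530, nat_lit 13586, nat_lit 14234, nat_lit 14054, nat_lit 14078, nat_lit 14074] (nat_lit 4) [nat_lit 33754] false,
   Spec.mk (nat_lit 14074) (nat_lit 0) [nat_lit 27196, nat_lit 9700, nat_lit 15532, nat_lit 13588, nat_lit 14236, nat_lit 14056, nat_lit 14080, nat_lit 14072] (nat_lit 4) [nat_lit 33756] false,
   Spec.mk (nat_lit 14078) (nat_lit 0) [nat_lit 27200, nat_lit 9704, nat_lit 15536, nat_lit 13592, nat_lit 14240, nat_lit 14060, nat_lit 14072, nat_lit 14080] (nat_lit 4) [nat_lit 33760] false,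
   Spec.mk (nat_lit 14080) (nat_lit 0) [nat_lit 27202, nat_lit 9706, nat_lit 15538, nat_lit 13594, nat_lit 14242, nat_lit 14062, nat_lit 14074, nat_lit 14086, nat_lit 14078, nat_lit 14082] (nat_lit 2) [nat_lit 33762] false,
   Spec.mk (nat_lit 14082) (nat_lit 0) [nat_lit 27204, nat_lit 9708, nat_lit 15540, nat_lit 13596, nat_lit 14244, nat_lit 14064, nat_lit 14088, nat_lit 14080] (nat_lit 2) [] false,
   Spec.mk (nat_lit 14086) (nat_lit 0) [nat_lit 27208, nat_lit 9712, nat_lit 15544, nat_lit 13600, nat_lit 14248, nat_lit 14080, nat_lit 14088] (nat_lit 2) [nat_lit 33768] false,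
   Spec.mk (nat_lit 14088) (nat_lit 0) [nat_lit 27210, nat_lit 9714, nat_lit 15546, nat_lit 13602, nat_lit 14250, nat_lit 14082, nat_lit 14086] (nat_lit 0) [] false]

noncomputable def sp32 : List Spec :=
  [Spec.mk (nat_lit 14120) (nat_lit 0) [nat_lit 27242, nat_lit 9746, nat_lit 15578, nat_lit 13634, nat_lit 14606, nat_lit 13958, nat_lit 14138] (nat_lit 1) [nat_lit 33802] false,
   Spec.mk (nat_lit 14138) (nat_lit 0) [nat_lit 27260, nat_lit 9764, nat_lit 15596, nat_lit 13652, nat_lit 14624, nat_lit 13976, nat_lit 14192, nat_lit 14120, nat_lit 14156, nat_lit 14144] (nat_lit 2) [nat_lit 33820] false,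
   Spec.mk (nat_lit 14144) (nat_lit 0) [nat_lit 27266, nat_lit 9770, nat_lit 15602, nat_lit 13658, nat_lit 14630, nat_lit 13982, nat_lit 14198, nat_lit 14162, nat_lit 14138, nat_lit 14146] (nat_lit 3) [nat_lit 33826] false,
   Spec.mk (nat_lit 14146) (nat_lit 0) [nat_lit 27268, nat_lit 9772, nat_lit 15604, nat_lit 13660, nat_lit 14632, nat_lit 13984, nat_lit 14200, nat_lit 14164, nat_lit 14144] (nat_lit 1) [nat_lit 33828] false,
   Spec.mk (nat_lit 14156) (nat_lit 0) [nat_lit 27278, nat_lit 9782, nat_lit 15614, nat_lit 13670, nat_lit 14642, nat_lit 13994, nat_lit 14210, nat_lit 14138, nat_lit 14162] (nat_lit 5) [nat_lit 33838] false,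
   Spec.mk (nat_lit 14162) (nat_lit 0) [nat_lit 27284, nat_lit 9788, nat_lit 15620, nat_lit 13676, nat_lit 14648, nat_lit 14000, nat_lit 14216, nat_lit 14144, nat_lit 14156, nat_lit 14168, nat_lit 14164] (nat_lit 4) [nat_lit 33844] false,
   Spec.mk (nat_lit 14164) (nat_lit 0) [nat_lit 27286, nat_lit 9790, nat_lit 15622, nat_lit 13678, nat_lit 14650, nat_lit 14002, nat_lit 14218, nat_lit 14146, nat_lit 14170, nat_lit 14162] (nat_lit 3) [nat_lit 33846] false,
   Spec.mk (nat_lit 14168) (nat_lit 0) [nat_lit 27290, nat_lit 9794, nat_lit 15626, nat_lit 13682, nat_lit 14654, nat_lit 14006, nat_lit 14222, nat_lit 14162, nat_lit 14170] (nat_lit 5) [nat_lit 33850] false,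
   Spec.mk (nat_lit 14170) (nat_lit 0) [nat_lit 27292, nat_lit 9796, nat_lit 15628, nat_lit 13684, nat_lit 14656, nat_lit 14008, nat_lit 14224, nat_lit 14164, nat_lit 14168, nat_lit 14172] (nat_lit 2) [nat_lit 33852] false,
   Spec.mk (nat_lit 14172) (nat_lit 0) [nat_lit 27294, nat_lit 9798, nat_lit 15630, nat_lit 13686, nat_lit 14658, nat_lit 14010, nat_lit 14226, nat_lit 14170] (nat_lit 1) [] false,
   Spec.mk (nat_lit 14192) (nat_lit 0) [nat_lit 27314, nat_lit 9818, nat_lit 15650, nat_lit 13706, nat_lit 14678, nat_lit 14030, nat_lit 14354, nat_lit 14138, nat_lit 14210, nat_lit 14198] (nat_lit 2) [nat_lit 33874] false,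
   Spec.mk (nat_lit 14198) (nat_lit 0) [nat_lit 27320, nat_lit 9824, nat_lit 15656, nat_lit 13712, nat_lit 14684, nat_lit 14036, nat_lit 14360, nat_lit 14144, nat_lit 14216, nat_lit 14192, nat_lit 14200] (nat_lit 4) [nat_lit 33880] false,
   Spec.mk (nat_lit 14200) (nat_lit 0) [nat_lit 27322, nat_lit 9826, nat_lit 15658, nat_lit 13714, nat_lit 14686, nat_lit 14038, nat_lit 14362, nat_lit 14146, nat_lit 14218, nat_lit 14198] (nat_lit 2) [nat_lit 33882] false,
   Spec.mk (nat_lit 14210) (nat_lit 0) [nat_lit 27332, nat_lit 9836, nat_lit 15668, nat_lit 13724, nat_lit 14696, nat_lit 14048, nat_lit 14372, nat_lit 14156, nat_lit 14264, nat_lit 14192, nat_lit 14216] (nat_lit 3) [nat_lit 33892] false,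
   Spec.mk (nat_lit 14216) (nat_lit 0) [nat_lit 27338, nat_lit 9842, nat_lit 15674, nat_lit 13730, nat_lit 14702, nat_lit 14054, nat_lit 14378, nat_lit 14162, nat_lit 14270, nat_lit 14198, nat_lit 14234, nat_lit 14210, nat_lit 14222, nat_lit 14218] (nat_lit 3) [nat_lit 33898] false,
   Spec.mk (nat_lit 14218) (nat_lit 0) [nat_lit 27340, nat_lit 9844, nat_lit 15676, nat_lit 13732, nat_lit 14704, nat_lit 14056, nat_lit 14380, nat_lit 14164, nat_lit 14272, nat_lit 14200, nat_lit 14236, nat_lit 14224, nat_lit 14216] (nat_lit 2) [nat_lit 33900] false,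
   Spec.mk (nat_lit 14222) (nat_lit 0) [nat_lit 27344, nat_lit 9848, nat_lit 15680, nat_lit 13736, nat_lit 14708, nat_lit 14060, nat_lit 14384, nat_lit 14168, nat_lit 14276, nat_lit 14240, nat_lit 14216, nat_lit 14224] (nat_lit 5) [nat_lit 33904] false,
   Spec.mk (nat_lit 14224) (nat_lit 0) [nat_lit 27346, nat_lit 9850, nat_lit 15682, nat_lit 13738, nat_lit 14710, nat_lit 14062, nat_lit 14386, nat_lit 14170, nat_lit 14278, nat_lit 14242, nat_lit 14218, nat_lit 14222, nat_lit 14226] (nat_lit 2) [nat_lit 33906] false,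
   Spec.mk (nat_lit 14226) (nat_lit 0) [nat_lit 27348, nat_lit 9852, nat_lit 15684, nat_lit 13740, nat_lit 14712, nat_lit 14064, nat_lit 14388, nat_lit 14172, nat_lit 14280, nat_lit 14244, nat_lit 14224] (nat_lit 1) [] false,
   Spec.mk (nat_lit 14234) (nat_lit 0) [nat_lit 27356, nat_lit 9860, nat_lit 15692, nat_lit 13748, nat_lit 14720, nat_lit 14072, nat_lit 14396, nat_lit 14288, nat_lit 14216, nat_lit 14240, nat_lit 14236] (nat_lit 4) [nat_lit 33916] false,
   Spec.mk (nat_lit 14236) (nat_lit 0) [nat_lit 27358, nat_lit 9862, nat_lit 15694, nat_lit 13750, nat_lit 14722, nat_lit 14074, nat_lit 14398, nat_lit 14290, nat_lit 14218, nat_lit 14242, nat_lit 14234] (nat_lit 4) [nat_lit 33918] false,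
   Spec.mk (nat_lit 14240) (nat_lit 0) [nat_lit 27362, nat_lit 9866, nat_lit 15698, nat_lit 13754, nat_lit 14726, nat_lit 14078, nat_lit 14402, nat_lit 14294, nat_lit 14222, nat_lit 14234, nat_lit 14242] (nat_lit 4) [nat_lit 33922] false,
   Spec.mk (nat_lit 14242) (nat_lit 0) [nat_lit 27364, nat_lit 9868, nat_lit 15700, nat_lit 13756, nat_lit 14728, nat_lit 14080, nat_lit 14404, nat_lit 14296, nat_lit 14224, nat_lit 14236, nat_lit 14248, nat_lit 14240, nat_lit 14244] (nat_lit 2) [nat_lit 33924] false,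
   Spec.mk (nat_lit 14244) (nat_lit 0) [nat_lit 27366, nat_lit 9870, nat_lit 15702, nat_lit 13758, nat_lit 14730, nat_lit 14082, nat_lit 14406, nat_lit 14298, nat_lit 14226, nat_lit 14250, nat_lit 14242] (nat_lit 2) [] false,
   Spec.mk (nat_lit 14248) (nat_lit 0) [nat_lit 27370, nat_lit 9874, nat_lit 15706, nat_lit 13762, nat_lit 14734, nat_lit 14086, nat_lit 14410, nat_lit 14302, nat_lit 14242, nat_lit 14250] (nat_lit 2) [nat_lit 33930] false,
   Spec.mk (nat_lit 14250) (nat_lit 0) [nat_lit 27372, nat_lit 9876, nat_lit 15708, nat_lit 13764, nat_lit 14736, nat_lit 14088, nat_lit 14412, nat_lit 14304, nat_lit 14244, nat_lit 14248] (nat_lit 0) [] false,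
   Spec.mk (nat_lit 14264) (nat_lit 0) [nat_lit 27386, nat_lit 9890, nat_lit 15722, nat_lit 13778, nat_lit 14750, nat_lit 14426, nat_lit 14210, nat_lit 14270] (nat_lit 3) [nat_lit 33946] false,
   Spec.mk (nat_lit 14270) (nat_lit 0) [nat_lit 27392, nat_lit 9896, nat_lit 15728, nat_lit 13784, nat_lit 14756, nat_lit 14432, nat_lit 14216, nat_lit 14288, nat_lit 14264, nat_lit 14276, nat_lit 14272] (nat_lit 4) [nat_lit 33952] false,
   Spec.mk (nat_lit 14272) (nat_lit 0) [nat_lit 27394, nat_lit 9898, nat_lit 15730, nat_lit 13786, nat_lit 14758, nat_lit 14434, nat_lit 14218, nat_lit 14290, nat_lit 14278, nat_lit 14270] (nat_lit 3) [nat_lit 33954] false,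
   Spec.mk (nat_lit 14276) (nat_lit 0) [nat_lit 27398, nat_lit 9902, nat_lit 15734, nat_lit 13790, nat_lit 14762, nat_lit 14438, nat_lit 14222, nat_lit 14294, nat_lit 14270, nat_lit 14278] (nat_lit 7) [nat_lit 33958] false,
   Spec.mk (nat_lit 14278) (nat_lit 0) [nat_lit 27400, nat_lit 9904, nat_lit 15736, nat_lit 13792, nat_lit 14764, nat_lit 14440, nat_lit 14224, nat_lit 14296, nat_lit 14272, nat_lit 14276, nat_lit 14280] (nat_lit 4) [nat_lit 33960] false,
   Spec.mk (nat_lit 14280) (nat_lit 0) [nat_lit 27402, nat_lit 9906, nat_lit 15738, nat_lit 13794, nat_lit 14766, nat_lit 14442, nat_lit 14226, nat_lit 14298, nat_lit 14278] (nat_lit 3) [] false,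
   Spec.mk (nat_lit 14288) (nat_lit 0) [nat_lit 27410, nat_lit 9914, nat_lit 15746, nat_lit 13802, nat_lit 14774, nat_lit 14450, nat_lit 14234, nat_lit 14270, nat_lit 14294, nat_lit 14290] (nat_lit 3) [nat_lit 33970] false,
   Spec.mk (nat_lit 14290) (nat_lit 0) [nat_lit 27412, nat_lit 9916, nat_lit 15748, nat_lit 13804, nat_lit 14776, nat_lit 14452, nat_lit 14236, nat_lit 14272, nat_lit 14296, nat_lit 14288] (nat_lit 3) [nat_lit 33972] false,
   Spec.mk (nat_lit 14294) (nat_lit 0) [nat_lit 27416, nat_lit 9920, nat_lit 15752, nat_lit 13808, nat_lit 14780, nat_lit 14456, nat_lit 14240, nat_lit 14276, nat_lit 14312, nat_lit 14288, nat_lit 14296] (nat_lit 4) [nat_lit 33976] false,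
   Spec.mk (nat_lit 14296) (nat_lit 0) [nat_lit 27418, nat_lit 9922, nat_lit 15754, nat_lit 13810, nat_lit 14782, nat_lit 14458, nat_lit 14242, nat_lit 14278, nat_lit 14314, nat_lit 14290, nat_lit 14302, nat_lit 14294, nat_lit 14298] (nat_lit 2) [nat_lit 33978] false,
   Spec.mk (nat_lit 14298) (nat_lit 0) [nat_lit 27420, nat_lit 9924, nat_lit 15756, nat_lit 13812, nat_lit 14784, nat_lit 14460, nat_lit 14244, nat_lit 14280, nat_lit 14316, nat_lit 14304, nat_lit 14296] (nat_lit 2) [] false,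
   Spec.mk (nat_lit 14302) (nat_lit 0) [nat_lit 27424, nat_lit 9928, nat_lit 15760, nat_lit 13816, nat_lit 14788, nat_lit 14464, nat_lit 14248, nat_lit 14320, nat_lit 14296, nat_lit 14304] (nat_lit 3) [nat_lit 33984] false,
   Spec.mk (nat_lit 14304) (nat_lit 0) [nat_lit 27426, nat_lit 9930, nat_lit 15762, nat_lit 13818, nat_lit 14790, nat_lit 14466, nat_lit 14250, nat_lit 14322, nat_lit 14298, nat_lit 14302] (nat_lit 1) [] false,
   Spec.mk (nat_lit 14312) (nat_lit 0) [nat_lit 27434, nat_lit 9938, nat_lit 15770, nat_lit 13826, nat_lit 14798, nat_lit 14474, nat_lit 14294, nat_lit 14314] (nat_lit 3) [nat_lit 33994] false,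
   Spec.mk (nat_lit 14314) (nat_lit 0) [nat_lit 27436, nat_lit 9940, nat_lit 15772, nat_lit 13828, nat_lit 14800, nat_lit 14476, nat_lit 14296, nat_lit 14320, nat_lit 14312, nat_lit 14316] (nat_lit 2) [nat_lit 33996] false,
   Spec.mk (nat_lit 14316) (nat_lit 0) [nat_lit 27438, nat_lit 9942, nat_lit 15774, nat_lit 13830, nat_lit 14802, nat_lit 14478, nat_lit 14298, nat_lit 14322, nat_lit 14314] (nat_lit 3) [] false,
   Spec.mk (nat_lit 14320) (nat_lit 0) [nat_lit 27442, nat_lit 9946, nat_lit 15778, nat_lit 13834, nat_lit 14806, nat_lit 14482, nat_lit 14302, nat_lit 14314, nat_lit 14322] (nat_lit 1) [nat_lit 34002] false,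
   Spec.mk (nat_lit 14322) (nat_lit 0) [nat_lit 27444, nat_lit 9948, nat_lit 15780, nat_lit 13836, nat_lit 14808, nat_lit 14484, nat_lit 14304, nat_lit 14316, nat_lit 14328, nat_lit 14320] (nat_lit 0) [] false,
   Spec.mk (nat_lit 14328) (nat_lit 1) [nat_lit 27450, nat_lit 9954, nat_lit 15786, nat_lit 13842, nat_lit 14814, nat_lit 14490, nat_lit 14322] (nat_lit 0) [] false,
   Spec.mk (nat_lit 14354) (nat_lit 0) [nat_lit 27476, nat_lit 9980, nat_lit 15812, nat_lit 14840, nat_lit 14192, nat_lit 14372, nat_lit 14360] (nat_lit 2) [nat_lit 34036] false,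
   Spec.mk (nat_lit 14360) (nat_lit 0) [nat_lit 27482, nat_lit 9986, nat_lit 15818, nat_lit 14846, nat_lit 14198, nat_lit 14378, nat_lit 14354, nat_lit 14362] (nat_lit 4) [nat_lit 34042] false,
   Spec.mk (nat_lit 14362) (nat_lit 0) [nat_lit 27484, nat_lit 9988, nat_lit 15820, nat_lit 14848, nat_lit 14200, nat_lit 14380, nat_lit 14360] (nat_lit 2) [nat_lit 34044] false,
   Spec.mk (nat_lit 14372) (nat_lit 0) [nat_lit 27494, nat_lit 9998, nat_lit 15830, nat_lit 14858, nat_lit 14210, nat_lit 14426, nat_lit 14354, nat_lit 14378] (nat_lit 4) [nat_lit 34054] false,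
   Spec.mk (nat_lit 14378) (nat_lit 0) [nat_lit 27500, nat_lit 10004, nat_lit 15836, nat_lit 14864, nat_lit 14216, nat_lit 14432, nat_lit 14360, nat_lit 14396, nat_lit 14372, nat_lit 14384, nat_lit 14380] (nat_lit 4) [nat_lit 34060] false,
   Spec.mk (nat_lit 14380) (nat_lit 0) [nat_lit 27502, nat_lit 10006, nat_lit 15838, nat_lit 14866, nat_lit 14218, nat_lit 14434, nat_lit 14362, nat_lit 14398, nat_lit 14386, nat_lit 14378] (nat_lit 3) [nat_lit 34062] false,
   Spec.mk (nat_lit 14384) (nat_lit 0) [nat_lit 27506, nat_lit 10010, nat_lit 15842, nat_lit 14870, nat_lit 14222, nat_lit 14438, nat_lit 14402, nat_lit 14378, nat_lit 14386] (nat_lit 6) [nat_lit 34066] false,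
   Spec.mk (nat_lit 14386) (nat_lit 0) [nat_lit 27508, nat_lit 10012, nat_lit 15844, nat_lit 14872, nat_lit 14224, nat_lit 14440, nat_lit 14404, nat_lit 14380, nat_lit 14384, nat_lit 14388] (nat_lit 3) [nat_lit 34068] false,
   Spec.mk (nat_lit 14388) (nat_lit 0) [nat_lit 27510, nat_lit 10014, nat_lit 15846, nat_lit 14874, nat_lit 14226, nat_lit 14442, nat_lit 14406, nat_lit 14386] (nat_lit 2) [] false,
   Spec.mk (nat_lit 14396) (nat_lit 0) [nat_lit 27518, nat_lit 10022, nat_lit 15854, nat_lit 14882, nat_lit 14234, nat_lit 14450, nat_lit 14378, nat_lit 14402, nat_lit 14398] (nat_lit 6) [nat_lit 34078] false,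
   Spec.mk (nat_lit 14398) (nat_lit 0) [nat_lit 27520, nat_lit 10024, nat_lit 15856, nat_lit 14884, nat_lit 14236, nat_lit 14452, nat_lit 14380, nat_lit 14404, nat_lit 14396] (nat_lit 6) [nat_lit 34080] false,
   Spec.mk (nat_lit 14402) (nat_lit 0) [nat_lit 27524, nat_lit 10028, nat_lit 15860, nat_lit 14888, nat_lit 14240, nat_lit 14456, nat_lit 14384, nat_lit 14396, nat_lit 14404] (nat_lit 6) [nat_lit 34084] false,
   Spec.mk (nat_lit 14404) (nat_lit 0) [nat_lit 27526, nat_lit 10030, nat_lit 15862, nat_lit 14890, nat_lit 14242, nat_lit 14458, nat_lit 14386, nat_lit 14398, nat_lit 14410, nat_lit 14402, nat_lit 14406] (nat_lit 4) [nat_lit 34086] false,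
   Spec.mk (nat_lit 14406) (nat_lit 0) [nat_lit 27528, nat_lit 10032, nat_lit 15864, nat_lit 14892, nat_lit 14244, nat_lit 14460, nat_lit 14388, nat_lit 14412, nat_lit 14404] (nat_lit 4) [] false,
   Spec.mk (nat_lit 14410) (nat_lit 0) [nat_lit 27532, nat_lit 10036, nat_lit 15868, nat_lit 14896, nat_lit 14248, nat_lit 14464, nat_lit 14404, nat_lit 14412] (nat_lit 4) [nat_lit 34092] false]

noncomputable def sp33 : List Spec :=
  [Spec.mk (nat_lit 14412) (nat_lit 0) [nat_lit 27534, nat_lit 10038, nat_lit 15870, nat_lit 14898, nat_lit 14250, nat_lit 14466, nat_lit 14406, nat_lit 14410] (nat_lit 2) [] false,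
   Spec.mk (nat_lit 14426) (nat_lit 0) [nat_lit 27548, nat_lit 10052, nat_lit 15884, nat_lit 14912, nat_lit 14264, nat_lit 14372, nat_lit 14432] (nat_lit 2) [nat_lit 34108] false,
   Spec.mk (nat_lit 14432) (nat_lit 0) [nat_lit 27554, nat_lit 10058, nat_lit 15890, nat_lit 14918, nat_lit 14270, nat_lit 14378, nat_lit 14450, nat_lit 14426, nat_lit 14438, nat_lit 14434] (nat_lit 3) [nat_lit 34114] false,
   Spec.mk (nat_lit 14434) (nat_lit 0) [nat_lit 27556, nat_lit 10060, nat_lit 15892, nat_lit 14920, nat_lit 14272, nat_lit 14380, nat_lit 14452, nat_lit 14440, nat_lit 14432] (nat_lit 2) [nat_lit 34116] false,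
   Spec.mk (nat_lit 14438) (nat_lit 0) [nat_lit 27560, nat_lit 10064, nat_lit 15896, nat_lit 14924, nat_lit 14276, nat_lit 14384, nat_lit 14456, nat_lit 14432, nat_lit 14440] (nat_lit 6) [nat_lit 34120] false,
   Spec.mk (nat_lit 14440) (nat_lit 0) [nat_lit 27562, nat_lit 10066, nat_lit 15898, nat_lit 14926, nat_lit 14278, nat_lit 14386, nat_lit 14458, nat_lit 14434, nat_lit 14438, nat_lit 14442] (nat_lit 3) [nat_lit 34122] false,
   Spec.mk (nat_lit 14442) (nat_lit 0) [nat_lit 27564, nat_lit 10068, nat_lit 15900, nat_lit 14928, nat_lit 14280, nat_lit 14388, nat_lit 14460, nat_lit 14440] (nat_lit 2) [] false,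
   Spec.mk (nat_lit 14450) (nat_lit 0) [nat_lit 27572, nat_lit 10076, nat_lit 15908, nat_lit 14936, nat_lit 14288, nat_lit 14396, nat_lit 14504, nat_lit 14432, nat_lit 14456, nat_lit 14452] (nat_lit 3) [nat_lit 34132] false,
   Spec.mk (nat_lit 14452) (nat_lit 0) [nat_lit 27574, nat_lit 10078, nat_lit 15910, nat_lit 14938, nat_lit 14290, nat_lit 14398, nat_lit 14506, nat_lit 14434, nat_lit 14458, nat_lit 14450] (nat_lit 3) [nat_lit 34134] false,
   Spec.mk (nat_lit 14456) (nat_lit 0) [nat_lit 27578, nat_lit 10082, nat_lit 15914, nat_lit 14942, nat_lit 14294, nat_lit 14402, nat_lit 14510, nat_lit 14438, nat_lit 14474, nat_lit 14450, nat_lit 14458] (nat_lit 4) [nat_lit 34138] false,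
   Spec.mk (nat_lit 14458) (nat_lit 0) [nat_lit 27580, nat_lit 10084, nat_lit 15916, nat_lit 14944, nat_lit 14296, nat_lit 14404, nat_lit 14512, nat_lit 14440, nat_lit 14476, nat_lit 14452, nat_lit 14464, nat_lit 14456, nat_lit 14460] (nat_lit 2) [nat_lit 34140] false,
   Spec.mk (nat_lit 14460) (nat_lit 0) [nat_lit 27582, nat_lit 10086, nat_lit 15918, nat_lit 14946, nat_lit 14298, nat_lit 14406, nat_lit 14514, nat_lit 14442, nat_lit 14478, nat_lit 14466, nat_lit 14458] (nat_lit 2) [] false,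
   Spec.mk (nat_lit 14464) (nat_lit 0) [nat_lit 27586, nat_lit 10090, nat_lit 15922, nat_lit 14950, nat_lit 14302, nat_lit 14410, nat_lit 14518, nat_lit 14482, nat_lit 14458, nat_lit 14466] (nat_lit 3) [nat_lit 34146] false,
   Spec.mk (nat_lit 14466) (nat_lit 0) [nat_lit 27588, nat_lit 10092, nat_lit 15924, nat_lit 14952, nat_lit 14304, nat_lit 14412, nat_lit 14520, nat_lit 14484, nat_lit 14460, nat_lit 14464] (nat_lit 1) [] false,
   Spec.mk (nat_lit 14474) (nat_lit 0) [nat_lit 27596, nat_lit 10100, nat_lit 15932, nat_lit 14960, nat_lit 14312, nat_lit 14528, nat_lit 14456, nat_lit 14476] (nat_lit 4) [nat_lit 34156] false,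
   Spec.mk (nat_lit 14476) (nat_lit 0) [nat_lit 27598, nat_lit 10102, nat_lit 15934, nat_lit 14962, nat_lit 14314, nat_lit 14530, nat_lit 14458, nat_lit 14482, nat_lit 14474, nat_lit 14478] (nat_lit 3) [nat_lit 34158] false,
   Spec.mk (nat_lit 14478) (nat_lit 0) [nat_lit 27600, nat_lit 10104, nat_lit 15936, nat_lit 14964, nat_lit 14316, nat_lit 14532, nat_lit 14460, nat_lit 14484, nat_lit 14476] (nat_lit 4) [] false,
   Spec.mk (nat_lit 14482) (nat_lit 0) [nat_lit 27604, nat_lit 10108, nat_lit 15940, nat_lit 14968, nat_lit 14320, nat_lit 14536, nat_lit 14464, nat_lit 14476, nat_lit 14484] (nat_lit 2) [nat_lit 34164] false,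
   Spec.mk (nat_lit 14484) (nat_lit 0) [nat_lit 27606, nat_lit 10110, nat_lit 15942, nat_lit 14970, nat_lit 14322, nat_lit 14538, nat_lit 14466, nat_lit 14478, nat_lit 14490, nat_lit 14482] (nat_lit 1) [] false,
   Spec.mk (nat_lit 14490) (nat_lit 0) [nat_lit 27612, nat_lit 10116, nat_lit 15948, nat_lit 14976, nat_lit 14328, nat_lit 14544, nat_lit 14484] (nat_lit 0) [] false,
   Spec.mk (nat_lit 14504) (nat_lit 0) [nat_lit 27626, nat_lit 10130, nat_lit 15962, nat_lit 14990, nat_lit 14450, nat_lit 14510, nat_lit 14506] (nat_lit 2) [nat_lit 34186] false,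
   Spec.mk (nat_lit 14506) (nat_lit 0) [nat_lit 27628, nat_lit 10132, nat_lit 15964, nat_lit 14992, nat_lit 14452, nat_lit 14512, nat_lit 14504] (nat_lit 2) [nat_lit 34188] false,
   Spec.mk (nat_lit 14510) (nat_lit 0) [nat_lit 27632, nat_lit 10136, nat_lit 15968, nat_lit 14996, nat_lit 14456, nat_lit 14528, nat_lit 14504, nat_lit 14512] (nat_lit 4) [nat_lit 34192] false,
   Spec.mk (nat_lit 14512) (nat_lit 0) [nat_lit 27634, nat_lit 10138, nat_lit 15970, nat_lit 14998, nat_lit 14458, nat_lit 14530, nat_lit 14506, nat_lit 14518, nat_lit 14510, nat_lit 14514] (nat_lit 2) [nat_lit 34194] false,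
   Spec.mk (nat_lit 14514) (nat_lit 0) [nat_lit 27636, nat_lit 10140, nat_lit 15972, nat_lit 15000, nat_lit 14460, nat_lit 14532, nat_lit 14520, nat_lit 14512] (nat_lit 2) [] false,
   Spec.mk (nat_lit 14518) (nat_lit 0) [nat_lit 27640, nat_lit 10144, nat_lit 15976, nat_lit 15004, nat_lit 14464, nat_lit 14536, nat_lit 14512, nat_lit 14520] (nat_lit 4) [nat_lit 34200] false,
   Spec.mk (nat_lit 14520) (nat_lit 0) [nat_lit 27642, nat_lit 10146, nat_lit 15978, nat_lit 15006, nat_lit 14466, nat_lit 14538, nat_lit 14514, nat_lit 14518] (nat_lit 2) [] false,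
   Spec.mk (nat_lit 14528) (nat_lit 0) [nat_lit 27650, nat_lit 10154, nat_lit 15986, nat_lit 15014, nat_lit 14474, nat_lit 14510, nat_lit 14530] (nat_lit 2) [nat_lit 34210] false,
   Spec.mk (nat_lit 14530) (nat_lit 0) [nat_lit 27652, nat_lit 10156, nat_lit 15988, nat_lit 15016, nat_lit 14476, nat_lit 14512, nat_lit 14536, nat_lit 14528, nat_lit 14532] (nat_lit 1) [nat_lit 34212] false,
   Spec.mk (nat_lit 14532) (nat_lit 0) [nat_lit 27654, nat_lit 10158, nat_lit 15990, nat_lit 15018, nat_lit 14478, nat_lit 14514, nat_lit 14538, nat_lit 14530] (nat_lit 2) [] false,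
   Spec.mk (nat_lit 14536) (nat_lit 0) [nat_lit 27658, nat_lit 10162, nat_lit 15994, nat_lit 15022, nat_lit 14482, nat_lit 14518, nat_lit 14554, nat_lit 14530, nat_lit 14538] (nat_lit 1) [nat_lit 34218] false,
   Spec.mk (nat_lit 14538) (nat_lit 0) [nat_lit 27660, nat_lit 10164, nat_lit 15996, nat_lit 15024, nat_lit 14484, nat_lit 14520, nat_lit 14556, nat_lit 14532, nat_lit 14544, nat_lit 14536] (nat_lit 0) [] false,
   Spec.mk (nat_lit 14544) (nat_lit 0) [nat_lit 27666, nat_lit 10170, nat_lit 16002, nat_lit 15030, nat_lit 14490, nat_lit 14562, nat_lit 14538] (nat_lit 0) [] false,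
   Spec.mk (nat_lit 14554) (nat_lit 0) [nat_lit 27676, nat_lit 10180, nat_lit 16012, nat_lit 15040, nat_lit 14536, nat_lit 14556] (nat_lit 0) [nat_lit 34236] false,
   Spec.mk (nat_lit 14556) (nat_lit 0) [nat_lit 27678, nat_lit 10182, nat_lit 16014, nat_lit 15042, nat_lit 14538, nat_lit 14562, nat_lit 14554] (nat_lit 0) [] false,
   Spec.mk (nat_lit 14562) (nat_lit 2) [nat_lit 27684, nat_lit 10188, nat_lit 16020, nat_lit 15048, nat_lit 14544, nat_lit 14556] (nat_lit 0) [] false,
   Spec.mk (nat_lit 14606) (nat_lit 0) [nat_lit 27728, nat_lit 10232, nat_lit 16064, nat_lit 14120, nat_lit 14624] (nat_lit 2) [nat_lit 34288] false,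
   Spec.mk (nat_lit 14624) (nat_lit 0) [nat_lit 27746, nat_lit 10250, nat_lit 16082, nat_lit 14138, nat_lit 14678, nat_lit 14606, nat_lit 14642, nat_lit 14630] (nat_lit 3) [nat_lit 34306] false,
   Spec.mk (nat_lit 14630) (nat_lit 0) [nat_lit 27752, nat_lit 10256, nat_lit 16088, nat_lit 14144, nat_lit 14684, nat_lit 14648, nat_lit 14624, nat_lit 14632] (nat_lit 4) [nat_lit 34312] false,
   Spec.mk (nat_lit 14632) (nat_lit 0) [nat_lit 27754, nat_lit 10258, nat_lit 16090, nat_lit 14146, nat_lit 14686, nat_lit 14650, nat_lit 14630] (nat_lit 2) [nat_lit 34314] false,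
   Spec.mk (nat_lit 14642) (nat_lit 0) [nat_lit 27764, nat_lit 10268, nat_lit 16100, nat_lit 14156, nat_lit 14696, nat_lit 14624, nat_lit 14648] (nat_lit 6) [nat_lit 34324] false,
   Spec.mk (nat_lit 14648) (nat_lit 0) [nat_lit 27770, nat_lit 10274, nat_lit 16106, nat_lit 14162, nat_lit 14702, nat_lit 14630, nat_lit 14642, nat_lit 14654, nat_lit 14650] (nat_lit 5) [nat_lit 34330] false,
   Spec.mk (nat_lit 14650) (nat_lit 0) [nat_lit 27772, nat_lit 10276, nat_lit 16108, nat_lit 14164, nat_lit 14704, nat_lit 14632, nat_lit 14656, nat_lit 14648] (nat_lit 4) [nat_lit 34332] false,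
   Spec.mk (nat_lit 14654) (nat_lit 0) [nat_lit 27776, nat_lit 10280, nat_lit 16112, nat_lit 14168, nat_lit 14708, nat_lit 14648, nat_lit 14656] (nat_lit 6) [nat_lit 34336] false,
   Spec.mk (nat_lit 14656) (nat_lit 0) [nat_lit 27778, nat_lit 10282, nat_lit 16114, nat_lit 14170, nat_lit 14710, nat_lit 14650, nat_lit 14654, nat_lit 14658] (nat_lit 3) [nat_lit 34338] false,
   Spec.mk (nat_lit 14658) (nat_lit 0) [nat_lit 27780, nat_lit 10284, nat_lit 16116, nat_lit 14172, nat_lit 14712, nat_lit 14656] (nat_lit 2) [] false,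
   Spec.mk (nat_lit 14678) (nat_lit 0) [nat_lit 27800, nat_lit 10304, nat_lit 16136, nat_lit 14192, nat_lit 14840, nat_lit 14624, nat_lit 14696, nat_lit 14684] (nat_lit 4) [nat_lit 34360] false,
   Spec.mk (nat_lit 14684) (nat_lit 0) [nat_lit 27806, nat_lit 10310, nat_lit 16142, nat_lit 14198, nat_lit 14846, nat_lit 14630, nat_lit 14702, nat_lit 14678, nat_lit 14686] (nat_lit 6) [nat_lit 34366] false,
   Spec.mk (nat_lit 14686) (nat_lit 0) [nat_lit 27808, nat_lit 10312, nat_lit 16144, nat_lit 14200, nat_lit 14848, nat_lit 14632, nat_lit 14704, nat_lit 14684] (nat_lit 4) [nat_lit 34368] false,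
   Spec.mk (nat_lit 14696) (nat_lit 0) [nat_lit 27818, nat_lit 10322, nat_lit 16154, nat_lit 14210, nat_lit 14858, nat_lit 14642, nat_lit 14750, nat_lit 14678, nat_lit 14702] (nat_lit 5) [nat_lit 34378] false,
   Spec.mk (nat_lit 14702) (nat_lit 0) [nat_lit 27824, nat_lit 10328, nat_lit 16160, nat_lit 14216, nat_lit 14864, nat_lit 14648, nat_lit 14756, nat_lit 14684, nat_lit 14720, nat_lit 14696, nat_lit 14708, nat_lit 14704] (nat_lit 5) [nat_lit 34384] false,
   Spec.mk (nat_lit 14704) (nat_lit 0) [nat_lit 27826, nat_lit 10330, nat_lit 16162, nat_lit 14218, nat_lit 14866, nat_lit 14650, nat_lit 14758, nat_lit 14686, nat_lit 14722, nat_lit 14710, nat_lit 14702] (nat_lit 4) [nat_lit 34386] false,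
   Spec.mk (nat_lit 14708) (nat_lit 0) [nat_lit 27830, nat_lit 10334, nat_lit 16166, nat_lit 14222, nat_lit 14870, nat_lit 14654, nat_lit 14762, nat_lit 14726, nat_lit 14702, nat_lit 14710] (nat_lit 7) [nat_lit 34390] false,
   Spec.mk (nat_lit 14710) (nat_lit 0) [nat_lit 27832, nat_lit 10336, nat_lit 16168, nat_lit 14224, nat_lit 14872, nat_lit 14656, nat_lit 14764, nat_lit 14728, nat_lit 14704, nat_lit 14708, nat_lit 14712] (nat_lit 4) [nat_lit 34392] false,
   Spec.mk (nat_lit 14712) (nat_lit 0) [nat_lit 27834, nat_lit 10338, nat_lit 16170, nat_lit 14226, nat_lit 14874, nat_lit 14658, nat_lit 14766, nat_lit 14730, nat_lit 14710] (nat_lit 3) [] false,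
   Spec.mk (nat_lit 14720) (nat_lit 0) [nat_lit 27842, nat_lit 10346, nat_lit 16178, nat_lit 14234, nat_lit 14882, nat_lit 14774, nat_lit 14702, nat_lit 14726, nat_lit 14722] (nat_lit 6) [nat_lit 34402] false,
   Spec.mk (nat_lit 14722) (nat_lit 0) [nat_lit 27844, nat_lit 10348, nat_lit 16180, nat_lit 14236, nat_lit 14884, nat_lit 14776, nat_lit 14704, nat_lit 14728, nat_lit 14720] (nat_lit 6) [nat_lit 34404] false,
   Spec.mk (nat_lit 14726) (nat_lit 0) [nat_lit 27848, nat_lit 10352, nat_lit 16184, nat_lit 14240, nat_lit 14888, nat_lit 14780, nat_lit 14708, nat_lit 14720, nat_lit 14728] (nat_lit 6) [nat_lit 34408] false,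
   Spec.mk (nat_lit 14728) (nat_lit 0) [nat_lit 27850, nat_lit 10354, nat_lit 16186, nat_lit 14242, nat_lit 14890, nat_lit 14782, nat_lit 14710, nat_lit 14722, nat_lit 14734, nat_lit 14726, nat_lit 14730] (nat_lit 4) [nat_lit 34410] false,
   Spec.mk (nat_lit 14730) (nat_lit 0) [nat_lit 27852, nat_lit 10356, nat_lit 16188, nat_lit 14244, nat_lit 14892, nat_lit 14784, nat_lit 14712, nat_lit 14736, nat_lit 14728] (nat_lit 4) [] false]

noncomputable def sp34 : List Spec :=
  [Spec.mk (nat_lit 14734) (nat_lit 0) [nat_lit 27856, nat_lit 10360, nat_lit 16192, nat_lit 14248, nat_lit 14896, nat_lit 14788, nat_lit 14728, nat_lit 14736] (nat_lit 4) [nat_lit 34416] false,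
   Spec.mk (nat_lit 14736) (nat_lit 0) [nat_lit 27858, nat_lit 10362, nat_lit 16194, nat_lit 14250, nat_lit 14898, nat_lit 14790, nat_lit 14730, nat_lit 14734] (nat_lit 2) [] false,
   Spec.mk (nat_lit 14750) (nat_lit 0) [nat_lit 27872, nat_lit 10376, nat_lit 16208, nat_lit 14264, nat_lit 14912, nat_lit 14696, nat_lit 14756] (nat_lit 6) [nat_lit 34432] false,
   Spec.mk (nat_lit 14756) (nat_lit 0) [nat_lit 27878, nat_lit 10382, nat_lit 16214, nat_lit 14270, nat_lit 14918, nat_lit 14702, nat_lit 14774, nat_lit 14750, nat_lit 14762, nat_lit 14758] (nat_lit 7) [nat_lit 34438] false,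
   Spec.mk (nat_lit 14758) (nat_lit 0) [nat_lit 27880, nat_lit 10384, nat_lit 16216, nat_lit 14272, nat_lit 14920, nat_lit 14704, nat_lit 14776, nat_lit 14764, nat_lit 14756] (nat_lit 6) [nat_lit 34440] false,
   Spec.mk (nat_lit 14762) (nat_lit 0) [nat_lit 27884, nat_lit 10388, nat_lit 16220, nat_lit 14276, nat_lit 14924, nat_lit 14708, nat_lit 14780, nat_lit 14756, nat_lit 14764] (nat_lit 10) [nat_lit 34444] true,
   Spec.mk (nat_lit 14764) (nat_lit 0) [nat_lit 27886, nat_lit 10390, nat_lit 16222, nat_lit 14278, nat_lit 14926, nat_lit 14710, nat_lit 14782, nat_lit 14758, nat_lit 14762, nat_lit 14766] (nat_lit 7) [nat_lit 34446] false,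
   Spec.mk (nat_lit 14766) (nat_lit 0) [nat_lit 27888, nat_lit 10392, nat_lit 16224, nat_lit 14280, nat_lit 14928, nat_lit 14712, nat_lit 14784, nat_lit 14764] (nat_lit 6) [] false,
   Spec.mk (nat_lit 14774) (nat_lit 0) [nat_lit 27896, nat_lit 10400, nat_lit 16232, nat_lit 14288, nat_lit 14936, nat_lit 14720, nat_lit 14756, nat_lit 14780, nat_lit 14776] (nat_lit 6) [nat_lit 34456] false,
   Spec.mk (nat_lit 14776) (nat_lit 0) [nat_lit 27898, nat_lit 10402, nat_lit 16234, nat_lit 14290, nat_lit 14938, nat_lit 14722, nat_lit 14758, nat_lit 14782, nat_lit 14774] (nat_lit 6) [nat_lit 34458] false,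
   Spec.mk (nat_lit 14780) (nat_lit 0) [nat_lit 27902, nat_lit 10406, nat_lit 16238, nat_lit 14294, nat_lit 14942, nat_lit 14726, nat_lit 14762, nat_lit 14798, nat_lit 14774, nat_lit 14782] (nat_lit 7) [nat_lit 34462] false,
   Spec.mk (nat_lit 14782) (nat_lit 0) [nat_lit 27904, nat_lit 10408, nat_lit 16240, nat_lit 14296, nat_lit 14944, nat_lit 14728, nat_lit 14764, nat_lit 14800, nat_lit 14776, nat_lit 14788, nat_lit 14780, nat_lit 14784] (nat_lit 5) [nat_lit 34464] false,
   Spec.mk (nat_lit 14784) (nat_lit 0) [nat_lit 27906, nat_lit 10410, nat_lit 16242, nat_lit 14298, nat_lit 14946, nat_lit 14730, nat_lit 14766, nat_lit 14802, nat_lit 14790, nat_lit 14782] (nat_lit 5) [] false,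
   Spec.mk (nat_lit 14788) (nat_lit 0) [nat_lit 27910, nat_lit 10414, nat_lit 16246, nat_lit 14302, nat_lit 14950, nat_lit 14734, nat_lit 14806, nat_lit 14782, nat_lit 14790] (nat_lit 6) [nat_lit 34470] false,
   Spec.mk (nat_lit 14790) (nat_lit 0) [nat_lit 27912, nat_lit 10416, nat_lit 16248, nat_lit 14304, nat_lit 14952, nat_lit 14736, nat_lit 14808, nat_lit 14784, nat_lit 14788] (nat_lit 4) [] false,
   Spec.mk (nat_lit 14798) (nat_lit 0) [nat_lit 27920, nat_lit 10424, nat_lit 16256, nat_lit 14312, nat_lit 14960, nat_lit 14780, nat_lit 14800] (nat_lit 6) [nat_lit 34480] false,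
   Spec.mk (nat_lit 14800) (nat_lit 0) [nat_lit 27922, nat_lit 10426, nat_lit 16258, nat_lit 14314, nat_lit 14962, nat_lit 14782, nat_lit 14806, nat_lit 14798, nat_lit 14802] (nat_lit 5) [nat_lit 34482] false,
   Spec.mk (nat_lit 14802) (nat_lit 0) [nat_lit 27924, nat_lit 10428, nat_lit 16260, nat_lit 14316, nat_lit 14964, nat_lit 14784, nat_lit 14808, nat_lit 14800] (nat_lit 6) [] false,
   Spec.mk (nat_lit 14806) (nat_lit 0) [nat_lit 27928, nat_lit 10432, nat_lit 16264, nat_lit 14320, nat_lit 14968, nat_lit 14788, nat_lit 14800, nat_lit 14808] (nat_lit 4) [nat_lit 34488] false,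
   Spec.mk (nat_lit 14808) (nat_lit 0) [nat_lit 27930, nat_lit 10434, nat_lit 16266, nat_lit 14322, nat_lit 14970, nat_lit 14790, nat_lit 14802, nat_lit 14814, nat_lit 14806] (nat_lit 3) [] false,
   Spec.mk (nat_lit 14814) (nat_lit 0) [nat_lit 27936, nat_lit 10440, nat_lit 16272, nat_lit 14328, nat_lit 14976, nat_lit 14808] (nat_lit 2) [] false,
   Spec.mk (nat_lit 14840) (nat_lit 0) [nat_lit 27962, nat_lit 10466, nat_lit 16298, nat_lit 14354, nat_lit 14678, nat_lit 14858, nat_lit 14846] (nat_lit 2) [nat_lit 34522] false,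
   Spec.mk (nat_lit 14846) (nat_lit 0) [nat_lit 27968, nat_lit 10472, nat_lit 16304, nat_lit 14360, nat_lit 14684, nat_lit 14864, nat_lit 14840, nat_lit 14848] (nat_lit 4) [nat_lit 34528] false,
   Spec.mk (nat_lit 14848) (nat_lit 0) [nat_lit 27970, nat_lit 10474, nat_lit 16306, nat_lit 14362, nat_lit 14686, nat_lit 14866, nat_lit 14846] (nat_lit 2) [nat_lit 34530] false,
   Spec.mk (nat_lit 14858) (nat_lit 0) [nat_lit 27980, nat_lit 10484, nat_lit 16316, nat_lit 14372, nat_lit 14696, nat_lit 14912, nat_lit 14840, nat_lit 14864] (nat_lit 4) [nat_lit 34540] false,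
   Spec.mk (nat_lit 14864) (nat_lit 0) [nat_lit 27986, nat_lit 10490, nat_lit 16322, nat_lit 14378, nat_lit 14702, nat_lit 14918, nat_lit 14846, nat_lit 14882, nat_lit 14858, nat_lit 14870, nat_lit 14866] (nat_lit 4) [nat_lit 34546] false,
   Spec.mk (nat_lit 14866) (nat_lit 0) [nat_lit 27988, nat_lit 10492, nat_lit 16324, nat_lit 14380, nat_lit 14704, nat_lit 14920, nat_lit 14848, nat_lit 14884, nat_lit 14872, nat_lit 14864] (nat_lit 3) [nat_lit 34548] false,
   Spec.mk (nat_lit 14870) (nat_lit 0) [nat_lit 27992, nat_lit 10496, nat_lit 16328, nat_lit 14384, nat_lit 14708, nat_lit 14924, nat_lit 14888, nat_lit 14864, nat_lit 14872] (nat_lit 6) [nat_lit 34552] false,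
   Spec.mk (nat_lit 14872) (nat_lit 0) [nat_lit 27994, nat_lit 10498, nat_lit 16330, nat_lit 14386, nat_lit 14710, nat_lit 14926, nat_lit 14890, nat_lit 14866, nat_lit 14870, nat_lit 14874] (nat_lit 3) [nat_lit 34554] false,
   Spec.mk (nat_lit 14874) (nat_lit 0) [nat_lit 27996, nat_lit 10500, nat_lit 16332, nat_lit 14388, nat_lit 14712, nat_lit 14928, nat_lit 14892, nat_lit 14872] (nat_lit 2) [] false,
   Spec.mk (nat_lit 14882) (nat_lit 0) [nat_lit 28004, nat_lit 10508, nat_lit 16340, nat_lit 14396, nat_lit 14720, nat_lit 14936, nat_lit 14864, nat_lit 14888, nat_lit 14884] (nat_lit 6) [nat_lit 34564] false,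
   Spec.mk (nat_lit 14884) (nat_lit 0) [nat_lit 28006, nat_lit 10510, nat_lit 16342, nat_lit 14398, nat_lit 14722, nat_lit 14938, nat_lit 14866, nat_lit 14890, nat_lit 14882] (nat_lit 6) [nat_lit 34566] false,
   Spec.mk (nat_lit 14888) (nat_lit 0) [nat_lit 28010, nat_lit 10514, nat_lit 16346, nat_lit 14402, nat_lit 14726, nat_lit 14942, nat_lit 14870, nat_lit 14882, nat_lit 14890] (nat_lit 6) [nat_lit 34570] false,
   Spec.mk (nat_lit 14890) (nat_lit 0) [nat_lit 28012, nat_lit 10516, nat_lit 16348, nat_lit 14404, nat_lit 14728, nat_lit 14944, nat_lit 14872, nat_lit 14884, nat_lit 14896, nat_lit 14888, nat_lit 14892] (nat_lit 4) [nat_lit 34572] false,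
   Spec.mk (nat_lit 14892) (nat_lit 0) [nat_lit 28014, nat_lit 10518, nat_lit 16350, nat_lit 14406, nat_lit 14730, nat_lit 14946, nat_lit 14874, nat_lit 14898, nat_lit 14890] (nat_lit 4) [] false,
   Spec.mk (nat_lit 14896) (nat_lit 0) [nat_lit 28018, nat_lit 10522, nat_lit 16354, nat_lit 14410, nat_lit 14734, nat_lit 14950, nat_lit 14890, nat_lit 14898] (nat_lit 4) [nat_lit 34578] false,
   Spec.mk (nat_lit 14898) (nat_lit 0) [nat_lit 28020, nat_lit 10524, nat_lit 16356, nat_lit 14412, nat_lit 14736, nat_lit 14952, nat_lit 14892, nat_lit 14896] (nat_lit 2) [] false,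
   Spec.mk (nat_lit 14912) (nat_lit 0) [nat_lit 28034, nat_lit 10538, nat_lit 16370, nat_lit 14426, nat_lit 14750, nat_lit 15074, nat_lit 14858, nat_lit 14918] (nat_lit 3) [nat_lit 34594] false,
   Spec.mk (nat_lit 14918) (nat_lit 0) [nat_lit 28040, nat_lit 10544, nat_lit 16376, nat_lit 14432, nat_lit 14756, nat_lit 15080, nat_lit 14864, nat_lit 14936, nat_lit 14912, nat_lit 14924, nat_lit 14920] (nat_lit 4) [nat_lit 34600] false,
   Spec.mk (nat_lit 14920) (nat_lit 0) [nat_lit 28042, nat_lit 10546, nat_lit 16378, nat_lit 14434, nat_lit 14758, nat_lit 15082, nat_lit 14866, nat_lit 14938, nat_lit 14926, nat_lit 14918] (nat_lit 3) [nat_lit 34602] false,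
   Spec.mk (nat_lit 14924) (nat_lit 0) [nat_lit 28046, nat_lit 10550, nat_lit 16382, nat_lit 14438, nat_lit 14762, nat_lit 15086, nat_lit 14870, nat_lit 14942, nat_lit 14918, nat_lit 14926] (nat_lit 7) [nat_lit 34606] false,
   Spec.mk (nat_lit 14926) (nat_lit 0) [nat_lit 28048, nat_lit 10552, nat_lit 16384, nat_lit 14440, nat_lit 14764, nat_lit 15088, nat_lit 14872, nat_lit 14944, nat_lit 14920, nat_lit 14924, nat_lit 14928] (nat_lit 4) [nat_lit 34608] false,
   Spec.mk (nat_lit 14928) (nat_lit 0) [nat_lit 28050, nat_lit 10554, nat_lit 16386, nat_lit 14442, nat_lit 14766, nat_lit 15090, nat_lit 14874, nat_lit 14946, nat_lit 14926] (nat_lit 3) [] false,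
   Spec.mk (nat_lit 14936) (nat_lit 0) [nat_lit 28058, nat_lit 10562, nat_lit 16394, nat_lit 14450, nat_lit 14774, nat_lit 15098, nat_lit 14882, nat_lit 14990, nat_lit 14918, nat_lit 14942, nat_lit 14938] (nat_lit 4) [nat_lit 34618] false,
   Spec.mk (nat_lit 14938) (nat_lit 0) [nat_lit 28060, nat_lit 10564, nat_lit 16396, nat_lit 14452, nat_lit 14776, nat_lit 15100, nat_lit 14884, nat_lit 14992, nat_lit 14920, nat_lit 14944, nat_lit 14936] (nat_lit 4) [nat_lit 34620] false,
   Spec.mk (nat_lit 14942) (nat_lit 0) [nat_lit 28064, nat_lit 10568, nat_lit 16400, nat_lit 14456, nat_lit 14780, nat_lit 15104, nat_lit 14888, nat_lit 14996, nat_lit 14924, nat_lit 14960, nat_lit 14936, nat_lit 14944] (nat_lit 5) [nat_lit 34624] false,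
   Spec.mk (nat_lit 14944) (nat_lit 0) [nat_lit 28066, nat_lit 10570, nat_lit 16402, nat_lit 14458, nat_lit 14782, nat_lit 15106, nat_lit 14890, nat_lit 14998, nat_lit 14926, nat_lit 14962, nat_lit 14938, nat_lit 14950, nat_lit 14942, nat_lit 14946] (nat_lit 3) [nat_lit 34626] false,
   Spec.mk (nat_lit 14946) (nat_lit 0) [nat_lit 28068, nat_lit 10572, nat_lit 16404, nat_lit 14460, nat_lit 14784, nat_lit 15108, nat_lit 14892, nat_lit 15000, nat_lit 14928, nat_lit 14964, nat_lit 14952, nat_lit 14944] (nat_lit 3) [] false,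
   Spec.mk (nat_lit 14950) (nat_lit 0) [nat_lit 28072, nat_lit 10576, nat_lit 16408, nat_lit 14464, nat_lit 14788, nat_lit 15112, nat_lit 14896, nat_lit 15004, nat_lit 14968, nat_lit 14944, nat_lit 14952] (nat_lit 4) [nat_lit 34632] false,
   Spec.mk (nat_lit 14952) (nat_lit 0) [nat_lit 28074, nat_lit 10578, nat_lit 16410, nat_lit 14466, nat_lit 14790, nat_lit 15114, nat_lit 14898, nat_lit 15006, nat_lit 14970, nat_lit 14946, nat_lit 14950] (nat_lit 2) [] false,
   Spec.mk (nat_lit 14960) (nat_lit 0) [nat_lit 28082, nat_lit 10586, nat_lit 16418, nat_lit 14474, nat_lit 14798, nat_lit 15122, nat_lit 15014, nat_lit 14942, nat_lit 14962] (nat_lit 5) [nat_lit 34642] false,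
   Spec.mk (nat_lit 14962) (nat_lit 0) [nat_lit 28084, nat_lit 10588, nat_lit 16420, nat_lit 14476, nat_lit 14800, nat_lit 15124, nat_lit 15016, nat_lit 14944, nat_lit 14968, nat_lit 14960, nat_lit 14964] (nat_lit 4) [nat_lit 34644] false,
   Spec.mk (nat_lit 14964) (nat_lit 0) [nat_lit 28086, nat_lit 10590, nat_lit 16422, nat_lit 14478, nat_lit 14802, nat_lit 15126, nat_lit 15018, nat_lit 14946, nat_lit 14970, nat_lit 14962] (nat_lit 5) [] false,
   Spec.mk (nat_lit 14968) (nat_lit 0) [nat_lit 28090, nat_lit 10594, nat_lit 16426, nat_lit 14482, nat_lit 14806, nat_lit 15130, nat_lit 15022, nat_lit 14950, nat_lit 14962, nat_lit 14970] (nat_lit 3) [nat_lit 34650] false,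
   Spec.mk (nat_lit 14970) (nat_lit 0) [nat_lit 28092, nat_lit 10596, nat_lit 16428, nat_lit 14484, nat_lit 14808, nat_lit 15132, nat_lit 15024, nat_lit 14952, nat_lit 14964, nat_lit 14976, nat_lit 14968] (nat_lit 2) [] false,
   Spec.mk (nat_lit 14976) (nat_lit 0) [nat_lit 28098, nat_lit 10602, nat_lit 16434, nat_lit 14490, nat_lit 14814, nat_lit 15138, nat_lit 15030, nat_lit 14970] (nat_lit 1) [] false,
   Spec.mk (nat_lit 14990) (nat_lit 0) [nat_lit 28112, nat_lit 10616, nat_lit 16448, nat_lit 14504, nat_lit 15152, nat_lit 14936, nat_lit 14996, nat_lit 14992] (nat_lit 4) [nat_lit 34672] false,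
   Spec.mk (nat_lit 14992) (nat_lit 0) [nat_lit 28114, nat_lit 10618, nat_lit 16450, nat_lit 14506, nat_lit 15154, nat_lit 14938, nat_lit 14998, nat_lit 14990] (nat_lit 4) [nat_lit 34674] false,
   Spec.mk (nat_lit 14996) (nat_lit 0) [nat_lit 28118, nat_lit 10622, nat_lit 16454, nat_lit 14510, nat_lit 15158, nat_lit 14942, nat_lit 15014, nat_lit 14990, nat_lit 14998] (nat_lit 6) [nat_lit 34678] false,
   Spec.mk (nat_lit 14998) (nat_lit 0) [nat_lit 28120, nat_lit 10624, nat_lit 16456, nat_lit 14512, nat_lit 15160, nat_lit 14944, nat_lit 15016, nat_lit 14992, nat_lit 15004, nat_lit 14996, nat_lit 15000] (nat_lit 4) [nat_lit 34680] false]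

noncomputable def sp35 : List Spec :=
  [Spec.mk (nat_lit 15000) (nat_lit 0) [nat_lit 28122, nat_lit 10626, nat_lit 16458, nat_lit 14514, nat_lit 15162, nat_lit 14946, nat_lit 15018, nat_lit 15006, nat_lit 14998] (nat_lit 4) [] false,
   Spec.mk (nat_lit 15004) (nat_lit 0) [nat_lit 28126, nat_lit 10630, nat_lit 16462, nat_lit 14518, nat_lit 15166, nat_lit 14950, nat_lit 15022, nat_lit 14998, nat_lit 15006] (nat_lit 6) [nat_lit 34686] false,
   Spec.mk (nat_lit 15006) (nat_lit 0) [nat_lit 28128, nat_lit 10632, nat_lit 16464, nat_lit 14520, nat_lit 15168, nat_lit 14952, nat_lit 15024, nat_lit 15000, nat_lit 15004] (nat_lit 4) [] false,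
   Spec.mk (nat_lit 15014) (nat_lit 0) [nat_lit 28136, nat_lit 10640, nat_lit 16472, nat_lit 14528, nat_lit 15176, nat_lit 14960, nat_lit 14996, nat_lit 15016] (nat_lit 4) [nat_lit 34696] false,
   Spec.mk (nat_lit 15016) (nat_lit 0) [nat_lit 28138, nat_lit 10642, nat_lit 16474, nat_lit 14530, nat_lit 15178, nat_lit 14962, nat_lit 14998, nat_lit 15022, nat_lit 15014, nat_lit 15018] (nat_lit 3) [nat_lit 34698] false,
   Spec.mk (nat_lit 15018) (nat_lit 0) [nat_lit 28140, nat_lit 10644, nat_lit 16476, nat_lit 14532, nat_lit 15180, nat_lit 14964, nat_lit 15000, nat_lit 15024, nat_lit 15016] (nat_lit 4) [] false,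
   Spec.mk (nat_lit 15022) (nat_lit 0) [nat_lit 28144, nat_lit 10648, nat_lit 16480, nat_lit 14536, nat_lit 15184, nat_lit 14968, nat_lit 15004, nat_lit 15040, nat_lit 15016, nat_lit 15024] (nat_lit 3) [nat_lit 34704] false,
   Spec.mk (nat_lit 15024) (nat_lit 0) [nat_lit 28146, nat_lit 10650, nat_lit 16482, nat_lit 14538, nat_lit 15186, nat_lit 14970, nat_lit 15006, nat_lit 15042, nat_lit 15018, nat_lit 15030, nat_lit 15022] (nat_lit 2) [] false,
   Spec.mk (nat_lit 15030) (nat_lit 0) [nat_lit 28152, nat_lit 10656, nat_lit 16488, nat_lit 14544, nat_lit 15192, nat_lit 14976, nat_lit 15048, nat_lit 15024] (nat_lit 2) [] false,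
   Spec.mk (nat_lit 15040) (nat_lit 0) [nat_lit 28162, nat_lit 10666, nat_lit 16498, nat_lit 14554, nat_lit 15202, nat_lit 15022, nat_lit 15042] (nat_lit 2) [nat_lit 34722] false,
   Spec.mk (nat_lit 15042) (nat_lit 0) [nat_lit 28164, nat_lit 10668, nat_lit 16500, nat_lit 14556, nat_lit 15204, nat_lit 15024, nat_lit 15048, nat_lit 15040] (nat_lit 2) [] false,
   Spec.mk (nat_lit 15048) (nat_lit 0) [nat_lit 28170, nat_lit 10674, nat_lit 16506, nat_lit 14562, nat_lit 15210, nat_lit 15030, nat_lit 15042] (nat_lit 0) [] false,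
   Spec.mk (nat_lit 15074) (nat_lit 0) [nat_lit 28196, nat_lit 10700, nat_lit 16532, nat_lit 14912, nat_lit 15080] (nat_lit 2) [nat_lit 34756] false,
   Spec.mk (nat_lit 15080) (nat_lit 0) [nat_lit 28202, nat_lit 10706, nat_lit 16538, nat_lit 14918, nat_lit 15098, nat_lit 15074, nat_lit 15086, nat_lit 15082] (nat_lit 3) [nat_lit 34762] false,
   Spec.mk (nat_lit 15082) (nat_lit 0) [nat_lit 28204, nat_lit 10708, nat_lit 16540, nat_lit 14920, nat_lit 15100, nat_lit 15088, nat_lit 15080] (nat_lit 2) [nat_lit 34764] false,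
   Spec.mk (nat_lit 15086) (nat_lit 0) [nat_lit 28208, nat_lit 10712, nat_lit 16544, nat_lit 14924, nat_lit 15104, nat_lit 15080, nat_lit 15088] (nat_lit 6) [nat_lit 34768] false,
   Spec.mk (nat_lit 15088) (nat_lit 0) [nat_lit 28210, nat_lit 10714, nat_lit 16546, nat_lit 14926, nat_lit 15106, nat_lit 15082, nat_lit 15086, nat_lit 15090] (nat_lit 3) [nat_lit 34770] false,
   Spec.mk (nat_lit 15090) (nat_lit 0) [nat_lit 28212, nat_lit 10716, nat_lit 16548, nat_lit 14928, nat_lit 15108, nat_lit 15088] (nat_lit 2) [] false,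
   Spec.mk (nat_lit 15098) (nat_lit 0) [nat_lit 28220, nat_lit 10724, nat_lit 16556, nat_lit 14936, nat_lit 15152, nat_lit 15080, nat_lit 15104, nat_lit 15100] (nat_lit 4) [nat_lit 34780] false,
   Spec.mk (nat_lit 15100) (nat_lit 0) [nat_lit 28222, nat_lit 10726, nat_lit 16558, nat_lit 14938, nat_lit 15154, nat_lit 15082, nat_lit 15106, nat_lit 15098] (nat_lit 4) [nat_lit 34782] false,
   Spec.mk (nat_lit 15104) (nat_lit 0) [nat_lit 28226, nat_lit 10730, nat_lit 16562, nat_lit 14942, nat_lit 15158, nat_lit 15086, nat_lit 15122, nat_lit 15098, nat_lit 15106] (nat_lit 5) [nat_lit 34786] false,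
   Spec.mk (nat_lit 15106) (nat_lit 0) [nat_lit 28228, nat_lit 10732, nat_lit 16564, nat_lit 14944, nat_lit 15160, nat_lit 15088, nat_lit 15124, nat_lit 15100, nat_lit 15112, nat_lit 15104, nat_lit 15108] (nat_lit 3) [nat_lit 34788] false,
   Spec.mk (nat_lit 15108) (nat_lit 0) [nat_lit 28230, nat_lit 10734, nat_lit 16566, nat_lit 14946, nat_lit 15162, nat_lit 15090, nat_lit 15126, nat_lit 15114, nat_lit 15106] (nat_lit 3) [] false,
   Spec.mk (nat_lit 15112) (nat_lit 0) [nat_lit 28234, nat_lit 10738, nat_lit 16570, nat_lit 14950, nat_lit 15166, nat_lit 15130, nat_lit 15106, nat_lit 15114] (nat_lit 4) [nat_lit 34794] false,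
   Spec.mk (nat_lit 15114) (nat_lit 0) [nat_lit 28236, nat_lit 10740, nat_lit 16572, nat_lit 14952, nat_lit 15168, nat_lit 15132, nat_lit 15108, nat_lit 15112] (nat_lit 2) [] false,
   Spec.mk (nat_lit 15122) (nat_lit 0) [nat_lit 28244, nat_lit 10748, nat_lit 16580, nat_lit 14960, nat_lit 15176, nat_lit 15104, nat_lit 15124] (nat_lit 6) [nat_lit 34804] false,
   Spec.mk (nat_lit 15124) (nat_lit 0) [nat_lit 28246, nat_lit 10750, nat_lit 16582, nat_lit 14962, nat_lit 15178, nat_lit 15106, nat_lit 15130, nat_lit 15122, nat_lit 15126] (nat_lit 5) [nat_lit 34806] false,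
   Spec.mk (nat_lit 15126) (nat_lit 0) [nat_lit 28248, nat_lit 10752, nat_lit 16584, nat_lit 14964, nat_lit 15180, nat_lit 15108, nat_lit 15132, nat_lit 15124] (nat_lit 6) [] false,
   Spec.mk (nat_lit 15130) (nat_lit 0) [nat_lit 28252, nat_lit 10756, nat_lit 16588, nat_lit 14968, nat_lit 15184, nat_lit 15112, nat_lit 15124, nat_lit 15132] (nat_lit 4) [nat_lit 34812] false,
   Spec.mk (nat_lit 15132) (nat_lit 0) [nat_lit 28254, nat_lit 10758, nat_lit 16590, nat_lit 14970, nat_lit 15186, nat_lit 15114, nat_lit 15126, nat_lit 15138, nat_lit 15130] (nat_lit 3) [] false,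
   Spec.mk (nat_lit 15138) (nat_lit 0) [nat_lit 28260, nat_lit 10764, nat_lit 16596, nat_lit 14976, nat_lit 15192, nat_lit 15132] (nat_lit 2) [] false,
   Spec.mk (nat_lit 15152) (nat_lit 0) [nat_lit 28274, nat_lit 10778, nat_lit 16610, nat_lit 14990, nat_lit 15098, nat_lit 15158, nat_lit 15154] (nat_lit 2) [nat_lit 34834] false,
   Spec.mk (nat_lit 15154) (nat_lit 0) [nat_lit 28276, nat_lit 10780, nat_lit 16612, nat_lit 14992, nat_lit 15100, nat_lit 15160, nat_lit 15152] (nat_lit 2) [nat_lit 34836] false,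
   Spec.mk (nat_lit 15158) (nat_lit 0) [nat_lit 28280, nat_lit 10784, nat_lit 16616, nat_lit 14996, nat_lit 15104, nat_lit 15176, nat_lit 15152, nat_lit 15160] (nat_lit 4) [nat_lit 34840] false,
   Spec.mk (nat_lit 15160) (nat_lit 0) [nat_lit 28282, nat_lit 10786, nat_lit 16618, nat_lit 14998, nat_lit 15106, nat_lit 15178, nat_lit 15154, nat_lit 15166, nat_lit 15158, nat_lit 15162] (nat_lit 2) [nat_lit 34842] false,
   Spec.mk (nat_lit 15162) (nat_lit 0) [nat_lit 28284, nat_lit 10788, nat_lit 16620, nat_lit 15000, nat_lit 15108, nat_lit 15180, nat_lit 15168, nat_lit 15160] (nat_lit 2) [] false,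
   Spec.mk (nat_lit 15166) (nat_lit 0) [nat_lit 28288, nat_lit 10792, nat_lit 16624, nat_lit 15004, nat_lit 15112, nat_lit 15184, nat_lit 15160, nat_lit 15168] (nat_lit 4) [nat_lit 34848] false,
   Spec.mk (nat_lit 15168) (nat_lit 0) [nat_lit 28290, nat_lit 10794, nat_lit 16626, nat_lit 15006, nat_lit 15114, nat_lit 15186, nat_lit 15162, nat_lit 15166] (nat_lit 2) [] false,
   Spec.mk (nat_lit 15176) (nat_lit 0) [nat_lit 28298, nat_lit 10802, nat_lit 16634, nat_lit 15014, nat_lit 15122, nat_lit 15230, nat_lit 15158, nat_lit 15178] (nat_lit 3) [nat_lit 34858] false,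
   Spec.mk (nat_lit 15178) (nat_lit 0) [nat_lit 28300, nat_lit 10804, nat_lit 16636, nat_lit 15016, nat_lit 15124, nat_lit 15232, nat_lit 15160, nat_lit 15184, nat_lit 15176, nat_lit 15180] (nat_lit 2) [nat_lit 34860] false,
   Spec.mk (nat_lit 15180) (nat_lit 0) [nat_lit 28302, nat_lit 10806, nat_lit 16638, nat_lit 15018, nat_lit 15126, nat_lit 15234, nat_lit 15162, nat_lit 15186, nat_lit 15178] (nat_lit 3) [] false,
   Spec.mk (nat_lit 15184) (nat_lit 0) [nat_lit 28306, nat_lit 10810, nat_lit 16642, nat_lit 15022, nat_lit 15130, nat_lit 15238, nat_lit 15166, nat_lit 15202, nat_lit 15178, nat_lit 15186] (nat_lit 2) [nat_lit 34866] false,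
   Spec.mk (nat_lit 15186) (nat_lit 0) [nat_lit 28308, nat_lit 10812, nat_lit 16644, nat_lit 15024, nat_lit 15132, nat_lit 15240, nat_lit 15168, nat_lit 15204, nat_lit 15180, nat_lit 15192, nat_lit 15184] (nat_lit 1) [] false,
   Spec.mk (nat_lit 15192) (nat_lit 0) [nat_lit 28314, nat_lit 10818, nat_lit 16650, nat_lit 15030, nat_lit 15138, nat_lit 15246, nat_lit 15210, nat_lit 15186] (nat_lit 1) [] false,
   Spec.mk (nat_lit 15202) (nat_lit 0) [nat_lit 28324, nat_lit 10828, nat_lit 16660, nat_lit 15040, nat_lit 15256, nat_lit 15184, nat_lit 15204] (nat_lit 2) [nat_lit 34884] false,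
   Spec.mk (nat_lit 15204) (nat_lit 0) [nat_lit 28326, nat_lit 10830, nat_lit 16662, nat_lit 15042, nat_lit 15258, nat_lit 15186, nat_lit 15210, nat_lit 15202] (nat_lit 2) [] false,
   Spec.mk (nat_lit 15210) (nat_lit 0) [nat_lit 28332, nat_lit 10836, nat_lit 16668, nat_lit 15048, nat_lit 15264, nat_lit 15192, nat_lit 15204] (nat_lit 0) [] false,
   Spec.mk (nat_lit 15230) (nat_lit 0) [nat_lit 28352, nat_lit 10856, nat_lit 16688, nat_lit 15176, nat_lit 15232] (nat_lit 2) [nat_lit 34912] false,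
   Spec.mk (nat_lit 15232) (nat_lit 0) [nat_lit 28354, nat_lit 10858, nat_lit 16690, nat_lit 15178, nat_lit 15238, nat_lit 15230, nat_lit 15234] (nat_lit 1) [nat_lit 34914] false,
   Spec.mk (nat_lit 15234) (nat_lit 0) [nat_lit 28356, nat_lit 10860, nat_lit 16692, nat_lit 15180, nat_lit 15240, nat_lit 15232] (nat_lit 2) [] false,
   Spec.mk (nat_lit 15238) (nat_lit 0) [nat_lit 28360, nat_lit 10864, nat_lit 16696, nat_lit 15184, nat_lit 15256, nat_lit 15232, nat_lit 15240] (nat_lit 2) [nat_lit 34920] false,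
   Spec.mk (nat_lit 15240) (nat_lit 0) [nat_lit 28362, nat_lit 10866, nat_lit 16698, nat_lit 15186, nat_lit 15258, nat_lit 15234, nat_lit 15246, nat_lit 15238] (nat_lit 1) [] false,
   Spec.mk (nat_lit 15246) (nat_lit 0) [nat_lit 28368, nat_lit 10872, nat_lit 16704, nat_lit 15192, nat_lit 15264, nat_lit 15240] (nat_lit 2) [] false,
   Spec.mk (nat_lit 15256) (nat_lit 0) [nat_lit 28378, nat_lit 10882, nat_lit 16714, nat_lit 15202, nat_lit 15238, nat_lit 15258] (nat_lit 0) [nat_lit 34938] false,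
   Spec.mk (nat_lit 15258) (nat_lit 0) [nat_lit 28380, nat_lit 10884, nat_lit 16716, nat_lit 15204, nat_lit 15240, nat_lit 15264, nat_lit 15256] (nat_lit 0) [] false,
   Spec.mk (nat_lit 15264) (nat_lit 1) [nat_lit 28386, nat_lit 10890, nat_lit 16722, nat_lit 15210, nat_lit 15246, nat_lit 15282, nat_lit 15258] (nat_lit 0) [] false,
   Spec.mk (nat_lit 15282) (nat_lit 2) [nat_lit 28404, nat_lit 10908, nat_lit 16740, nat_lit 15264] (nat_lit 0) [] false,
   Spec.mk (nat_lit 15362) (nat_lit 2) [nat_lit 28484, nat_lit 10988, nat_lit 13904, nat_lit 15416, nat_lit 15380] (nat_lit 0) [nat_lit 35044] false,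
   Spec.mk (nat_lit 15380) (nat_lit 0) [nat_lit 28502, nat_lit 11006, nat_lit 13922, nat_lit 15434, nat_lit 15362, nat_lit 15386] (nat_lit 0) [nat_lit 35062] false,
   Spec.mk (nat_lit 15386) (nat_lit 0) [nat_lit 28508, nat_lit 11012, nat_lit 13928, nat_lit 15440, nat_lit 15380, nat_lit 15388] (nat_lit 0) [nat_lit 35068] false]

noncomputable def sp36 : List Spec :=
  [Spec.mk (nat_lit 15388) (nat_lit 2) [nat_lit 28510, nat_lit 11014, nat_lit 13930, nat_lit 15442, nat_lit 15386] (nat_lit 0) [nat_lit 35070] false,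
   Spec.mk (nat_lit 15416) (nat_lit 0) [nat_lit 28538, nat_lit 11042, nat_lit 13958, nat_lit 15578, nat_lit 15362, nat_lit 15434] (nat_lit 0) [nat_lit 35098] false,
   Spec.mk (nat_lit 15434) (nat_lit 0) [nat_lit 28556, nat_lit 11060, nat_lit 13976, nat_lit 15596, nat_lit 15380, nat_lit 15488, nat_lit 15416, nat_lit 15452, nat_lit 15440] (nat_lit 0) [nat_lit 35116] false,
   Spec.mk (nat_lit 15440) (nat_lit 0) [nat_lit 28562, nat_lit 11066, nat_lit 13982, nat_lit 15602, nat_lit 15386, nat_lit 15494, nat_lit 15458, nat_lit 15434, nat_lit 15442] (nat_lit 1) [nat_lit 35122] false,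
   Spec.mk (nat_lit 15442) (nat_lit 1) [nat_lit 28564, nat_lit 11068, nat_lit 13984, nat_lit 15604, nat_lit 15388, nat_lit 15496, nat_lit 15460, nat_lit 15440] (nat_lit 0) [nat_lit 35124] false,
   Spec.mk (nat_lit 15452) (nat_lit 0) [nat_lit 28574, nat_lit 11078, nat_lit 13994, nat_lit 15614, nat_lit 15506, nat_lit 15434, nat_lit 15458] (nat_lit 2) [nat_lit 35134] false,
   Spec.mk (nat_lit 15458) (nat_lit 0) [nat_lit 28580, nat_lit 11084, nat_lit 14000, nat_lit 15620, nat_lit 15512, nat_lit 15440, nat_lit 15452, nat_lit 15464, nat_lit 15460] (nat_lit 1) [nat_lit 35140] false,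
   Spec.mk (nat_lit 15460) (nat_lit 0) [nat_lit 28582, nat_lit 11086, nat_lit 14002, nat_lit 15622, nat_lit 15514, nat_lit 15442, nat_lit 15466, nat_lit 15458] (nat_lit 0) [nat_lit 35142] false,
   Spec.mk (nat_lit 15464) (nat_lit 0) [nat_lit 28586, nat_lit 11090, nat_lit 14006, nat_lit 15626, nat_lit 15518, nat_lit 15458, nat_lit 15466] (nat_lit 2) [nat_lit 35146] false,
   Spec.mk (nat_lit 15466) (nat_lit 1) [nat_lit 28588, nat_lit 11092, nat_lit 14008, nat_lit 15628, nat_lit 15520, nat_lit 15460, nat_lit 15464, nat_lit 15468] (nat_lit 0) [nat_lit 35148] false,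
   Spec.mk (nat_lit 15468) (nat_lit 2) [nat_lit 28590, nat_lit 11094, nat_lit 14010, nat_lit 15630, nat_lit 15522, nat_lit 15466] (nat_lit 0) [] false,
   Spec.mk (nat_lit 15488) (nat_lit 0) [nat_lit 28610, nat_lit 11114, nat_lit 14030, nat_lit 15650, nat_lit 15434, nat_lit 15506, nat_lit 15494] (nat_lit 2) [nat_lit 35170] false,
   Spec.mk (nat_lit 15494) (nat_lit 0) [nat_lit 28616, nat_lit 11120, nat_lit 14036, nat_lit 15656, nat_lit 15440, nat_lit 15512, nat_lit 15488, nat_lit 15496] (nat_lit 4) [nat_lit 35176] false,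
   Spec.mk (nat_lit 15496) (nat_lit 0) [nat_lit 28618, nat_lit 11122, nat_lit 14038, nat_lit 15658, nat_lit 15442, nat_lit 15514, nat_lit 15494] (nat_lit 2) [nat_lit 35178] false,
   Spec.mk (nat_lit 15506) (nat_lit 0) [nat_lit 28628, nat_lit 11132, nat_lit 14048, nat_lit 15668, nat_lit 15452, nat_lit 15488, nat_lit 15512] (nat_lit 2) [nat_lit 35188] false,
   Spec.mk (nat_lit 15512) (nat_lit 0) [nat_lit 28634, nat_lit 11138, nat_lit 14054, nat_lit 15674, nat_lit 15458, nat_lit 15494, nat_lit 15530, nat_lit 15506, nat_lit 15518, nat_lit 15514] (nat_lit 2) [nat_lit 35194] false,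
   Spec.mk (nat_lit 15514) (nat_lit 0) [nat_lit 28636, nat_lit 11140, nat_lit 14056, nat_lit 15676, nat_lit 15460, nat_lit 15496, nat_lit 15532, nat_lit 15520, nat_lit 15512] (nat_lit 1) [nat_lit 35196] false,
   Spec.mk (nat_lit 15518) (nat_lit 0) [nat_lit 28640, nat_lit 11144, nat_lit 14060, nat_lit 15680, nat_lit 15464, nat_lit 15536, nat_lit 15512, nat_lit 15520] (nat_lit 4) [nat_lit 35200] false,
   Spec.mk (nat_lit 15520) (nat_lit 0) [nat_lit 28642, nat_lit 11146, nat_lit 14062, nat_lit 15682, nat_lit 15466, nat_lit 15538, nat_lit 15514, nat_lit 15518, nat_lit 15522] (nat_lit 1) [nat_lit 35202] false,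
   Spec.mk (nat_lit 15522) (nat_lit 0) [nat_lit 28644, nat_lit 11148, nat_lit 14064, nat_lit 15684, nat_lit 15468, nat_lit 15540, nat_lit 15520] (nat_lit 0) [] false,
   Spec.mk (nat_lit 15530) (nat_lit 0) [nat_lit 28652, nat_lit 11156, nat_lit 14072, nat_lit 15692, nat_lit 15512, nat_lit 15536, nat_lit 15532] (nat_lit 2) [nat_lit 35212] false,
   Spec.mk (nat_lit 15532) (nat_lit 0) [nat_lit 28654, nat_lit 11158, nat_lit 14074, nat_lit 15694, nat_lit 15514, nat_lit 15538, nat_lit 15530] (nat_lit 2) [nat_lit 35214] false,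
   Spec.mk (nat_lit 15536) (nat_lit 0) [nat_lit 28658, nat_lit 11162, nat_lit 14078, nat_lit 15698, nat_lit 15518, nat_lit 15530, nat_lit 15538] (nat_lit 2) [nat_lit 35218] false,
   Spec.mk (nat_lit 15538) (nat_lit 0) [nat_lit 28660, nat_lit 11164, nat_lit 14080, nat_lit 15700, nat_lit 15520, nat_lit 15532, nat_lit 15544, nat_lit 15536, nat_lit 15540] (nat_lit 0) [nat_lit 35220] false,
   Spec.mk (nat_lit 15540) (nat_lit 0) [nat_lit 28662, nat_lit 11166, nat_lit 14082, nat_lit 15702, nat_lit 15522, nat_lit 15546, nat_lit 15538] (nat_lit 0) [] false,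
   Spec.mk (nat_lit 15544) (nat_lit 0) [nat_lit 28666, nat_lit 11170, nat_lit 14086, nat_lit 15706, nat_lit 15538, nat_lit 15546] (nat_lit 0) [nat_lit 35226] false,
   Spec.mk (nat_lit 15546) (nat_lit 2) [nat_lit 28668, nat_lit 11172, nat_lit 14088, nat_lit 15708, nat_lit 15540, nat_lit 15544] (nat_lit 0) [] false,
   Spec.mk (nat_lit 15578) (nat_lit 0) [nat_lit 28700, nat_lit 11204, nat_lit 14120, nat_lit 16064, nat_lit 15416, nat_lit 15596] (nat_lit 0) [nat_lit 35260] false,
   Spec.mk (nat_lit 15596) (nat_lit 0) [nat_lit 28718, nat_lit 11222, nat_lit 14138, nat_lit 16082, nat_lit 15434, nat_lit 15650, nat_lit 15578, nat_lit 15614, nat_lit 15602] (nat_lit 1) [nat_lit 35278] false,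
   Spec.mk (nat_lit 15602) (nat_lit 0) [nat_lit 28724, nat_lit 11228, nat_lit 14144, nat_lit 16088, nat_lit 15440, nat_lit 15656, nat_lit 15620, nat_lit 15596, nat_lit 15604] (nat_lit 2) [nat_lit 35284] false,
   Spec.mk (nat_lit 15604) (nat_lit 0) [nat_lit 28726, nat_lit 11230, nat_lit 14146, nat_lit 16090, nat_lit 15442, nat_lit 15658, nat_lit 15622, nat_lit 15602] (nat_lit 0) [nat_lit 35286] false,
   Spec.mk (nat_lit 15614) (nat_lit 0) [nat_lit 28736, nat_lit 11240, nat_lit 14156, nat_lit 16100, nat_lit 15452, nat_lit 15668, nat_lit 15596, nat_lit 15620] (nat_lit 4) [nat_lit 35296] false,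
   Spec.mk (nat_lit 15620) (nat_lit 0) [nat_lit 28742, nat_lit 11246, nat_lit 14162, nat_lit 16106, nat_lit 15458, nat_lit 15674, nat_lit 15602, nat_lit 15614, nat_lit 15626, nat_lit 15622] (nat_lit 3) [nat_lit 35302] false,
   Spec.mk (nat_lit 15622) (nat_lit 0) [nat_lit 28744, nat_lit 11248, nat_lit 14164, nat_lit 16108, nat_lit 15460, nat_lit 15676, nat_lit 15604, nat_lit 15628, nat_lit 15620] (nat_lit 2) [nat_lit 35304] false,
   Spec.mk (nat_lit 15626) (nat_lit 0) [nat_lit 28748, nat_lit 11252, nat_lit 14168, nat_lit 16112, nat_lit 15464, nat_lit 15680, nat_lit 15620, nat_lit 15628] (nat_lit 4) [nat_lit 35308] false,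
   Spec.mk (nat_lit 15628) (nat_lit 0) [nat_lit 28750, nat_lit 11254, nat_lit 14170, nat_lit 16114, nat_lit 15466, nat_lit 15682, nat_lit 15622, nat_lit 15626, nat_lit 15630] (nat_lit 1) [nat_lit 35310] false,
   Spec.mk (nat_lit 15630) (nat_lit 0) [nat_lit 28752, nat_lit 11256, nat_lit 14172, nat_lit 16116, nat_lit 15468, nat_lit 15684, nat_lit 15628] (nat_lit 0) [] false,
   Spec.mk (nat_lit 15650) (nat_lit 0) [nat_lit 28772, nat_lit 11276, nat_lit 14192, nat_lit 16136, nat_lit 15488, nat_lit 15812, nat_lit 15596, nat_lit 15668, nat_lit 15656] (nat_lit 1) [nat_lit 35332] false,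
   Spec.mk (nat_lit 15656) (nat_lit 0) [nat_lit 28778, nat_lit 11282, nat_lit 14198, nat_lit 16142, nat_lit 15494, nat_lit 15818, nat_lit 15602, nat_lit 15674, nat_lit 15650, nat_lit 15658] (nat_lit 3) [nat_lit 35338] false,
   Spec.mk (nat_lit 15658) (nat_lit 0) [nat_lit 28780, nat_lit 11284, nat_lit 14200, nat_lit 16144, nat_lit 15496, nat_lit 15820, nat_lit 15604, nat_lit 15676, nat_lit 15656] (nat_lit 1) [nat_lit 35340] false,
   Spec.mk (nat_lit 15668) (nat_lit 0) [nat_lit 28790, nat_lit 11294, nat_lit 14210, nat_lit 16154, nat_lit 15506, nat_lit 15830, nat_lit 15614, nat_lit 15722, nat_lit 15650, nat_lit 15674] (nat_lit 2) [nat_lit 35350] false,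
   Spec.mk (nat_lit 15674) (nat_lit 0) [nat_lit 28796, nat_lit 11300, nat_lit 14216, nat_lit 16160, nat_lit 15512, nat_lit 15836, nat_lit 15620, nat_lit 15728, nat_lit 15656, nat_lit 15692, nat_lit 15668, nat_lit 15680, nat_lit 15676] (nat_lit 2) [nat_lit 35356] false,
   Spec.mk (nat_lit 15676) (nat_lit 0) [nat_lit 28798, nat_lit 11302, nat_lit 14218, nat_lit 16162, nat_lit 15514, nat_lit 15838, nat_lit 15622, nat_lit 15730, nat_lit 15658, nat_lit 15694, nat_lit 15682, nat_lit 15674] (nat_lit 1) [nat_lit 35358] false,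
   Spec.mk (nat_lit 15680) (nat_lit 0) [nat_lit 28802, nat_lit 11306, nat_lit 14222, nat_lit 16166, nat_lit 15518, nat_lit 15842, nat_lit 15626, nat_lit 15734, nat_lit 15698, nat_lit 15674, nat_lit 15682] (nat_lit 4) [nat_lit 35362] false,
   Spec.mk (nat_lit 15682) (nat_lit 0) [nat_lit 28804, nat_lit 11308, nat_lit 14224, nat_lit 16168, nat_lit 15520, nat_lit 15844, nat_lit 15628, nat_lit 15736, nat_lit 15700, nat_lit 15676, nat_lit 15680, nat_lit 15684] (nat_lit 1) [nat_lit 35364] false,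
   Spec.mk (nat_lit 15684) (nat_lit 0) [nat_lit 28806, nat_lit 11310, nat_lit 14226, nat_lit 16170, nat_lit 15522, nat_lit 15846, nat_lit 15630, nat_lit 15738, nat_lit 15702, nat_lit 15682] (nat_lit 0) [] false,
   Spec.mk (nat_lit 15692) (nat_lit 0) [nat_lit 28814, nat_lit 11318, nat_lit 14234, nat_lit 16178, nat_lit 15530, nat_lit 15854, nat_lit 15746, nat_lit 15674, nat_lit 15698, nat_lit 15694] (nat_lit 3) [nat_lit 35374] false,
   Spec.mk (nat_lit 15694) (nat_lit 0) [nat_lit 28816, nat_lit 11320, nat_lit 14236, nat_lit 16180, nat_lit 15532, nat_lit 15856, nat_lit 15748, nat_lit 15676, nat_lit 15700, nat_lit 15692] (nat_lit 3) [nat_lit 35376] false,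
   Spec.mk (nat_lit 15698) (nat_lit 0) [nat_lit 28820, nat_lit 11324, nat_lit 14240, nat_lit 16184, nat_lit 15536, nat_lit 15860, nat_lit 15752, nat_lit 15680, nat_lit 15692, nat_lit 15700] (nat_lit 3) [nat_lit 35380] false,
   Spec.mk (nat_lit 15700) (nat_lit 0) [nat_lit 28822, nat_lit 11326, nat_lit 14242, nat_lit 16186, nat_lit 15538, nat_lit 15862, nat_lit 15754, nat_lit 15682, nat_lit 15694, nat_lit 15706, nat_lit 15698, nat_lit 15702] (nat_lit 1) [nat_lit 35382] false,
   Spec.mk (nat_lit 15702) (nat_lit 0) [nat_lit 28824, nat_lit 11328, nat_lit 14244, nat_lit 16188, nat_lit 15540, nat_lit 15864, nat_lit 15756, nat_lit 15684, nat_lit 15708, nat_lit 15700] (nat_lit 1) [] false,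
   Spec.mk (nat_lit 15706) (nat_lit 0) [nat_lit 28828, nat_lit 11332, nat_lit 14248, nat_lit 16192, nat_lit 15544, nat_lit 15868, nat_lit 15760, nat_lit 15700, nat_lit 15708] (nat_lit 1) [nat_lit 35388] false,
   Spec.mk (nat_lit 15708) (nat_lit 1) [nat_lit 28830, nat_lit 11334, nat_lit 14250, nat_lit 16194, nat_lit 15546, nat_lit 15870, nat_lit 15762, nat_lit 15702, nat_lit 15706] (nat_lit 0) [] false,
   Spec.mk (nat_lit 15722) (nat_lit 0) [nat_lit 28844, nat_lit 11348, nat_lit 14264, nat_lit 16208, nat_lit 15884, nat_lit 15668, nat_lit 15728] (nat_lit 2) [nat_lit 35404] false,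
   Spec.mk (nat_lit 15728) (nat_lit 0) [nat_lit 28850, nat_lit 11354, nat_lit 14270, nat_lit 16214, nat_lit 15890, nat_lit 15674, nat_lit 15746, nat_lit 15722, nat_lit 15734, nat_lit 15730] (nat_lit 3) [nat_lit 35410] false,
   Spec.mk (nat_lit 15730) (nat_lit 0) [nat_lit 28852, nat_lit 11356, nat_lit 14272, nat_lit 16216, nat_lit 15892, nat_lit 15676, nat_lit 15748, nat_lit 15736, nat_lit 15728] (nat_lit 2) [nat_lit 35412] false,
   Spec.mk (nat_lit 15734) (nat_lit 0) [nat_lit 28856, nat_lit 11360, nat_lit 14276, nat_lit 16220, nat_lit 15896, nat_lit 15680, nat_lit 15752, nat_lit 15728, nat_lit 15736] (nat_lit 6) [nat_lit 35416] false,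
   Spec.mk (nat_lit 15736) (nat_lit 0) [nat_lit 28858, nat_lit 11362, nat_lit 14278, nat_lit 16222, nat_lit 15898, nat_lit 15682, nat_lit 15754, nat_lit 15730, nat_lit 15734, nat_lit 15738] (nat_lit 3) [nat_lit 35418] false,
   Spec.mk (nat_lit 15738) (nat_lit 0) [nat_lit 28860, nat_lit 11364, nat_lit 14280, nat_lit 16224, nat_lit 15900, nat_lit 15684, nat_lit 15756, nat_lit 15736] (nat_lit 2) [] false,
   Spec.mk (nat_lit 15746) (nat_lit 0) [nat_lit 28868, nat_lit 11372, nat_lit 14288, nat_lit 16232, nat_lit 15908, nat_lit 15692, nat_lit 15728, nat_lit 15752, nat_lit 15748] (nat_lit 2) [nat_lit 35428] false]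

noncomputable def sp37 : List Spec :=
  [Spec.mk (nat_lit 15748) (nat_lit 0) [nat_lit 28870, nat_lit 11374, nat_lit 14290, nat_lit 16234, nat_lit 15910, nat_lit 15694, nat_lit 15730, nat_lit 15754, nat_lit 15746] (nat_lit 2) [nat_lit 35430] false,
   Spec.mk (nat_lit 15752) (nat_lit 0) [nat_lit 28874, nat_lit 11378, nat_lit 14294, nat_lit 16238, nat_lit 15914, nat_lit 15698, nat_lit 15734, nat_lit 15770, nat_lit 15746, nat_lit 15754] (nat_lit 3) [nat_lit 35434] false,
   Spec.mk (nat_lit 15754) (nat_lit 0) [nat_lit 28876, nat_lit 11380, nat_lit 14296, nat_lit 16240, nat_lit 15916, nat_lit 15700, nat_lit 15736, nat_lit 15772, nat_lit 15748, nat_lit 15760, nat_lit 15752, nat_lit 15756] (nat_lit 1) [nat_lit 35436] false,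
   Spec.mk (nat_lit 15756) (nat_lit 0) [nat_lit 28878, nat_lit 11382, nat_lit 14298, nat_lit 16242, nat_lit 15918, nat_lit 15702, nat_lit 15738, nat_lit 15774, nat_lit 15762, nat_lit 15754] (nat_lit 1) [] false,
   Spec.mk (nat_lit 15760) (nat_lit 0) [nat_lit 28882, nat_lit 11386, nat_lit 14302, nat_lit 16246, nat_lit 15922, nat_lit 15706, nat_lit 15778, nat_lit 15754, nat_lit 15762] (nat_lit 2) [nat_lit 35442] false,
   Spec.mk (nat_lit 15762) (nat_lit 0) [nat_lit 28884, nat_lit 11388, nat_lit 14304, nat_lit 16248, nat_lit 15924, nat_lit 15708, nat_lit 15780, nat_lit 15756, nat_lit 15760] (nat_lit 0) [] false,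
   Spec.mk (nat_lit 15770) (nat_lit 0) [nat_lit 28892, nat_lit 11396, nat_lit 14312, nat_lit 16256, nat_lit 15932, nat_lit 15752, nat_lit 15772] (nat_lit 2) [nat_lit 35452] false,
   Spec.mk (nat_lit 15772) (nat_lit 0) [nat_lit 28894, nat_lit 11398, nat_lit 14314, nat_lit 16258, nat_lit 15934, nat_lit 15754, nat_lit 15778, nat_lit 15770, nat_lit 15774] (nat_lit 1) [nat_lit 35454] false,
   Spec.mk (nat_lit 15774) (nat_lit 0) [nat_lit 28896, nat_lit 11400, nat_lit 14316, nat_lit 16260, nat_lit 15936, nat_lit 15756, nat_lit 15780, nat_lit 15772] (nat_lit 2) [] false,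
   Spec.mk (nat_lit 15778) (nat_lit 0) [nat_lit 28900, nat_lit 11404, nat_lit 14320, nat_lit 16264, nat_lit 15940, nat_lit 15760, nat_lit 15772, nat_lit 15780] (nat_lit 0) [nat_lit 35460] false,
   Spec.mk (nat_lit 15780) (nat_lit 1) [nat_lit 28902, nat_lit 11406, nat_lit 14322, nat_lit 16266, nat_lit 15942, nat_lit 15762, nat_lit 15774, nat_lit 15786, nat_lit 15778] (nat_lit 0) [] false,
   Spec.mk (nat_lit 15786) (nat_lit 2) [nat_lit 28908, nat_lit 11412, nat_lit 14328, nat_lit 16272, nat_lit 15948, nat_lit 15780] (nat_lit 0) [] false,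
   Spec.mk (nat_lit 15812) (nat_lit 0) [nat_lit 28934, nat_lit 11438, nat_lit 14354, nat_lit 16298, nat_lit 15650, nat_lit 15830, nat_lit 15818] (nat_lit 2) [nat_lit 35494] false,
   Spec.mk (nat_lit 15818) (nat_lit 0) [nat_lit 28940, nat_lit 11444, nat_lit 14360, nat_lit 16304, nat_lit 15656, nat_lit 15836, nat_lit 15812, nat_lit 15820] (nat_lit 4) [nat_lit 35500] false,
   Spec.mk (nat_lit 15820) (nat_lit 0) [nat_lit 28942, nat_lit 11446, nat_lit 14362, nat_lit 16306, nat_lit 15658, nat_lit 15838, nat_lit 15818] (nat_lit 2) [nat_lit 35502] false,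
   Spec.mk (nat_lit 15830) (nat_lit 0) [nat_lit 28952, nat_lit 11456, nat_lit 14372, nat_lit 16316, nat_lit 15668, nat_lit 15884, nat_lit 15812, nat_lit 15836] (nat_lit 4) [nat_lit 35512] false,
   Spec.mk (nat_lit 15836) (nat_lit 0) [nat_lit 28958, nat_lit 11462, nat_lit 14378, nat_lit 16322, nat_lit 15674, nat_lit 15890, nat_lit 15818, nat_lit 15854, nat_lit 15830, nat_lit 15842, nat_lit 15838] (nat_lit 4) [nat_lit 35518] false,
   Spec.mk (nat_lit 15838) (nat_lit 0) [nat_lit 28960, nat_lit 11464, nat_lit 14380, nat_lit 16324, nat_lit 15676, nat_lit 15892, nat_lit 15820, nat_lit 15856, nat_lit 15844, nat_lit 15836] (nat_lit 3) [nat_lit 35520] false,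
   Spec.mk (nat_lit 15842) (nat_lit 0) [nat_lit 28964, nat_lit 11468, nat_lit 14384, nat_lit 16328, nat_lit 15680, nat_lit 15896, nat_lit 15860, nat_lit 15836, nat_lit 15844] (nat_lit 6) [nat_lit 35524] false,
   Spec.mk (nat_lit 15844) (nat_lit 0) [nat_lit 28966, nat_lit 11470, nat_lit 14386, nat_lit 16330, nat_lit 15682, nat_lit 15898, nat_lit 15862, nat_lit 15838, nat_lit 15842, nat_lit 15846] (nat_lit 3) [nat_lit 35526] false,
   Spec.mk (nat_lit 15846) (nat_lit 0) [nat_lit 28968, nat_lit 11472, nat_lit 14388, nat_lit 16332, nat_lit 15684, nat_lit 15900, nat_lit 15864, nat_lit 15844] (nat_lit 2) [] false,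
   Spec.mk (nat_lit 15854) (nat_lit 0) [nat_lit 28976, nat_lit 11480, nat_lit 14396, nat_lit 16340, nat_lit 15692, nat_lit 15908, nat_lit 15836, nat_lit 15860, nat_lit 15856] (nat_lit 6) [nat_lit 35536] false,
   Spec.mk (nat_lit 15856) (nat_lit 0) [nat_lit 28978, nat_lit 11482, nat_lit 14398, nat_lit 16342, nat_lit 15694, nat_lit 15910, nat_lit 15838, nat_lit 15862, nat_lit 15854] (nat_lit 6) [nat_lit 35538] false,
   Spec.mk (nat_lit 15860) (nat_lit 0) [nat_lit 28982, nat_lit 11486, nat_lit 14402, nat_lit 16346, nat_lit 15698, nat_lit 15914, nat_lit 15842, nat_lit 15854, nat_lit 15862] (nat_lit 6) [nat_lit 35542] false,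
   Spec.mk (nat_lit 15862) (nat_lit 0) [nat_lit 28984, nat_lit 11488, nat_lit 14404, nat_lit 16348, nat_lit 15700, nat_lit 15916, nat_lit 15844, nat_lit 15856, nat_lit 15868, nat_lit 15860, nat_lit 15864] (nat_lit 4) [nat_lit 35544] false,
   Spec.mk (nat_lit 15864) (nat_lit 0) [nat_lit 28986, nat_lit 11490, nat_lit 14406, nat_lit 16350, nat_lit 15702, nat_lit 15918, nat_lit 15846, nat_lit 15870, nat_lit 15862] (nat_lit 4) [] false,
   Spec.mk (nat_lit 15868) (nat_lit 0) [nat_lit 28990, nat_lit 11494, nat_lit 14410, nat_lit 16354, nat_lit 15706, nat_lit 15922, nat_lit 15862, nat_lit 15870] (nat_lit 4) [nat_lit 35550] false,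
   Spec.mk (nat_lit 15870) (nat_lit 0) [nat_lit 28992, nat_lit 11496, nat_lit 14412, nat_lit 16356, nat_lit 15708, nat_lit 15924, nat_lit 15864, nat_lit 15868] (nat_lit 2) [] false,
   Spec.mk (nat_lit 15884) (nat_lit 0) [nat_lit 29006, nat_lit 11510, nat_lit 14426, nat_lit 16370, nat_lit 15722, nat_lit 15830, nat_lit 15890] (nat_lit 2) [nat_lit 35566] false,
   Spec.mk (nat_lit 15890) (nat_lit 0) [nat_lit 29012, nat_lit 11516, nat_lit 14432, nat_lit 16376, nat_lit 15728, nat_lit 15836, nat_lit 15908, nat_lit 15884, nat_lit 15896, nat_lit 15892] (nat_lit 3) [nat_lit 35572] false,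
   Spec.mk (nat_lit 15892) (nat_lit 0) [nat_lit 29014, nat_lit 11518, nat_lit 14434, nat_lit 16378, nat_lit 15730, nat_lit 15838, nat_lit 15910, nat_lit 15898, nat_lit 15890] (nat_lit 2) [nat_lit 35574] false,
   Spec.mk (nat_lit 15896) (nat_lit 0) [nat_lit 29018, nat_lit 11522, nat_lit 14438, nat_lit 16382, nat_lit 15734, nat_lit 15842, nat_lit 15914, nat_lit 15890, nat_lit 15898] (nat_lit 6) [nat_lit 35578] false,
   Spec.mk (nat_lit 15898) (nat_lit 0) [nat_lit 29020, nat_lit 11524, nat_lit 14440, nat_lit 16384, nat_lit 15736, nat_lit 15844, nat_lit 15916, nat_lit 15892, nat_lit 15896, nat_lit 15900] (nat_lit 3) [nat_lit 35580] false,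
   Spec.mk (nat_lit 15900) (nat_lit 0) [nat_lit 29022, nat_lit 11526, nat_lit 14442, nat_lit 16386, nat_lit 15738, nat_lit 15846, nat_lit 15918, nat_lit 15898] (nat_lit 2) [] false,
   Spec.mk (nat_lit 15908) (nat_lit 0) [nat_lit 29030, nat_lit 11534, nat_lit 14450, nat_lit 16394, nat_lit 15746, nat_lit 15854, nat_lit 15962, nat_lit 15890, nat_lit 15914, nat_lit 15910] (nat_lit 3) [nat_lit 35590] false,
   Spec.mk (nat_lit 15910) (nat_lit 0) [nat_lit 29032, nat_lit 11536, nat_lit 14452, nat_lit 16396, nat_lit 15748, nat_lit 15856, nat_lit 15964, nat_lit 15892, nat_lit 15916, nat_lit 15908] (nat_lit 3) [nat_lit 35592] false,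
   Spec.mk (nat_lit 15914) (nat_lit 0) [nat_lit 29036, nat_lit 11540, nat_lit 14456, nat_lit 16400, nat_lit 15752, nat_lit 15860, nat_lit 15968, nat_lit 15896, nat_lit 15932, nat_lit 15908, nat_lit 15916] (nat_lit 4) [nat_lit 35596] false,
   Spec.mk (nat_lit 15916) (nat_lit 0) [nat_lit 29038, nat_lit 11542, nat_lit 14458, nat_lit 16402, nat_lit 15754, nat_lit 15862, nat_lit 15970, nat_lit 15898, nat_lit 15934, nat_lit 15910, nat_lit 15922, nat_lit 15914, nat_lit 15918] (nat_lit 2) [nat_lit 35598] false,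
   Spec.mk (nat_lit 15918) (nat_lit 0) [nat_lit 29040, nat_lit 11544, nat_lit 14460, nat_lit 16404, nat_lit 15756, nat_lit 15864, nat_lit 15972, nat_lit 15900, nat_lit 15936, nat_lit 15924, nat_lit 15916] (nat_lit 2) [] false,
   Spec.mk (nat_lit 15922) (nat_lit 0) [nat_lit 29044, nat_lit 11548, nat_lit 14464, nat_lit 16408, nat_lit 15760, nat_lit 15868, nat_lit 15976, nat_lit 15940, nat_lit 15916, nat_lit 15924] (nat_lit 3) [nat_lit 35604] false,
   Spec.mk (nat_lit 15924) (nat_lit 0) [nat_lit 29046, nat_lit 11550, nat_lit 14466, nat_lit 16410, nat_lit 15762, nat_lit 15870, nat_lit 15978, nat_lit 15942, nat_lit 15918, nat_lit 15922] (nat_lit 1) [] false,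
   Spec.mk (nat_lit 15932) (nat_lit 0) [nat_lit 29054, nat_lit 11558, nat_lit 14474, nat_lit 16418, nat_lit 15770, nat_lit 15986, nat_lit 15914, nat_lit 15934] (nat_lit 4) [nat_lit 35614] false,
   Spec.mk (nat_lit 15934) (nat_lit 0) [nat_lit 29056, nat_lit 11560, nat_lit 14476, nat_lit 16420, nat_lit 15772, nat_lit 15988, nat_lit 15916, nat_lit 15940, nat_lit 15932, nat_lit 15936] (nat_lit 3) [nat_lit 35616] false,
   Spec.mk (nat_lit 15936) (nat_lit 0) [nat_lit 29058, nat_lit 11562, nat_lit 14478, nat_lit 16422, nat_lit 15774, nat_lit 15990, nat_lit 15918, nat_lit 15942, nat_lit 15934] (nat_lit 4) [] false,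
   Spec.mk (nat_lit 15940) (nat_lit 0) [nat_lit 29062, nat_lit 11566, nat_lit 14482, nat_lit 16426, nat_lit 15778, nat_lit 15994, nat_lit 15922, nat_lit 15934, nat_lit 15942] (nat_lit 2) [nat_lit 35622] false,
   Spec.mk (nat_lit 15942) (nat_lit 0) [nat_lit 29064, nat_lit 11568, nat_lit 14484, nat_lit 16428, nat_lit 15780, nat_lit 15996, nat_lit 15924, nat_lit 15936, nat_lit 15948, nat_lit 15940] (nat_lit 1) [] false,
   Spec.mk (nat_lit 15948) (nat_lit 0) [nat_lit 29070, nat_lit 11574, nat_lit 14490, nat_lit 16434, nat_lit 15786, nat_lit 16002, nat_lit 15942] (nat_lit 0) [] false,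
   Spec.mk (nat_lit 15962) (nat_lit 0) [nat_lit 29084, nat_lit 11588, nat_lit 14504, nat_lit 16448, nat_lit 15908, nat_lit 15968, nat_lit 15964] (nat_lit 2) [nat_lit 35644] false,
   Spec.mk (nat_lit 15964) (nat_lit 0) [nat_lit 29086, nat_lit 11590, nat_lit 14506, nat_lit 16450, nat_lit 15910, nat_lit 15970, nat_lit 15962] (nat_lit 2) [nat_lit 35646] false,
   Spec.mk (nat_lit 15968) (nat_lit 0) [nat_lit 29090, nat_lit 11594, nat_lit 14510, nat_lit 16454, nat_lit 15914, nat_lit 15986, nat_lit 15962, nat_lit 15970] (nat_lit 4) [nat_lit 35650] false,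
   Spec.mk (nat_lit 15970) (nat_lit 0) [nat_lit 29092, nat_lit 11596, nat_lit 14512, nat_lit 16456, nat_lit 15916, nat_lit 15988, nat_lit 15964, nat_lit 15976, nat_lit 15968, nat_lit 15972] (nat_lit 2) [nat_lit 35652] false,
   Spec.mk (nat_lit 15972) (nat_lit 0) [nat_lit 29094, nat_lit 11598, nat_lit 14514, nat_lit 16458, nat_lit 15918, nat_lit 15990, nat_lit 15978, nat_lit 15970] (nat_lit 2) [] false,
   Spec.mk (nat_lit 15976) (nat_lit 0) [nat_lit 29098, nat_lit 11602, nat_lit 14518, nat_lit 16462, nat_lit 15922, nat_lit 15994, nat_lit 15970, nat_lit 15978] (nat_lit 4) [nat_lit 35658] false,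
   Spec.mk (nat_lit 15978) (nat_lit 0) [nat_lit 29100, nat_lit 11604, nat_lit 14520, nat_lit 16464, nat_lit 15924, nat_lit 15996, nat_lit 15972, nat_lit 15976] (nat_lit 2) [] false,
   Spec.mk (nat_lit 15986) (nat_lit 0) [nat_lit 29108, nat_lit 11612, nat_lit 14528, nat_lit 16472, nat_lit 15932, nat_lit 15968, nat_lit 15988] (nat_lit 2) [nat_lit 35668] false,
   Spec.mk (nat_lit 15988) (nat_lit 0) [nat_lit 29110, nat_lit 11614, nat_lit 14530, nat_lit 16474, nat_lit 15934, nat_lit 15970, nat_lit 15994, nat_lit 15986, nat_lit 15990] (nat_lit 1) [nat_lit 35670] false,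
   Spec.mk (nat_lit 15990) (nat_lit 0) [nat_lit 29112, nat_lit 11616, nat_lit 14532, nat_lit 16476, nat_lit 15936, nat_lit 15972, nat_lit 15996, nat_lit 15988] (nat_lit 2) [] false,
   Spec.mk (nat_lit 15994) (nat_lit 0) [nat_lit 29116, nat_lit 11620, nat_lit 14536, nat_lit 16480, nat_lit 15940, nat_lit 15976, nat_lit 16012, nat_lit 15988, nat_lit 15996] (nat_lit 1) [nat_lit 35676] false,
   Spec.mk (nat_lit 15996) (nat_lit 0) [nat_lit 29118, nat_lit 11622, nat_lit 14538, nat_lit 16482, nat_lit 15942, nat_lit 15978, nat_lit 16014, nat_lit 15990, nat_lit 16002, nat_lit 15994] (nat_lit 0) [] false,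
   Spec.mk (nat_lit 16002) (nat_lit 0) [nat_lit 29124, nat_lit 11628, nat_lit 14544, nat_lit 16488, nat_lit 15948, nat_lit 16020, nat_lit 15996] (nat_lit 0) [] false]

noncomputable def sp38 : List Spec :=
  [Spec.mk (nat_lit 16012) (nat_lit 0) [nat_lit 29134, nat_lit 11638, nat_lit 14554, nat_lit 16498, nat_lit 15994, nat_lit 16014] (nat_lit 0) [nat_lit 35694] false,
   Spec.mk (nat_lit 16014) (nat_lit 0) [nat_lit 29136, nat_lit 11640, nat_lit 14556, nat_lit 16500, nat_lit 15996, nat_lit 16020, nat_lit 16012] (nat_lit 0) [] false,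
   Spec.mk (nat_lit 16020) (nat_lit 2) [nat_lit 29142, nat_lit 11646, nat_lit 14562, nat_lit 16506, nat_lit 16002, nat_lit 16014] (nat_lit 0) [] false,
   Spec.mk (nat_lit 16064) (nat_lit 1) [nat_lit 29186, nat_lit 11690, nat_lit 14606, nat_lit 17522, nat_lit 15578, nat_lit 16082] (nat_lit 0) [nat_lit 35746] false,
   Spec.mk (nat_lit 16082) (nat_lit 0) [nat_lit 29204, nat_lit 11708, nat_lit 14624, nat_lit 17540, nat_lit 15596, nat_lit 16136, nat_lit 16064, nat_lit 16100, nat_lit 16088] (nat_lit 0) [nat_lit 35764] false,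
   Spec.mk (nat_lit 16088) (nat_lit 0) [nat_lit 29210, nat_lit 11714, nat_lit 14630, nat_lit 17546, nat_lit 15602, nat_lit 16142, nat_lit 16106, nat_lit 16082, nat_lit 16090] (nat_lit 1) [nat_lit 35770] false,
   Spec.mk (nat_lit 16090) (nat_lit 1) [nat_lit 29212, nat_lit 11716, nat_lit 14632, nat_lit 17548, nat_lit 15604, nat_lit 16144, nat_lit 16108, nat_lit 16088] (nat_lit 0) [nat_lit 35772] false,
   Spec.mk (nat_lit 16100) (nat_lit 0) [nat_lit 29222, nat_lit 11726, nat_lit 14642, nat_lit 17558, nat_lit 15614, nat_lit 16154, nat_lit 16082, nat_lit 16106] (nat_lit 3) [nat_lit 35782] false,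
   Spec.mk (nat_lit 16106) (nat_lit 0) [nat_lit 29228, nat_lit 11732, nat_lit 14648, nat_lit 17564, nat_lit 15620, nat_lit 16160, nat_lit 16088, nat_lit 16100, nat_lit 16112, nat_lit 16108] (nat_lit 2) [nat_lit 35788] false,
   Spec.mk (nat_lit 16108) (nat_lit 0) [nat_lit 29230, nat_lit 11734, nat_lit 14650, nat_lit 17566, nat_lit 15622, nat_lit 16162, nat_lit 16090, nat_lit 16114, nat_lit 16106] (nat_lit 1) [nat_lit 35790] false,
   Spec.mk (nat_lit 16112) (nat_lit 0) [nat_lit 29234, nat_lit 11738, nat_lit 14654, nat_lit 17570, nat_lit 15626, nat_lit 16166, nat_lit 16106, nat_lit 16114] (nat_lit 3) [nat_lit 35794] false,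
   Spec.mk (nat_lit 16114) (nat_lit 0) [nat_lit 29236, nat_lit 11740, nat_lit 14656, nat_lit 17572, nat_lit 15628, nat_lit 16168, nat_lit 16108, nat_lit 16112, nat_lit 16116] (nat_lit 0) [nat_lit 35796] false,
   Spec.mk (nat_lit 16116) (nat_lit 1) [nat_lit 29238, nat_lit 11742, nat_lit 14658, nat_lit 17574, nat_lit 15630, nat_lit 16170, nat_lit 16114] (nat_lit 0) [] false,
   Spec.mk (nat_lit 16136) (nat_lit 0) [nat_lit 29258, nat_lit 11762, nat_lit 14678, nat_lit 17594, nat_lit 15650, nat_lit 16298, nat_lit 16082, nat_lit 16154, nat_lit 16142] (nat_lit 1) [nat_lit 35818] false,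
   Spec.mk (nat_lit 16142) (nat_lit 0) [nat_lit 29264, nat_lit 11768, nat_lit 14684, nat_lit 17600, nat_lit 15656, nat_lit 16304, nat_lit 16088, nat_lit 16160, nat_lit 16136, nat_lit 16144] (nat_lit 3) [nat_lit 35824] false,
   Spec.mk (nat_lit 16144) (nat_lit 0) [nat_lit 29266, nat_lit 11770, nat_lit 14686, nat_lit 17602, nat_lit 15658, nat_lit 16306, nat_lit 16090, nat_lit 16162, nat_lit 16142] (nat_lit 1) [nat_lit 35826] false,
   Spec.mk (nat_lit 16154) (nat_lit 0) [nat_lit 29276, nat_lit 11780, nat_lit 14696, nat_lit 17612, nat_lit 15668, nat_lit 16316, nat_lit 16100, nat_lit 16208, nat_lit 16136, nat_lit 16160] (nat_lit 2) [nat_lit 35836] false,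
   Spec.mk (nat_lit 16160) (nat_lit 0) [nat_lit 29282, nat_lit 11786, nat_lit 14702, nat_lit 17618, nat_lit 15674, nat_lit 16322, nat_lit 16106, nat_lit 16214, nat_lit 16142, nat_lit 16178, nat_lit 16154, nat_lit 16166, nat_lit 16162] (nat_lit 2) [nat_lit 35842] false,
   Spec.mk (nat_lit 16162) (nat_lit 0) [nat_lit 29284, nat_lit 11788, nat_lit 14704, nat_lit 17620, nat_lit 15676, nat_lit 16324, nat_lit 16108, nat_lit 16216, nat_lit 16144, nat_lit 16180, nat_lit 16168, nat_lit 16160] (nat_lit 1) [nat_lit 35844] false,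
   Spec.mk (nat_lit 16166) (nat_lit 0) [nat_lit 29288, nat_lit 11792, nat_lit 14708, nat_lit 17624, nat_lit 15680, nat_lit 16328, nat_lit 16112, nat_lit 16220, nat_lit 16184, nat_lit 16160, nat_lit 16168] (nat_lit 4) [nat_lit 35848] false,
   Spec.mk (nat_lit 16168) (nat_lit 0) [nat_lit 29290, nat_lit 11794, nat_lit 14710, nat_lit 17626, nat_lit 15682, nat_lit 16330, nat_lit 16114, nat_lit 16222, nat_lit 16186, nat_lit 16162, nat_lit 16166, nat_lit 16170] (nat_lit 1) [nat_lit 35850] false,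
   Spec.mk (nat_lit 16170) (nat_lit 0) [nat_lit 29292, nat_lit 11796, nat_lit 14712, nat_lit 17628, nat_lit 15684, nat_lit 16332, nat_lit 16116, nat_lit 16224, nat_lit 16188, nat_lit 16168] (nat_lit 0) [] false,
   Spec.mk (nat_lit 16178) (nat_lit 0) [nat_lit 29300, nat_lit 11804, nat_lit 14720, nat_lit 17636, nat_lit 15692, nat_lit 16340, nat_lit 16232, nat_lit 16160, nat_lit 16184, nat_lit 16180] (nat_lit 3) [nat_lit 35860] false,
   Spec.mk (nat_lit 16180) (nat_lit 0) [nat_lit 29302, nat_lit 11806, nat_lit 14722, nat_lit 17638, nat_lit 15694, nat_lit 16342, nat_lit 16234, nat_lit 16162, nat_lit 16186, nat_lit 16178] (nat_lit 3) [nat_lit 35862] false,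
   Spec.mk (nat_lit 16184) (nat_lit 0) [nat_lit 29306, nat_lit 11810, nat_lit 14726, nat_lit 17642, nat_lit 15698, nat_lit 16346, nat_lit 16238, nat_lit 16166, nat_lit 16178, nat_lit 16186] (nat_lit 3) [nat_lit 35866] false,
   Spec.mk (nat_lit 16186) (nat_lit 0) [nat_lit 29308, nat_lit 11812, nat_lit 14728, nat_lit 17644, nat_lit 15700, nat_lit 16348, nat_lit 16240, nat_lit 16168, nat_lit 16180, nat_lit 16192, nat_lit 16184, nat_lit 16188] (nat_lit 1) [nat_lit 35868] false,
   Spec.mk (nat_lit 16188) (nat_lit 0) [nat_lit 29310, nat_lit 11814, nat_lit 14730, nat_lit 17646, nat_lit 15702, nat_lit 16350, nat_lit 16242, nat_lit 16170, nat_lit 16194, nat_lit 16186] (nat_lit 1) [] false,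
   Spec.mk (nat_lit 16192) (nat_lit 0) [nat_lit 29314, nat_lit 11818, nat_lit 14734, nat_lit 17650, nat_lit 15706, nat_lit 16354, nat_lit 16246, nat_lit 16186, nat_lit 16194] (nat_lit 1) [nat_lit 35874] false,
   Spec.mk (nat_lit 16194) (nat_lit 1) [nat_lit 29316, nat_lit 11820, nat_lit 14736, nat_lit 17652, nat_lit 15708, nat_lit 16356, nat_lit 16248, nat_lit 16188, nat_lit 16192] (nat_lit 0) [] false,
   Spec.mk (nat_lit 16208) (nat_lit 0) [nat_lit 29330, nat_lit 11834, nat_lit 14750, nat_lit 17666, nat_lit 15722, nat_lit 16370, nat_lit 16154, nat_lit 16214] (nat_lit 3) [nat_lit 35890] false,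
   Spec.mk (nat_lit 16214) (nat_lit 0) [nat_lit 29336, nat_lit 11840, nat_lit 14756, nat_lit 17672, nat_lit 15728, nat_lit 16376, nat_lit 16160, nat_lit 16232, nat_lit 16208, nat_lit 16220, nat_lit 16216] (nat_lit 4) [nat_lit 35896] false,
   Spec.mk (nat_lit 16216) (nat_lit 0) [nat_lit 29338, nat_lit 11842, nat_lit 14758, nat_lit 17674, nat_lit 15730, nat_lit 16378, nat_lit 16162, nat_lit 16234, nat_lit 16222, nat_lit 16214] (nat_lit 3) [nat_lit 35898] false,
   Spec.mk (nat_lit 16220) (nat_lit 0) [nat_lit 29342, nat_lit 11846, nat_lit 14762, nat_lit 17678, nat_lit 15734, nat_lit 16382, nat_lit 16166, nat_lit 16238, nat_lit 16214, nat_lit 16222] (nat_lit 7) [nat_lit 35902] false,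
   Spec.mk (nat_lit 16222) (nat_lit 0) [nat_lit 29344, nat_lit 11848, nat_lit 14764, nat_lit 17680, nat_lit 15736, nat_lit 16384, nat_lit 16168, nat_lit 16240, nat_lit 16216, nat_lit 16220, nat_lit 16224] (nat_lit 4) [nat_lit 35904] false,
   Spec.mk (nat_lit 16224) (nat_lit 0) [nat_lit 29346, nat_lit 11850, nat_lit 14766, nat_lit 17682, nat_lit 15738, nat_lit 16386, nat_lit 16170, nat_lit 16242, nat_lit 16222] (nat_lit 3) [] false,
   Spec.mk (nat_lit 16232) (nat_lit 0) [nat_lit 29354, nat_lit 11858, nat_lit 14774, nat_lit 17690, nat_lit 15746, nat_lit 16394, nat_lit 16178, nat_lit 16214, nat_lit 16238, nat_lit 16234] (nat_lit 3) [nat_lit 35914] false,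
   Spec.mk (nat_lit 16234) (nat_lit 0) [nat_lit 29356, nat_lit 11860, nat_lit 14776, nat_lit 17692, nat_lit 15748, nat_lit 16396, nat_lit 16180, nat_lit 16216, nat_lit 16240, nat_lit 16232] (nat_lit 3) [nat_lit 35916] false,
   Spec.mk (nat_lit 16238) (nat_lit 0) [nat_lit 29360, nat_lit 11864, nat_lit 14780, nat_lit 17696, nat_lit 15752, nat_lit 16400, nat_lit 16184, nat_lit 16220, nat_lit 16256, nat_lit 16232, nat_lit 16240] (nat_lit 4) [nat_lit 35920] false,
   Spec.mk (nat_lit 16240) (nat_lit 0) [nat_lit 29362, nat_lit 11866, nat_lit 14782, nat_lit 17698, nat_lit 15754, nat_lit 16402, nat_lit 16186, nat_lit 16222, nat_lit 16258, nat_lit 16234, nat_lit 16246, nat_lit 16238, nat_lit 16242] (nat_lit 2) [nat_lit 35922] false,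
   Spec.mk (nat_lit 16242) (nat_lit 0) [nat_lit 29364, nat_lit 11868, nat_lit 14784, nat_lit 17700, nat_lit 15756, nat_lit 16404, nat_lit 16188, nat_lit 16224, nat_lit 16260, nat_lit 16248, nat_lit 16240] (nat_lit 2) [] false,
   Spec.mk (nat_lit 16246) (nat_lit 0) [nat_lit 29368, nat_lit 11872, nat_lit 14788, nat_lit 17704, nat_lit 15760, nat_lit 16408, nat_lit 16192, nat_lit 16264, nat_lit 16240, nat_lit 16248] (nat_lit 3) [nat_lit 35928] false,
   Spec.mk (nat_lit 16248) (nat_lit 0) [nat_lit 29370, nat_lit 11874, nat_lit 14790, nat_lit 17706, nat_lit 15762, nat_lit 16410, nat_lit 16194, nat_lit 16266, nat_lit 16242, nat_lit 16246] (nat_lit 1) [] false,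
   Spec.mk (nat_lit 16256) (nat_lit 0) [nat_lit 29378, nat_lit 11882, nat_lit 14798, nat_lit 17714, nat_lit 15770, nat_lit 16418, nat_lit 16238, nat_lit 16258] (nat_lit 3) [nat_lit 35938] false,
   Spec.mk (nat_lit 16258) (nat_lit 0) [nat_lit 29380, nat_lit 11884, nat_lit 14800, nat_lit 17716, nat_lit 15772, nat_lit 16420, nat_lit 16240, nat_lit 16264, nat_lit 16256, nat_lit 16260] (nat_lit 2) [nat_lit 35940] false,
   Spec.mk (nat_lit 16260) (nat_lit 0) [nat_lit 29382, nat_lit 11886, nat_lit 14802, nat_lit 17718, nat_lit 15774, nat_lit 16422, nat_lit 16242, nat_lit 16266, nat_lit 16258] (nat_lit 3) [] false,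
   Spec.mk (nat_lit 16264) (nat_lit 0) [nat_lit 29386, nat_lit 11890, nat_lit 14806, nat_lit 17722, nat_lit 15778, nat_lit 16426, nat_lit 16246, nat_lit 16258, nat_lit 16266] (nat_lit 1) [nat_lit 35946] false,
   Spec.mk (nat_lit 16266) (nat_lit 0) [nat_lit 29388, nat_lit 11892, nat_lit 14808, nat_lit 17724, nat_lit 15780, nat_lit 16428, nat_lit 16248, nat_lit 16260, nat_lit 16272, nat_lit 16264] (nat_lit 0) [] false,
   Spec.mk (nat_lit 16272) (nat_lit 1) [nat_lit 29394, nat_lit 11898, nat_lit 14814, nat_lit 17730, nat_lit 15786, nat_lit 16434, nat_lit 16266] (nat_lit 0) [] false,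
   Spec.mk (nat_lit 16298) (nat_lit 0) [nat_lit 29420, nat_lit 11924, nat_lit 14840, nat_lit 17756, nat_lit 15812, nat_lit 16784, nat_lit 16136, nat_lit 16316, nat_lit 16304] (nat_lit 0) [nat_lit 35980] false,
   Spec.mk (nat_lit 16304) (nat_lit 0) [nat_lit 29426, nat_lit 11930, nat_lit 14846, nat_lit 17762, nat_lit 15818, nat_lit 16790, nat_lit 16142, nat_lit 16322, nat_lit 16298, nat_lit 16306] (nat_lit 2) [nat_lit 35986] false,
   Spec.mk (nat_lit 16306) (nat_lit 0) [nat_lit 29428, nat_lit 11932, nat_lit 14848, nat_lit 17764, nat_lit 15820, nat_lit 16792, nat_lit 16144, nat_lit 16324, nat_lit 16304] (nat_lit 0) [nat_lit 35988] false,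
   Spec.mk (nat_lit 16316) (nat_lit 0) [nat_lit 29438, nat_lit 11942, nat_lit 14858, nat_lit 17774, nat_lit 15830, nat_lit 16802, nat_lit 16154, nat_lit 16370, nat_lit 16298, nat_lit 16322] (nat_lit 2) [nat_lit 35998] false,
   Spec.mk (nat_lit 16322) (nat_lit 0) [nat_lit 29444, nat_lit 11948, nat_lit 14864, nat_lit 17780, nat_lit 15836, nat_lit 16808, nat_lit 16160, nat_lit 16376, nat_lit 16304, nat_lit 16340, nat_lit 16316, nat_lit 16328, nat_lit 16324] (nat_lit 2) [nat_lit 36004] false,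
   Spec.mk (nat_lit 16324) (nat_lit 0) [nat_lit 29446, nat_lit 11950, nat_lit 14866, nat_lit 17782, nat_lit 15838, nat_lit 16810, nat_lit 16162, nat_lit 16378, nat_lit 16306, nat_lit 16342, nat_lit 16330, nat_lit 16322] (nat_lit 1) [nat_lit 36006] false,
   Spec.mk (nat_lit 16328) (nat_lit 0) [nat_lit 29450, nat_lit 11954, nat_lit 14870, nat_lit 17786, nat_lit 15842, nat_lit 16814, nat_lit 16166, nat_lit 16382, nat_lit 16346, nat_lit 16322, nat_lit 16330] (nat_lit 4) [nat_lit 36010] false,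
   Spec.mk (nat_lit 16330) (nat_lit 0) [nat_lit 29452, nat_lit 11956, nat_lit 14872, nat_lit 17788, nat_lit 15844, nat_lit 16816, nat_lit 16168, nat_lit 16384, nat_lit 16348, nat_lit 16324, nat_lit 16328, nat_lit 16332] (nat_lit 1) [nat_lit 36012] false,
   Spec.mk (nat_lit 16332) (nat_lit 0) [nat_lit 29454, nat_lit 11958, nat_lit 14874, nat_lit 17790, nat_lit 15846, nat_lit 16818, nat_lit 16170, nat_lit 16386, nat_lit 16350, nat_lit 16330] (nat_lit 0) [] false,
   Spec.mk (nat_lit 16340) (nat_lit 0) [nat_lit 29462, nat_lit 11966, nat_lit 14882, nat_lit 17798, nat_lit 15854, nat_lit 16826, nat_lit 16178, nat_lit 16394, nat_lit 16322, nat_lit 16346, nat_lit 16342] (nat_lit 4) [nat_lit 36022] false,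
   Spec.mk (nat_lit 16342) (nat_lit 0) [nat_lit 29464, nat_lit 11968, nat_lit 14884, nat_lit 17800, nat_lit 15856, nat_lit 16828, nat_lit 16180, nat_lit 16396, nat_lit 16324, nat_lit 16348, nat_lit 16340] (nat_lit 4) [nat_lit 36024] false,
   Spec.mk (nat_lit 16346) (nat_lit 0) [nat_lit 29468, nat_lit 11972, nat_lit 14888, nat_lit 17804, nat_lit 15860, nat_lit 16832, nat_lit 16184, nat_lit 16400, nat_lit 16328, nat_lit 16340, nat_lit 16348] (nat_lit 4) [nat_lit 36028] false]

noncomputable def sp39 : List Spec :=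
  [Spec.mk (nat_lit 16348) (nat_lit 0) [nat_lit 29470, nat_lit 11974, nat_lit 14890, nat_lit 17806, nat_lit 15862, nat_lit 16834, nat_lit 16186, nat_lit 16402, nat_lit 16330, nat_lit 16342, nat_lit 16354, nat_lit 16346, nat_lit 16350] (nat_lit 2) [nat_lit 36030] false,
   Spec.mk (nat_lit 16350) (nat_lit 0) [nat_lit 29472, nat_lit 11976, nat_lit 14892, nat_lit 17808, nat_lit 15864, nat_lit 16836, nat_lit 16188, nat_lit 16404, nat_lit 16332, nat_lit 16356, nat_lit 16348] (nat_lit 2) [] false,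
   Spec.mk (nat_lit 16354) (nat_lit 0) [nat_lit 29476, nat_lit 11980, nat_lit 14896, nat_lit 17812, nat_lit 15868, nat_lit 16840, nat_lit 16192, nat_lit 16408, nat_lit 16348, nat_lit 16356] (nat_lit 2) [nat_lit 36036] false,
   Spec.mk (nat_lit 16356) (nat_lit 0) [nat_lit 29478, nat_lit 11982, nat_lit 14898, nat_lit 17814, nat_lit 15870, nat_lit 16842, nat_lit 16194, nat_lit 16410, nat_lit 16350, nat_lit 16354] (nat_lit 0) [] false,
   Spec.mk (nat_lit 16370) (nat_lit 0) [nat_lit 29492, nat_lit 11996, nat_lit 14912, nat_lit 17828, nat_lit 15884, nat_lit 16856, nat_lit 16208, nat_lit 16532, nat_lit 16316, nat_lit 16376] (nat_lit 1) [nat_lit 36052] false,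
   Spec.mk (nat_lit 16376) (nat_lit 0) [nat_lit 29498, nat_lit 12002, nat_lit 14918, nat_lit 17834, nat_lit 15890, nat_lit 16862, nat_lit 16214, nat_lit 16538, nat_lit 16322, nat_lit 16394, nat_lit 16370, nat_lit 16382, nat_lit 16378] (nat_lit 2) [nat_lit 36058] false,
   Spec.mk (nat_lit 16378) (nat_lit 0) [nat_lit 29500, nat_lit 12004, nat_lit 14920, nat_lit 17836, nat_lit 15892, nat_lit 16864, nat_lit 16216, nat_lit 16540, nat_lit 16324, nat_lit 16396, nat_lit 16384, nat_lit 16376] (nat_lit 1) [nat_lit 36060] false,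
   Spec.mk (nat_lit 16382) (nat_lit 0) [nat_lit 29504, nat_lit 12008, nat_lit 14924, nat_lit 17840, nat_lit 15896, nat_lit 16868, nat_lit 16220, nat_lit 16544, nat_lit 16328, nat_lit 16400, nat_lit 16376, nat_lit 16384] (nat_lit 5) [nat_lit 36064] false,
   Spec.mk (nat_lit 16384) (nat_lit 0) [nat_lit 29506, nat_lit 12010, nat_lit 14926, nat_lit 17842, nat_lit 15898, nat_lit 16870, nat_lit 16222, nat_lit 16546, nat_lit 16330, nat_lit 16402, nat_lit 16378, nat_lit 16382, nat_lit 16386] (nat_lit 2) [nat_lit 36066] false,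
   Spec.mk (nat_lit 16386) (nat_lit 0) [nat_lit 29508, nat_lit 12012, nat_lit 14928, nat_lit 17844, nat_lit 15900, nat_lit 16872, nat_lit 16224, nat_lit 16548, nat_lit 16332, nat_lit 16404, nat_lit 16384] (nat_lit 1) [] false,
   Spec.mk (nat_lit 16394) (nat_lit 0) [nat_lit 29516, nat_lit 12020, nat_lit 14936, nat_lit 17852, nat_lit 15908, nat_lit 16880, nat_lit 16232, nat_lit 16556, nat_lit 16340, nat_lit 16448, nat_lit 16376, nat_lit 16400, nat_lit 16396] (nat_lit 2) [nat_lit 36076] false,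
   Spec.mk (nat_lit 16396) (nat_lit 0) [nat_lit 29518, nat_lit 12022, nat_lit 14938, nat_lit 17854, nat_lit 15910, nat_lit 16882, nat_lit 16234, nat_lit 16558, nat_lit 16342, nat_lit 16450, nat_lit 16378, nat_lit 16402, nat_lit 16394] (nat_lit 2) [nat_lit 36078] false,
   Spec.mk (nat_lit 16400) (nat_lit 0) [nat_lit 29522, nat_lit 12026, nat_lit 14942, nat_lit 17858, nat_lit 15914, nat_lit 16886, nat_lit 16238, nat_lit 16562, nat_lit 16346, nat_lit 16454, nat_lit 16382, nat_lit 16418, nat_lit 16394, nat_lit 16402] (nat_lit 3) [nat_lit 36082] false,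
   Spec.mk (nat_lit 16402) (nat_lit 0) [nat_lit 29524, nat_lit 12028, nat_lit 14944, nat_lit 17860, nat_lit 15916, nat_lit 16888, nat_lit 16240, nat_lit 16564, nat_lit 16348, nat_lit 16456, nat_lit 16384, nat_lit 16420, nat_lit 16396, nat_lit 16408, nat_lit 16400, nat_lit 16404] (nat_lit 1) [nat_lit 36084] false,
   Spec.mk (nat_lit 16404) (nat_lit 0) [nat_lit 29526, nat_lit 12030, nat_lit 14946, nat_lit 17862, nat_lit 15918, nat_lit 16890, nat_lit 16242, nat_lit 16566, nat_lit 16350, nat_lit 16458, nat_lit 16386, nat_lit 16422, nat_lit 16410, nat_lit 16402] (nat_lit 1) [] false,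
   Spec.mk (nat_lit 16408) (nat_lit 0) [nat_lit 29530, nat_lit 12034, nat_lit 14950, nat_lit 17866, nat_lit 15922, nat_lit 16894, nat_lit 16246, nat_lit 16570, nat_lit 16354, nat_lit 16462, nat_lit 16426, nat_lit 16402, nat_lit 16410] (nat_lit 2) [nat_lit 36090] false,
   Spec.mk (nat_lit 16410) (nat_lit 0) [nat_lit 29532, nat_lit 12036, nat_lit 14952, nat_lit 17868, nat_lit 15924, nat_lit 16896, nat_lit 16248, nat_lit 16572, nat_lit 16356, nat_lit 16464, nat_lit 16428, nat_lit 16404, nat_lit 16408] (nat_lit 0) [] false,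
   Spec.mk (nat_lit 16418) (nat_lit 0) [nat_lit 29540, nat_lit 12044, nat_lit 14960, nat_lit 17876, nat_lit 15932, nat_lit 16904, nat_lit 16256, nat_lit 16580, nat_lit 16472, nat_lit 16400, nat_lit 16420] (nat_lit 3) [nat_lit 36100] false,
   Spec.mk (nat_lit 16420) (nat_lit 0) [nat_lit 29542, nat_lit 12046, nat_lit 14962, nat_lit 17878, nat_lit 15934, nat_lit 16906, nat_lit 16258, nat_lit 16582, nat_lit 16474, nat_lit 16402, nat_lit 16426, nat_lit 16418, nat_lit 16422] (nat_lit 2) [nat_lit 36102] false,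
   Spec.mk (nat_lit 16422) (nat_lit 0) [nat_lit 29544, nat_lit 12048, nat_lit 14964, nat_lit 17880, nat_lit 15936, nat_lit 16908, nat_lit 16260, nat_lit 16584, nat_lit 16476, nat_lit 16404, nat_lit 16428, nat_lit 16420] (nat_lit 3) [] false,
   Spec.mk (nat_lit 16426) (nat_lit 0) [nat_lit 29548, nat_lit 12052, nat_lit 14968, nat_lit 17884, nat_lit 15940, nat_lit 16912, nat_lit 16264, nat_lit 16588, nat_lit 16480, nat_lit 16408, nat_lit 16420, nat_lit 16428] (nat_lit 1) [nat_lit 36108] false,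
   Spec.mk (nat_lit 16428) (nat_lit 0) [nat_lit 29550, nat_lit 12054, nat_lit 14970, nat_lit 17886, nat_lit 15942, nat_lit 16914, nat_lit 16266, nat_lit 16590, nat_lit 16482, nat_lit 16410, nat_lit 16422, nat_lit 16434, nat_lit 16426] (nat_lit 0) [] false,
   Spec.mk (nat_lit 16434) (nat_lit 1) [nat_lit 29556, nat_lit 12060, nat_lit 14976, nat_lit 17892, nat_lit 15948, nat_lit 16920, nat_lit 16272, nat_lit 16596, nat_lit 16488, nat_lit 16428] (nat_lit 0) [] false,
   Spec.mk (nat_lit 16448) (nat_lit 0) [nat_lit 29570, nat_lit 12074, nat_lit 14990, nat_lit 17906, nat_lit 15962, nat_lit 16934, nat_lit 16610, nat_lit 16394, nat_lit 16454, nat_lit 16450] (nat_lit 2) [nat_lit 36130] false,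
   Spec.mk (nat_lit 16450) (nat_lit 0) [nat_lit 29572, nat_lit 12076, nat_lit 14992, nat_lit 17908, nat_lit 15964, nat_lit 16936, nat_lit 16612, nat_lit 16396, nat_lit 16456, nat_lit 16448] (nat_lit 2) [nat_lit 36132] false,
   Spec.mk (nat_lit 16454) (nat_lit 0) [nat_lit 29576, nat_lit 12080, nat_lit 14996, nat_lit 17912, nat_lit 15968, nat_lit 16940, nat_lit 16616, nat_lit 16400, nat_lit 16472, nat_lit 16448, nat_lit 16456] (nat_lit 4) [nat_lit 36136] false,
   Spec.mk (nat_lit 16456) (nat_lit 0) [nat_lit 29578, nat_lit 12082, nat_lit 14998, nat_lit 17914, nat_lit 15970, nat_lit 16942, nat_lit 16618, nat_lit 16402, nat_lit 16474, nat_lit 16450, nat_lit 16462, nat_lit 16454, nat_lit 16458] (nat_lit 2) [nat_lit 36138] false,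
   Spec.mk (nat_lit 16458) (nat_lit 0) [nat_lit 29580, nat_lit 12084, nat_lit 15000, nat_lit 17916, nat_lit 15972, nat_lit 16944, nat_lit 16620, nat_lit 16404, nat_lit 16476, nat_lit 16464, nat_lit 16456] (nat_lit 2) [] false,
   Spec.mk (nat_lit 16462) (nat_lit 0) [nat_lit 29584, nat_lit 12088, nat_lit 15004, nat_lit 17920, nat_lit 15976, nat_lit 16948, nat_lit 16624, nat_lit 16408, nat_lit 16480, nat_lit 16456, nat_lit 16464] (nat_lit 4) [nat_lit 36144] false,
   Spec.mk (nat_lit 16464) (nat_lit 0) [nat_lit 29586, nat_lit 12090, nat_lit 15006, nat_lit 17922, nat_lit 15978, nat_lit 16950, nat_lit 16626, nat_lit 16410, nat_lit 16482, nat_lit 16458, nat_lit 16462] (nat_lit 2) [] false,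
   Spec.mk (nat_lit 16472) (nat_lit 0) [nat_lit 29594, nat_lit 12098, nat_lit 15014, nat_lit 17930, nat_lit 15986, nat_lit 16958, nat_lit 16634, nat_lit 16418, nat_lit 16454, nat_lit 16474] (nat_lit 2) [nat_lit 36154] false,
   Spec.mk (nat_lit 16474) (nat_lit 0) [nat_lit 29596, nat_lit 12100, nat_lit 15016, nat_lit 17932, nat_lit 15988, nat_lit 16960, nat_lit 16636, nat_lit 16420, nat_lit 16456, nat_lit 16480, nat_lit 16472, nat_lit 16476] (nat_lit 1) [nat_lit 36156] false,
   Spec.mk (nat_lit 16476) (nat_lit 0) [nat_lit 29598, nat_lit 12102, nat_lit 15018, nat_lit 17934, nat_lit 15990, nat_lit 16962, nat_lit 16638, nat_lit 16422, nat_lit 16458, nat_lit 16482, nat_lit 16474] (nat_lit 2) [] false,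
   Spec.mk (nat_lit 16480) (nat_lit 0) [nat_lit 29602, nat_lit 12106, nat_lit 15022, nat_lit 17938, nat_lit 15994, nat_lit 16966, nat_lit 16642, nat_lit 16426, nat_lit 16462, nat_lit 16498, nat_lit 16474, nat_lit 16482] (nat_lit 1) [nat_lit 36162] false,
   Spec.mk (nat_lit 16482) (nat_lit 0) [nat_lit 29604, nat_lit 12108, nat_lit 15024, nat_lit 17940, nat_lit 15996, nat_lit 16968, nat_lit 16644, nat_lit 16428, nat_lit 16464, nat_lit 16500, nat_lit 16476, nat_lit 16488, nat_lit 16480] (nat_lit 0) [] false,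
   Spec.mk (nat_lit 16488) (nat_lit 0) [nat_lit 29610, nat_lit 12114, nat_lit 15030, nat_lit 17946, nat_lit 16002, nat_lit 16974, nat_lit 16650, nat_lit 16434, nat_lit 16506, nat_lit 16482] (nat_lit 0) [] false,
   Spec.mk (nat_lit 16498) (nat_lit 0) [nat_lit 29620, nat_lit 12124, nat_lit 15040, nat_lit 17956, nat_lit 16012, nat_lit 16984, nat_lit 16660, nat_lit 16480, nat_lit 16500] (nat_lit 0) [nat_lit 36180] false,
   Spec.mk (nat_lit 16500) (nat_lit 0) [nat_lit 29622, nat_lit 12126, nat_lit 15042, nat_lit 17958, nat_lit 16014, nat_lit 16986, nat_lit 16662, nat_lit 16482, nat_lit 16506, nat_lit 16498] (nat_lit 0) [] false,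
   Spec.mk (nat_lit 16506) (nat_lit 2) [nat_lit 29628, nat_lit 12132, nat_lit 15048, nat_lit 17964, nat_lit 16020, nat_lit 16992, nat_lit 16668, nat_lit 16488, nat_lit 16500] (nat_lit 0) [] false,
   Spec.mk (nat_lit 16532) (nat_lit 0) [nat_lit 29654, nat_lit 12158, nat_lit 15074, nat_lit 17990, nat_lit 17018, nat_lit 16370, nat_lit 16538] (nat_lit 1) [nat_lit 36214] false,
   Spec.mk (nat_lit 16538) (nat_lit 0) [nat_lit 29660, nat_lit 12164, nat_lit 15080, nat_lit 17996, nat_lit 17024, nat_lit 16376, nat_lit 16556, nat_lit 16532, nat_lit 16544, nat_lit 16540] (nat_lit 2) [nat_lit 36220] false,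
   Spec.mk (nat_lit 16540) (nat_lit 0) [nat_lit 29662, nat_lit 12166, nat_lit 15082, nat_lit 17998, nat_lit 17026, nat_lit 16378, nat_lit 16558, nat_lit 16546, nat_lit 16538] (nat_lit 1) [nat_lit 36222] false,
   Spec.mk (nat_lit 16544) (nat_lit 0) [nat_lit 29666, nat_lit 12170, nat_lit 15086, nat_lit 18002, nat_lit 17030, nat_lit 16382, nat_lit 16562, nat_lit 16538, nat_lit 16546] (nat_lit 5) [nat_lit 36226] false,
   Spec.mk (nat_lit 16546) (nat_lit 0) [nat_lit 29668, nat_lit 12172, nat_lit 15088, nat_lit 18004, nat_lit 17032, nat_lit 16384, nat_lit 16564, nat_lit 16540, nat_lit 16544, nat_lit 16548] (nat_lit 2) [nat_lit 36228] false,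
   Spec.mk (nat_lit 16548) (nat_lit 0) [nat_lit 29670, nat_lit 12174, nat_lit 15090, nat_lit 18006, nat_lit 17034, nat_lit 16386, nat_lit 16566, nat_lit 16546] (nat_lit 1) [] false,
   Spec.mk (nat_lit 16556) (nat_lit 0) [nat_lit 29678, nat_lit 12182, nat_lit 15098, nat_lit 18014, nat_lit 17042, nat_lit 16394, nat_lit 16610, nat_lit 16538, nat_lit 16562, nat_lit 16558] (nat_lit 3) [nat_lit 36238] false,
   Spec.mk (nat_lit 16558) (nat_lit 0) [nat_lit 29680, nat_lit 12184, nat_lit 15100, nat_lit 18016, nat_lit 17044, nat_lit 16396, nat_lit 16612, nat_lit 16540, nat_lit 16564, nat_lit 16556] (nat_lit 3) [nat_lit 36240] false,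
   Spec.mk (nat_lit 16562) (nat_lit 0) [nat_lit 29684, nat_lit 12188, nat_lit 15104, nat_lit 18020, nat_lit 17048, nat_lit 16400, nat_lit 16616, nat_lit 16544, nat_lit 16580, nat_lit 16556, nat_lit 16564] (nat_lit 4) [nat_lit 36244] false,
   Spec.mk (nat_lit 16564) (nat_lit 0) [nat_lit 29686, nat_lit 12190, nat_lit 15106, nat_lit 18022, nat_lit 17050, nat_lit 16402, nat_lit 16618, nat_lit 16546, nat_lit 16582, nat_lit 16558, nat_lit 16570, nat_lit 16562, nat_lit 16566] (nat_lit 2) [nat_lit 36246] false,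
   Spec.mk (nat_lit 16566) (nat_lit 0) [nat_lit 29688, nat_lit 12192, nat_lit 15108, nat_lit 18024, nat_lit 17052, nat_lit 16404, nat_lit 16620, nat_lit 16548, nat_lit 16584, nat_lit 16572, nat_lit 16564] (nat_lit 2) [] false,
   Spec.mk (nat_lit 16570) (nat_lit 0) [nat_lit 29692, nat_lit 12196, nat_lit 15112, nat_lit 18028, nat_lit 17056, nat_lit 16408, nat_lit 16624, nat_lit 16588, nat_lit 16564, nat_lit 16572] (nat_lit 3) [nat_lit 36252] false,
   Spec.mk (nat_lit 16572) (nat_lit 0) [nat_lit 29694, nat_lit 12198, nat_lit 15114, nat_lit 18030, nat_lit 17058, nat_lit 16410, nat_lit 16626, nat_lit 16590, nat_lit 16566, nat_lit 16570] (nat_lit 1) [] false,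
   Spec.mk (nat_lit 16580) (nat_lit 0) [nat_lit 29702, nat_lit 12206, nat_lit 15122, nat_lit 18038, nat_lit 17066, nat_lit 16418, nat_lit 16634, nat_lit 16562, nat_lit 16582] (nat_lit 5) [nat_lit 36262] false,
   Spec.mk (nat_lit 16582) (nat_lit 0) [nat_lit 29704, nat_lit 12208, nat_lit 15124, nat_lit 18040, nat_lit 17068, nat_lit 16420, nat_lit 16636, nat_lit 16564, nat_lit 16588, nat_lit 16580, nat_lit 16584] (nat_lit 4) [nat_lit 36264] false,
   Spec.mk (nat_lit 16584) (nat_lit 0) [nat_lit 29706, nat_lit 12210, nat_lit 15126, nat_lit 18042, nat_lit 17070, nat_lit 16422, nat_lit 16638, nat_lit 16566, nat_lit 16590, nat_lit 16582] (nat_lit 5) [] false,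
   Spec.mk (nat_lit 16588) (nat_lit 0) [nat_lit 29710, nat_lit 12214, nat_lit 15130, nat_lit 18046, nat_lit 17074, nat_lit 16426, nat_lit 16642, nat_lit 16570, nat_lit 16582, nat_lit 16590] (nat_lit 3) [nat_lit 36270] false,
   Spec.mk (nat_lit 16590) (nat_lit 0) [nat_lit 29712, nat_lit 12216, nat_lit 15132, nat_lit 18048, nat_lit 17076, nat_lit 16428, nat_lit 16644, nat_lit 16572, nat_lit 16584, nat_lit 16596, nat_lit 16588] (nat_lit 2) [] false,
   Spec.mk (nat_lit 16596) (nat_lit 0) [nat_lit 29718, nat_lit 12222, nat_lit 15138, nat_lit 18054, nat_lit 17082, nat_lit 16434, nat_lit 16650, nat_lit 16590] (nat_lit 1) [] false,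
   Spec.mk (nat_lit 16610) (nat_lit 0) [nat_lit 29732, nat_lit 12236, nat_lit 15152, nat_lit 18068, nat_lit 17096, nat_lit 16448, nat_lit 16556, nat_lit 16616, nat_lit 16612] (nat_lit 1) [nat_lit 36292] false,
   Spec.mk (nat_lit 16612) (nat_lit 0) [nat_lit 29734, nat_lit 12238, nat_lit 15154, nat_lit 18070, nat_lit 17098, nat_lit 16450, nat_lit 16558, nat_lit 16618, nat_lit 16610] (nat_lit 1) [nat_lit 36294] false]

noncomputable def sp40 : List Spec :=
  [Spec.mk (nat_lit 16616) (nat_lit 0) [nat_lit 29738, nat_lit 12242, nat_lit 15158, nat_lit 18074, nat_lit 17102, nat_lit 16454, nat_lit 16562, nat_lit 16634, nat_lit 16610, nat_lit 16618] (nat_lit 3) [nat_lit 36298] false,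
   Spec.mk (nat_lit 16618) (nat_lit 0) [nat_lit 29740, nat_lit 12244, nat_lit 15160, nat_lit 18076, nat_lit 17104, nat_lit 16456, nat_lit 16564, nat_lit 16636, nat_lit 16612, nat_lit 16624, nat_lit 16616, nat_lit 16620] (nat_lit 1) [nat_lit 36300] false,
   Spec.mk (nat_lit 16620) (nat_lit 0) [nat_lit 29742, nat_lit 12246, nat_lit 15162, nat_lit 18078, nat_lit 17106, nat_lit 16458, nat_lit 16566, nat_lit 16638, nat_lit 16626, nat_lit 16618] (nat_lit 1) [] false,
   Spec.mk (nat_lit 16624) (nat_lit 0) [nat_lit 29746, nat_lit 12250, nat_lit 15166, nat_lit 18082, nat_lit 17110, nat_lit 16462, nat_lit 16570, nat_lit 16642, nat_lit 16618, nat_lit 16626] (nat_lit 3) [nat_lit 36306] false,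
   Spec.mk (nat_lit 16626) (nat_lit 0) [nat_lit 29748, nat_lit 12252, nat_lit 15168, nat_lit 18084, nat_lit 17112, nat_lit 16464, nat_lit 16572, nat_lit 16644, nat_lit 16620, nat_lit 16624] (nat_lit 1) [] false,
   Spec.mk (nat_lit 16634) (nat_lit 0) [nat_lit 29756, nat_lit 12260, nat_lit 15176, nat_lit 18092, nat_lit 17120, nat_lit 16472, nat_lit 16580, nat_lit 16688, nat_lit 16616, nat_lit 16636] (nat_lit 2) [nat_lit 36316] false,
   Spec.mk (nat_lit 16636) (nat_lit 0) [nat_lit 29758, nat_lit 12262, nat_lit 15178, nat_lit 18094, nat_lit 17122, nat_lit 16474, nat_lit 16582, nat_lit 16690, nat_lit 16618, nat_lit 16642, nat_lit 16634, nat_lit 16638] (nat_lit 1) [nat_lit 36318] false,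
   Spec.mk (nat_lit 16638) (nat_lit 0) [nat_lit 29760, nat_lit 12264, nat_lit 15180, nat_lit 18096, nat_lit 17124, nat_lit 16476, nat_lit 16584, nat_lit 16692, nat_lit 16620, nat_lit 16644, nat_lit 16636] (nat_lit 2) [] false,
   Spec.mk (nat_lit 16642) (nat_lit 0) [nat_lit 29764, nat_lit 12268, nat_lit 15184, nat_lit 18100, nat_lit 17128, nat_lit 16480, nat_lit 16588, nat_lit 16696, nat_lit 16624, nat_lit 16660, nat_lit 16636, nat_lit 16644] (nat_lit 1) [nat_lit 36324] false,
   Spec.mk (nat_lit 16644) (nat_lit 0) [nat_lit 29766, nat_lit 12270, nat_lit 15186, nat_lit 18102, nat_lit 17130, nat_lit 16482, nat_lit 16590, nat_lit 16698, nat_lit 16626, nat_lit 16662, nat_lit 16638, nat_lit 16650, nat_lit 16642] (nat_lit 0) [] false,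
   Spec.mk (nat_lit 16650) (nat_lit 0) [nat_lit 29772, nat_lit 12276, nat_lit 15192, nat_lit 18108, nat_lit 17136, nat_lit 16488, nat_lit 16596, nat_lit 16704, nat_lit 16668, nat_lit 16644] (nat_lit 0) [] false,
   Spec.mk (nat_lit 16660) (nat_lit 0) [nat_lit 29782, nat_lit 12286, nat_lit 15202, nat_lit 18118, nat_lit 17146, nat_lit 16498, nat_lit 16714, nat_lit 16642, nat_lit 16662] (nat_lit 1) [nat_lit 36342] false,
   Spec.mk (nat_lit 16662) (nat_lit 0) [nat_lit 29784, nat_lit 12288, nat_lit 15204, nat_lit 18120, nat_lit 17148, nat_lit 16500, nat_lit 16716, nat_lit 16644, nat_lit 16668, nat_lit 16660] (nat_lit 1) [] false,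
   Spec.mk (nat_lit 16668) (nat_lit 1) [nat_lit 29790, nat_lit 12294, nat_lit 15210, nat_lit 18126, nat_lit 17154, nat_lit 16506, nat_lit 16722, nat_lit 16650, nat_lit 16662] (nat_lit 0) [] false,
   Spec.mk (nat_lit 16688) (nat_lit 0) [nat_lit 29810, nat_lit 12314, nat_lit 15230, nat_lit 18146, nat_lit 17174, nat_lit 16634, nat_lit 16690] (nat_lit 1) [nat_lit 36370] false,
   Spec.mk (nat_lit 16690) (nat_lit 0) [nat_lit 29812, nat_lit 12316, nat_lit 15232, nat_lit 18148, nat_lit 17176, nat_lit 16636, nat_lit 16696, nat_lit 16688, nat_lit 16692] (nat_lit 0) [nat_lit 36372] false,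
   Spec.mk (nat_lit 16692) (nat_lit 0) [nat_lit 29814, nat_lit 12318, nat_lit 15234, nat_lit 18150, nat_lit 17178, nat_lit 16638, nat_lit 16698, nat_lit 16690] (nat_lit 1) [] false,
   Spec.mk (nat_lit 16696) (nat_lit 0) [nat_lit 29818, nat_lit 12322, nat_lit 15238, nat_lit 18154, nat_lit 17182, nat_lit 16642, nat_lit 16714, nat_lit 16690, nat_lit 16698] (nat_lit 1) [nat_lit 36378] false,
   Spec.mk (nat_lit 16698) (nat_lit 0) [nat_lit 29820, nat_lit 12324, nat_lit 15240, nat_lit 18156, nat_lit 17184, nat_lit 16644, nat_lit 16716, nat_lit 16692, nat_lit 16704, nat_lit 16696] (nat_lit 0) [] false,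
   Spec.mk (nat_lit 16704) (nat_lit 0) [nat_lit 29826, nat_lit 12330, nat_lit 15246, nat_lit 18162, nat_lit 17190, nat_lit 16650, nat_lit 16722, nat_lit 16698] (nat_lit 1) [] false,
   Spec.mk (nat_lit 16714) (nat_lit 1) [nat_lit 29836, nat_lit 12340, nat_lit 15256, nat_lit 18172, nat_lit 17200, nat_lit 16660, nat_lit 16696, nat_lit 16716] (nat_lit 0) [nat_lit 36396] false,
   Spec.mk (nat_lit 16716) (nat_lit 1) [nat_lit 29838, nat_lit 12342, nat_lit 15258, nat_lit 18174, nat_lit 17202, nat_lit 16662, nat_lit 16698, nat_lit 16722, nat_lit 16714] (nat_lit 0) [] false,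
   Spec.mk (nat_lit 16722) (nat_lit 2) [nat_lit 29844, nat_lit 12348, nat_lit 15264, nat_lit 18180, nat_lit 17208, nat_lit 16668, nat_lit 16704, nat_lit 16740, nat_lit 16716] (nat_lit 0) [] false,
   Spec.mk (nat_lit 16740) (nat_lit 3) [nat_lit 29862, nat_lit 12366, nat_lit 15282, nat_lit 18198, nat_lit 17226, nat_lit 16722] (nat_lit 0) [] false,
   Spec.mk (nat_lit 16784) (nat_lit 0) [nat_lit 29906, nat_lit 12410, nat_lit 18242, nat_lit 16298, nat_lit 16802, nat_lit 16790] (nat_lit 0) [nat_lit 36466] false,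
   Spec.mk (nat_lit 16790) (nat_lit 0) [nat_lit 29912, nat_lit 12416, nat_lit 18248, nat_lit 16304, nat_lit 16808, nat_lit 16784, nat_lit 16792] (nat_lit 2) [nat_lit 36472] false,
   Spec.mk (nat_lit 16792) (nat_lit 0) [nat_lit 29914, nat_lit 12418, nat_lit 18250, nat_lit 16306, nat_lit 16810, nat_lit 16790] (nat_lit 0) [nat_lit 36474] false,
   Spec.mk (nat_lit 16802) (nat_lit 0) [nat_lit 29924, nat_lit 12428, nat_lit 18260, nat_lit 16316, nat_lit 16856, nat_lit 16784, nat_lit 16808] (nat_lit 2) [nat_lit 36484] false,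
   Spec.mk (nat_lit 16808) (nat_lit 0) [nat_lit 29930, nat_lit 12434, nat_lit 18266, nat_lit 16322, nat_lit 16862, nat_lit 16790, nat_lit 16826, nat_lit 16802, nat_lit 16814, nat_lit 16810] (nat_lit 2) [nat_lit 36490] false,
   Spec.mk (nat_lit 16810) (nat_lit 0) [nat_lit 29932, nat_lit 12436, nat_lit 18268, nat_lit 16324, nat_lit 16864, nat_lit 16792, nat_lit 16828, nat_lit 16816, nat_lit 16808] (nat_lit 1) [nat_lit 36492] false,
   Spec.mk (nat_lit 16814) (nat_lit 0) [nat_lit 29936, nat_lit 12440, nat_lit 18272, nat_lit 16328, nat_lit 16868, nat_lit 16832, nat_lit 16808, nat_lit 16816] (nat_lit 4) [nat_lit 36496] false,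
   Spec.mk (nat_lit 16816) (nat_lit 0) [nat_lit 29938, nat_lit 12442, nat_lit 18274, nat_lit 16330, nat_lit 16870, nat_lit 16834, nat_lit 16810, nat_lit 16814, nat_lit 16818] (nat_lit 1) [nat_lit 36498] false,
   Spec.mk (nat_lit 16818) (nat_lit 0) [nat_lit 29940, nat_lit 12444, nat_lit 18276, nat_lit 16332, nat_lit 16872, nat_lit 16836, nat_lit 16816] (nat_lit 0) [] false,
   Spec.mk (nat_lit 16826) (nat_lit 0) [nat_lit 29948, nat_lit 12452, nat_lit 18284, nat_lit 16340, nat_lit 16880, nat_lit 16808, nat_lit 16832, nat_lit 16828] (nat_lit 4) [nat_lit 36508] false,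
   Spec.mk (nat_lit 16828) (nat_lit 0) [nat_lit 29950, nat_lit 12454, nat_lit 18286, nat_lit 16342, nat_lit 16882, nat_lit 16810, nat_lit 16834, nat_lit 16826] (nat_lit 4) [nat_lit 36510] false,
   Spec.mk (nat_lit 16832) (nat_lit 0) [nat_lit 29954, nat_lit 12458, nat_lit 18290, nat_lit 16346, nat_lit 16886, nat_lit 16814, nat_lit 16826, nat_lit 16834] (nat_lit 4) [nat_lit 36514] false,
   Spec.mk (nat_lit 16834) (nat_lit 0) [nat_lit 29956, nat_lit 12460, nat_lit 18292, nat_lit 16348, nat_lit 16888, nat_lit 16816, nat_lit 16828, nat_lit 16840, nat_lit 16832, nat_lit 16836] (nat_lit 2) [nat_lit 36516] false,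
   Spec.mk (nat_lit 16836) (nat_lit 0) [nat_lit 29958, nat_lit 12462, nat_lit 18294, nat_lit 16350, nat_lit 16890, nat_lit 16818, nat_lit 16842, nat_lit 16834] (nat_lit 2) [] false,
   Spec.mk (nat_lit 16840) (nat_lit 0) [nat_lit 29962, nat_lit 12466, nat_lit 18298, nat_lit 16354, nat_lit 16894, nat_lit 16834, nat_lit 16842] (nat_lit 2) [nat_lit 36522] false,
   Spec.mk (nat_lit 16842) (nat_lit 0) [nat_lit 29964, nat_lit 12468, nat_lit 18300, nat_lit 16356, nat_lit 16896, nat_lit 16836, nat_lit 16840] (nat_lit 0) [] false,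
   Spec.mk (nat_lit 16856) (nat_lit 0) [nat_lit 29978, nat_lit 12482, nat_lit 18314, nat_lit 16370, nat_lit 17018, nat_lit 16802, nat_lit 16862] (nat_lit 2) [nat_lit 36538] false,
   Spec.mk (nat_lit 16862) (nat_lit 0) [nat_lit 29984, nat_lit 12488, nat_lit 18320, nat_lit 16376, nat_lit 17024, nat_lit 16808, nat_lit 16880, nat_lit 16856, nat_lit 16868, nat_lit 16864] (nat_lit 3) [nat_lit 36544] false,
   Spec.mk (nat_lit 16864) (nat_lit 0) [nat_lit 29986, nat_lit 12490, nat_lit 18322, nat_lit 16378, nat_lit 17026, nat_lit 16810, nat_lit 16882, nat_lit 16870, nat_lit 16862] (nat_lit 2) [nat_lit 36546] false,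
   Spec.mk (nat_lit 16868) (nat_lit 0) [nat_lit 29990, nat_lit 12494, nat_lit 18326, nat_lit 16382, nat_lit 17030, nat_lit 16814, nat_lit 16886, nat_lit 16862, nat_lit 16870] (nat_lit 6) [nat_lit 36550] false,
   Spec.mk (nat_lit 16870) (nat_lit 0) [nat_lit 29992, nat_lit 12496, nat_lit 18328, nat_lit 16384, nat_lit 17032, nat_lit 16816, nat_lit 16888, nat_lit 16864, nat_lit 16868, nat_lit 16872] (nat_lit 3) [nat_lit 36552] false,
   Spec.mk (nat_lit 16872) (nat_lit 0) [nat_lit 29994, nat_lit 12498, nat_lit 18330, nat_lit 16386, nat_lit 17034, nat_lit 16818, nat_lit 16890, nat_lit 16870] (nat_lit 2) [] false,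
   Spec.mk (nat_lit 16880) (nat_lit 0) [nat_lit 30002, nat_lit 12506, nat_lit 18338, nat_lit 16394, nat_lit 17042, nat_lit 16826, nat_lit 16934, nat_lit 16862, nat_lit 16886, nat_lit 16882] (nat_lit 3) [nat_lit 36562] false,
   Spec.mk (nat_lit 16882) (nat_lit 0) [nat_lit 30004, nat_lit 12508, nat_lit 18340, nat_lit 16396, nat_lit 17044, nat_lit 16828, nat_lit 16936, nat_lit 16864, nat_lit 16888, nat_lit 16880] (nat_lit 3) [nat_lit 36564] false,
   Spec.mk (nat_lit 16886) (nat_lit 0) [nat_lit 30008, nat_lit 12512, nat_lit 18344, nat_lit 16400, nat_lit 17048, nat_lit 16832, nat_lit 16940, nat_lit 16868, nat_lit 16904, nat_lit 16880, nat_lit 16888] (nat_lit 4) [nat_lit 36568] false,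
   Spec.mk (nat_lit 16888) (nat_lit 0) [nat_lit 30010, nat_lit 12514, nat_lit 18346, nat_lit 16402, nat_lit 17050, nat_lit 16834, nat_lit 16942, nat_lit 16870, nat_lit 16906, nat_lit 16882, nat_lit 16894, nat_lit 16886, nat_lit 16890] (nat_lit 2) [nat_lit 36570] false,
   Spec.mk (nat_lit 16890) (nat_lit 0) [nat_lit 30012, nat_lit 12516, nat_lit 18348, nat_lit 16404, nat_lit 17052, nat_lit 16836, nat_lit 16944, nat_lit 16872, nat_lit 16908, nat_lit 16896, nat_lit 16888] (nat_lit 2) [] false,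
   Spec.mk (nat_lit 16894) (nat_lit 0) [nat_lit 30016, nat_lit 12520, nat_lit 18352, nat_lit 16408, nat_lit 17056, nat_lit 16840, nat_lit 16948, nat_lit 16912, nat_lit 16888, nat_lit 16896] (nat_lit 3) [nat_lit 36576] false,
   Spec.mk (nat_lit 16896) (nat_lit 0) [nat_lit 30018, nat_lit 12522, nat_lit 18354, nat_lit 16410, nat_lit 17058, nat_lit 16842, nat_lit 16950, nat_lit 16914, nat_lit 16890, nat_lit 16894] (nat_lit 1) [] false,
   Spec.mk (nat_lit 16904) (nat_lit 0) [nat_lit 30026, nat_lit 12530, nat_lit 18362, nat_lit 16418, nat_lit 17066, nat_lit 16958, nat_lit 16886, nat_lit 16906] (nat_lit 4) [nat_lit 36586] false,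
   Spec.mk (nat_lit 16906) (nat_lit 0) [nat_lit 30028, nat_lit 12532, nat_lit 18364, nat_lit 16420, nat_lit 17068, nat_lit 16960, nat_lit 16888, nat_lit 16912, nat_lit 16904, nat_lit 16908] (nat_lit 3) [nat_lit 36588] false,
   Spec.mk (nat_lit 16908) (nat_lit 0) [nat_lit 30030, nat_lit 12534, nat_lit 18366, nat_lit 16422, nat_lit 17070, nat_lit 16962, nat_lit 16890, nat_lit 16914, nat_lit 16906] (nat_lit 4) [] false,
   Spec.mk (nat_lit 16912) (nat_lit 0) [nat_lit 30034, nat_lit 12538, nat_lit 18370, nat_lit 16426, nat_lit 17074, nat_lit 16966, nat_lit 16894, nat_lit 16906, nat_lit 16914] (nat_lit 2) [nat_lit 36594] false,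
   Spec.mk (nat_lit 16914) (nat_lit 0) [nat_lit 30036, nat_lit 12540, nat_lit 18372, nat_lit 16428, nat_lit 17076, nat_lit 16968, nat_lit 16896, nat_lit 16908, nat_lit 16920, nat_lit 16912] (nat_lit 1) [] false,
   Spec.mk (nat_lit 16920) (nat_lit 0) [nat_lit 30042, nat_lit 12546, nat_lit 18378, nat_lit 16434, nat_lit 17082, nat_lit 16974, nat_lit 16914] (nat_lit 0) [] false,
   Spec.mk (nat_lit 16934) (nat_lit 0) [nat_lit 30056, nat_lit 12560, nat_lit 18392, nat_lit 16448, nat_lit 17096, nat_lit 16880, nat_lit 16940, nat_lit 16936] (nat_lit 4) [nat_lit 36616] false]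

noncomputable def sp41 : List Spec :=
  [Spec.mk (nat_lit 16936) (nat_lit 0) [nat_lit 30058, nat_lit 12562, nat_lit 18394, nat_lit 16450, nat_lit 17098, nat_lit 16882, nat_lit 16942, nat_lit 16934] (nat_lit 4) [nat_lit 36618] false,
   Spec.mk (nat_lit 16940) (nat_lit 0) [nat_lit 30062, nat_lit 12566, nat_lit 18398, nat_lit 16454, nat_lit 17102, nat_lit 16886, nat_lit 16958, nat_lit 16934, nat_lit 16942] (nat_lit 6) [nat_lit 36622] false,
   Spec.mk (nat_lit 16942) (nat_lit 0) [nat_lit 30064, nat_lit 12568, nat_lit 18400, nat_lit 16456, nat_lit 17104, nat_lit 16888, nat_lit 16960, nat_lit 16936, nat_lit 16948, nat_lit 16940, nat_lit 16944] (nat_lit 4) [nat_lit 36624] false,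
   Spec.mk (nat_lit 16944) (nat_lit 0) [nat_lit 30066, nat_lit 12570, nat_lit 18402, nat_lit 16458, nat_lit 17106, nat_lit 16890, nat_lit 16962, nat_lit 16950, nat_lit 16942] (nat_lit 4) [] false,
   Spec.mk (nat_lit 16948) (nat_lit 0) [nat_lit 30070, nat_lit 12574, nat_lit 18406, nat_lit 16462, nat_lit 17110, nat_lit 16894, nat_lit 16966, nat_lit 16942, nat_lit 16950] (nat_lit 6) [nat_lit 36630] false,
   Spec.mk (nat_lit 16950) (nat_lit 0) [nat_lit 30072, nat_lit 12576, nat_lit 18408, nat_lit 16464, nat_lit 17112, nat_lit 16896, nat_lit 16968, nat_lit 16944, nat_lit 16948] (nat_lit 4) [] false,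
   Spec.mk (nat_lit 16958) (nat_lit 0) [nat_lit 30080, nat_lit 12584, nat_lit 18416, nat_lit 16472, nat_lit 17120, nat_lit 16904, nat_lit 16940, nat_lit 16960] (nat_lit 4) [nat_lit 36640] false,
   Spec.mk (nat_lit 16960) (nat_lit 0) [nat_lit 30082, nat_lit 12586, nat_lit 18418, nat_lit 16474, nat_lit 17122, nat_lit 16906, nat_lit 16942, nat_lit 16966, nat_lit 16958, nat_lit 16962] (nat_lit 3) [nat_lit 36642] false,
   Spec.mk (nat_lit 16962) (nat_lit 0) [nat_lit 30084, nat_lit 12588, nat_lit 18420, nat_lit 16476, nat_lit 17124, nat_lit 16908, nat_lit 16944, nat_lit 16968, nat_lit 16960] (nat_lit 4) [] false,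
   Spec.mk (nat_lit 16966) (nat_lit 0) [nat_lit 30088, nat_lit 12592, nat_lit 18424, nat_lit 16480, nat_lit 17128, nat_lit 16912, nat_lit 16948, nat_lit 16984, nat_lit 16960, nat_lit 16968] (nat_lit 3) [nat_lit 36648] false,
   Spec.mk (nat_lit 16968) (nat_lit 0) [nat_lit 30090, nat_lit 12594, nat_lit 18426, nat_lit 16482, nat_lit 17130, nat_lit 16914, nat_lit 16950, nat_lit 16986, nat_lit 16962, nat_lit 16974, nat_lit 16966] (nat_lit 2) [] false,
   Spec.mk (nat_lit 16974) (nat_lit 0) [nat_lit 30096, nat_lit 12600, nat_lit 18432, nat_lit 16488, nat_lit 17136, nat_lit 16920, nat_lit 16992, nat_lit 16968] (nat_lit 2) [] false,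
   Spec.mk (nat_lit 16984) (nat_lit 0) [nat_lit 30106, nat_lit 12610, nat_lit 18442, nat_lit 16498, nat_lit 17146, nat_lit 16966, nat_lit 16986] (nat_lit 2) [nat_lit 36666] false,
   Spec.mk (nat_lit 16986) (nat_lit 0) [nat_lit 30108, nat_lit 12612, nat_lit 18444, nat_lit 16500, nat_lit 17148, nat_lit 16968, nat_lit 16992, nat_lit 16984] (nat_lit 2) [] false,
   Spec.mk (nat_lit 16992) (nat_lit 0) [nat_lit 30114, nat_lit 12618, nat_lit 18450, nat_lit 16506, nat_lit 17154, nat_lit 16974, nat_lit 16986] (nat_lit 0) [] false,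
   Spec.mk (nat_lit 17018) (nat_lit 0) [nat_lit 30140, nat_lit 12644, nat_lit 18476, nat_lit 16532, nat_lit 16856, nat_lit 17024] (nat_lit 0) [nat_lit 36700] false,
   Spec.mk (nat_lit 17024) (nat_lit 0) [nat_lit 30146, nat_lit 12650, nat_lit 18482, nat_lit 16538, nat_lit 16862, nat_lit 17042, nat_lit 17018, nat_lit 17030, nat_lit 17026] (nat_lit 1) [nat_lit 36706] false,
   Spec.mk (nat_lit 17026) (nat_lit 0) [nat_lit 30148, nat_lit 12652, nat_lit 18484, nat_lit 16540, nat_lit 16864, nat_lit 17044, nat_lit 17032, nat_lit 17024] (nat_lit 0) [nat_lit 36708] false,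
   Spec.mk (nat_lit 17030) (nat_lit 0) [nat_lit 30152, nat_lit 12656, nat_lit 18488, nat_lit 16544, nat_lit 16868, nat_lit 17048, nat_lit 17024, nat_lit 17032] (nat_lit 4) [nat_lit 36712] false,
   Spec.mk (nat_lit 17032) (nat_lit 0) [nat_lit 30154, nat_lit 12658, nat_lit 18490, nat_lit 16546, nat_lit 16870, nat_lit 17050, nat_lit 17026, nat_lit 17030, nat_lit 17034] (nat_lit 1) [nat_lit 36714] false,
   Spec.mk (nat_lit 17034) (nat_lit 0) [nat_lit 30156, nat_lit 12660, nat_lit 18492, nat_lit 16548, nat_lit 16872, nat_lit 17052, nat_lit 17032] (nat_lit 0) [] false,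
   Spec.mk (nat_lit 17042) (nat_lit 0) [nat_lit 30164, nat_lit 12668, nat_lit 18500, nat_lit 16556, nat_lit 16880, nat_lit 17096, nat_lit 17024, nat_lit 17048, nat_lit 17044] (nat_lit 2) [nat_lit 36724] false,
   Spec.mk (nat_lit 17044) (nat_lit 0) [nat_lit 30166, nat_lit 12670, nat_lit 18502, nat_lit 16558, nat_lit 16882, nat_lit 17098, nat_lit 17026, nat_lit 17050, nat_lit 17042] (nat_lit 2) [nat_lit 36726] false,
   Spec.mk (nat_lit 17048) (nat_lit 0) [nat_lit 30170, nat_lit 12674, nat_lit 18506, nat_lit 16562, nat_lit 16886, nat_lit 17102, nat_lit 17030, nat_lit 17066, nat_lit 17042, nat_lit 17050] (nat_lit 3) [nat_lit 36730] false,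
   Spec.mk (nat_lit 17050) (nat_lit 0) [nat_lit 30172, nat_lit 12676, nat_lit 18508, nat_lit 16564, nat_lit 16888, nat_lit 17104, nat_lit 17032, nat_lit 17068, nat_lit 17044, nat_lit 17056, nat_lit 17048, nat_lit 17052] (nat_lit 1) [nat_lit 36732] false,
   Spec.mk (nat_lit 17052) (nat_lit 0) [nat_lit 30174, nat_lit 12678, nat_lit 18510, nat_lit 16566, nat_lit 16890, nat_lit 17106, nat_lit 17034, nat_lit 17070, nat_lit 17058, nat_lit 17050] (nat_lit 1) [] false,
   Spec.mk (nat_lit 17056) (nat_lit 0) [nat_lit 30178, nat_lit 12682, nat_lit 18514, nat_lit 16570, nat_lit 16894, nat_lit 17110, nat_lit 17074, nat_lit 17050, nat_lit 17058] (nat_lit 2) [nat_lit 36738] false,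
   Spec.mk (nat_lit 17058) (nat_lit 0) [nat_lit 30180, nat_lit 12684, nat_lit 18516, nat_lit 16572, nat_lit 16896, nat_lit 17112, nat_lit 17076, nat_lit 17052, nat_lit 17056] (nat_lit 0) [] false,
   Spec.mk (nat_lit 17066) (nat_lit 0) [nat_lit 30188, nat_lit 12692, nat_lit 18524, nat_lit 16580, nat_lit 16904, nat_lit 17120, nat_lit 17048, nat_lit 17068] (nat_lit 4) [nat_lit 36748] false,
   Spec.mk (nat_lit 17068) (nat_lit 0) [nat_lit 30190, nat_lit 12694, nat_lit 18526, nat_lit 16582, nat_lit 16906, nat_lit 17122, nat_lit 17050, nat_lit 17074, nat_lit 17066, nat_lit 17070] (nat_lit 3) [nat_lit 36750] false,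
   Spec.mk (nat_lit 17070) (nat_lit 0) [nat_lit 30192, nat_lit 12696, nat_lit 18528, nat_lit 16584, nat_lit 16908, nat_lit 17124, nat_lit 17052, nat_lit 17076, nat_lit 17068] (nat_lit 4) [] false,
   Spec.mk (nat_lit 17074) (nat_lit 0) [nat_lit 30196, nat_lit 12700, nat_lit 18532, nat_lit 16588, nat_lit 16912, nat_lit 17128, nat_lit 17056, nat_lit 17068, nat_lit 17076] (nat_lit 2) [nat_lit 36756] false,
   Spec.mk (nat_lit 17076) (nat_lit 0) [nat_lit 30198, nat_lit 12702, nat_lit 18534, nat_lit 16590, nat_lit 16914, nat_lit 17130, nat_lit 17058, nat_lit 17070, nat_lit 17082, nat_lit 17074] (nat_lit 1) [] false,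
   Spec.mk (nat_lit 17082) (nat_lit 0) [nat_lit 30204, nat_lit 12708, nat_lit 18540, nat_lit 16596, nat_lit 16920, nat_lit 17136, nat_lit 17076] (nat_lit 0) [] false,
   Spec.mk (nat_lit 17096) (nat_lit 0) [nat_lit 30218, nat_lit 12722, nat_lit 18554, nat_lit 16610, nat_lit 16934, nat_lit 17258, nat_lit 17042, nat_lit 17102, nat_lit 17098] (nat_lit 1) [nat_lit 36778] false,
   Spec.mk (nat_lit 17098) (nat_lit 0) [nat_lit 30220, nat_lit 12724, nat_lit 18556, nat_lit 16612, nat_lit 16936, nat_lit 17260, nat_lit 17044, nat_lit 17104, nat_lit 17096] (nat_lit 1) [nat_lit 36780] false,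
   Spec.mk (nat_lit 17102) (nat_lit 0) [nat_lit 30224, nat_lit 12728, nat_lit 18560, nat_lit 16616, nat_lit 16940, nat_lit 17264, nat_lit 17048, nat_lit 17120, nat_lit 17096, nat_lit 17104] (nat_lit 3) [nat_lit 36784] false,
   Spec.mk (nat_lit 17104) (nat_lit 0) [nat_lit 30226, nat_lit 12730, nat_lit 18562, nat_lit 16618, nat_lit 16942, nat_lit 17266, nat_lit 17050, nat_lit 17122, nat_lit 17098, nat_lit 17110, nat_lit 17102, nat_lit 17106] (nat_lit 1) [nat_lit 36786] false,
   Spec.mk (nat_lit 17106) (nat_lit 0) [nat_lit 30228, nat_lit 12732, nat_lit 18564, nat_lit 16620, nat_lit 16944, nat_lit 17268, nat_lit 17052, nat_lit 17124, nat_lit 17112, nat_lit 17104] (nat_lit 1) [] false,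
   Spec.mk (nat_lit 17110) (nat_lit 0) [nat_lit 30232, nat_lit 12736, nat_lit 18568, nat_lit 16624, nat_lit 16948, nat_lit 17272, nat_lit 17056, nat_lit 17128, nat_lit 17104, nat_lit 17112] (nat_lit 3) [nat_lit 36792] false,
   Spec.mk (nat_lit 17112) (nat_lit 0) [nat_lit 30234, nat_lit 12738, nat_lit 18570, nat_lit 16626, nat_lit 16950, nat_lit 17274, nat_lit 17058, nat_lit 17130, nat_lit 17106, nat_lit 17110] (nat_lit 1) [] false,
   Spec.mk (nat_lit 17120) (nat_lit 0) [nat_lit 30242, nat_lit 12746, nat_lit 18578, nat_lit 16634, nat_lit 16958, nat_lit 17282, nat_lit 17066, nat_lit 17174, nat_lit 17102, nat_lit 17122] (nat_lit 2) [nat_lit 36802] false,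
   Spec.mk (nat_lit 17122) (nat_lit 0) [nat_lit 30244, nat_lit 12748, nat_lit 18580, nat_lit 16636, nat_lit 16960, nat_lit 17284, nat_lit 17068, nat_lit 17176, nat_lit 17104, nat_lit 17128, nat_lit 17120, nat_lit 17124] (nat_lit 1) [nat_lit 36804] false,
   Spec.mk (nat_lit 17124) (nat_lit 0) [nat_lit 30246, nat_lit 12750, nat_lit 18582, nat_lit 16638, nat_lit 16962, nat_lit 17286, nat_lit 17070, nat_lit 17178, nat_lit 17106, nat_lit 17130, nat_lit 17122] (nat_lit 2) [] false,
   Spec.mk (nat_lit 17128) (nat_lit 0) [nat_lit 30250, nat_lit 12754, nat_lit 18586, nat_lit 16642, nat_lit 16966, nat_lit 17290, nat_lit 17074, nat_lit 17182, nat_lit 17110, nat_lit 17146, nat_lit 17122, nat_lit 17130] (nat_lit 1) [nat_lit 36810] false,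
   Spec.mk (nat_lit 17130) (nat_lit 0) [nat_lit 30252, nat_lit 12756, nat_lit 18588, nat_lit 16644, nat_lit 16968, nat_lit 17292, nat_lit 17076, nat_lit 17184, nat_lit 17112, nat_lit 17148, nat_lit 17124, nat_lit 17136, nat_lit 17128] (nat_lit 0) [] false,
   Spec.mk (nat_lit 17136) (nat_lit 0) [nat_lit 30258, nat_lit 12762, nat_lit 18594, nat_lit 16650, nat_lit 16974, nat_lit 17298, nat_lit 17082, nat_lit 17190, nat_lit 17154, nat_lit 17130] (nat_lit 0) [] false,
   Spec.mk (nat_lit 17146) (nat_lit 0) [nat_lit 30268, nat_lit 12772, nat_lit 18604, nat_lit 16660, nat_lit 16984, nat_lit 17308, nat_lit 17200, nat_lit 17128, nat_lit 17148] (nat_lit 1) [nat_lit 36828] false,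
   Spec.mk (nat_lit 17148) (nat_lit 0) [nat_lit 30270, nat_lit 12774, nat_lit 18606, nat_lit 16662, nat_lit 16986, nat_lit 17310, nat_lit 17202, nat_lit 17130, nat_lit 17154, nat_lit 17146] (nat_lit 1) [] false,
   Spec.mk (nat_lit 17154) (nat_lit 1) [nat_lit 30276, nat_lit 12780, nat_lit 18612, nat_lit 16668, nat_lit 16992, nat_lit 17316, nat_lit 17208, nat_lit 17136, nat_lit 17148] (nat_lit 0) [] false,
   Spec.mk (nat_lit 17174) (nat_lit 0) [nat_lit 30296, nat_lit 12800, nat_lit 18632, nat_lit 16688, nat_lit 17336, nat_lit 17120, nat_lit 17176] (nat_lit 2) [nat_lit 36856] false,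
   Spec.mk (nat_lit 17176) (nat_lit 0) [nat_lit 30298, nat_lit 12802, nat_lit 18634, nat_lit 16690, nat_lit 17338, nat_lit 17122, nat_lit 17182, nat_lit 17174, nat_lit 17178] (nat_lit 1) [nat_lit 36858] false,
   Spec.mk (nat_lit 17178) (nat_lit 0) [nat_lit 30300, nat_lit 12804, nat_lit 18636, nat_lit 16692, nat_lit 17340, nat_lit 17124, nat_lit 17184, nat_lit 17176] (nat_lit 2) [] false,
   Spec.mk (nat_lit 17182) (nat_lit 0) [nat_lit 30304, nat_lit 12808, nat_lit 18640, nat_lit 16696, nat_lit 17344, nat_lit 17128, nat_lit 17200, nat_lit 17176, nat_lit 17184] (nat_lit 2) [nat_lit 36864] false,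
   Spec.mk (nat_lit 17184) (nat_lit 0) [nat_lit 30306, nat_lit 12810, nat_lit 18642, nat_lit 16698, nat_lit 17346, nat_lit 17130, nat_lit 17202, nat_lit 17178, nat_lit 17190, nat_lit 17182] (nat_lit 1) [] false,
   Spec.mk (nat_lit 17190) (nat_lit 0) [nat_lit 30312, nat_lit 12816, nat_lit 18648, nat_lit 16704, nat_lit 17352, nat_lit 17136, nat_lit 17208, nat_lit 17184] (nat_lit 2) [] false,
   Spec.mk (nat_lit 17200) (nat_lit 0) [nat_lit 30322, nat_lit 12826, nat_lit 18658, nat_lit 16714, nat_lit 17362, nat_lit 17146, nat_lit 17182, nat_lit 17202] (nat_lit 0) [nat_lit 36882] false,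
   Spec.mk (nat_lit 17202) (nat_lit 0) [nat_lit 30324, nat_lit 12828, nat_lit 18660, nat_lit 16716, nat_lit 17364, nat_lit 17148, nat_lit 17184, nat_lit 17208, nat_lit 17200] (nat_lit 0) [] false,
   Spec.mk (nat_lit 17208) (nat_lit 1) [nat_lit 30330, nat_lit 12834, nat_lit 18666, nat_lit 16722, nat_lit 17370, nat_lit 17154, nat_lit 17190, nat_lit 17226, nat_lit 17202] (nat_lit 0) [] false,
   Spec.mk (nat_lit 17226) (nat_lit 2) [nat_lit 30348, nat_lit 12852, nat_lit 18684, nat_lit 16740, nat_lit 17388, nat_lit 17208] (nat_lit 0) [] false]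

noncomputable def sp42 : List Spec :=
  [Spec.mk (nat_lit 17258) (nat_lit 0) [nat_lit 30380, nat_lit 12884, nat_lit 18716, nat_lit 17096, nat_lit 17264, nat_lit 17260] (nat_lit 0) [nat_lit 36940] false,
   Spec.mk (nat_lit 17260) (nat_lit 0) [nat_lit 30382, nat_lit 12886, nat_lit 18718, nat_lit 17098, nat_lit 17266, nat_lit 17258] (nat_lit 0) [nat_lit 36942] false,
   Spec.mk (nat_lit 17264) (nat_lit 0) [nat_lit 30386, nat_lit 12890, nat_lit 18722, nat_lit 17102, nat_lit 17282, nat_lit 17258, nat_lit 17266] (nat_lit 2) [nat_lit 36946] false,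
   Spec.mk (nat_lit 17266) (nat_lit 0) [nat_lit 30388, nat_lit 12892, nat_lit 18724, nat_lit 17104, nat_lit 17284, nat_lit 17260, nat_lit 17272, nat_lit 17264, nat_lit 17268] (nat_lit 0) [nat_lit 36948] false,
   Spec.mk (nat_lit 17268) (nat_lit 0) [nat_lit 30390, nat_lit 12894, nat_lit 18726, nat_lit 17106, nat_lit 17286, nat_lit 17274, nat_lit 17266] (nat_lit 0) [] false,
   Spec.mk (nat_lit 17272) (nat_lit 0) [nat_lit 30394, nat_lit 12898, nat_lit 18730, nat_lit 17110, nat_lit 17290, nat_lit 17266, nat_lit 17274] (nat_lit 2) [nat_lit 36954] false,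
   Spec.mk (nat_lit 17274) (nat_lit 0) [nat_lit 30396, nat_lit 12900, nat_lit 18732, nat_lit 17112, nat_lit 17292, nat_lit 17268, nat_lit 17272] (nat_lit 0) [] false,
   Spec.mk (nat_lit 17282) (nat_lit 0) [nat_lit 30404, nat_lit 12908, nat_lit 18740, nat_lit 17120, nat_lit 17336, nat_lit 17264, nat_lit 17284] (nat_lit 2) [nat_lit 36964] false,
   Spec.mk (nat_lit 17284) (nat_lit 0) [nat_lit 30406, nat_lit 12910, nat_lit 18742, nat_lit 17122, nat_lit 17338, nat_lit 17266, nat_lit 17290, nat_lit 17282, nat_lit 17286] (nat_lit 1) [nat_lit 36966] false,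
   Spec.mk (nat_lit 17286) (nat_lit 0) [nat_lit 30408, nat_lit 12912, nat_lit 18744, nat_lit 17124, nat_lit 17340, nat_lit 17268, nat_lit 17292, nat_lit 17284] (nat_lit 2) [] false,
   Spec.mk (nat_lit 17290) (nat_lit 0) [nat_lit 30412, nat_lit 12916, nat_lit 18748, nat_lit 17128, nat_lit 17344, nat_lit 17272, nat_lit 17308, nat_lit 17284, nat_lit 17292] (nat_lit 1) [nat_lit 36972] false,
   Spec.mk (nat_lit 17292) (nat_lit 0) [nat_lit 30414, nat_lit 12918, nat_lit 18750, nat_lit 17130, nat_lit 17346, nat_lit 17274, nat_lit 17310, nat_lit 17286, nat_lit 17298, nat_lit 17290] (nat_lit 0) [] false,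
   Spec.mk (nat_lit 17298) (nat_lit 0) [nat_lit 30420, nat_lit 12924, nat_lit 18756, nat_lit 17136, nat_lit 17352, nat_lit 17316, nat_lit 17292] (nat_lit 0) [] false,
   Spec.mk (nat_lit 17308) (nat_lit 0) [nat_lit 30430, nat_lit 12934, nat_lit 18766, nat_lit 17146, nat_lit 17362, nat_lit 17290, nat_lit 17310] (nat_lit 2) [nat_lit 36990] false,
   Spec.mk (nat_lit 17310) (nat_lit 0) [nat_lit 30432, nat_lit 12936, nat_lit 18768, nat_lit 17148, nat_lit 17364, nat_lit 17292, nat_lit 17316, nat_lit 17308] (nat_lit 2) [] false,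
   Spec.mk (nat_lit 17316) (nat_lit 0) [nat_lit 30438, nat_lit 12942, nat_lit 18774, nat_lit 17154, nat_lit 17370, nat_lit 17298, nat_lit 17310] (nat_lit 0) [] false,
   Spec.mk (nat_lit 17336) (nat_lit 0) [nat_lit 30458, nat_lit 12962, nat_lit 18794, nat_lit 17174, nat_lit 17282, nat_lit 17338] (nat_lit 0) [nat_lit 37018] false,
   Spec.mk (nat_lit 17338) (nat_lit 1) [nat_lit 30460, nat_lit 12964, nat_lit 18796, nat_lit 17176, nat_lit 17284, nat_lit 17344, nat_lit 17336, nat_lit 17340] (nat_lit 0) [nat_lit 37020] false,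
   Spec.mk (nat_lit 17340) (nat_lit 0) [nat_lit 30462, nat_lit 12966, nat_lit 18798, nat_lit 17178, nat_lit 17286, nat_lit 17346, nat_lit 17338] (nat_lit 0) [] false,
   Spec.mk (nat_lit 17344) (nat_lit 0) [nat_lit 30466, nat_lit 12970, nat_lit 18802, nat_lit 17182, nat_lit 17290, nat_lit 17362, nat_lit 17338, nat_lit 17346] (nat_lit 0) [nat_lit 37026] false,
   Spec.mk (nat_lit 17346) (nat_lit 1) [nat_lit 30468, nat_lit 12972, nat_lit 18804, nat_lit 17184, nat_lit 17292, nat_lit 17364, nat_lit 17340, nat_lit 17352, nat_lit 17344] (nat_lit 0) [] false,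
   Spec.mk (nat_lit 17352) (nat_lit 0) [nat_lit 30474, nat_lit 12978, nat_lit 18810, nat_lit 17190, nat_lit 17298, nat_lit 17370, nat_lit 17346] (nat_lit 0) [] false,
   Spec.mk (nat_lit 17362) (nat_lit 1) [nat_lit 30484, nat_lit 12988, nat_lit 18820, nat_lit 17200, nat_lit 17308, nat_lit 17416, nat_lit 17344, nat_lit 17364] (nat_lit 0) [nat_lit 37044] false,
   Spec.mk (nat_lit 17364) (nat_lit 1) [nat_lit 30486, nat_lit 12990, nat_lit 18822, nat_lit 17202, nat_lit 17310, nat_lit 17418, nat_lit 17346, nat_lit 17370, nat_lit 17362] (nat_lit 0) [] false,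
   Spec.mk (nat_lit 17370) (nat_lit 2) [nat_lit 30492, nat_lit 12996, nat_lit 18828, nat_lit 17208, nat_lit 17316, nat_lit 17424, nat_lit 17352, nat_lit 17388, nat_lit 17364] (nat_lit 0) [] false,
   Spec.mk (nat_lit 17388) (nat_lit 2) [nat_lit 30510, nat_lit 13014, nat_lit 18846, nat_lit 17226, nat_lit 17442, nat_lit 17370] (nat_lit 0) [] false,
   Spec.mk (nat_lit 17416) (nat_lit 2) [nat_lit 30538, nat_lit 13042, nat_lit 18874, nat_lit 17362, nat_lit 17418] (nat_lit 0) [nat_lit 37098] false,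
   Spec.mk (nat_lit 17418) (nat_lit 2) [nat_lit 30540, nat_lit 13044, nat_lit 18876, nat_lit 17364, nat_lit 17424, nat_lit 17416] (nat_lit 0) [] false,
   Spec.mk (nat_lit 17424) (nat_lit 2) [nat_lit 30546, nat_lit 13050, nat_lit 18882, nat_lit 17370, nat_lit 17442, nat_lit 17418] (nat_lit 0) [] false,
   Spec.mk (nat_lit 17442) (nat_lit 4) [nat_lit 30564, nat_lit 13068, nat_lit 18900, nat_lit 17388, nat_lit 17424] (nat_lit 0) [] false,
   Spec.mk (nat_lit 17522) (nat_lit 2) [nat_lit 30644, nat_lit 16064, nat_lit 17540] (nat_lit 0) [nat_lit 37204] false,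
   Spec.mk (nat_lit 17540) (nat_lit 1) [nat_lit 30662, nat_lit 16082, nat_lit 17594, nat_lit 17522, nat_lit 17558, nat_lit 17546] (nat_lit 0) [nat_lit 37222] false,
   Spec.mk (nat_lit 17546) (nat_lit 0) [nat_lit 30668, nat_lit 16088, nat_lit 17600, nat_lit 17564, nat_lit 17540, nat_lit 17548] (nat_lit 0) [nat_lit 37228] false,
   Spec.mk (nat_lit 17548) (nat_lit 2) [nat_lit 30670, nat_lit 16090, nat_lit 17602, nat_lit 17566, nat_lit 17546] (nat_lit 0) [nat_lit 37230] false,
   Spec.mk (nat_lit 17558) (nat_lit 0) [nat_lit 30680, nat_lit 16100, nat_lit 17612, nat_lit 17540, nat_lit 17564] (nat_lit 2) [nat_lit 37240] false,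
   Spec.mk (nat_lit 17564) (nat_lit 0) [nat_lit 30686, nat_lit 16106, nat_lit 17618, nat_lit 17546, nat_lit 17558, nat_lit 17570, nat_lit 17566] (nat_lit 1) [nat_lit 37246] false,
   Spec.mk (nat_lit 17566) (nat_lit 0) [nat_lit 30688, nat_lit 16108, nat_lit 17620, nat_lit 17548, nat_lit 17572, nat_lit 17564] (nat_lit 0) [nat_lit 37248] false,
   Spec.mk (nat_lit 17570) (nat_lit 0) [nat_lit 30692, nat_lit 16112, nat_lit 17624, nat_lit 17564, nat_lit 17572] (nat_lit 2) [nat_lit 37252] false,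
   Spec.mk (nat_lit 17572) (nat_lit 1) [nat_lit 30694, nat_lit 16114, nat_lit 17626, nat_lit 17566, nat_lit 17570, nat_lit 17574] (nat_lit 0) [nat_lit 37254] false,
   Spec.mk (nat_lit 17574) (nat_lit 2) [nat_lit 30696, nat_lit 16116, nat_lit 17628, nat_lit 17572] (nat_lit 0) [] false,
   Spec.mk (nat_lit 17594) (nat_lit 0) [nat_lit 30716, nat_lit 16136, nat_lit 17756, nat_lit 17540, nat_lit 17612, nat_lit 17600] (nat_lit 0) [nat_lit 37276] false,
   Spec.mk (nat_lit 17600) (nat_lit 0) [nat_lit 30722, nat_lit 16142, nat_lit 17762, nat_lit 17546, nat_lit 17618, nat_lit 17594, nat_lit 17602] (nat_lit 2) [nat_lit 37282] false,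
   Spec.mk (nat_lit 17602) (nat_lit 0) [nat_lit 30724, nat_lit 16144, nat_lit 17764, nat_lit 17548, nat_lit 17620, nat_lit 17600] (nat_lit 0) [nat_lit 37284] false,
   Spec.mk (nat_lit 17612) (nat_lit 0) [nat_lit 30734, nat_lit 16154, nat_lit 17774, nat_lit 17558, nat_lit 17666, nat_lit 17594, nat_lit 17618] (nat_lit 1) [nat_lit 37294] false,
   Spec.mk (nat_lit 17618) (nat_lit 0) [nat_lit 30740, nat_lit 16160, nat_lit 17780, nat_lit 17564, nat_lit 17672, nat_lit 17600, nat_lit 17636, nat_lit 17612, nat_lit 17624, nat_lit 17620] (nat_lit 1) [nat_lit 37300] false,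
   Spec.mk (nat_lit 17620) (nat_lit 0) [nat_lit 30742, nat_lit 16162, nat_lit 17782, nat_lit 17566, nat_lit 17674, nat_lit 17602, nat_lit 17638, nat_lit 17626, nat_lit 17618] (nat_lit 0) [nat_lit 37302] false,
   Spec.mk (nat_lit 17624) (nat_lit 0) [nat_lit 30746, nat_lit 16166, nat_lit 17786, nat_lit 17570, nat_lit 17678, nat_lit 17642, nat_lit 17618, nat_lit 17626] (nat_lit 3) [nat_lit 37306] false,
   Spec.mk (nat_lit 17626) (nat_lit 0) [nat_lit 30748, nat_lit 16168, nat_lit 17788, nat_lit 17572, nat_lit 17680, nat_lit 17644, nat_lit 17620, nat_lit 17624, nat_lit 17628] (nat_lit 0) [nat_lit 37308] false,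
   Spec.mk (nat_lit 17628) (nat_lit 1) [nat_lit 30750, nat_lit 16170, nat_lit 17790, nat_lit 17574, nat_lit 17682, nat_lit 17646, nat_lit 17626] (nat_lit 0) [] false,
   Spec.mk (nat_lit 17636) (nat_lit 0) [nat_lit 30758, nat_lit 16178, nat_lit 17798, nat_lit 17690, nat_lit 17618, nat_lit 17642, nat_lit 17638] (nat_lit 2) [nat_lit 37318] false,
   Spec.mk (nat_lit 17638) (nat_lit 0) [nat_lit 30760, nat_lit 16180, nat_lit 17800, nat_lit 17692, nat_lit 17620, nat_lit 17644, nat_lit 17636] (nat_lit 2) [nat_lit 37320] false,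
   Spec.mk (nat_lit 17642) (nat_lit 0) [nat_lit 30764, nat_lit 16184, nat_lit 17804, nat_lit 17696, nat_lit 17624, nat_lit 17636, nat_lit 17644] (nat_lit 2) [nat_lit 37324] false,
   Spec.mk (nat_lit 17644) (nat_lit 0) [nat_lit 30766, nat_lit 16186, nat_lit 17806, nat_lit 17698, nat_lit 17626, nat_lit 17638, nat_lit 17650, nat_lit 17642, nat_lit 17646] (nat_lit 0) [nat_lit 37326] false,
   Spec.mk (nat_lit 17646) (nat_lit 0) [nat_lit 30768, nat_lit 16188, nat_lit 17808, nat_lit 17700, nat_lit 17628, nat_lit 17652, nat_lit 17644] (nat_lit 0) [] false,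
   Spec.mk (nat_lit 17650) (nat_lit 0) [nat_lit 30772, nat_lit 16192, nat_lit 17812, nat_lit 17704, nat_lit 17644, nat_lit 17652] (nat_lit 0) [nat_lit 37332] false,
   Spec.mk (nat_lit 17652) (nat_lit 2) [nat_lit 30774, nat_lit 16194, nat_lit 17814, nat_lit 17706, nat_lit 17646, nat_lit 17650] (nat_lit 0) [] false,
   Spec.mk (nat_lit 17666) (nat_lit 0) [nat_lit 30788, nat_lit 16208, nat_lit 17828, nat_lit 17612, nat_lit 17672] (nat_lit 2) [nat_lit 37348] false,
   Spec.mk (nat_lit 17672) (nat_lit 0) [nat_lit 30794, nat_lit 16214, nat_lit 17834, nat_lit 17618, nat_lit 17690, nat_lit 17666, nat_lit 17678, nat_lit 17674] (nat_lit 3) [nat_lit 37354] false,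
   Spec.mk (nat_lit 17674) (nat_lit 0) [nat_lit 30796, nat_lit 16216, nat_lit 17836, nat_lit 17620, nat_lit 17692, nat_lit 17680, nat_lit 17672] (nat_lit 2) [nat_lit 37356] false,
   Spec.mk (nat_lit 17678) (nat_lit 0) [nat_lit 30800, nat_lit 16220, nat_lit 17840, nat_lit 17624, nat_lit 17696, nat_lit 17672, nat_lit 17680] (nat_lit 6) [nat_lit 37360] false]

noncomputable def sp43 : List Spec :=
  [Spec.mk (nat_lit 17680) (nat_lit 0) [nat_lit 30802, nat_lit 16222, nat_lit 17842, nat_lit 17626, nat_lit 17698, nat_lit 17674, nat_lit 17678, nat_lit 17682] (nat_lit 3) [nat_lit 37362] false,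
   Spec.mk (nat_lit 17682) (nat_lit 0) [nat_lit 30804, nat_lit 16224, nat_lit 17844, nat_lit 17628, nat_lit 17700, nat_lit 17680] (nat_lit 2) [] false,
   Spec.mk (nat_lit 17690) (nat_lit 0) [nat_lit 30812, nat_lit 16232, nat_lit 17852, nat_lit 17636, nat_lit 17672, nat_lit 17696, nat_lit 17692] (nat_lit 2) [nat_lit 37372] false,
   Spec.mk (nat_lit 17692) (nat_lit 0) [nat_lit 30814, nat_lit 16234, nat_lit 17854, nat_lit 17638, nat_lit 17674, nat_lit 17698, nat_lit 17690] (nat_lit 2) [nat_lit 37374] false,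
   Spec.mk (nat_lit 17696) (nat_lit 0) [nat_lit 30818, nat_lit 16238, nat_lit 17858, nat_lit 17642, nat_lit 17678, nat_lit 17714, nat_lit 17690, nat_lit 17698] (nat_lit 3) [nat_lit 37378] false,
   Spec.mk (nat_lit 17698) (nat_lit 0) [nat_lit 30820, nat_lit 16240, nat_lit 17860, nat_lit 17644, nat_lit 17680, nat_lit 17716, nat_lit 17692, nat_lit 17704, nat_lit 17696, nat_lit 17700] (nat_lit 1) [nat_lit 37380] false,
   Spec.mk (nat_lit 17700) (nat_lit 0) [nat_lit 30822, nat_lit 16242, nat_lit 17862, nat_lit 17646, nat_lit 17682, nat_lit 17718, nat_lit 17706, nat_lit 17698] (nat_lit 1) [] false,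
   Spec.mk (nat_lit 17704) (nat_lit 0) [nat_lit 30826, nat_lit 16246, nat_lit 17866, nat_lit 17650, nat_lit 17722, nat_lit 17698, nat_lit 17706] (nat_lit 2) [nat_lit 37386] false,
   Spec.mk (nat_lit 17706) (nat_lit 0) [nat_lit 30828, nat_lit 16248, nat_lit 17868, nat_lit 17652, nat_lit 17724, nat_lit 17700, nat_lit 17704] (nat_lit 0) [] false,
   Spec.mk (nat_lit 17714) (nat_lit 0) [nat_lit 30836, nat_lit 16256, nat_lit 17876, nat_lit 17696, nat_lit 17716] (nat_lit 2) [nat_lit 37396] false,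
   Spec.mk (nat_lit 17716) (nat_lit 0) [nat_lit 30838, nat_lit 16258, nat_lit 17878, nat_lit 17698, nat_lit 17722, nat_lit 17714, nat_lit 17718] (nat_lit 1) [nat_lit 37398] false,
   Spec.mk (nat_lit 17718) (nat_lit 0) [nat_lit 30840, nat_lit 16260, nat_lit 17880, nat_lit 17700, nat_lit 17724, nat_lit 17716] (nat_lit 2) [] false,
   Spec.mk (nat_lit 17722) (nat_lit 0) [nat_lit 30844, nat_lit 16264, nat_lit 17884, nat_lit 17704, nat_lit 17716, nat_lit 17724] (nat_lit 0) [nat_lit 37404] false,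
   Spec.mk (nat_lit 17724) (nat_lit 1) [nat_lit 30846, nat_lit 16266, nat_lit 17886, nat_lit 17706, nat_lit 17718, nat_lit 17730, nat_lit 17722] (nat_lit 0) [] false,
   Spec.mk (nat_lit 17730) (nat_lit 2) [nat_lit 30852, nat_lit 16272, nat_lit 17892, nat_lit 17724] (nat_lit 0) [] false,
   Spec.mk (nat_lit 17756) (nat_lit 0) [nat_lit 30878, nat_lit 16298, nat_lit 18242, nat_lit 17594, nat_lit 17774, nat_lit 17762] (nat_lit 0) [nat_lit 37438] false,
   Spec.mk (nat_lit 17762) (nat_lit 0) [nat_lit 30884, nat_lit 16304, nat_lit 18248, nat_lit 17600, nat_lit 17780, nat_lit 17756, nat_lit 17764] (nat_lit 2) [nat_lit 37444] false,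
   Spec.mk (nat_lit 17764) (nat_lit 0) [nat_lit 30886, nat_lit 16306, nat_lit 18250, nat_lit 17602, nat_lit 17782, nat_lit 17762] (nat_lit 0) [nat_lit 37446] false,
   Spec.mk (nat_lit 17774) (nat_lit 0) [nat_lit 30896, nat_lit 16316, nat_lit 18260, nat_lit 17612, nat_lit 17828, nat_lit 17756, nat_lit 17780] (nat_lit 2) [nat_lit 37456] false,
   Spec.mk (nat_lit 17780) (nat_lit 0) [nat_lit 30902, nat_lit 16322, nat_lit 18266, nat_lit 17618, nat_lit 17834, nat_lit 17762, nat_lit 17798, nat_lit 17774, nat_lit 17786, nat_lit 17782] (nat_lit 2) [nat_lit 37462] false,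
   Spec.mk (nat_lit 17782) (nat_lit 0) [nat_lit 30904, nat_lit 16324, nat_lit 18268, nat_lit 17620, nat_lit 17836, nat_lit 17764, nat_lit 17800, nat_lit 17788, nat_lit 17780] (nat_lit 1) [nat_lit 37464] false,
   Spec.mk (nat_lit 17786) (nat_lit 0) [nat_lit 30908, nat_lit 16328, nat_lit 18272, nat_lit 17624, nat_lit 17840, nat_lit 17804, nat_lit 17780, nat_lit 17788] (nat_lit 4) [nat_lit 37468] false,
   Spec.mk (nat_lit 17788) (nat_lit 0) [nat_lit 30910, nat_lit 16330, nat_lit 18274, nat_lit 17626, nat_lit 17842, nat_lit 17806, nat_lit 17782, nat_lit 17786, nat_lit 17790] (nat_lit 1) [nat_lit 37470] false,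
   Spec.mk (nat_lit 17790) (nat_lit 0) [nat_lit 30912, nat_lit 16332, nat_lit 18276, nat_lit 17628, nat_lit 17844, nat_lit 17808, nat_lit 17788] (nat_lit 0) [] false,
   Spec.mk (nat_lit 17798) (nat_lit 0) [nat_lit 30920, nat_lit 16340, nat_lit 18284, nat_lit 17636, nat_lit 17852, nat_lit 17780, nat_lit 17804, nat_lit 17800] (nat_lit 4) [nat_lit 37480] false,
   Spec.mk (nat_lit 17800) (nat_lit 0) [nat_lit 30922, nat_lit 16342, nat_lit 18286, nat_lit 17638, nat_lit 17854, nat_lit 17782, nat_lit 17806, nat_lit 17798] (nat_lit 4) [nat_lit 37482] false,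
   Spec.mk (nat_lit 17804) (nat_lit 0) [nat_lit 30926, nat_lit 16346, nat_lit 18290, nat_lit 17642, nat_lit 17858, nat_lit 17786, nat_lit 17798, nat_lit 17806] (nat_lit 4) [nat_lit 37486] false,
   Spec.mk (nat_lit 17806) (nat_lit 0) [nat_lit 30928, nat_lit 16348, nat_lit 18292, nat_lit 17644, nat_lit 17860, nat_lit 17788, nat_lit 17800, nat_lit 17812, nat_lit 17804, nat_lit 17808] (nat_lit 2) [nat_lit 37488] false,
   Spec.mk (nat_lit 17808) (nat_lit 0) [nat_lit 30930, nat_lit 16350, nat_lit 18294, nat_lit 17646, nat_lit 17862, nat_lit 17790, nat_lit 17814, nat_lit 17806] (nat_lit 2) [] false,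
   Spec.mk (nat_lit 17812) (nat_lit 0) [nat_lit 30934, nat_lit 16354, nat_lit 18298, nat_lit 17650, nat_lit 17866, nat_lit 17806, nat_lit 17814] (nat_lit 2) [nat_lit 37494] false,
   Spec.mk (nat_lit 17814) (nat_lit 0) [nat_lit 30936, nat_lit 16356, nat_lit 18300, nat_lit 17652, nat_lit 17868, nat_lit 17808, nat_lit 17812] (nat_lit 0) [] false,
   Spec.mk (nat_lit 17828) (nat_lit 0) [nat_lit 30950, nat_lit 16370, nat_lit 18314, nat_lit 17666, nat_lit 17990, nat_lit 17774, nat_lit 17834] (nat_lit 1) [nat_lit 37510] false,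
   Spec.mk (nat_lit 17834) (nat_lit 0) [nat_lit 30956, nat_lit 16376, nat_lit 18320, nat_lit 17672, nat_lit 17996, nat_lit 17780, nat_lit 17852, nat_lit 17828, nat_lit 17840, nat_lit 17836] (nat_lit 2) [nat_lit 37516] false,
   Spec.mk (nat_lit 17836) (nat_lit 0) [nat_lit 30958, nat_lit 16378, nat_lit 18322, nat_lit 17674, nat_lit 17998, nat_lit 17782, nat_lit 17854, nat_lit 17842, nat_lit 17834] (nat_lit 1) [nat_lit 37518] false,
   Spec.mk (nat_lit 17840) (nat_lit 0) [nat_lit 30962, nat_lit 16382, nat_lit 18326, nat_lit 17678, nat_lit 18002, nat_lit 17786, nat_lit 17858, nat_lit 17834, nat_lit 17842] (nat_lit 5) [nat_lit 37522] false,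
   Spec.mk (nat_lit 17842) (nat_lit 0) [nat_lit 30964, nat_lit 16384, nat_lit 18328, nat_lit 17680, nat_lit 18004, nat_lit 17788, nat_lit 17860, nat_lit 17836, nat_lit 17840, nat_lit 17844] (nat_lit 2) [nat_lit 37524] false,
   Spec.mk (nat_lit 17844) (nat_lit 0) [nat_lit 30966, nat_lit 16386, nat_lit 18330, nat_lit 17682, nat_lit 18006, nat_lit 17790, nat_lit 17862, nat_lit 17842] (nat_lit 1) [] false,
   Spec.mk (nat_lit 17852) (nat_lit 0) [nat_lit 30974, nat_lit 16394, nat_lit 18338, nat_lit 17690, nat_lit 18014, nat_lit 17798, nat_lit 17906, nat_lit 17834, nat_lit 17858, nat_lit 17854] (nat_lit 2) [nat_lit 37534] false,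
   Spec.mk (nat_lit 17854) (nat_lit 0) [nat_lit 30976, nat_lit 16396, nat_lit 18340, nat_lit 17692, nat_lit 18016, nat_lit 17800, nat_lit 17908, nat_lit 17836, nat_lit 17860, nat_lit 17852] (nat_lit 2) [nat_lit 37536] false,
   Spec.mk (nat_lit 17858) (nat_lit 0) [nat_lit 30980, nat_lit 16400, nat_lit 18344, nat_lit 17696, nat_lit 18020, nat_lit 17804, nat_lit 17912, nat_lit 17840, nat_lit 17876, nat_lit 17852, nat_lit 17860] (nat_lit 3) [nat_lit 37540] false,
   Spec.mk (nat_lit 17860) (nat_lit 0) [nat_lit 30982, nat_lit 16402, nat_lit 18346, nat_lit 17698, nat_lit 18022, nat_lit 17806, nat_lit 17914, nat_lit 17842, nat_lit 17878, nat_lit 17854, nat_lit 17866, nat_lit 17858, nat_lit 17862] (nat_lit 1) [nat_lit 37542] false,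
   Spec.mk (nat_lit 17862) (nat_lit 0) [nat_lit 30984, nat_lit 16404, nat_lit 18348, nat_lit 17700, nat_lit 18024, nat_lit 17808, nat_lit 17916, nat_lit 17844, nat_lit 17880, nat_lit 17868, nat_lit 17860] (nat_lit 1) [] false,
   Spec.mk (nat_lit 17866) (nat_lit 0) [nat_lit 30988, nat_lit 16408, nat_lit 18352, nat_lit 17704, nat_lit 18028, nat_lit 17812, nat_lit 17920, nat_lit 17884, nat_lit 17860, nat_lit 17868] (nat_lit 2) [nat_lit 37548] false,
   Spec.mk (nat_lit 17868) (nat_lit 0) [nat_lit 30990, nat_lit 16410, nat_lit 18354, nat_lit 17706, nat_lit 18030, nat_lit 17814, nat_lit 17922, nat_lit 17886, nat_lit 17862, nat_lit 17866] (nat_lit 0) [] false,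
   Spec.mk (nat_lit 17876) (nat_lit 0) [nat_lit 30998, nat_lit 16418, nat_lit 18362, nat_lit 17714, nat_lit 18038, nat_lit 17930, nat_lit 17858, nat_lit 17878] (nat_lit 3) [nat_lit 37558] false,
   Spec.mk (nat_lit 17878) (nat_lit 0) [nat_lit 31000, nat_lit 16420, nat_lit 18364, nat_lit 17716, nat_lit 18040, nat_lit 17932, nat_lit 17860, nat_lit 17884, nat_lit 17876, nat_lit 17880] (nat_lit 2) [nat_lit 37560] false,
   Spec.mk (nat_lit 17880) (nat_lit 0) [nat_lit 31002, nat_lit 16422, nat_lit 18366, nat_lit 17718, nat_lit 18042, nat_lit 17934, nat_lit 17862, nat_lit 17886, nat_lit 17878] (nat_lit 3) [] false,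
   Spec.mk (nat_lit 17884) (nat_lit 0) [nat_lit 31006, nat_lit 16426, nat_lit 18370, nat_lit 17722, nat_lit 18046, nat_lit 17938, nat_lit 17866, nat_lit 17878, nat_lit 17886] (nat_lit 1) [nat_lit 37566] false,
   Spec.mk (nat_lit 17886) (nat_lit 0) [nat_lit 31008, nat_lit 16428, nat_lit 18372, nat_lit 17724, nat_lit 18048, nat_lit 17940, nat_lit 17868, nat_lit 17880, nat_lit 17892, nat_lit 17884] (nat_lit 0) [] false,
   Spec.mk (nat_lit 17892) (nat_lit 1) [nat_lit 31014, nat_lit 16434, nat_lit 18378, nat_lit 17730, nat_lit 18054, nat_lit 17946, nat_lit 17886] (nat_lit 0) [] false,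
   Spec.mk (nat_lit 17906) (nat_lit 0) [nat_lit 31028, nat_lit 16448, nat_lit 18392, nat_lit 18068, nat_lit 17852, nat_lit 17912, nat_lit 17908] (nat_lit 2) [nat_lit 37588] false,
   Spec.mk (nat_lit 17908) (nat_lit 0) [nat_lit 31030, nat_lit 16450, nat_lit 18394, nat_lit 18070, nat_lit 17854, nat_lit 17914, nat_lit 17906] (nat_lit 2) [nat_lit 37590] false,
   Spec.mk (nat_lit 17912) (nat_lit 0) [nat_lit 31034, nat_lit 16454, nat_lit 18398, nat_lit 18074, nat_lit 17858, nat_lit 17930, nat_lit 17906, nat_lit 17914] (nat_lit 4) [nat_lit 37594] false,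
   Spec.mk (nat_lit 17914) (nat_lit 0) [nat_lit 31036, nat_lit 16456, nat_lit 18400, nat_lit 18076, nat_lit 17860, nat_lit 17932, nat_lit 17908, nat_lit 17920, nat_lit 17912, nat_lit 17916] (nat_lit 2) [nat_lit 37596] false,
   Spec.mk (nat_lit 17916) (nat_lit 0) [nat_lit 31038, nat_lit 16458, nat_lit 18402, nat_lit 18078, nat_lit 17862, nat_lit 17934, nat_lit 17922, nat_lit 17914] (nat_lit 2) [] false,
   Spec.mk (nat_lit 17920) (nat_lit 0) [nat_lit 31042, nat_lit 16462, nat_lit 18406, nat_lit 18082, nat_lit 17866, nat_lit 17938, nat_lit 17914, nat_lit 17922] (nat_lit 4) [nat_lit 37602] false,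
   Spec.mk (nat_lit 17922) (nat_lit 0) [nat_lit 31044, nat_lit 16464, nat_lit 18408, nat_lit 18084, nat_lit 17868, nat_lit 17940, nat_lit 17916, nat_lit 17920] (nat_lit 2) [] false,
   Spec.mk (nat_lit 17930) (nat_lit 0) [nat_lit 31052, nat_lit 16472, nat_lit 18416, nat_lit 18092, nat_lit 17876, nat_lit 17912, nat_lit 17932] (nat_lit 2) [nat_lit 37612] false,
   Spec.mk (nat_lit 17932) (nat_lit 0) [nat_lit 31054, nat_lit 16474, nat_lit 18418, nat_lit 18094, nat_lit 17878, nat_lit 17914, nat_lit 17938, nat_lit 17930, nat_lit 17934] (nat_lit 1) [nat_lit 37614] false,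
   Spec.mk (nat_lit 17934) (nat_lit 0) [nat_lit 31056, nat_lit 16476, nat_lit 18420, nat_lit 18096, nat_lit 17880, nat_lit 17916, nat_lit 17940, nat_lit 17932] (nat_lit 2) [] false]

noncomputable def sp44 : List Spec :=
  [Spec.mk (nat_lit 17938) (nat_lit 0) [nat_lit 31060, nat_lit 16480, nat_lit 18424, nat_lit 18100, nat_lit 17884, nat_lit 17920, nat_lit 17956, nat_lit 17932, nat_lit 17940] (nat_lit 1) [nat_lit 37620] false,
   Spec.mk (nat_lit 17940) (nat_lit 0) [nat_lit 31062, nat_lit 16482, nat_lit 18426, nat_lit 18102, nat_lit 17886, nat_lit 17922, nat_lit 17958, nat_lit 17934, nat_lit 17946, nat_lit 17938] (nat_lit 0) [] false,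
   Spec.mk (nat_lit 17946) (nat_lit 0) [nat_lit 31068, nat_lit 16488, nat_lit 18432, nat_lit 18108, nat_lit 17892, nat_lit 17964, nat_lit 17940] (nat_lit 0) [] false,
   Spec.mk (nat_lit 17956) (nat_lit 0) [nat_lit 31078, nat_lit 16498, nat_lit 18442, nat_lit 18118, nat_lit 17938, nat_lit 17958] (nat_lit 0) [nat_lit 37638] false,
   Spec.mk (nat_lit 17958) (nat_lit 0) [nat_lit 31080, nat_lit 16500, nat_lit 18444, nat_lit 18120, nat_lit 17940, nat_lit 17964, nat_lit 17956] (nat_lit 0) [] false,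
   Spec.mk (nat_lit 17964) (nat_lit 2) [nat_lit 31086, nat_lit 16506, nat_lit 18450, nat_lit 18126, nat_lit 17946, nat_lit 17958] (nat_lit 0) [] false,
   Spec.mk (nat_lit 17990) (nat_lit 0) [nat_lit 31112, nat_lit 16532, nat_lit 18476, nat_lit 17828, nat_lit 17996] (nat_lit 2) [nat_lit 37672] false,
   Spec.mk (nat_lit 17996) (nat_lit 0) [nat_lit 31118, nat_lit 16538, nat_lit 18482, nat_lit 17834, nat_lit 18014, nat_lit 17990, nat_lit 18002, nat_lit 17998] (nat_lit 3) [nat_lit 37678] false,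
   Spec.mk (nat_lit 17998) (nat_lit 0) [nat_lit 31120, nat_lit 16540, nat_lit 18484, nat_lit 17836, nat_lit 18016, nat_lit 18004, nat_lit 17996] (nat_lit 2) [nat_lit 37680] false,
   Spec.mk (nat_lit 18002) (nat_lit 0) [nat_lit 31124, nat_lit 16544, nat_lit 18488, nat_lit 17840, nat_lit 18020, nat_lit 17996, nat_lit 18004] (nat_lit 6) [nat_lit 37684] false,
   Spec.mk (nat_lit 18004) (nat_lit 0) [nat_lit 31126, nat_lit 16546, nat_lit 18490, nat_lit 17842, nat_lit 18022, nat_lit 17998, nat_lit 18002, nat_lit 18006] (nat_lit 3) [nat_lit 37686] false,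
   Spec.mk (nat_lit 18006) (nat_lit 0) [nat_lit 31128, nat_lit 16548, nat_lit 18492, nat_lit 17844, nat_lit 18024, nat_lit 18004] (nat_lit 2) [] false,
   Spec.mk (nat_lit 18014) (nat_lit 0) [nat_lit 31136, nat_lit 16556, nat_lit 18500, nat_lit 17852, nat_lit 18068, nat_lit 17996, nat_lit 18020, nat_lit 18016] (nat_lit 4) [nat_lit 37696] false,
   Spec.mk (nat_lit 18016) (nat_lit 0) [nat_lit 31138, nat_lit 16558, nat_lit 18502, nat_lit 17854, nat_lit 18070, nat_lit 17998, nat_lit 18022, nat_lit 18014] (nat_lit 4) [nat_lit 37698] false,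
   Spec.mk (nat_lit 18020) (nat_lit 0) [nat_lit 31142, nat_lit 16562, nat_lit 18506, nat_lit 17858, nat_lit 18074, nat_lit 18002, nat_lit 18038, nat_lit 18014, nat_lit 18022] (nat_lit 5) [nat_lit 37702] false,
   Spec.mk (nat_lit 18022) (nat_lit 0) [nat_lit 31144, nat_lit 16564, nat_lit 18508, nat_lit 17860, nat_lit 18076, nat_lit 18004, nat_lit 18040, nat_lit 18016, nat_lit 18028, nat_lit 18020, nat_lit 18024] (nat_lit 3) [nat_lit 37704] false,
   Spec.mk (nat_lit 18024) (nat_lit 0) [nat_lit 31146, nat_lit 16566, nat_lit 18510, nat_lit 17862, nat_lit 18078, nat_lit 18006, nat_lit 18042, nat_lit 18030, nat_lit 18022] (nat_lit 3) [] false,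
   Spec.mk (nat_lit 18028) (nat_lit 0) [nat_lit 31150, nat_lit 16570, nat_lit 18514, nat_lit 17866, nat_lit 18082, nat_lit 18046, nat_lit 18022, nat_lit 18030] (nat_lit 4) [nat_lit 37710] false,
   Spec.mk (nat_lit 18030) (nat_lit 0) [nat_lit 31152, nat_lit 16572, nat_lit 18516, nat_lit 17868, nat_lit 18084, nat_lit 18048, nat_lit 18024, nat_lit 18028] (nat_lit 2) [] false,
   Spec.mk (nat_lit 18038) (nat_lit 0) [nat_lit 31160, nat_lit 16580, nat_lit 18524, nat_lit 17876, nat_lit 18092, nat_lit 18020, nat_lit 18040] (nat_lit 6) [nat_lit 37720] false,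
   Spec.mk (nat_lit 18040) (nat_lit 0) [nat_lit 31162, nat_lit 16582, nat_lit 18526, nat_lit 17878, nat_lit 18094, nat_lit 18022, nat_lit 18046, nat_lit 18038, nat_lit 18042] (nat_lit 5) [nat_lit 37722] false,
   Spec.mk (nat_lit 18042) (nat_lit 0) [nat_lit 31164, nat_lit 16584, nat_lit 18528, nat_lit 17880, nat_lit 18096, nat_lit 18024, nat_lit 18048, nat_lit 18040] (nat_lit 6) [] false,
   Spec.mk (nat_lit 18046) (nat_lit 0) [nat_lit 31168, nat_lit 16588, nat_lit 18532, nat_lit 17884, nat_lit 18100, nat_lit 18028, nat_lit 18040, nat_lit 18048] (nat_lit 4) [nat_lit 37728] false,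
   Spec.mk (nat_lit 18048) (nat_lit 0) [nat_lit 31170, nat_lit 16590, nat_lit 18534, nat_lit 17886, nat_lit 18102, nat_lit 18030, nat_lit 18042, nat_lit 18054, nat_lit 18046] (nat_lit 3) [] false,
   Spec.mk (nat_lit 18054) (nat_lit 0) [nat_lit 31176, nat_lit 16596, nat_lit 18540, nat_lit 17892, nat_lit 18108, nat_lit 18048] (nat_lit 2) [] false,
   Spec.mk (nat_lit 18068) (nat_lit 0) [nat_lit 31190, nat_lit 16610, nat_lit 18554, nat_lit 17906, nat_lit 18014, nat_lit 18074, nat_lit 18070] (nat_lit 2) [nat_lit 37750] false,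
   Spec.mk (nat_lit 18070) (nat_lit 0) [nat_lit 31192, nat_lit 16612, nat_lit 18556, nat_lit 17908, nat_lit 18016, nat_lit 18076, nat_lit 18068] (nat_lit 2) [nat_lit 37752] false,
   Spec.mk (nat_lit 18074) (nat_lit 0) [nat_lit 31196, nat_lit 16616, nat_lit 18560, nat_lit 17912, nat_lit 18020, nat_lit 18092, nat_lit 18068, nat_lit 18076] (nat_lit 4) [nat_lit 37756] false,
   Spec.mk (nat_lit 18076) (nat_lit 0) [nat_lit 31198, nat_lit 16618, nat_lit 18562, nat_lit 17914, nat_lit 18022, nat_lit 18094, nat_lit 18070, nat_lit 18082, nat_lit 18074, nat_lit 18078] (nat_lit 2) [nat_lit 37758] false,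
   Spec.mk (nat_lit 18078) (nat_lit 0) [nat_lit 31200, nat_lit 16620, nat_lit 18564, nat_lit 17916, nat_lit 18024, nat_lit 18096, nat_lit 18084, nat_lit 18076] (nat_lit 2) [] false,
   Spec.mk (nat_lit 18082) (nat_lit 0) [nat_lit 31204, nat_lit 16624, nat_lit 18568, nat_lit 17920, nat_lit 18028, nat_lit 18100, nat_lit 18076, nat_lit 18084] (nat_lit 4) [nat_lit 37764] false,
   Spec.mk (nat_lit 18084) (nat_lit 0) [nat_lit 31206, nat_lit 16626, nat_lit 18570, nat_lit 17922, nat_lit 18030, nat_lit 18102, nat_lit 18078, nat_lit 18082] (nat_lit 2) [] false,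
   Spec.mk (nat_lit 18092) (nat_lit 0) [nat_lit 31214, nat_lit 16634, nat_lit 18578, nat_lit 17930, nat_lit 18038, nat_lit 18146, nat_lit 18074, nat_lit 18094] (nat_lit 3) [nat_lit 37774] false,
   Spec.mk (nat_lit 18094) (nat_lit 0) [nat_lit 31216, nat_lit 16636, nat_lit 18580, nat_lit 17932, nat_lit 18040, nat_lit 18148, nat_lit 18076, nat_lit 18100, nat_lit 18092, nat_lit 18096] (nat_lit 2) [nat_lit 37776] false,
   Spec.mk (nat_lit 18096) (nat_lit 0) [nat_lit 31218, nat_lit 16638, nat_lit 18582, nat_lit 17934, nat_lit 18042, nat_lit 18150, nat_lit 18078, nat_lit 18102, nat_lit 18094] (nat_lit 3) [] false,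
   Spec.mk (nat_lit 18100) (nat_lit 0) [nat_lit 31222, nat_lit 16642, nat_lit 18586, nat_lit 17938, nat_lit 18046, nat_lit 18154, nat_lit 18082, nat_lit 18118, nat_lit 18094, nat_lit 18102] (nat_lit 2) [nat_lit 37782] false,
   Spec.mk (nat_lit 18102) (nat_lit 0) [nat_lit 31224, nat_lit 16644, nat_lit 18588, nat_lit 17940, nat_lit 18048, nat_lit 18156, nat_lit 18084, nat_lit 18120, nat_lit 18096, nat_lit 18108, nat_lit 18100] (nat_lit 1) [] false,
   Spec.mk (nat_lit 18108) (nat_lit 0) [nat_lit 31230, nat_lit 16650, nat_lit 18594, nat_lit 17946, nat_lit 18054, nat_lit 18162, nat_lit 18126, nat_lit 18102] (nat_lit 1) [] false,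
   Spec.mk (nat_lit 18118) (nat_lit 0) [nat_lit 31240, nat_lit 16660, nat_lit 18604, nat_lit 17956, nat_lit 18172, nat_lit 18100, nat_lit 18120] (nat_lit 2) [nat_lit 37800] false,
   Spec.mk (nat_lit 18120) (nat_lit 0) [nat_lit 31242, nat_lit 16662, nat_lit 18606, nat_lit 17958, nat_lit 18174, nat_lit 18102, nat_lit 18126, nat_lit 18118] (nat_lit 2) [] false,
   Spec.mk (nat_lit 18126) (nat_lit 0) [nat_lit 31248, nat_lit 16668, nat_lit 18612, nat_lit 17964, nat_lit 18180, nat_lit 18108, nat_lit 18120] (nat_lit 0) [] false,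
   Spec.mk (nat_lit 18146) (nat_lit 0) [nat_lit 31268, nat_lit 16688, nat_lit 18632, nat_lit 18092, nat_lit 18148] (nat_lit 2) [nat_lit 37828] false,
   Spec.mk (nat_lit 18148) (nat_lit 0) [nat_lit 31270, nat_lit 16690, nat_lit 18634, nat_lit 18094, nat_lit 18154, nat_lit 18146, nat_lit 18150] (nat_lit 1) [nat_lit 37830] false,
   Spec.mk (nat_lit 18150) (nat_lit 0) [nat_lit 31272, nat_lit 16692, nat_lit 18636, nat_lit 18096, nat_lit 18156, nat_lit 18148] (nat_lit 2) [] false,
   Spec.mk (nat_lit 18154) (nat_lit 0) [nat_lit 31276, nat_lit 16696, nat_lit 18640, nat_lit 18100, nat_lit 18172, nat_lit 18148, nat_lit 18156] (nat_lit 2) [nat_lit 37836] false,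
   Spec.mk (nat_lit 18156) (nat_lit 0) [nat_lit 31278, nat_lit 16698, nat_lit 18642, nat_lit 18102, nat_lit 18174, nat_lit 18150, nat_lit 18162, nat_lit 18154] (nat_lit 1) [] false,
   Spec.mk (nat_lit 18162) (nat_lit 0) [nat_lit 31284, nat_lit 16704, nat_lit 18648, nat_lit 18108, nat_lit 18180, nat_lit 18156] (nat_lit 2) [] false,
   Spec.mk (nat_lit 18172) (nat_lit 0) [nat_lit 31294, nat_lit 16714, nat_lit 18658, nat_lit 18118, nat_lit 18154, nat_lit 18174] (nat_lit 0) [nat_lit 37854] false,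
   Spec.mk (nat_lit 18174) (nat_lit 0) [nat_lit 31296, nat_lit 16716, nat_lit 18660, nat_lit 18120, nat_lit 18156, nat_lit 18180, nat_lit 18172] (nat_lit 0) [] false,
   Spec.mk (nat_lit 18180) (nat_lit 1) [nat_lit 31302, nat_lit 16722, nat_lit 18666, nat_lit 18126, nat_lit 18162, nat_lit 18198, nat_lit 18174] (nat_lit 0) [] false,
   Spec.mk (nat_lit 18198) (nat_lit 2) [nat_lit 31320, nat_lit 16740, nat_lit 18684, nat_lit 18180] (nat_lit 0) [] false,
   Spec.mk (nat_lit 18242) (nat_lit 2) [nat_lit 31364, nat_lit 16784, nat_lit 17756, nat_lit 18260, nat_lit 18248] (nat_lit 0) [nat_lit 37924] false,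
   Spec.mk (nat_lit 18248) (nat_lit 0) [nat_lit 31370, nat_lit 16790, nat_lit 17762, nat_lit 18266, nat_lit 18242, nat_lit 18250] (nat_lit 0) [nat_lit 37930] false,
   Spec.mk (nat_lit 18250) (nat_lit 2) [nat_lit 31372, nat_lit 16792, nat_lit 17764, nat_lit 18268, nat_lit 18248] (nat_lit 0) [nat_lit 37932] false,
   Spec.mk (nat_lit 18260) (nat_lit 0) [nat_lit 31382, nat_lit 16802, nat_lit 17774, nat_lit 18314, nat_lit 18242, nat_lit 18266] (nat_lit 0) [nat_lit 37942] false,
   Spec.mk (nat_lit 18266) (nat_lit 0) [nat_lit 31388, nat_lit 16808, nat_lit 17780, nat_lit 18320, nat_lit 18248, nat_lit 18284, nat_lit 18260, nat_lit 18272, nat_lit 18268] (nat_lit 0) [nat_lit 37948] false,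
   Spec.mk (nat_lit 18268) (nat_lit 1) [nat_lit 31390, nat_lit 16810, nat_lit 17782, nat_lit 18322, nat_lit 18250, nat_lit 18286, nat_lit 18274, nat_lit 18266] (nat_lit 0) [nat_lit 37950] false,
   Spec.mk (nat_lit 18272) (nat_lit 0) [nat_lit 31394, nat_lit 16814, nat_lit 17786, nat_lit 18326, nat_lit 18290, nat_lit 18266, nat_lit 18274] (nat_lit 2) [nat_lit 37954] false,
   Spec.mk (nat_lit 18274) (nat_lit 1) [nat_lit 31396, nat_lit 16816, nat_lit 17788, nat_lit 18328, nat_lit 18292, nat_lit 18268, nat_lit 18272, nat_lit 18276] (nat_lit 0) [nat_lit 37956] false,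
   Spec.mk (nat_lit 18276) (nat_lit 2) [nat_lit 31398, nat_lit 16818, nat_lit 17790, nat_lit 18330, nat_lit 18294, nat_lit 18274] (nat_lit 0) [] false]

noncomputable def sp45 : List Spec :=
  [Spec.mk (nat_lit 18284) (nat_lit 0) [nat_lit 31406, nat_lit 16826, nat_lit 17798, nat_lit 18338, nat_lit 18266, nat_lit 18290, nat_lit 18286] (nat_lit 2) [nat_lit 37966] false,
   Spec.mk (nat_lit 18286) (nat_lit 0) [nat_lit 31408, nat_lit 16828, nat_lit 17800, nat_lit 18340, nat_lit 18268, nat_lit 18292, nat_lit 18284] (nat_lit 2) [nat_lit 37968] false,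
   Spec.mk (nat_lit 18290) (nat_lit 0) [nat_lit 31412, nat_lit 16832, nat_lit 17804, nat_lit 18344, nat_lit 18272, nat_lit 18284, nat_lit 18292] (nat_lit 2) [nat_lit 37972] false,
   Spec.mk (nat_lit 18292) (nat_lit 0) [nat_lit 31414, nat_lit 16834, nat_lit 17806, nat_lit 18346, nat_lit 18274, nat_lit 18286, nat_lit 18298, nat_lit 18290, nat_lit 18294] (nat_lit 0) [nat_lit 37974] false,
   Spec.mk (nat_lit 18294) (nat_lit 0) [nat_lit 31416, nat_lit 16836, nat_lit 17808, nat_lit 18348, nat_lit 18276, nat_lit 18300, nat_lit 18292] (nat_lit 0) [] false,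
   Spec.mk (nat_lit 18298) (nat_lit 0) [nat_lit 31420, nat_lit 16840, nat_lit 17812, nat_lit 18352, nat_lit 18292, nat_lit 18300] (nat_lit 0) [nat_lit 37980] false,
   Spec.mk (nat_lit 18300) (nat_lit 2) [nat_lit 31422, nat_lit 16842, nat_lit 17814, nat_lit 18354, nat_lit 18294, nat_lit 18298] (nat_lit 0) [] false,
   Spec.mk (nat_lit 18314) (nat_lit 0) [nat_lit 31436, nat_lit 16856, nat_lit 17828, nat_lit 18476, nat_lit 18260, nat_lit 18320] (nat_lit 0) [nat_lit 37996] false,
   Spec.mk (nat_lit 18320) (nat_lit 0) [nat_lit 31442, nat_lit 16862, nat_lit 17834, nat_lit 18482, nat_lit 18266, nat_lit 18338, nat_lit 18314, nat_lit 18326, nat_lit 18322] (nat_lit 1) [nat_lit 38002] false,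
   Spec.mk (nat_lit 18322) (nat_lit 0) [nat_lit 31444, nat_lit 16864, nat_lit 17836, nat_lit 18484, nat_lit 18268, nat_lit 18340, nat_lit 18328, nat_lit 18320] (nat_lit 0) [nat_lit 38004] false,
   Spec.mk (nat_lit 18326) (nat_lit 0) [nat_lit 31448, nat_lit 16868, nat_lit 17840, nat_lit 18488, nat_lit 18272, nat_lit 18344, nat_lit 18320, nat_lit 18328] (nat_lit 4) [nat_lit 38008] false,
   Spec.mk (nat_lit 18328) (nat_lit 0) [nat_lit 31450, nat_lit 16870, nat_lit 17842, nat_lit 18490, nat_lit 18274, nat_lit 18346, nat_lit 18322, nat_lit 18326, nat_lit 18330] (nat_lit 1) [nat_lit 38010] false,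
   Spec.mk (nat_lit 18330) (nat_lit 0) [nat_lit 31452, nat_lit 16872, nat_lit 17844, nat_lit 18492, nat_lit 18276, nat_lit 18348, nat_lit 18328] (nat_lit 0) [] false,
   Spec.mk (nat_lit 18338) (nat_lit 0) [nat_lit 31460, nat_lit 16880, nat_lit 17852, nat_lit 18500, nat_lit 18284, nat_lit 18392, nat_lit 18320, nat_lit 18344, nat_lit 18340] (nat_lit 1) [nat_lit 38020] false,
   Spec.mk (nat_lit 18340) (nat_lit 0) [nat_lit 31462, nat_lit 16882, nat_lit 17854, nat_lit 18502, nat_lit 18286, nat_lit 18394, nat_lit 18322, nat_lit 18346, nat_lit 18338] (nat_lit 1) [nat_lit 38022] false,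
   Spec.mk (nat_lit 18344) (nat_lit 0) [nat_lit 31466, nat_lit 16886, nat_lit 17858, nat_lit 18506, nat_lit 18290, nat_lit 18398, nat_lit 18326, nat_lit 18362, nat_lit 18338, nat_lit 18346] (nat_lit 2) [nat_lit 38026] false,
   Spec.mk (nat_lit 18346) (nat_lit 0) [nat_lit 31468, nat_lit 16888, nat_lit 17860, nat_lit 18508, nat_lit 18292, nat_lit 18400, nat_lit 18328, nat_lit 18364, nat_lit 18340, nat_lit 18352, nat_lit 18344, nat_lit 18348] (nat_lit 0) [nat_lit 38028] false,
   Spec.mk (nat_lit 18348) (nat_lit 0) [nat_lit 31470, nat_lit 16890, nat_lit 17862, nat_lit 18510, nat_lit 18294, nat_lit 18402, nat_lit 18330, nat_lit 18366, nat_lit 18354, nat_lit 18346] (nat_lit 0) [] false,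
   Spec.mk (nat_lit 18352) (nat_lit 0) [nat_lit 31474, nat_lit 16894, nat_lit 17866, nat_lit 18514, nat_lit 18298, nat_lit 18406, nat_lit 18370, nat_lit 18346, nat_lit 18354] (nat_lit 1) [nat_lit 38034] false,
   Spec.mk (nat_lit 18354) (nat_lit 1) [nat_lit 31476, nat_lit 16896, nat_lit 17868, nat_lit 18516, nat_lit 18300, nat_lit 18408, nat_lit 18372, nat_lit 18348, nat_lit 18352] (nat_lit 0) [] false,
   Spec.mk (nat_lit 18362) (nat_lit 0) [nat_lit 31484, nat_lit 16904, nat_lit 17876, nat_lit 18524, nat_lit 18416, nat_lit 18344, nat_lit 18364] (nat_lit 2) [nat_lit 38044] false,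
   Spec.mk (nat_lit 18364) (nat_lit 0) [nat_lit 31486, nat_lit 16906, nat_lit 17878, nat_lit 18526, nat_lit 18418, nat_lit 18346, nat_lit 18370, nat_lit 18362, nat_lit 18366] (nat_lit 1) [nat_lit 38046] false,
   Spec.mk (nat_lit 18366) (nat_lit 0) [nat_lit 31488, nat_lit 16908, nat_lit 17880, nat_lit 18528, nat_lit 18420, nat_lit 18348, nat_lit 18372, nat_lit 18364] (nat_lit 2) [] false,
   Spec.mk (nat_lit 18370) (nat_lit 0) [nat_lit 31492, nat_lit 16912, nat_lit 17884, nat_lit 18532, nat_lit 18424, nat_lit 18352, nat_lit 18364, nat_lit 18372] (nat_lit 0) [nat_lit 38052] false,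
   Spec.mk (nat_lit 18372) (nat_lit 1) [nat_lit 31494, nat_lit 16914, nat_lit 17886, nat_lit 18534, nat_lit 18426, nat_lit 18354, nat_lit 18366, nat_lit 18378, nat_lit 18370] (nat_lit 0) [] false,
   Spec.mk (nat_lit 18378) (nat_lit 2) [nat_lit 31500, nat_lit 16920, nat_lit 17892, nat_lit 18540, nat_lit 18432, nat_lit 18372] (nat_lit 0) [] false,
   Spec.mk (nat_lit 18392) (nat_lit 0) [nat_lit 31514, nat_lit 16934, nat_lit 17906, nat_lit 18554, nat_lit 18338, nat_lit 18398, nat_lit 18394] (nat_lit 2) [nat_lit 38074] false,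
   Spec.mk (nat_lit 18394) (nat_lit 0) [nat_lit 31516, nat_lit 16936, nat_lit 17908, nat_lit 18556, nat_lit 18340, nat_lit 18400, nat_lit 18392] (nat_lit 2) [nat_lit 38076] false,
   Spec.mk (nat_lit 18398) (nat_lit 0) [nat_lit 31520, nat_lit 16940, nat_lit 17912, nat_lit 18560, nat_lit 18344, nat_lit 18416, nat_lit 18392, nat_lit 18400] (nat_lit 4) [nat_lit 38080] false,
   Spec.mk (nat_lit 18400) (nat_lit 0) [nat_lit 31522, nat_lit 16942, nat_lit 17914, nat_lit 18562, nat_lit 18346, nat_lit 18418, nat_lit 18394, nat_lit 18406, nat_lit 18398, nat_lit 18402] (nat_lit 2) [nat_lit 38082] false,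
   Spec.mk (nat_lit 18402) (nat_lit 0) [nat_lit 31524, nat_lit 16944, nat_lit 17916, nat_lit 18564, nat_lit 18348, nat_lit 18420, nat_lit 18408, nat_lit 18400] (nat_lit 2) [] false,
   Spec.mk (nat_lit 18406) (nat_lit 0) [nat_lit 31528, nat_lit 16948, nat_lit 17920, nat_lit 18568, nat_lit 18352, nat_lit 18424, nat_lit 18400, nat_lit 18408] (nat_lit 4) [nat_lit 38088] false,
   Spec.mk (nat_lit 18408) (nat_lit 0) [nat_lit 31530, nat_lit 16950, nat_lit 17922, nat_lit 18570, nat_lit 18354, nat_lit 18426, nat_lit 18402, nat_lit 18406] (nat_lit 2) [] false,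
   Spec.mk (nat_lit 18416) (nat_lit 0) [nat_lit 31538, nat_lit 16958, nat_lit 17930, nat_lit 18578, nat_lit 18362, nat_lit 18398, nat_lit 18418] (nat_lit 2) [nat_lit 38098] false,
   Spec.mk (nat_lit 18418) (nat_lit 0) [nat_lit 31540, nat_lit 16960, nat_lit 17932, nat_lit 18580, nat_lit 18364, nat_lit 18400, nat_lit 18424, nat_lit 18416, nat_lit 18420] (nat_lit 1) [nat_lit 38100] false,
   Spec.mk (nat_lit 18420) (nat_lit 0) [nat_lit 31542, nat_lit 16962, nat_lit 17934, nat_lit 18582, nat_lit 18366, nat_lit 18402, nat_lit 18426, nat_lit 18418] (nat_lit 2) [] false,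
   Spec.mk (nat_lit 18424) (nat_lit 0) [nat_lit 31546, nat_lit 16966, nat_lit 17938, nat_lit 18586, nat_lit 18370, nat_lit 18406, nat_lit 18442, nat_lit 18418, nat_lit 18426] (nat_lit 1) [nat_lit 38106] false,
   Spec.mk (nat_lit 18426) (nat_lit 0) [nat_lit 31548, nat_lit 16968, nat_lit 17940, nat_lit 18588, nat_lit 18372, nat_lit 18408, nat_lit 18444, nat_lit 18420, nat_lit 18432, nat_lit 18424] (nat_lit 0) [] false,
   Spec.mk (nat_lit 18432) (nat_lit 0) [nat_lit 31554, nat_lit 16974, nat_lit 17946, nat_lit 18594, nat_lit 18378, nat_lit 18450, nat_lit 18426] (nat_lit 0) [] false,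
   Spec.mk (nat_lit 18442) (nat_lit 0) [nat_lit 31564, nat_lit 16984, nat_lit 17956, nat_lit 18604, nat_lit 18424, nat_lit 18444] (nat_lit 0) [nat_lit 38124] false,
   Spec.mk (nat_lit 18444) (nat_lit 0) [nat_lit 31566, nat_lit 16986, nat_lit 17958, nat_lit 18606, nat_lit 18426, nat_lit 18450, nat_lit 18442] (nat_lit 0) [] false,
   Spec.mk (nat_lit 18450) (nat_lit 2) [nat_lit 31572, nat_lit 16992, nat_lit 17964, nat_lit 18612, nat_lit 18432, nat_lit 18444] (nat_lit 0) [] false,
   Spec.mk (nat_lit 18476) (nat_lit 1) [nat_lit 31598, nat_lit 17018, nat_lit 17990, nat_lit 18962, nat_lit 18314, nat_lit 18482] (nat_lit 0) [nat_lit 38158] false,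
   Spec.mk (nat_lit 18482) (nat_lit 0) [nat_lit 31604, nat_lit 17024, nat_lit 17996, nat_lit 18968, nat_lit 18320, nat_lit 18500, nat_lit 18476, nat_lit 18488, nat_lit 18484] (nat_lit 0) [nat_lit 38164] false,
   Spec.mk (nat_lit 18484) (nat_lit 1) [nat_lit 31606, nat_lit 17026, nat_lit 17998, nat_lit 18970, nat_lit 18322, nat_lit 18502, nat_lit 18490, nat_lit 18482] (nat_lit 0) [nat_lit 38166] false,
   Spec.mk (nat_lit 18488) (nat_lit 0) [nat_lit 31610, nat_lit 17030, nat_lit 18002, nat_lit 18974, nat_lit 18326, nat_lit 18506, nat_lit 18482, nat_lit 18490] (nat_lit 3) [nat_lit 38170] false,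
   Spec.mk (nat_lit 18490) (nat_lit 0) [nat_lit 31612, nat_lit 17032, nat_lit 18004, nat_lit 18976, nat_lit 18328, nat_lit 18508, nat_lit 18484, nat_lit 18488, nat_lit 18492] (nat_lit 0) [nat_lit 38172] false,
   Spec.mk (nat_lit 18492) (nat_lit 1) [nat_lit 31614, nat_lit 17034, nat_lit 18006, nat_lit 18978, nat_lit 18330, nat_lit 18510, nat_lit 18490] (nat_lit 0) [] false,
   Spec.mk (nat_lit 18500) (nat_lit 0) [nat_lit 31622, nat_lit 17042, nat_lit 18014, nat_lit 18986, nat_lit 18338, nat_lit 18554, nat_lit 18482, nat_lit 18506, nat_lit 18502] (nat_lit 1) [nat_lit 38182] false,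
   Spec.mk (nat_lit 18502) (nat_lit 0) [nat_lit 31624, nat_lit 17044, nat_lit 18016, nat_lit 18988, nat_lit 18340, nat_lit 18556, nat_lit 18484, nat_lit 18508, nat_lit 18500] (nat_lit 1) [nat_lit 38184] false,
   Spec.mk (nat_lit 18506) (nat_lit 0) [nat_lit 31628, nat_lit 17048, nat_lit 18020, nat_lit 18992, nat_lit 18344, nat_lit 18560, nat_lit 18488, nat_lit 18524, nat_lit 18500, nat_lit 18508] (nat_lit 2) [nat_lit 38188] false,
   Spec.mk (nat_lit 18508) (nat_lit 0) [nat_lit 31630, nat_lit 17050, nat_lit 18022, nat_lit 18994, nat_lit 18346, nat_lit 18562, nat_lit 18490, nat_lit 18526, nat_lit 18502, nat_lit 18514, nat_lit 18506, nat_lit 18510] (nat_lit 0) [nat_lit 38190] false,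
   Spec.mk (nat_lit 18510) (nat_lit 0) [nat_lit 31632, nat_lit 17052, nat_lit 18024, nat_lit 18996, nat_lit 18348, nat_lit 18564, nat_lit 18492, nat_lit 18528, nat_lit 18516, nat_lit 18508] (nat_lit 0) [] false,
   Spec.mk (nat_lit 18514) (nat_lit 0) [nat_lit 31636, nat_lit 17056, nat_lit 18028, nat_lit 19000, nat_lit 18352, nat_lit 18568, nat_lit 18532, nat_lit 18508, nat_lit 18516] (nat_lit 1) [nat_lit 38196] false,
   Spec.mk (nat_lit 18516) (nat_lit 1) [nat_lit 31638, nat_lit 17058, nat_lit 18030, nat_lit 19002, nat_lit 18354, nat_lit 18570, nat_lit 18534, nat_lit 18510, nat_lit 18514] (nat_lit 0) [] false,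
   Spec.mk (nat_lit 18524) (nat_lit 0) [nat_lit 31646, nat_lit 17066, nat_lit 18038, nat_lit 19010, nat_lit 18362, nat_lit 18578, nat_lit 18506, nat_lit 18526] (nat_lit 3) [nat_lit 38206] false,
   Spec.mk (nat_lit 18526) (nat_lit 0) [nat_lit 31648, nat_lit 17068, nat_lit 18040, nat_lit 19012, nat_lit 18364, nat_lit 18580, nat_lit 18508, nat_lit 18532, nat_lit 18524, nat_lit 18528] (nat_lit 2) [nat_lit 38208] false,
   Spec.mk (nat_lit 18528) (nat_lit 0) [nat_lit 31650, nat_lit 17070, nat_lit 18042, nat_lit 19014, nat_lit 18366, nat_lit 18582, nat_lit 18510, nat_lit 18534, nat_lit 18526] (nat_lit 3) [] false,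
   Spec.mk (nat_lit 18532) (nat_lit 0) [nat_lit 31654, nat_lit 17074, nat_lit 18046, nat_lit 19018, nat_lit 18370, nat_lit 18586, nat_lit 18514, nat_lit 18526, nat_lit 18534] (nat_lit 1) [nat_lit 38214] false,
   Spec.mk (nat_lit 18534) (nat_lit 0) [nat_lit 31656, nat_lit 17076, nat_lit 18048, nat_lit 19020, nat_lit 18372, nat_lit 18588, nat_lit 18516, nat_lit 18528, nat_lit 18540, nat_lit 18532] (nat_lit 0) [] false]

noncomputable def sp46 : List Spec :=
  [Spec.mk (nat_lit 18540) (nat_lit 1) [nat_lit 31662, nat_lit 17082, nat_lit 18054, nat_lit 19026, nat_lit 18378, nat_lit 18594, nat_lit 18534] (nat_lit 0) [] false,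
   Spec.mk (nat_lit 18554) (nat_lit 0) [nat_lit 31676, nat_lit 17096, nat_lit 18068, nat_lit 19040, nat_lit 18392, nat_lit 18716, nat_lit 18500, nat_lit 18560, nat_lit 18556] (nat_lit 0) [nat_lit 38236] false,
   Spec.mk (nat_lit 18556) (nat_lit 0) [nat_lit 31678, nat_lit 17098, nat_lit 18070, nat_lit 19042, nat_lit 18394, nat_lit 18718, nat_lit 18502, nat_lit 18562, nat_lit 18554] (nat_lit 0) [nat_lit 38238] false,
   Spec.mk (nat_lit 18560) (nat_lit 0) [nat_lit 31682, nat_lit 17102, nat_lit 18074, nat_lit 19046, nat_lit 18398, nat_lit 18722, nat_lit 18506, nat_lit 18578, nat_lit 18554, nat_lit 18562] (nat_lit 2) [nat_lit 38242] false,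
   Spec.mk (nat_lit 18562) (nat_lit 0) [nat_lit 31684, nat_lit 17104, nat_lit 18076, nat_lit 19048, nat_lit 18400, nat_lit 18724, nat_lit 18508, nat_lit 18580, nat_lit 18556, nat_lit 18568, nat_lit 18560, nat_lit 18564] (nat_lit 0) [nat_lit 38244] false,
   Spec.mk (nat_lit 18564) (nat_lit 0) [nat_lit 31686, nat_lit 17106, nat_lit 18078, nat_lit 19050, nat_lit 18402, nat_lit 18726, nat_lit 18510, nat_lit 18582, nat_lit 18570, nat_lit 18562] (nat_lit 0) [] false,
   Spec.mk (nat_lit 18568) (nat_lit 0) [nat_lit 31690, nat_lit 17110, nat_lit 18082, nat_lit 19054, nat_lit 18406, nat_lit 18730, nat_lit 18514, nat_lit 18586, nat_lit 18562, nat_lit 18570] (nat_lit 2) [nat_lit 38250] false,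
   Spec.mk (nat_lit 18570) (nat_lit 0) [nat_lit 31692, nat_lit 17112, nat_lit 18084, nat_lit 19056, nat_lit 18408, nat_lit 18732, nat_lit 18516, nat_lit 18588, nat_lit 18564, nat_lit 18568] (nat_lit 0) [] false,
   Spec.mk (nat_lit 18578) (nat_lit 0) [nat_lit 31700, nat_lit 17120, nat_lit 18092, nat_lit 19064, nat_lit 18416, nat_lit 18740, nat_lit 18524, nat_lit 18632, nat_lit 18560, nat_lit 18580] (nat_lit 1) [nat_lit 38260] false,
   Spec.mk (nat_lit 18580) (nat_lit 0) [nat_lit 31702, nat_lit 17122, nat_lit 18094, nat_lit 19066, nat_lit 18418, nat_lit 18742, nat_lit 18526, nat_lit 18634, nat_lit 18562, nat_lit 18586, nat_lit 18578, nat_lit 18582] (nat_lit 0) [nat_lit 38262] false,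
   Spec.mk (nat_lit 18582) (nat_lit 0) [nat_lit 31704, nat_lit 17124, nat_lit 18096, nat_lit 19068, nat_lit 18420, nat_lit 18744, nat_lit 18528, nat_lit 18636, nat_lit 18564, nat_lit 18588, nat_lit 18580] (nat_lit 1) [] false,
   Spec.mk (nat_lit 18586) (nat_lit 0) [nat_lit 31708, nat_lit 17128, nat_lit 18100, nat_lit 19072, nat_lit 18424, nat_lit 18748, nat_lit 18532, nat_lit 18640, nat_lit 18568, nat_lit 18604, nat_lit 18580, nat_lit 18588] (nat_lit 0) [nat_lit 38268] false,
   Spec.mk (nat_lit 18588) (nat_lit 1) [nat_lit 31710, nat_lit 17130, nat_lit 18102, nat_lit 19074, nat_lit 18426, nat_lit 18750, nat_lit 18534, nat_lit 18642, nat_lit 18570, nat_lit 18606, nat_lit 18582, nat_lit 18594, nat_lit 18586] (nat_lit 0) [] false,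
   Spec.mk (nat_lit 18594) (nat_lit 1) [nat_lit 31716, nat_lit 17136, nat_lit 18108, nat_lit 19080, nat_lit 18432, nat_lit 18756, nat_lit 18540, nat_lit 18648, nat_lit 18612, nat_lit 18588] (nat_lit 0) [] false,
   Spec.mk (nat_lit 18604) (nat_lit 0) [nat_lit 31726, nat_lit 17146, nat_lit 18118, nat_lit 19090, nat_lit 18442, nat_lit 18766, nat_lit 18658, nat_lit 18586, nat_lit 18606] (nat_lit 0) [nat_lit 38286] false,
   Spec.mk (nat_lit 18606) (nat_lit 0) [nat_lit 31728, nat_lit 17148, nat_lit 18120, nat_lit 19092, nat_lit 18444, nat_lit 18768, nat_lit 18660, nat_lit 18588, nat_lit 18612, nat_lit 18604] (nat_lit 0) [] false,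
   Spec.mk (nat_lit 18612) (nat_lit 2) [nat_lit 31734, nat_lit 17154, nat_lit 18126, nat_lit 19098, nat_lit 18450, nat_lit 18774, nat_lit 18666, nat_lit 18594, nat_lit 18606] (nat_lit 0) [] false,
   Spec.mk (nat_lit 18632) (nat_lit 0) [nat_lit 31754, nat_lit 17174, nat_lit 18146, nat_lit 19118, nat_lit 18794, nat_lit 18578, nat_lit 18634] (nat_lit 1) [nat_lit 38314] false,
   Spec.mk (nat_lit 18634) (nat_lit 0) [nat_lit 31756, nat_lit 17176, nat_lit 18148, nat_lit 19120, nat_lit 18796, nat_lit 18580, nat_lit 18640, nat_lit 18632, nat_lit 18636] (nat_lit 0) [nat_lit 38316] false,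
   Spec.mk (nat_lit 18636) (nat_lit 0) [nat_lit 31758, nat_lit 17178, nat_lit 18150, nat_lit 19122, nat_lit 18798, nat_lit 18582, nat_lit 18642, nat_lit 18634] (nat_lit 1) [] false,
   Spec.mk (nat_lit 18640) (nat_lit 0) [nat_lit 31762, nat_lit 17182, nat_lit 18154, nat_lit 19126, nat_lit 18802, nat_lit 18586, nat_lit 18658, nat_lit 18634, nat_lit 18642] (nat_lit 1) [nat_lit 38322] false,
   Spec.mk (nat_lit 18642) (nat_lit 0) [nat_lit 31764, nat_lit 17184, nat_lit 18156, nat_lit 19128, nat_lit 18804, nat_lit 18588, nat_lit 18660, nat_lit 18636, nat_lit 18648, nat_lit 18640] (nat_lit 0) [] false,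
   Spec.mk (nat_lit 18648) (nat_lit 0) [nat_lit 31770, nat_lit 17190, nat_lit 18162, nat_lit 19134, nat_lit 18810, nat_lit 18594, nat_lit 18666, nat_lit 18642] (nat_lit 1) [] false,
   Spec.mk (nat_lit 18658) (nat_lit 1) [nat_lit 31780, nat_lit 17200, nat_lit 18172, nat_lit 19144, nat_lit 18820, nat_lit 18604, nat_lit 18640, nat_lit 18660] (nat_lit 0) [nat_lit 38340] false,
   Spec.mk (nat_lit 18660) (nat_lit 1) [nat_lit 31782, nat_lit 17202, nat_lit 18174, nat_lit 19146, nat_lit 18822, nat_lit 18606, nat_lit 18642, nat_lit 18666, nat_lit 18658] (nat_lit 0) [] false,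
   Spec.mk (nat_lit 18666) (nat_lit 2) [nat_lit 31788, nat_lit 17208, nat_lit 18180, nat_lit 19152, nat_lit 18828, nat_lit 18612, nat_lit 18648, nat_lit 18684, nat_lit 18660] (nat_lit 0) [] false,
   Spec.mk (nat_lit 18684) (nat_lit 3) [nat_lit 31806, nat_lit 17226, nat_lit 18198, nat_lit 19170, nat_lit 18846, nat_lit 18666] (nat_lit 0) [] false,
   Spec.mk (nat_lit 18716) (nat_lit 0) [nat_lit 31838, nat_lit 17258, nat_lit 19202, nat_lit 18554, nat_lit 18722, nat_lit 18718] (nat_lit 0) [nat_lit 38398] false,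
   Spec.mk (nat_lit 18718) (nat_lit 0) [nat_lit 31840, nat_lit 17260, nat_lit 19204, nat_lit 18556, nat_lit 18724, nat_lit 18716] (nat_lit 0) [nat_lit 38400] false,
   Spec.mk (nat_lit 18722) (nat_lit 0) [nat_lit 31844, nat_lit 17264, nat_lit 19208, nat_lit 18560, nat_lit 18740, nat_lit 18716, nat_lit 18724] (nat_lit 2) [nat_lit 38404] false,
   Spec.mk (nat_lit 18724) (nat_lit 0) [nat_lit 31846, nat_lit 17266, nat_lit 19210, nat_lit 18562, nat_lit 18742, nat_lit 18718, nat_lit 18730, nat_lit 18722, nat_lit 18726] (nat_lit 0) [nat_lit 38406] false,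
   Spec.mk (nat_lit 18726) (nat_lit 0) [nat_lit 31848, nat_lit 17268, nat_lit 19212, nat_lit 18564, nat_lit 18744, nat_lit 18732, nat_lit 18724] (nat_lit 0) [] false,
   Spec.mk (nat_lit 18730) (nat_lit 0) [nat_lit 31852, nat_lit 17272, nat_lit 19216, nat_lit 18568, nat_lit 18748, nat_lit 18724, nat_lit 18732] (nat_lit 2) [nat_lit 38412] false,
   Spec.mk (nat_lit 18732) (nat_lit 0) [nat_lit 31854, nat_lit 17274, nat_lit 19218, nat_lit 18570, nat_lit 18750, nat_lit 18726, nat_lit 18730] (nat_lit 0) [] false,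
   Spec.mk (nat_lit 18740) (nat_lit 0) [nat_lit 31862, nat_lit 17282, nat_lit 19226, nat_lit 18578, nat_lit 18794, nat_lit 18722, nat_lit 18742] (nat_lit 2) [nat_lit 38422] false,
   Spec.mk (nat_lit 18742) (nat_lit 0) [nat_lit 31864, nat_lit 17284, nat_lit 19228, nat_lit 18580, nat_lit 18796, nat_lit 18724, nat_lit 18748, nat_lit 18740, nat_lit 18744] (nat_lit 1) [nat_lit 38424] false,
   Spec.mk (nat_lit 18744) (nat_lit 0) [nat_lit 31866, nat_lit 17286, nat_lit 19230, nat_lit 18582, nat_lit 18798, nat_lit 18726, nat_lit 18750, nat_lit 18742] (nat_lit 2) [] false,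
   Spec.mk (nat_lit 18748) (nat_lit 0) [nat_lit 31870, nat_lit 17290, nat_lit 19234, nat_lit 18586, nat_lit 18802, nat_lit 18730, nat_lit 18766, nat_lit 18742, nat_lit 18750] (nat_lit 1) [nat_lit 38430] false,
   Spec.mk (nat_lit 18750) (nat_lit 0) [nat_lit 31872, nat_lit 17292, nat_lit 19236, nat_lit 18588, nat_lit 18804, nat_lit 18732, nat_lit 18768, nat_lit 18744, nat_lit 18756, nat_lit 18748] (nat_lit 0) [] false,
   Spec.mk (nat_lit 18756) (nat_lit 0) [nat_lit 31878, nat_lit 17298, nat_lit 19242, nat_lit 18594, nat_lit 18810, nat_lit 18774, nat_lit 18750] (nat_lit 0) [] false,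
   Spec.mk (nat_lit 18766) (nat_lit 0) [nat_lit 31888, nat_lit 17308, nat_lit 19252, nat_lit 18604, nat_lit 18820, nat_lit 18748, nat_lit 18768] (nat_lit 2) [nat_lit 38448] false,
   Spec.mk (nat_lit 18768) (nat_lit 0) [nat_lit 31890, nat_lit 17310, nat_lit 19254, nat_lit 18606, nat_lit 18822, nat_lit 18750, nat_lit 18774, nat_lit 18766] (nat_lit 2) [] false,
   Spec.mk (nat_lit 18774) (nat_lit 0) [nat_lit 31896, nat_lit 17316, nat_lit 19260, nat_lit 18612, nat_lit 18828, nat_lit 18756, nat_lit 18768] (nat_lit 0) [] false,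
   Spec.mk (nat_lit 18794) (nat_lit 0) [nat_lit 31916, nat_lit 17336, nat_lit 19280, nat_lit 18632, nat_lit 18740, nat_lit 18796] (nat_lit 0) [nat_lit 38476] false,
   Spec.mk (nat_lit 18796) (nat_lit 1) [nat_lit 31918, nat_lit 17338, nat_lit 19282, nat_lit 18634, nat_lit 18742, nat_lit 18802, nat_lit 18794, nat_lit 18798] (nat_lit 0) [nat_lit 38478] false,
   Spec.mk (nat_lit 18798) (nat_lit 0) [nat_lit 31920, nat_lit 17340, nat_lit 19284, nat_lit 18636, nat_lit 18744, nat_lit 18804, nat_lit 18796] (nat_lit 0) [] false,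
   Spec.mk (nat_lit 18802) (nat_lit 0) [nat_lit 31924, nat_lit 17344, nat_lit 19288, nat_lit 18640, nat_lit 18748, nat_lit 18820, nat_lit 18796, nat_lit 18804] (nat_lit 0) [nat_lit 38484] false,
   Spec.mk (nat_lit 18804) (nat_lit 1) [nat_lit 31926, nat_lit 17346, nat_lit 19290, nat_lit 18642, nat_lit 18750, nat_lit 18822, nat_lit 18798, nat_lit 18810, nat_lit 18802] (nat_lit 0) [] false,
   Spec.mk (nat_lit 18810) (nat_lit 0) [nat_lit 31932, nat_lit 17352, nat_lit 19296, nat_lit 18648, nat_lit 18756, nat_lit 18828, nat_lit 18804] (nat_lit 0) [] false,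
   Spec.mk (nat_lit 18820) (nat_lit 1) [nat_lit 31942, nat_lit 17362, nat_lit 19306, nat_lit 18658, nat_lit 18766, nat_lit 18874, nat_lit 18802, nat_lit 18822] (nat_lit 0) [nat_lit 38502] false,
   Spec.mk (nat_lit 18822) (nat_lit 1) [nat_lit 31944, nat_lit 17364, nat_lit 19308, nat_lit 18660, nat_lit 18768, nat_lit 18876, nat_lit 18804, nat_lit 18828, nat_lit 18820] (nat_lit 0) [] false,
   Spec.mk (nat_lit 18828) (nat_lit 2) [nat_lit 31950, nat_lit 17370, nat_lit 19314, nat_lit 18666, nat_lit 18774, nat_lit 18882, nat_lit 18810, nat_lit 18846, nat_lit 18822] (nat_lit 0) [] false,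
   Spec.mk (nat_lit 18846) (nat_lit 2) [nat_lit 31968, nat_lit 17388, nat_lit 19332, nat_lit 18684, nat_lit 18900, nat_lit 18828] (nat_lit 0) [] false,
   Spec.mk (nat_lit 18874) (nat_lit 2) [nat_lit 31996, nat_lit 17416, nat_lit 19360, nat_lit 18820, nat_lit 18876] (nat_lit 0) [nat_lit 38556] false,
   Spec.mk (nat_lit 18876) (nat_lit 2) [nat_lit 31998, nat_lit 17418, nat_lit 19362, nat_lit 18822, nat_lit 18882, nat_lit 18874] (nat_lit 0) [] false,
   Spec.mk (nat_lit 18882) (nat_lit 2) [nat_lit 32004, nat_lit 17424, nat_lit 19368, nat_lit 18828, nat_lit 18900, nat_lit 18876] (nat_lit 0) [] false,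
   Spec.mk (nat_lit 18900) (nat_lit 4) [nat_lit 32022, nat_lit 17442, nat_lit 19386, nat_lit 18846, nat_lit 18882] (nat_lit 0) [] false,
   Spec.mk (nat_lit 18962) (nat_lit 2) [nat_lit 32084, nat_lit 18476, nat_lit 18968] (nat_lit 0) [nat_lit 38644] false,
   Spec.mk (nat_lit 18968) (nat_lit 1) [nat_lit 32090, nat_lit 18482, nat_lit 18986, nat_lit 18962, nat_lit 18974, nat_lit 18970] (nat_lit 0) [nat_lit 38650] false,
   Spec.mk (nat_lit 18970) (nat_lit 2) [nat_lit 32092, nat_lit 18484, nat_lit 18988, nat_lit 18976, nat_lit 18968] (nat_lit 0) [nat_lit 38652] false]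

noncomputable def sp47 : List Spec :=
  [Spec.mk (nat_lit 18974) (nat_lit 0) [nat_lit 32096, nat_lit 18488, nat_lit 18992, nat_lit 18968, nat_lit 18976] (nat_lit 2) [nat_lit 38656] false,
   Spec.mk (nat_lit 18976) (nat_lit 1) [nat_lit 32098, nat_lit 18490, nat_lit 18994, nat_lit 18970, nat_lit 18974, nat_lit 18978] (nat_lit 0) [nat_lit 38658] false,
   Spec.mk (nat_lit 18978) (nat_lit 2) [nat_lit 32100, nat_lit 18492, nat_lit 18996, nat_lit 18976] (nat_lit 0) [] false,
   Spec.mk (nat_lit 18986) (nat_lit 0) [nat_lit 32108, nat_lit 18500, nat_lit 19040, nat_lit 18968, nat_lit 18992, nat_lit 18988] (nat_lit 0) [nat_lit 38668] false,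
   Spec.mk (nat_lit 18988) (nat_lit 0) [nat_lit 32110, nat_lit 18502, nat_lit 19042, nat_lit 18970, nat_lit 18994, nat_lit 18986] (nat_lit 0) [nat_lit 38670] false,
   Spec.mk (nat_lit 18992) (nat_lit 0) [nat_lit 32114, nat_lit 18506, nat_lit 19046, nat_lit 18974, nat_lit 19010, nat_lit 18986, nat_lit 18994] (nat_lit 1) [nat_lit 38674] false,
   Spec.mk (nat_lit 18994) (nat_lit 1) [nat_lit 32116, nat_lit 18508, nat_lit 19048, nat_lit 18976, nat_lit 19012, nat_lit 18988, nat_lit 19000, nat_lit 18992, nat_lit 18996] (nat_lit 0) [nat_lit 38676] false,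
   Spec.mk (nat_lit 18996) (nat_lit 1) [nat_lit 32118, nat_lit 18510, nat_lit 19050, nat_lit 18978, nat_lit 19014, nat_lit 19002, nat_lit 18994] (nat_lit 0) [] false,
   Spec.mk (nat_lit 19000) (nat_lit 0) [nat_lit 32122, nat_lit 18514, nat_lit 19054, nat_lit 19018, nat_lit 18994, nat_lit 19002] (nat_lit 0) [nat_lit 38682] false,
   Spec.mk (nat_lit 19002) (nat_lit 2) [nat_lit 32124, nat_lit 18516, nat_lit 19056, nat_lit 19020, nat_lit 18996, nat_lit 19000] (nat_lit 0) [] false,
   Spec.mk (nat_lit 19010) (nat_lit 0) [nat_lit 32132, nat_lit 18524, nat_lit 19064, nat_lit 18992, nat_lit 19012] (nat_lit 2) [nat_lit 38692] false,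
   Spec.mk (nat_lit 19012) (nat_lit 0) [nat_lit 32134, nat_lit 18526, nat_lit 19066, nat_lit 18994, nat_lit 19018, nat_lit 19010, nat_lit 19014] (nat_lit 1) [nat_lit 38694] false,
   Spec.mk (nat_lit 19014) (nat_lit 0) [nat_lit 32136, nat_lit 18528, nat_lit 19068, nat_lit 18996, nat_lit 19020, nat_lit 19012] (nat_lit 2) [] false,
   Spec.mk (nat_lit 19018) (nat_lit 0) [nat_lit 32140, nat_lit 18532, nat_lit 19072, nat_lit 19000, nat_lit 19012, nat_lit 19020] (nat_lit 0) [nat_lit 38700] false,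
   Spec.mk (nat_lit 19020) (nat_lit 1) [nat_lit 32142, nat_lit 18534, nat_lit 19074, nat_lit 19002, nat_lit 19014, nat_lit 19026, nat_lit 19018] (nat_lit 0) [] false,
   Spec.mk (nat_lit 19026) (nat_lit 2) [nat_lit 32148, nat_lit 18540, nat_lit 19080, nat_lit 19020] (nat_lit 0) [] false,
   Spec.mk (nat_lit 19040) (nat_lit 0) [nat_lit 32162, nat_lit 18554, nat_lit 19202, nat_lit 18986, nat_lit 19046, nat_lit 19042] (nat_lit 0) [nat_lit 38722] false,
   Spec.mk (nat_lit 19042) (nat_lit 0) [nat_lit 32164, nat_lit 18556, nat_lit 19204, nat_lit 18988, nat_lit 19048, nat_lit 19040] (nat_lit 0) [nat_lit 38724] false,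
   Spec.mk (nat_lit 19046) (nat_lit 0) [nat_lit 32168, nat_lit 18560, nat_lit 19208, nat_lit 18992, nat_lit 19064, nat_lit 19040, nat_lit 19048] (nat_lit 2) [nat_lit 38728] false,
   Spec.mk (nat_lit 19048) (nat_lit 0) [nat_lit 32170, nat_lit 18562, nat_lit 19210, nat_lit 18994, nat_lit 19066, nat_lit 19042, nat_lit 19054, nat_lit 19046, nat_lit 19050] (nat_lit 0) [nat_lit 38730] false,
   Spec.mk (nat_lit 19050) (nat_lit 0) [nat_lit 32172, nat_lit 18564, nat_lit 19212, nat_lit 18996, nat_lit 19068, nat_lit 19056, nat_lit 19048] (nat_lit 0) [] false,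
   Spec.mk (nat_lit 19054) (nat_lit 0) [nat_lit 32176, nat_lit 18568, nat_lit 19216, nat_lit 19000, nat_lit 19072, nat_lit 19048, nat_lit 19056] (nat_lit 2) [nat_lit 38736] false,
   Spec.mk (nat_lit 19056) (nat_lit 0) [nat_lit 32178, nat_lit 18570, nat_lit 19218, nat_lit 19002, nat_lit 19074, nat_lit 19050, nat_lit 19054] (nat_lit 0) [] false,
   Spec.mk (nat_lit 19064) (nat_lit 0) [nat_lit 32186, nat_lit 18578, nat_lit 19226, nat_lit 19010, nat_lit 19118, nat_lit 19046, nat_lit 19066] (nat_lit 1) [nat_lit 38746] false,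
   Spec.mk (nat_lit 19066) (nat_lit 0) [nat_lit 32188, nat_lit 18580, nat_lit 19228, nat_lit 19012, nat_lit 19120, nat_lit 19048, nat_lit 19072, nat_lit 19064, nat_lit 19068] (nat_lit 0) [nat_lit 38748] false,
   Spec.mk (nat_lit 19068) (nat_lit 0) [nat_lit 32190, nat_lit 18582, nat_lit 19230, nat_lit 19014, nat_lit 19122, nat_lit 19050, nat_lit 19074, nat_lit 19066] (nat_lit 1) [] false,
   Spec.mk (nat_lit 19072) (nat_lit 0) [nat_lit 32194, nat_lit 18586, nat_lit 19234, nat_lit 19018, nat_lit 19126, nat_lit 19054, nat_lit 19090, nat_lit 19066, nat_lit 19074] (nat_lit 0) [nat_lit 38754] false,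
   Spec.mk (nat_lit 19074) (nat_lit 1) [nat_lit 32196, nat_lit 18588, nat_lit 19236, nat_lit 19020, nat_lit 19128, nat_lit 19056, nat_lit 19092, nat_lit 19068, nat_lit 19080, nat_lit 19072] (nat_lit 0) [] false,
   Spec.mk (nat_lit 19080) (nat_lit 1) [nat_lit 32202, nat_lit 18594, nat_lit 19242, nat_lit 19026, nat_lit 19134, nat_lit 19098, nat_lit 19074] (nat_lit 0) [] false,
   Spec.mk (nat_lit 19090) (nat_lit 0) [nat_lit 32212, nat_lit 18604, nat_lit 19252, nat_lit 19144, nat_lit 19072, nat_lit 19092] (nat_lit 0) [nat_lit 38772] false,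
   Spec.mk (nat_lit 19092) (nat_lit 0) [nat_lit 32214, nat_lit 18606, nat_lit 19254, nat_lit 19146, nat_lit 19074, nat_lit 19098, nat_lit 19090] (nat_lit 0) [] false,
   Spec.mk (nat_lit 19098) (nat_lit 2) [nat_lit 32220, nat_lit 18612, nat_lit 19260, nat_lit 19152, nat_lit 19080, nat_lit 19092] (nat_lit 0) [] false,
   Spec.mk (nat_lit 19118) (nat_lit 0) [nat_lit 32240, nat_lit 18632, nat_lit 19280, nat_lit 19064, nat_lit 19120] (nat_lit 2) [nat_lit 38800] false,
   Spec.mk (nat_lit 19120) (nat_lit 0) [nat_lit 32242, nat_lit 18634, nat_lit 19282, nat_lit 19066, nat_lit 19126, nat_lit 19118, nat_lit 19122] (nat_lit 1) [nat_lit 38802] false,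
   Spec.mk (nat_lit 19122) (nat_lit 0) [nat_lit 32244, nat_lit 18636, nat_lit 19284, nat_lit 19068, nat_lit 19128, nat_lit 19120] (nat_lit 2) [] false,
   Spec.mk (nat_lit 19126) (nat_lit 0) [nat_lit 32248, nat_lit 18640, nat_lit 19288, nat_lit 19072, nat_lit 19144, nat_lit 19120, nat_lit 19128] (nat_lit 2) [nat_lit 38808] false,
   Spec.mk (nat_lit 19128) (nat_lit 0) [nat_lit 32250, nat_lit 18642, nat_lit 19290, nat_lit 19074, nat_lit 19146, nat_lit 19122, nat_lit 19134, nat_lit 19126] (nat_lit 1) [] false,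
   Spec.mk (nat_lit 19134) (nat_lit 0) [nat_lit 32256, nat_lit 18648, nat_lit 19296, nat_lit 19080, nat_lit 19152, nat_lit 19128] (nat_lit 2) [] false,
   Spec.mk (nat_lit 19144) (nat_lit 0) [nat_lit 32266, nat_lit 18658, nat_lit 19306, nat_lit 19090, nat_lit 19126, nat_lit 19146] (nat_lit 0) [nat_lit 38826] false,
   Spec.mk (nat_lit 19146) (nat_lit 0) [nat_lit 32268, nat_lit 18660, nat_lit 19308, nat_lit 19092, nat_lit 19128, nat_lit 19152, nat_lit 19144] (nat_lit 0) [] false,
   Spec.mk (nat_lit 19152) (nat_lit 1) [nat_lit 32274, nat_lit 18666, nat_lit 19314, nat_lit 19098, nat_lit 19134, nat_lit 19170, nat_lit 19146] (nat_lit 0) [] false,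
   Spec.mk (nat_lit 19170) (nat_lit 2) [nat_lit 32292, nat_lit 18684, nat_lit 19332, nat_lit 19152] (nat_lit 0) [] false,
   Spec.mk (nat_lit 19202) (nat_lit 2) [nat_lit 32324, nat_lit 18716, nat_lit 19040, nat_lit 19208, nat_lit 19204] (nat_lit 0) [nat_lit 38884] false,
   Spec.mk (nat_lit 19204) (nat_lit 2) [nat_lit 32326, nat_lit 18718, nat_lit 19042, nat_lit 19210, nat_lit 19202] (nat_lit 0) [nat_lit 38886] false,
   Spec.mk (nat_lit 19208) (nat_lit 0) [nat_lit 32330, nat_lit 18722, nat_lit 19046, nat_lit 19226, nat_lit 19202, nat_lit 19210] (nat_lit 0) [nat_lit 38890] false,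
   Spec.mk (nat_lit 19210) (nat_lit 2) [nat_lit 32332, nat_lit 18724, nat_lit 19048, nat_lit 19228, nat_lit 19204, nat_lit 19216, nat_lit 19208, nat_lit 19212] (nat_lit 0) [nat_lit 38892] false,
   Spec.mk (nat_lit 19212) (nat_lit 2) [nat_lit 32334, nat_lit 18726, nat_lit 19050, nat_lit 19230, nat_lit 19218, nat_lit 19210] (nat_lit 0) [] false,
   Spec.mk (nat_lit 19216) (nat_lit 0) [nat_lit 32338, nat_lit 18730, nat_lit 19054, nat_lit 19234, nat_lit 19210, nat_lit 19218] (nat_lit 0) [nat_lit 38898] false,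
   Spec.mk (nat_lit 19218) (nat_lit 2) [nat_lit 32340, nat_lit 18732, nat_lit 19056, nat_lit 19236, nat_lit 19212, nat_lit 19216] (nat_lit 0) [] false,
   Spec.mk (nat_lit 19226) (nat_lit 0) [nat_lit 32348, nat_lit 18740, nat_lit 19064, nat_lit 19280, nat_lit 19208, nat_lit 19228] (nat_lit 0) [nat_lit 38908] false,
   Spec.mk (nat_lit 19228) (nat_lit 1) [nat_lit 32350, nat_lit 18742, nat_lit 19066, nat_lit 19282, nat_lit 19210, nat_lit 19234, nat_lit 19226, nat_lit 19230] (nat_lit 0) [nat_lit 38910] false,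
   Spec.mk (nat_lit 19230) (nat_lit 0) [nat_lit 32352, nat_lit 18744, nat_lit 19068, nat_lit 19284, nat_lit 19212, nat_lit 19236, nat_lit 19228] (nat_lit 0) [] false,
   Spec.mk (nat_lit 19234) (nat_lit 1) [nat_lit 32356, nat_lit 18748, nat_lit 19072, nat_lit 19288, nat_lit 19216, nat_lit 19252, nat_lit 19228, nat_lit 19236] (nat_lit 0) [nat_lit 38916] false,
   Spec.mk (nat_lit 19236) (nat_lit 2) [nat_lit 32358, nat_lit 18750, nat_lit 19074, nat_lit 19290, nat_lit 19218, nat_lit 19254, nat_lit 19230, nat_lit 19242, nat_lit 19234] (nat_lit 0) [] false,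
   Spec.mk (nat_lit 19242) (nat_lit 2) [nat_lit 32364, nat_lit 18756, nat_lit 19080, nat_lit 19296, nat_lit 19260, nat_lit 19236] (nat_lit 0) [] false,
   Spec.mk (nat_lit 19252) (nat_lit 0) [nat_lit 32374, nat_lit 18766, nat_lit 19090, nat_lit 19306, nat_lit 19234, nat_lit 19254] (nat_lit 0) [nat_lit 38934] false,
   Spec.mk (nat_lit 19254) (nat_lit 0) [nat_lit 32376, nat_lit 18768, nat_lit 19092, nat_lit 19308, nat_lit 19236, nat_lit 19260, nat_lit 19252] (nat_lit 0) [] false,
   Spec.mk (nat_lit 19260) (nat_lit 2) [nat_lit 32382, nat_lit 18774, nat_lit 19098, nat_lit 19314, nat_lit 19242, nat_lit 19254] (nat_lit 0) [] false,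
   Spec.mk (nat_lit 19280) (nat_lit 1) [nat_lit 32402, nat_lit 18794, nat_lit 19118, nat_lit 19442, nat_lit 19226, nat_lit 19282] (nat_lit 0) [nat_lit 38962] false,
   Spec.mk (nat_lit 19282) (nat_lit 2) [nat_lit 32404, nat_lit 18796, nat_lit 19120, nat_lit 19444, nat_lit 19228, nat_lit 19288, nat_lit 19280, nat_lit 19284] (nat_lit 0) [nat_lit 38964] false]

noncomputable def sp48 : List Spec :=
  [Spec.mk (nat_lit 19284) (nat_lit 1) [nat_lit 32406, nat_lit 18798, nat_lit 19122, nat_lit 19446, nat_lit 19230, nat_lit 19290, nat_lit 19282] (nat_lit 0) [] false,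
   Spec.mk (nat_lit 19288) (nat_lit 1) [nat_lit 32410, nat_lit 18802, nat_lit 19126, nat_lit 19450, nat_lit 19234, nat_lit 19306, nat_lit 19282, nat_lit 19290] (nat_lit 0) [nat_lit 38970] false,
   Spec.mk (nat_lit 19290) (nat_lit 2) [nat_lit 32412, nat_lit 18804, nat_lit 19128, nat_lit 19452, nat_lit 19236, nat_lit 19308, nat_lit 19284, nat_lit 19296, nat_lit 19288] (nat_lit 0) [] false,
   Spec.mk (nat_lit 19296) (nat_lit 1) [nat_lit 32418, nat_lit 18810, nat_lit 19134, nat_lit 19458, nat_lit 19242, nat_lit 19314, nat_lit 19290] (nat_lit 0) [] false,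
   Spec.mk (nat_lit 19306) (nat_lit 2) [nat_lit 32428, nat_lit 18820, nat_lit 19144, nat_lit 19468, nat_lit 19252, nat_lit 19360, nat_lit 19288, nat_lit 19308] (nat_lit 0) [nat_lit 38988] false,
   Spec.mk (nat_lit 19308) (nat_lit 2) [nat_lit 32430, nat_lit 18822, nat_lit 19146, nat_lit 19470, nat_lit 19254, nat_lit 19362, nat_lit 19290, nat_lit 19314, nat_lit 19306] (nat_lit 0) [] false,
   Spec.mk (nat_lit 19314) (nat_lit 3) [nat_lit 32436, nat_lit 18828, nat_lit 19152, nat_lit 19476, nat_lit 19260, nat_lit 19368, nat_lit 19296, nat_lit 19332, nat_lit 19308] (nat_lit 0) [] false,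
   Spec.mk (nat_lit 19332) (nat_lit 3) [nat_lit 32454, nat_lit 18846, nat_lit 19170, nat_lit 19494, nat_lit 19386, nat_lit 19314] (nat_lit 0) [] false,
   Spec.mk (nat_lit 19360) (nat_lit 2) [nat_lit 32482, nat_lit 18874, nat_lit 19522, nat_lit 19306, nat_lit 19362] (nat_lit 0) [nat_lit 39042] false,
   Spec.mk (nat_lit 19362) (nat_lit 2) [nat_lit 32484, nat_lit 18876, nat_lit 19524, nat_lit 19308, nat_lit 19368, nat_lit 19360] (nat_lit 0) [] false,
   Spec.mk (nat_lit 19368) (nat_lit 2) [nat_lit 32490, nat_lit 18882, nat_lit 19530, nat_lit 19314, nat_lit 19386, nat_lit 19362] (nat_lit 0) [] false,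
   Spec.mk (nat_lit 19386) (nat_lit 4) [nat_lit 32508, nat_lit 18900, nat_lit 19548, nat_lit 19332, nat_lit 19368] (nat_lit 0) [] false,
   Spec.mk (nat_lit 19442) (nat_lit 2) [nat_lit 32564, nat_lit 19280, nat_lit 19444] (nat_lit 0) [nat_lit 39124] false,
   Spec.mk (nat_lit 19444) (nat_lit 3) [nat_lit 32566, nat_lit 19282, nat_lit 19450, nat_lit 19442, nat_lit 19446] (nat_lit 0) [nat_lit 39126] false,
   Spec.mk (nat_lit 19446) (nat_lit 2) [nat_lit 32568, nat_lit 19284, nat_lit 19452, nat_lit 19444] (nat_lit 0) [] false,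
   Spec.mk (nat_lit 19450) (nat_lit 2) [nat_lit 32572, nat_lit 19288, nat_lit 19468, nat_lit 19444, nat_lit 19452] (nat_lit 0) [nat_lit 39132] false,
   Spec.mk (nat_lit 19452) (nat_lit 3) [nat_lit 32574, nat_lit 19290, nat_lit 19470, nat_lit 19446, nat_lit 19458, nat_lit 19450] (nat_lit 0) [] false,
   Spec.mk (nat_lit 19458) (nat_lit 2) [nat_lit 32580, nat_lit 19296, nat_lit 19476, nat_lit 19452] (nat_lit 0) [] false,
   Spec.mk (nat_lit 19468) (nat_lit 2) [nat_lit 32590, nat_lit 19306, nat_lit 19522, nat_lit 19450, nat_lit 19470] (nat_lit 0) [nat_lit 39150] false,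
   Spec.mk (nat_lit 19470) (nat_lit 2) [nat_lit 32592, nat_lit 19308, nat_lit 19524, nat_lit 19452, nat_lit 19476, nat_lit 19468] (nat_lit 0) [] false,
   Spec.mk (nat_lit 19476) (nat_lit 3) [nat_lit 32598, nat_lit 19314, nat_lit 19530, nat_lit 19458, nat_lit 19494, nat_lit 19470] (nat_lit 0) [] false,
   Spec.mk (nat_lit 19494) (nat_lit 2) [nat_lit 32616, nat_lit 19332, nat_lit 19548, nat_lit 19476] (nat_lit 0) [] false,
   Spec.mk (nat_lit 19522) (nat_lit 4) [nat_lit 32644, nat_lit 19360, nat_lit 19468, nat_lit 19524] (nat_lit 0) [nat_lit 39204] false,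
   Spec.mk (nat_lit 19524) (nat_lit 4) [nat_lit 32646, nat_lit 19362, nat_lit 19470, nat_lit 19530, nat_lit 19522] (nat_lit 0) [] false,
   Spec.mk (nat_lit 19530) (nat_lit 4) [nat_lit 32652, nat_lit 19368, nat_lit 19476, nat_lit 19548, nat_lit 19524] (nat_lit 0) [] false,
   Spec.mk (nat_lit 19548) (nat_lit 5) [nat_lit 32670, nat_lit 19386, nat_lit 19494, nat_lit 19602, nat_lit 19530] (nat_lit 0) [] false,
   Spec.mk (nat_lit 19602) (nat_lit 6) [nat_lit 32724, nat_lit 19548] (nat_lit 0) [] false,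
   Spec.mk (nat_lit 19844) (nat_lit 6) [nat_lit 6722, nat_lit 20006, nat_lit 19898] (nat_lit 0) [nat_lit 39526] false,
   Spec.mk (nat_lit 19898) (nat_lit 4) [nat_lit 6776, nat_lit 20060, nat_lit 19844, nat_lit 19916] (nat_lit 0) [nat_lit 39580] false,
   Spec.mk (nat_lit 19916) (nat_lit 4) [nat_lit 6794, nat_lit 20078, nat_lit 19898, nat_lit 19922] (nat_lit 0) [nat_lit 39598] false,
   Spec.mk (nat_lit 19922) (nat_lit 4) [nat_lit 6800, nat_lit 20084, nat_lit 19916, nat_lit 19924] (nat_lit 0) [nat_lit 39604] false,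
   Spec.mk (nat_lit 19924) (nat_lit 5) [nat_lit 6802, nat_lit 20086, nat_lit 19922] (nat_lit 0) [nat_lit 39606, nat_lit 242] false,
   Spec.mk (nat_lit 20006) (nat_lit 4) [nat_lit 6884, nat_lit 20492, nat_lit 19844, nat_lit 20060] (nat_lit 0) [nat_lit 39688] false,
   Spec.mk (nat_lit 20060) (nat_lit 4) [nat_lit 6938, nat_lit 20546, nat_lit 19898, nat_lit 20222, nat_lit 20006, nat_lit 20114, nat_lit 20078] (nat_lit 0) [nat_lit 39742] false,
   Spec.mk (nat_lit 20078) (nat_lit 3) [nat_lit 6956, nat_lit 20564, nat_lit 19916, nat_lit 20240, nat_lit 20132, nat_lit 20060, nat_lit 20084] (nat_lit 0) [nat_lit 39760] false,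
   Spec.mk (nat_lit 20084) (nat_lit 3) [nat_lit 6962, nat_lit 20570, nat_lit 19922, nat_lit 20246, nat_lit 20138, nat_lit 20078, nat_lit 20086] (nat_lit 0) [nat_lit 39766] false,
   Spec.mk (nat_lit 20086) (nat_lit 4) [nat_lit 6964, nat_lit 20572, nat_lit 19924, nat_lit 20248, nat_lit 20140, nat_lit 20084] (nat_lit 0) [nat_lit 39768, nat_lit 404] false,
   Spec.mk (nat_lit 20114) (nat_lit 2) [nat_lit 6992, nat_lit 20600, nat_lit 20276, nat_lit 20060, nat_lit 20132] (nat_lit 0) [nat_lit 39796] false,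
   Spec.mk (nat_lit 20132) (nat_lit 3) [nat_lit 7010, nat_lit 20618, nat_lit 20294, nat_lit 20078, nat_lit 20114, nat_lit 20150, nat_lit 20138] (nat_lit 0) [nat_lit 39814] false,
   Spec.mk (nat_lit 20138) (nat_lit 2) [nat_lit 7016, nat_lit 20624, nat_lit 20300, nat_lit 20084, nat_lit 20156, nat_lit 20132, nat_lit 20140] (nat_lit 0) [nat_lit 39820] false,
   Spec.mk (nat_lit 20140) (nat_lit 3) [nat_lit 7018, nat_lit 20626, nat_lit 20302, nat_lit 20086, nat_lit 20158, nat_lit 20138] (nat_lit 0) [nat_lit 39822, nat_lit 458] false,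
   Spec.mk (nat_lit 20150) (nat_lit 2) [nat_lit 7028, nat_lit 20636, nat_lit 20312, nat_lit 20132, nat_lit 20156] (nat_lit 0) [nat_lit 39832] false,
   Spec.mk (nat_lit 20156) (nat_lit 3) [nat_lit 7034, nat_lit 20642, nat_lit 20318, nat_lit 20138, nat_lit 20150, nat_lit 20162, nat_lit 20158] (nat_lit 0) [nat_lit 39838] false,
   Spec.mk (nat_lit 20158) (nat_lit 3) [nat_lit 7036, nat_lit 20644, nat_lit 20320, nat_lit 20140, nat_lit 20164, nat_lit 20156] (nat_lit 0) [nat_lit 39840, nat_lit 476] false,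
   Spec.mk (nat_lit 20162) (nat_lit 2) [nat_lit 7040, nat_lit 20648, nat_lit 20324, nat_lit 20156, nat_lit 20164] (nat_lit 0) [nat_lit 39844] false,
   Spec.mk (nat_lit 20164) (nat_lit 4) [nat_lit 7042, nat_lit 20650, nat_lit 20326, nat_lit 20158, nat_lit 20162, nat_lit 20166] (nat_lit 0) [nat_lit 39846, nat_lit 482] false,
   Spec.mk (nat_lit 20166) (nat_lit 4) [nat_lit 7044, nat_lit 20652, nat_lit 20328, nat_lit 20164] (nat_lit 0) [nat_lit 484] false,
   Spec.mk (nat_lit 20222) (nat_lit 2) [nat_lit 7100, nat_lit 20708, nat_lit 20060, nat_lit 20276, nat_lit 20240] (nat_lit 0) [nat_lit 39904] false,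
   Spec.mk (nat_lit 20240) (nat_lit 0) [nat_lit 7118, nat_lit 20726, nat_lit 20078, nat_lit 20294, nat_lit 20222, nat_lit 20246] (nat_lit 0) [nat_lit 39922] false,
   Spec.mk (nat_lit 20246) (nat_lit 0) [nat_lit 7124, nat_lit 20732, nat_lit 20084, nat_lit 20300, nat_lit 20240, nat_lit 20248] (nat_lit 0) [nat_lit 39928] false,
   Spec.mk (nat_lit 20248) (nat_lit 1) [nat_lit 7126, nat_lit 20734, nat_lit 20086, nat_lit 20302, nat_lit 20246] (nat_lit 0) [nat_lit 39930, nat_lit 566] false,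
   Spec.mk (nat_lit 20276) (nat_lit 2) [nat_lit 7154, nat_lit 20762, nat_lit 20114, nat_lit 20222, nat_lit 20294] (nat_lit 0) [nat_lit 39958] false,
   Spec.mk (nat_lit 20294) (nat_lit 2) [nat_lit 7172, nat_lit 20780, nat_lit 20132, nat_lit 20240, nat_lit 20348, nat_lit 20276, nat_lit 20312, nat_lit 20300] (nat_lit 0) [nat_lit 39976] false,
   Spec.mk (nat_lit 20300) (nat_lit 1) [nat_lit 7178, nat_lit 20786, nat_lit 20138, nat_lit 20246, nat_lit 20354, nat_lit 20318, nat_lit 20294, nat_lit 20302] (nat_lit 0) [nat_lit 39982] false,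
   Spec.mk (nat_lit 20302) (nat_lit 2) [nat_lit 7180, nat_lit 20788, nat_lit 20140, nat_lit 20248, nat_lit 20356, nat_lit 20320, nat_lit 20300] (nat_lit 0) [nat_lit 39984, nat_lit 620] false,
   Spec.mk (nat_lit 20312) (nat_lit 0) [nat_lit 7190, nat_lit 20798, nat_lit 20150, nat_lit 20366, nat_lit 20294, nat_lit 20318] (nat_lit 0) [nat_lit 39994] false,
   Spec.mk (nat_lit 20318) (nat_lit 1) [nat_lit 7196, nat_lit 20804, nat_lit 20156, nat_lit 20372, nat_lit 20300, nat_lit 20312, nat_lit 20324, nat_lit 20320] (nat_lit 0) [nat_lit 40000] false,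
   Spec.mk (nat_lit 20320) (nat_lit 1) [nat_lit 7198, nat_lit 20806, nat_lit 20158, nat_lit 20374, nat_lit 20302, nat_lit 20326, nat_lit 20318] (nat_lit 0) [nat_lit 40002, nat_lit 638] false,
   Spec.mk (nat_lit 20324) (nat_lit 0) [nat_lit 7202, nat_lit 20810, nat_lit 20162, nat_lit 20378, nat_lit 20318, nat_lit 20326] (nat_lit 0) [nat_lit 40006] false,
   Spec.mk (nat_lit 20326) (nat_lit 2) [nat_lit 7204, nat_lit 20812, nat_lit 20164, nat_lit 20380, nat_lit 20320, nat_lit 20324, nat_lit 20328] (nat_lit 0) [nat_lit 40008, nat_lit 644] false]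

noncomputable def sp49 : List Spec :=
  [Spec.mk (nat_lit 20328) (nat_lit 2) [nat_lit 7206, nat_lit 20814, nat_lit 20166, nat_lit 20382, nat_lit 20326] (nat_lit 0) [nat_lit 646] false,
   Spec.mk (nat_lit 20348) (nat_lit 2) [nat_lit 7226, nat_lit 20834, nat_lit 20294, nat_lit 20366, nat_lit 20354] (nat_lit 0) [nat_lit 40030] false,
   Spec.mk (nat_lit 20354) (nat_lit 0) [nat_lit 7232, nat_lit 20840, nat_lit 20300, nat_lit 20372, nat_lit 20348, nat_lit 20356] (nat_lit 0) [nat_lit 40036] false,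
   Spec.mk (nat_lit 20356) (nat_lit 1) [nat_lit 7234, nat_lit 20842, nat_lit 20302, nat_lit 20374, nat_lit 20354] (nat_lit 0) [nat_lit 40038, nat_lit 674] false,
   Spec.mk (nat_lit 20366) (nat_lit 2) [nat_lit 7244, nat_lit 20852, nat_lit 20312, nat_lit 20348, nat_lit 20372] (nat_lit 0) [nat_lit 40048] false,
   Spec.mk (nat_lit 20372) (nat_lit 2) [nat_lit 7250, nat_lit 20858, nat_lit 20318, nat_lit 20354, nat_lit 20390, nat_lit 20366, nat_lit 20378, nat_lit 20374] (nat_lit 0) [nat_lit 40054] false,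
   Spec.mk (nat_lit 20374) (nat_lit 2) [nat_lit 7252, nat_lit 20860, nat_lit 20320, nat_lit 20356, nat_lit 20392, nat_lit 20380, nat_lit 20372] (nat_lit 0) [nat_lit 40056, nat_lit 692] false,
   Spec.mk (nat_lit 20378) (nat_lit 0) [nat_lit 7256, nat_lit 20864, nat_lit 20324, nat_lit 20396, nat_lit 20372, nat_lit 20380] (nat_lit 0) [nat_lit 40060] false,
   Spec.mk (nat_lit 20380) (nat_lit 2) [nat_lit 7258, nat_lit 20866, nat_lit 20326, nat_lit 20398, nat_lit 20374, nat_lit 20378, nat_lit 20382] (nat_lit 0) [nat_lit 40062, nat_lit 698] false,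
   Spec.mk (nat_lit 20382) (nat_lit 2) [nat_lit 7260, nat_lit 20868, nat_lit 20328, nat_lit 20400, nat_lit 20380] (nat_lit 0) [nat_lit 700] false,
   Spec.mk (nat_lit 20390) (nat_lit 2) [nat_lit 7268, nat_lit 20876, nat_lit 20372, nat_lit 20396, nat_lit 20392] (nat_lit 0) [nat_lit 40072] false,
   Spec.mk (nat_lit 20392) (nat_lit 1) [nat_lit 7270, nat_lit 20878, nat_lit 20374, nat_lit 20398, nat_lit 20390] (nat_lit 0) [nat_lit 40074, nat_lit 710] false,
   Spec.mk (nat_lit 20396) (nat_lit 2) [nat_lit 7274, nat_lit 20882, nat_lit 20378, nat_lit 20390, nat_lit 20398] (nat_lit 0) [nat_lit 40078] false,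
   Spec.mk (nat_lit 20398) (nat_lit 3) [nat_lit 7276, nat_lit 20884, nat_lit 20380, nat_lit 20392, nat_lit 20404, nat_lit 20396, nat_lit 20400] (nat_lit 0) [nat_lit 40080, nat_lit 716] false,
   Spec.mk (nat_lit 20400) (nat_lit 2) [nat_lit 7278, nat_lit 20886, nat_lit 20382, nat_lit 20406, nat_lit 20398] (nat_lit 0) [nat_lit 718] false,
   Spec.mk (nat_lit 20404) (nat_lit 3) [nat_lit 7282, nat_lit 20890, nat_lit 20398, nat_lit 20406] (nat_lit 0) [nat_lit 40086, nat_lit 722] false,
   Spec.mk (nat_lit 20406) (nat_lit 4) [nat_lit 7284, nat_lit 20892, nat_lit 20400, nat_lit 20404] (nat_lit 0) [nat_lit 724] false,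
   Spec.mk (nat_lit 20492) (nat_lit 4) [nat_lit 7370, nat_lit 21950, nat_lit 20006, nat_lit 20546] (nat_lit 0) [nat_lit 40174] false,
   Spec.mk (nat_lit 20546) (nat_lit 3) [nat_lit 7424, nat_lit 22004, nat_lit 20060, nat_lit 20708, nat_lit 20492, nat_lit 20600, nat_lit 20564] (nat_lit 0) [nat_lit 40228] false,
   Spec.mk (nat_lit 20564) (nat_lit 2) [nat_lit 7442, nat_lit 22022, nat_lit 20078, nat_lit 20726, nat_lit 20618, nat_lit 20546, nat_lit 20570] (nat_lit 0) [nat_lit 40246] false,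
   Spec.mk (nat_lit 20570) (nat_lit 2) [nat_lit 7448, nat_lit 22028, nat_lit 20084, nat_lit 20732, nat_lit 20624, nat_lit 20564, nat_lit 20572] (nat_lit 0) [nat_lit 40252] false,
   Spec.mk (nat_lit 20572) (nat_lit 3) [nat_lit 7450, nat_lit 22030, nat_lit 20086, nat_lit 20734, nat_lit 20626, nat_lit 20570] (nat_lit 0) [nat_lit 40254, nat_lit 890] false,
   Spec.mk (nat_lit 20600) (nat_lit 0) [nat_lit 7478, nat_lit 22058, nat_lit 20114, nat_lit 20762, nat_lit 20546, nat_lit 20618] (nat_lit 0) [nat_lit 40282] false,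
   Spec.mk (nat_lit 20618) (nat_lit 1) [nat_lit 7496, nat_lit 22076, nat_lit 20132, nat_lit 20780, nat_lit 20564, nat_lit 20600, nat_lit 20636, nat_lit 20624] (nat_lit 0) [nat_lit 40300] false,
   Spec.mk (nat_lit 20624) (nat_lit 0) [nat_lit 7502, nat_lit 22082, nat_lit 20138, nat_lit 20786, nat_lit 20570, nat_lit 20642, nat_lit 20618, nat_lit 20626] (nat_lit 0) [nat_lit 40306] false,
   Spec.mk (nat_lit 20626) (nat_lit 1) [nat_lit 7504, nat_lit 22084, nat_lit 20140, nat_lit 20788, nat_lit 20572, nat_lit 20644, nat_lit 20624] (nat_lit 0) [nat_lit 40308, nat_lit 944] false,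
   Spec.mk (nat_lit 20636) (nat_lit 0) [nat_lit 7514, nat_lit 22094, nat_lit 20150, nat_lit 20798, nat_lit 20618, nat_lit 20642] (nat_lit 0) [nat_lit 40318] false,
   Spec.mk (nat_lit 20642) (nat_lit 1) [nat_lit 7520, nat_lit 22100, nat_lit 20156, nat_lit 20804, nat_lit 20624, nat_lit 20636, nat_lit 20648, nat_lit 20644] (nat_lit 0) [nat_lit 40324] false,
   Spec.mk (nat_lit 20644) (nat_lit 1) [nat_lit 7522, nat_lit 22102, nat_lit 20158, nat_lit 20806, nat_lit 20626, nat_lit 20650, nat_lit 20642] (nat_lit 0) [nat_lit 40326, nat_lit 962] false,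
   Spec.mk (nat_lit 20648) (nat_lit 0) [nat_lit 7526, nat_lit 22106, nat_lit 20162, nat_lit 20810, nat_lit 20642, nat_lit 20650] (nat_lit 0) [nat_lit 40330] false,
   Spec.mk (nat_lit 20650) (nat_lit 2) [nat_lit 7528, nat_lit 22108, nat_lit 20164, nat_lit 20812, nat_lit 20644, nat_lit 20648, nat_lit 20652] (nat_lit 0) [nat_lit 40332, nat_lit 968] false,
   Spec.mk (nat_lit 20652) (nat_lit 2) [nat_lit 7530, nat_lit 22110, nat_lit 20166, nat_lit 20814, nat_lit 20650] (nat_lit 0) [nat_lit 970] false,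
   Spec.mk (nat_lit 20708) (nat_lit 3) [nat_lit 7586, nat_lit 22166, nat_lit 20222, nat_lit 21194, nat_lit 20546, nat_lit 20762, nat_lit 20726] (nat_lit 0) [nat_lit 40390] false,
   Spec.mk (nat_lit 20726) (nat_lit 1) [nat_lit 7604, nat_lit 22184, nat_lit 20240, nat_lit 21212, nat_lit 20564, nat_lit 20780, nat_lit 20708, nat_lit 20732] (nat_lit 0) [nat_lit 40408] false,
   Spec.mk (nat_lit 20732) (nat_lit 1) [nat_lit 7610, nat_lit 22190, nat_lit 20246, nat_lit 21218, nat_lit 20570, nat_lit 20786, nat_lit 20726, nat_lit 20734] (nat_lit 0) [nat_lit 40414] false,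
   Spec.mk (nat_lit 20734) (nat_lit 2) [nat_lit 7612, nat_lit 22192, nat_lit 20248, nat_lit 21220, nat_lit 20572, nat_lit 20788, nat_lit 20732] (nat_lit 0) [nat_lit 40416, nat_lit 1052] false,
   Spec.mk (nat_lit 20762) (nat_lit 2) [nat_lit 7640, nat_lit 22220, nat_lit 20276, nat_lit 21248, nat_lit 20600, nat_lit 20924, nat_lit 20708, nat_lit 20780] (nat_lit 0) [nat_lit 40444] false,
   Spec.mk (nat_lit 20780) (nat_lit 2) [nat_lit 7658, nat_lit 22238, nat_lit 20294, nat_lit 21266, nat_lit 20618, nat_lit 20942, nat_lit 20726, nat_lit 20834, nat_lit 20762, nat_lit 20798, nat_lit 20786] (nat_lit 0) [nat_lit 40462] false,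
   Spec.mk (nat_lit 20786) (nat_lit 1) [nat_lit 7664, nat_lit 22244, nat_lit 20300, nat_lit 21272, nat_lit 20624, nat_lit 20948, nat_lit 20732, nat_lit 20840, nat_lit 20804, nat_lit 20780, nat_lit 20788] (nat_lit 0) [nat_lit 40468] false,
   Spec.mk (nat_lit 20788) (nat_lit 2) [nat_lit 7666, nat_lit 22246, nat_lit 20302, nat_lit 21274, nat_lit 20626, nat_lit 20950, nat_lit 20734, nat_lit 20842, nat_lit 20806, nat_lit 20786] (nat_lit 0) [nat_lit 40470, nat_lit 1106] false,
   Spec.mk (nat_lit 20798) (nat_lit 0) [nat_lit 7676, nat_lit 22256, nat_lit 20312, nat_lit 21284, nat_lit 20636, nat_lit 20960, nat_lit 20852, nat_lit 20780, nat_lit 20804] (nat_lit 0) [nat_lit 40480] false,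
   Spec.mk (nat_lit 20804) (nat_lit 1) [nat_lit 7682, nat_lit 22262, nat_lit 20318, nat_lit 21290, nat_lit 20642, nat_lit 20966, nat_lit 20858, nat_lit 20786, nat_lit 20798, nat_lit 20810, nat_lit 20806] (nat_lit 0) [nat_lit 40486] false,
   Spec.mk (nat_lit 20806) (nat_lit 1) [nat_lit 7684, nat_lit 22264, nat_lit 20320, nat_lit 21292, nat_lit 20644, nat_lit 20968, nat_lit 20860, nat_lit 20788, nat_lit 20812, nat_lit 20804] (nat_lit 0) [nat_lit 40488, nat_lit 1124] false,
   Spec.mk (nat_lit 20810) (nat_lit 0) [nat_lit 7688, nat_lit 22268, nat_lit 20324, nat_lit 21296, nat_lit 20648, nat_lit 20972, nat_lit 20864, nat_lit 20804, nat_lit 20812] (nat_lit 0) [nat_lit 40492] false,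
   Spec.mk (nat_lit 20812) (nat_lit 2) [nat_lit 7690, nat_lit 22270, nat_lit 20326, nat_lit 21298, nat_lit 20650, nat_lit 20974, nat_lit 20866, nat_lit 20806, nat_lit 20810, nat_lit 20814] (nat_lit 0) [nat_lit 40494, nat_lit 1130] false,
   Spec.mk (nat_lit 20814) (nat_lit 2) [nat_lit 7692, nat_lit 22272, nat_lit 20328, nat_lit 21300, nat_lit 20652, nat_lit 20976, nat_lit 20868, nat_lit 20812] (nat_lit 0) [nat_lit 1132] false,
   Spec.mk (nat_lit 20834) (nat_lit 1) [nat_lit 7712, nat_lit 22292, nat_lit 20348, nat_lit 21320, nat_lit 20996, nat_lit 20780, nat_lit 20852, nat_lit 20840] (nat_lit 0) [nat_lit 40516] false,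
   Spec.mk (nat_lit 20840) (nat_lit 0) [nat_lit 7718, nat_lit 22298, nat_lit 20354, nat_lit 21326, nat_lit 21002, nat_lit 20786, nat_lit 20858, nat_lit 20834, nat_lit 20842] (nat_lit 1) [nat_lit 40522] false,
   Spec.mk (nat_lit 20842) (nat_lit 0) [nat_lit 7720, nat_lit 22300, nat_lit 20356, nat_lit 21328, nat_lit 21004, nat_lit 20788, nat_lit 20860, nat_lit 20840] (nat_lit 0) [nat_lit 40524, nat_lit 1160] false,
   Spec.mk (nat_lit 20852) (nat_lit 1) [nat_lit 7730, nat_lit 22310, nat_lit 20366, nat_lit 21338, nat_lit 21014, nat_lit 20798, nat_lit 20834, nat_lit 20858] (nat_lit 0) [nat_lit 40534] false,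
   Spec.mk (nat_lit 20858) (nat_lit 1) [nat_lit 7736, nat_lit 22316, nat_lit 20372, nat_lit 21344, nat_lit 21020, nat_lit 20804, nat_lit 20840, nat_lit 20876, nat_lit 20852, nat_lit 20864, nat_lit 20860] (nat_lit 0) [nat_lit 40540] false,
   Spec.mk (nat_lit 20860) (nat_lit 1) [nat_lit 7738, nat_lit 22318, nat_lit 20374, nat_lit 21346, nat_lit 21022, nat_lit 20806, nat_lit 20842, nat_lit 20878, nat_lit 20866, nat_lit 20858] (nat_lit 0) [nat_lit 40542, nat_lit 1178] false,
   Spec.mk (nat_lit 20864) (nat_lit 0) [nat_lit 7742, nat_lit 22322, nat_lit 20378, nat_lit 21350, nat_lit 21026, nat_lit 20810, nat_lit 20882, nat_lit 20858, nat_lit 20866] (nat_lit 1) [nat_lit 40546] false,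
   Spec.mk (nat_lit 20866) (nat_lit 1) [nat_lit 7744, nat_lit 22324, nat_lit 20380, nat_lit 21352, nat_lit 21028, nat_lit 20812, nat_lit 20884, nat_lit 20860, nat_lit 20864, nat_lit 20868] (nat_lit 0) [nat_lit 40548, nat_lit 1184] false,
   Spec.mk (nat_lit 20868) (nat_lit 1) [nat_lit 7746, nat_lit 22326, nat_lit 20382, nat_lit 21354, nat_lit 21030, nat_lit 20814, nat_lit 20886, nat_lit 20866] (nat_lit 0) [nat_lit 1186] false,
   Spec.mk (nat_lit 20876) (nat_lit 1) [nat_lit 7754, nat_lit 22334, nat_lit 20390, nat_lit 21362, nat_lit 21038, nat_lit 20858, nat_lit 20882, nat_lit 20878] (nat_lit 0) [nat_lit 40558] false,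
   Spec.mk (nat_lit 20878) (nat_lit 0) [nat_lit 7756, nat_lit 22336, nat_lit 20392, nat_lit 21364, nat_lit 21040, nat_lit 20860, nat_lit 20884, nat_lit 20876] (nat_lit 0) [nat_lit 40560, nat_lit 1196] false,
   Spec.mk (nat_lit 20882) (nat_lit 1) [nat_lit 7760, nat_lit 22340, nat_lit 20396, nat_lit 21368, nat_lit 21044, nat_lit 20864, nat_lit 20876, nat_lit 20884] (nat_lit 0) [nat_lit 40564] false,
   Spec.mk (nat_lit 20884) (nat_lit 2) [nat_lit 7762, nat_lit 22342, nat_lit 20398, nat_lit 21370, nat_lit 21046, nat_lit 20866, nat_lit 20878, nat_lit 20890, nat_lit 20882, nat_lit 20886] (nat_lit 0) [nat_lit 40566, nat_lit 1202] false,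
   Spec.mk (nat_lit 20886) (nat_lit 1) [nat_lit 7764, nat_lit 22344, nat_lit 20400, nat_lit 21372, nat_lit 21048, nat_lit 20868, nat_lit 20892, nat_lit 20884] (nat_lit 0) [nat_lit 1204] false]

noncomputable def sp50 : List Spec :=
  [Spec.mk (nat_lit 20890) (nat_lit 2) [nat_lit 7768, nat_lit 22348, nat_lit 20404, nat_lit 21376, nat_lit 21052, nat_lit 20884, nat_lit 20892] (nat_lit 0) [nat_lit 40572, nat_lit 1208] false,
   Spec.mk (nat_lit 20892) (nat_lit 3) [nat_lit 7770, nat_lit 22350, nat_lit 20406, nat_lit 21378, nat_lit 21054, nat_lit 20886, nat_lit 20890] (nat_lit 0) [nat_lit 1210] false,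
   Spec.mk (nat_lit 20924) (nat_lit 2) [nat_lit 7802, nat_lit 22382, nat_lit 21410, nat_lit 20762, nat_lit 20942] (nat_lit 0) [nat_lit 40606] false,
   Spec.mk (nat_lit 20942) (nat_lit 1) [nat_lit 7820, nat_lit 22400, nat_lit 21428, nat_lit 20780, nat_lit 20996, nat_lit 20924, nat_lit 20960, nat_lit 20948] (nat_lit 0) [nat_lit 40624] false,
   Spec.mk (nat_lit 20948) (nat_lit 0) [nat_lit 7826, nat_lit 22406, nat_lit 21434, nat_lit 20786, nat_lit 21002, nat_lit 20966, nat_lit 20942, nat_lit 20950] (nat_lit 0) [nat_lit 40630] false,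
   Spec.mk (nat_lit 20950) (nat_lit 1) [nat_lit 7828, nat_lit 22408, nat_lit 21436, nat_lit 20788, nat_lit 21004, nat_lit 20968, nat_lit 20948] (nat_lit 0) [nat_lit 40632, nat_lit 1268] false,
   Spec.mk (nat_lit 20960) (nat_lit 0) [nat_lit 7838, nat_lit 22418, nat_lit 21446, nat_lit 20798, nat_lit 21014, nat_lit 20942, nat_lit 20966] (nat_lit 2) [nat_lit 40642] false,
   Spec.mk (nat_lit 20966) (nat_lit 0) [nat_lit 7844, nat_lit 22424, nat_lit 21452, nat_lit 20804, nat_lit 21020, nat_lit 20948, nat_lit 20960, nat_lit 20972, nat_lit 20968] (nat_lit 1) [nat_lit 40648] false,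
   Spec.mk (nat_lit 20968) (nat_lit 0) [nat_lit 7846, nat_lit 22426, nat_lit 21454, nat_lit 20806, nat_lit 21022, nat_lit 20950, nat_lit 20974, nat_lit 20966] (nat_lit 1) [nat_lit 40650, nat_lit 1286] false,
   Spec.mk (nat_lit 20972) (nat_lit 0) [nat_lit 7850, nat_lit 22430, nat_lit 21458, nat_lit 20810, nat_lit 21026, nat_lit 20966, nat_lit 20974] (nat_lit 2) [nat_lit 40654] false,
   Spec.mk (nat_lit 20974) (nat_lit 0) [nat_lit 7852, nat_lit 22432, nat_lit 21460, nat_lit 20812, nat_lit 21028, nat_lit 20968, nat_lit 20972, nat_lit 20976] (nat_lit 0) [nat_lit 40656, nat_lit 1292] false,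
   Spec.mk (nat_lit 20976) (nat_lit 0) [nat_lit 7854, nat_lit 22434, nat_lit 21462, nat_lit 20814, nat_lit 21030, nat_lit 20974] (nat_lit 0) [nat_lit 1294] false,
   Spec.mk (nat_lit 20996) (nat_lit 2) [nat_lit 7874, nat_lit 22454, nat_lit 21482, nat_lit 20834, nat_lit 20942, nat_lit 21014, nat_lit 21002] (nat_lit 0) [nat_lit 40678] false,
   Spec.mk (nat_lit 21002) (nat_lit 0) [nat_lit 7880, nat_lit 22460, nat_lit 21488, nat_lit 20840, nat_lit 20948, nat_lit 21020, nat_lit 20996, nat_lit 21004] (nat_lit 0) [nat_lit 40684] false,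
   Spec.mk (nat_lit 21004) (nat_lit 1) [nat_lit 7882, nat_lit 22462, nat_lit 21490, nat_lit 20842, nat_lit 20950, nat_lit 21022, nat_lit 21002] (nat_lit 0) [nat_lit 40686, nat_lit 1322] false,
   Spec.mk (nat_lit 21014) (nat_lit 1) [nat_lit 7892, nat_lit 22472, nat_lit 21500, nat_lit 20852, nat_lit 20960, nat_lit 21068, nat_lit 20996, nat_lit 21020] (nat_lit 0) [nat_lit 40696] false,
   Spec.mk (nat_lit 21020) (nat_lit 1) [nat_lit 7898, nat_lit 22478, nat_lit 21506, nat_lit 20858, nat_lit 20966, nat_lit 21074, nat_lit 21002, nat_lit 21038, nat_lit 21014, nat_lit 21026, nat_lit 21022] (nat_lit 0) [nat_lit 40702] false,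
   Spec.mk (nat_lit 21022) (nat_lit 1) [nat_lit 7900, nat_lit 22480, nat_lit 21508, nat_lit 20860, nat_lit 20968, nat_lit 21076, nat_lit 21004, nat_lit 21040, nat_lit 21028, nat_lit 21020] (nat_lit 0) [nat_lit 40704, nat_lit 1340] false,
   Spec.mk (nat_lit 21026) (nat_lit 0) [nat_lit 7904, nat_lit 22484, nat_lit 21512, nat_lit 20864, nat_lit 20972, nat_lit 21080, nat_lit 21044, nat_lit 21020, nat_lit 21028] (nat_lit 1) [nat_lit 40708] false,
   Spec.mk (nat_lit 21028) (nat_lit 1) [nat_lit 7906, nat_lit 22486, nat_lit 21514, nat_lit 20866, nat_lit 20974, nat_lit 21082, nat_lit 21046, nat_lit 21022, nat_lit 21026, nat_lit 21030] (nat_lit 0) [nat_lit 40710, nat_lit 1346] false,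
   Spec.mk (nat_lit 21030) (nat_lit 1) [nat_lit 7908, nat_lit 22488, nat_lit 21516, nat_lit 20868, nat_lit 20976, nat_lit 21084, nat_lit 21048, nat_lit 21028] (nat_lit 0) [nat_lit 1348] false,
   Spec.mk (nat_lit 21038) (nat_lit 0) [nat_lit 7916, nat_lit 22496, nat_lit 21524, nat_lit 20876, nat_lit 21092, nat_lit 21020, nat_lit 21044, nat_lit 21040] (nat_lit 0) [nat_lit 40720] false,
   Spec.mk (nat_lit 21040) (nat_lit 0) [nat_lit 7918, nat_lit 22498, nat_lit 21526, nat_lit 20878, nat_lit 21094, nat_lit 21022, nat_lit 21046, nat_lit 21038] (nat_lit 1) [nat_lit 40722, nat_lit 1358] false,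
   Spec.mk (nat_lit 21044) (nat_lit 0) [nat_lit 7922, nat_lit 22502, nat_lit 21530, nat_lit 20882, nat_lit 21098, nat_lit 21026, nat_lit 21038, nat_lit 21046] (nat_lit 0) [nat_lit 40726] false,
   Spec.mk (nat_lit 21046) (nat_lit 1) [nat_lit 7924, nat_lit 22504, nat_lit 21532, nat_lit 20884, nat_lit 21100, nat_lit 21028, nat_lit 21040, nat_lit 21052, nat_lit 21044, nat_lit 21048] (nat_lit 0) [nat_lit 40728, nat_lit 1364] false,
   Spec.mk (nat_lit 21048) (nat_lit 0) [nat_lit 7926, nat_lit 22506, nat_lit 21534, nat_lit 20886, nat_lit 21102, nat_lit 21030, nat_lit 21054, nat_lit 21046] (nat_lit 0) [nat_lit 1366] false,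
   Spec.mk (nat_lit 21052) (nat_lit 1) [nat_lit 7930, nat_lit 22510, nat_lit 21538, nat_lit 20890, nat_lit 21106, nat_lit 21046, nat_lit 21054] (nat_lit 0) [nat_lit 40734, nat_lit 1370] false,
   Spec.mk (nat_lit 21054) (nat_lit 2) [nat_lit 7932, nat_lit 22512, nat_lit 21540, nat_lit 20892, nat_lit 21108, nat_lit 21048, nat_lit 21052] (nat_lit 0) [nat_lit 1372] false,
   Spec.mk (nat_lit 21068) (nat_lit 2) [nat_lit 7946, nat_lit 22526, nat_lit 21554, nat_lit 21014, nat_lit 21074] (nat_lit 0) [nat_lit 40750] false,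
   Spec.mk (nat_lit 21074) (nat_lit 1) [nat_lit 7952, nat_lit 22532, nat_lit 21560, nat_lit 21020, nat_lit 21092, nat_lit 21068, nat_lit 21080, nat_lit 21076] (nat_lit 0) [nat_lit 40756] false,
   Spec.mk (nat_lit 21076) (nat_lit 1) [nat_lit 7954, nat_lit 22534, nat_lit 21562, nat_lit 21022, nat_lit 21094, nat_lit 21082, nat_lit 21074] (nat_lit 0) [nat_lit 40758, nat_lit 1394] false,
   Spec.mk (nat_lit 21080) (nat_lit 0) [nat_lit 7958, nat_lit 22538, nat_lit 21566, nat_lit 21026, nat_lit 21098, nat_lit 21074, nat_lit 21082] (nat_lit 2) [nat_lit 40762] false,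
   Spec.mk (nat_lit 21082) (nat_lit 0) [nat_lit 7960, nat_lit 22540, nat_lit 21568, nat_lit 21028, nat_lit 21100, nat_lit 21076, nat_lit 21080, nat_lit 21084] (nat_lit 0) [nat_lit 40764, nat_lit 1400] false,
   Spec.mk (nat_lit 21084) (nat_lit 0) [nat_lit 7962, nat_lit 22542, nat_lit 21570, nat_lit 21030, nat_lit 21102, nat_lit 21082] (nat_lit 0) [nat_lit 1402] false,
   Spec.mk (nat_lit 21092) (nat_lit 2) [nat_lit 7970, nat_lit 22550, nat_lit 21578, nat_lit 21038, nat_lit 21074, nat_lit 21098, nat_lit 21094] (nat_lit 0) [nat_lit 40774] false,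
   Spec.mk (nat_lit 21094) (nat_lit 1) [nat_lit 7972, nat_lit 22552, nat_lit 21580, nat_lit 21040, nat_lit 21076, nat_lit 21100, nat_lit 21092] (nat_lit 0) [nat_lit 40776, nat_lit 1412] false,
   Spec.mk (nat_lit 21098) (nat_lit 1) [nat_lit 7976, nat_lit 22556, nat_lit 21584, nat_lit 21044, nat_lit 21080, nat_lit 21116, nat_lit 21092, nat_lit 21100] (nat_lit 0) [nat_lit 40780] false,
   Spec.mk (nat_lit 21100) (nat_lit 2) [nat_lit 7978, nat_lit 22558, nat_lit 21586, nat_lit 21046, nat_lit 21082, nat_lit 21118, nat_lit 21094, nat_lit 21106, nat_lit 21098, nat_lit 21102] (nat_lit 0) [nat_lit 40782, nat_lit 1418] false,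
   Spec.mk (nat_lit 21102) (nat_lit 1) [nat_lit 7980, nat_lit 22560, nat_lit 21588, nat_lit 21048, nat_lit 21084, nat_lit 21120, nat_lit 21108, nat_lit 21100] (nat_lit 0) [nat_lit 1420] false,
   Spec.mk (nat_lit 21106) (nat_lit 1) [nat_lit 7984, nat_lit 22564, nat_lit 21592, nat_lit 21052, nat_lit 21124, nat_lit 21100, nat_lit 21108] (nat_lit 0) [nat_lit 40788, nat_lit 1424] false,
   Spec.mk (nat_lit 21108) (nat_lit 2) [nat_lit 7986, nat_lit 22566, nat_lit 21594, nat_lit 21054, nat_lit 21126, nat_lit 21102, nat_lit 21106] (nat_lit 0) [nat_lit 1426] false,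
   Spec.mk (nat_lit 21116) (nat_lit 2) [nat_lit 7994, nat_lit 22574, nat_lit 21602, nat_lit 21098, nat_lit 21118] (nat_lit 0) [nat_lit 40798] false,
   Spec.mk (nat_lit 21118) (nat_lit 2) [nat_lit 7996, nat_lit 22576, nat_lit 21604, nat_lit 21100, nat_lit 21124, nat_lit 21116, nat_lit 21120] (nat_lit 0) [nat_lit 40800, nat_lit 1436] false,
   Spec.mk (nat_lit 21120) (nat_lit 0) [nat_lit 7998, nat_lit 22578, nat_lit 21606, nat_lit 21102, nat_lit 21126, nat_lit 21118] (nat_lit 0) [nat_lit 1438] false,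
   Spec.mk (nat_lit 21124) (nat_lit 3) [nat_lit 8002, nat_lit 22582, nat_lit 21610, nat_lit 21106, nat_lit 21118, nat_lit 21126] (nat_lit 0) [nat_lit 40806, nat_lit 1442] false,
   Spec.mk (nat_lit 21126) (nat_lit 3) [nat_lit 8004, nat_lit 22584, nat_lit 21612, nat_lit 21108, nat_lit 21120, nat_lit 21132, nat_lit 21124] (nat_lit 0) [nat_lit 1444] false,
   Spec.mk (nat_lit 21132) (nat_lit 4) [nat_lit 8010, nat_lit 22590, nat_lit 21618, nat_lit 21126] (nat_lit 0) [nat_lit 1450] false,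
   Spec.mk (nat_lit 21194) (nat_lit 2) [nat_lit 8072, nat_lit 22652, nat_lit 20708, nat_lit 21248, nat_lit 21212] (nat_lit 0) [nat_lit 40876] false,
   Spec.mk (nat_lit 21212) (nat_lit 0) [nat_lit 8090, nat_lit 22670, nat_lit 20726, nat_lit 21266, nat_lit 21194, nat_lit 21218] (nat_lit 0) [nat_lit 40894] false,
   Spec.mk (nat_lit 21218) (nat_lit 0) [nat_lit 8096, nat_lit 22676, nat_lit 20732, nat_lit 21272, nat_lit 21212, nat_lit 21220] (nat_lit 0) [nat_lit 40900] false,
   Spec.mk (nat_lit 21220) (nat_lit 1) [nat_lit 8098, nat_lit 22678, nat_lit 20734, nat_lit 21274, nat_lit 21218] (nat_lit 0) [nat_lit 40902, nat_lit 1538] false,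
   Spec.mk (nat_lit 21248) (nat_lit 0) [nat_lit 8126, nat_lit 22706, nat_lit 20762, nat_lit 21410, nat_lit 21194, nat_lit 21266] (nat_lit 0) [nat_lit 40930] false,
   Spec.mk (nat_lit 21266) (nat_lit 0) [nat_lit 8144, nat_lit 22724, nat_lit 20780, nat_lit 21428, nat_lit 21212, nat_lit 21320, nat_lit 21248, nat_lit 21284, nat_lit 21272] (nat_lit 0) [nat_lit 40948] false,
   Spec.mk (nat_lit 21272) (nat_lit 0) [nat_lit 8150, nat_lit 22730, nat_lit 20786, nat_lit 21434, nat_lit 21218, nat_lit 21326, nat_lit 21290, nat_lit 21266, nat_lit 21274] (nat_lit 1) [nat_lit 40954] false,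
   Spec.mk (nat_lit 21274) (nat_lit 0) [nat_lit 8152, nat_lit 22732, nat_lit 20788, nat_lit 21436, nat_lit 21220, nat_lit 21328, nat_lit 21292, nat_lit 21272] (nat_lit 0) [nat_lit 40956, nat_lit 1592] false,
   Spec.mk (nat_lit 21284) (nat_lit 0) [nat_lit 8162, nat_lit 22742, nat_lit 20798, nat_lit 21446, nat_lit 21338, nat_lit 21266, nat_lit 21290] (nat_lit 2) [nat_lit 40966] false,
   Spec.mk (nat_lit 21290) (nat_lit 0) [nat_lit 8168, nat_lit 22748, nat_lit 20804, nat_lit 21452, nat_lit 21344, nat_lit 21272, nat_lit 21284, nat_lit 21296, nat_lit 21292] (nat_lit 1) [nat_lit 40972] false,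
   Spec.mk (nat_lit 21292) (nat_lit 0) [nat_lit 8170, nat_lit 22750, nat_lit 20806, nat_lit 21454, nat_lit 21346, nat_lit 21274, nat_lit 21298, nat_lit 21290] (nat_lit 1) [nat_lit 40974, nat_lit 1610] false,
   Spec.mk (nat_lit 21296) (nat_lit 0) [nat_lit 8174, nat_lit 22754, nat_lit 20810, nat_lit 21458, nat_lit 21350, nat_lit 21290, nat_lit 21298] (nat_lit 2) [nat_lit 40978] false,
   Spec.mk (nat_lit 21298) (nat_lit 0) [nat_lit 8176, nat_lit 22756, nat_lit 20812, nat_lit 21460, nat_lit 21352, nat_lit 21292, nat_lit 21296, nat_lit 21300] (nat_lit 0) [nat_lit 40980, nat_lit 1616] false]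

noncomputable def sp51 : List Spec :=
  [Spec.mk (nat_lit 21300) (nat_lit 0) [nat_lit 8178, nat_lit 22758, nat_lit 20814, nat_lit 21462, nat_lit 21354, nat_lit 21298] (nat_lit 0) [nat_lit 1618] false,
   Spec.mk (nat_lit 21320) (nat_lit 0) [nat_lit 8198, nat_lit 22778, nat_lit 20834, nat_lit 21482, nat_lit 21266, nat_lit 21338, nat_lit 21326] (nat_lit 2) [nat_lit 41002] false,
   Spec.mk (nat_lit 21326) (nat_lit 0) [nat_lit 8204, nat_lit 22784, nat_lit 20840, nat_lit 21488, nat_lit 21272, nat_lit 21344, nat_lit 21320, nat_lit 21328] (nat_lit 4) [nat_lit 41008] false,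
   Spec.mk (nat_lit 21328) (nat_lit 0) [nat_lit 8206, nat_lit 22786, nat_lit 20842, nat_lit 21490, nat_lit 21274, nat_lit 21346, nat_lit 21326] (nat_lit 3) [nat_lit 41010, nat_lit 1646] false,
   Spec.mk (nat_lit 21338) (nat_lit 0) [nat_lit 8216, nat_lit 22796, nat_lit 20852, nat_lit 21500, nat_lit 21284, nat_lit 21320, nat_lit 21344] (nat_lit 2) [nat_lit 41020] false,
   Spec.mk (nat_lit 21344) (nat_lit 0) [nat_lit 8222, nat_lit 22802, nat_lit 20858, nat_lit 21506, nat_lit 21290, nat_lit 21326, nat_lit 21362, nat_lit 21338, nat_lit 21350, nat_lit 21346] (nat_lit 2) [nat_lit 41026] false,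
   Spec.mk (nat_lit 21346) (nat_lit 0) [nat_lit 8224, nat_lit 22804, nat_lit 20860, nat_lit 21508, nat_lit 21292, nat_lit 21328, nat_lit 21364, nat_lit 21352, nat_lit 21344] (nat_lit 2) [nat_lit 41028, nat_lit 1664] false,
   Spec.mk (nat_lit 21350) (nat_lit 0) [nat_lit 8228, nat_lit 22808, nat_lit 20864, nat_lit 21512, nat_lit 21296, nat_lit 21368, nat_lit 21344, nat_lit 21352] (nat_lit 4) [nat_lit 41032] false,
   Spec.mk (nat_lit 21352) (nat_lit 0) [nat_lit 8230, nat_lit 22810, nat_lit 20866, nat_lit 21514, nat_lit 21298, nat_lit 21370, nat_lit 21346, nat_lit 21350, nat_lit 21354] (nat_lit 2) [nat_lit 41034, nat_lit 1670] false,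
   Spec.mk (nat_lit 21354) (nat_lit 0) [nat_lit 8232, nat_lit 22812, nat_lit 20868, nat_lit 21516, nat_lit 21300, nat_lit 21372, nat_lit 21352] (nat_lit 2) [nat_lit 1672] false,
   Spec.mk (nat_lit 21362) (nat_lit 0) [nat_lit 8240, nat_lit 22820, nat_lit 20876, nat_lit 21524, nat_lit 21344, nat_lit 21368, nat_lit 21364] (nat_lit 2) [nat_lit 41044] false,
   Spec.mk (nat_lit 21364) (nat_lit 0) [nat_lit 8242, nat_lit 22822, nat_lit 20878, nat_lit 21526, nat_lit 21346, nat_lit 21370, nat_lit 21362] (nat_lit 3) [nat_lit 41046, nat_lit 1682] false,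
   Spec.mk (nat_lit 21368) (nat_lit 0) [nat_lit 8246, nat_lit 22826, nat_lit 20882, nat_lit 21530, nat_lit 21350, nat_lit 21362, nat_lit 21370] (nat_lit 2) [nat_lit 41050] false,
   Spec.mk (nat_lit 21370) (nat_lit 0) [nat_lit 8248, nat_lit 22828, nat_lit 20884, nat_lit 21532, nat_lit 21352, nat_lit 21364, nat_lit 21376, nat_lit 21368, nat_lit 21372] (nat_lit 1) [nat_lit 41052, nat_lit 1688] false,
   Spec.mk (nat_lit 21372) (nat_lit 0) [nat_lit 8250, nat_lit 22830, nat_lit 20886, nat_lit 21534, nat_lit 21354, nat_lit 21378, nat_lit 21370] (nat_lit 2) [nat_lit 1690] false,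
   Spec.mk (nat_lit 21376) (nat_lit 0) [nat_lit 8254, nat_lit 22834, nat_lit 20890, nat_lit 21538, nat_lit 21370, nat_lit 21378] (nat_lit 1) [nat_lit 41058, nat_lit 1694] false,
   Spec.mk (nat_lit 21378) (nat_lit 0) [nat_lit 8256, nat_lit 22836, nat_lit 20892, nat_lit 21540, nat_lit 21372, nat_lit 21376] (nat_lit 0) [nat_lit 1696] false,
   Spec.mk (nat_lit 21410) (nat_lit 2) [nat_lit 8288, nat_lit 22868, nat_lit 20924, nat_lit 21248, nat_lit 21428] (nat_lit 0) [nat_lit 41092] false,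
   Spec.mk (nat_lit 21428) (nat_lit 1) [nat_lit 8306, nat_lit 22886, nat_lit 20942, nat_lit 21266, nat_lit 21482, nat_lit 21410, nat_lit 21446, nat_lit 21434] (nat_lit 0) [nat_lit 41110] false,
   Spec.mk (nat_lit 21434) (nat_lit 0) [nat_lit 8312, nat_lit 22892, nat_lit 20948, nat_lit 21272, nat_lit 21488, nat_lit 21452, nat_lit 21428, nat_lit 21436] (nat_lit 0) [nat_lit 41116] false,
   Spec.mk (nat_lit 21436) (nat_lit 1) [nat_lit 8314, nat_lit 22894, nat_lit 20950, nat_lit 21274, nat_lit 21490, nat_lit 21454, nat_lit 21434] (nat_lit 0) [nat_lit 41118, nat_lit 1754] false,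
   Spec.mk (nat_lit 21446) (nat_lit 0) [nat_lit 8324, nat_lit 22904, nat_lit 20960, nat_lit 21284, nat_lit 21500, nat_lit 21428, nat_lit 21452] (nat_lit 2) [nat_lit 41128] false,
   Spec.mk (nat_lit 21452) (nat_lit 0) [nat_lit 8330, nat_lit 22910, nat_lit 20966, nat_lit 21290, nat_lit 21506, nat_lit 21434, nat_lit 21446, nat_lit 21458, nat_lit 21454] (nat_lit 1) [nat_lit 41134] false,
   Spec.mk (nat_lit 21454) (nat_lit 0) [nat_lit 8332, nat_lit 22912, nat_lit 20968, nat_lit 21292, nat_lit 21508, nat_lit 21436, nat_lit 21460, nat_lit 21452] (nat_lit 1) [nat_lit 41136, nat_lit 1772] false,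
   Spec.mk (nat_lit 21458) (nat_lit 0) [nat_lit 8336, nat_lit 22916, nat_lit 20972, nat_lit 21296, nat_lit 21512, nat_lit 21452, nat_lit 21460] (nat_lit 2) [nat_lit 41140] false,
   Spec.mk (nat_lit 21460) (nat_lit 0) [nat_lit 8338, nat_lit 22918, nat_lit 20974, nat_lit 21298, nat_lit 21514, nat_lit 21454, nat_lit 21458, nat_lit 21462] (nat_lit 0) [nat_lit 41142, nat_lit 1778] false,
   Spec.mk (nat_lit 21462) (nat_lit 0) [nat_lit 8340, nat_lit 22920, nat_lit 20976, nat_lit 21300, nat_lit 21516, nat_lit 21460] (nat_lit 0) [nat_lit 1780] false,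
   Spec.mk (nat_lit 21482) (nat_lit 1) [nat_lit 8360, nat_lit 22940, nat_lit 20996, nat_lit 21320, nat_lit 21644, nat_lit 21428, nat_lit 21500, nat_lit 21488] (nat_lit 0) [nat_lit 41164] false,
   Spec.mk (nat_lit 21488) (nat_lit 0) [nat_lit 8366, nat_lit 22946, nat_lit 21002, nat_lit 21326, nat_lit 21650, nat_lit 21434, nat_lit 21506, nat_lit 21482, nat_lit 21490] (nat_lit 1) [nat_lit 41170] false,
   Spec.mk (nat_lit 21490) (nat_lit 0) [nat_lit 8368, nat_lit 22948, nat_lit 21004, nat_lit 21328, nat_lit 21652, nat_lit 21436, nat_lit 21508, nat_lit 21488] (nat_lit 0) [nat_lit 41172, nat_lit 1808] false,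
   Spec.mk (nat_lit 21500) (nat_lit 0) [nat_lit 8378, nat_lit 22958, nat_lit 21014, nat_lit 21338, nat_lit 21662, nat_lit 21446, nat_lit 21554, nat_lit 21482, nat_lit 21506] (nat_lit 0) [nat_lit 41182] false,
   Spec.mk (nat_lit 21506) (nat_lit 0) [nat_lit 8384, nat_lit 22964, nat_lit 21020, nat_lit 21344, nat_lit 21668, nat_lit 21452, nat_lit 21560, nat_lit 21488, nat_lit 21524, nat_lit 21500, nat_lit 21512, nat_lit 21508] (nat_lit 0) [nat_lit 41188] false,
   Spec.mk (nat_lit 21508) (nat_lit 0) [nat_lit 8386, nat_lit 22966, nat_lit 21022, nat_lit 21346, nat_lit 21670, nat_lit 21454, nat_lit 21562, nat_lit 21490, nat_lit 21526, nat_lit 21514, nat_lit 21506] (nat_lit 0) [nat_lit 41190, nat_lit 1826] false,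
   Spec.mk (nat_lit 21512) (nat_lit 0) [nat_lit 8390, nat_lit 22970, nat_lit 21026, nat_lit 21350, nat_lit 21674, nat_lit 21458, nat_lit 21566, nat_lit 21530, nat_lit 21506, nat_lit 21514] (nat_lit 2) [nat_lit 41194] false,
   Spec.mk (nat_lit 21514) (nat_lit 0) [nat_lit 8392, nat_lit 22972, nat_lit 21028, nat_lit 21352, nat_lit 21676, nat_lit 21460, nat_lit 21568, nat_lit 21532, nat_lit 21508, nat_lit 21512, nat_lit 21516] (nat_lit 0) [nat_lit 41196, nat_lit 1832] false,
   Spec.mk (nat_lit 21516) (nat_lit 0) [nat_lit 8394, nat_lit 22974, nat_lit 21030, nat_lit 21354, nat_lit 21678, nat_lit 21462, nat_lit 21570, nat_lit 21534, nat_lit 21514] (nat_lit 0) [nat_lit 1834] false,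
   Spec.mk (nat_lit 21524) (nat_lit 0) [nat_lit 8402, nat_lit 22982, nat_lit 21038, nat_lit 21362, nat_lit 21686, nat_lit 21578, nat_lit 21506, nat_lit 21530, nat_lit 21526] (nat_lit 1) [nat_lit 41206] false,
   Spec.mk (nat_lit 21526) (nat_lit 0) [nat_lit 8404, nat_lit 22984, nat_lit 21040, nat_lit 21364, nat_lit 21688, nat_lit 21580, nat_lit 21508, nat_lit 21532, nat_lit 21524] (nat_lit 2) [nat_lit 41208, nat_lit 1844] false,
   Spec.mk (nat_lit 21530) (nat_lit 0) [nat_lit 8408, nat_lit 22988, nat_lit 21044, nat_lit 21368, nat_lit 21692, nat_lit 21584, nat_lit 21512, nat_lit 21524, nat_lit 21532] (nat_lit 1) [nat_lit 41212] false,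
   Spec.mk (nat_lit 21532) (nat_lit 0) [nat_lit 8410, nat_lit 22990, nat_lit 21046, nat_lit 21370, nat_lit 21694, nat_lit 21586, nat_lit 21514, nat_lit 21526, nat_lit 21538, nat_lit 21530, nat_lit 21534] (nat_lit 0) [nat_lit 41214, nat_lit 1850] false,
   Spec.mk (nat_lit 21534) (nat_lit 0) [nat_lit 8412, nat_lit 22992, nat_lit 21048, nat_lit 21372, nat_lit 21696, nat_lit 21588, nat_lit 21516, nat_lit 21540, nat_lit 21532] (nat_lit 1) [nat_lit 1852] false,
   Spec.mk (nat_lit 21538) (nat_lit 0) [nat_lit 8416, nat_lit 22996, nat_lit 21052, nat_lit 21376, nat_lit 21700, nat_lit 21592, nat_lit 21532, nat_lit 21540] (nat_lit 0) [nat_lit 41220, nat_lit 1856] false,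
   Spec.mk (nat_lit 21540) (nat_lit 1) [nat_lit 8418, nat_lit 22998, nat_lit 21054, nat_lit 21378, nat_lit 21702, nat_lit 21594, nat_lit 21534, nat_lit 21538] (nat_lit 0) [nat_lit 1858] false,
   Spec.mk (nat_lit 21554) (nat_lit 0) [nat_lit 8432, nat_lit 23012, nat_lit 21068, nat_lit 21716, nat_lit 21500, nat_lit 21560] (nat_lit 0) [nat_lit 41236] false,
   Spec.mk (nat_lit 21560) (nat_lit 0) [nat_lit 8438, nat_lit 23018, nat_lit 21074, nat_lit 21722, nat_lit 21506, nat_lit 21578, nat_lit 21554, nat_lit 21566, nat_lit 21562] (nat_lit 1) [nat_lit 41242] false,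
   Spec.mk (nat_lit 21562) (nat_lit 0) [nat_lit 8440, nat_lit 23020, nat_lit 21076, nat_lit 21724, nat_lit 21508, nat_lit 21580, nat_lit 21568, nat_lit 21560] (nat_lit 1) [nat_lit 41244, nat_lit 1880] false,
   Spec.mk (nat_lit 21566) (nat_lit 0) [nat_lit 8444, nat_lit 23024, nat_lit 21080, nat_lit 21728, nat_lit 21512, nat_lit 21584, nat_lit 21560, nat_lit 21568] (nat_lit 4) [nat_lit 41248] false,
   Spec.mk (nat_lit 21568) (nat_lit 0) [nat_lit 8446, nat_lit 23026, nat_lit 21082, nat_lit 21730, nat_lit 21514, nat_lit 21586, nat_lit 21562, nat_lit 21566, nat_lit 21570] (nat_lit 2) [nat_lit 41250, nat_lit 1886] false,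
   Spec.mk (nat_lit 21570) (nat_lit 0) [nat_lit 8448, nat_lit 23028, nat_lit 21084, nat_lit 21732, nat_lit 21516, nat_lit 21588, nat_lit 21568] (nat_lit 2) [nat_lit 1888] false,
   Spec.mk (nat_lit 21578) (nat_lit 0) [nat_lit 8456, nat_lit 23036, nat_lit 21092, nat_lit 21740, nat_lit 21524, nat_lit 21560, nat_lit 21584, nat_lit 21580] (nat_lit 0) [nat_lit 41260] false,
   Spec.mk (nat_lit 21580) (nat_lit 0) [nat_lit 8458, nat_lit 23038, nat_lit 21094, nat_lit 21742, nat_lit 21526, nat_lit 21562, nat_lit 21586, nat_lit 21578] (nat_lit 1) [nat_lit 41262, nat_lit 1898] false,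
   Spec.mk (nat_lit 21584) (nat_lit 0) [nat_lit 8462, nat_lit 23042, nat_lit 21098, nat_lit 21746, nat_lit 21530, nat_lit 21566, nat_lit 21602, nat_lit 21578, nat_lit 21586] (nat_lit 1) [nat_lit 41266] false,
   Spec.mk (nat_lit 21586) (nat_lit 0) [nat_lit 8464, nat_lit 23044, nat_lit 21100, nat_lit 21748, nat_lit 21532, nat_lit 21568, nat_lit 21604, nat_lit 21580, nat_lit 21592, nat_lit 21584, nat_lit 21588] (nat_lit 0) [nat_lit 41268, nat_lit 1904] false,
   Spec.mk (nat_lit 21588) (nat_lit 0) [nat_lit 8466, nat_lit 23046, nat_lit 21102, nat_lit 21750, nat_lit 21534, nat_lit 21570, nat_lit 21606, nat_lit 21594, nat_lit 21586] (nat_lit 1) [nat_lit 1906] false,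
   Spec.mk (nat_lit 21592) (nat_lit 0) [nat_lit 8470, nat_lit 23050, nat_lit 21106, nat_lit 21754, nat_lit 21538, nat_lit 21610, nat_lit 21586, nat_lit 21594] (nat_lit 1) [nat_lit 41274, nat_lit 1910] false,
   Spec.mk (nat_lit 21594) (nat_lit 0) [nat_lit 8472, nat_lit 23052, nat_lit 21108, nat_lit 21756, nat_lit 21540, nat_lit 21612, nat_lit 21588, nat_lit 21592] (nat_lit 0) [nat_lit 1912] false,
   Spec.mk (nat_lit 21602) (nat_lit 0) [nat_lit 8480, nat_lit 23060, nat_lit 21116, nat_lit 21764, nat_lit 21584, nat_lit 21604] (nat_lit 0) [nat_lit 41284] false,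
   Spec.mk (nat_lit 21604) (nat_lit 0) [nat_lit 8482, nat_lit 23062, nat_lit 21118, nat_lit 21766, nat_lit 21586, nat_lit 21610, nat_lit 21602, nat_lit 21606] (nat_lit 0) [nat_lit 41286, nat_lit 1922] false,
   Spec.mk (nat_lit 21606) (nat_lit 0) [nat_lit 8484, nat_lit 23064, nat_lit 21120, nat_lit 21768, nat_lit 21588, nat_lit 21612, nat_lit 21604] (nat_lit 2) [nat_lit 1924] false,
   Spec.mk (nat_lit 21610) (nat_lit 1) [nat_lit 8488, nat_lit 23068, nat_lit 21124, nat_lit 21772, nat_lit 21592, nat_lit 21604, nat_lit 21612] (nat_lit 0) [nat_lit 41292, nat_lit 1928] false]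

noncomputable def sp52 : List Spec :=
  [Spec.mk (nat_lit 21612) (nat_lit 1) [nat_lit 8490, nat_lit 23070, nat_lit 21126, nat_lit 21774, nat_lit 21594, nat_lit 21606, nat_lit 21618, nat_lit 21610] (nat_lit 0) [nat_lit 1930] false,
   Spec.mk (nat_lit 21618) (nat_lit 2) [nat_lit 8496, nat_lit 23076, nat_lit 21132, nat_lit 21780, nat_lit 21612] (nat_lit 0) [nat_lit 1936] false,
   Spec.mk (nat_lit 21644) (nat_lit 2) [nat_lit 8522, nat_lit 23102, nat_lit 21482, nat_lit 21662, nat_lit 21650] (nat_lit 0) [nat_lit 41326] false,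
   Spec.mk (nat_lit 21650) (nat_lit 0) [nat_lit 8528, nat_lit 23108, nat_lit 21488, nat_lit 21668, nat_lit 21644, nat_lit 21652] (nat_lit 0) [nat_lit 41332] false,
   Spec.mk (nat_lit 21652) (nat_lit 1) [nat_lit 8530, nat_lit 23110, nat_lit 21490, nat_lit 21670, nat_lit 21650] (nat_lit 0) [nat_lit 41334, nat_lit 1970] false,
   Spec.mk (nat_lit 21662) (nat_lit 0) [nat_lit 8540, nat_lit 23120, nat_lit 21500, nat_lit 21716, nat_lit 21644, nat_lit 21668] (nat_lit 0) [nat_lit 41344] false,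
   Spec.mk (nat_lit 21668) (nat_lit 0) [nat_lit 8546, nat_lit 23126, nat_lit 21506, nat_lit 21722, nat_lit 21650, nat_lit 21686, nat_lit 21662, nat_lit 21674, nat_lit 21670] (nat_lit 0) [nat_lit 41350] false,
   Spec.mk (nat_lit 21670) (nat_lit 0) [nat_lit 8548, nat_lit 23128, nat_lit 21508, nat_lit 21724, nat_lit 21652, nat_lit 21688, nat_lit 21676, nat_lit 21668] (nat_lit 0) [nat_lit 41352, nat_lit 1988] false,
   Spec.mk (nat_lit 21674) (nat_lit 0) [nat_lit 8552, nat_lit 23132, nat_lit 21512, nat_lit 21728, nat_lit 21692, nat_lit 21668, nat_lit 21676] (nat_lit 2) [nat_lit 41356] false,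
   Spec.mk (nat_lit 21676) (nat_lit 0) [nat_lit 8554, nat_lit 23134, nat_lit 21514, nat_lit 21730, nat_lit 21694, nat_lit 21670, nat_lit 21674, nat_lit 21678] (nat_lit 0) [nat_lit 41358, nat_lit 1994] false,
   Spec.mk (nat_lit 21678) (nat_lit 0) [nat_lit 8556, nat_lit 23136, nat_lit 21516, nat_lit 21732, nat_lit 21696, nat_lit 21676] (nat_lit 0) [nat_lit 1996] false,
   Spec.mk (nat_lit 21686) (nat_lit 0) [nat_lit 8564, nat_lit 23144, nat_lit 21524, nat_lit 21740, nat_lit 21668, nat_lit 21692, nat_lit 21688] (nat_lit 2) [nat_lit 41368] false,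
   Spec.mk (nat_lit 21688) (nat_lit 0) [nat_lit 8566, nat_lit 23146, nat_lit 21526, nat_lit 21742, nat_lit 21670, nat_lit 21694, nat_lit 21686] (nat_lit 3) [nat_lit 41370, nat_lit 2006] false,
   Spec.mk (nat_lit 21692) (nat_lit 0) [nat_lit 8570, nat_lit 23150, nat_lit 21530, nat_lit 21746, nat_lit 21674, nat_lit 21686, nat_lit 21694] (nat_lit 2) [nat_lit 41374] false,
   Spec.mk (nat_lit 21694) (nat_lit 0) [nat_lit 8572, nat_lit 23152, nat_lit 21532, nat_lit 21748, nat_lit 21676, nat_lit 21688, nat_lit 21700, nat_lit 21692, nat_lit 21696] (nat_lit 1) [nat_lit 41376, nat_lit 2012] false,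
   Spec.mk (nat_lit 21696) (nat_lit 0) [nat_lit 8574, nat_lit 23154, nat_lit 21534, nat_lit 21750, nat_lit 21678, nat_lit 21702, nat_lit 21694] (nat_lit 2) [nat_lit 2014] false,
   Spec.mk (nat_lit 21700) (nat_lit 0) [nat_lit 8578, nat_lit 23158, nat_lit 21538, nat_lit 21754, nat_lit 21694, nat_lit 21702] (nat_lit 1) [nat_lit 41382, nat_lit 2018] false,
   Spec.mk (nat_lit 21702) (nat_lit 0) [nat_lit 8580, nat_lit 23160, nat_lit 21540, nat_lit 21756, nat_lit 21696, nat_lit 21700] (nat_lit 0) [nat_lit 2020] false,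
   Spec.mk (nat_lit 21716) (nat_lit 2) [nat_lit 8594, nat_lit 23174, nat_lit 21554, nat_lit 21662, nat_lit 21722] (nat_lit 0) [nat_lit 41398] false,
   Spec.mk (nat_lit 21722) (nat_lit 1) [nat_lit 8600, nat_lit 23180, nat_lit 21560, nat_lit 21668, nat_lit 21740, nat_lit 21716, nat_lit 21728, nat_lit 21724] (nat_lit 0) [nat_lit 41404] false,
   Spec.mk (nat_lit 21724) (nat_lit 1) [nat_lit 8602, nat_lit 23182, nat_lit 21562, nat_lit 21670, nat_lit 21742, nat_lit 21730, nat_lit 21722] (nat_lit 0) [nat_lit 41406, nat_lit 2042] false,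
   Spec.mk (nat_lit 21728) (nat_lit 0) [nat_lit 8606, nat_lit 23186, nat_lit 21566, nat_lit 21674, nat_lit 21746, nat_lit 21722, nat_lit 21730] (nat_lit 2) [nat_lit 41410] false,
   Spec.mk (nat_lit 21730) (nat_lit 0) [nat_lit 8608, nat_lit 23188, nat_lit 21568, nat_lit 21676, nat_lit 21748, nat_lit 21724, nat_lit 21728, nat_lit 21732] (nat_lit 0) [nat_lit 41412, nat_lit 2048] false,
   Spec.mk (nat_lit 21732) (nat_lit 0) [nat_lit 8610, nat_lit 23190, nat_lit 21570, nat_lit 21678, nat_lit 21750, nat_lit 21730] (nat_lit 0) [nat_lit 2050] false,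
   Spec.mk (nat_lit 21740) (nat_lit 1) [nat_lit 8618, nat_lit 23198, nat_lit 21578, nat_lit 21686, nat_lit 21794, nat_lit 21722, nat_lit 21746, nat_lit 21742] (nat_lit 0) [nat_lit 41422] false,
   Spec.mk (nat_lit 21742) (nat_lit 0) [nat_lit 8620, nat_lit 23200, nat_lit 21580, nat_lit 21688, nat_lit 21796, nat_lit 21724, nat_lit 21748, nat_lit 21740] (nat_lit 0) [nat_lit 41424, nat_lit 2060] false,
   Spec.mk (nat_lit 21746) (nat_lit 0) [nat_lit 8624, nat_lit 23204, nat_lit 21584, nat_lit 21692, nat_lit 21800, nat_lit 21728, nat_lit 21764, nat_lit 21740, nat_lit 21748] (nat_lit 0) [nat_lit 41428] false,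
   Spec.mk (nat_lit 21748) (nat_lit 1) [nat_lit 8626, nat_lit 23206, nat_lit 21586, nat_lit 21694, nat_lit 21802, nat_lit 21730, nat_lit 21766, nat_lit 21742, nat_lit 21754, nat_lit 21746, nat_lit 21750] (nat_lit 0) [nat_lit 41430, nat_lit 2066] false,
   Spec.mk (nat_lit 21750) (nat_lit 0) [nat_lit 8628, nat_lit 23208, nat_lit 21588, nat_lit 21696, nat_lit 21804, nat_lit 21732, nat_lit 21768, nat_lit 21756, nat_lit 21748] (nat_lit 0) [nat_lit 2068] false,
   Spec.mk (nat_lit 21754) (nat_lit 0) [nat_lit 8632, nat_lit 23212, nat_lit 21592, nat_lit 21700, nat_lit 21808, nat_lit 21772, nat_lit 21748, nat_lit 21756] (nat_lit 0) [nat_lit 41436, nat_lit 2072] false,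
   Spec.mk (nat_lit 21756) (nat_lit 1) [nat_lit 8634, nat_lit 23214, nat_lit 21594, nat_lit 21702, nat_lit 21810, nat_lit 21774, nat_lit 21750, nat_lit 21754] (nat_lit 0) [nat_lit 2074] false,
   Spec.mk (nat_lit 21764) (nat_lit 0) [nat_lit 8642, nat_lit 23222, nat_lit 21602, nat_lit 21818, nat_lit 21746, nat_lit 21766] (nat_lit 0) [nat_lit 41446] false,
   Spec.mk (nat_lit 21766) (nat_lit 0) [nat_lit 8644, nat_lit 23224, nat_lit 21604, nat_lit 21820, nat_lit 21748, nat_lit 21772, nat_lit 21764, nat_lit 21768] (nat_lit 0) [nat_lit 41448, nat_lit 2084] false,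
   Spec.mk (nat_lit 21768) (nat_lit 0) [nat_lit 8646, nat_lit 23226, nat_lit 21606, nat_lit 21822, nat_lit 21750, nat_lit 21774, nat_lit 21766] (nat_lit 2) [nat_lit 2086] false,
   Spec.mk (nat_lit 21772) (nat_lit 1) [nat_lit 8650, nat_lit 23230, nat_lit 21610, nat_lit 21826, nat_lit 21754, nat_lit 21766, nat_lit 21774] (nat_lit 0) [nat_lit 41454, nat_lit 2090] false,
   Spec.mk (nat_lit 21774) (nat_lit 1) [nat_lit 8652, nat_lit 23232, nat_lit 21612, nat_lit 21828, nat_lit 21756, nat_lit 21768, nat_lit 21780, nat_lit 21772] (nat_lit 0) [nat_lit 2092] false,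
   Spec.mk (nat_lit 21780) (nat_lit 2) [nat_lit 8658, nat_lit 23238, nat_lit 21618, nat_lit 21834, nat_lit 21774] (nat_lit 0) [nat_lit 2098] false,
   Spec.mk (nat_lit 21794) (nat_lit 2) [nat_lit 8672, nat_lit 23252, nat_lit 21740, nat_lit 21800, nat_lit 21796] (nat_lit 0) [nat_lit 41476] false,
   Spec.mk (nat_lit 21796) (nat_lit 1) [nat_lit 8674, nat_lit 23254, nat_lit 21742, nat_lit 21802, nat_lit 21794] (nat_lit 0) [nat_lit 41478, nat_lit 2114] false,
   Spec.mk (nat_lit 21800) (nat_lit 0) [nat_lit 8678, nat_lit 23258, nat_lit 21746, nat_lit 21818, nat_lit 21794, nat_lit 21802] (nat_lit 0) [nat_lit 41482] false,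
   Spec.mk (nat_lit 21802) (nat_lit 1) [nat_lit 8680, nat_lit 23260, nat_lit 21748, nat_lit 21820, nat_lit 21796, nat_lit 21808, nat_lit 21800, nat_lit 21804] (nat_lit 0) [nat_lit 41484, nat_lit 2120] false,
   Spec.mk (nat_lit 21804) (nat_lit 0) [nat_lit 8682, nat_lit 23262, nat_lit 21750, nat_lit 21822, nat_lit 21810, nat_lit 21802] (nat_lit 0) [nat_lit 2122] false,
   Spec.mk (nat_lit 21808) (nat_lit 0) [nat_lit 8686, nat_lit 23266, nat_lit 21754, nat_lit 21826, nat_lit 21802, nat_lit 21810] (nat_lit 1) [nat_lit 41490, nat_lit 2126] false,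
   Spec.mk (nat_lit 21810) (nat_lit 0) [nat_lit 8688, nat_lit 23268, nat_lit 21756, nat_lit 21828, nat_lit 21804, nat_lit 21808] (nat_lit 0) [nat_lit 2128] false,
   Spec.mk (nat_lit 21818) (nat_lit 2) [nat_lit 8696, nat_lit 23276, nat_lit 21764, nat_lit 21800, nat_lit 21820] (nat_lit 0) [nat_lit 41500] false,
   Spec.mk (nat_lit 21820) (nat_lit 2) [nat_lit 8698, nat_lit 23278, nat_lit 21766, nat_lit 21802, nat_lit 21826, nat_lit 21818, nat_lit 21822] (nat_lit 0) [nat_lit 41502, nat_lit 2138] false,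
   Spec.mk (nat_lit 21822) (nat_lit 0) [nat_lit 8700, nat_lit 23280, nat_lit 21768, nat_lit 21804, nat_lit 21828, nat_lit 21820] (nat_lit 0) [nat_lit 2140] false,
   Spec.mk (nat_lit 21826) (nat_lit 2) [nat_lit 8704, nat_lit 23284, nat_lit 21772, nat_lit 21808, nat_lit 21844, nat_lit 21820, nat_lit 21828] (nat_lit 0) [nat_lit 41508, nat_lit 2144] false,
   Spec.mk (nat_lit 21828) (nat_lit 2) [nat_lit 8706, nat_lit 23286, nat_lit 21774, nat_lit 21810, nat_lit 21846, nat_lit 21822, nat_lit 21834, nat_lit 21826] (nat_lit 0) [nat_lit 2146] false,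
   Spec.mk (nat_lit 21834) (nat_lit 2) [nat_lit 8712, nat_lit 23292, nat_lit 21780, nat_lit 21852, nat_lit 21828] (nat_lit 0) [nat_lit 2152] false,
   Spec.mk (nat_lit 21844) (nat_lit 3) [nat_lit 8722, nat_lit 23302, nat_lit 21826, nat_lit 21846] (nat_lit 0) [nat_lit 41526, nat_lit 2162] false,
   Spec.mk (nat_lit 21846) (nat_lit 2) [nat_lit 8724, nat_lit 23304, nat_lit 21828, nat_lit 21852, nat_lit 21844] (nat_lit 0) [nat_lit 2164] false,
   Spec.mk (nat_lit 21852) (nat_lit 4) [nat_lit 8730, nat_lit 23310, nat_lit 21834, nat_lit 21846] (nat_lit 0) [nat_lit 2170] false,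
   Spec.mk (nat_lit 21950) (nat_lit 4) [nat_lit 8828, nat_lit 26324, nat_lit 20492, nat_lit 22004] (nat_lit 0) [nat_lit 41632] false,
   Spec.mk (nat_lit 22004) (nat_lit 3) [nat_lit 8882, nat_lit 26378, nat_lit 20546, nat_lit 22166, nat_lit 21950, nat_lit 22058, nat_lit 22022] (nat_lit 0) [nat_lit 41686] false,
   Spec.mk (nat_lit 22022) (nat_lit 2) [nat_lit 8900, nat_lit 26396, nat_lit 20564, nat_lit 22184, nat_lit 22076, nat_lit 22004, nat_lit 22028] (nat_lit 0) [nat_lit 41704] false,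
   Spec.mk (nat_lit 22028) (nat_lit 2) [nat_lit 8906, nat_lit 26402, nat_lit 20570, nat_lit 22190, nat_lit 22082, nat_lit 22022, nat_lit 22030] (nat_lit 0) [nat_lit 41710] false,
   Spec.mk (nat_lit 22030) (nat_lit 3) [nat_lit 8908, nat_lit 26404, nat_lit 20572, nat_lit 22192, nat_lit 22084, nat_lit 22028] (nat_lit 0) [nat_lit 41712, nat_lit 2348] false,
   Spec.mk (nat_lit 22058) (nat_lit 0) [nat_lit 8936, nat_lit 26432, nat_lit 20600, nat_lit 22220, nat_lit 22004, nat_lit 22076] (nat_lit 0) [nat_lit 41740] false,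
   Spec.mk (nat_lit 22076) (nat_lit 1) [nat_lit 8954, nat_lit 26450, nat_lit 20618, nat_lit 22238, nat_lit 22022, nat_lit 22058, nat_lit 22094, nat_lit 22082] (nat_lit 0) [nat_lit 41758] false]

noncomputable def sp53 : List Spec :=
  [Spec.mk (nat_lit 22082) (nat_lit 0) [nat_lit 8960, nat_lit 26456, nat_lit 20624, nat_lit 22244, nat_lit 22028, nat_lit 22100, nat_lit 22076, nat_lit 22084] (nat_lit 0) [nat_lit 41764] false,
   Spec.mk (nat_lit 22084) (nat_lit 1) [nat_lit 8962, nat_lit 26458, nat_lit 20626, nat_lit 22246, nat_lit 22030, nat_lit 22102, nat_lit 22082] (nat_lit 0) [nat_lit 41766, nat_lit 2402] false,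
   Spec.mk (nat_lit 22094) (nat_lit 0) [nat_lit 8972, nat_lit 26468, nat_lit 20636, nat_lit 22256, nat_lit 22076, nat_lit 22100] (nat_lit 0) [nat_lit 41776] false,
   Spec.mk (nat_lit 22100) (nat_lit 1) [nat_lit 8978, nat_lit 26474, nat_lit 20642, nat_lit 22262, nat_lit 22082, nat_lit 22094, nat_lit 22106, nat_lit 22102] (nat_lit 0) [nat_lit 41782] false,
   Spec.mk (nat_lit 22102) (nat_lit 1) [nat_lit 8980, nat_lit 26476, nat_lit 20644, nat_lit 22264, nat_lit 22084, nat_lit 22108, nat_lit 22100] (nat_lit 0) [nat_lit 41784, nat_lit 2420] false,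
   Spec.mk (nat_lit 22106) (nat_lit 0) [nat_lit 8984, nat_lit 26480, nat_lit 20648, nat_lit 22268, nat_lit 22100, nat_lit 22108] (nat_lit 0) [nat_lit 41788] false,
   Spec.mk (nat_lit 22108) (nat_lit 2) [nat_lit 8986, nat_lit 26482, nat_lit 20650, nat_lit 22270, nat_lit 22102, nat_lit 22106, nat_lit 22110] (nat_lit 0) [nat_lit 41790, nat_lit 2426] false,
   Spec.mk (nat_lit 22110) (nat_lit 2) [nat_lit 8988, nat_lit 26484, nat_lit 20652, nat_lit 22272, nat_lit 22108] (nat_lit 0) [nat_lit 2428] false,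
   Spec.mk (nat_lit 22166) (nat_lit 2) [nat_lit 9044, nat_lit 26540, nat_lit 20708, nat_lit 22652, nat_lit 22004, nat_lit 22220, nat_lit 22184] (nat_lit 0) [nat_lit 41848] false,
   Spec.mk (nat_lit 22184) (nat_lit 0) [nat_lit 9062, nat_lit 26558, nat_lit 20726, nat_lit 22670, nat_lit 22022, nat_lit 22238, nat_lit 22166, nat_lit 22190] (nat_lit 0) [nat_lit 41866] false,
   Spec.mk (nat_lit 22190) (nat_lit 0) [nat_lit 9068, nat_lit 26564, nat_lit 20732, nat_lit 22676, nat_lit 22028, nat_lit 22244, nat_lit 22184, nat_lit 22192] (nat_lit 0) [nat_lit 41872] false,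
   Spec.mk (nat_lit 22192) (nat_lit 1) [nat_lit 9070, nat_lit 26566, nat_lit 20734, nat_lit 22678, nat_lit 22030, nat_lit 22246, nat_lit 22190] (nat_lit 0) [nat_lit 41874, nat_lit 2510] false,
   Spec.mk (nat_lit 22220) (nat_lit 1) [nat_lit 9098, nat_lit 26594, nat_lit 20762, nat_lit 22706, nat_lit 22058, nat_lit 22382, nat_lit 22166, nat_lit 22238] (nat_lit 0) [nat_lit 41902] false,
   Spec.mk (nat_lit 22238) (nat_lit 1) [nat_lit 9116, nat_lit 26612, nat_lit 20780, nat_lit 22724, nat_lit 22076, nat_lit 22400, nat_lit 22184, nat_lit 22292, nat_lit 22220, nat_lit 22256, nat_lit 22244] (nat_lit 0) [nat_lit 41920] false,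
   Spec.mk (nat_lit 22244) (nat_lit 0) [nat_lit 9122, nat_lit 26618, nat_lit 20786, nat_lit 22730, nat_lit 22082, nat_lit 22406, nat_lit 22190, nat_lit 22298, nat_lit 22262, nat_lit 22238, nat_lit 22246] (nat_lit 0) [nat_lit 41926] false,
   Spec.mk (nat_lit 22246) (nat_lit 1) [nat_lit 9124, nat_lit 26620, nat_lit 20788, nat_lit 22732, nat_lit 22084, nat_lit 22408, nat_lit 22192, nat_lit 22300, nat_lit 22264, nat_lit 22244] (nat_lit 0) [nat_lit 41928, nat_lit 2564] false,
   Spec.mk (nat_lit 22256) (nat_lit 0) [nat_lit 9134, nat_lit 26630, nat_lit 20798, nat_lit 22742, nat_lit 22094, nat_lit 22418, nat_lit 22310, nat_lit 22238, nat_lit 22262] (nat_lit 1) [nat_lit 41938] false,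
   Spec.mk (nat_lit 22262) (nat_lit 0) [nat_lit 9140, nat_lit 26636, nat_lit 20804, nat_lit 22748, nat_lit 22100, nat_lit 22424, nat_lit 22316, nat_lit 22244, nat_lit 22256, nat_lit 22268, nat_lit 22264] (nat_lit 0) [nat_lit 41944] false,
   Spec.mk (nat_lit 22264) (nat_lit 0) [nat_lit 9142, nat_lit 26638, nat_lit 20806, nat_lit 22750, nat_lit 22102, nat_lit 22426, nat_lit 22318, nat_lit 22246, nat_lit 22270, nat_lit 22262] (nat_lit 0) [nat_lit 41946, nat_lit 2582] false,
   Spec.mk (nat_lit 22268) (nat_lit 0) [nat_lit 9146, nat_lit 26642, nat_lit 20810, nat_lit 22754, nat_lit 22106, nat_lit 22430, nat_lit 22322, nat_lit 22262, nat_lit 22270] (nat_lit 1) [nat_lit 41950] false,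
   Spec.mk (nat_lit 22270) (nat_lit 1) [nat_lit 9148, nat_lit 26644, nat_lit 20812, nat_lit 22756, nat_lit 22108, nat_lit 22432, nat_lit 22324, nat_lit 22264, nat_lit 22268, nat_lit 22272] (nat_lit 0) [nat_lit 41952, nat_lit 2588] false,
   Spec.mk (nat_lit 22272) (nat_lit 1) [nat_lit 9150, nat_lit 26646, nat_lit 20814, nat_lit 22758, nat_lit 22110, nat_lit 22434, nat_lit 22326, nat_lit 22270] (nat_lit 0) [nat_lit 2590] false,
   Spec.mk (nat_lit 22292) (nat_lit 0) [nat_lit 9170, nat_lit 26666, nat_lit 20834, nat_lit 22778, nat_lit 22454, nat_lit 22238, nat_lit 22310, nat_lit 22298] (nat_lit 0) [nat_lit 41974] false,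
   Spec.mk (nat_lit 22298) (nat_lit 0) [nat_lit 9176, nat_lit 26672, nat_lit 20840, nat_lit 22784, nat_lit 22460, nat_lit 22244, nat_lit 22316, nat_lit 22292, nat_lit 22300] (nat_lit 2) [nat_lit 41980] false,
   Spec.mk (nat_lit 22300) (nat_lit 0) [nat_lit 9178, nat_lit 26674, nat_lit 20842, nat_lit 22786, nat_lit 22462, nat_lit 22246, nat_lit 22318, nat_lit 22298] (nat_lit 1) [nat_lit 41982, nat_lit 2618] false,
   Spec.mk (nat_lit 22310) (nat_lit 0) [nat_lit 9188, nat_lit 26684, nat_lit 20852, nat_lit 22796, nat_lit 22472, nat_lit 22256, nat_lit 22292, nat_lit 22316] (nat_lit 0) [nat_lit 41992] false,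
   Spec.mk (nat_lit 22316) (nat_lit 0) [nat_lit 9194, nat_lit 26690, nat_lit 20858, nat_lit 22802, nat_lit 22478, nat_lit 22262, nat_lit 22298, nat_lit 22334, nat_lit 22310, nat_lit 22322, nat_lit 22318] (nat_lit 0) [nat_lit 41998] false,
   Spec.mk (nat_lit 22318) (nat_lit 0) [nat_lit 9196, nat_lit 26692, nat_lit 20860, nat_lit 22804, nat_lit 22480, nat_lit 22264, nat_lit 22300, nat_lit 22336, nat_lit 22324, nat_lit 22316] (nat_lit 0) [nat_lit 42000, nat_lit 2636] false,
   Spec.mk (nat_lit 22322) (nat_lit 0) [nat_lit 9200, nat_lit 26696, nat_lit 20864, nat_lit 22808, nat_lit 22484, nat_lit 22268, nat_lit 22340, nat_lit 22316, nat_lit 22324] (nat_lit 2) [nat_lit 42004] false,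
   Spec.mk (nat_lit 22324) (nat_lit 0) [nat_lit 9202, nat_lit 26698, nat_lit 20866, nat_lit 22810, nat_lit 22486, nat_lit 22270, nat_lit 22342, nat_lit 22318, nat_lit 22322, nat_lit 22326] (nat_lit 0) [nat_lit 42006, nat_lit 2642] false,
   Spec.mk (nat_lit 22326) (nat_lit 0) [nat_lit 9204, nat_lit 26700, nat_lit 20868, nat_lit 22812, nat_lit 22488, nat_lit 22272, nat_lit 22344, nat_lit 22324] (nat_lit 0) [nat_lit 2644] false,
   Spec.mk (nat_lit 22334) (nat_lit 0) [nat_lit 9212, nat_lit 26708, nat_lit 20876, nat_lit 22820, nat_lit 22496, nat_lit 22316, nat_lit 22340, nat_lit 22336] (nat_lit 0) [nat_lit 42016] false,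
   Spec.mk (nat_lit 22336) (nat_lit 0) [nat_lit 9214, nat_lit 26710, nat_lit 20878, nat_lit 22822, nat_lit 22498, nat_lit 22318, nat_lit 22342, nat_lit 22334] (nat_lit 1) [nat_lit 42018, nat_lit 2654] false,
   Spec.mk (nat_lit 22340) (nat_lit 0) [nat_lit 9218, nat_lit 26714, nat_lit 20882, nat_lit 22826, nat_lit 22502, nat_lit 22322, nat_lit 22334, nat_lit 22342] (nat_lit 0) [nat_lit 42022] false,
   Spec.mk (nat_lit 22342) (nat_lit 1) [nat_lit 9220, nat_lit 26716, nat_lit 20884, nat_lit 22828, nat_lit 22504, nat_lit 22324, nat_lit 22336, nat_lit 22348, nat_lit 22340, nat_lit 22344] (nat_lit 0) [nat_lit 42024, nat_lit 2660] false,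
   Spec.mk (nat_lit 22344) (nat_lit 0) [nat_lit 9222, nat_lit 26718, nat_lit 20886, nat_lit 22830, nat_lit 22506, nat_lit 22326, nat_lit 22350, nat_lit 22342] (nat_lit 0) [nat_lit 2662] false,
   Spec.mk (nat_lit 22348) (nat_lit 1) [nat_lit 9226, nat_lit 26722, nat_lit 20890, nat_lit 22834, nat_lit 22510, nat_lit 22342, nat_lit 22350] (nat_lit 0) [nat_lit 42030, nat_lit 2666] false,
   Spec.mk (nat_lit 22350) (nat_lit 2) [nat_lit 9228, nat_lit 26724, nat_lit 20892, nat_lit 22836, nat_lit 22512, nat_lit 22344, nat_lit 22348] (nat_lit 0) [nat_lit 2668] false,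
   Spec.mk (nat_lit 22382) (nat_lit 0) [nat_lit 9260, nat_lit 26756, nat_lit 20924, nat_lit 22868, nat_lit 22220, nat_lit 22400] (nat_lit 0) [nat_lit 42064] false,
   Spec.mk (nat_lit 22400) (nat_lit 0) [nat_lit 9278, nat_lit 26774, nat_lit 20942, nat_lit 22886, nat_lit 22238, nat_lit 22454, nat_lit 22382, nat_lit 22418, nat_lit 22406] (nat_lit 1) [nat_lit 42082] false,
   Spec.mk (nat_lit 22406) (nat_lit 0) [nat_lit 9284, nat_lit 26780, nat_lit 20948, nat_lit 22892, nat_lit 22244, nat_lit 22460, nat_lit 22424, nat_lit 22400, nat_lit 22408] (nat_lit 2) [nat_lit 42088] false,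
   Spec.mk (nat_lit 22408) (nat_lit 0) [nat_lit 9286, nat_lit 26782, nat_lit 20950, nat_lit 22894, nat_lit 22246, nat_lit 22462, nat_lit 22426, nat_lit 22406] (nat_lit 1) [nat_lit 42090, nat_lit 2726] false,
   Spec.mk (nat_lit 22418) (nat_lit 0) [nat_lit 9296, nat_lit 26792, nat_lit 20960, nat_lit 22904, nat_lit 22256, nat_lit 22472, nat_lit 22400, nat_lit 22424] (nat_lit 4) [nat_lit 42100] false,
   Spec.mk (nat_lit 22424) (nat_lit 0) [nat_lit 9302, nat_lit 26798, nat_lit 20966, nat_lit 22910, nat_lit 22262, nat_lit 22478, nat_lit 22406, nat_lit 22418, nat_lit 22430, nat_lit 22426] (nat_lit 3) [nat_lit 42106] false,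
   Spec.mk (nat_lit 22426) (nat_lit 0) [nat_lit 9304, nat_lit 26800, nat_lit 20968, nat_lit 22912, nat_lit 22264, nat_lit 22480, nat_lit 22408, nat_lit 22432, nat_lit 22424] (nat_lit 3) [nat_lit 42108, nat_lit 2744] false,
   Spec.mk (nat_lit 22430) (nat_lit 0) [nat_lit 9308, nat_lit 26804, nat_lit 20972, nat_lit 22916, nat_lit 22268, nat_lit 22484, nat_lit 22424, nat_lit 22432] (nat_lit 4) [nat_lit 42112] false,
   Spec.mk (nat_lit 22432) (nat_lit 0) [nat_lit 9310, nat_lit 26806, nat_lit 20974, nat_lit 22918, nat_lit 22270, nat_lit 22486, nat_lit 22426, nat_lit 22430, nat_lit 22434] (nat_lit 2) [nat_lit 42114, nat_lit 2750] false,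
   Spec.mk (nat_lit 22434) (nat_lit 0) [nat_lit 9312, nat_lit 26808, nat_lit 20976, nat_lit 22920, nat_lit 22272, nat_lit 22488, nat_lit 22432] (nat_lit 2) [nat_lit 2752] false,
   Spec.mk (nat_lit 22454) (nat_lit 0) [nat_lit 9332, nat_lit 26828, nat_lit 20996, nat_lit 22940, nat_lit 22292, nat_lit 22400, nat_lit 22472, nat_lit 22460] (nat_lit 0) [nat_lit 42136] false,
   Spec.mk (nat_lit 22460) (nat_lit 0) [nat_lit 9338, nat_lit 26834, nat_lit 21002, nat_lit 22946, nat_lit 22298, nat_lit 22406, nat_lit 22478, nat_lit 22454, nat_lit 22462] (nat_lit 2) [nat_lit 42142] false,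
   Spec.mk (nat_lit 22462) (nat_lit 0) [nat_lit 9340, nat_lit 26836, nat_lit 21004, nat_lit 22948, nat_lit 22300, nat_lit 22408, nat_lit 22480, nat_lit 22460] (nat_lit 1) [nat_lit 42144, nat_lit 2780] false,
   Spec.mk (nat_lit 22472) (nat_lit 0) [nat_lit 9350, nat_lit 26846, nat_lit 21014, nat_lit 22958, nat_lit 22310, nat_lit 22418, nat_lit 22526, nat_lit 22454, nat_lit 22478] (nat_lit 1) [nat_lit 42154] false,
   Spec.mk (nat_lit 22478) (nat_lit 0) [nat_lit 9356, nat_lit 26852, nat_lit 21020, nat_lit 22964, nat_lit 22316, nat_lit 22424, nat_lit 22532, nat_lit 22460, nat_lit 22496, nat_lit 22472, nat_lit 22484, nat_lit 22480] (nat_lit 1) [nat_lit 42160] false,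
   Spec.mk (nat_lit 22480) (nat_lit 0) [nat_lit 9358, nat_lit 26854, nat_lit 21022, nat_lit 22966, nat_lit 22318, nat_lit 22426, nat_lit 22534, nat_lit 22462, nat_lit 22498, nat_lit 22486, nat_lit 22478] (nat_lit 1) [nat_lit 42162, nat_lit 2798] false,
   Spec.mk (nat_lit 22484) (nat_lit 0) [nat_lit 9362, nat_lit 26858, nat_lit 21026, nat_lit 22970, nat_lit 22322, nat_lit 22430, nat_lit 22538, nat_lit 22502, nat_lit 22478, nat_lit 22486] (nat_lit 3) [nat_lit 42166] false,
   Spec.mk (nat_lit 22486) (nat_lit 0) [nat_lit 9364, nat_lit 26860, nat_lit 21028, nat_lit 22972, nat_lit 22324, nat_lit 22432, nat_lit 22540, nat_lit 22504, nat_lit 22480, nat_lit 22484, nat_lit 22488] (nat_lit 1) [nat_lit 42168, nat_lit 2804] false,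
   Spec.mk (nat_lit 22488) (nat_lit 0) [nat_lit 9366, nat_lit 26862, nat_lit 21030, nat_lit 22974, nat_lit 22326, nat_lit 22434, nat_lit 22542, nat_lit 22506, nat_lit 22486] (nat_lit 1) [nat_lit 2806] false,
   Spec.mk (nat_lit 22496) (nat_lit 0) [nat_lit 9374, nat_lit 26870, nat_lit 21038, nat_lit 22982, nat_lit 22334, nat_lit 22550, nat_lit 22478, nat_lit 22502, nat_lit 22498] (nat_lit 2) [nat_lit 42178] false,
   Spec.mk (nat_lit 22498) (nat_lit 0) [nat_lit 9376, nat_lit 26872, nat_lit 21040, nat_lit 22984, nat_lit 22336, nat_lit 22552, nat_lit 22480, nat_lit 22504, nat_lit 22496] (nat_lit 3) [nat_lit 42180, nat_lit 2816] false,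
   Spec.mk (nat_lit 22502) (nat_lit 0) [nat_lit 9380, nat_lit 26876, nat_lit 21044, nat_lit 22988, nat_lit 22340, nat_lit 22556, nat_lit 22484, nat_lit 22496, nat_lit 22504] (nat_lit 2) [nat_lit 42184] false]

noncomputable def sp54 : List Spec :=
  [Spec.mk (nat_lit 22504) (nat_lit 0) [nat_lit 9382, nat_lit 26878, nat_lit 21046, nat_lit 22990, nat_lit 22342, nat_lit 22558, nat_lit 22486, nat_lit 22498, nat_lit 22510, nat_lit 22502, nat_lit 22506] (nat_lit 1) [nat_lit 42186, nat_lit 2822] false,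
   Spec.mk (nat_lit 22506) (nat_lit 0) [nat_lit 9384, nat_lit 26880, nat_lit 21048, nat_lit 22992, nat_lit 22344, nat_lit 22560, nat_lit 22488, nat_lit 22512, nat_lit 22504] (nat_lit 2) [nat_lit 2824] false,
   Spec.mk (nat_lit 22510) (nat_lit 0) [nat_lit 9388, nat_lit 26884, nat_lit 21052, nat_lit 22996, nat_lit 22348, nat_lit 22564, nat_lit 22504, nat_lit 22512] (nat_lit 1) [nat_lit 42192, nat_lit 2828] false,
   Spec.mk (nat_lit 22512) (nat_lit 0) [nat_lit 9390, nat_lit 26886, nat_lit 21054, nat_lit 22998, nat_lit 22350, nat_lit 22566, nat_lit 22506, nat_lit 22510] (nat_lit 0) [nat_lit 2830] false,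
   Spec.mk (nat_lit 22526) (nat_lit 0) [nat_lit 9404, nat_lit 26900, nat_lit 21068, nat_lit 23012, nat_lit 22472, nat_lit 22532] (nat_lit 0) [nat_lit 42208] false,
   Spec.mk (nat_lit 22532) (nat_lit 0) [nat_lit 9410, nat_lit 26906, nat_lit 21074, nat_lit 23018, nat_lit 22478, nat_lit 22550, nat_lit 22526, nat_lit 22538, nat_lit 22534] (nat_lit 1) [nat_lit 42214] false,
   Spec.mk (nat_lit 22534) (nat_lit 0) [nat_lit 9412, nat_lit 26908, nat_lit 21076, nat_lit 23020, nat_lit 22480, nat_lit 22552, nat_lit 22540, nat_lit 22532] (nat_lit 1) [nat_lit 42216, nat_lit 2852] false,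
   Spec.mk (nat_lit 22538) (nat_lit 0) [nat_lit 9416, nat_lit 26912, nat_lit 21080, nat_lit 23024, nat_lit 22484, nat_lit 22556, nat_lit 22532, nat_lit 22540] (nat_lit 4) [nat_lit 42220] false,
   Spec.mk (nat_lit 22540) (nat_lit 0) [nat_lit 9418, nat_lit 26914, nat_lit 21082, nat_lit 23026, nat_lit 22486, nat_lit 22558, nat_lit 22534, nat_lit 22538, nat_lit 22542] (nat_lit 2) [nat_lit 42222, nat_lit 2858] false,
   Spec.mk (nat_lit 22542) (nat_lit 0) [nat_lit 9420, nat_lit 26916, nat_lit 21084, nat_lit 23028, nat_lit 22488, nat_lit 22560, nat_lit 22540] (nat_lit 2) [nat_lit 2860] false,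
   Spec.mk (nat_lit 22550) (nat_lit 0) [nat_lit 9428, nat_lit 26924, nat_lit 21092, nat_lit 23036, nat_lit 22496, nat_lit 22532, nat_lit 22556, nat_lit 22552] (nat_lit 0) [nat_lit 42232] false,
   Spec.mk (nat_lit 22552) (nat_lit 0) [nat_lit 9430, nat_lit 26926, nat_lit 21094, nat_lit 23038, nat_lit 22498, nat_lit 22534, nat_lit 22558, nat_lit 22550] (nat_lit 1) [nat_lit 42234, nat_lit 2870] false,
   Spec.mk (nat_lit 22556) (nat_lit 0) [nat_lit 9434, nat_lit 26930, nat_lit 21098, nat_lit 23042, nat_lit 22502, nat_lit 22538, nat_lit 22574, nat_lit 22550, nat_lit 22558] (nat_lit 1) [nat_lit 42238] false,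
   Spec.mk (nat_lit 22558) (nat_lit 0) [nat_lit 9436, nat_lit 26932, nat_lit 21100, nat_lit 23044, nat_lit 22504, nat_lit 22540, nat_lit 22576, nat_lit 22552, nat_lit 22564, nat_lit 22556, nat_lit 22560] (nat_lit 0) [nat_lit 42240, nat_lit 2876] false,
   Spec.mk (nat_lit 22560) (nat_lit 0) [nat_lit 9438, nat_lit 26934, nat_lit 21102, nat_lit 23046, nat_lit 22506, nat_lit 22542, nat_lit 22578, nat_lit 22566, nat_lit 22558] (nat_lit 1) [nat_lit 2878] false,
   Spec.mk (nat_lit 22564) (nat_lit 0) [nat_lit 9442, nat_lit 26938, nat_lit 21106, nat_lit 23050, nat_lit 22510, nat_lit 22582, nat_lit 22558, nat_lit 22566] (nat_lit 1) [nat_lit 42246, nat_lit 2882] false,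
   Spec.mk (nat_lit 22566) (nat_lit 0) [nat_lit 9444, nat_lit 26940, nat_lit 21108, nat_lit 23052, nat_lit 22512, nat_lit 22584, nat_lit 22560, nat_lit 22564] (nat_lit 0) [nat_lit 2884] false,
   Spec.mk (nat_lit 22574) (nat_lit 0) [nat_lit 9452, nat_lit 26948, nat_lit 21116, nat_lit 23060, nat_lit 22556, nat_lit 22576] (nat_lit 0) [nat_lit 42256] false,
   Spec.mk (nat_lit 22576) (nat_lit 0) [nat_lit 9454, nat_lit 26950, nat_lit 21118, nat_lit 23062, nat_lit 22558, nat_lit 22582, nat_lit 22574, nat_lit 22578] (nat_lit 0) [nat_lit 42258, nat_lit 2894] false,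
   Spec.mk (nat_lit 22578) (nat_lit 0) [nat_lit 9456, nat_lit 26952, nat_lit 21120, nat_lit 23064, nat_lit 22560, nat_lit 22584, nat_lit 22576] (nat_lit 2) [nat_lit 2896] false,
   Spec.mk (nat_lit 22582) (nat_lit 1) [nat_lit 9460, nat_lit 26956, nat_lit 21124, nat_lit 23068, nat_lit 22564, nat_lit 22576, nat_lit 22584] (nat_lit 0) [nat_lit 42264, nat_lit 2900] false,
   Spec.mk (nat_lit 22584) (nat_lit 1) [nat_lit 9462, nat_lit 26958, nat_lit 21126, nat_lit 23070, nat_lit 22566, nat_lit 22578, nat_lit 22590, nat_lit 22582] (nat_lit 0) [nat_lit 2902] false,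
   Spec.mk (nat_lit 22590) (nat_lit 2) [nat_lit 9468, nat_lit 26964, nat_lit 21132, nat_lit 23076, nat_lit 22584] (nat_lit 0) [nat_lit 2908] false,
   Spec.mk (nat_lit 22652) (nat_lit 3) [nat_lit 9530, nat_lit 27026, nat_lit 21194, nat_lit 24110, nat_lit 22166, nat_lit 22706, nat_lit 22670] (nat_lit 0) [nat_lit 42334] false,
   Spec.mk (nat_lit 22670) (nat_lit 1) [nat_lit 9548, nat_lit 27044, nat_lit 21212, nat_lit 24128, nat_lit 22184, nat_lit 22724, nat_lit 22652, nat_lit 22676] (nat_lit 0) [nat_lit 42352] false,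
   Spec.mk (nat_lit 22676) (nat_lit 1) [nat_lit 9554, nat_lit 27050, nat_lit 21218, nat_lit 24134, nat_lit 22190, nat_lit 22730, nat_lit 22670, nat_lit 22678] (nat_lit 0) [nat_lit 42358] false,
   Spec.mk (nat_lit 22678) (nat_lit 2) [nat_lit 9556, nat_lit 27052, nat_lit 21220, nat_lit 24136, nat_lit 22192, nat_lit 22732, nat_lit 22676] (nat_lit 0) [nat_lit 42360, nat_lit 2996] false,
   Spec.mk (nat_lit 22706) (nat_lit 1) [nat_lit 9584, nat_lit 27080, nat_lit 21248, nat_lit 24164, nat_lit 22220, nat_lit 22868, nat_lit 22652, nat_lit 22724] (nat_lit 0) [nat_lit 42388] false,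
   Spec.mk (nat_lit 22724) (nat_lit 1) [nat_lit 9602, nat_lit 27098, nat_lit 21266, nat_lit 24182, nat_lit 22238, nat_lit 22886, nat_lit 22670, nat_lit 22778, nat_lit 22706, nat_lit 22742, nat_lit 22730] (nat_lit 0) [nat_lit 42406] false,
   Spec.mk (nat_lit 22730) (nat_lit 0) [nat_lit 9608, nat_lit 27104, nat_lit 21272, nat_lit 24188, nat_lit 22244, nat_lit 22892, nat_lit 22676, nat_lit 22784, nat_lit 22748, nat_lit 22724, nat_lit 22732] (nat_lit 0) [nat_lit 42412] false,
   Spec.mk (nat_lit 22732) (nat_lit 1) [nat_lit 9610, nat_lit 27106, nat_lit 21274, nat_lit 24190, nat_lit 22246, nat_lit 22894, nat_lit 22678, nat_lit 22786, nat_lit 22750, nat_lit 22730] (nat_lit 0) [nat_lit 42414, nat_lit 3050] false,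
   Spec.mk (nat_lit 22742) (nat_lit 0) [nat_lit 9620, nat_lit 27116, nat_lit 21284, nat_lit 24200, nat_lit 22256, nat_lit 22904, nat_lit 22796, nat_lit 22724, nat_lit 22748] (nat_lit 1) [nat_lit 42424] false,
   Spec.mk (nat_lit 22748) (nat_lit 0) [nat_lit 9626, nat_lit 27122, nat_lit 21290, nat_lit 24206, nat_lit 22262, nat_lit 22910, nat_lit 22802, nat_lit 22730, nat_lit 22742, nat_lit 22754, nat_lit 22750] (nat_lit 0) [nat_lit 42430] false,
   Spec.mk (nat_lit 22750) (nat_lit 0) [nat_lit 9628, nat_lit 27124, nat_lit 21292, nat_lit 24208, nat_lit 22264, nat_lit 22912, nat_lit 22804, nat_lit 22732, nat_lit 22756, nat_lit 22748] (nat_lit 0) [nat_lit 42432, nat_lit 3068] false,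
   Spec.mk (nat_lit 22754) (nat_lit 0) [nat_lit 9632, nat_lit 27128, nat_lit 21296, nat_lit 24212, nat_lit 22268, nat_lit 22916, nat_lit 22808, nat_lit 22748, nat_lit 22756] (nat_lit 1) [nat_lit 42436] false,
   Spec.mk (nat_lit 22756) (nat_lit 1) [nat_lit 9634, nat_lit 27130, nat_lit 21298, nat_lit 24214, nat_lit 22270, nat_lit 22918, nat_lit 22810, nat_lit 22750, nat_lit 22754, nat_lit 22758] (nat_lit 0) [nat_lit 42438, nat_lit 3074] false,
   Spec.mk (nat_lit 22758) (nat_lit 1) [nat_lit 9636, nat_lit 27132, nat_lit 21300, nat_lit 24216, nat_lit 22272, nat_lit 22920, nat_lit 22812, nat_lit 22756] (nat_lit 0) [nat_lit 3076] false,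
   Spec.mk (nat_lit 22778) (nat_lit 0) [nat_lit 9656, nat_lit 27152, nat_lit 21320, nat_lit 24236, nat_lit 22292, nat_lit 22940, nat_lit 22724, nat_lit 22796, nat_lit 22784] (nat_lit 1) [nat_lit 42460] false,
   Spec.mk (nat_lit 22784) (nat_lit 0) [nat_lit 9662, nat_lit 27158, nat_lit 21326, nat_lit 24242, nat_lit 22298, nat_lit 22946, nat_lit 22730, nat_lit 22802, nat_lit 22778, nat_lit 22786] (nat_lit 3) [nat_lit 42466] false,
   Spec.mk (nat_lit 22786) (nat_lit 0) [nat_lit 9664, nat_lit 27160, nat_lit 21328, nat_lit 24244, nat_lit 22300, nat_lit 22948, nat_lit 22732, nat_lit 22804, nat_lit 22784] (nat_lit 2) [nat_lit 42468, nat_lit 3104] false,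
   Spec.mk (nat_lit 22796) (nat_lit 0) [nat_lit 9674, nat_lit 27170, nat_lit 21338, nat_lit 24254, nat_lit 22310, nat_lit 22958, nat_lit 22742, nat_lit 22778, nat_lit 22802] (nat_lit 1) [nat_lit 42478] false,
   Spec.mk (nat_lit 22802) (nat_lit 0) [nat_lit 9680, nat_lit 27176, nat_lit 21344, nat_lit 24260, nat_lit 22316, nat_lit 22964, nat_lit 22748, nat_lit 22784, nat_lit 22820, nat_lit 22796, nat_lit 22808, nat_lit 22804] (nat_lit 1) [nat_lit 42484] false,
   Spec.mk (nat_lit 22804) (nat_lit 0) [nat_lit 9682, nat_lit 27178, nat_lit 21346, nat_lit 24262, nat_lit 22318, nat_lit 22966, nat_lit 22750, nat_lit 22786, nat_lit 22822, nat_lit 22810, nat_lit 22802] (nat_lit 1) [nat_lit 42486, nat_lit 3122] false,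
   Spec.mk (nat_lit 22808) (nat_lit 0) [nat_lit 9686, nat_lit 27182, nat_lit 21350, nat_lit 24266, nat_lit 22322, nat_lit 22970, nat_lit 22754, nat_lit 22826, nat_lit 22802, nat_lit 22810] (nat_lit 3) [nat_lit 42490] false,
   Spec.mk (nat_lit 22810) (nat_lit 0) [nat_lit 9688, nat_lit 27184, nat_lit 21352, nat_lit 24268, nat_lit 22324, nat_lit 22972, nat_lit 22756, nat_lit 22828, nat_lit 22804, nat_lit 22808, nat_lit 22812] (nat_lit 1) [nat_lit 42492, nat_lit 3128] false,
   Spec.mk (nat_lit 22812) (nat_lit 0) [nat_lit 9690, nat_lit 27186, nat_lit 21354, nat_lit 24270, nat_lit 22326, nat_lit 22974, nat_lit 22758, nat_lit 22830, nat_lit 22810] (nat_lit 1) [nat_lit 3130] false,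
   Spec.mk (nat_lit 22820) (nat_lit 0) [nat_lit 9698, nat_lit 27194, nat_lit 21362, nat_lit 24278, nat_lit 22334, nat_lit 22982, nat_lit 22802, nat_lit 22826, nat_lit 22822] (nat_lit 1) [nat_lit 42502] false,
   Spec.mk (nat_lit 22822) (nat_lit 0) [nat_lit 9700, nat_lit 27196, nat_lit 21364, nat_lit 24280, nat_lit 22336, nat_lit 22984, nat_lit 22804, nat_lit 22828, nat_lit 22820] (nat_lit 2) [nat_lit 42504, nat_lit 3140] false,
   Spec.mk (nat_lit 22826) (nat_lit 0) [nat_lit 9704, nat_lit 27200, nat_lit 21368, nat_lit 24284, nat_lit 22340, nat_lit 22988, nat_lit 22808, nat_lit 22820, nat_lit 22828] (nat_lit 1) [nat_lit 42508] false,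
   Spec.mk (nat_lit 22828) (nat_lit 0) [nat_lit 9706, nat_lit 27202, nat_lit 21370, nat_lit 24286, nat_lit 22342, nat_lit 22990, nat_lit 22810, nat_lit 22822, nat_lit 22834, nat_lit 22826, nat_lit 22830] (nat_lit 0) [nat_lit 42510, nat_lit 3146] false,
   Spec.mk (nat_lit 22830) (nat_lit 0) [nat_lit 9708, nat_lit 27204, nat_lit 21372, nat_lit 24288, nat_lit 22344, nat_lit 22992, nat_lit 22812, nat_lit 22836, nat_lit 22828] (nat_lit 1) [nat_lit 3148] false,
   Spec.mk (nat_lit 22834) (nat_lit 0) [nat_lit 9712, nat_lit 27208, nat_lit 21376, nat_lit 24292, nat_lit 22348, nat_lit 22996, nat_lit 22828, nat_lit 22836] (nat_lit 0) [nat_lit 42516, nat_lit 3152] false,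
   Spec.mk (nat_lit 22836) (nat_lit 1) [nat_lit 9714, nat_lit 27210, nat_lit 21378, nat_lit 24294, nat_lit 22350, nat_lit 22998, nat_lit 22830, nat_lit 22834] (nat_lit 0) [nat_lit 3154] false,
   Spec.mk (nat_lit 22868) (nat_lit 2) [nat_lit 9746, nat_lit 27242, nat_lit 21410, nat_lit 24326, nat_lit 22382, nat_lit 23354, nat_lit 22706, nat_lit 22886] (nat_lit 0) [nat_lit 42550] false,
   Spec.mk (nat_lit 22886) (nat_lit 1) [nat_lit 9764, nat_lit 27260, nat_lit 21428, nat_lit 24344, nat_lit 22400, nat_lit 23372, nat_lit 22724, nat_lit 22940, nat_lit 22868, nat_lit 22904, nat_lit 22892] (nat_lit 0) [nat_lit 42568] false,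
   Spec.mk (nat_lit 22892) (nat_lit 0) [nat_lit 9770, nat_lit 27266, nat_lit 21434, nat_lit 24350, nat_lit 22406, nat_lit 23378, nat_lit 22730, nat_lit 22946, nat_lit 22910, nat_lit 22886, nat_lit 22894] (nat_lit 0) [nat_lit 42574] false,
   Spec.mk (nat_lit 22894) (nat_lit 1) [nat_lit 9772, nat_lit 27268, nat_lit 21436, nat_lit 24352, nat_lit 22408, nat_lit 23380, nat_lit 22732, nat_lit 22948, nat_lit 22912, nat_lit 22892] (nat_lit 0) [nat_lit 42576, nat_lit 3212] false,
   Spec.mk (nat_lit 22904) (nat_lit 0) [nat_lit 9782, nat_lit 27278, nat_lit 21446, nat_lit 24362, nat_lit 22418, nat_lit 23390, nat_lit 22742, nat_lit 22958, nat_lit 22886, nat_lit 22910] (nat_lit 2) [nat_lit 42586] false,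
   Spec.mk (nat_lit 22910) (nat_lit 0) [nat_lit 9788, nat_lit 27284, nat_lit 21452, nat_lit 24368, nat_lit 22424, nat_lit 23396, nat_lit 22748, nat_lit 22964, nat_lit 22892, nat_lit 22904, nat_lit 22916, nat_lit 22912] (nat_lit 1) [nat_lit 42592] false,
   Spec.mk (nat_lit 22912) (nat_lit 0) [nat_lit 9790, nat_lit 27286, nat_lit 21454, nat_lit 24370, nat_lit 22426, nat_lit 23398, nat_lit 22750, nat_lit 22966, nat_lit 22894, nat_lit 22918, nat_lit 22910] (nat_lit 1) [nat_lit 42594, nat_lit 3230] false]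

noncomputable def sp55 : List Spec :=
  [Spec.mk (nat_lit 22916) (nat_lit 0) [nat_lit 9794, nat_lit 27290, nat_lit 21458, nat_lit 24374, nat_lit 22430, nat_lit 23402, nat_lit 22754, nat_lit 22970, nat_lit 22910, nat_lit 22918] (nat_lit 2) [nat_lit 42598] false,
   Spec.mk (nat_lit 22918) (nat_lit 0) [nat_lit 9796, nat_lit 27292, nat_lit 21460, nat_lit 24376, nat_lit 22432, nat_lit 23404, nat_lit 22756, nat_lit 22972, nat_lit 22912, nat_lit 22916, nat_lit 22920] (nat_lit 0) [nat_lit 42600, nat_lit 3236] false,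
   Spec.mk (nat_lit 22920) (nat_lit 0) [nat_lit 9798, nat_lit 27294, nat_lit 21462, nat_lit 24378, nat_lit 22434, nat_lit 23406, nat_lit 22758, nat_lit 22974, nat_lit 22918] (nat_lit 0) [nat_lit 3238] false,
   Spec.mk (nat_lit 22940) (nat_lit 1) [nat_lit 9818, nat_lit 27314, nat_lit 21482, nat_lit 24398, nat_lit 22454, nat_lit 23426, nat_lit 22778, nat_lit 23102, nat_lit 22886, nat_lit 22958, nat_lit 22946] (nat_lit 0) [nat_lit 42622] false,
   Spec.mk (nat_lit 22946) (nat_lit 0) [nat_lit 9824, nat_lit 27320, nat_lit 21488, nat_lit 24404, nat_lit 22460, nat_lit 23432, nat_lit 22784, nat_lit 23108, nat_lit 22892, nat_lit 22964, nat_lit 22940, nat_lit 22948] (nat_lit 1) [nat_lit 42628] false,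
   Spec.mk (nat_lit 22948) (nat_lit 0) [nat_lit 9826, nat_lit 27322, nat_lit 21490, nat_lit 24406, nat_lit 22462, nat_lit 23434, nat_lit 22786, nat_lit 23110, nat_lit 22894, nat_lit 22966, nat_lit 22946] (nat_lit 0) [nat_lit 42630, nat_lit 3266] false,
   Spec.mk (nat_lit 22958) (nat_lit 0) [nat_lit 9836, nat_lit 27332, nat_lit 21500, nat_lit 24416, nat_lit 22472, nat_lit 23444, nat_lit 22796, nat_lit 23120, nat_lit 22904, nat_lit 23012, nat_lit 22940, nat_lit 22964] (nat_lit 0) [nat_lit 42640] false,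
   Spec.mk (nat_lit 22964) (nat_lit 0) [nat_lit 9842, nat_lit 27338, nat_lit 21506, nat_lit 24422, nat_lit 22478, nat_lit 23450, nat_lit 22802, nat_lit 23126, nat_lit 22910, nat_lit 23018, nat_lit 22946, nat_lit 22982, nat_lit 22958, nat_lit 22970, nat_lit 22966] (nat_lit 0) [nat_lit 42646] false,
   Spec.mk (nat_lit 22966) (nat_lit 0) [nat_lit 9844, nat_lit 27340, nat_lit 21508, nat_lit 24424, nat_lit 22480, nat_lit 23452, nat_lit 22804, nat_lit 23128, nat_lit 22912, nat_lit 23020, nat_lit 22948, nat_lit 22984, nat_lit 22972, nat_lit 22964] (nat_lit 0) [nat_lit 42648, nat_lit 3284] false,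
   Spec.mk (nat_lit 22970) (nat_lit 0) [nat_lit 9848, nat_lit 27344, nat_lit 21512, nat_lit 24428, nat_lit 22484, nat_lit 23456, nat_lit 22808, nat_lit 23132, nat_lit 22916, nat_lit 23024, nat_lit 22988, nat_lit 22964, nat_lit 22972] (nat_lit 2) [nat_lit 42652] false,
   Spec.mk (nat_lit 22972) (nat_lit 0) [nat_lit 9850, nat_lit 27346, nat_lit 21514, nat_lit 24430, nat_lit 22486, nat_lit 23458, nat_lit 22810, nat_lit 23134, nat_lit 22918, nat_lit 23026, nat_lit 22990, nat_lit 22966, nat_lit 22970, nat_lit 22974] (nat_lit 0) [nat_lit 42654, nat_lit 3290] false,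
   Spec.mk (nat_lit 22974) (nat_lit 0) [nat_lit 9852, nat_lit 27348, nat_lit 21516, nat_lit 24432, nat_lit 22488, nat_lit 23460, nat_lit 22812, nat_lit 23136, nat_lit 22920, nat_lit 23028, nat_lit 22992, nat_lit 22972] (nat_lit 0) [nat_lit 3292] false,
   Spec.mk (nat_lit 22982) (nat_lit 0) [nat_lit 9860, nat_lit 27356, nat_lit 21524, nat_lit 24440, nat_lit 22496, nat_lit 23468, nat_lit 22820, nat_lit 23144, nat_lit 23036, nat_lit 22964, nat_lit 22988, nat_lit 22984] (nat_lit 1) [nat_lit 42664] false,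
   Spec.mk (nat_lit 22984) (nat_lit 0) [nat_lit 9862, nat_lit 27358, nat_lit 21526, nat_lit 24442, nat_lit 22498, nat_lit 23470, nat_lit 22822, nat_lit 23146, nat_lit 23038, nat_lit 22966, nat_lit 22990, nat_lit 22982] (nat_lit 2) [nat_lit 42666, nat_lit 3302] false,
   Spec.mk (nat_lit 22988) (nat_lit 0) [nat_lit 9866, nat_lit 27362, nat_lit 21530, nat_lit 24446, nat_lit 22502, nat_lit 23474, nat_lit 22826, nat_lit 23150, nat_lit 23042, nat_lit 22970, nat_lit 22982, nat_lit 22990] (nat_lit 1) [nat_lit 42670] false,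
   Spec.mk (nat_lit 22990) (nat_lit 0) [nat_lit 9868, nat_lit 27364, nat_lit 21532, nat_lit 24448, nat_lit 22504, nat_lit 23476, nat_lit 22828, nat_lit 23152, nat_lit 23044, nat_lit 22972, nat_lit 22984, nat_lit 22996, nat_lit 22988, nat_lit 22992] (nat_lit 0) [nat_lit 42672, nat_lit 3308] false,
   Spec.mk (nat_lit 22992) (nat_lit 0) [nat_lit 9870, nat_lit 27366, nat_lit 21534, nat_lit 24450, nat_lit 22506, nat_lit 23478, nat_lit 22830, nat_lit 23154, nat_lit 23046, nat_lit 22974, nat_lit 22998, nat_lit 22990] (nat_lit 1) [nat_lit 3310] false,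
   Spec.mk (nat_lit 22996) (nat_lit 0) [nat_lit 9874, nat_lit 27370, nat_lit 21538, nat_lit 24454, nat_lit 22510, nat_lit 23482, nat_lit 22834, nat_lit 23158, nat_lit 23050, nat_lit 22990, nat_lit 22998] (nat_lit 0) [nat_lit 42678, nat_lit 3314] false,
   Spec.mk (nat_lit 22998) (nat_lit 1) [nat_lit 9876, nat_lit 27372, nat_lit 21540, nat_lit 24456, nat_lit 22512, nat_lit 23484, nat_lit 22836, nat_lit 23160, nat_lit 23052, nat_lit 22992, nat_lit 22996] (nat_lit 0) [nat_lit 3316] false,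
   Spec.mk (nat_lit 23012) (nat_lit 0) [nat_lit 9890, nat_lit 27386, nat_lit 21554, nat_lit 24470, nat_lit 22526, nat_lit 23498, nat_lit 23174, nat_lit 22958, nat_lit 23018] (nat_lit 0) [nat_lit 42694] false,
   Spec.mk (nat_lit 23018) (nat_lit 0) [nat_lit 9896, nat_lit 27392, nat_lit 21560, nat_lit 24476, nat_lit 22532, nat_lit 23504, nat_lit 23180, nat_lit 22964, nat_lit 23036, nat_lit 23012, nat_lit 23024, nat_lit 23020] (nat_lit 1) [nat_lit 42700] false,
   Spec.mk (nat_lit 23020) (nat_lit 0) [nat_lit 9898, nat_lit 27394, nat_lit 21562, nat_lit 24478, nat_lit 22534, nat_lit 23506, nat_lit 23182, nat_lit 22966, nat_lit 23038, nat_lit 23026, nat_lit 23018] (nat_lit 1) [nat_lit 42702, nat_lit 3338] false,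
   Spec.mk (nat_lit 23024) (nat_lit 0) [nat_lit 9902, nat_lit 27398, nat_lit 21566, nat_lit 24482, nat_lit 22538, nat_lit 23510, nat_lit 23186, nat_lit 22970, nat_lit 23042, nat_lit 23018, nat_lit 23026] (nat_lit 4) [nat_lit 42706] false,
   Spec.mk (nat_lit 23026) (nat_lit 0) [nat_lit 9904, nat_lit 27400, nat_lit 21568, nat_lit 24484, nat_lit 22540, nat_lit 23512, nat_lit 23188, nat_lit 22972, nat_lit 23044, nat_lit 23020, nat_lit 23024, nat_lit 23028] (nat_lit 2) [nat_lit 42708, nat_lit 3344] false,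
   Spec.mk (nat_lit 23028) (nat_lit 0) [nat_lit 9906, nat_lit 27402, nat_lit 21570, nat_lit 24486, nat_lit 22542, nat_lit 23514, nat_lit 23190, nat_lit 22974, nat_lit 23046, nat_lit 23026] (nat_lit 2) [nat_lit 3346] false,
   Spec.mk (nat_lit 23036) (nat_lit 0) [nat_lit 9914, nat_lit 27410, nat_lit 21578, nat_lit 24494, nat_lit 22550, nat_lit 23522, nat_lit 23198, nat_lit 22982, nat_lit 23018, nat_lit 23042, nat_lit 23038] (nat_lit 0) [nat_lit 42718] false,
   Spec.mk (nat_lit 23038) (nat_lit 0) [nat_lit 9916, nat_lit 27412, nat_lit 21580, nat_lit 24496, nat_lit 22552, nat_lit 23524, nat_lit 23200, nat_lit 22984, nat_lit 23020, nat_lit 23044, nat_lit 23036] (nat_lit 1) [nat_lit 42720, nat_lit 3356] false,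
   Spec.mk (nat_lit 23042) (nat_lit 0) [nat_lit 9920, nat_lit 27416, nat_lit 21584, nat_lit 24500, nat_lit 22556, nat_lit 23528, nat_lit 23204, nat_lit 22988, nat_lit 23024, nat_lit 23060, nat_lit 23036, nat_lit 23044] (nat_lit 1) [nat_lit 42724] false,
   Spec.mk (nat_lit 23044) (nat_lit 0) [nat_lit 9922, nat_lit 27418, nat_lit 21586, nat_lit 24502, nat_lit 22558, nat_lit 23530, nat_lit 23206, nat_lit 22990, nat_lit 23026, nat_lit 23062, nat_lit 23038, nat_lit 23050, nat_lit 23042, nat_lit 23046] (nat_lit 0) [nat_lit 42726, nat_lit 3362] false,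
   Spec.mk (nat_lit 23046) (nat_lit 0) [nat_lit 9924, nat_lit 27420, nat_lit 21588, nat_lit 24504, nat_lit 22560, nat_lit 23532, nat_lit 23208, nat_lit 22992, nat_lit 23028, nat_lit 23064, nat_lit 23052, nat_lit 23044] (nat_lit 1) [nat_lit 3364] false,
   Spec.mk (nat_lit 23050) (nat_lit 0) [nat_lit 9928, nat_lit 27424, nat_lit 21592, nat_lit 24508, nat_lit 22564, nat_lit 23536, nat_lit 23212, nat_lit 22996, nat_lit 23068, nat_lit 23044, nat_lit 23052] (nat_lit 1) [nat_lit 42732, nat_lit 3368] false,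
   Spec.mk (nat_lit 23052) (nat_lit 0) [nat_lit 9930, nat_lit 27426, nat_lit 21594, nat_lit 24510, nat_lit 22566, nat_lit 23538, nat_lit 23214, nat_lit 22998, nat_lit 23070, nat_lit 23046, nat_lit 23050] (nat_lit 0) [nat_lit 3370] false,
   Spec.mk (nat_lit 23060) (nat_lit 0) [nat_lit 9938, nat_lit 27434, nat_lit 21602, nat_lit 24518, nat_lit 22574, nat_lit 23546, nat_lit 23222, nat_lit 23042, nat_lit 23062] (nat_lit 0) [nat_lit 42742] false,
   Spec.mk (nat_lit 23062) (nat_lit 0) [nat_lit 9940, nat_lit 27436, nat_lit 21604, nat_lit 24520, nat_lit 22576, nat_lit 23548, nat_lit 23224, nat_lit 23044, nat_lit 23068, nat_lit 23060, nat_lit 23064] (nat_lit 0) [nat_lit 42744, nat_lit 3380] false,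
   Spec.mk (nat_lit 23064) (nat_lit 0) [nat_lit 9942, nat_lit 27438, nat_lit 21606, nat_lit 24522, nat_lit 22578, nat_lit 23550, nat_lit 23226, nat_lit 23046, nat_lit 23070, nat_lit 23062] (nat_lit 2) [nat_lit 3382] false,
   Spec.mk (nat_lit 23068) (nat_lit 1) [nat_lit 9946, nat_lit 27442, nat_lit 21610, nat_lit 24526, nat_lit 22582, nat_lit 23554, nat_lit 23230, nat_lit 23050, nat_lit 23062, nat_lit 23070] (nat_lit 0) [nat_lit 42750, nat_lit 3386] false,
   Spec.mk (nat_lit 23070) (nat_lit 1) [nat_lit 9948, nat_lit 27444, nat_lit 21612, nat_lit 24528, nat_lit 22584, nat_lit 23556, nat_lit 23232, nat_lit 23052, nat_lit 23064, nat_lit 23076, nat_lit 23068] (nat_lit 0) [nat_lit 3388] false,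
   Spec.mk (nat_lit 23076) (nat_lit 2) [nat_lit 9954, nat_lit 27450, nat_lit 21618, nat_lit 24534, nat_lit 22590, nat_lit 23562, nat_lit 23238, nat_lit 23070] (nat_lit 0) [nat_lit 3394] false,
   Spec.mk (nat_lit 23102) (nat_lit 1) [nat_lit 9980, nat_lit 27476, nat_lit 21644, nat_lit 24560, nat_lit 23588, nat_lit 22940, nat_lit 23120, nat_lit 23108] (nat_lit 0) [nat_lit 42784] false,
   Spec.mk (nat_lit 23108) (nat_lit 0) [nat_lit 9986, nat_lit 27482, nat_lit 21650, nat_lit 24566, nat_lit 23594, nat_lit 22946, nat_lit 23126, nat_lit 23102, nat_lit 23110] (nat_lit 1) [nat_lit 42790] false,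
   Spec.mk (nat_lit 23110) (nat_lit 0) [nat_lit 9988, nat_lit 27484, nat_lit 21652, nat_lit 24568, nat_lit 23596, nat_lit 22948, nat_lit 23128, nat_lit 23108] (nat_lit 0) [nat_lit 42792, nat_lit 3428] false,
   Spec.mk (nat_lit 23120) (nat_lit 0) [nat_lit 9998, nat_lit 27494, nat_lit 21662, nat_lit 24578, nat_lit 23606, nat_lit 22958, nat_lit 23174, nat_lit 23102, nat_lit 23126] (nat_lit 1) [nat_lit 42802] false,
   Spec.mk (nat_lit 23126) (nat_lit 0) [nat_lit 10004, nat_lit 27500, nat_lit 21668, nat_lit 24584, nat_lit 23612, nat_lit 22964, nat_lit 23180, nat_lit 23108, nat_lit 23144, nat_lit 23120, nat_lit 23132, nat_lit 23128] (nat_lit 1) [nat_lit 42808] false,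
   Spec.mk (nat_lit 23128) (nat_lit 0) [nat_lit 10006, nat_lit 27502, nat_lit 21670, nat_lit 24586, nat_lit 23614, nat_lit 22966, nat_lit 23182, nat_lit 23110, nat_lit 23146, nat_lit 23134, nat_lit 23126] (nat_lit 1) [nat_lit 42810, nat_lit 3446] false,
   Spec.mk (nat_lit 23132) (nat_lit 0) [nat_lit 10010, nat_lit 27506, nat_lit 21674, nat_lit 24590, nat_lit 23618, nat_lit 22970, nat_lit 23186, nat_lit 23150, nat_lit 23126, nat_lit 23134] (nat_lit 3) [nat_lit 42814] false,
   Spec.mk (nat_lit 23134) (nat_lit 0) [nat_lit 10012, nat_lit 27508, nat_lit 21676, nat_lit 24592, nat_lit 23620, nat_lit 22972, nat_lit 23188, nat_lit 23152, nat_lit 23128, nat_lit 23132, nat_lit 23136] (nat_lit 1) [nat_lit 42816, nat_lit 3452] false,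
   Spec.mk (nat_lit 23136) (nat_lit 0) [nat_lit 10014, nat_lit 27510, nat_lit 21678, nat_lit 24594, nat_lit 23622, nat_lit 22974, nat_lit 23190, nat_lit 23154, nat_lit 23134] (nat_lit 1) [nat_lit 3454] false,
   Spec.mk (nat_lit 23144) (nat_lit 0) [nat_lit 10022, nat_lit 27518, nat_lit 21686, nat_lit 24602, nat_lit 23630, nat_lit 22982, nat_lit 23198, nat_lit 23126, nat_lit 23150, nat_lit 23146] (nat_lit 3) [nat_lit 42826] false,
   Spec.mk (nat_lit 23146) (nat_lit 0) [nat_lit 10024, nat_lit 27520, nat_lit 21688, nat_lit 24604, nat_lit 23632, nat_lit 22984, nat_lit 23200, nat_lit 23128, nat_lit 23152, nat_lit 23144] (nat_lit 4) [nat_lit 42828, nat_lit 3464] false,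
   Spec.mk (nat_lit 23150) (nat_lit 0) [nat_lit 10028, nat_lit 27524, nat_lit 21692, nat_lit 24608, nat_lit 23636, nat_lit 22988, nat_lit 23204, nat_lit 23132, nat_lit 23144, nat_lit 23152] (nat_lit 3) [nat_lit 42832] false,
   Spec.mk (nat_lit 23152) (nat_lit 0) [nat_lit 10030, nat_lit 27526, nat_lit 21694, nat_lit 24610, nat_lit 23638, nat_lit 22990, nat_lit 23206, nat_lit 23134, nat_lit 23146, nat_lit 23158, nat_lit 23150, nat_lit 23154] (nat_lit 2) [nat_lit 42834, nat_lit 3470] false,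
   Spec.mk (nat_lit 23154) (nat_lit 0) [nat_lit 10032, nat_lit 27528, nat_lit 21696, nat_lit 24612, nat_lit 23640, nat_lit 22992, nat_lit 23208, nat_lit 23136, nat_lit 23160, nat_lit 23152] (nat_lit 3) [nat_lit 3472] false,
   Spec.mk (nat_lit 23158) (nat_lit 0) [nat_lit 10036, nat_lit 27532, nat_lit 21700, nat_lit 24616, nat_lit 23644, nat_lit 22996, nat_lit 23212, nat_lit 23152, nat_lit 23160] (nat_lit 2) [nat_lit 42840, nat_lit 3476] false,
   Spec.mk (nat_lit 23160) (nat_lit 0) [nat_lit 10038, nat_lit 27534, nat_lit 21702, nat_lit 24618, nat_lit 23646, nat_lit 22998, nat_lit 23214, nat_lit 23154, nat_lit 23158] (nat_lit 1) [nat_lit 3478] false,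
   Spec.mk (nat_lit 23174) (nat_lit 1) [nat_lit 10052, nat_lit 27548, nat_lit 21716, nat_lit 24632, nat_lit 23660, nat_lit 23012, nat_lit 23120, nat_lit 23180] (nat_lit 0) [nat_lit 42856] false,
   Spec.mk (nat_lit 23180) (nat_lit 0) [nat_lit 10058, nat_lit 27554, nat_lit 21722, nat_lit 24638, nat_lit 23666, nat_lit 23018, nat_lit 23126, nat_lit 23198, nat_lit 23174, nat_lit 23186, nat_lit 23182] (nat_lit 0) [nat_lit 42862] false,
   Spec.mk (nat_lit 23182) (nat_lit 0) [nat_lit 10060, nat_lit 27556, nat_lit 21724, nat_lit 24640, nat_lit 23668, nat_lit 23020, nat_lit 23128, nat_lit 23200, nat_lit 23188, nat_lit 23180] (nat_lit 0) [nat_lit 42864, nat_lit 3500] false,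
   Spec.mk (nat_lit 23186) (nat_lit 0) [nat_lit 10064, nat_lit 27560, nat_lit 21728, nat_lit 24644, nat_lit 23672, nat_lit 23024, nat_lit 23132, nat_lit 23204, nat_lit 23180, nat_lit 23188] (nat_lit 3) [nat_lit 42868] false,
   Spec.mk (nat_lit 23188) (nat_lit 0) [nat_lit 10066, nat_lit 27562, nat_lit 21730, nat_lit 24646, nat_lit 23674, nat_lit 23026, nat_lit 23134, nat_lit 23206, nat_lit 23182, nat_lit 23186, nat_lit 23190] (nat_lit 1) [nat_lit 42870, nat_lit 3506] false,
   Spec.mk (nat_lit 23190) (nat_lit 0) [nat_lit 10068, nat_lit 27564, nat_lit 21732, nat_lit 24648, nat_lit 23676, nat_lit 23028, nat_lit 23136, nat_lit 23208, nat_lit 23188] (nat_lit 1) [nat_lit 3508] false]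

noncomputable def sp56 : List Spec :=
  [Spec.mk (nat_lit 23198) (nat_lit 0) [nat_lit 10076, nat_lit 27572, nat_lit 21740, nat_lit 24656, nat_lit 23684, nat_lit 23036, nat_lit 23144, nat_lit 23252, nat_lit 23180, nat_lit 23204, nat_lit 23200] (nat_lit 0) [nat_lit 42880] false,
   Spec.mk (nat_lit 23200) (nat_lit 0) [nat_lit 10078, nat_lit 27574, nat_lit 21742, nat_lit 24658, nat_lit 23686, nat_lit 23038, nat_lit 23146, nat_lit 23254, nat_lit 23182, nat_lit 23206, nat_lit 23198] (nat_lit 1) [nat_lit 42882, nat_lit 3518] false,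
   Spec.mk (nat_lit 23204) (nat_lit 0) [nat_lit 10082, nat_lit 27578, nat_lit 21746, nat_lit 24662, nat_lit 23690, nat_lit 23042, nat_lit 23150, nat_lit 23258, nat_lit 23186, nat_lit 23222, nat_lit 23198, nat_lit 23206] (nat_lit 1) [nat_lit 42886] false,
   Spec.mk (nat_lit 23206) (nat_lit 0) [nat_lit 10084, nat_lit 27580, nat_lit 21748, nat_lit 24664, nat_lit 23692, nat_lit 23044, nat_lit 23152, nat_lit 23260, nat_lit 23188, nat_lit 23224, nat_lit 23200, nat_lit 23212, nat_lit 23204, nat_lit 23208] (nat_lit 0) [nat_lit 42888, nat_lit 3524] false,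
   Spec.mk (nat_lit 23208) (nat_lit 0) [nat_lit 10086, nat_lit 27582, nat_lit 21750, nat_lit 24666, nat_lit 23694, nat_lit 23046, nat_lit 23154, nat_lit 23262, nat_lit 23190, nat_lit 23226, nat_lit 23214, nat_lit 23206] (nat_lit 1) [nat_lit 3526] false,
   Spec.mk (nat_lit 23212) (nat_lit 0) [nat_lit 10090, nat_lit 27586, nat_lit 21754, nat_lit 24670, nat_lit 23698, nat_lit 23050, nat_lit 23158, nat_lit 23266, nat_lit 23230, nat_lit 23206, nat_lit 23214] (nat_lit 1) [nat_lit 42894, nat_lit 3530] false,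
   Spec.mk (nat_lit 23214) (nat_lit 0) [nat_lit 10092, nat_lit 27588, nat_lit 21756, nat_lit 24672, nat_lit 23700, nat_lit 23052, nat_lit 23160, nat_lit 23268, nat_lit 23232, nat_lit 23208, nat_lit 23212] (nat_lit 0) [nat_lit 3532] false,
   Spec.mk (nat_lit 23222) (nat_lit 0) [nat_lit 10100, nat_lit 27596, nat_lit 21764, nat_lit 24680, nat_lit 23708, nat_lit 23060, nat_lit 23276, nat_lit 23204, nat_lit 23224] (nat_lit 1) [nat_lit 42904] false,
   Spec.mk (nat_lit 23224) (nat_lit 0) [nat_lit 10102, nat_lit 27598, nat_lit 21766, nat_lit 24682, nat_lit 23710, nat_lit 23062, nat_lit 23278, nat_lit 23206, nat_lit 23230, nat_lit 23222, nat_lit 23226] (nat_lit 1) [nat_lit 42906, nat_lit 3542] false,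
   Spec.mk (nat_lit 23226) (nat_lit 0) [nat_lit 10104, nat_lit 27600, nat_lit 21768, nat_lit 24684, nat_lit 23712, nat_lit 23064, nat_lit 23280, nat_lit 23208, nat_lit 23232, nat_lit 23224] (nat_lit 3) [nat_lit 3544] false,
   Spec.mk (nat_lit 23230) (nat_lit 0) [nat_lit 10108, nat_lit 27604, nat_lit 21772, nat_lit 24688, nat_lit 23716, nat_lit 23068, nat_lit 23284, nat_lit 23212, nat_lit 23224, nat_lit 23232] (nat_lit 0) [nat_lit 42912, nat_lit 3548] false,
   Spec.mk (nat_lit 23232) (nat_lit 0) [nat_lit 10110, nat_lit 27606, nat_lit 21774, nat_lit 24690, nat_lit 23718, nat_lit 23070, nat_lit 23286, nat_lit 23214, nat_lit 23226, nat_lit 23238, nat_lit 23230] (nat_lit 0) [nat_lit 3550] false,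
   Spec.mk (nat_lit 23238) (nat_lit 1) [nat_lit 10116, nat_lit 27612, nat_lit 21780, nat_lit 24696, nat_lit 23724, nat_lit 23076, nat_lit 23292, nat_lit 23232] (nat_lit 0) [nat_lit 3556] false,
   Spec.mk (nat_lit 23252) (nat_lit 1) [nat_lit 10130, nat_lit 27626, nat_lit 21794, nat_lit 24710, nat_lit 23738, nat_lit 23198, nat_lit 23258, nat_lit 23254] (nat_lit 0) [nat_lit 42934] false,
   Spec.mk (nat_lit 23254) (nat_lit 0) [nat_lit 10132, nat_lit 27628, nat_lit 21796, nat_lit 24712, nat_lit 23740, nat_lit 23200, nat_lit 23260, nat_lit 23252] (nat_lit 0) [nat_lit 42936, nat_lit 3572] false,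
   Spec.mk (nat_lit 23258) (nat_lit 0) [nat_lit 10136, nat_lit 27632, nat_lit 21800, nat_lit 24716, nat_lit 23744, nat_lit 23204, nat_lit 23276, nat_lit 23252, nat_lit 23260] (nat_lit 1) [nat_lit 42940] false,
   Spec.mk (nat_lit 23260) (nat_lit 0) [nat_lit 10138, nat_lit 27634, nat_lit 21802, nat_lit 24718, nat_lit 23746, nat_lit 23206, nat_lit 23278, nat_lit 23254, nat_lit 23266, nat_lit 23258, nat_lit 23262] (nat_lit 0) [nat_lit 42942, nat_lit 3578] false,
   Spec.mk (nat_lit 23262) (nat_lit 0) [nat_lit 10140, nat_lit 27636, nat_lit 21804, nat_lit 24720, nat_lit 23748, nat_lit 23208, nat_lit 23280, nat_lit 23268, nat_lit 23260] (nat_lit 1) [nat_lit 3580] false,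
   Spec.mk (nat_lit 23266) (nat_lit 0) [nat_lit 10144, nat_lit 27640, nat_lit 21808, nat_lit 24724, nat_lit 23752, nat_lit 23212, nat_lit 23284, nat_lit 23260, nat_lit 23268] (nat_lit 2) [nat_lit 42948, nat_lit 3584] false,
   Spec.mk (nat_lit 23268) (nat_lit 0) [nat_lit 10146, nat_lit 27642, nat_lit 21810, nat_lit 24726, nat_lit 23754, nat_lit 23214, nat_lit 23286, nat_lit 23262, nat_lit 23266] (nat_lit 1) [nat_lit 3586] false,
   Spec.mk (nat_lit 23276) (nat_lit 1) [nat_lit 10154, nat_lit 27650, nat_lit 21818, nat_lit 24734, nat_lit 23762, nat_lit 23222, nat_lit 23258, nat_lit 23278] (nat_lit 0) [nat_lit 42958] false,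
   Spec.mk (nat_lit 23278) (nat_lit 1) [nat_lit 10156, nat_lit 27652, nat_lit 21820, nat_lit 24736, nat_lit 23764, nat_lit 23224, nat_lit 23260, nat_lit 23284, nat_lit 23276, nat_lit 23280] (nat_lit 0) [nat_lit 42960, nat_lit 3596] false,
   Spec.mk (nat_lit 23280) (nat_lit 0) [nat_lit 10158, nat_lit 27654, nat_lit 21822, nat_lit 24738, nat_lit 23766, nat_lit 23226, nat_lit 23262, nat_lit 23286, nat_lit 23278] (nat_lit 1) [nat_lit 3598] false,
   Spec.mk (nat_lit 23284) (nat_lit 1) [nat_lit 10162, nat_lit 27658, nat_lit 21826, nat_lit 24742, nat_lit 23770, nat_lit 23230, nat_lit 23266, nat_lit 23302, nat_lit 23278, nat_lit 23286] (nat_lit 0) [nat_lit 42966, nat_lit 3602] false,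
   Spec.mk (nat_lit 23286) (nat_lit 1) [nat_lit 10164, nat_lit 27660, nat_lit 21828, nat_lit 24744, nat_lit 23772, nat_lit 23232, nat_lit 23268, nat_lit 23304, nat_lit 23280, nat_lit 23292, nat_lit 23284] (nat_lit 0) [nat_lit 3604] false,
   Spec.mk (nat_lit 23292) (nat_lit 1) [nat_lit 10170, nat_lit 27666, nat_lit 21834, nat_lit 24750, nat_lit 23778, nat_lit 23238, nat_lit 23310, nat_lit 23286] (nat_lit 0) [nat_lit 3610] false,
   Spec.mk (nat_lit 23302) (nat_lit 2) [nat_lit 10180, nat_lit 27676, nat_lit 21844, nat_lit 24760, nat_lit 23788, nat_lit 23284, nat_lit 23304] (nat_lit 0) [nat_lit 42984, nat_lit 3620] false,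
   Spec.mk (nat_lit 23304) (nat_lit 1) [nat_lit 10182, nat_lit 27678, nat_lit 21846, nat_lit 24762, nat_lit 23790, nat_lit 23286, nat_lit 23310, nat_lit 23302] (nat_lit 0) [nat_lit 3622] false,
   Spec.mk (nat_lit 23310) (nat_lit 3) [nat_lit 10188, nat_lit 27684, nat_lit 21852, nat_lit 24768, nat_lit 23796, nat_lit 23292, nat_lit 23304] (nat_lit 0) [nat_lit 3628] false,
   Spec.mk (nat_lit 23354) (nat_lit 2) [nat_lit 10232, nat_lit 27728, nat_lit 24812, nat_lit 22868, nat_lit 23372] (nat_lit 0) [nat_lit 43036] false,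
   Spec.mk (nat_lit 23372) (nat_lit 1) [nat_lit 10250, nat_lit 27746, nat_lit 24830, nat_lit 22886, nat_lit 23426, nat_lit 23354, nat_lit 23390, nat_lit 23378] (nat_lit 0) [nat_lit 43054] false,
   Spec.mk (nat_lit 23378) (nat_lit 0) [nat_lit 10256, nat_lit 27752, nat_lit 24836, nat_lit 22892, nat_lit 23432, nat_lit 23396, nat_lit 23372, nat_lit 23380] (nat_lit 0) [nat_lit 43060] false,
   Spec.mk (nat_lit 23380) (nat_lit 1) [nat_lit 10258, nat_lit 27754, nat_lit 24838, nat_lit 22894, nat_lit 23434, nat_lit 23398, nat_lit 23378] (nat_lit 0) [nat_lit 43062, nat_lit 3698] false,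
   Spec.mk (nat_lit 23390) (nat_lit 0) [nat_lit 10268, nat_lit 27764, nat_lit 24848, nat_lit 22904, nat_lit 23444, nat_lit 23372, nat_lit 23396] (nat_lit 2) [nat_lit 43072] false,
   Spec.mk (nat_lit 23396) (nat_lit 0) [nat_lit 10274, nat_lit 27770, nat_lit 24854, nat_lit 22910, nat_lit 23450, nat_lit 23378, nat_lit 23390, nat_lit 23402, nat_lit 23398] (nat_lit 1) [nat_lit 43078] false,
   Spec.mk (nat_lit 23398) (nat_lit 0) [nat_lit 10276, nat_lit 27772, nat_lit 24856, nat_lit 22912, nat_lit 23452, nat_lit 23380, nat_lit 23404, nat_lit 23396] (nat_lit 1) [nat_lit 43080, nat_lit 3716] false,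
   Spec.mk (nat_lit 23402) (nat_lit 0) [nat_lit 10280, nat_lit 27776, nat_lit 24860, nat_lit 22916, nat_lit 23456, nat_lit 23396, nat_lit 23404] (nat_lit 2) [nat_lit 43084] false,
   Spec.mk (nat_lit 23404) (nat_lit 0) [nat_lit 10282, nat_lit 27778, nat_lit 24862, nat_lit 22918, nat_lit 23458, nat_lit 23398, nat_lit 23402, nat_lit 23406] (nat_lit 0) [nat_lit 43086, nat_lit 3722] false,
   Spec.mk (nat_lit 23406) (nat_lit 0) [nat_lit 10284, nat_lit 27780, nat_lit 24864, nat_lit 22920, nat_lit 23460, nat_lit 23404] (nat_lit 0) [nat_lit 3724] false,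
   Spec.mk (nat_lit 23426) (nat_lit 0) [nat_lit 10304, nat_lit 27800, nat_lit 24884, nat_lit 22940, nat_lit 23588, nat_lit 23372, nat_lit 23444, nat_lit 23432] (nat_lit 0) [nat_lit 43108] false,
   Spec.mk (nat_lit 23432) (nat_lit 0) [nat_lit 10310, nat_lit 27806, nat_lit 24890, nat_lit 22946, nat_lit 23594, nat_lit 23378, nat_lit 23450, nat_lit 23426, nat_lit 23434] (nat_lit 2) [nat_lit 43114] false,
   Spec.mk (nat_lit 23434) (nat_lit 0) [nat_lit 10312, nat_lit 27808, nat_lit 24892, nat_lit 22948, nat_lit 23596, nat_lit 23380, nat_lit 23452, nat_lit 23432] (nat_lit 1) [nat_lit 43116, nat_lit 3752] false,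
   Spec.mk (nat_lit 23444) (nat_lit 0) [nat_lit 10322, nat_lit 27818, nat_lit 24902, nat_lit 22958, nat_lit 23606, nat_lit 23390, nat_lit 23498, nat_lit 23426, nat_lit 23450] (nat_lit 1) [nat_lit 43126] false,
   Spec.mk (nat_lit 23450) (nat_lit 0) [nat_lit 10328, nat_lit 27824, nat_lit 24908, nat_lit 22964, nat_lit 23612, nat_lit 23396, nat_lit 23504, nat_lit 23432, nat_lit 23468, nat_lit 23444, nat_lit 23456, nat_lit 23452] (nat_lit 1) [nat_lit 43132] false,
   Spec.mk (nat_lit 23452) (nat_lit 0) [nat_lit 10330, nat_lit 27826, nat_lit 24910, nat_lit 22966, nat_lit 23614, nat_lit 23398, nat_lit 23506, nat_lit 23434, nat_lit 23470, nat_lit 23458, nat_lit 23450] (nat_lit 1) [nat_lit 43134, nat_lit 3770] false,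
   Spec.mk (nat_lit 23456) (nat_lit 0) [nat_lit 10334, nat_lit 27830, nat_lit 24914, nat_lit 22970, nat_lit 23618, nat_lit 23402, nat_lit 23510, nat_lit 23474, nat_lit 23450, nat_lit 23458] (nat_lit 3) [nat_lit 43138] false,
   Spec.mk (nat_lit 23458) (nat_lit 0) [nat_lit 10336, nat_lit 27832, nat_lit 24916, nat_lit 22972, nat_lit 23620, nat_lit 23404, nat_lit 23512, nat_lit 23476, nat_lit 23452, nat_lit 23456, nat_lit 23460] (nat_lit 1) [nat_lit 43140, nat_lit 3776] false,
   Spec.mk (nat_lit 23460) (nat_lit 0) [nat_lit 10338, nat_lit 27834, nat_lit 24918, nat_lit 22974, nat_lit 23622, nat_lit 23406, nat_lit 23514, nat_lit 23478, nat_lit 23458] (nat_lit 1) [nat_lit 3778] false,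
   Spec.mk (nat_lit 23468) (nat_lit 0) [nat_lit 10346, nat_lit 27842, nat_lit 24926, nat_lit 22982, nat_lit 23630, nat_lit 23522, nat_lit 23450, nat_lit 23474, nat_lit 23470] (nat_lit 2) [nat_lit 43150] false,
   Spec.mk (nat_lit 23470) (nat_lit 0) [nat_lit 10348, nat_lit 27844, nat_lit 24928, nat_lit 22984, nat_lit 23632, nat_lit 23524, nat_lit 23452, nat_lit 23476, nat_lit 23468] (nat_lit 3) [nat_lit 43152, nat_lit 3788] false,
   Spec.mk (nat_lit 23474) (nat_lit 0) [nat_lit 10352, nat_lit 27848, nat_lit 24932, nat_lit 22988, nat_lit 23636, nat_lit 23528, nat_lit 23456, nat_lit 23468, nat_lit 23476] (nat_lit 2) [nat_lit 43156] false,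
   Spec.mk (nat_lit 23476) (nat_lit 0) [nat_lit 10354, nat_lit 27850, nat_lit 24934, nat_lit 22990, nat_lit 23638, nat_lit 23530, nat_lit 23458, nat_lit 23470, nat_lit 23482, nat_lit 23474, nat_lit 23478] (nat_lit 1) [nat_lit 43158, nat_lit 3794] false,
   Spec.mk (nat_lit 23478) (nat_lit 0) [nat_lit 10356, nat_lit 27852, nat_lit 24936, nat_lit 22992, nat_lit 23640, nat_lit 23532, nat_lit 23460, nat_lit 23484, nat_lit 23476] (nat_lit 2) [nat_lit 3796] false,
   Spec.mk (nat_lit 23482) (nat_lit 0) [nat_lit 10360, nat_lit 27856, nat_lit 24940, nat_lit 22996, nat_lit 23644, nat_lit 23536, nat_lit 23476, nat_lit 23484] (nat_lit 1) [nat_lit 43164, nat_lit 3800] false,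
   Spec.mk (nat_lit 23484) (nat_lit 0) [nat_lit 10362, nat_lit 27858, nat_lit 24942, nat_lit 22998, nat_lit 23646, nat_lit 23538, nat_lit 23478, nat_lit 23482] (nat_lit 0) [nat_lit 3802] false,
   Spec.mk (nat_lit 23498) (nat_lit 0) [nat_lit 10376, nat_lit 27872, nat_lit 24956, nat_lit 23012, nat_lit 23660, nat_lit 23444, nat_lit 23504] (nat_lit 2) [nat_lit 43180] false,
   Spec.mk (nat_lit 23504) (nat_lit 0) [nat_lit 10382, nat_lit 27878, nat_lit 24962, nat_lit 23018, nat_lit 23666, nat_lit 23450, nat_lit 23522, nat_lit 23498, nat_lit 23510, nat_lit 23506] (nat_lit 3) [nat_lit 43186] false,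
   Spec.mk (nat_lit 23506) (nat_lit 0) [nat_lit 10384, nat_lit 27880, nat_lit 24964, nat_lit 23020, nat_lit 23668, nat_lit 23452, nat_lit 23524, nat_lit 23512, nat_lit 23504] (nat_lit 3) [nat_lit 43188, nat_lit 3824] false,
   Spec.mk (nat_lit 23510) (nat_lit 0) [nat_lit 10388, nat_lit 27884, nat_lit 24968, nat_lit 23024, nat_lit 23672, nat_lit 23456, nat_lit 23528, nat_lit 23504, nat_lit 23512] (nat_lit 6) [nat_lit 43192] false,
   Spec.mk (nat_lit 23512) (nat_lit 0) [nat_lit 10390, nat_lit 27886, nat_lit 24970, nat_lit 23026, nat_lit 23674, nat_lit 23458, nat_lit 23530, nat_lit 23506, nat_lit 23510, nat_lit 23514] (nat_lit 4) [nat_lit 43194, nat_lit 3830] false]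

noncomputable def sp57 : List Spec :=
  [Spec.mk (nat_lit 23514) (nat_lit 0) [nat_lit 10392, nat_lit 27888, nat_lit 24972, nat_lit 23028, nat_lit 23676, nat_lit 23460, nat_lit 23532, nat_lit 23512] (nat_lit 4) [nat_lit 3832] false,
   Spec.mk (nat_lit 23522) (nat_lit 0) [nat_lit 10400, nat_lit 27896, nat_lit 24980, nat_lit 23036, nat_lit 23684, nat_lit 23468, nat_lit 23504, nat_lit 23528, nat_lit 23524] (nat_lit 2) [nat_lit 43204] false,
   Spec.mk (nat_lit 23524) (nat_lit 0) [nat_lit 10402, nat_lit 27898, nat_lit 24982, nat_lit 23038, nat_lit 23686, nat_lit 23470, nat_lit 23506, nat_lit 23530, nat_lit 23522] (nat_lit 3) [nat_lit 43206, nat_lit 3842] false,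
   Spec.mk (nat_lit 23528) (nat_lit 0) [nat_lit 10406, nat_lit 27902, nat_lit 24986, nat_lit 23042, nat_lit 23690, nat_lit 23474, nat_lit 23510, nat_lit 23546, nat_lit 23522, nat_lit 23530] (nat_lit 3) [nat_lit 43210] false,
   Spec.mk (nat_lit 23530) (nat_lit 0) [nat_lit 10408, nat_lit 27904, nat_lit 24988, nat_lit 23044, nat_lit 23692, nat_lit 23476, nat_lit 23512, nat_lit 23548, nat_lit 23524, nat_lit 23536, nat_lit 23528, nat_lit 23532] (nat_lit 2) [nat_lit 43212, nat_lit 3848] false,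
   Spec.mk (nat_lit 23532) (nat_lit 0) [nat_lit 10410, nat_lit 27906, nat_lit 24990, nat_lit 23046, nat_lit 23694, nat_lit 23478, nat_lit 23514, nat_lit 23550, nat_lit 23538, nat_lit 23530] (nat_lit 3) [nat_lit 3850] false,
   Spec.mk (nat_lit 23536) (nat_lit 0) [nat_lit 10414, nat_lit 27910, nat_lit 24994, nat_lit 23050, nat_lit 23698, nat_lit 23482, nat_lit 23554, nat_lit 23530, nat_lit 23538] (nat_lit 3) [nat_lit 43218, nat_lit 3854] false,
   Spec.mk (nat_lit 23538) (nat_lit 0) [nat_lit 10416, nat_lit 27912, nat_lit 24996, nat_lit 23052, nat_lit 23700, nat_lit 23484, nat_lit 23556, nat_lit 23532, nat_lit 23536] (nat_lit 2) [nat_lit 3856] false,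
   Spec.mk (nat_lit 23546) (nat_lit 0) [nat_lit 10424, nat_lit 27920, nat_lit 25004, nat_lit 23060, nat_lit 23708, nat_lit 23528, nat_lit 23548] (nat_lit 2) [nat_lit 43228] false,
   Spec.mk (nat_lit 23548) (nat_lit 0) [nat_lit 10426, nat_lit 27922, nat_lit 25006, nat_lit 23062, nat_lit 23710, nat_lit 23530, nat_lit 23554, nat_lit 23546, nat_lit 23550] (nat_lit 2) [nat_lit 43230, nat_lit 3866] false,
   Spec.mk (nat_lit 23550) (nat_lit 0) [nat_lit 10428, nat_lit 27924, nat_lit 25008, nat_lit 23064, nat_lit 23712, nat_lit 23532, nat_lit 23556, nat_lit 23548] (nat_lit 4) [nat_lit 3868] false,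
   Spec.mk (nat_lit 23554) (nat_lit 0) [nat_lit 10432, nat_lit 27928, nat_lit 25012, nat_lit 23068, nat_lit 23716, nat_lit 23536, nat_lit 23548, nat_lit 23556] (nat_lit 1) [nat_lit 43236, nat_lit 3872] false,
   Spec.mk (nat_lit 23556) (nat_lit 0) [nat_lit 10434, nat_lit 27930, nat_lit 25014, nat_lit 23070, nat_lit 23718, nat_lit 23538, nat_lit 23550, nat_lit 23562, nat_lit 23554] (nat_lit 1) [nat_lit 3874] false,
   Spec.mk (nat_lit 23562) (nat_lit 0) [nat_lit 10440, nat_lit 27936, nat_lit 25020, nat_lit 23076, nat_lit 23724, nat_lit 23556] (nat_lit 0) [nat_lit 3880] false,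
   Spec.mk (nat_lit 23588) (nat_lit 2) [nat_lit 10466, nat_lit 27962, nat_lit 25046, nat_lit 23102, nat_lit 23426, nat_lit 23606, nat_lit 23594] (nat_lit 0) [nat_lit 43270] false,
   Spec.mk (nat_lit 23594) (nat_lit 0) [nat_lit 10472, nat_lit 27968, nat_lit 25052, nat_lit 23108, nat_lit 23432, nat_lit 23612, nat_lit 23588, nat_lit 23596] (nat_lit 0) [nat_lit 43276] false,
   Spec.mk (nat_lit 23596) (nat_lit 1) [nat_lit 10474, nat_lit 27970, nat_lit 25054, nat_lit 23110, nat_lit 23434, nat_lit 23614, nat_lit 23594] (nat_lit 0) [nat_lit 43278, nat_lit 3914] false,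
   Spec.mk (nat_lit 23606) (nat_lit 0) [nat_lit 10484, nat_lit 27980, nat_lit 25064, nat_lit 23120, nat_lit 23444, nat_lit 23660, nat_lit 23588, nat_lit 23612] (nat_lit 0) [nat_lit 43288] false,
   Spec.mk (nat_lit 23612) (nat_lit 0) [nat_lit 10490, nat_lit 27986, nat_lit 25070, nat_lit 23126, nat_lit 23450, nat_lit 23666, nat_lit 23594, nat_lit 23630, nat_lit 23606, nat_lit 23618, nat_lit 23614] (nat_lit 0) [nat_lit 43294] false,
   Spec.mk (nat_lit 23614) (nat_lit 0) [nat_lit 10492, nat_lit 27988, nat_lit 25072, nat_lit 23128, nat_lit 23452, nat_lit 23668, nat_lit 23596, nat_lit 23632, nat_lit 23620, nat_lit 23612] (nat_lit 0) [nat_lit 43296, nat_lit 3932] false,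
   Spec.mk (nat_lit 23618) (nat_lit 0) [nat_lit 10496, nat_lit 27992, nat_lit 25076, nat_lit 23132, nat_lit 23456, nat_lit 23672, nat_lit 23636, nat_lit 23612, nat_lit 23620] (nat_lit 2) [nat_lit 43300] false,
   Spec.mk (nat_lit 23620) (nat_lit 0) [nat_lit 10498, nat_lit 27994, nat_lit 25078, nat_lit 23134, nat_lit 23458, nat_lit 23674, nat_lit 23638, nat_lit 23614, nat_lit 23618, nat_lit 23622] (nat_lit 0) [nat_lit 43302, nat_lit 3938] false,
   Spec.mk (nat_lit 23622) (nat_lit 0) [nat_lit 10500, nat_lit 27996, nat_lit 25080, nat_lit 23136, nat_lit 23460, nat_lit 23676, nat_lit 23640, nat_lit 23620] (nat_lit 0) [nat_lit 3940] false,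
   Spec.mk (nat_lit 23630) (nat_lit 0) [nat_lit 10508, nat_lit 28004, nat_lit 25088, nat_lit 23144, nat_lit 23468, nat_lit 23684, nat_lit 23612, nat_lit 23636, nat_lit 23632] (nat_lit 2) [nat_lit 43312] false,
   Spec.mk (nat_lit 23632) (nat_lit 0) [nat_lit 10510, nat_lit 28006, nat_lit 25090, nat_lit 23146, nat_lit 23470, nat_lit 23686, nat_lit 23614, nat_lit 23638, nat_lit 23630] (nat_lit 3) [nat_lit 43314, nat_lit 3950] false,
   Spec.mk (nat_lit 23636) (nat_lit 0) [nat_lit 10514, nat_lit 28010, nat_lit 25094, nat_lit 23150, nat_lit 23474, nat_lit 23690, nat_lit 23618, nat_lit 23630, nat_lit 23638] (nat_lit 2) [nat_lit 43318] false,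
   Spec.mk (nat_lit 23638) (nat_lit 0) [nat_lit 10516, nat_lit 28012, nat_lit 25096, nat_lit 23152, nat_lit 23476, nat_lit 23692, nat_lit 23620, nat_lit 23632, nat_lit 23644, nat_lit 23636, nat_lit 23640] (nat_lit 1) [nat_lit 43320, nat_lit 3956] false,
   Spec.mk (nat_lit 23640) (nat_lit 0) [nat_lit 10518, nat_lit 28014, nat_lit 25098, nat_lit 23154, nat_lit 23478, nat_lit 23694, nat_lit 23622, nat_lit 23646, nat_lit 23638] (nat_lit 2) [nat_lit 3958] false,
   Spec.mk (nat_lit 23644) (nat_lit 0) [nat_lit 10522, nat_lit 28018, nat_lit 25102, nat_lit 23158, nat_lit 23482, nat_lit 23698, nat_lit 23638, nat_lit 23646] (nat_lit 1) [nat_lit 43326, nat_lit 3962] false,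
   Spec.mk (nat_lit 23646) (nat_lit 0) [nat_lit 10524, nat_lit 28020, nat_lit 25104, nat_lit 23160, nat_lit 23484, nat_lit 23700, nat_lit 23640, nat_lit 23644] (nat_lit 0) [nat_lit 3964] false,
   Spec.mk (nat_lit 23660) (nat_lit 1) [nat_lit 10538, nat_lit 28034, nat_lit 25118, nat_lit 23174, nat_lit 23498, nat_lit 23822, nat_lit 23606, nat_lit 23666] (nat_lit 0) [nat_lit 43342] false,
   Spec.mk (nat_lit 23666) (nat_lit 0) [nat_lit 10544, nat_lit 28040, nat_lit 25124, nat_lit 23180, nat_lit 23504, nat_lit 23828, nat_lit 23612, nat_lit 23684, nat_lit 23660, nat_lit 23672, nat_lit 23668] (nat_lit 0) [nat_lit 43348] false,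
   Spec.mk (nat_lit 23668) (nat_lit 0) [nat_lit 10546, nat_lit 28042, nat_lit 25126, nat_lit 23182, nat_lit 23506, nat_lit 23830, nat_lit 23614, nat_lit 23686, nat_lit 23674, nat_lit 23666] (nat_lit 0) [nat_lit 43350, nat_lit 3986] false,
   Spec.mk (nat_lit 23672) (nat_lit 0) [nat_lit 10550, nat_lit 28046, nat_lit 25130, nat_lit 23186, nat_lit 23510, nat_lit 23834, nat_lit 23618, nat_lit 23690, nat_lit 23666, nat_lit 23674] (nat_lit 3) [nat_lit 43354] false,
   Spec.mk (nat_lit 23674) (nat_lit 0) [nat_lit 10552, nat_lit 28048, nat_lit 25132, nat_lit 23188, nat_lit 23512, nat_lit 23836, nat_lit 23620, nat_lit 23692, nat_lit 23668, nat_lit 23672, nat_lit 23676] (nat_lit 1) [nat_lit 43356, nat_lit 3992] false,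
   Spec.mk (nat_lit 23676) (nat_lit 0) [nat_lit 10554, nat_lit 28050, nat_lit 25134, nat_lit 23190, nat_lit 23514, nat_lit 23838, nat_lit 23622, nat_lit 23694, nat_lit 23674] (nat_lit 1) [nat_lit 3994] false,
   Spec.mk (nat_lit 23684) (nat_lit 0) [nat_lit 10562, nat_lit 28058, nat_lit 25142, nat_lit 23198, nat_lit 23522, nat_lit 23846, nat_lit 23630, nat_lit 23738, nat_lit 23666, nat_lit 23690, nat_lit 23686] (nat_lit 0) [nat_lit 43366] false,
   Spec.mk (nat_lit 23686) (nat_lit 0) [nat_lit 10564, nat_lit 28060, nat_lit 25144, nat_lit 23200, nat_lit 23524, nat_lit 23848, nat_lit 23632, nat_lit 23740, nat_lit 23668, nat_lit 23692, nat_lit 23684] (nat_lit 1) [nat_lit 43368, nat_lit 4004] false,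
   Spec.mk (nat_lit 23690) (nat_lit 0) [nat_lit 10568, nat_lit 28064, nat_lit 25148, nat_lit 23204, nat_lit 23528, nat_lit 23852, nat_lit 23636, nat_lit 23744, nat_lit 23672, nat_lit 23708, nat_lit 23684, nat_lit 23692] (nat_lit 1) [nat_lit 43372] false,
   Spec.mk (nat_lit 23692) (nat_lit 0) [nat_lit 10570, nat_lit 28066, nat_lit 25150, nat_lit 23206, nat_lit 23530, nat_lit 23854, nat_lit 23638, nat_lit 23746, nat_lit 23674, nat_lit 23710, nat_lit 23686, nat_lit 23698, nat_lit 23690, nat_lit 23694] (nat_lit 0) [nat_lit 43374, nat_lit 4010] false,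
   Spec.mk (nat_lit 23694) (nat_lit 0) [nat_lit 10572, nat_lit 28068, nat_lit 25152, nat_lit 23208, nat_lit 23532, nat_lit 23856, nat_lit 23640, nat_lit 23748, nat_lit 23676, nat_lit 23712, nat_lit 23700, nat_lit 23692] (nat_lit 1) [nat_lit 4012] false,
   Spec.mk (nat_lit 23698) (nat_lit 0) [nat_lit 10576, nat_lit 28072, nat_lit 25156, nat_lit 23212, nat_lit 23536, nat_lit 23860, nat_lit 23644, nat_lit 23752, nat_lit 23716, nat_lit 23692, nat_lit 23700] (nat_lit 1) [nat_lit 43380, nat_lit 4016] false,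
   Spec.mk (nat_lit 23700) (nat_lit 0) [nat_lit 10578, nat_lit 28074, nat_lit 25158, nat_lit 23214, nat_lit 23538, nat_lit 23862, nat_lit 23646, nat_lit 23754, nat_lit 23718, nat_lit 23694, nat_lit 23698] (nat_lit 0) [nat_lit 4018] false,
   Spec.mk (nat_lit 23708) (nat_lit 0) [nat_lit 10586, nat_lit 28082, nat_lit 25166, nat_lit 23222, nat_lit 23546, nat_lit 23870, nat_lit 23762, nat_lit 23690, nat_lit 23710] (nat_lit 1) [nat_lit 43390] false,
   Spec.mk (nat_lit 23710) (nat_lit 0) [nat_lit 10588, nat_lit 28084, nat_lit 25168, nat_lit 23224, nat_lit 23548, nat_lit 23872, nat_lit 23764, nat_lit 23692, nat_lit 23716, nat_lit 23708, nat_lit 23712] (nat_lit 1) [nat_lit 43392, nat_lit 4028] false,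
   Spec.mk (nat_lit 23712) (nat_lit 0) [nat_lit 10590, nat_lit 28086, nat_lit 25170, nat_lit 23226, nat_lit 23550, nat_lit 23874, nat_lit 23766, nat_lit 23694, nat_lit 23718, nat_lit 23710] (nat_lit 3) [nat_lit 4030] false,
   Spec.mk (nat_lit 23716) (nat_lit 0) [nat_lit 10594, nat_lit 28090, nat_lit 25174, nat_lit 23230, nat_lit 23554, nat_lit 23878, nat_lit 23770, nat_lit 23698, nat_lit 23710, nat_lit 23718] (nat_lit 0) [nat_lit 43398, nat_lit 4034] false,
   Spec.mk (nat_lit 23718) (nat_lit 0) [nat_lit 10596, nat_lit 28092, nat_lit 25176, nat_lit 23232, nat_lit 23556, nat_lit 23880, nat_lit 23772, nat_lit 23700, nat_lit 23712, nat_lit 23724, nat_lit 23716] (nat_lit 0) [nat_lit 4036] false,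
   Spec.mk (nat_lit 23724) (nat_lit 1) [nat_lit 10602, nat_lit 28098, nat_lit 25182, nat_lit 23238, nat_lit 23562, nat_lit 23886, nat_lit 23778, nat_lit 23718] (nat_lit 0) [nat_lit 4042] false,
   Spec.mk (nat_lit 23738) (nat_lit 0) [nat_lit 10616, nat_lit 28112, nat_lit 25196, nat_lit 23252, nat_lit 23900, nat_lit 23684, nat_lit 23744, nat_lit 23740] (nat_lit 0) [nat_lit 43420] false,
   Spec.mk (nat_lit 23740) (nat_lit 0) [nat_lit 10618, nat_lit 28114, nat_lit 25198, nat_lit 23254, nat_lit 23902, nat_lit 23686, nat_lit 23746, nat_lit 23738] (nat_lit 1) [nat_lit 43422, nat_lit 4058] false,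
   Spec.mk (nat_lit 23744) (nat_lit 0) [nat_lit 10622, nat_lit 28118, nat_lit 25202, nat_lit 23258, nat_lit 23906, nat_lit 23690, nat_lit 23762, nat_lit 23738, nat_lit 23746] (nat_lit 2) [nat_lit 43426] false,
   Spec.mk (nat_lit 23746) (nat_lit 0) [nat_lit 10624, nat_lit 28120, nat_lit 25204, nat_lit 23260, nat_lit 23908, nat_lit 23692, nat_lit 23764, nat_lit 23740, nat_lit 23752, nat_lit 23744, nat_lit 23748] (nat_lit 1) [nat_lit 43428, nat_lit 4064] false,
   Spec.mk (nat_lit 23748) (nat_lit 0) [nat_lit 10626, nat_lit 28122, nat_lit 25206, nat_lit 23262, nat_lit 23910, nat_lit 23694, nat_lit 23766, nat_lit 23754, nat_lit 23746] (nat_lit 2) [nat_lit 4066] false,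
   Spec.mk (nat_lit 23752) (nat_lit 0) [nat_lit 10630, nat_lit 28126, nat_lit 25210, nat_lit 23266, nat_lit 23914, nat_lit 23698, nat_lit 23770, nat_lit 23746, nat_lit 23754] (nat_lit 3) [nat_lit 43434, nat_lit 4070] false,
   Spec.mk (nat_lit 23754) (nat_lit 0) [nat_lit 10632, nat_lit 28128, nat_lit 25212, nat_lit 23268, nat_lit 23916, nat_lit 23700, nat_lit 23772, nat_lit 23748, nat_lit 23752] (nat_lit 2) [nat_lit 4072] false,
   Spec.mk (nat_lit 23762) (nat_lit 0) [nat_lit 10640, nat_lit 28136, nat_lit 25220, nat_lit 23276, nat_lit 23924, nat_lit 23708, nat_lit 23744, nat_lit 23764] (nat_lit 0) [nat_lit 43444] false,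
   Spec.mk (nat_lit 23764) (nat_lit 0) [nat_lit 10642, nat_lit 28138, nat_lit 25222, nat_lit 23278, nat_lit 23926, nat_lit 23710, nat_lit 23746, nat_lit 23770, nat_lit 23762, nat_lit 23766] (nat_lit 0) [nat_lit 43446, nat_lit 4082] false,
   Spec.mk (nat_lit 23766) (nat_lit 0) [nat_lit 10644, nat_lit 28140, nat_lit 25224, nat_lit 23280, nat_lit 23928, nat_lit 23712, nat_lit 23748, nat_lit 23772, nat_lit 23764] (nat_lit 2) [nat_lit 4084] false,
   Spec.mk (nat_lit 23770) (nat_lit 0) [nat_lit 10648, nat_lit 28144, nat_lit 25228, nat_lit 23284, nat_lit 23932, nat_lit 23716, nat_lit 23752, nat_lit 23788, nat_lit 23764, nat_lit 23772] (nat_lit 0) [nat_lit 43452, nat_lit 4088] false]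

noncomputable def sp58 : List Spec :=
  [Spec.mk (nat_lit 23772) (nat_lit 0) [nat_lit 10650, nat_lit 28146, nat_lit 25230, nat_lit 23286, nat_lit 23934, nat_lit 23718, nat_lit 23754, nat_lit 23790, nat_lit 23766, nat_lit 23778, nat_lit 23770] (nat_lit 0) [nat_lit 4090] false,
   Spec.mk (nat_lit 23778) (nat_lit 0) [nat_lit 10656, nat_lit 28152, nat_lit 25236, nat_lit 23292, nat_lit 23940, nat_lit 23724, nat_lit 23796, nat_lit 23772] (nat_lit 0) [nat_lit 4096] false,
   Spec.mk (nat_lit 23788) (nat_lit 1) [nat_lit 10666, nat_lit 28162, nat_lit 25246, nat_lit 23302, nat_lit 23950, nat_lit 23770, nat_lit 23790] (nat_lit 0) [nat_lit 43470, nat_lit 4106] false,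
   Spec.mk (nat_lit 23790) (nat_lit 0) [nat_lit 10668, nat_lit 28164, nat_lit 25248, nat_lit 23304, nat_lit 23952, nat_lit 23772, nat_lit 23796, nat_lit 23788] (nat_lit 0) [nat_lit 4108] false,
   Spec.mk (nat_lit 23796) (nat_lit 2) [nat_lit 10674, nat_lit 28170, nat_lit 25254, nat_lit 23310, nat_lit 23958, nat_lit 23778, nat_lit 23790] (nat_lit 0) [nat_lit 4114] false,
   Spec.mk (nat_lit 23822) (nat_lit 2) [nat_lit 10700, nat_lit 28196, nat_lit 25280, nat_lit 23660, nat_lit 23828] (nat_lit 0) [nat_lit 43504] false,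
   Spec.mk (nat_lit 23828) (nat_lit 1) [nat_lit 10706, nat_lit 28202, nat_lit 25286, nat_lit 23666, nat_lit 23846, nat_lit 23822, nat_lit 23834, nat_lit 23830] (nat_lit 0) [nat_lit 43510] false,
   Spec.mk (nat_lit 23830) (nat_lit 1) [nat_lit 10708, nat_lit 28204, nat_lit 25288, nat_lit 23668, nat_lit 23848, nat_lit 23836, nat_lit 23828] (nat_lit 0) [nat_lit 43512, nat_lit 4148] false,
   Spec.mk (nat_lit 23834) (nat_lit 0) [nat_lit 10712, nat_lit 28208, nat_lit 25292, nat_lit 23672, nat_lit 23852, nat_lit 23828, nat_lit 23836] (nat_lit 2) [nat_lit 43516] false,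
   Spec.mk (nat_lit 23836) (nat_lit 0) [nat_lit 10714, nat_lit 28210, nat_lit 25294, nat_lit 23674, nat_lit 23854, nat_lit 23830, nat_lit 23834, nat_lit 23838] (nat_lit 0) [nat_lit 43518, nat_lit 4154] false,
   Spec.mk (nat_lit 23838) (nat_lit 0) [nat_lit 10716, nat_lit 28212, nat_lit 25296, nat_lit 23676, nat_lit 23856, nat_lit 23836] (nat_lit 0) [nat_lit 4156] false,
   Spec.mk (nat_lit 23846) (nat_lit 0) [nat_lit 10724, nat_lit 28220, nat_lit 25304, nat_lit 23684, nat_lit 23900, nat_lit 23828, nat_lit 23852, nat_lit 23848] (nat_lit 0) [nat_lit 43528] false,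
   Spec.mk (nat_lit 23848) (nat_lit 0) [nat_lit 10726, nat_lit 28222, nat_lit 25306, nat_lit 23686, nat_lit 23902, nat_lit 23830, nat_lit 23854, nat_lit 23846] (nat_lit 1) [nat_lit 43530, nat_lit 4166] false,
   Spec.mk (nat_lit 23852) (nat_lit 0) [nat_lit 10730, nat_lit 28226, nat_lit 25310, nat_lit 23690, nat_lit 23906, nat_lit 23834, nat_lit 23870, nat_lit 23846, nat_lit 23854] (nat_lit 1) [nat_lit 43534] false,
   Spec.mk (nat_lit 23854) (nat_lit 0) [nat_lit 10732, nat_lit 28228, nat_lit 25312, nat_lit 23692, nat_lit 23908, nat_lit 23836, nat_lit 23872, nat_lit 23848, nat_lit 23860, nat_lit 23852, nat_lit 23856] (nat_lit 0) [nat_lit 43536, nat_lit 4172] false,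
   Spec.mk (nat_lit 23856) (nat_lit 0) [nat_lit 10734, nat_lit 28230, nat_lit 25314, nat_lit 23694, nat_lit 23910, nat_lit 23838, nat_lit 23874, nat_lit 23862, nat_lit 23854] (nat_lit 1) [nat_lit 4174] false,
   Spec.mk (nat_lit 23860) (nat_lit 0) [nat_lit 10738, nat_lit 28234, nat_lit 25318, nat_lit 23698, nat_lit 23914, nat_lit 23878, nat_lit 23854, nat_lit 23862] (nat_lit 1) [nat_lit 43542, nat_lit 4178] false,
   Spec.mk (nat_lit 23862) (nat_lit 0) [nat_lit 10740, nat_lit 28236, nat_lit 25320, nat_lit 23700, nat_lit 23916, nat_lit 23880, nat_lit 23856, nat_lit 23860] (nat_lit 0) [nat_lit 4180] false,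
   Spec.mk (nat_lit 23870) (nat_lit 0) [nat_lit 10748, nat_lit 28244, nat_lit 25328, nat_lit 23708, nat_lit 23924, nat_lit 23852, nat_lit 23872] (nat_lit 2) [nat_lit 43552] false,
   Spec.mk (nat_lit 23872) (nat_lit 0) [nat_lit 10750, nat_lit 28246, nat_lit 25330, nat_lit 23710, nat_lit 23926, nat_lit 23854, nat_lit 23878, nat_lit 23870, nat_lit 23874] (nat_lit 2) [nat_lit 43554, nat_lit 4190] false,
   Spec.mk (nat_lit 23874) (nat_lit 0) [nat_lit 10752, nat_lit 28248, nat_lit 25332, nat_lit 23712, nat_lit 23928, nat_lit 23856, nat_lit 23880, nat_lit 23872] (nat_lit 4) [nat_lit 4192] false,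
   Spec.mk (nat_lit 23878) (nat_lit 0) [nat_lit 10756, nat_lit 28252, nat_lit 25336, nat_lit 23716, nat_lit 23932, nat_lit 23860, nat_lit 23872, nat_lit 23880] (nat_lit 1) [nat_lit 43560, nat_lit 4196] false,
   Spec.mk (nat_lit 23880) (nat_lit 0) [nat_lit 10758, nat_lit 28254, nat_lit 25338, nat_lit 23718, nat_lit 23934, nat_lit 23862, nat_lit 23874, nat_lit 23886, nat_lit 23878] (nat_lit 1) [nat_lit 4198] false,
   Spec.mk (nat_lit 23886) (nat_lit 0) [nat_lit 10764, nat_lit 28260, nat_lit 25344, nat_lit 23724, nat_lit 23940, nat_lit 23880] (nat_lit 0) [nat_lit 4204] false,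
   Spec.mk (nat_lit 23900) (nat_lit 2) [nat_lit 10778, nat_lit 28274, nat_lit 25358, nat_lit 23738, nat_lit 23846, nat_lit 23906, nat_lit 23902] (nat_lit 0) [nat_lit 43582] false,
   Spec.mk (nat_lit 23902) (nat_lit 1) [nat_lit 10780, nat_lit 28276, nat_lit 25360, nat_lit 23740, nat_lit 23848, nat_lit 23908, nat_lit 23900] (nat_lit 0) [nat_lit 43584, nat_lit 4220] false,
   Spec.mk (nat_lit 23906) (nat_lit 0) [nat_lit 10784, nat_lit 28280, nat_lit 25364, nat_lit 23744, nat_lit 23852, nat_lit 23924, nat_lit 23900, nat_lit 23908] (nat_lit 0) [nat_lit 43588] false,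
   Spec.mk (nat_lit 23908) (nat_lit 1) [nat_lit 10786, nat_lit 28282, nat_lit 25366, nat_lit 23746, nat_lit 23854, nat_lit 23926, nat_lit 23902, nat_lit 23914, nat_lit 23906, nat_lit 23910] (nat_lit 0) [nat_lit 43590, nat_lit 4226] false,
   Spec.mk (nat_lit 23910) (nat_lit 0) [nat_lit 10788, nat_lit 28284, nat_lit 25368, nat_lit 23748, nat_lit 23856, nat_lit 23928, nat_lit 23916, nat_lit 23908] (nat_lit 0) [nat_lit 4228] false,
   Spec.mk (nat_lit 23914) (nat_lit 0) [nat_lit 10792, nat_lit 28288, nat_lit 25372, nat_lit 23752, nat_lit 23860, nat_lit 23932, nat_lit 23908, nat_lit 23916] (nat_lit 1) [nat_lit 43596, nat_lit 4232] false,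
   Spec.mk (nat_lit 23916) (nat_lit 0) [nat_lit 10794, nat_lit 28290, nat_lit 25374, nat_lit 23754, nat_lit 23862, nat_lit 23934, nat_lit 23910, nat_lit 23914] (nat_lit 0) [nat_lit 4234] false,
   Spec.mk (nat_lit 23924) (nat_lit 1) [nat_lit 10802, nat_lit 28298, nat_lit 25382, nat_lit 23762, nat_lit 23870, nat_lit 23978, nat_lit 23906, nat_lit 23926] (nat_lit 0) [nat_lit 43606] false,
   Spec.mk (nat_lit 23926) (nat_lit 1) [nat_lit 10804, nat_lit 28300, nat_lit 25384, nat_lit 23764, nat_lit 23872, nat_lit 23980, nat_lit 23908, nat_lit 23932, nat_lit 23924, nat_lit 23928] (nat_lit 0) [nat_lit 43608, nat_lit 4244] false,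
   Spec.mk (nat_lit 23928) (nat_lit 0) [nat_lit 10806, nat_lit 28302, nat_lit 25386, nat_lit 23766, nat_lit 23874, nat_lit 23982, nat_lit 23910, nat_lit 23934, nat_lit 23926] (nat_lit 1) [nat_lit 4246] false,
   Spec.mk (nat_lit 23932) (nat_lit 1) [nat_lit 10810, nat_lit 28306, nat_lit 25390, nat_lit 23770, nat_lit 23878, nat_lit 23986, nat_lit 23914, nat_lit 23950, nat_lit 23926, nat_lit 23934] (nat_lit 0) [nat_lit 43614, nat_lit 4250] false,
   Spec.mk (nat_lit 23934) (nat_lit 1) [nat_lit 10812, nat_lit 28308, nat_lit 25392, nat_lit 23772, nat_lit 23880, nat_lit 23988, nat_lit 23916, nat_lit 23952, nat_lit 23928, nat_lit 23940, nat_lit 23932] (nat_lit 0) [nat_lit 4252] false,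
   Spec.mk (nat_lit 23940) (nat_lit 1) [nat_lit 10818, nat_lit 28314, nat_lit 25398, nat_lit 23778, nat_lit 23886, nat_lit 23994, nat_lit 23958, nat_lit 23934] (nat_lit 0) [nat_lit 4258] false,
   Spec.mk (nat_lit 23950) (nat_lit 1) [nat_lit 10828, nat_lit 28324, nat_lit 25408, nat_lit 23788, nat_lit 24004, nat_lit 23932, nat_lit 23952] (nat_lit 0) [nat_lit 43632, nat_lit 4268] false,
   Spec.mk (nat_lit 23952) (nat_lit 0) [nat_lit 10830, nat_lit 28326, nat_lit 25410, nat_lit 23790, nat_lit 24006, nat_lit 23934, nat_lit 23958, nat_lit 23950] (nat_lit 0) [nat_lit 4270] false,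
   Spec.mk (nat_lit 23958) (nat_lit 2) [nat_lit 10836, nat_lit 28332, nat_lit 25416, nat_lit 23796, nat_lit 24012, nat_lit 23940, nat_lit 23952] (nat_lit 0) [nat_lit 4276] false,
   Spec.mk (nat_lit 23978) (nat_lit 2) [nat_lit 10856, nat_lit 28352, nat_lit 25436, nat_lit 23924, nat_lit 23980] (nat_lit 0) [nat_lit 43660] false,
   Spec.mk (nat_lit 23980) (nat_lit 2) [nat_lit 10858, nat_lit 28354, nat_lit 25438, nat_lit 23926, nat_lit 23986, nat_lit 23978, nat_lit 23982] (nat_lit 0) [nat_lit 43662, nat_lit 4298] false,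
   Spec.mk (nat_lit 23982) (nat_lit 0) [nat_lit 10860, nat_lit 28356, nat_lit 25440, nat_lit 23928, nat_lit 23988, nat_lit 23980] (nat_lit 0) [nat_lit 4300] false,
   Spec.mk (nat_lit 23986) (nat_lit 1) [nat_lit 10864, nat_lit 28360, nat_lit 25444, nat_lit 23932, nat_lit 24004, nat_lit 23980, nat_lit 23988] (nat_lit 0) [nat_lit 43668, nat_lit 4304] false,
   Spec.mk (nat_lit 23988) (nat_lit 1) [nat_lit 10866, nat_lit 28362, nat_lit 25446, nat_lit 23934, nat_lit 24006, nat_lit 23982, nat_lit 23994, nat_lit 23986] (nat_lit 0) [nat_lit 4306] false,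
   Spec.mk (nat_lit 23994) (nat_lit 0) [nat_lit 10872, nat_lit 28368, nat_lit 25452, nat_lit 23940, nat_lit 24012, nat_lit 23988] (nat_lit 0) [nat_lit 4312] false,
   Spec.mk (nat_lit 24004) (nat_lit 3) [nat_lit 10882, nat_lit 28378, nat_lit 25462, nat_lit 23950, nat_lit 23986, nat_lit 24006] (nat_lit 0) [nat_lit 43686, nat_lit 4322] false,
   Spec.mk (nat_lit 24006) (nat_lit 2) [nat_lit 10884, nat_lit 28380, nat_lit 25464, nat_lit 23952, nat_lit 23988, nat_lit 24012, nat_lit 24004] (nat_lit 0) [nat_lit 4324] false,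
   Spec.mk (nat_lit 24012) (nat_lit 3) [nat_lit 10890, nat_lit 28386, nat_lit 25470, nat_lit 23958, nat_lit 23994, nat_lit 24030, nat_lit 24006] (nat_lit 0) [nat_lit 4330] false,
   Spec.mk (nat_lit 24030) (nat_lit 4) [nat_lit 10908, nat_lit 28404, nat_lit 25488, nat_lit 24012] (nat_lit 0) [nat_lit 4348] false,
   Spec.mk (nat_lit 24110) (nat_lit 2) [nat_lit 10988, nat_lit 28484, nat_lit 22652, nat_lit 24164, nat_lit 24128] (nat_lit 0) [nat_lit 43792] false,
   Spec.mk (nat_lit 24128) (nat_lit 0) [nat_lit 11006, nat_lit 28502, nat_lit 22670, nat_lit 24182, nat_lit 24110, nat_lit 24134] (nat_lit 0) [nat_lit 43810] false,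
   Spec.mk (nat_lit 24134) (nat_lit 0) [nat_lit 11012, nat_lit 28508, nat_lit 22676, nat_lit 24188, nat_lit 24128, nat_lit 24136] (nat_lit 0) [nat_lit 43816] false,
   Spec.mk (nat_lit 24136) (nat_lit 1) [nat_lit 11014, nat_lit 28510, nat_lit 22678, nat_lit 24190, nat_lit 24134] (nat_lit 0) [nat_lit 43818, nat_lit 4454] false,
   Spec.mk (nat_lit 24164) (nat_lit 0) [nat_lit 11042, nat_lit 28538, nat_lit 22706, nat_lit 24326, nat_lit 24110, nat_lit 24182] (nat_lit 0) [nat_lit 43846] false,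
   Spec.mk (nat_lit 24182) (nat_lit 0) [nat_lit 11060, nat_lit 28556, nat_lit 22724, nat_lit 24344, nat_lit 24128, nat_lit 24236, nat_lit 24164, nat_lit 24200, nat_lit 24188] (nat_lit 0) [nat_lit 43864] false,
   Spec.mk (nat_lit 24188) (nat_lit 0) [nat_lit 11066, nat_lit 28562, nat_lit 22730, nat_lit 24350, nat_lit 24134, nat_lit 24242, nat_lit 24206, nat_lit 24182, nat_lit 24190] (nat_lit 1) [nat_lit 43870] false,
   Spec.mk (nat_lit 24190) (nat_lit 0) [nat_lit 11068, nat_lit 28564, nat_lit 22732, nat_lit 24352, nat_lit 24136, nat_lit 24244, nat_lit 24208, nat_lit 24188] (nat_lit 0) [nat_lit 43872, nat_lit 4508] false,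
   Spec.mk (nat_lit 24200) (nat_lit 0) [nat_lit 11078, nat_lit 28574, nat_lit 22742, nat_lit 24362, nat_lit 24254, nat_lit 24182, nat_lit 24206] (nat_lit 2) [nat_lit 43882] false,
   Spec.mk (nat_lit 24206) (nat_lit 0) [nat_lit 11084, nat_lit 28580, nat_lit 22748, nat_lit 24368, nat_lit 24260, nat_lit 24188, nat_lit 24200, nat_lit 24212, nat_lit 24208] (nat_lit 1) [nat_lit 43888] false]

noncomputable def sp59 : List Spec :=
  [Spec.mk (nat_lit 24208) (nat_lit 0) [nat_lit 11086, nat_lit 28582, nat_lit 22750, nat_lit 24370, nat_lit 24262, nat_lit 24190, nat_lit 24214, nat_lit 24206] (nat_lit 1) [nat_lit 43890, nat_lit 4526] false,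
   Spec.mk (nat_lit 24212) (nat_lit 0) [nat_lit 11090, nat_lit 28586, nat_lit 22754, nat_lit 24374, nat_lit 24266, nat_lit 24206, nat_lit 24214] (nat_lit 2) [nat_lit 43894] false,
   Spec.mk (nat_lit 24214) (nat_lit 0) [nat_lit 11092, nat_lit 28588, nat_lit 22756, nat_lit 24376, nat_lit 24268, nat_lit 24208, nat_lit 24212, nat_lit 24216] (nat_lit 0) [nat_lit 43896, nat_lit 4532] false,
   Spec.mk (nat_lit 24216) (nat_lit 0) [nat_lit 11094, nat_lit 28590, nat_lit 22758, nat_lit 24378, nat_lit 24270, nat_lit 24214] (nat_lit 0) [nat_lit 4534] false,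
   Spec.mk (nat_lit 24236) (nat_lit 0) [nat_lit 11114, nat_lit 28610, nat_lit 22778, nat_lit 24398, nat_lit 24182, nat_lit 24254, nat_lit 24242] (nat_lit 2) [nat_lit 43918] false,
   Spec.mk (nat_lit 24242) (nat_lit 0) [nat_lit 11120, nat_lit 28616, nat_lit 22784, nat_lit 24404, nat_lit 24188, nat_lit 24260, nat_lit 24236, nat_lit 24244] (nat_lit 4) [nat_lit 43924] false,
   Spec.mk (nat_lit 24244) (nat_lit 0) [nat_lit 11122, nat_lit 28618, nat_lit 22786, nat_lit 24406, nat_lit 24190, nat_lit 24262, nat_lit 24242] (nat_lit 3) [nat_lit 43926, nat_lit 4562] false,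
   Spec.mk (nat_lit 24254) (nat_lit 0) [nat_lit 11132, nat_lit 28628, nat_lit 22796, nat_lit 24416, nat_lit 24200, nat_lit 24236, nat_lit 24260] (nat_lit 2) [nat_lit 43936] false,
   Spec.mk (nat_lit 24260) (nat_lit 0) [nat_lit 11138, nat_lit 28634, nat_lit 22802, nat_lit 24422, nat_lit 24206, nat_lit 24242, nat_lit 24278, nat_lit 24254, nat_lit 24266, nat_lit 24262] (nat_lit 2) [nat_lit 43942] false,
   Spec.mk (nat_lit 24262) (nat_lit 0) [nat_lit 11140, nat_lit 28636, nat_lit 22804, nat_lit 24424, nat_lit 24208, nat_lit 24244, nat_lit 24280, nat_lit 24268, nat_lit 24260] (nat_lit 2) [nat_lit 43944, nat_lit 4580] false,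
   Spec.mk (nat_lit 24266) (nat_lit 0) [nat_lit 11144, nat_lit 28640, nat_lit 22808, nat_lit 24428, nat_lit 24212, nat_lit 24284, nat_lit 24260, nat_lit 24268] (nat_lit 4) [nat_lit 43948] false,
   Spec.mk (nat_lit 24268) (nat_lit 0) [nat_lit 11146, nat_lit 28642, nat_lit 22810, nat_lit 24430, nat_lit 24214, nat_lit 24286, nat_lit 24262, nat_lit 24266, nat_lit 24270] (nat_lit 2) [nat_lit 43950, nat_lit 4586] false,
   Spec.mk (nat_lit 24270) (nat_lit 0) [nat_lit 11148, nat_lit 28644, nat_lit 22812, nat_lit 24432, nat_lit 24216, nat_lit 24288, nat_lit 24268] (nat_lit 2) [nat_lit 4588] false,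
   Spec.mk (nat_lit 24278) (nat_lit 0) [nat_lit 11156, nat_lit 28652, nat_lit 22820, nat_lit 24440, nat_lit 24260, nat_lit 24284, nat_lit 24280] (nat_lit 2) [nat_lit 43960] false,
   Spec.mk (nat_lit 24280) (nat_lit 0) [nat_lit 11158, nat_lit 28654, nat_lit 22822, nat_lit 24442, nat_lit 24262, nat_lit 24286, nat_lit 24278] (nat_lit 3) [nat_lit 43962, nat_lit 4598] false,
   Spec.mk (nat_lit 24284) (nat_lit 0) [nat_lit 11162, nat_lit 28658, nat_lit 22826, nat_lit 24446, nat_lit 24266, nat_lit 24278, nat_lit 24286] (nat_lit 2) [nat_lit 43966] false,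
   Spec.mk (nat_lit 24286) (nat_lit 0) [nat_lit 11164, nat_lit 28660, nat_lit 22828, nat_lit 24448, nat_lit 24268, nat_lit 24280, nat_lit 24292, nat_lit 24284, nat_lit 24288] (nat_lit 1) [nat_lit 43968, nat_lit 4604] false,
   Spec.mk (nat_lit 24288) (nat_lit 0) [nat_lit 11166, nat_lit 28662, nat_lit 22830, nat_lit 24450, nat_lit 24270, nat_lit 24294, nat_lit 24286] (nat_lit 2) [nat_lit 4606] false,
   Spec.mk (nat_lit 24292) (nat_lit 0) [nat_lit 11170, nat_lit 28666, nat_lit 22834, nat_lit 24454, nat_lit 24286, nat_lit 24294] (nat_lit 1) [nat_lit 43974, nat_lit 4610] false,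
   Spec.mk (nat_lit 24294) (nat_lit 0) [nat_lit 11172, nat_lit 28668, nat_lit 22836, nat_lit 24456, nat_lit 24288, nat_lit 24292] (nat_lit 0) [nat_lit 4612] false,
   Spec.mk (nat_lit 24326) (nat_lit 0) [nat_lit 11204, nat_lit 28700, nat_lit 22868, nat_lit 24812, nat_lit 24164, nat_lit 24344] (nat_lit 0) [nat_lit 44008] false,
   Spec.mk (nat_lit 24344) (nat_lit 0) [nat_lit 11222, nat_lit 28718, nat_lit 22886, nat_lit 24830, nat_lit 24182, nat_lit 24398, nat_lit 24326, nat_lit 24362, nat_lit 24350] (nat_lit 1) [nat_lit 44026] false,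
   Spec.mk (nat_lit 24350) (nat_lit 0) [nat_lit 11228, nat_lit 28724, nat_lit 22892, nat_lit 24836, nat_lit 24188, nat_lit 24404, nat_lit 24368, nat_lit 24344, nat_lit 24352] (nat_lit 2) [nat_lit 44032] false,
   Spec.mk (nat_lit 24352) (nat_lit 0) [nat_lit 11230, nat_lit 28726, nat_lit 22894, nat_lit 24838, nat_lit 24190, nat_lit 24406, nat_lit 24370, nat_lit 24350] (nat_lit 1) [nat_lit 44034, nat_lit 4670] false,
   Spec.mk (nat_lit 24362) (nat_lit 0) [nat_lit 11240, nat_lit 28736, nat_lit 22904, nat_lit 24848, nat_lit 24200, nat_lit 24416, nat_lit 24344, nat_lit 24368] (nat_lit 4) [nat_lit 44044] false,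
   Spec.mk (nat_lit 24368) (nat_lit 0) [nat_lit 11246, nat_lit 28742, nat_lit 22910, nat_lit 24854, nat_lit 24206, nat_lit 24422, nat_lit 24350, nat_lit 24362, nat_lit 24374, nat_lit 24370] (nat_lit 3) [nat_lit 44050] false,
   Spec.mk (nat_lit 24370) (nat_lit 0) [nat_lit 11248, nat_lit 28744, nat_lit 22912, nat_lit 24856, nat_lit 24208, nat_lit 24424, nat_lit 24352, nat_lit 24376, nat_lit 24368] (nat_lit 3) [nat_lit 44052, nat_lit 4688] false,
   Spec.mk (nat_lit 24374) (nat_lit 0) [nat_lit 11252, nat_lit 28748, nat_lit 22916, nat_lit 24860, nat_lit 24212, nat_lit 24428, nat_lit 24368, nat_lit 24376] (nat_lit 4) [nat_lit 44056] false,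
   Spec.mk (nat_lit 24376) (nat_lit 0) [nat_lit 11254, nat_lit 28750, nat_lit 22918, nat_lit 24862, nat_lit 24214, nat_lit 24430, nat_lit 24370, nat_lit 24374, nat_lit 24378] (nat_lit 2) [nat_lit 44058, nat_lit 4694] false,
   Spec.mk (nat_lit 24378) (nat_lit 0) [nat_lit 11256, nat_lit 28752, nat_lit 22920, nat_lit 24864, nat_lit 24216, nat_lit 24432, nat_lit 24376] (nat_lit 2) [nat_lit 4696] false,
   Spec.mk (nat_lit 24398) (nat_lit 0) [nat_lit 11276, nat_lit 28772, nat_lit 22940, nat_lit 24884, nat_lit 24236, nat_lit 24560, nat_lit 24344, nat_lit 24416, nat_lit 24404] (nat_lit 1) [nat_lit 44080] false,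
   Spec.mk (nat_lit 24404) (nat_lit 0) [nat_lit 11282, nat_lit 28778, nat_lit 22946, nat_lit 24890, nat_lit 24242, nat_lit 24566, nat_lit 24350, nat_lit 24422, nat_lit 24398, nat_lit 24406] (nat_lit 3) [nat_lit 44086] false,
   Spec.mk (nat_lit 24406) (nat_lit 0) [nat_lit 11284, nat_lit 28780, nat_lit 22948, nat_lit 24892, nat_lit 24244, nat_lit 24568, nat_lit 24352, nat_lit 24424, nat_lit 24404] (nat_lit 2) [nat_lit 44088, nat_lit 4724] false,
   Spec.mk (nat_lit 24416) (nat_lit 0) [nat_lit 11294, nat_lit 28790, nat_lit 22958, nat_lit 24902, nat_lit 24254, nat_lit 24578, nat_lit 24362, nat_lit 24470, nat_lit 24398, nat_lit 24422] (nat_lit 2) [nat_lit 44098] false,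
   Spec.mk (nat_lit 24422) (nat_lit 0) [nat_lit 11300, nat_lit 28796, nat_lit 22964, nat_lit 24908, nat_lit 24260, nat_lit 24584, nat_lit 24368, nat_lit 24476, nat_lit 24404, nat_lit 24440, nat_lit 24416, nat_lit 24428, nat_lit 24424] (nat_lit 2) [nat_lit 44104] false,
   Spec.mk (nat_lit 24424) (nat_lit 0) [nat_lit 11302, nat_lit 28798, nat_lit 22966, nat_lit 24910, nat_lit 24262, nat_lit 24586, nat_lit 24370, nat_lit 24478, nat_lit 24406, nat_lit 24442, nat_lit 24430, nat_lit 24422] (nat_lit 2) [nat_lit 44106, nat_lit 4742] false,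
   Spec.mk (nat_lit 24428) (nat_lit 0) [nat_lit 11306, nat_lit 28802, nat_lit 22970, nat_lit 24914, nat_lit 24266, nat_lit 24590, nat_lit 24374, nat_lit 24482, nat_lit 24446, nat_lit 24422, nat_lit 24430] (nat_lit 4) [nat_lit 44110] false,
   Spec.mk (nat_lit 24430) (nat_lit 0) [nat_lit 11308, nat_lit 28804, nat_lit 22972, nat_lit 24916, nat_lit 24268, nat_lit 24592, nat_lit 24376, nat_lit 24484, nat_lit 24448, nat_lit 24424, nat_lit 24428, nat_lit 24432] (nat_lit 2) [nat_lit 44112, nat_lit 4748] false,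
   Spec.mk (nat_lit 24432) (nat_lit 0) [nat_lit 11310, nat_lit 28806, nat_lit 22974, nat_lit 24918, nat_lit 24270, nat_lit 24594, nat_lit 24378, nat_lit 24486, nat_lit 24450, nat_lit 24430] (nat_lit 2) [nat_lit 4750] false,
   Spec.mk (nat_lit 24440) (nat_lit 0) [nat_lit 11318, nat_lit 28814, nat_lit 22982, nat_lit 24926, nat_lit 24278, nat_lit 24602, nat_lit 24494, nat_lit 24422, nat_lit 24446, nat_lit 24442] (nat_lit 3) [nat_lit 44122] false,
   Spec.mk (nat_lit 24442) (nat_lit 0) [nat_lit 11320, nat_lit 28816, nat_lit 22984, nat_lit 24928, nat_lit 24280, nat_lit 24604, nat_lit 24496, nat_lit 24424, nat_lit 24448, nat_lit 24440] (nat_lit 4) [nat_lit 44124, nat_lit 4760] false,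
   Spec.mk (nat_lit 24446) (nat_lit 0) [nat_lit 11324, nat_lit 28820, nat_lit 22988, nat_lit 24932, nat_lit 24284, nat_lit 24608, nat_lit 24500, nat_lit 24428, nat_lit 24440, nat_lit 24448] (nat_lit 3) [nat_lit 44128] false,
   Spec.mk (nat_lit 24448) (nat_lit 0) [nat_lit 11326, nat_lit 28822, nat_lit 22990, nat_lit 24934, nat_lit 24286, nat_lit 24610, nat_lit 24502, nat_lit 24430, nat_lit 24442, nat_lit 24454, nat_lit 24446, nat_lit 24450] (nat_lit 2) [nat_lit 44130, nat_lit 4766] false,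
   Spec.mk (nat_lit 24450) (nat_lit 0) [nat_lit 11328, nat_lit 28824, nat_lit 22992, nat_lit 24936, nat_lit 24288, nat_lit 24612, nat_lit 24504, nat_lit 24432, nat_lit 24456, nat_lit 24448] (nat_lit 3) [nat_lit 4768] false,
   Spec.mk (nat_lit 24454) (nat_lit 0) [nat_lit 11332, nat_lit 28828, nat_lit 22996, nat_lit 24940, nat_lit 24292, nat_lit 24616, nat_lit 24508, nat_lit 24448, nat_lit 24456] (nat_lit 2) [nat_lit 44136, nat_lit 4772] false,
   Spec.mk (nat_lit 24456) (nat_lit 0) [nat_lit 11334, nat_lit 28830, nat_lit 22998, nat_lit 24942, nat_lit 24294, nat_lit 24618, nat_lit 24510, nat_lit 24450, nat_lit 24454] (nat_lit 1) [nat_lit 4774] false,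
   Spec.mk (nat_lit 24470) (nat_lit 0) [nat_lit 11348, nat_lit 28844, nat_lit 23012, nat_lit 24956, nat_lit 24632, nat_lit 24416, nat_lit 24476] (nat_lit 2) [nat_lit 44152] false,
   Spec.mk (nat_lit 24476) (nat_lit 0) [nat_lit 11354, nat_lit 28850, nat_lit 23018, nat_lit 24962, nat_lit 24638, nat_lit 24422, nat_lit 24494, nat_lit 24470, nat_lit 24482, nat_lit 24478] (nat_lit 3) [nat_lit 44158] false,
   Spec.mk (nat_lit 24478) (nat_lit 0) [nat_lit 11356, nat_lit 28852, nat_lit 23020, nat_lit 24964, nat_lit 24640, nat_lit 24424, nat_lit 24496, nat_lit 24484, nat_lit 24476] (nat_lit 3) [nat_lit 44160, nat_lit 4796] false,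
   Spec.mk (nat_lit 24482) (nat_lit 0) [nat_lit 11360, nat_lit 28856, nat_lit 23024, nat_lit 24968, nat_lit 24644, nat_lit 24428, nat_lit 24500, nat_lit 24476, nat_lit 24484] (nat_lit 6) [nat_lit 44164] false,
   Spec.mk (nat_lit 24484) (nat_lit 0) [nat_lit 11362, nat_lit 28858, nat_lit 23026, nat_lit 24970, nat_lit 24646, nat_lit 24430, nat_lit 24502, nat_lit 24478, nat_lit 24482, nat_lit 24486] (nat_lit 4) [nat_lit 44166, nat_lit 4802] false,
   Spec.mk (nat_lit 24486) (nat_lit 0) [nat_lit 11364, nat_lit 28860, nat_lit 23028, nat_lit 24972, nat_lit 24648, nat_lit 24432, nat_lit 24504, nat_lit 24484] (nat_lit 4) [nat_lit 4804] false,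
   Spec.mk (nat_lit 24494) (nat_lit 0) [nat_lit 11372, nat_lit 28868, nat_lit 23036, nat_lit 24980, nat_lit 24656, nat_lit 24440, nat_lit 24476, nat_lit 24500, nat_lit 24496] (nat_lit 2) [nat_lit 44176] false,
   Spec.mk (nat_lit 24496) (nat_lit 0) [nat_lit 11374, nat_lit 28870, nat_lit 23038, nat_lit 24982, nat_lit 24658, nat_lit 24442, nat_lit 24478, nat_lit 24502, nat_lit 24494] (nat_lit 3) [nat_lit 44178, nat_lit 4814] false,
   Spec.mk (nat_lit 24500) (nat_lit 0) [nat_lit 11378, nat_lit 28874, nat_lit 23042, nat_lit 24986, nat_lit 24662, nat_lit 24446, nat_lit 24482, nat_lit 24518, nat_lit 24494, nat_lit 24502] (nat_lit 3) [nat_lit 44182] false,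
   Spec.mk (nat_lit 24502) (nat_lit 0) [nat_lit 11380, nat_lit 28876, nat_lit 23044, nat_lit 24988, nat_lit 24664, nat_lit 24448, nat_lit 24484, nat_lit 24520, nat_lit 24496, nat_lit 24508, nat_lit 24500, nat_lit 24504] (nat_lit 2) [nat_lit 44184, nat_lit 4820] false,
   Spec.mk (nat_lit 24504) (nat_lit 0) [nat_lit 11382, nat_lit 28878, nat_lit 23046, nat_lit 24990, nat_lit 24666, nat_lit 24450, nat_lit 24486, nat_lit 24522, nat_lit 24510, nat_lit 24502] (nat_lit 3) [nat_lit 4822] false,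
   Spec.mk (nat_lit 24508) (nat_lit 0) [nat_lit 11386, nat_lit 28882, nat_lit 23050, nat_lit 24994, nat_lit 24670, nat_lit 24454, nat_lit 24526, nat_lit 24502, nat_lit 24510] (nat_lit 3) [nat_lit 44190, nat_lit 4826] false,
   Spec.mk (nat_lit 24510) (nat_lit 0) [nat_lit 11388, nat_lit 28884, nat_lit 23052, nat_lit 24996, nat_lit 24672, nat_lit 24456, nat_lit 24528, nat_lit 24504, nat_lit 24508] (nat_lit 2) [nat_lit 4828] false,
   Spec.mk (nat_lit 24518) (nat_lit 0) [nat_lit 11396, nat_lit 28892, nat_lit 23060, nat_lit 25004, nat_lit 24680, nat_lit 24500, nat_lit 24520] (nat_lit 2) [nat_lit 44200] false]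

noncomputable def sp60 : List Spec :=
  [Spec.mk (nat_lit 24520) (nat_lit 0) [nat_lit 11398, nat_lit 28894, nat_lit 23062, nat_lit 25006, nat_lit 24682, nat_lit 24502, nat_lit 24526, nat_lit 24518, nat_lit 24522] (nat_lit 2) [nat_lit 44202, nat_lit 4838] false,
   Spec.mk (nat_lit 24522) (nat_lit 0) [nat_lit 11400, nat_lit 28896, nat_lit 23064, nat_lit 25008, nat_lit 24684, nat_lit 24504, nat_lit 24528, nat_lit 24520] (nat_lit 4) [nat_lit 4840] false,
   Spec.mk (nat_lit 24526) (nat_lit 0) [nat_lit 11404, nat_lit 28900, nat_lit 23068, nat_lit 25012, nat_lit 24688, nat_lit 24508, nat_lit 24520, nat_lit 24528] (nat_lit 1) [nat_lit 44208, nat_lit 4844] false,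
   Spec.mk (nat_lit 24528) (nat_lit 0) [nat_lit 11406, nat_lit 28902, nat_lit 23070, nat_lit 25014, nat_lit 24690, nat_lit 24510, nat_lit 24522, nat_lit 24534, nat_lit 24526] (nat_lit 1) [nat_lit 4846] false,
   Spec.mk (nat_lit 24534) (nat_lit 0) [nat_lit 11412, nat_lit 28908, nat_lit 23076, nat_lit 25020, nat_lit 24696, nat_lit 24528] (nat_lit 0) [nat_lit 4852] false,
   Spec.mk (nat_lit 24560) (nat_lit 0) [nat_lit 11438, nat_lit 28934, nat_lit 23102, nat_lit 25046, nat_lit 24398, nat_lit 24578, nat_lit 24566] (nat_lit 2) [nat_lit 44242] false,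
   Spec.mk (nat_lit 24566) (nat_lit 0) [nat_lit 11444, nat_lit 28940, nat_lit 23108, nat_lit 25052, nat_lit 24404, nat_lit 24584, nat_lit 24560, nat_lit 24568] (nat_lit 4) [nat_lit 44248] false,
   Spec.mk (nat_lit 24568) (nat_lit 0) [nat_lit 11446, nat_lit 28942, nat_lit 23110, nat_lit 25054, nat_lit 24406, nat_lit 24586, nat_lit 24566] (nat_lit 3) [nat_lit 44250, nat_lit 4886] false,
   Spec.mk (nat_lit 24578) (nat_lit 0) [nat_lit 11456, nat_lit 28952, nat_lit 23120, nat_lit 25064, nat_lit 24416, nat_lit 24632, nat_lit 24560, nat_lit 24584] (nat_lit 4) [nat_lit 44260] false,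
   Spec.mk (nat_lit 24584) (nat_lit 0) [nat_lit 11462, nat_lit 28958, nat_lit 23126, nat_lit 25070, nat_lit 24422, nat_lit 24638, nat_lit 24566, nat_lit 24602, nat_lit 24578, nat_lit 24590, nat_lit 24586] (nat_lit 4) [nat_lit 44266] false,
   Spec.mk (nat_lit 24586) (nat_lit 0) [nat_lit 11464, nat_lit 28960, nat_lit 23128, nat_lit 25072, nat_lit 24424, nat_lit 24640, nat_lit 24568, nat_lit 24604, nat_lit 24592, nat_lit 24584] (nat_lit 4) [nat_lit 44268, nat_lit 4904] false,
   Spec.mk (nat_lit 24590) (nat_lit 0) [nat_lit 11468, nat_lit 28964, nat_lit 23132, nat_lit 25076, nat_lit 24428, nat_lit 24644, nat_lit 24608, nat_lit 24584, nat_lit 24592] (nat_lit 6) [nat_lit 44272] false,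
   Spec.mk (nat_lit 24592) (nat_lit 0) [nat_lit 11470, nat_lit 28966, nat_lit 23134, nat_lit 25078, nat_lit 24430, nat_lit 24646, nat_lit 24610, nat_lit 24586, nat_lit 24590, nat_lit 24594] (nat_lit 4) [nat_lit 44274, nat_lit 4910] false,
   Spec.mk (nat_lit 24594) (nat_lit 0) [nat_lit 11472, nat_lit 28968, nat_lit 23136, nat_lit 25080, nat_lit 24432, nat_lit 24648, nat_lit 24612, nat_lit 24592] (nat_lit 4) [nat_lit 4912] false,
   Spec.mk (nat_lit 24602) (nat_lit 0) [nat_lit 11480, nat_lit 28976, nat_lit 23144, nat_lit 25088, nat_lit 24440, nat_lit 24656, nat_lit 24584, nat_lit 24608, nat_lit 24604] (nat_lit 6) [nat_lit 44284] false,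
   Spec.mk (nat_lit 24604) (nat_lit 0) [nat_lit 11482, nat_lit 28978, nat_lit 23146, nat_lit 25090, nat_lit 24442, nat_lit 24658, nat_lit 24586, nat_lit 24610, nat_lit 24602] (nat_lit 7) [nat_lit 44286, nat_lit 4922] false,
   Spec.mk (nat_lit 24608) (nat_lit 0) [nat_lit 11486, nat_lit 28982, nat_lit 23150, nat_lit 25094, nat_lit 24446, nat_lit 24662, nat_lit 24590, nat_lit 24602, nat_lit 24610] (nat_lit 6) [nat_lit 44290] false,
   Spec.mk (nat_lit 24610) (nat_lit 0) [nat_lit 11488, nat_lit 28984, nat_lit 23152, nat_lit 25096, nat_lit 24448, nat_lit 24664, nat_lit 24592, nat_lit 24604, nat_lit 24616, nat_lit 24608, nat_lit 24612] (nat_lit 5) [nat_lit 44292, nat_lit 4928] false,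
   Spec.mk (nat_lit 24612) (nat_lit 0) [nat_lit 11490, nat_lit 28986, nat_lit 23154, nat_lit 25098, nat_lit 24450, nat_lit 24666, nat_lit 24594, nat_lit 24618, nat_lit 24610] (nat_lit 6) [nat_lit 4930] false,
   Spec.mk (nat_lit 24616) (nat_lit 0) [nat_lit 11494, nat_lit 28990, nat_lit 23158, nat_lit 25102, nat_lit 24454, nat_lit 24670, nat_lit 24610, nat_lit 24618] (nat_lit 5) [nat_lit 44298, nat_lit 4934] false,
   Spec.mk (nat_lit 24618) (nat_lit 0) [nat_lit 11496, nat_lit 28992, nat_lit 23160, nat_lit 25104, nat_lit 24456, nat_lit 24672, nat_lit 24612, nat_lit 24616] (nat_lit 4) [nat_lit 4936] false,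
   Spec.mk (nat_lit 24632) (nat_lit 0) [nat_lit 11510, nat_lit 29006, nat_lit 23174, nat_lit 25118, nat_lit 24470, nat_lit 24578, nat_lit 24638] (nat_lit 2) [nat_lit 44314] false,
   Spec.mk (nat_lit 24638) (nat_lit 0) [nat_lit 11516, nat_lit 29012, nat_lit 23180, nat_lit 25124, nat_lit 24476, nat_lit 24584, nat_lit 24656, nat_lit 24632, nat_lit 24644, nat_lit 24640] (nat_lit 3) [nat_lit 44320] false,
   Spec.mk (nat_lit 24640) (nat_lit 0) [nat_lit 11518, nat_lit 29014, nat_lit 23182, nat_lit 25126, nat_lit 24478, nat_lit 24586, nat_lit 24658, nat_lit 24646, nat_lit 24638] (nat_lit 3) [nat_lit 44322, nat_lit 4958] false,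
   Spec.mk (nat_lit 24644) (nat_lit 0) [nat_lit 11522, nat_lit 29018, nat_lit 23186, nat_lit 25130, nat_lit 24482, nat_lit 24590, nat_lit 24662, nat_lit 24638, nat_lit 24646] (nat_lit 6) [nat_lit 44326] false,
   Spec.mk (nat_lit 24646) (nat_lit 0) [nat_lit 11524, nat_lit 29020, nat_lit 23188, nat_lit 25132, nat_lit 24484, nat_lit 24592, nat_lit 24664, nat_lit 24640, nat_lit 24644, nat_lit 24648] (nat_lit 4) [nat_lit 44328, nat_lit 4964] false,
   Spec.mk (nat_lit 24648) (nat_lit 0) [nat_lit 11526, nat_lit 29022, nat_lit 23190, nat_lit 25134, nat_lit 24486, nat_lit 24594, nat_lit 24666, nat_lit 24646] (nat_lit 4) [nat_lit 4966] false,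
   Spec.mk (nat_lit 24656) (nat_lit 0) [nat_lit 11534, nat_lit 29030, nat_lit 23198, nat_lit 25142, nat_lit 24494, nat_lit 24602, nat_lit 24710, nat_lit 24638, nat_lit 24662, nat_lit 24658] (nat_lit 3) [nat_lit 44338] false,
   Spec.mk (nat_lit 24658) (nat_lit 0) [nat_lit 11536, nat_lit 29032, nat_lit 23200, nat_lit 25144, nat_lit 24496, nat_lit 24604, nat_lit 24712, nat_lit 24640, nat_lit 24664, nat_lit 24656] (nat_lit 4) [nat_lit 44340, nat_lit 4976] false,
   Spec.mk (nat_lit 24662) (nat_lit 0) [nat_lit 11540, nat_lit 29036, nat_lit 23204, nat_lit 25148, nat_lit 24500, nat_lit 24608, nat_lit 24716, nat_lit 24644, nat_lit 24680, nat_lit 24656, nat_lit 24664] (nat_lit 4) [nat_lit 44344] false,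
   Spec.mk (nat_lit 24664) (nat_lit 0) [nat_lit 11542, nat_lit 29038, nat_lit 23206, nat_lit 25150, nat_lit 24502, nat_lit 24610, nat_lit 24718, nat_lit 24646, nat_lit 24682, nat_lit 24658, nat_lit 24670, nat_lit 24662, nat_lit 24666] (nat_lit 3) [nat_lit 44346, nat_lit 4982] false,
   Spec.mk (nat_lit 24666) (nat_lit 0) [nat_lit 11544, nat_lit 29040, nat_lit 23208, nat_lit 25152, nat_lit 24504, nat_lit 24612, nat_lit 24720, nat_lit 24648, nat_lit 24684, nat_lit 24672, nat_lit 24664] (nat_lit 4) [nat_lit 4984] false,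
   Spec.mk (nat_lit 24670) (nat_lit 0) [nat_lit 11548, nat_lit 29044, nat_lit 23212, nat_lit 25156, nat_lit 24508, nat_lit 24616, nat_lit 24724, nat_lit 24688, nat_lit 24664, nat_lit 24672] (nat_lit 4) [nat_lit 44352, nat_lit 4988] false,
   Spec.mk (nat_lit 24672) (nat_lit 0) [nat_lit 11550, nat_lit 29046, nat_lit 23214, nat_lit 25158, nat_lit 24510, nat_lit 24618, nat_lit 24726, nat_lit 24690, nat_lit 24666, nat_lit 24670] (nat_lit 3) [nat_lit 4990] false,
   Spec.mk (nat_lit 24680) (nat_lit 0) [nat_lit 11558, nat_lit 29054, nat_lit 23222, nat_lit 25166, nat_lit 24518, nat_lit 24734, nat_lit 24662, nat_lit 24682] (nat_lit 4) [nat_lit 44362] false,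
   Spec.mk (nat_lit 24682) (nat_lit 0) [nat_lit 11560, nat_lit 29056, nat_lit 23224, nat_lit 25168, nat_lit 24520, nat_lit 24736, nat_lit 24664, nat_lit 24688, nat_lit 24680, nat_lit 24684] (nat_lit 4) [nat_lit 44364, nat_lit 5000] false,
   Spec.mk (nat_lit 24684) (nat_lit 0) [nat_lit 11562, nat_lit 29058, nat_lit 23226, nat_lit 25170, nat_lit 24522, nat_lit 24738, nat_lit 24666, nat_lit 24690, nat_lit 24682] (nat_lit 6) [nat_lit 5002] false,
   Spec.mk (nat_lit 24688) (nat_lit 0) [nat_lit 11566, nat_lit 29062, nat_lit 23230, nat_lit 25174, nat_lit 24526, nat_lit 24742, nat_lit 24670, nat_lit 24682, nat_lit 24690] (nat_lit 3) [nat_lit 44370, nat_lit 5006] false,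
   Spec.mk (nat_lit 24690) (nat_lit 0) [nat_lit 11568, nat_lit 29064, nat_lit 23232, nat_lit 25176, nat_lit 24528, nat_lit 24744, nat_lit 24672, nat_lit 24684, nat_lit 24696, nat_lit 24688] (nat_lit 3) [nat_lit 5008] false,
   Spec.mk (nat_lit 24696) (nat_lit 0) [nat_lit 11574, nat_lit 29070, nat_lit 23238, nat_lit 25182, nat_lit 24534, nat_lit 24750, nat_lit 24690] (nat_lit 2) [nat_lit 5014] false,
   Spec.mk (nat_lit 24710) (nat_lit 0) [nat_lit 11588, nat_lit 29084, nat_lit 23252, nat_lit 25196, nat_lit 24656, nat_lit 24716, nat_lit 24712] (nat_lit 2) [nat_lit 44392] false,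
   Spec.mk (nat_lit 24712) (nat_lit 0) [nat_lit 11590, nat_lit 29086, nat_lit 23254, nat_lit 25198, nat_lit 24658, nat_lit 24718, nat_lit 24710] (nat_lit 3) [nat_lit 44394, nat_lit 5030] false,
   Spec.mk (nat_lit 24716) (nat_lit 0) [nat_lit 11594, nat_lit 29090, nat_lit 23258, nat_lit 25202, nat_lit 24662, nat_lit 24734, nat_lit 24710, nat_lit 24718] (nat_lit 4) [nat_lit 44398] false,
   Spec.mk (nat_lit 24718) (nat_lit 0) [nat_lit 11596, nat_lit 29092, nat_lit 23260, nat_lit 25204, nat_lit 24664, nat_lit 24736, nat_lit 24712, nat_lit 24724, nat_lit 24716, nat_lit 24720] (nat_lit 3) [nat_lit 44400, nat_lit 5036] false,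
   Spec.mk (nat_lit 24720) (nat_lit 0) [nat_lit 11598, nat_lit 29094, nat_lit 23262, nat_lit 25206, nat_lit 24666, nat_lit 24738, nat_lit 24726, nat_lit 24718] (nat_lit 4) [nat_lit 5038] false,
   Spec.mk (nat_lit 24724) (nat_lit 0) [nat_lit 11602, nat_lit 29098, nat_lit 23266, nat_lit 25210, nat_lit 24670, nat_lit 24742, nat_lit 24718, nat_lit 24726] (nat_lit 5) [nat_lit 44406, nat_lit 5042] false,
   Spec.mk (nat_lit 24726) (nat_lit 0) [nat_lit 11604, nat_lit 29100, nat_lit 23268, nat_lit 25212, nat_lit 24672, nat_lit 24744, nat_lit 24720, nat_lit 24724] (nat_lit 4) [nat_lit 5044] false,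
   Spec.mk (nat_lit 24734) (nat_lit 0) [nat_lit 11612, nat_lit 29108, nat_lit 23276, nat_lit 25220, nat_lit 24680, nat_lit 24716, nat_lit 24736] (nat_lit 2) [nat_lit 44416] false,
   Spec.mk (nat_lit 24736) (nat_lit 0) [nat_lit 11614, nat_lit 29110, nat_lit 23278, nat_lit 25222, nat_lit 24682, nat_lit 24718, nat_lit 24742, nat_lit 24734, nat_lit 24738] (nat_lit 2) [nat_lit 44418, nat_lit 5054] false,
   Spec.mk (nat_lit 24738) (nat_lit 0) [nat_lit 11616, nat_lit 29112, nat_lit 23280, nat_lit 25224, nat_lit 24684, nat_lit 24720, nat_lit 24744, nat_lit 24736] (nat_lit 4) [nat_lit 5056] false,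
   Spec.mk (nat_lit 24742) (nat_lit 0) [nat_lit 11620, nat_lit 29116, nat_lit 23284, nat_lit 25228, nat_lit 24688, nat_lit 24724, nat_lit 24760, nat_lit 24736, nat_lit 24744] (nat_lit 2) [nat_lit 44424, nat_lit 5060] false,
   Spec.mk (nat_lit 24744) (nat_lit 0) [nat_lit 11622, nat_lit 29118, nat_lit 23286, nat_lit 25230, nat_lit 24690, nat_lit 24726, nat_lit 24762, nat_lit 24738, nat_lit 24750, nat_lit 24742] (nat_lit 2) [nat_lit 5062] false,
   Spec.mk (nat_lit 24750) (nat_lit 0) [nat_lit 11628, nat_lit 29124, nat_lit 23292, nat_lit 25236, nat_lit 24696, nat_lit 24768, nat_lit 24744] (nat_lit 2) [nat_lit 5068] false,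
   Spec.mk (nat_lit 24760) (nat_lit 0) [nat_lit 11638, nat_lit 29134, nat_lit 23302, nat_lit 25246, nat_lit 24742, nat_lit 24762] (nat_lit 1) [nat_lit 44442, nat_lit 5078] false,
   Spec.mk (nat_lit 24762) (nat_lit 0) [nat_lit 11640, nat_lit 29136, nat_lit 23304, nat_lit 25248, nat_lit 24744, nat_lit 24768, nat_lit 24760] (nat_lit 2) [nat_lit 5080] false,
   Spec.mk (nat_lit 24768) (nat_lit 0) [nat_lit 11646, nat_lit 29142, nat_lit 23310, nat_lit 25254, nat_lit 24750, nat_lit 24762] (nat_lit 0) [nat_lit 5086] false,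
   Spec.mk (nat_lit 24812) (nat_lit 2) [nat_lit 11690, nat_lit 29186, nat_lit 23354, nat_lit 24326, nat_lit 24830] (nat_lit 0) [nat_lit 44494] false,
   Spec.mk (nat_lit 24830) (nat_lit 1) [nat_lit 11708, nat_lit 29204, nat_lit 23372, nat_lit 24344, nat_lit 24884, nat_lit 24812, nat_lit 24848, nat_lit 24836] (nat_lit 0) [nat_lit 44512] false,
   Spec.mk (nat_lit 24836) (nat_lit 0) [nat_lit 11714, nat_lit 29210, nat_lit 23378, nat_lit 24350, nat_lit 24890, nat_lit 24854, nat_lit 24830, nat_lit 24838] (nat_lit 0) [nat_lit 44518] false,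
   Spec.mk (nat_lit 24838) (nat_lit 1) [nat_lit 11716, nat_lit 29212, nat_lit 23380, nat_lit 24352, nat_lit 24892, nat_lit 24856, nat_lit 24836] (nat_lit 0) [nat_lit 44520, nat_lit 5156] false]

noncomputable def sp61 : List Spec :=
  [Spec.mk (nat_lit 24848) (nat_lit 0) [nat_lit 11726, nat_lit 29222, nat_lit 23390, nat_lit 24362, nat_lit 24902, nat_lit 24830, nat_lit 24854] (nat_lit 2) [nat_lit 44530] false,
   Spec.mk (nat_lit 24854) (nat_lit 0) [nat_lit 11732, nat_lit 29228, nat_lit 23396, nat_lit 24368, nat_lit 24908, nat_lit 24836, nat_lit 24848, nat_lit 24860, nat_lit 24856] (nat_lit 1) [nat_lit 44536] false,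
   Spec.mk (nat_lit 24856) (nat_lit 0) [nat_lit 11734, nat_lit 29230, nat_lit 23398, nat_lit 24370, nat_lit 24910, nat_lit 24838, nat_lit 24862, nat_lit 24854] (nat_lit 1) [nat_lit 44538, nat_lit 5174] false,
   Spec.mk (nat_lit 24860) (nat_lit 0) [nat_lit 11738, nat_lit 29234, nat_lit 23402, nat_lit 24374, nat_lit 24914, nat_lit 24854, nat_lit 24862] (nat_lit 2) [nat_lit 44542] false,
   Spec.mk (nat_lit 24862) (nat_lit 0) [nat_lit 11740, nat_lit 29236, nat_lit 23404, nat_lit 24376, nat_lit 24916, nat_lit 24856, nat_lit 24860, nat_lit 24864] (nat_lit 0) [nat_lit 44544, nat_lit 5180] false,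
   Spec.mk (nat_lit 24864) (nat_lit 0) [nat_lit 11742, nat_lit 29238, nat_lit 23406, nat_lit 24378, nat_lit 24918, nat_lit 24862] (nat_lit 0) [nat_lit 5182] false,
   Spec.mk (nat_lit 24884) (nat_lit 0) [nat_lit 11762, nat_lit 29258, nat_lit 23426, nat_lit 24398, nat_lit 25046, nat_lit 24830, nat_lit 24902, nat_lit 24890] (nat_lit 0) [nat_lit 44566] false,
   Spec.mk (nat_lit 24890) (nat_lit 0) [nat_lit 11768, nat_lit 29264, nat_lit 23432, nat_lit 24404, nat_lit 25052, nat_lit 24836, nat_lit 24908, nat_lit 24884, nat_lit 24892] (nat_lit 2) [nat_lit 44572] false,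
   Spec.mk (nat_lit 24892) (nat_lit 0) [nat_lit 11770, nat_lit 29266, nat_lit 23434, nat_lit 24406, nat_lit 25054, nat_lit 24838, nat_lit 24910, nat_lit 24890] (nat_lit 1) [nat_lit 44574, nat_lit 5210] false,
   Spec.mk (nat_lit 24902) (nat_lit 0) [nat_lit 11780, nat_lit 29276, nat_lit 23444, nat_lit 24416, nat_lit 25064, nat_lit 24848, nat_lit 24956, nat_lit 24884, nat_lit 24908] (nat_lit 1) [nat_lit 44584] false,
   Spec.mk (nat_lit 24908) (nat_lit 0) [nat_lit 11786, nat_lit 29282, nat_lit 23450, nat_lit 24422, nat_lit 25070, nat_lit 24854, nat_lit 24962, nat_lit 24890, nat_lit 24926, nat_lit 24902, nat_lit 24914, nat_lit 24910] (nat_lit 1) [nat_lit 44590] false,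
   Spec.mk (nat_lit 24910) (nat_lit 0) [nat_lit 11788, nat_lit 29284, nat_lit 23452, nat_lit 24424, nat_lit 25072, nat_lit 24856, nat_lit 24964, nat_lit 24892, nat_lit 24928, nat_lit 24916, nat_lit 24908] (nat_lit 1) [nat_lit 44592, nat_lit 5228] false,
   Spec.mk (nat_lit 24914) (nat_lit 0) [nat_lit 11792, nat_lit 29288, nat_lit 23456, nat_lit 24428, nat_lit 25076, nat_lit 24860, nat_lit 24968, nat_lit 24932, nat_lit 24908, nat_lit 24916] (nat_lit 3) [nat_lit 44596] false,
   Spec.mk (nat_lit 24916) (nat_lit 0) [nat_lit 11794, nat_lit 29290, nat_lit 23458, nat_lit 24430, nat_lit 25078, nat_lit 24862, nat_lit 24970, nat_lit 24934, nat_lit 24910, nat_lit 24914, nat_lit 24918] (nat_lit 1) [nat_lit 44598, nat_lit 5234] false,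
   Spec.mk (nat_lit 24918) (nat_lit 0) [nat_lit 11796, nat_lit 29292, nat_lit 23460, nat_lit 24432, nat_lit 25080, nat_lit 24864, nat_lit 24972, nat_lit 24936, nat_lit 24916] (nat_lit 1) [nat_lit 5236] false,
   Spec.mk (nat_lit 24926) (nat_lit 0) [nat_lit 11804, nat_lit 29300, nat_lit 23468, nat_lit 24440, nat_lit 25088, nat_lit 24980, nat_lit 24908, nat_lit 24932, nat_lit 24928] (nat_lit 2) [nat_lit 44608] false,
   Spec.mk (nat_lit 24928) (nat_lit 0) [nat_lit 11806, nat_lit 29302, nat_lit 23470, nat_lit 24442, nat_lit 25090, nat_lit 24982, nat_lit 24910, nat_lit 24934, nat_lit 24926] (nat_lit 3) [nat_lit 44610, nat_lit 5246] false,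
   Spec.mk (nat_lit 24932) (nat_lit 0) [nat_lit 11810, nat_lit 29306, nat_lit 23474, nat_lit 24446, nat_lit 25094, nat_lit 24986, nat_lit 24914, nat_lit 24926, nat_lit 24934] (nat_lit 2) [nat_lit 44614] false,
   Spec.mk (nat_lit 24934) (nat_lit 0) [nat_lit 11812, nat_lit 29308, nat_lit 23476, nat_lit 24448, nat_lit 25096, nat_lit 24988, nat_lit 24916, nat_lit 24928, nat_lit 24940, nat_lit 24932, nat_lit 24936] (nat_lit 1) [nat_lit 44616, nat_lit 5252] false,
   Spec.mk (nat_lit 24936) (nat_lit 0) [nat_lit 11814, nat_lit 29310, nat_lit 23478, nat_lit 24450, nat_lit 25098, nat_lit 24990, nat_lit 24918, nat_lit 24942, nat_lit 24934] (nat_lit 2) [nat_lit 5254] false,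
   Spec.mk (nat_lit 24940) (nat_lit 0) [nat_lit 11818, nat_lit 29314, nat_lit 23482, nat_lit 24454, nat_lit 25102, nat_lit 24994, nat_lit 24934, nat_lit 24942] (nat_lit 1) [nat_lit 44622, nat_lit 5258] false,
   Spec.mk (nat_lit 24942) (nat_lit 0) [nat_lit 11820, nat_lit 29316, nat_lit 23484, nat_lit 24456, nat_lit 25104, nat_lit 24996, nat_lit 24936, nat_lit 24940] (nat_lit 0) [nat_lit 5260] false,
   Spec.mk (nat_lit 24956) (nat_lit 0) [nat_lit 11834, nat_lit 29330, nat_lit 23498, nat_lit 24470, nat_lit 25118, nat_lit 24902, nat_lit 24962] (nat_lit 2) [nat_lit 44638] false,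
   Spec.mk (nat_lit 24962) (nat_lit 0) [nat_lit 11840, nat_lit 29336, nat_lit 23504, nat_lit 24476, nat_lit 25124, nat_lit 24908, nat_lit 24980, nat_lit 24956, nat_lit 24968, nat_lit 24964] (nat_lit 3) [nat_lit 44644] false,
   Spec.mk (nat_lit 24964) (nat_lit 0) [nat_lit 11842, nat_lit 29338, nat_lit 23506, nat_lit 24478, nat_lit 25126, nat_lit 24910, nat_lit 24982, nat_lit 24970, nat_lit 24962] (nat_lit 3) [nat_lit 44646, nat_lit 5282] false,
   Spec.mk (nat_lit 24968) (nat_lit 0) [nat_lit 11846, nat_lit 29342, nat_lit 23510, nat_lit 24482, nat_lit 25130, nat_lit 24914, nat_lit 24986, nat_lit 24962, nat_lit 24970] (nat_lit 6) [nat_lit 44650] false,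
   Spec.mk (nat_lit 24970) (nat_lit 0) [nat_lit 11848, nat_lit 29344, nat_lit 23512, nat_lit 24484, nat_lit 25132, nat_lit 24916, nat_lit 24988, nat_lit 24964, nat_lit 24968, nat_lit 24972] (nat_lit 4) [nat_lit 44652, nat_lit 5288] false,
   Spec.mk (nat_lit 24972) (nat_lit 0) [nat_lit 11850, nat_lit 29346, nat_lit 23514, nat_lit 24486, nat_lit 25134, nat_lit 24918, nat_lit 24990, nat_lit 24970] (nat_lit 4) [nat_lit 5290] false,
   Spec.mk (nat_lit 24980) (nat_lit 0) [nat_lit 11858, nat_lit 29354, nat_lit 23522, nat_lit 24494, nat_lit 25142, nat_lit 24926, nat_lit 24962, nat_lit 24986, nat_lit 24982] (nat_lit 2) [nat_lit 44662] false,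
   Spec.mk (nat_lit 24982) (nat_lit 0) [nat_lit 11860, nat_lit 29356, nat_lit 23524, nat_lit 24496, nat_lit 25144, nat_lit 24928, nat_lit 24964, nat_lit 24988, nat_lit 24980] (nat_lit 3) [nat_lit 44664, nat_lit 5300] false,
   Spec.mk (nat_lit 24986) (nat_lit 0) [nat_lit 11864, nat_lit 29360, nat_lit 23528, nat_lit 24500, nat_lit 25148, nat_lit 24932, nat_lit 24968, nat_lit 25004, nat_lit 24980, nat_lit 24988] (nat_lit 3) [nat_lit 44668] false,
   Spec.mk (nat_lit 24988) (nat_lit 0) [nat_lit 11866, nat_lit 29362, nat_lit 23530, nat_lit 24502, nat_lit 25150, nat_lit 24934, nat_lit 24970, nat_lit 25006, nat_lit 24982, nat_lit 24994, nat_lit 24986, nat_lit 24990] (nat_lit 2) [nat_lit 44670, nat_lit 5306] false,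
   Spec.mk (nat_lit 24990) (nat_lit 0) [nat_lit 11868, nat_lit 29364, nat_lit 23532, nat_lit 24504, nat_lit 25152, nat_lit 24936, nat_lit 24972, nat_lit 25008, nat_lit 24996, nat_lit 24988] (nat_lit 3) [nat_lit 5308] false,
   Spec.mk (nat_lit 24994) (nat_lit 0) [nat_lit 11872, nat_lit 29368, nat_lit 23536, nat_lit 24508, nat_lit 25156, nat_lit 24940, nat_lit 25012, nat_lit 24988, nat_lit 24996] (nat_lit 3) [nat_lit 44676, nat_lit 5312] false,
   Spec.mk (nat_lit 24996) (nat_lit 0) [nat_lit 11874, nat_lit 29370, nat_lit 23538, nat_lit 24510, nat_lit 25158, nat_lit 24942, nat_lit 25014, nat_lit 24990, nat_lit 24994] (nat_lit 2) [nat_lit 5314] false,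
   Spec.mk (nat_lit 25004) (nat_lit 0) [nat_lit 11882, nat_lit 29378, nat_lit 23546, nat_lit 24518, nat_lit 25166, nat_lit 24986, nat_lit 25006] (nat_lit 2) [nat_lit 44686] false,
   Spec.mk (nat_lit 25006) (nat_lit 0) [nat_lit 11884, nat_lit 29380, nat_lit 23548, nat_lit 24520, nat_lit 25168, nat_lit 24988, nat_lit 25012, nat_lit 25004, nat_lit 25008] (nat_lit 2) [nat_lit 44688, nat_lit 5324] false,
   Spec.mk (nat_lit 25008) (nat_lit 0) [nat_lit 11886, nat_lit 29382, nat_lit 23550, nat_lit 24522, nat_lit 25170, nat_lit 24990, nat_lit 25014, nat_lit 25006] (nat_lit 4) [nat_lit 5326] false,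
   Spec.mk (nat_lit 25012) (nat_lit 0) [nat_lit 11890, nat_lit 29386, nat_lit 23554, nat_lit 24526, nat_lit 25174, nat_lit 24994, nat_lit 25006, nat_lit 25014] (nat_lit 1) [nat_lit 44694, nat_lit 5330] false,
   Spec.mk (nat_lit 25014) (nat_lit 0) [nat_lit 11892, nat_lit 29388, nat_lit 23556, nat_lit 24528, nat_lit 25176, nat_lit 24996, nat_lit 25008, nat_lit 25020, nat_lit 25012] (nat_lit 1) [nat_lit 5332] false,
   Spec.mk (nat_lit 25020) (nat_lit 0) [nat_lit 11898, nat_lit 29394, nat_lit 23562, nat_lit 24534, nat_lit 25182, nat_lit 25014] (nat_lit 0) [nat_lit 5338] false,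
   Spec.mk (nat_lit 25046) (nat_lit 1) [nat_lit 11924, nat_lit 29420, nat_lit 23588, nat_lit 24560, nat_lit 25532, nat_lit 24884, nat_lit 25064, nat_lit 25052] (nat_lit 0) [nat_lit 44728] false,
   Spec.mk (nat_lit 25052) (nat_lit 0) [nat_lit 11930, nat_lit 29426, nat_lit 23594, nat_lit 24566, nat_lit 25538, nat_lit 24890, nat_lit 25070, nat_lit 25046, nat_lit 25054] (nat_lit 1) [nat_lit 44734] false,
   Spec.mk (nat_lit 25054) (nat_lit 0) [nat_lit 11932, nat_lit 29428, nat_lit 23596, nat_lit 24568, nat_lit 25540, nat_lit 24892, nat_lit 25072, nat_lit 25052] (nat_lit 0) [nat_lit 44736, nat_lit 5372] false,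
   Spec.mk (nat_lit 25064) (nat_lit 0) [nat_lit 11942, nat_lit 29438, nat_lit 23606, nat_lit 24578, nat_lit 25550, nat_lit 24902, nat_lit 25118, nat_lit 25046, nat_lit 25070] (nat_lit 1) [nat_lit 44746] false,
   Spec.mk (nat_lit 25070) (nat_lit 0) [nat_lit 11948, nat_lit 29444, nat_lit 23612, nat_lit 24584, nat_lit 25556, nat_lit 24908, nat_lit 25124, nat_lit 25052, nat_lit 25088, nat_lit 25064, nat_lit 25076, nat_lit 25072] (nat_lit 1) [nat_lit 44752] false,
   Spec.mk (nat_lit 25072) (nat_lit 0) [nat_lit 11950, nat_lit 29446, nat_lit 23614, nat_lit 24586, nat_lit 25558, nat_lit 24910, nat_lit 25126, nat_lit 25054, nat_lit 25090, nat_lit 25078, nat_lit 25070] (nat_lit 1) [nat_lit 44754, nat_lit 5390] false,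
   Spec.mk (nat_lit 25076) (nat_lit 0) [nat_lit 11954, nat_lit 29450, nat_lit 23618, nat_lit 24590, nat_lit 25562, nat_lit 24914, nat_lit 25130, nat_lit 25094, nat_lit 25070, nat_lit 25078] (nat_lit 3) [nat_lit 44758] false,
   Spec.mk (nat_lit 25078) (nat_lit 0) [nat_lit 11956, nat_lit 29452, nat_lit 23620, nat_lit 24592, nat_lit 25564, nat_lit 24916, nat_lit 25132, nat_lit 25096, nat_lit 25072, nat_lit 25076, nat_lit 25080] (nat_lit 1) [nat_lit 44760, nat_lit 5396] false,
   Spec.mk (nat_lit 25080) (nat_lit 0) [nat_lit 11958, nat_lit 29454, nat_lit 23622, nat_lit 24594, nat_lit 25566, nat_lit 24918, nat_lit 25134, nat_lit 25098, nat_lit 25078] (nat_lit 1) [nat_lit 5398] false,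
   Spec.mk (nat_lit 25088) (nat_lit 0) [nat_lit 11966, nat_lit 29462, nat_lit 23630, nat_lit 24602, nat_lit 25574, nat_lit 24926, nat_lit 25142, nat_lit 25070, nat_lit 25094, nat_lit 25090] (nat_lit 3) [nat_lit 44770] false,
   Spec.mk (nat_lit 25090) (nat_lit 0) [nat_lit 11968, nat_lit 29464, nat_lit 23632, nat_lit 24604, nat_lit 25576, nat_lit 24928, nat_lit 25144, nat_lit 25072, nat_lit 25096, nat_lit 25088] (nat_lit 4) [nat_lit 44772, nat_lit 5408] false,
   Spec.mk (nat_lit 25094) (nat_lit 0) [nat_lit 11972, nat_lit 29468, nat_lit 23636, nat_lit 24608, nat_lit 25580, nat_lit 24932, nat_lit 25148, nat_lit 25076, nat_lit 25088, nat_lit 25096] (nat_lit 3) [nat_lit 44776] false,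
   Spec.mk (nat_lit 25096) (nat_lit 0) [nat_lit 11974, nat_lit 29470, nat_lit 23638, nat_lit 24610, nat_lit 25582, nat_lit 24934, nat_lit 25150, nat_lit 25078, nat_lit 25090, nat_lit 25102, nat_lit 25094, nat_lit 25098] (nat_lit 2) [nat_lit 44778, nat_lit 5414] false,
   Spec.mk (nat_lit 25098) (nat_lit 0) [nat_lit 11976, nat_lit 29472, nat_lit 23640, nat_lit 24612, nat_lit 25584, nat_lit 24936, nat_lit 25152, nat_lit 25080, nat_lit 25104, nat_lit 25096] (nat_lit 3) [nat_lit 5416] false,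
   Spec.mk (nat_lit 25102) (nat_lit 0) [nat_lit 11980, nat_lit 29476, nat_lit 23644, nat_lit 24616, nat_lit 25588, nat_lit 24940, nat_lit 25156, nat_lit 25096, nat_lit 25104] (nat_lit 2) [nat_lit 44784, nat_lit 5420] false,
   Spec.mk (nat_lit 25104) (nat_lit 0) [nat_lit 11982, nat_lit 29478, nat_lit 23646, nat_lit 24618, nat_lit 25590, nat_lit 24942, nat_lit 25158, nat_lit 25098, nat_lit 25102] (nat_lit 1) [nat_lit 5422] false,
   Spec.mk (nat_lit 25118) (nat_lit 0) [nat_lit 11996, nat_lit 29492, nat_lit 23660, nat_lit 24632, nat_lit 25604, nat_lit 24956, nat_lit 25280, nat_lit 25064, nat_lit 25124] (nat_lit 0) [nat_lit 44800] false,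
   Spec.mk (nat_lit 25124) (nat_lit 0) [nat_lit 12002, nat_lit 29498, nat_lit 23666, nat_lit 24638, nat_lit 25610, nat_lit 24962, nat_lit 25286, nat_lit 25070, nat_lit 25142, nat_lit 25118, nat_lit 25130, nat_lit 25126] (nat_lit 1) [nat_lit 44806] false,
   Spec.mk (nat_lit 25126) (nat_lit 0) [nat_lit 12004, nat_lit 29500, nat_lit 23668, nat_lit 24640, nat_lit 25612, nat_lit 24964, nat_lit 25288, nat_lit 25072, nat_lit 25144, nat_lit 25132, nat_lit 25124] (nat_lit 1) [nat_lit 44808, nat_lit 5444] false]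

noncomputable def sp62 : List Spec :=
  [Spec.mk (nat_lit 25130) (nat_lit 0) [nat_lit 12008, nat_lit 29504, nat_lit 23672, nat_lit 24644, nat_lit 25616, nat_lit 24968, nat_lit 25292, nat_lit 25076, nat_lit 25148, nat_lit 25124, nat_lit 25132] (nat_lit 4) [nat_lit 44812] false,
   Spec.mk (nat_lit 25132) (nat_lit 0) [nat_lit 12010, nat_lit 29506, nat_lit 23674, nat_lit 24646, nat_lit 25618, nat_lit 24970, nat_lit 25294, nat_lit 25078, nat_lit 25150, nat_lit 25126, nat_lit 25130, nat_lit 25134] (nat_lit 2) [nat_lit 44814, nat_lit 5450] false,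
   Spec.mk (nat_lit 25134) (nat_lit 0) [nat_lit 12012, nat_lit 29508, nat_lit 23676, nat_lit 24648, nat_lit 25620, nat_lit 24972, nat_lit 25296, nat_lit 25080, nat_lit 25152, nat_lit 25132] (nat_lit 2) [nat_lit 5452] false,
   Spec.mk (nat_lit 25142) (nat_lit 0) [nat_lit 12020, nat_lit 29516, nat_lit 23684, nat_lit 24656, nat_lit 25628, nat_lit 24980, nat_lit 25304, nat_lit 25088, nat_lit 25196, nat_lit 25124, nat_lit 25148, nat_lit 25144] (nat_lit 1) [nat_lit 44824] false,
   Spec.mk (nat_lit 25144) (nat_lit 0) [nat_lit 12022, nat_lit 29518, nat_lit 23686, nat_lit 24658, nat_lit 25630, nat_lit 24982, nat_lit 25306, nat_lit 25090, nat_lit 25198, nat_lit 25126, nat_lit 25150, nat_lit 25142] (nat_lit 2) [nat_lit 44826, nat_lit 5462] false,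
   Spec.mk (nat_lit 25148) (nat_lit 0) [nat_lit 12026, nat_lit 29522, nat_lit 23690, nat_lit 24662, nat_lit 25634, nat_lit 24986, nat_lit 25310, nat_lit 25094, nat_lit 25202, nat_lit 25130, nat_lit 25166, nat_lit 25142, nat_lit 25150] (nat_lit 2) [nat_lit 44830] false,
   Spec.mk (nat_lit 25150) (nat_lit 0) [nat_lit 12028, nat_lit 29524, nat_lit 23692, nat_lit 24664, nat_lit 25636, nat_lit 24988, nat_lit 25312, nat_lit 25096, nat_lit 25204, nat_lit 25132, nat_lit 25168, nat_lit 25144, nat_lit 25156, nat_lit 25148, nat_lit 25152] (nat_lit 1) [nat_lit 44832, nat_lit 5468] false,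
   Spec.mk (nat_lit 25152) (nat_lit 0) [nat_lit 12030, nat_lit 29526, nat_lit 23694, nat_lit 24666, nat_lit 25638, nat_lit 24990, nat_lit 25314, nat_lit 25098, nat_lit 25206, nat_lit 25134, nat_lit 25170, nat_lit 25158, nat_lit 25150] (nat_lit 2) [nat_lit 5470] false,
   Spec.mk (nat_lit 25156) (nat_lit 0) [nat_lit 12034, nat_lit 29530, nat_lit 23698, nat_lit 24670, nat_lit 25642, nat_lit 24994, nat_lit 25318, nat_lit 25102, nat_lit 25210, nat_lit 25174, nat_lit 25150, nat_lit 25158] (nat_lit 2) [nat_lit 44838, nat_lit 5474] false,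
   Spec.mk (nat_lit 25158) (nat_lit 0) [nat_lit 12036, nat_lit 29532, nat_lit 23700, nat_lit 24672, nat_lit 25644, nat_lit 24996, nat_lit 25320, nat_lit 25104, nat_lit 25212, nat_lit 25176, nat_lit 25152, nat_lit 25156] (nat_lit 1) [nat_lit 5476] false,
   Spec.mk (nat_lit 25166) (nat_lit 0) [nat_lit 12044, nat_lit 29540, nat_lit 23708, nat_lit 24680, nat_lit 25652, nat_lit 25004, nat_lit 25328, nat_lit 25220, nat_lit 25148, nat_lit 25168] (nat_lit 2) [nat_lit 44848] false,
   Spec.mk (nat_lit 25168) (nat_lit 0) [nat_lit 12046, nat_lit 29542, nat_lit 23710, nat_lit 24682, nat_lit 25654, nat_lit 25006, nat_lit 25330, nat_lit 25222, nat_lit 25150, nat_lit 25174, nat_lit 25166, nat_lit 25170] (nat_lit 2) [nat_lit 44850, nat_lit 5486] false,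
   Spec.mk (nat_lit 25170) (nat_lit 0) [nat_lit 12048, nat_lit 29544, nat_lit 23712, nat_lit 24684, nat_lit 25656, nat_lit 25008, nat_lit 25332, nat_lit 25224, nat_lit 25152, nat_lit 25176, nat_lit 25168] (nat_lit 4) [nat_lit 5488] false,
   Spec.mk (nat_lit 25174) (nat_lit 0) [nat_lit 12052, nat_lit 29548, nat_lit 23716, nat_lit 24688, nat_lit 25660, nat_lit 25012, nat_lit 25336, nat_lit 25228, nat_lit 25156, nat_lit 25168, nat_lit 25176] (nat_lit 1) [nat_lit 44856, nat_lit 5492] false,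
   Spec.mk (nat_lit 25176) (nat_lit 0) [nat_lit 12054, nat_lit 29550, nat_lit 23718, nat_lit 24690, nat_lit 25662, nat_lit 25014, nat_lit 25338, nat_lit 25230, nat_lit 25158, nat_lit 25170, nat_lit 25182, nat_lit 25174] (nat_lit 1) [nat_lit 5494] false,
   Spec.mk (nat_lit 25182) (nat_lit 0) [nat_lit 12060, nat_lit 29556, nat_lit 23724, nat_lit 24696, nat_lit 25668, nat_lit 25020, nat_lit 25344, nat_lit 25236, nat_lit 25176] (nat_lit 0) [nat_lit 5500] false,
   Spec.mk (nat_lit 25196) (nat_lit 0) [nat_lit 12074, nat_lit 29570, nat_lit 23738, nat_lit 24710, nat_lit 25682, nat_lit 25358, nat_lit 25142, nat_lit 25202, nat_lit 25198] (nat_lit 1) [nat_lit 44878] false,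
   Spec.mk (nat_lit 25198) (nat_lit 0) [nat_lit 12076, nat_lit 29572, nat_lit 23740, nat_lit 24712, nat_lit 25684, nat_lit 25360, nat_lit 25144, nat_lit 25204, nat_lit 25196] (nat_lit 2) [nat_lit 44880, nat_lit 5516] false,
   Spec.mk (nat_lit 25202) (nat_lit 0) [nat_lit 12080, nat_lit 29576, nat_lit 23744, nat_lit 24716, nat_lit 25688, nat_lit 25364, nat_lit 25148, nat_lit 25220, nat_lit 25196, nat_lit 25204] (nat_lit 3) [nat_lit 44884] false,
   Spec.mk (nat_lit 25204) (nat_lit 0) [nat_lit 12082, nat_lit 29578, nat_lit 23746, nat_lit 24718, nat_lit 25690, nat_lit 25366, nat_lit 25150, nat_lit 25222, nat_lit 25198, nat_lit 25210, nat_lit 25202, nat_lit 25206] (nat_lit 2) [nat_lit 44886, nat_lit 5522] false,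
   Spec.mk (nat_lit 25206) (nat_lit 0) [nat_lit 12084, nat_lit 29580, nat_lit 23748, nat_lit 24720, nat_lit 25692, nat_lit 25368, nat_lit 25152, nat_lit 25224, nat_lit 25212, nat_lit 25204] (nat_lit 3) [nat_lit 5524] false,
   Spec.mk (nat_lit 25210) (nat_lit 0) [nat_lit 12088, nat_lit 29584, nat_lit 23752, nat_lit 24724, nat_lit 25696, nat_lit 25372, nat_lit 25156, nat_lit 25228, nat_lit 25204, nat_lit 25212] (nat_lit 4) [nat_lit 44892, nat_lit 5528] false,
   Spec.mk (nat_lit 25212) (nat_lit 0) [nat_lit 12090, nat_lit 29586, nat_lit 23754, nat_lit 24726, nat_lit 25698, nat_lit 25374, nat_lit 25158, nat_lit 25230, nat_lit 25206, nat_lit 25210] (nat_lit 3) [nat_lit 5530] false,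
   Spec.mk (nat_lit 25220) (nat_lit 0) [nat_lit 12098, nat_lit 29594, nat_lit 23762, nat_lit 24734, nat_lit 25706, nat_lit 25382, nat_lit 25166, nat_lit 25202, nat_lit 25222] (nat_lit 1) [nat_lit 44902] false,
   Spec.mk (nat_lit 25222) (nat_lit 0) [nat_lit 12100, nat_lit 29596, nat_lit 23764, nat_lit 24736, nat_lit 25708, nat_lit 25384, nat_lit 25168, nat_lit 25204, nat_lit 25228, nat_lit 25220, nat_lit 25224] (nat_lit 1) [nat_lit 44904, nat_lit 5540] false,
   Spec.mk (nat_lit 25224) (nat_lit 0) [nat_lit 12102, nat_lit 29598, nat_lit 23766, nat_lit 24738, nat_lit 25710, nat_lit 25386, nat_lit 25170, nat_lit 25206, nat_lit 25230, nat_lit 25222] (nat_lit 3) [nat_lit 5542] false,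
   Spec.mk (nat_lit 25228) (nat_lit 0) [nat_lit 12106, nat_lit 29602, nat_lit 23770, nat_lit 24742, nat_lit 25714, nat_lit 25390, nat_lit 25174, nat_lit 25210, nat_lit 25246, nat_lit 25222, nat_lit 25230] (nat_lit 1) [nat_lit 44910, nat_lit 5546] false,
   Spec.mk (nat_lit 25230) (nat_lit 0) [nat_lit 12108, nat_lit 29604, nat_lit 23772, nat_lit 24744, nat_lit 25716, nat_lit 25392, nat_lit 25176, nat_lit 25212, nat_lit 25248, nat_lit 25224, nat_lit 25236, nat_lit 25228] (nat_lit 1) [nat_lit 5548] false,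
   Spec.mk (nat_lit 25236) (nat_lit 0) [nat_lit 12114, nat_lit 29610, nat_lit 23778, nat_lit 24750, nat_lit 25722, nat_lit 25398, nat_lit 25182, nat_lit 25254, nat_lit 25230] (nat_lit 1) [nat_lit 5554] false,
   Spec.mk (nat_lit 25246) (nat_lit 0) [nat_lit 12124, nat_lit 29620, nat_lit 23788, nat_lit 24760, nat_lit 25732, nat_lit 25408, nat_lit 25228, nat_lit 25248] (nat_lit 0) [nat_lit 44928, nat_lit 5564] false,
   Spec.mk (nat_lit 25248) (nat_lit 0) [nat_lit 12126, nat_lit 29622, nat_lit 23790, nat_lit 24762, nat_lit 25734, nat_lit 25410, nat_lit 25230, nat_lit 25254, nat_lit 25246] (nat_lit 1) [nat_lit 5566] false,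
   Spec.mk (nat_lit 25254) (nat_lit 1) [nat_lit 12132, nat_lit 29628, nat_lit 23796, nat_lit 24768, nat_lit 25740, nat_lit 25416, nat_lit 25236, nat_lit 25248] (nat_lit 0) [nat_lit 5572] false,
   Spec.mk (nat_lit 25280) (nat_lit 0) [nat_lit 12158, nat_lit 29654, nat_lit 23822, nat_lit 25766, nat_lit 25118, nat_lit 25286] (nat_lit 0) [nat_lit 44962] false,
   Spec.mk (nat_lit 25286) (nat_lit 0) [nat_lit 12164, nat_lit 29660, nat_lit 23828, nat_lit 25772, nat_lit 25124, nat_lit 25304, nat_lit 25280, nat_lit 25292, nat_lit 25288] (nat_lit 1) [nat_lit 44968] false,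
   Spec.mk (nat_lit 25288) (nat_lit 0) [nat_lit 12166, nat_lit 29662, nat_lit 23830, nat_lit 25774, nat_lit 25126, nat_lit 25306, nat_lit 25294, nat_lit 25286] (nat_lit 1) [nat_lit 44970, nat_lit 5606] false,
   Spec.mk (nat_lit 25292) (nat_lit 0) [nat_lit 12170, nat_lit 29666, nat_lit 23834, nat_lit 25778, nat_lit 25130, nat_lit 25310, nat_lit 25286, nat_lit 25294] (nat_lit 4) [nat_lit 44974] false,
   Spec.mk (nat_lit 25294) (nat_lit 0) [nat_lit 12172, nat_lit 29668, nat_lit 23836, nat_lit 25780, nat_lit 25132, nat_lit 25312, nat_lit 25288, nat_lit 25292, nat_lit 25296] (nat_lit 2) [nat_lit 44976, nat_lit 5612] false,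
   Spec.mk (nat_lit 25296) (nat_lit 0) [nat_lit 12174, nat_lit 29670, nat_lit 23838, nat_lit 25782, nat_lit 25134, nat_lit 25314, nat_lit 25294] (nat_lit 2) [nat_lit 5614] false,
   Spec.mk (nat_lit 25304) (nat_lit 0) [nat_lit 12182, nat_lit 29678, nat_lit 23846, nat_lit 25790, nat_lit 25142, nat_lit 25358, nat_lit 25286, nat_lit 25310, nat_lit 25306] (nat_lit 2) [nat_lit 44986] false,
   Spec.mk (nat_lit 25306) (nat_lit 0) [nat_lit 12184, nat_lit 29680, nat_lit 23848, nat_lit 25792, nat_lit 25144, nat_lit 25360, nat_lit 25288, nat_lit 25312, nat_lit 25304] (nat_lit 3) [nat_lit 44988, nat_lit 5624] false,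
   Spec.mk (nat_lit 25310) (nat_lit 0) [nat_lit 12188, nat_lit 29684, nat_lit 23852, nat_lit 25796, nat_lit 25148, nat_lit 25364, nat_lit 25292, nat_lit 25328, nat_lit 25304, nat_lit 25312] (nat_lit 3) [nat_lit 44992] false,
   Spec.mk (nat_lit 25312) (nat_lit 0) [nat_lit 12190, nat_lit 29686, nat_lit 23854, nat_lit 25798, nat_lit 25150, nat_lit 25366, nat_lit 25294, nat_lit 25330, nat_lit 25306, nat_lit 25318, nat_lit 25310, nat_lit 25314] (nat_lit 2) [nat_lit 44994, nat_lit 5630] false,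
   Spec.mk (nat_lit 25314) (nat_lit 0) [nat_lit 12192, nat_lit 29688, nat_lit 23856, nat_lit 25800, nat_lit 25152, nat_lit 25368, nat_lit 25296, nat_lit 25332, nat_lit 25320, nat_lit 25312] (nat_lit 3) [nat_lit 5632] false,
   Spec.mk (nat_lit 25318) (nat_lit 0) [nat_lit 12196, nat_lit 29692, nat_lit 23860, nat_lit 25804, nat_lit 25156, nat_lit 25372, nat_lit 25336, nat_lit 25312, nat_lit 25320] (nat_lit 3) [nat_lit 45000, nat_lit 5636] false,
   Spec.mk (nat_lit 25320) (nat_lit 0) [nat_lit 12198, nat_lit 29694, nat_lit 23862, nat_lit 25806, nat_lit 25158, nat_lit 25374, nat_lit 25338, nat_lit 25314, nat_lit 25318] (nat_lit 2) [nat_lit 5638] false,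
   Spec.mk (nat_lit 25328) (nat_lit 0) [nat_lit 12206, nat_lit 29702, nat_lit 23870, nat_lit 25814, nat_lit 25166, nat_lit 25382, nat_lit 25310, nat_lit 25330] (nat_lit 4) [nat_lit 45010] false,
   Spec.mk (nat_lit 25330) (nat_lit 0) [nat_lit 12208, nat_lit 29704, nat_lit 23872, nat_lit 25816, nat_lit 25168, nat_lit 25384, nat_lit 25312, nat_lit 25336, nat_lit 25328, nat_lit 25332] (nat_lit 4) [nat_lit 45012, nat_lit 5648] false,
   Spec.mk (nat_lit 25332) (nat_lit 0) [nat_lit 12210, nat_lit 29706, nat_lit 23874, nat_lit 25818, nat_lit 25170, nat_lit 25386, nat_lit 25314, nat_lit 25338, nat_lit 25330] (nat_lit 6) [nat_lit 5650] false,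
   Spec.mk (nat_lit 25336) (nat_lit 0) [nat_lit 12214, nat_lit 29710, nat_lit 23878, nat_lit 25822, nat_lit 25174, nat_lit 25390, nat_lit 25318, nat_lit 25330, nat_lit 25338] (nat_lit 3) [nat_lit 45018, nat_lit 5654] false,
   Spec.mk (nat_lit 25338) (nat_lit 0) [nat_lit 12216, nat_lit 29712, nat_lit 23880, nat_lit 25824, nat_lit 25176, nat_lit 25392, nat_lit 25320, nat_lit 25332, nat_lit 25344, nat_lit 25336] (nat_lit 3) [nat_lit 5656] false,
   Spec.mk (nat_lit 25344) (nat_lit 0) [nat_lit 12222, nat_lit 29718, nat_lit 23886, nat_lit 25830, nat_lit 25182, nat_lit 25398, nat_lit 25338] (nat_lit 2) [nat_lit 5662] false,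
   Spec.mk (nat_lit 25358) (nat_lit 0) [nat_lit 12236, nat_lit 29732, nat_lit 23900, nat_lit 25844, nat_lit 25196, nat_lit 25304, nat_lit 25364, nat_lit 25360] (nat_lit 0) [nat_lit 45040] false,
   Spec.mk (nat_lit 25360) (nat_lit 0) [nat_lit 12238, nat_lit 29734, nat_lit 23902, nat_lit 25846, nat_lit 25198, nat_lit 25306, nat_lit 25366, nat_lit 25358] (nat_lit 1) [nat_lit 45042, nat_lit 5678] false,
   Spec.mk (nat_lit 25364) (nat_lit 0) [nat_lit 12242, nat_lit 29738, nat_lit 23906, nat_lit 25850, nat_lit 25202, nat_lit 25310, nat_lit 25382, nat_lit 25358, nat_lit 25366] (nat_lit 2) [nat_lit 45046] false,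
   Spec.mk (nat_lit 25366) (nat_lit 0) [nat_lit 12244, nat_lit 29740, nat_lit 23908, nat_lit 25852, nat_lit 25204, nat_lit 25312, nat_lit 25384, nat_lit 25360, nat_lit 25372, nat_lit 25364, nat_lit 25368] (nat_lit 1) [nat_lit 45048, nat_lit 5684] false,
   Spec.mk (nat_lit 25368) (nat_lit 0) [nat_lit 12246, nat_lit 29742, nat_lit 23910, nat_lit 25854, nat_lit 25206, nat_lit 25314, nat_lit 25386, nat_lit 25374, nat_lit 25366] (nat_lit 2) [nat_lit 5686] false,
   Spec.mk (nat_lit 25372) (nat_lit 0) [nat_lit 12250, nat_lit 29746, nat_lit 23914, nat_lit 25858, nat_lit 25210, nat_lit 25318, nat_lit 25390, nat_lit 25366, nat_lit 25374] (nat_lit 3) [nat_lit 45054, nat_lit 5690] false,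
   Spec.mk (nat_lit 25374) (nat_lit 0) [nat_lit 12252, nat_lit 29748, nat_lit 23916, nat_lit 25860, nat_lit 25212, nat_lit 25320, nat_lit 25392, nat_lit 25368, nat_lit 25372] (nat_lit 2) [nat_lit 5692] false,
   Spec.mk (nat_lit 25382) (nat_lit 0) [nat_lit 12260, nat_lit 29756, nat_lit 23924, nat_lit 25868, nat_lit 25220, nat_lit 25328, nat_lit 25436, nat_lit 25364, nat_lit 25384] (nat_lit 1) [nat_lit 45064] false,
   Spec.mk (nat_lit 25384) (nat_lit 0) [nat_lit 12262, nat_lit 29758, nat_lit 23926, nat_lit 25870, nat_lit 25222, nat_lit 25330, nat_lit 25438, nat_lit 25366, nat_lit 25390, nat_lit 25382, nat_lit 25386] (nat_lit 1) [nat_lit 45066, nat_lit 5702] false]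

noncomputable def sp63 : List Spec :=
  [Spec.mk (nat_lit 25386) (nat_lit 0) [nat_lit 12264, nat_lit 29760, nat_lit 23928, nat_lit 25872, nat_lit 25224, nat_lit 25332, nat_lit 25440, nat_lit 25368, nat_lit 25392, nat_lit 25384] (nat_lit 3) [nat_lit 5704] false,
   Spec.mk (nat_lit 25390) (nat_lit 0) [nat_lit 12268, nat_lit 29764, nat_lit 23932, nat_lit 25876, nat_lit 25228, nat_lit 25336, nat_lit 25444, nat_lit 25372, nat_lit 25408, nat_lit 25384, nat_lit 25392] (nat_lit 1) [nat_lit 45072, nat_lit 5708] false,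
   Spec.mk (nat_lit 25392) (nat_lit 0) [nat_lit 12270, nat_lit 29766, nat_lit 23934, nat_lit 25878, nat_lit 25230, nat_lit 25338, nat_lit 25446, nat_lit 25374, nat_lit 25410, nat_lit 25386, nat_lit 25398, nat_lit 25390] (nat_lit 1) [nat_lit 5710] false,
   Spec.mk (nat_lit 25398) (nat_lit 0) [nat_lit 12276, nat_lit 29772, nat_lit 23940, nat_lit 25884, nat_lit 25236, nat_lit 25344, nat_lit 25452, nat_lit 25416, nat_lit 25392] (nat_lit 1) [nat_lit 5716] false,
   Spec.mk (nat_lit 25408) (nat_lit 0) [nat_lit 12286, nat_lit 29782, nat_lit 23950, nat_lit 25894, nat_lit 25246, nat_lit 25462, nat_lit 25390, nat_lit 25410] (nat_lit 1) [nat_lit 45090, nat_lit 5726] false,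
   Spec.mk (nat_lit 25410) (nat_lit 0) [nat_lit 12288, nat_lit 29784, nat_lit 23952, nat_lit 25896, nat_lit 25248, nat_lit 25464, nat_lit 25392, nat_lit 25416, nat_lit 25408] (nat_lit 2) [nat_lit 5728] false,
   Spec.mk (nat_lit 25416) (nat_lit 0) [nat_lit 12294, nat_lit 29790, nat_lit 23958, nat_lit 25902, nat_lit 25254, nat_lit 25470, nat_lit 25398, nat_lit 25410] (nat_lit 0) [nat_lit 5734] false,
   Spec.mk (nat_lit 25436) (nat_lit 0) [nat_lit 12314, nat_lit 29810, nat_lit 23978, nat_lit 25922, nat_lit 25382, nat_lit 25438] (nat_lit 0) [nat_lit 45118] false,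
   Spec.mk (nat_lit 25438) (nat_lit 0) [nat_lit 12316, nat_lit 29812, nat_lit 23980, nat_lit 25924, nat_lit 25384, nat_lit 25444, nat_lit 25436, nat_lit 25440] (nat_lit 0) [nat_lit 45120, nat_lit 5756] false,
   Spec.mk (nat_lit 25440) (nat_lit 0) [nat_lit 12318, nat_lit 29814, nat_lit 23982, nat_lit 25926, nat_lit 25386, nat_lit 25446, nat_lit 25438] (nat_lit 2) [nat_lit 5758] false,
   Spec.mk (nat_lit 25444) (nat_lit 0) [nat_lit 12322, nat_lit 29818, nat_lit 23986, nat_lit 25930, nat_lit 25390, nat_lit 25462, nat_lit 25438, nat_lit 25446] (nat_lit 1) [nat_lit 45126, nat_lit 5762] false,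
   Spec.mk (nat_lit 25446) (nat_lit 0) [nat_lit 12324, nat_lit 29820, nat_lit 23988, nat_lit 25932, nat_lit 25392, nat_lit 25464, nat_lit 25440, nat_lit 25452, nat_lit 25444] (nat_lit 1) [nat_lit 5764] false,
   Spec.mk (nat_lit 25452) (nat_lit 0) [nat_lit 12330, nat_lit 29826, nat_lit 23994, nat_lit 25938, nat_lit 25398, nat_lit 25470, nat_lit 25446] (nat_lit 2) [nat_lit 5770] false,
   Spec.mk (nat_lit 25462) (nat_lit 1) [nat_lit 12340, nat_lit 29836, nat_lit 24004, nat_lit 25948, nat_lit 25408, nat_lit 25444, nat_lit 25464] (nat_lit 0) [nat_lit 45144, nat_lit 5780] false,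
   Spec.mk (nat_lit 25464) (nat_lit 0) [nat_lit 12342, nat_lit 29838, nat_lit 24006, nat_lit 25950, nat_lit 25410, nat_lit 25446, nat_lit 25470, nat_lit 25462] (nat_lit 0) [nat_lit 5782] false,
   Spec.mk (nat_lit 25470) (nat_lit 1) [nat_lit 12348, nat_lit 29844, nat_lit 24012, nat_lit 25956, nat_lit 25416, nat_lit 25452, nat_lit 25488, nat_lit 25464] (nat_lit 0) [nat_lit 5788] false,
   Spec.mk (nat_lit 25488) (nat_lit 2) [nat_lit 12366, nat_lit 29862, nat_lit 24030, nat_lit 25974, nat_lit 25470] (nat_lit 0) [nat_lit 5806] false,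
   Spec.mk (nat_lit 25532) (nat_lit 2) [nat_lit 12410, nat_lit 29906, nat_lit 25046, nat_lit 25550, nat_lit 25538] (nat_lit 0) [nat_lit 45214] false,
   Spec.mk (nat_lit 25538) (nat_lit 0) [nat_lit 12416, nat_lit 29912, nat_lit 25052, nat_lit 25556, nat_lit 25532, nat_lit 25540] (nat_lit 0) [nat_lit 45220] false,
   Spec.mk (nat_lit 25540) (nat_lit 1) [nat_lit 12418, nat_lit 29914, nat_lit 25054, nat_lit 25558, nat_lit 25538] (nat_lit 0) [nat_lit 45222, nat_lit 5858] false,
   Spec.mk (nat_lit 25550) (nat_lit 0) [nat_lit 12428, nat_lit 29924, nat_lit 25064, nat_lit 25604, nat_lit 25532, nat_lit 25556] (nat_lit 0) [nat_lit 45232] false,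
   Spec.mk (nat_lit 25556) (nat_lit 0) [nat_lit 12434, nat_lit 29930, nat_lit 25070, nat_lit 25610, nat_lit 25538, nat_lit 25574, nat_lit 25550, nat_lit 25562, nat_lit 25558] (nat_lit 0) [nat_lit 45238] false,
   Spec.mk (nat_lit 25558) (nat_lit 0) [nat_lit 12436, nat_lit 29932, nat_lit 25072, nat_lit 25612, nat_lit 25540, nat_lit 25576, nat_lit 25564, nat_lit 25556] (nat_lit 0) [nat_lit 45240, nat_lit 5876] false,
   Spec.mk (nat_lit 25562) (nat_lit 0) [nat_lit 12440, nat_lit 29936, nat_lit 25076, nat_lit 25616, nat_lit 25580, nat_lit 25556, nat_lit 25564] (nat_lit 2) [nat_lit 45244] false,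
   Spec.mk (nat_lit 25564) (nat_lit 0) [nat_lit 12442, nat_lit 29938, nat_lit 25078, nat_lit 25618, nat_lit 25582, nat_lit 25558, nat_lit 25562, nat_lit 25566] (nat_lit 0) [nat_lit 45246, nat_lit 5882] false,
   Spec.mk (nat_lit 25566) (nat_lit 0) [nat_lit 12444, nat_lit 29940, nat_lit 25080, nat_lit 25620, nat_lit 25584, nat_lit 25564] (nat_lit 0) [nat_lit 5884] false,
   Spec.mk (nat_lit 25574) (nat_lit 0) [nat_lit 12452, nat_lit 29948, nat_lit 25088, nat_lit 25628, nat_lit 25556, nat_lit 25580, nat_lit 25576] (nat_lit 2) [nat_lit 45256] false,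
   Spec.mk (nat_lit 25576) (nat_lit 0) [nat_lit 12454, nat_lit 29950, nat_lit 25090, nat_lit 25630, nat_lit 25558, nat_lit 25582, nat_lit 25574] (nat_lit 3) [nat_lit 45258, nat_lit 5894] false,
   Spec.mk (nat_lit 25580) (nat_lit 0) [nat_lit 12458, nat_lit 29954, nat_lit 25094, nat_lit 25634, nat_lit 25562, nat_lit 25574, nat_lit 25582] (nat_lit 2) [nat_lit 45262] false,
   Spec.mk (nat_lit 25582) (nat_lit 0) [nat_lit 12460, nat_lit 29956, nat_lit 25096, nat_lit 25636, nat_lit 25564, nat_lit 25576, nat_lit 25588, nat_lit 25580, nat_lit 25584] (nat_lit 1) [nat_lit 45264, nat_lit 5900] false,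
   Spec.mk (nat_lit 25584) (nat_lit 0) [nat_lit 12462, nat_lit 29958, nat_lit 25098, nat_lit 25638, nat_lit 25566, nat_lit 25590, nat_lit 25582] (nat_lit 2) [nat_lit 5902] false,
   Spec.mk (nat_lit 25588) (nat_lit 0) [nat_lit 12466, nat_lit 29962, nat_lit 25102, nat_lit 25642, nat_lit 25582, nat_lit 25590] (nat_lit 1) [nat_lit 45270, nat_lit 5906] false,
   Spec.mk (nat_lit 25590) (nat_lit 0) [nat_lit 12468, nat_lit 29964, nat_lit 25104, nat_lit 25644, nat_lit 25584, nat_lit 25588] (nat_lit 0) [nat_lit 5908] false,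
   Spec.mk (nat_lit 25604) (nat_lit 0) [nat_lit 12482, nat_lit 29978, nat_lit 25118, nat_lit 25766, nat_lit 25550, nat_lit 25610] (nat_lit 0) [nat_lit 45286] false,
   Spec.mk (nat_lit 25610) (nat_lit 0) [nat_lit 12488, nat_lit 29984, nat_lit 25124, nat_lit 25772, nat_lit 25556, nat_lit 25628, nat_lit 25604, nat_lit 25616, nat_lit 25612] (nat_lit 1) [nat_lit 45292] false,
   Spec.mk (nat_lit 25612) (nat_lit 0) [nat_lit 12490, nat_lit 29986, nat_lit 25126, nat_lit 25774, nat_lit 25558, nat_lit 25630, nat_lit 25618, nat_lit 25610] (nat_lit 1) [nat_lit 45294, nat_lit 5930] false,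
   Spec.mk (nat_lit 25616) (nat_lit 0) [nat_lit 12494, nat_lit 29990, nat_lit 25130, nat_lit 25778, nat_lit 25562, nat_lit 25634, nat_lit 25610, nat_lit 25618] (nat_lit 4) [nat_lit 45298] false,
   Spec.mk (nat_lit 25618) (nat_lit 0) [nat_lit 12496, nat_lit 29992, nat_lit 25132, nat_lit 25780, nat_lit 25564, nat_lit 25636, nat_lit 25612, nat_lit 25616, nat_lit 25620] (nat_lit 2) [nat_lit 45300, nat_lit 5936] false,
   Spec.mk (nat_lit 25620) (nat_lit 0) [nat_lit 12498, nat_lit 29994, nat_lit 25134, nat_lit 25782, nat_lit 25566, nat_lit 25638, nat_lit 25618] (nat_lit 2) [nat_lit 5938] false,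
   Spec.mk (nat_lit 25628) (nat_lit 0) [nat_lit 12506, nat_lit 30002, nat_lit 25142, nat_lit 25790, nat_lit 25574, nat_lit 25682, nat_lit 25610, nat_lit 25634, nat_lit 25630] (nat_lit 1) [nat_lit 45310] false,
   Spec.mk (nat_lit 25630) (nat_lit 0) [nat_lit 12508, nat_lit 30004, nat_lit 25144, nat_lit 25792, nat_lit 25576, nat_lit 25684, nat_lit 25612, nat_lit 25636, nat_lit 25628] (nat_lit 2) [nat_lit 45312, nat_lit 5948] false,
   Spec.mk (nat_lit 25634) (nat_lit 0) [nat_lit 12512, nat_lit 30008, nat_lit 25148, nat_lit 25796, nat_lit 25580, nat_lit 25688, nat_lit 25616, nat_lit 25652, nat_lit 25628, nat_lit 25636] (nat_lit 2) [nat_lit 45316] false,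
   Spec.mk (nat_lit 25636) (nat_lit 0) [nat_lit 12514, nat_lit 30010, nat_lit 25150, nat_lit 25798, nat_lit 25582, nat_lit 25690, nat_lit 25618, nat_lit 25654, nat_lit 25630, nat_lit 25642, nat_lit 25634, nat_lit 25638] (nat_lit 1) [nat_lit 45318, nat_lit 5954] false,
   Spec.mk (nat_lit 25638) (nat_lit 0) [nat_lit 12516, nat_lit 30012, nat_lit 25152, nat_lit 25800, nat_lit 25584, nat_lit 25692, nat_lit 25620, nat_lit 25656, nat_lit 25644, nat_lit 25636] (nat_lit 2) [nat_lit 5956] false,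
   Spec.mk (nat_lit 25642) (nat_lit 0) [nat_lit 12520, nat_lit 30016, nat_lit 25156, nat_lit 25804, nat_lit 25588, nat_lit 25696, nat_lit 25660, nat_lit 25636, nat_lit 25644] (nat_lit 2) [nat_lit 45324, nat_lit 5960] false,
   Spec.mk (nat_lit 25644) (nat_lit 0) [nat_lit 12522, nat_lit 30018, nat_lit 25158, nat_lit 25806, nat_lit 25590, nat_lit 25698, nat_lit 25662, nat_lit 25638, nat_lit 25642] (nat_lit 1) [nat_lit 5962] false,
   Spec.mk (nat_lit 25652) (nat_lit 0) [nat_lit 12530, nat_lit 30026, nat_lit 25166, nat_lit 25814, nat_lit 25706, nat_lit 25634, nat_lit 25654] (nat_lit 2) [nat_lit 45334] false,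
   Spec.mk (nat_lit 25654) (nat_lit 0) [nat_lit 12532, nat_lit 30028, nat_lit 25168, nat_lit 25816, nat_lit 25708, nat_lit 25636, nat_lit 25660, nat_lit 25652, nat_lit 25656] (nat_lit 2) [nat_lit 45336, nat_lit 5972] false,
   Spec.mk (nat_lit 25656) (nat_lit 0) [nat_lit 12534, nat_lit 30030, nat_lit 25170, nat_lit 25818, nat_lit 25710, nat_lit 25638, nat_lit 25662, nat_lit 25654] (nat_lit 4) [nat_lit 5974] false,
   Spec.mk (nat_lit 25660) (nat_lit 0) [nat_lit 12538, nat_lit 30034, nat_lit 25174, nat_lit 25822, nat_lit 25714, nat_lit 25642, nat_lit 25654, nat_lit 25662] (nat_lit 1) [nat_lit 45342, nat_lit 5978] false,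
   Spec.mk (nat_lit 25662) (nat_lit 0) [nat_lit 12540, nat_lit 30036, nat_lit 25176, nat_lit 25824, nat_lit 25716, nat_lit 25644, nat_lit 25656, nat_lit 25668, nat_lit 25660] (nat_lit 1) [nat_lit 5980] false,
   Spec.mk (nat_lit 25668) (nat_lit 0) [nat_lit 12546, nat_lit 30042, nat_lit 25182, nat_lit 25830, nat_lit 25722, nat_lit 25662] (nat_lit 0) [nat_lit 5986] false,
   Spec.mk (nat_lit 25682) (nat_lit 0) [nat_lit 12560, nat_lit 30056, nat_lit 25196, nat_lit 25844, nat_lit 25628, nat_lit 25688, nat_lit 25684] (nat_lit 2) [nat_lit 45364] false,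
   Spec.mk (nat_lit 25684) (nat_lit 0) [nat_lit 12562, nat_lit 30058, nat_lit 25198, nat_lit 25846, nat_lit 25630, nat_lit 25690, nat_lit 25682] (nat_lit 3) [nat_lit 45366, nat_lit 6002] false,
   Spec.mk (nat_lit 25688) (nat_lit 0) [nat_lit 12566, nat_lit 30062, nat_lit 25202, nat_lit 25850, nat_lit 25634, nat_lit 25706, nat_lit 25682, nat_lit 25690] (nat_lit 4) [nat_lit 45370] false,
   Spec.mk (nat_lit 25690) (nat_lit 0) [nat_lit 12568, nat_lit 30064, nat_lit 25204, nat_lit 25852, nat_lit 25636, nat_lit 25708, nat_lit 25684, nat_lit 25696, nat_lit 25688, nat_lit 25692] (nat_lit 3) [nat_lit 45372, nat_lit 6008] false,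
   Spec.mk (nat_lit 25692) (nat_lit 0) [nat_lit 12570, nat_lit 30066, nat_lit 25206, nat_lit 25854, nat_lit 25638, nat_lit 25710, nat_lit 25698, nat_lit 25690] (nat_lit 4) [nat_lit 6010] false,
   Spec.mk (nat_lit 25696) (nat_lit 0) [nat_lit 12574, nat_lit 30070, nat_lit 25210, nat_lit 25858, nat_lit 25642, nat_lit 25714, nat_lit 25690, nat_lit 25698] (nat_lit 5) [nat_lit 45378, nat_lit 6014] false,
   Spec.mk (nat_lit 25698) (nat_lit 0) [nat_lit 12576, nat_lit 30072, nat_lit 25212, nat_lit 25860, nat_lit 25644, nat_lit 25716, nat_lit 25692, nat_lit 25696] (nat_lit 4) [nat_lit 6016] false,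
   Spec.mk (nat_lit 25706) (nat_lit 0) [nat_lit 12584, nat_lit 30080, nat_lit 25220, nat_lit 25868, nat_lit 25652, nat_lit 25688, nat_lit 25708] (nat_lit 2) [nat_lit 45388] false]

noncomputable def sp64 : List Spec :=
  [Spec.mk (nat_lit 25708) (nat_lit 0) [nat_lit 12586, nat_lit 30082, nat_lit 25222, nat_lit 25870, nat_lit 25654, nat_lit 25690, nat_lit 25714, nat_lit 25706, nat_lit 25710] (nat_lit 2) [nat_lit 45390, nat_lit 6026] false,
   Spec.mk (nat_lit 25710) (nat_lit 0) [nat_lit 12588, nat_lit 30084, nat_lit 25224, nat_lit 25872, nat_lit 25656, nat_lit 25692, nat_lit 25716, nat_lit 25708] (nat_lit 4) [nat_lit 6028] false,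
   Spec.mk (nat_lit 25714) (nat_lit 0) [nat_lit 12592, nat_lit 30088, nat_lit 25228, nat_lit 25876, nat_lit 25660, nat_lit 25696, nat_lit 25732, nat_lit 25708, nat_lit 25716] (nat_lit 2) [nat_lit 45396, nat_lit 6032] false,
   Spec.mk (nat_lit 25716) (nat_lit 0) [nat_lit 12594, nat_lit 30090, nat_lit 25230, nat_lit 25878, nat_lit 25662, nat_lit 25698, nat_lit 25734, nat_lit 25710, nat_lit 25722, nat_lit 25714] (nat_lit 2) [nat_lit 6034] false,
   Spec.mk (nat_lit 25722) (nat_lit 0) [nat_lit 12600, nat_lit 30096, nat_lit 25236, nat_lit 25884, nat_lit 25668, nat_lit 25740, nat_lit 25716] (nat_lit 2) [nat_lit 6040] false,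
   Spec.mk (nat_lit 25732) (nat_lit 0) [nat_lit 12610, nat_lit 30106, nat_lit 25246, nat_lit 25894, nat_lit 25714, nat_lit 25734] (nat_lit 1) [nat_lit 45414, nat_lit 6050] false,
   Spec.mk (nat_lit 25734) (nat_lit 0) [nat_lit 12612, nat_lit 30108, nat_lit 25248, nat_lit 25896, nat_lit 25716, nat_lit 25740, nat_lit 25732] (nat_lit 2) [nat_lit 6052] false,
   Spec.mk (nat_lit 25740) (nat_lit 0) [nat_lit 12618, nat_lit 30114, nat_lit 25254, nat_lit 25902, nat_lit 25722, nat_lit 25734] (nat_lit 0) [nat_lit 6058] false,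
   Spec.mk (nat_lit 25766) (nat_lit 2) [nat_lit 12644, nat_lit 30140, nat_lit 25280, nat_lit 25604, nat_lit 25772] (nat_lit 0) [nat_lit 45448] false,
   Spec.mk (nat_lit 25772) (nat_lit 1) [nat_lit 12650, nat_lit 30146, nat_lit 25286, nat_lit 25610, nat_lit 25790, nat_lit 25766, nat_lit 25778, nat_lit 25774] (nat_lit 0) [nat_lit 45454] false,
   Spec.mk (nat_lit 25774) (nat_lit 1) [nat_lit 12652, nat_lit 30148, nat_lit 25288, nat_lit 25612, nat_lit 25792, nat_lit 25780, nat_lit 25772] (nat_lit 0) [nat_lit 45456, nat_lit 6092] false,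
   Spec.mk (nat_lit 25778) (nat_lit 0) [nat_lit 12656, nat_lit 30152, nat_lit 25292, nat_lit 25616, nat_lit 25796, nat_lit 25772, nat_lit 25780] (nat_lit 2) [nat_lit 45460] false,
   Spec.mk (nat_lit 25780) (nat_lit 0) [nat_lit 12658, nat_lit 30154, nat_lit 25294, nat_lit 25618, nat_lit 25798, nat_lit 25774, nat_lit 25778, nat_lit 25782] (nat_lit 0) [nat_lit 45462, nat_lit 6098] false,
   Spec.mk (nat_lit 25782) (nat_lit 0) [nat_lit 12660, nat_lit 30156, nat_lit 25296, nat_lit 25620, nat_lit 25800, nat_lit 25780] (nat_lit 0) [nat_lit 6100] false,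
   Spec.mk (nat_lit 25790) (nat_lit 0) [nat_lit 12668, nat_lit 30164, nat_lit 25304, nat_lit 25628, nat_lit 25844, nat_lit 25772, nat_lit 25796, nat_lit 25792] (nat_lit 0) [nat_lit 45472] false,
   Spec.mk (nat_lit 25792) (nat_lit 0) [nat_lit 12670, nat_lit 30166, nat_lit 25306, nat_lit 25630, nat_lit 25846, nat_lit 25774, nat_lit 25798, nat_lit 25790] (nat_lit 1) [nat_lit 45474, nat_lit 6110] false,
   Spec.mk (nat_lit 25796) (nat_lit 0) [nat_lit 12674, nat_lit 30170, nat_lit 25310, nat_lit 25634, nat_lit 25850, nat_lit 25778, nat_lit 25814, nat_lit 25790, nat_lit 25798] (nat_lit 1) [nat_lit 45478] false,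
   Spec.mk (nat_lit 25798) (nat_lit 0) [nat_lit 12676, nat_lit 30172, nat_lit 25312, nat_lit 25636, nat_lit 25852, nat_lit 25780, nat_lit 25816, nat_lit 25792, nat_lit 25804, nat_lit 25796, nat_lit 25800] (nat_lit 0) [nat_lit 45480, nat_lit 6116] false,
   Spec.mk (nat_lit 25800) (nat_lit 0) [nat_lit 12678, nat_lit 30174, nat_lit 25314, nat_lit 25638, nat_lit 25854, nat_lit 25782, nat_lit 25818, nat_lit 25806, nat_lit 25798] (nat_lit 1) [nat_lit 6118] false,
   Spec.mk (nat_lit 25804) (nat_lit 0) [nat_lit 12682, nat_lit 30178, nat_lit 25318, nat_lit 25642, nat_lit 25858, nat_lit 25822, nat_lit 25798, nat_lit 25806] (nat_lit 1) [nat_lit 45486, nat_lit 6122] false,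
   Spec.mk (nat_lit 25806) (nat_lit 0) [nat_lit 12684, nat_lit 30180, nat_lit 25320, nat_lit 25644, nat_lit 25860, nat_lit 25824, nat_lit 25800, nat_lit 25804] (nat_lit 0) [nat_lit 6124] false,
   Spec.mk (nat_lit 25814) (nat_lit 0) [nat_lit 12692, nat_lit 30188, nat_lit 25328, nat_lit 25652, nat_lit 25868, nat_lit 25796, nat_lit 25816] (nat_lit 2) [nat_lit 45496] false,
   Spec.mk (nat_lit 25816) (nat_lit 0) [nat_lit 12694, nat_lit 30190, nat_lit 25330, nat_lit 25654, nat_lit 25870, nat_lit 25798, nat_lit 25822, nat_lit 25814, nat_lit 25818] (nat_lit 2) [nat_lit 45498, nat_lit 6134] false,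
   Spec.mk (nat_lit 25818) (nat_lit 0) [nat_lit 12696, nat_lit 30192, nat_lit 25332, nat_lit 25656, nat_lit 25872, nat_lit 25800, nat_lit 25824, nat_lit 25816] (nat_lit 4) [nat_lit 6136] false,
   Spec.mk (nat_lit 25822) (nat_lit 0) [nat_lit 12700, nat_lit 30196, nat_lit 25336, nat_lit 25660, nat_lit 25876, nat_lit 25804, nat_lit 25816, nat_lit 25824] (nat_lit 1) [nat_lit 45504, nat_lit 6140] false,
   Spec.mk (nat_lit 25824) (nat_lit 0) [nat_lit 12702, nat_lit 30198, nat_lit 25338, nat_lit 25662, nat_lit 25878, nat_lit 25806, nat_lit 25818, nat_lit 25830, nat_lit 25822] (nat_lit 1) [nat_lit 6142] false,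
   Spec.mk (nat_lit 25830) (nat_lit 0) [nat_lit 12708, nat_lit 30204, nat_lit 25344, nat_lit 25668, nat_lit 25884, nat_lit 25824] (nat_lit 0) [nat_lit 6148] false,
   Spec.mk (nat_lit 25844) (nat_lit 1) [nat_lit 12722, nat_lit 30218, nat_lit 25358, nat_lit 25682, nat_lit 26006, nat_lit 25790, nat_lit 25850, nat_lit 25846] (nat_lit 0) [nat_lit 45526] false,
   Spec.mk (nat_lit 25846) (nat_lit 0) [nat_lit 12724, nat_lit 30220, nat_lit 25360, nat_lit 25684, nat_lit 26008, nat_lit 25792, nat_lit 25852, nat_lit 25844] (nat_lit 0) [nat_lit 45528, nat_lit 6164] false,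
   Spec.mk (nat_lit 25850) (nat_lit 0) [nat_lit 12728, nat_lit 30224, nat_lit 25364, nat_lit 25688, nat_lit 26012, nat_lit 25796, nat_lit 25868, nat_lit 25844, nat_lit 25852] (nat_lit 1) [nat_lit 45532] false,
   Spec.mk (nat_lit 25852) (nat_lit 0) [nat_lit 12730, nat_lit 30226, nat_lit 25366, nat_lit 25690, nat_lit 26014, nat_lit 25798, nat_lit 25870, nat_lit 25846, nat_lit 25858, nat_lit 25850, nat_lit 25854] (nat_lit 0) [nat_lit 45534, nat_lit 6170] false,
   Spec.mk (nat_lit 25854) (nat_lit 0) [nat_lit 12732, nat_lit 30228, nat_lit 25368, nat_lit 25692, nat_lit 26016, nat_lit 25800, nat_lit 25872, nat_lit 25860, nat_lit 25852] (nat_lit 1) [nat_lit 6172] false,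
   Spec.mk (nat_lit 25858) (nat_lit 0) [nat_lit 12736, nat_lit 30232, nat_lit 25372, nat_lit 25696, nat_lit 26020, nat_lit 25804, nat_lit 25876, nat_lit 25852, nat_lit 25860] (nat_lit 2) [nat_lit 45540, nat_lit 6176] false,
   Spec.mk (nat_lit 25860) (nat_lit 0) [nat_lit 12738, nat_lit 30234, nat_lit 25374, nat_lit 25698, nat_lit 26022, nat_lit 25806, nat_lit 25878, nat_lit 25854, nat_lit 25858] (nat_lit 1) [nat_lit 6178] false,
   Spec.mk (nat_lit 25868) (nat_lit 0) [nat_lit 12746, nat_lit 30242, nat_lit 25382, nat_lit 25706, nat_lit 26030, nat_lit 25814, nat_lit 25922, nat_lit 25850, nat_lit 25870] (nat_lit 0) [nat_lit 45550] false,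
   Spec.mk (nat_lit 25870) (nat_lit 0) [nat_lit 12748, nat_lit 30244, nat_lit 25384, nat_lit 25708, nat_lit 26032, nat_lit 25816, nat_lit 25924, nat_lit 25852, nat_lit 25876, nat_lit 25868, nat_lit 25872] (nat_lit 0) [nat_lit 45552, nat_lit 6188] false,
   Spec.mk (nat_lit 25872) (nat_lit 0) [nat_lit 12750, nat_lit 30246, nat_lit 25386, nat_lit 25710, nat_lit 26034, nat_lit 25818, nat_lit 25926, nat_lit 25854, nat_lit 25878, nat_lit 25870] (nat_lit 2) [nat_lit 6190] false,
   Spec.mk (nat_lit 25876) (nat_lit 0) [nat_lit 12754, nat_lit 30250, nat_lit 25390, nat_lit 25714, nat_lit 26038, nat_lit 25822, nat_lit 25930, nat_lit 25858, nat_lit 25894, nat_lit 25870, nat_lit 25878] (nat_lit 0) [nat_lit 45558, nat_lit 6194] false,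
   Spec.mk (nat_lit 25878) (nat_lit 0) [nat_lit 12756, nat_lit 30252, nat_lit 25392, nat_lit 25716, nat_lit 26040, nat_lit 25824, nat_lit 25932, nat_lit 25860, nat_lit 25896, nat_lit 25872, nat_lit 25884, nat_lit 25876] (nat_lit 0) [nat_lit 6196] false,
   Spec.mk (nat_lit 25884) (nat_lit 0) [nat_lit 12762, nat_lit 30258, nat_lit 25398, nat_lit 25722, nat_lit 26046, nat_lit 25830, nat_lit 25938, nat_lit 25902, nat_lit 25878] (nat_lit 0) [nat_lit 6202] false,
   Spec.mk (nat_lit 25894) (nat_lit 0) [nat_lit 12772, nat_lit 30268, nat_lit 25408, nat_lit 25732, nat_lit 26056, nat_lit 25948, nat_lit 25876, nat_lit 25896] (nat_lit 0) [nat_lit 45576, nat_lit 6212] false,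
   Spec.mk (nat_lit 25896) (nat_lit 0) [nat_lit 12774, nat_lit 30270, nat_lit 25410, nat_lit 25734, nat_lit 26058, nat_lit 25950, nat_lit 25878, nat_lit 25902, nat_lit 25894] (nat_lit 1) [nat_lit 6214] false,
   Spec.mk (nat_lit 25902) (nat_lit 1) [nat_lit 12780, nat_lit 30276, nat_lit 25416, nat_lit 25740, nat_lit 26064, nat_lit 25956, nat_lit 25884, nat_lit 25896] (nat_lit 0) [nat_lit 6220] false,
   Spec.mk (nat_lit 25922) (nat_lit 0) [nat_lit 12800, nat_lit 30296, nat_lit 25436, nat_lit 26084, nat_lit 25868, nat_lit 25924] (nat_lit 0) [nat_lit 45604] false,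
   Spec.mk (nat_lit 25924) (nat_lit 0) [nat_lit 12802, nat_lit 30298, nat_lit 25438, nat_lit 26086, nat_lit 25870, nat_lit 25930, nat_lit 25922, nat_lit 25926] (nat_lit 0) [nat_lit 45606, nat_lit 6242] false,
   Spec.mk (nat_lit 25926) (nat_lit 0) [nat_lit 12804, nat_lit 30300, nat_lit 25440, nat_lit 26088, nat_lit 25872, nat_lit 25932, nat_lit 25924] (nat_lit 2) [nat_lit 6244] false,
   Spec.mk (nat_lit 25930) (nat_lit 0) [nat_lit 12808, nat_lit 30304, nat_lit 25444, nat_lit 26092, nat_lit 25876, nat_lit 25948, nat_lit 25924, nat_lit 25932] (nat_lit 1) [nat_lit 45612, nat_lit 6248] false,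
   Spec.mk (nat_lit 25932) (nat_lit 0) [nat_lit 12810, nat_lit 30306, nat_lit 25446, nat_lit 26094, nat_lit 25878, nat_lit 25950, nat_lit 25926, nat_lit 25938, nat_lit 25930] (nat_lit 1) [nat_lit 6250] false,
   Spec.mk (nat_lit 25938) (nat_lit 0) [nat_lit 12816, nat_lit 30312, nat_lit 25452, nat_lit 26100, nat_lit 25884, nat_lit 25956, nat_lit 25932] (nat_lit 2) [nat_lit 6256] false,
   Spec.mk (nat_lit 25948) (nat_lit 1) [nat_lit 12826, nat_lit 30322, nat_lit 25462, nat_lit 26110, nat_lit 25894, nat_lit 25930, nat_lit 25950] (nat_lit 0) [nat_lit 45630, nat_lit 6266] false,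
   Spec.mk (nat_lit 25950) (nat_lit 0) [nat_lit 12828, nat_lit 30324, nat_lit 25464, nat_lit 26112, nat_lit 25896, nat_lit 25932, nat_lit 25956, nat_lit 25948] (nat_lit 0) [nat_lit 6268] false,
   Spec.mk (nat_lit 25956) (nat_lit 1) [nat_lit 12834, nat_lit 30330, nat_lit 25470, nat_lit 26118, nat_lit 25902, nat_lit 25938, nat_lit 25974, nat_lit 25950] (nat_lit 0) [nat_lit 6274] false,
   Spec.mk (nat_lit 25974) (nat_lit 2) [nat_lit 12852, nat_lit 30348, nat_lit 25488, nat_lit 26136, nat_lit 25956] (nat_lit 0) [nat_lit 6292] false,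
   Spec.mk (nat_lit 26006) (nat_lit 2) [nat_lit 12884, nat_lit 30380, nat_lit 25844, nat_lit 26012, nat_lit 26008] (nat_lit 0) [nat_lit 45688] false,
   Spec.mk (nat_lit 26008) (nat_lit 1) [nat_lit 12886, nat_lit 30382, nat_lit 25846, nat_lit 26014, nat_lit 26006] (nat_lit 0) [nat_lit 45690, nat_lit 6326] false,
   Spec.mk (nat_lit 26012) (nat_lit 0) [nat_lit 12890, nat_lit 30386, nat_lit 25850, nat_lit 26030, nat_lit 26006, nat_lit 26014] (nat_lit 0) [nat_lit 45694] false,
   Spec.mk (nat_lit 26014) (nat_lit 1) [nat_lit 12892, nat_lit 30388, nat_lit 25852, nat_lit 26032, nat_lit 26008, nat_lit 26020, nat_lit 26012, nat_lit 26016] (nat_lit 0) [nat_lit 45696, nat_lit 6332] false,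
   Spec.mk (nat_lit 26016) (nat_lit 0) [nat_lit 12894, nat_lit 30390, nat_lit 25854, nat_lit 26034, nat_lit 26022, nat_lit 26014] (nat_lit 0) [nat_lit 6334] false,
   Spec.mk (nat_lit 26020) (nat_lit 0) [nat_lit 12898, nat_lit 30394, nat_lit 25858, nat_lit 26038, nat_lit 26014, nat_lit 26022] (nat_lit 1) [nat_lit 45702, nat_lit 6338] false,
   Spec.mk (nat_lit 26022) (nat_lit 0) [nat_lit 12900, nat_lit 30396, nat_lit 25860, nat_lit 26040, nat_lit 26016, nat_lit 26020] (nat_lit 0) [nat_lit 6340] false]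

noncomputable def sp65 : List Spec :=
  [Spec.mk (nat_lit 26030) (nat_lit 0) [nat_lit 12908, nat_lit 30404, nat_lit 25868, nat_lit 26084, nat_lit 26012, nat_lit 26032] (nat_lit 0) [nat_lit 45712] false,
   Spec.mk (nat_lit 26032) (nat_lit 0) [nat_lit 12910, nat_lit 30406, nat_lit 25870, nat_lit 26086, nat_lit 26014, nat_lit 26038, nat_lit 26030, nat_lit 26034] (nat_lit 0) [nat_lit 45714, nat_lit 6350] false,
   Spec.mk (nat_lit 26034) (nat_lit 0) [nat_lit 12912, nat_lit 30408, nat_lit 25872, nat_lit 26088, nat_lit 26016, nat_lit 26040, nat_lit 26032] (nat_lit 2) [nat_lit 6352] false,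
   Spec.mk (nat_lit 26038) (nat_lit 0) [nat_lit 12916, nat_lit 30412, nat_lit 25876, nat_lit 26092, nat_lit 26020, nat_lit 26056, nat_lit 26032, nat_lit 26040] (nat_lit 0) [nat_lit 45720, nat_lit 6356] false,
   Spec.mk (nat_lit 26040) (nat_lit 0) [nat_lit 12918, nat_lit 30414, nat_lit 25878, nat_lit 26094, nat_lit 26022, nat_lit 26058, nat_lit 26034, nat_lit 26046, nat_lit 26038] (nat_lit 0) [nat_lit 6358] false,
   Spec.mk (nat_lit 26046) (nat_lit 0) [nat_lit 12924, nat_lit 30420, nat_lit 25884, nat_lit 26100, nat_lit 26064, nat_lit 26040] (nat_lit 0) [nat_lit 6364] false,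
   Spec.mk (nat_lit 26056) (nat_lit 0) [nat_lit 12934, nat_lit 30430, nat_lit 25894, nat_lit 26110, nat_lit 26038, nat_lit 26058] (nat_lit 1) [nat_lit 45738, nat_lit 6374] false,
   Spec.mk (nat_lit 26058) (nat_lit 0) [nat_lit 12936, nat_lit 30432, nat_lit 25896, nat_lit 26112, nat_lit 26040, nat_lit 26064, nat_lit 26056] (nat_lit 2) [nat_lit 6376] false,
   Spec.mk (nat_lit 26064) (nat_lit 0) [nat_lit 12942, nat_lit 30438, nat_lit 25902, nat_lit 26118, nat_lit 26046, nat_lit 26058] (nat_lit 0) [nat_lit 6382] false,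
   Spec.mk (nat_lit 26084) (nat_lit 2) [nat_lit 12962, nat_lit 30458, nat_lit 25922, nat_lit 26030, nat_lit 26086] (nat_lit 0) [nat_lit 45766] false,
   Spec.mk (nat_lit 26086) (nat_lit 2) [nat_lit 12964, nat_lit 30460, nat_lit 25924, nat_lit 26032, nat_lit 26092, nat_lit 26084, nat_lit 26088] (nat_lit 0) [nat_lit 45768, nat_lit 6404] false,
   Spec.mk (nat_lit 26088) (nat_lit 0) [nat_lit 12966, nat_lit 30462, nat_lit 25926, nat_lit 26034, nat_lit 26094, nat_lit 26086] (nat_lit 0) [nat_lit 6406] false,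
   Spec.mk (nat_lit 26092) (nat_lit 1) [nat_lit 12970, nat_lit 30466, nat_lit 25930, nat_lit 26038, nat_lit 26110, nat_lit 26086, nat_lit 26094] (nat_lit 0) [nat_lit 45774, nat_lit 6410] false,
   Spec.mk (nat_lit 26094) (nat_lit 1) [nat_lit 12972, nat_lit 30468, nat_lit 25932, nat_lit 26040, nat_lit 26112, nat_lit 26088, nat_lit 26100, nat_lit 26092] (nat_lit 0) [nat_lit 6412] false,
   Spec.mk (nat_lit 26100) (nat_lit 0) [nat_lit 12978, nat_lit 30474, nat_lit 25938, nat_lit 26046, nat_lit 26118, nat_lit 26094] (nat_lit 0) [nat_lit 6418] false,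
   Spec.mk (nat_lit 26110) (nat_lit 2) [nat_lit 12988, nat_lit 30484, nat_lit 25948, nat_lit 26056, nat_lit 26164, nat_lit 26092, nat_lit 26112] (nat_lit 0) [nat_lit 45792, nat_lit 6428] false,
   Spec.mk (nat_lit 26112) (nat_lit 1) [nat_lit 12990, nat_lit 30486, nat_lit 25950, nat_lit 26058, nat_lit 26166, nat_lit 26094, nat_lit 26118, nat_lit 26110] (nat_lit 0) [nat_lit 6430] false,
   Spec.mk (nat_lit 26118) (nat_lit 2) [nat_lit 12996, nat_lit 30492, nat_lit 25956, nat_lit 26064, nat_lit 26172, nat_lit 26100, nat_lit 26136, nat_lit 26112] (nat_lit 0) [nat_lit 6436] false,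
   Spec.mk (nat_lit 26136) (nat_lit 2) [nat_lit 13014, nat_lit 30510, nat_lit 25974, nat_lit 26190, nat_lit 26118] (nat_lit 0) [nat_lit 6454] false,
   Spec.mk (nat_lit 26164) (nat_lit 3) [nat_lit 13042, nat_lit 30538, nat_lit 26110, nat_lit 26166] (nat_lit 0) [nat_lit 45846, nat_lit 6482] false,
   Spec.mk (nat_lit 26166) (nat_lit 2) [nat_lit 13044, nat_lit 30540, nat_lit 26112, nat_lit 26172, nat_lit 26164] (nat_lit 0) [nat_lit 6484] false,
   Spec.mk (nat_lit 26172) (nat_lit 2) [nat_lit 13050, nat_lit 30546, nat_lit 26118, nat_lit 26190, nat_lit 26166] (nat_lit 0) [nat_lit 6490] false,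
   Spec.mk (nat_lit 26190) (nat_lit 4) [nat_lit 13068, nat_lit 30564, nat_lit 26136, nat_lit 26172] (nat_lit 0) [nat_lit 6508] false,
   Spec.mk (nat_lit 26324) (nat_lit 5) [nat_lit 13202, nat_lit 39446, nat_lit 21950, nat_lit 26378] (nat_lit 0) [nat_lit 46006] false,
   Spec.mk (nat_lit 26378) (nat_lit 4) [nat_lit 13256, nat_lit 39500, nat_lit 22004, nat_lit 26540, nat_lit 26324, nat_lit 26432, nat_lit 26396] (nat_lit 0) [nat_lit 46060] false,
   Spec.mk (nat_lit 26396) (nat_lit 3) [nat_lit 13274, nat_lit 39518, nat_lit 22022, nat_lit 26558, nat_lit 26450, nat_lit 26378, nat_lit 26402] (nat_lit 0) [nat_lit 46078] false,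
   Spec.mk (nat_lit 26402) (nat_lit 3) [nat_lit 13280, nat_lit 39524, nat_lit 22028, nat_lit 26564, nat_lit 26456, nat_lit 26396, nat_lit 26404] (nat_lit 0) [nat_lit 46084] false,
   Spec.mk (nat_lit 26404) (nat_lit 4) [nat_lit 13282, nat_lit 39526, nat_lit 22030, nat_lit 26566, nat_lit 26458, nat_lit 26402] (nat_lit 0) [nat_lit 46086, nat_lit 6722] false,
   Spec.mk (nat_lit 26432) (nat_lit 1) [nat_lit 13310, nat_lit 39554, nat_lit 22058, nat_lit 26594, nat_lit 26378, nat_lit 26450] (nat_lit 0) [nat_lit 46114] false,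
   Spec.mk (nat_lit 26450) (nat_lit 2) [nat_lit 13328, nat_lit 39572, nat_lit 22076, nat_lit 26612, nat_lit 26396, nat_lit 26432, nat_lit 26468, nat_lit 26456] (nat_lit 0) [nat_lit 46132] false,
   Spec.mk (nat_lit 26456) (nat_lit 1) [nat_lit 13334, nat_lit 39578, nat_lit 22082, nat_lit 26618, nat_lit 26402, nat_lit 26474, nat_lit 26450, nat_lit 26458] (nat_lit 0) [nat_lit 46138] false,
   Spec.mk (nat_lit 26458) (nat_lit 2) [nat_lit 13336, nat_lit 39580, nat_lit 22084, nat_lit 26620, nat_lit 26404, nat_lit 26476, nat_lit 26456] (nat_lit 0) [nat_lit 46140, nat_lit 6776] false,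
   Spec.mk (nat_lit 26468) (nat_lit 1) [nat_lit 13346, nat_lit 39590, nat_lit 22094, nat_lit 26630, nat_lit 26450, nat_lit 26474] (nat_lit 0) [nat_lit 46150] false,
   Spec.mk (nat_lit 26474) (nat_lit 2) [nat_lit 13352, nat_lit 39596, nat_lit 22100, nat_lit 26636, nat_lit 26456, nat_lit 26468, nat_lit 26480, nat_lit 26476] (nat_lit 0) [nat_lit 46156] false,
   Spec.mk (nat_lit 26476) (nat_lit 2) [nat_lit 13354, nat_lit 39598, nat_lit 22102, nat_lit 26638, nat_lit 26458, nat_lit 26482, nat_lit 26474] (nat_lit 0) [nat_lit 46158, nat_lit 6794] false,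
   Spec.mk (nat_lit 26480) (nat_lit 1) [nat_lit 13358, nat_lit 39602, nat_lit 22106, nat_lit 26642, nat_lit 26474, nat_lit 26482] (nat_lit 0) [nat_lit 46162] false,
   Spec.mk (nat_lit 26482) (nat_lit 3) [nat_lit 13360, nat_lit 39604, nat_lit 22108, nat_lit 26644, nat_lit 26476, nat_lit 26480, nat_lit 26484] (nat_lit 0) [nat_lit 46164, nat_lit 6800] false,
   Spec.mk (nat_lit 26484) (nat_lit 3) [nat_lit 13362, nat_lit 39606, nat_lit 22110, nat_lit 26646, nat_lit 26482] (nat_lit 0) [nat_lit 6802] false,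
   Spec.mk (nat_lit 26540) (nat_lit 3) [nat_lit 13418, nat_lit 39662, nat_lit 22166, nat_lit 27026, nat_lit 26378, nat_lit 26594, nat_lit 26558] (nat_lit 0) [nat_lit 46222] false,
   Spec.mk (nat_lit 26558) (nat_lit 1) [nat_lit 13436, nat_lit 39680, nat_lit 22184, nat_lit 27044, nat_lit 26396, nat_lit 26612, nat_lit 26540, nat_lit 26564] (nat_lit 0) [nat_lit 46240] false,
   Spec.mk (nat_lit 26564) (nat_lit 1) [nat_lit 13442, nat_lit 39686, nat_lit 22190, nat_lit 27050, nat_lit 26402, nat_lit 26618, nat_lit 26558, nat_lit 26566] (nat_lit 0) [nat_lit 46246] false,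
   Spec.mk (nat_lit 26566) (nat_lit 2) [nat_lit 13444, nat_lit 39688, nat_lit 22192, nat_lit 27052, nat_lit 26404, nat_lit 26620, nat_lit 26564] (nat_lit 0) [nat_lit 46248, nat_lit 6884] false,
   Spec.mk (nat_lit 26594) (nat_lit 2) [nat_lit 13472, nat_lit 39716, nat_lit 22220, nat_lit 27080, nat_lit 26432, nat_lit 26756, nat_lit 26540, nat_lit 26612] (nat_lit 0) [nat_lit 46276] false,
   Spec.mk (nat_lit 26612) (nat_lit 2) [nat_lit 13490, nat_lit 39734, nat_lit 22238, nat_lit 27098, nat_lit 26450, nat_lit 26774, nat_lit 26558, nat_lit 26666, nat_lit 26594, nat_lit 26630, nat_lit 26618] (nat_lit 0) [nat_lit 46294] false,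
   Spec.mk (nat_lit 26618) (nat_lit 1) [nat_lit 13496, nat_lit 39740, nat_lit 22244, nat_lit 27104, nat_lit 26456, nat_lit 26780, nat_lit 26564, nat_lit 26672, nat_lit 26636, nat_lit 26612, nat_lit 26620] (nat_lit 0) [nat_lit 46300] false,
   Spec.mk (nat_lit 26620) (nat_lit 2) [nat_lit 13498, nat_lit 39742, nat_lit 22246, nat_lit 27106, nat_lit 26458, nat_lit 26782, nat_lit 26566, nat_lit 26674, nat_lit 26638, nat_lit 26618] (nat_lit 0) [nat_lit 46302, nat_lit 6938] false,
   Spec.mk (nat_lit 26630) (nat_lit 0) [nat_lit 13508, nat_lit 39752, nat_lit 22256, nat_lit 27116, nat_lit 26468, nat_lit 26792, nat_lit 26684, nat_lit 26612, nat_lit 26636] (nat_lit 0) [nat_lit 46312] false,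
   Spec.mk (nat_lit 26636) (nat_lit 1) [nat_lit 13514, nat_lit 39758, nat_lit 22262, nat_lit 27122, nat_lit 26474, nat_lit 26798, nat_lit 26690, nat_lit 26618, nat_lit 26630, nat_lit 26642, nat_lit 26638] (nat_lit 0) [nat_lit 46318] false,
   Spec.mk (nat_lit 26638) (nat_lit 1) [nat_lit 13516, nat_lit 39760, nat_lit 22264, nat_lit 27124, nat_lit 26476, nat_lit 26800, nat_lit 26692, nat_lit 26620, nat_lit 26644, nat_lit 26636] (nat_lit 0) [nat_lit 46320, nat_lit 6956] false,
   Spec.mk (nat_lit 26642) (nat_lit 0) [nat_lit 13520, nat_lit 39764, nat_lit 22268, nat_lit 27128, nat_lit 26480, nat_lit 26804, nat_lit 26696, nat_lit 26636, nat_lit 26644] (nat_lit 0) [nat_lit 46324] false,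
   Spec.mk (nat_lit 26644) (nat_lit 2) [nat_lit 13522, nat_lit 39766, nat_lit 22270, nat_lit 27130, nat_lit 26482, nat_lit 26806, nat_lit 26698, nat_lit 26638, nat_lit 26642, nat_lit 26646] (nat_lit 0) [nat_lit 46326, nat_lit 6962] false,
   Spec.mk (nat_lit 26646) (nat_lit 2) [nat_lit 13524, nat_lit 39768, nat_lit 22272, nat_lit 27132, nat_lit 26484, nat_lit 26808, nat_lit 26700, nat_lit 26644] (nat_lit 0) [nat_lit 6964] false,
   Spec.mk (nat_lit 26666) (nat_lit 1) [nat_lit 13544, nat_lit 39788, nat_lit 22292, nat_lit 27152, nat_lit 26828, nat_lit 26612, nat_lit 26684, nat_lit 26672] (nat_lit 0) [nat_lit 46348] false,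
   Spec.mk (nat_lit 26672) (nat_lit 0) [nat_lit 13550, nat_lit 39794, nat_lit 22298, nat_lit 27158, nat_lit 26834, nat_lit 26618, nat_lit 26690, nat_lit 26666, nat_lit 26674] (nat_lit 1) [nat_lit 46354] false,
   Spec.mk (nat_lit 26674) (nat_lit 0) [nat_lit 13552, nat_lit 39796, nat_lit 22300, nat_lit 27160, nat_lit 26836, nat_lit 26620, nat_lit 26692, nat_lit 26672] (nat_lit 0) [nat_lit 46356, nat_lit 6992] false,
   Spec.mk (nat_lit 26684) (nat_lit 1) [nat_lit 13562, nat_lit 39806, nat_lit 22310, nat_lit 27170, nat_lit 26846, nat_lit 26630, nat_lit 26666, nat_lit 26690] (nat_lit 0) [nat_lit 46366] false,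
   Spec.mk (nat_lit 26690) (nat_lit 1) [nat_lit 13568, nat_lit 39812, nat_lit 22316, nat_lit 27176, nat_lit 26852, nat_lit 26636, nat_lit 26672, nat_lit 26708, nat_lit 26684, nat_lit 26696, nat_lit 26692] (nat_lit 0) [nat_lit 46372] false,
   Spec.mk (nat_lit 26692) (nat_lit 1) [nat_lit 13570, nat_lit 39814, nat_lit 22318, nat_lit 27178, nat_lit 26854, nat_lit 26638, nat_lit 26674, nat_lit 26710, nat_lit 26698, nat_lit 26690] (nat_lit 0) [nat_lit 46374, nat_lit 7010] false,
   Spec.mk (nat_lit 26696) (nat_lit 0) [nat_lit 13574, nat_lit 39818, nat_lit 22322, nat_lit 27182, nat_lit 26858, nat_lit 26642, nat_lit 26714, nat_lit 26690, nat_lit 26698] (nat_lit 1) [nat_lit 46378] false,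
   Spec.mk (nat_lit 26698) (nat_lit 1) [nat_lit 13576, nat_lit 39820, nat_lit 22324, nat_lit 27184, nat_lit 26860, nat_lit 26644, nat_lit 26716, nat_lit 26692, nat_lit 26696, nat_lit 26700] (nat_lit 0) [nat_lit 46380, nat_lit 7016] false]

noncomputable def sp66 : List Spec :=
  [Spec.mk (nat_lit 26700) (nat_lit 1) [nat_lit 13578, nat_lit 39822, nat_lit 22326, nat_lit 27186, nat_lit 26862, nat_lit 26646, nat_lit 26718, nat_lit 26698] (nat_lit 0) [nat_lit 7018] false,
   Spec.mk (nat_lit 26708) (nat_lit 1) [nat_lit 13586, nat_lit 39830, nat_lit 22334, nat_lit 27194, nat_lit 26870, nat_lit 26690, nat_lit 26714, nat_lit 26710] (nat_lit 0) [nat_lit 46390] false,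
   Spec.mk (nat_lit 26710) (nat_lit 0) [nat_lit 13588, nat_lit 39832, nat_lit 22336, nat_lit 27196, nat_lit 26872, nat_lit 26692, nat_lit 26716, nat_lit 26708] (nat_lit 0) [nat_lit 46392, nat_lit 7028] false,
   Spec.mk (nat_lit 26714) (nat_lit 1) [nat_lit 13592, nat_lit 39836, nat_lit 22340, nat_lit 27200, nat_lit 26876, nat_lit 26696, nat_lit 26708, nat_lit 26716] (nat_lit 0) [nat_lit 46396] false,
   Spec.mk (nat_lit 26716) (nat_lit 2) [nat_lit 13594, nat_lit 39838, nat_lit 22342, nat_lit 27202, nat_lit 26878, nat_lit 26698, nat_lit 26710, nat_lit 26722, nat_lit 26714, nat_lit 26718] (nat_lit 0) [nat_lit 46398, nat_lit 7034] false,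
   Spec.mk (nat_lit 26718) (nat_lit 1) [nat_lit 13596, nat_lit 39840, nat_lit 22344, nat_lit 27204, nat_lit 26880, nat_lit 26700, nat_lit 26724, nat_lit 26716] (nat_lit 0) [nat_lit 7036] false,
   Spec.mk (nat_lit 26722) (nat_lit 2) [nat_lit 13600, nat_lit 39844, nat_lit 22348, nat_lit 27208, nat_lit 26884, nat_lit 26716, nat_lit 26724] (nat_lit 0) [nat_lit 46404, nat_lit 7040] false,
   Spec.mk (nat_lit 26724) (nat_lit 3) [nat_lit 13602, nat_lit 39846, nat_lit 22350, nat_lit 27210, nat_lit 26886, nat_lit 26718, nat_lit 26722] (nat_lit 0) [nat_lit 7042] false,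
   Spec.mk (nat_lit 26756) (nat_lit 1) [nat_lit 13634, nat_lit 39878, nat_lit 22382, nat_lit 27242, nat_lit 26594, nat_lit 26774] (nat_lit 0) [nat_lit 46438] false,
   Spec.mk (nat_lit 26774) (nat_lit 0) [nat_lit 13652, nat_lit 39896, nat_lit 22400, nat_lit 27260, nat_lit 26612, nat_lit 26828, nat_lit 26756, nat_lit 26792, nat_lit 26780] (nat_lit 0) [nat_lit 46456] false,
   Spec.mk (nat_lit 26780) (nat_lit 0) [nat_lit 13658, nat_lit 39902, nat_lit 22406, nat_lit 27266, nat_lit 26618, nat_lit 26834, nat_lit 26798, nat_lit 26774, nat_lit 26782] (nat_lit 1) [nat_lit 46462] false,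
   Spec.mk (nat_lit 26782) (nat_lit 0) [nat_lit 13660, nat_lit 39904, nat_lit 22408, nat_lit 27268, nat_lit 26620, nat_lit 26836, nat_lit 26800, nat_lit 26780] (nat_lit 0) [nat_lit 46464, nat_lit 7100] false,
   Spec.mk (nat_lit 26792) (nat_lit 0) [nat_lit 13670, nat_lit 39914, nat_lit 22418, nat_lit 27278, nat_lit 26630, nat_lit 26846, nat_lit 26774, nat_lit 26798] (nat_lit 3) [nat_lit 46474] false,
   Spec.mk (nat_lit 26798) (nat_lit 0) [nat_lit 13676, nat_lit 39920, nat_lit 22424, nat_lit 27284, nat_lit 26636, nat_lit 26852, nat_lit 26780, nat_lit 26792, nat_lit 26804, nat_lit 26800] (nat_lit 2) [nat_lit 46480] false,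
   Spec.mk (nat_lit 26800) (nat_lit 0) [nat_lit 13678, nat_lit 39922, nat_lit 22426, nat_lit 27286, nat_lit 26638, nat_lit 26854, nat_lit 26782, nat_lit 26806, nat_lit 26798] (nat_lit 2) [nat_lit 46482, nat_lit 7118] false,
   Spec.mk (nat_lit 26804) (nat_lit 0) [nat_lit 13682, nat_lit 39926, nat_lit 22430, nat_lit 27290, nat_lit 26642, nat_lit 26858, nat_lit 26798, nat_lit 26806] (nat_lit 3) [nat_lit 46486] false,
   Spec.mk (nat_lit 26806) (nat_lit 0) [nat_lit 13684, nat_lit 39928, nat_lit 22432, nat_lit 27292, nat_lit 26644, nat_lit 26860, nat_lit 26800, nat_lit 26804, nat_lit 26808] (nat_lit 1) [nat_lit 46488, nat_lit 7124] false,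
   Spec.mk (nat_lit 26808) (nat_lit 0) [nat_lit 13686, nat_lit 39930, nat_lit 22434, nat_lit 27294, nat_lit 26646, nat_lit 26862, nat_lit 26806] (nat_lit 1) [nat_lit 7126] false,
   Spec.mk (nat_lit 26828) (nat_lit 1) [nat_lit 13706, nat_lit 39950, nat_lit 22454, nat_lit 27314, nat_lit 26666, nat_lit 26774, nat_lit 26846, nat_lit 26834] (nat_lit 0) [nat_lit 46510] false,
   Spec.mk (nat_lit 26834) (nat_lit 0) [nat_lit 13712, nat_lit 39956, nat_lit 22460, nat_lit 27320, nat_lit 26672, nat_lit 26780, nat_lit 26852, nat_lit 26828, nat_lit 26836] (nat_lit 1) [nat_lit 46516] false,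
   Spec.mk (nat_lit 26836) (nat_lit 0) [nat_lit 13714, nat_lit 39958, nat_lit 22462, nat_lit 27322, nat_lit 26674, nat_lit 26782, nat_lit 26854, nat_lit 26834] (nat_lit 0) [nat_lit 46518, nat_lit 7154] false,
   Spec.mk (nat_lit 26846) (nat_lit 0) [nat_lit 13724, nat_lit 39968, nat_lit 22472, nat_lit 27332, nat_lit 26684, nat_lit 26792, nat_lit 26900, nat_lit 26828, nat_lit 26852] (nat_lit 0) [nat_lit 46528] false,
   Spec.mk (nat_lit 26852) (nat_lit 0) [nat_lit 13730, nat_lit 39974, nat_lit 22478, nat_lit 27338, nat_lit 26690, nat_lit 26798, nat_lit 26906, nat_lit 26834, nat_lit 26870, nat_lit 26846, nat_lit 26858, nat_lit 26854] (nat_lit 0) [nat_lit 46534] false,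
   Spec.mk (nat_lit 26854) (nat_lit 0) [nat_lit 13732, nat_lit 39976, nat_lit 22480, nat_lit 27340, nat_lit 26692, nat_lit 26800, nat_lit 26908, nat_lit 26836, nat_lit 26872, nat_lit 26860, nat_lit 26852] (nat_lit 0) [nat_lit 46536, nat_lit 7172] false,
   Spec.mk (nat_lit 26858) (nat_lit 0) [nat_lit 13736, nat_lit 39980, nat_lit 22484, nat_lit 27344, nat_lit 26696, nat_lit 26804, nat_lit 26912, nat_lit 26876, nat_lit 26852, nat_lit 26860] (nat_lit 2) [nat_lit 46540] false,
   Spec.mk (nat_lit 26860) (nat_lit 0) [nat_lit 13738, nat_lit 39982, nat_lit 22486, nat_lit 27346, nat_lit 26698, nat_lit 26806, nat_lit 26914, nat_lit 26878, nat_lit 26854, nat_lit 26858, nat_lit 26862] (nat_lit 0) [nat_lit 46542, nat_lit 7178] false,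
   Spec.mk (nat_lit 26862) (nat_lit 0) [nat_lit 13740, nat_lit 39984, nat_lit 22488, nat_lit 27348, nat_lit 26700, nat_lit 26808, nat_lit 26916, nat_lit 26880, nat_lit 26860] (nat_lit 0) [nat_lit 7180] false,
   Spec.mk (nat_lit 26870) (nat_lit 0) [nat_lit 13748, nat_lit 39992, nat_lit 22496, nat_lit 27356, nat_lit 26708, nat_lit 26924, nat_lit 26852, nat_lit 26876, nat_lit 26872] (nat_lit 1) [nat_lit 46552] false,
   Spec.mk (nat_lit 26872) (nat_lit 0) [nat_lit 13750, nat_lit 39994, nat_lit 22498, nat_lit 27358, nat_lit 26710, nat_lit 26926, nat_lit 26854, nat_lit 26878, nat_lit 26870] (nat_lit 2) [nat_lit 46554, nat_lit 7190] false,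
   Spec.mk (nat_lit 26876) (nat_lit 0) [nat_lit 13754, nat_lit 39998, nat_lit 22502, nat_lit 27362, nat_lit 26714, nat_lit 26930, nat_lit 26858, nat_lit 26870, nat_lit 26878] (nat_lit 1) [nat_lit 46558] false,
   Spec.mk (nat_lit 26878) (nat_lit 0) [nat_lit 13756, nat_lit 40000, nat_lit 22504, nat_lit 27364, nat_lit 26716, nat_lit 26932, nat_lit 26860, nat_lit 26872, nat_lit 26884, nat_lit 26876, nat_lit 26880] (nat_lit 0) [nat_lit 46560, nat_lit 7196] false,
   Spec.mk (nat_lit 26880) (nat_lit 0) [nat_lit 13758, nat_lit 40002, nat_lit 22506, nat_lit 27366, nat_lit 26718, nat_lit 26934, nat_lit 26862, nat_lit 26886, nat_lit 26878] (nat_lit 1) [nat_lit 7198] false,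
   Spec.mk (nat_lit 26884) (nat_lit 0) [nat_lit 13762, nat_lit 40006, nat_lit 22510, nat_lit 27370, nat_lit 26722, nat_lit 26938, nat_lit 26878, nat_lit 26886] (nat_lit 0) [nat_lit 46566, nat_lit 7202] false,
   Spec.mk (nat_lit 26886) (nat_lit 1) [nat_lit 13764, nat_lit 40008, nat_lit 22512, nat_lit 27372, nat_lit 26724, nat_lit 26940, nat_lit 26880, nat_lit 26884] (nat_lit 0) [nat_lit 7204] false,
   Spec.mk (nat_lit 26900) (nat_lit 1) [nat_lit 13778, nat_lit 40022, nat_lit 22526, nat_lit 27386, nat_lit 26846, nat_lit 26906] (nat_lit 0) [nat_lit 46582] false,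
   Spec.mk (nat_lit 26906) (nat_lit 0) [nat_lit 13784, nat_lit 40028, nat_lit 22532, nat_lit 27392, nat_lit 26852, nat_lit 26924, nat_lit 26900, nat_lit 26912, nat_lit 26908] (nat_lit 0) [nat_lit 46588] false,
   Spec.mk (nat_lit 26908) (nat_lit 0) [nat_lit 13786, nat_lit 40030, nat_lit 22534, nat_lit 27394, nat_lit 26854, nat_lit 26926, nat_lit 26914, nat_lit 26906] (nat_lit 0) [nat_lit 46590, nat_lit 7226] false,
   Spec.mk (nat_lit 26912) (nat_lit 0) [nat_lit 13790, nat_lit 40034, nat_lit 22538, nat_lit 27398, nat_lit 26858, nat_lit 26930, nat_lit 26906, nat_lit 26914] (nat_lit 3) [nat_lit 46594] false,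
   Spec.mk (nat_lit 26914) (nat_lit 0) [nat_lit 13792, nat_lit 40036, nat_lit 22540, nat_lit 27400, nat_lit 26860, nat_lit 26932, nat_lit 26908, nat_lit 26912, nat_lit 26916] (nat_lit 1) [nat_lit 46596, nat_lit 7232] false,
   Spec.mk (nat_lit 26916) (nat_lit 0) [nat_lit 13794, nat_lit 40038, nat_lit 22542, nat_lit 27402, nat_lit 26862, nat_lit 26934, nat_lit 26914] (nat_lit 1) [nat_lit 7234] false,
   Spec.mk (nat_lit 26924) (nat_lit 1) [nat_lit 13802, nat_lit 40046, nat_lit 22550, nat_lit 27410, nat_lit 26870, nat_lit 26906, nat_lit 26930, nat_lit 26926] (nat_lit 0) [nat_lit 46606] false,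
   Spec.mk (nat_lit 26926) (nat_lit 0) [nat_lit 13804, nat_lit 40048, nat_lit 22552, nat_lit 27412, nat_lit 26872, nat_lit 26908, nat_lit 26932, nat_lit 26924] (nat_lit 0) [nat_lit 46608, nat_lit 7244] false,
   Spec.mk (nat_lit 26930) (nat_lit 0) [nat_lit 13808, nat_lit 40052, nat_lit 22556, nat_lit 27416, nat_lit 26876, nat_lit 26912, nat_lit 26948, nat_lit 26924, nat_lit 26932] (nat_lit 0) [nat_lit 46612] false,
   Spec.mk (nat_lit 26932) (nat_lit 1) [nat_lit 13810, nat_lit 40054, nat_lit 22558, nat_lit 27418, nat_lit 26878, nat_lit 26914, nat_lit 26950, nat_lit 26926, nat_lit 26938, nat_lit 26930, nat_lit 26934] (nat_lit 0) [nat_lit 46614, nat_lit 7250] false,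
   Spec.mk (nat_lit 26934) (nat_lit 0) [nat_lit 13812, nat_lit 40056, nat_lit 22560, nat_lit 27420, nat_lit 26880, nat_lit 26916, nat_lit 26952, nat_lit 26940, nat_lit 26932] (nat_lit 0) [nat_lit 7252] false,
   Spec.mk (nat_lit 26938) (nat_lit 0) [nat_lit 13816, nat_lit 40060, nat_lit 22564, nat_lit 27424, nat_lit 26884, nat_lit 26956, nat_lit 26932, nat_lit 26940] (nat_lit 0) [nat_lit 46620, nat_lit 7256] false,
   Spec.mk (nat_lit 26940) (nat_lit 1) [nat_lit 13818, nat_lit 40062, nat_lit 22566, nat_lit 27426, nat_lit 26886, nat_lit 26958, nat_lit 26934, nat_lit 26938] (nat_lit 0) [nat_lit 7258] false,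
   Spec.mk (nat_lit 26948) (nat_lit 1) [nat_lit 13826, nat_lit 40070, nat_lit 22574, nat_lit 27434, nat_lit 26930, nat_lit 26950] (nat_lit 0) [nat_lit 46630] false,
   Spec.mk (nat_lit 26950) (nat_lit 1) [nat_lit 13828, nat_lit 40072, nat_lit 22576, nat_lit 27436, nat_lit 26932, nat_lit 26956, nat_lit 26948, nat_lit 26952] (nat_lit 0) [nat_lit 46632, nat_lit 7268] false,
   Spec.mk (nat_lit 26952) (nat_lit 0) [nat_lit 13830, nat_lit 40074, nat_lit 22578, nat_lit 27438, nat_lit 26934, nat_lit 26958, nat_lit 26950] (nat_lit 1) [nat_lit 7270] false,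
   Spec.mk (nat_lit 26956) (nat_lit 2) [nat_lit 13834, nat_lit 40078, nat_lit 22582, nat_lit 27442, nat_lit 26938, nat_lit 26950, nat_lit 26958] (nat_lit 0) [nat_lit 46638, nat_lit 7274] false,
   Spec.mk (nat_lit 26958) (nat_lit 2) [nat_lit 13836, nat_lit 40080, nat_lit 22584, nat_lit 27444, nat_lit 26940, nat_lit 26952, nat_lit 26964, nat_lit 26956] (nat_lit 0) [nat_lit 7276] false,
   Spec.mk (nat_lit 26964) (nat_lit 3) [nat_lit 13842, nat_lit 40086, nat_lit 22590, nat_lit 27450, nat_lit 26958] (nat_lit 0) [nat_lit 7282] false,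
   Spec.mk (nat_lit 27026) (nat_lit 3) [nat_lit 13904, nat_lit 40148, nat_lit 22652, nat_lit 28484, nat_lit 26540, nat_lit 27080, nat_lit 27044] (nat_lit 0) [nat_lit 46708] false,
   Spec.mk (nat_lit 27044) (nat_lit 1) [nat_lit 13922, nat_lit 40166, nat_lit 22670, nat_lit 28502, nat_lit 26558, nat_lit 27098, nat_lit 27026, nat_lit 27050] (nat_lit 0) [nat_lit 46726] false,
   Spec.mk (nat_lit 27050) (nat_lit 1) [nat_lit 13928, nat_lit 40172, nat_lit 22676, nat_lit 28508, nat_lit 26564, nat_lit 27104, nat_lit 27044, nat_lit 27052] (nat_lit 0) [nat_lit 46732] false,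
   Spec.mk (nat_lit 27052) (nat_lit 2) [nat_lit 13930, nat_lit 40174, nat_lit 22678, nat_lit 28510, nat_lit 26566, nat_lit 27106, nat_lit 27050] (nat_lit 0) [nat_lit 46734, nat_lit 7370] false,
   Spec.mk (nat_lit 27080) (nat_lit 1) [nat_lit 13958, nat_lit 40202, nat_lit 22706, nat_lit 28538, nat_lit 26594, nat_lit 27242, nat_lit 27026, nat_lit 27098] (nat_lit 0) [nat_lit 46762] false,
   Spec.mk (nat_lit 27098) (nat_lit 1) [nat_lit 13976, nat_lit 40220, nat_lit 22724, nat_lit 28556, nat_lit 26612, nat_lit 27260, nat_lit 27044, nat_lit 27152, nat_lit 27080, nat_lit 27116, nat_lit 27104] (nat_lit 0) [nat_lit 46780] false,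
   Spec.mk (nat_lit 27104) (nat_lit 0) [nat_lit 13982, nat_lit 40226, nat_lit 22730, nat_lit 28562, nat_lit 26618, nat_lit 27266, nat_lit 27050, nat_lit 27158, nat_lit 27122, nat_lit 27098, nat_lit 27106] (nat_lit 0) [nat_lit 46786] false]

noncomputable def sp67 : List Spec :=
  [Spec.mk (nat_lit 27106) (nat_lit 1) [nat_lit 13984, nat_lit 40228, nat_lit 22732, nat_lit 28564, nat_lit 26620, nat_lit 27268, nat_lit 27052, nat_lit 27160, nat_lit 27124, nat_lit 27104] (nat_lit 0) [nat_lit 46788, nat_lit 7424] false,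
   Spec.mk (nat_lit 27116) (nat_lit 0) [nat_lit 13994, nat_lit 40238, nat_lit 22742, nat_lit 28574, nat_lit 26630, nat_lit 27278, nat_lit 27170, nat_lit 27098, nat_lit 27122] (nat_lit 1) [nat_lit 46798] false,
   Spec.mk (nat_lit 27122) (nat_lit 0) [nat_lit 14000, nat_lit 40244, nat_lit 22748, nat_lit 28580, nat_lit 26636, nat_lit 27284, nat_lit 27176, nat_lit 27104, nat_lit 27116, nat_lit 27128, nat_lit 27124] (nat_lit 0) [nat_lit 46804] false,
   Spec.mk (nat_lit 27124) (nat_lit 0) [nat_lit 14002, nat_lit 40246, nat_lit 22750, nat_lit 28582, nat_lit 26638, nat_lit 27286, nat_lit 27178, nat_lit 27106, nat_lit 27130, nat_lit 27122] (nat_lit 0) [nat_lit 46806, nat_lit 7442] false,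
   Spec.mk (nat_lit 27128) (nat_lit 0) [nat_lit 14006, nat_lit 40250, nat_lit 22754, nat_lit 28586, nat_lit 26642, nat_lit 27290, nat_lit 27182, nat_lit 27122, nat_lit 27130] (nat_lit 1) [nat_lit 46810] false,
   Spec.mk (nat_lit 27130) (nat_lit 1) [nat_lit 14008, nat_lit 40252, nat_lit 22756, nat_lit 28588, nat_lit 26644, nat_lit 27292, nat_lit 27184, nat_lit 27124, nat_lit 27128, nat_lit 27132] (nat_lit 0) [nat_lit 46812, nat_lit 7448] false,
   Spec.mk (nat_lit 27132) (nat_lit 1) [nat_lit 14010, nat_lit 40254, nat_lit 22758, nat_lit 28590, nat_lit 26646, nat_lit 27294, nat_lit 27186, nat_lit 27130] (nat_lit 0) [nat_lit 7450] false,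
   Spec.mk (nat_lit 27152) (nat_lit 0) [nat_lit 14030, nat_lit 40274, nat_lit 22778, nat_lit 28610, nat_lit 26666, nat_lit 27314, nat_lit 27098, nat_lit 27170, nat_lit 27158] (nat_lit 1) [nat_lit 46834] false,
   Spec.mk (nat_lit 27158) (nat_lit 0) [nat_lit 14036, nat_lit 40280, nat_lit 22784, nat_lit 28616, nat_lit 26672, nat_lit 27320, nat_lit 27104, nat_lit 27176, nat_lit 27152, nat_lit 27160] (nat_lit 3) [nat_lit 46840] false,
   Spec.mk (nat_lit 27160) (nat_lit 0) [nat_lit 14038, nat_lit 40282, nat_lit 22786, nat_lit 28618, nat_lit 26674, nat_lit 27322, nat_lit 27106, nat_lit 27178, nat_lit 27158] (nat_lit 2) [nat_lit 46842, nat_lit 7478] false,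
   Spec.mk (nat_lit 27170) (nat_lit 0) [nat_lit 14048, nat_lit 40292, nat_lit 22796, nat_lit 28628, nat_lit 26684, nat_lit 27332, nat_lit 27116, nat_lit 27152, nat_lit 27176] (nat_lit 1) [nat_lit 46852] false,
   Spec.mk (nat_lit 27176) (nat_lit 0) [nat_lit 14054, nat_lit 40298, nat_lit 22802, nat_lit 28634, nat_lit 26690, nat_lit 27338, nat_lit 27122, nat_lit 27158, nat_lit 27194, nat_lit 27170, nat_lit 27182, nat_lit 27178] (nat_lit 1) [nat_lit 46858] false,
   Spec.mk (nat_lit 27178) (nat_lit 0) [nat_lit 14056, nat_lit 40300, nat_lit 22804, nat_lit 28636, nat_lit 26692, nat_lit 27340, nat_lit 27124, nat_lit 27160, nat_lit 27196, nat_lit 27184, nat_lit 27176] (nat_lit 1) [nat_lit 46860, nat_lit 7496] false,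
   Spec.mk (nat_lit 27182) (nat_lit 0) [nat_lit 14060, nat_lit 40304, nat_lit 22808, nat_lit 28640, nat_lit 26696, nat_lit 27344, nat_lit 27128, nat_lit 27200, nat_lit 27176, nat_lit 27184] (nat_lit 3) [nat_lit 46864] false,
   Spec.mk (nat_lit 27184) (nat_lit 0) [nat_lit 14062, nat_lit 40306, nat_lit 22810, nat_lit 28642, nat_lit 26698, nat_lit 27346, nat_lit 27130, nat_lit 27202, nat_lit 27178, nat_lit 27182, nat_lit 27186] (nat_lit 1) [nat_lit 46866, nat_lit 7502] false,
   Spec.mk (nat_lit 27186) (nat_lit 0) [nat_lit 14064, nat_lit 40308, nat_lit 22812, nat_lit 28644, nat_lit 26700, nat_lit 27348, nat_lit 27132, nat_lit 27204, nat_lit 27184] (nat_lit 1) [nat_lit 7504] false,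
   Spec.mk (nat_lit 27194) (nat_lit 0) [nat_lit 14072, nat_lit 40316, nat_lit 22820, nat_lit 28652, nat_lit 26708, nat_lit 27356, nat_lit 27176, nat_lit 27200, nat_lit 27196] (nat_lit 1) [nat_lit 46876] false,
   Spec.mk (nat_lit 27196) (nat_lit 0) [nat_lit 14074, nat_lit 40318, nat_lit 22822, nat_lit 28654, nat_lit 26710, nat_lit 27358, nat_lit 27178, nat_lit 27202, nat_lit 27194] (nat_lit 2) [nat_lit 46878, nat_lit 7514] false,
   Spec.mk (nat_lit 27200) (nat_lit 0) [nat_lit 14078, nat_lit 40322, nat_lit 22826, nat_lit 28658, nat_lit 26714, nat_lit 27362, nat_lit 27182, nat_lit 27194, nat_lit 27202] (nat_lit 1) [nat_lit 46882] false,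
   Spec.mk (nat_lit 27202) (nat_lit 0) [nat_lit 14080, nat_lit 40324, nat_lit 22828, nat_lit 28660, nat_lit 26716, nat_lit 27364, nat_lit 27184, nat_lit 27196, nat_lit 27208, nat_lit 27200, nat_lit 27204] (nat_lit 0) [nat_lit 46884, nat_lit 7520] false,
   Spec.mk (nat_lit 27204) (nat_lit 0) [nat_lit 14082, nat_lit 40326, nat_lit 22830, nat_lit 28662, nat_lit 26718, nat_lit 27366, nat_lit 27186, nat_lit 27210, nat_lit 27202] (nat_lit 1) [nat_lit 7522] false,
   Spec.mk (nat_lit 27208) (nat_lit 0) [nat_lit 14086, nat_lit 40330, nat_lit 22834, nat_lit 28666, nat_lit 26722, nat_lit 27370, nat_lit 27202, nat_lit 27210] (nat_lit 0) [nat_lit 46890, nat_lit 7526] false,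
   Spec.mk (nat_lit 27210) (nat_lit 1) [nat_lit 14088, nat_lit 40332, nat_lit 22836, nat_lit 28668, nat_lit 26724, nat_lit 27372, nat_lit 27204, nat_lit 27208] (nat_lit 0) [nat_lit 7528] false,
   Spec.mk (nat_lit 27242) (nat_lit 2) [nat_lit 14120, nat_lit 40364, nat_lit 22868, nat_lit 28700, nat_lit 26756, nat_lit 27728, nat_lit 27080, nat_lit 27260] (nat_lit 0) [nat_lit 46924] false,
   Spec.mk (nat_lit 27260) (nat_lit 1) [nat_lit 14138, nat_lit 40382, nat_lit 22886, nat_lit 28718, nat_lit 26774, nat_lit 27746, nat_lit 27098, nat_lit 27314, nat_lit 27242, nat_lit 27278, nat_lit 27266] (nat_lit 0) [nat_lit 46942] false,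
   Spec.mk (nat_lit 27266) (nat_lit 0) [nat_lit 14144, nat_lit 40388, nat_lit 22892, nat_lit 28724, nat_lit 26780, nat_lit 27752, nat_lit 27104, nat_lit 27320, nat_lit 27284, nat_lit 27260, nat_lit 27268] (nat_lit 0) [nat_lit 46948] false,
   Spec.mk (nat_lit 27268) (nat_lit 1) [nat_lit 14146, nat_lit 40390, nat_lit 22894, nat_lit 28726, nat_lit 26782, nat_lit 27754, nat_lit 27106, nat_lit 27322, nat_lit 27286, nat_lit 27266] (nat_lit 0) [nat_lit 46950, nat_lit 7586] false,
   Spec.mk (nat_lit 27278) (nat_lit 0) [nat_lit 14156, nat_lit 40400, nat_lit 22904, nat_lit 28736, nat_lit 26792, nat_lit 27764, nat_lit 27116, nat_lit 27332, nat_lit 27260, nat_lit 27284] (nat_lit 2) [nat_lit 46960] false,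
   Spec.mk (nat_lit 27284) (nat_lit 0) [nat_lit 14162, nat_lit 40406, nat_lit 22910, nat_lit 28742, nat_lit 26798, nat_lit 27770, nat_lit 27122, nat_lit 27338, nat_lit 27266, nat_lit 27278, nat_lit 27290, nat_lit 27286] (nat_lit 1) [nat_lit 46966] false,
   Spec.mk (nat_lit 27286) (nat_lit 0) [nat_lit 14164, nat_lit 40408, nat_lit 22912, nat_lit 28744, nat_lit 26800, nat_lit 27772, nat_lit 27124, nat_lit 27340, nat_lit 27268, nat_lit 27292, nat_lit 27284] (nat_lit 1) [nat_lit 46968, nat_lit 7604] false,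
   Spec.mk (nat_lit 27290) (nat_lit 0) [nat_lit 14168, nat_lit 40412, nat_lit 22916, nat_lit 28748, nat_lit 26804, nat_lit 27776, nat_lit 27128, nat_lit 27344, nat_lit 27284, nat_lit 27292] (nat_lit 2) [nat_lit 46972] false,
   Spec.mk (nat_lit 27292) (nat_lit 0) [nat_lit 14170, nat_lit 40414, nat_lit 22918, nat_lit 28750, nat_lit 26806, nat_lit 27778, nat_lit 27130, nat_lit 27346, nat_lit 27286, nat_lit 27290, nat_lit 27294] (nat_lit 0) [nat_lit 46974, nat_lit 7610] false,
   Spec.mk (nat_lit 27294) (nat_lit 0) [nat_lit 14172, nat_lit 40416, nat_lit 22920, nat_lit 28752, nat_lit 26808, nat_lit 27780, nat_lit 27132, nat_lit 27348, nat_lit 27292] (nat_lit 0) [nat_lit 7612] false,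
   Spec.mk (nat_lit 27314) (nat_lit 1) [nat_lit 14192, nat_lit 40436, nat_lit 22940, nat_lit 28772, nat_lit 26828, nat_lit 27800, nat_lit 27152, nat_lit 27476, nat_lit 27260, nat_lit 27332, nat_lit 27320] (nat_lit 0) [nat_lit 46996] false,
   Spec.mk (nat_lit 27320) (nat_lit 0) [nat_lit 14198, nat_lit 40442, nat_lit 22946, nat_lit 28778, nat_lit 26834, nat_lit 27806, nat_lit 27158, nat_lit 27482, nat_lit 27266, nat_lit 27338, nat_lit 27314, nat_lit 27322] (nat_lit 1) [nat_lit 47002] false,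
   Spec.mk (nat_lit 27322) (nat_lit 0) [nat_lit 14200, nat_lit 40444, nat_lit 22948, nat_lit 28780, nat_lit 26836, nat_lit 27808, nat_lit 27160, nat_lit 27484, nat_lit 27268, nat_lit 27340, nat_lit 27320] (nat_lit 0) [nat_lit 47004, nat_lit 7640] false,
   Spec.mk (nat_lit 27332) (nat_lit 0) [nat_lit 14210, nat_lit 40454, nat_lit 22958, nat_lit 28790, nat_lit 26846, nat_lit 27818, nat_lit 27170, nat_lit 27494, nat_lit 27278, nat_lit 27386, nat_lit 27314, nat_lit 27338] (nat_lit 0) [nat_lit 47014] false,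
   Spec.mk (nat_lit 27338) (nat_lit 0) [nat_lit 14216, nat_lit 40460, nat_lit 22964, nat_lit 28796, nat_lit 26852, nat_lit 27824, nat_lit 27176, nat_lit 27500, nat_lit 27284, nat_lit 27392, nat_lit 27320, nat_lit 27356, nat_lit 27332, nat_lit 27344, nat_lit 27340] (nat_lit 0) [nat_lit 47020] false,
   Spec.mk (nat_lit 27340) (nat_lit 0) [nat_lit 14218, nat_lit 40462, nat_lit 22966, nat_lit 28798, nat_lit 26854, nat_lit 27826, nat_lit 27178, nat_lit 27502, nat_lit 27286, nat_lit 27394, nat_lit 27322, nat_lit 27358, nat_lit 27346, nat_lit 27338] (nat_lit 0) [nat_lit 47022, nat_lit 7658] false,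
   Spec.mk (nat_lit 27344) (nat_lit 0) [nat_lit 14222, nat_lit 40466, nat_lit 22970, nat_lit 28802, nat_lit 26858, nat_lit 27830, nat_lit 27182, nat_lit 27506, nat_lit 27290, nat_lit 27398, nat_lit 27362, nat_lit 27338, nat_lit 27346] (nat_lit 2) [nat_lit 47026] false,
   Spec.mk (nat_lit 27346) (nat_lit 0) [nat_lit 14224, nat_lit 40468, nat_lit 22972, nat_lit 28804, nat_lit 26860, nat_lit 27832, nat_lit 27184, nat_lit 27508, nat_lit 27292, nat_lit 27400, nat_lit 27364, nat_lit 27340, nat_lit 27344, nat_lit 27348] (nat_lit 0) [nat_lit 47028, nat_lit 7664] false,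
   Spec.mk (nat_lit 27348) (nat_lit 0) [nat_lit 14226, nat_lit 40470, nat_lit 22974, nat_lit 28806, nat_lit 26862, nat_lit 27834, nat_lit 27186, nat_lit 27510, nat_lit 27294, nat_lit 27402, nat_lit 27366, nat_lit 27346] (nat_lit 0) [nat_lit 7666] false,
   Spec.mk (nat_lit 27356) (nat_lit 0) [nat_lit 14234, nat_lit 40478, nat_lit 22982, nat_lit 28814, nat_lit 26870, nat_lit 27842, nat_lit 27194, nat_lit 27518, nat_lit 27410, nat_lit 27338, nat_lit 27362, nat_lit 27358] (nat_lit 1) [nat_lit 47038] false,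
   Spec.mk (nat_lit 27358) (nat_lit 0) [nat_lit 14236, nat_lit 40480, nat_lit 22984, nat_lit 28816, nat_lit 26872, nat_lit 27844, nat_lit 27196, nat_lit 27520, nat_lit 27412, nat_lit 27340, nat_lit 27364, nat_lit 27356] (nat_lit 2) [nat_lit 47040, nat_lit 7676] false,
   Spec.mk (nat_lit 27362) (nat_lit 0) [nat_lit 14240, nat_lit 40484, nat_lit 22988, nat_lit 28820, nat_lit 26876, nat_lit 27848, nat_lit 27200, nat_lit 27524, nat_lit 27416, nat_lit 27344, nat_lit 27356, nat_lit 27364] (nat_lit 1) [nat_lit 47044] false,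
   Spec.mk (nat_lit 27364) (nat_lit 0) [nat_lit 14242, nat_lit 40486, nat_lit 22990, nat_lit 28822, nat_lit 26878, nat_lit 27850, nat_lit 27202, nat_lit 27526, nat_lit 27418, nat_lit 27346, nat_lit 27358, nat_lit 27370, nat_lit 27362, nat_lit 27366] (nat_lit 0) [nat_lit 47046, nat_lit 7682] false,
   Spec.mk (nat_lit 27366) (nat_lit 0) [nat_lit 14244, nat_lit 40488, nat_lit 22992, nat_lit 28824, nat_lit 26880, nat_lit 27852, nat_lit 27204, nat_lit 27528, nat_lit 27420, nat_lit 27348, nat_lit 27372, nat_lit 27364] (nat_lit 1) [nat_lit 7684] false,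
   Spec.mk (nat_lit 27370) (nat_lit 0) [nat_lit 14248, nat_lit 40492, nat_lit 22996, nat_lit 28828, nat_lit 26884, nat_lit 27856, nat_lit 27208, nat_lit 27532, nat_lit 27424, nat_lit 27364, nat_lit 27372] (nat_lit 0) [nat_lit 47052, nat_lit 7688] false,
   Spec.mk (nat_lit 27372) (nat_lit 1) [nat_lit 14250, nat_lit 40494, nat_lit 22998, nat_lit 28830, nat_lit 26886, nat_lit 27858, nat_lit 27210, nat_lit 27534, nat_lit 27426, nat_lit 27366, nat_lit 27370] (nat_lit 0) [nat_lit 7690] false,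
   Spec.mk (nat_lit 27386) (nat_lit 0) [nat_lit 14264, nat_lit 40508, nat_lit 23012, nat_lit 28844, nat_lit 26900, nat_lit 27872, nat_lit 27548, nat_lit 27332, nat_lit 27392] (nat_lit 0) [nat_lit 47068] false,
   Spec.mk (nat_lit 27392) (nat_lit 0) [nat_lit 14270, nat_lit 40514, nat_lit 23018, nat_lit 28850, nat_lit 26906, nat_lit 27878, nat_lit 27554, nat_lit 27338, nat_lit 27410, nat_lit 27386, nat_lit 27398, nat_lit 27394] (nat_lit 1) [nat_lit 47074] false,
   Spec.mk (nat_lit 27394) (nat_lit 0) [nat_lit 14272, nat_lit 40516, nat_lit 23020, nat_lit 28852, nat_lit 26908, nat_lit 27880, nat_lit 27556, nat_lit 27340, nat_lit 27412, nat_lit 27400, nat_lit 27392] (nat_lit 1) [nat_lit 47076, nat_lit 7712] false,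
   Spec.mk (nat_lit 27398) (nat_lit 0) [nat_lit 14276, nat_lit 40520, nat_lit 23024, nat_lit 28856, nat_lit 26912, nat_lit 27884, nat_lit 27560, nat_lit 27344, nat_lit 27416, nat_lit 27392, nat_lit 27400] (nat_lit 4) [nat_lit 47080] false,
   Spec.mk (nat_lit 27400) (nat_lit 0) [nat_lit 14278, nat_lit 40522, nat_lit 23026, nat_lit 28858, nat_lit 26914, nat_lit 27886, nat_lit 27562, nat_lit 27346, nat_lit 27418, nat_lit 27394, nat_lit 27398, nat_lit 27402] (nat_lit 2) [nat_lit 47082, nat_lit 7718] false,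
   Spec.mk (nat_lit 27402) (nat_lit 0) [nat_lit 14280, nat_lit 40524, nat_lit 23028, nat_lit 28860, nat_lit 26916, nat_lit 27888, nat_lit 27564, nat_lit 27348, nat_lit 27420, nat_lit 27400] (nat_lit 2) [nat_lit 7720] false,
   Spec.mk (nat_lit 27410) (nat_lit 0) [nat_lit 14288, nat_lit 40532, nat_lit 23036, nat_lit 28868, nat_lit 26924, nat_lit 27896, nat_lit 27572, nat_lit 27356, nat_lit 27392, nat_lit 27416, nat_lit 27412] (nat_lit 0) [nat_lit 47092] false,
   Spec.mk (nat_lit 27412) (nat_lit 0) [nat_lit 14290, nat_lit 40534, nat_lit 23038, nat_lit 28870, nat_lit 26926, nat_lit 27898, nat_lit 27574, nat_lit 27358, nat_lit 27394, nat_lit 27418, nat_lit 27410] (nat_lit 1) [nat_lit 47094, nat_lit 7730] false,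
   Spec.mk (nat_lit 27416) (nat_lit 0) [nat_lit 14294, nat_lit 40538, nat_lit 23042, nat_lit 28874, nat_lit 26930, nat_lit 27902, nat_lit 27578, nat_lit 27362, nat_lit 27398, nat_lit 27434, nat_lit 27410, nat_lit 27418] (nat_lit 1) [nat_lit 47098] false,
   Spec.mk (nat_lit 27418) (nat_lit 0) [nat_lit 14296, nat_lit 40540, nat_lit 23044, nat_lit 28876, nat_lit 26932, nat_lit 27904, nat_lit 27580, nat_lit 27364, nat_lit 27400, nat_lit 27436, nat_lit 27412, nat_lit 27424, nat_lit 27416, nat_lit 27420] (nat_lit 0) [nat_lit 47100, nat_lit 7736] false,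
   Spec.mk (nat_lit 27420) (nat_lit 0) [nat_lit 14298, nat_lit 40542, nat_lit 23046, nat_lit 28878, nat_lit 26934, nat_lit 27906, nat_lit 27582, nat_lit 27366, nat_lit 27402, nat_lit 27438, nat_lit 27426, nat_lit 27418] (nat_lit 1) [nat_lit 7738] false]

noncomputable def sp68 : List Spec :=
  [Spec.mk (nat_lit 27424) (nat_lit 0) [nat_lit 14302, nat_lit 40546, nat_lit 23050, nat_lit 28882, nat_lit 26938, nat_lit 27910, nat_lit 27586, nat_lit 27370, nat_lit 27442, nat_lit 27418, nat_lit 27426] (nat_lit 1) [nat_lit 47106, nat_lit 7742] false,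
   Spec.mk (nat_lit 27426) (nat_lit 0) [nat_lit 14304, nat_lit 40548, nat_lit 23052, nat_lit 28884, nat_lit 26940, nat_lit 27912, nat_lit 27588, nat_lit 27372, nat_lit 27444, nat_lit 27420, nat_lit 27424] (nat_lit 0) [nat_lit 7744] false,
   Spec.mk (nat_lit 27434) (nat_lit 0) [nat_lit 14312, nat_lit 40556, nat_lit 23060, nat_lit 28892, nat_lit 26948, nat_lit 27920, nat_lit 27596, nat_lit 27416, nat_lit 27436] (nat_lit 0) [nat_lit 47116] false,
   Spec.mk (nat_lit 27436) (nat_lit 0) [nat_lit 14314, nat_lit 40558, nat_lit 23062, nat_lit 28894, nat_lit 26950, nat_lit 27922, nat_lit 27598, nat_lit 27418, nat_lit 27442, nat_lit 27434, nat_lit 27438] (nat_lit 0) [nat_lit 47118, nat_lit 7754] false,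
   Spec.mk (nat_lit 27438) (nat_lit 0) [nat_lit 14316, nat_lit 40560, nat_lit 23064, nat_lit 28896, nat_lit 26952, nat_lit 27924, nat_lit 27600, nat_lit 27420, nat_lit 27444, nat_lit 27436] (nat_lit 2) [nat_lit 7756] false,
   Spec.mk (nat_lit 27442) (nat_lit 1) [nat_lit 14320, nat_lit 40564, nat_lit 23068, nat_lit 28900, nat_lit 26956, nat_lit 27928, nat_lit 27604, nat_lit 27424, nat_lit 27436, nat_lit 27444] (nat_lit 0) [nat_lit 47124, nat_lit 7760] false,
   Spec.mk (nat_lit 27444) (nat_lit 1) [nat_lit 14322, nat_lit 40566, nat_lit 23070, nat_lit 28902, nat_lit 26958, nat_lit 27930, nat_lit 27606, nat_lit 27426, nat_lit 27438, nat_lit 27450, nat_lit 27442] (nat_lit 0) [nat_lit 7762] false,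
   Spec.mk (nat_lit 27450) (nat_lit 2) [nat_lit 14328, nat_lit 40572, nat_lit 23076, nat_lit 28908, nat_lit 26964, nat_lit 27936, nat_lit 27612, nat_lit 27444] (nat_lit 0) [nat_lit 7768] false,
   Spec.mk (nat_lit 27476) (nat_lit 1) [nat_lit 14354, nat_lit 40598, nat_lit 23102, nat_lit 28934, nat_lit 27962, nat_lit 27314, nat_lit 27494, nat_lit 27482] (nat_lit 0) [nat_lit 47158] false,
   Spec.mk (nat_lit 27482) (nat_lit 0) [nat_lit 14360, nat_lit 40604, nat_lit 23108, nat_lit 28940, nat_lit 27968, nat_lit 27320, nat_lit 27500, nat_lit 27476, nat_lit 27484] (nat_lit 1) [nat_lit 47164] false,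
   Spec.mk (nat_lit 27484) (nat_lit 0) [nat_lit 14362, nat_lit 40606, nat_lit 23110, nat_lit 28942, nat_lit 27970, nat_lit 27322, nat_lit 27502, nat_lit 27482] (nat_lit 0) [nat_lit 47166, nat_lit 7802] false,
   Spec.mk (nat_lit 27494) (nat_lit 0) [nat_lit 14372, nat_lit 40616, nat_lit 23120, nat_lit 28952, nat_lit 27980, nat_lit 27332, nat_lit 27548, nat_lit 27476, nat_lit 27500] (nat_lit 1) [nat_lit 47176] false,
   Spec.mk (nat_lit 27500) (nat_lit 0) [nat_lit 14378, nat_lit 40622, nat_lit 23126, nat_lit 28958, nat_lit 27986, nat_lit 27338, nat_lit 27554, nat_lit 27482, nat_lit 27518, nat_lit 27494, nat_lit 27506, nat_lit 27502] (nat_lit 1) [nat_lit 47182] false,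
   Spec.mk (nat_lit 27502) (nat_lit 0) [nat_lit 14380, nat_lit 40624, nat_lit 23128, nat_lit 28960, nat_lit 27988, nat_lit 27340, nat_lit 27556, nat_lit 27484, nat_lit 27520, nat_lit 27508, nat_lit 27500] (nat_lit 1) [nat_lit 47184, nat_lit 7820] false,
   Spec.mk (nat_lit 27506) (nat_lit 0) [nat_lit 14384, nat_lit 40628, nat_lit 23132, nat_lit 28964, nat_lit 27992, nat_lit 27344, nat_lit 27560, nat_lit 27524, nat_lit 27500, nat_lit 27508] (nat_lit 3) [nat_lit 47188] false,
   Spec.mk (nat_lit 27508) (nat_lit 0) [nat_lit 14386, nat_lit 40630, nat_lit 23134, nat_lit 28966, nat_lit 27994, nat_lit 27346, nat_lit 27562, nat_lit 27526, nat_lit 27502, nat_lit 27506, nat_lit 27510] (nat_lit 1) [nat_lit 47190, nat_lit 7826] false,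
   Spec.mk (nat_lit 27510) (nat_lit 0) [nat_lit 14388, nat_lit 40632, nat_lit 23136, nat_lit 28968, nat_lit 27996, nat_lit 27348, nat_lit 27564, nat_lit 27528, nat_lit 27508] (nat_lit 1) [nat_lit 7828] false,
   Spec.mk (nat_lit 27518) (nat_lit 0) [nat_lit 14396, nat_lit 40640, nat_lit 23144, nat_lit 28976, nat_lit 28004, nat_lit 27356, nat_lit 27572, nat_lit 27500, nat_lit 27524, nat_lit 27520] (nat_lit 3) [nat_lit 47200] false,
   Spec.mk (nat_lit 27520) (nat_lit 0) [nat_lit 14398, nat_lit 40642, nat_lit 23146, nat_lit 28978, nat_lit 28006, nat_lit 27358, nat_lit 27574, nat_lit 27502, nat_lit 27526, nat_lit 27518] (nat_lit 4) [nat_lit 47202, nat_lit 7838] false,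
   Spec.mk (nat_lit 27524) (nat_lit 0) [nat_lit 14402, nat_lit 40646, nat_lit 23150, nat_lit 28982, nat_lit 28010, nat_lit 27362, nat_lit 27578, nat_lit 27506, nat_lit 27518, nat_lit 27526] (nat_lit 3) [nat_lit 47206] false,
   Spec.mk (nat_lit 27526) (nat_lit 0) [nat_lit 14404, nat_lit 40648, nat_lit 23152, nat_lit 28984, nat_lit 28012, nat_lit 27364, nat_lit 27580, nat_lit 27508, nat_lit 27520, nat_lit 27532, nat_lit 27524, nat_lit 27528] (nat_lit 2) [nat_lit 47208, nat_lit 7844] false,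
   Spec.mk (nat_lit 27528) (nat_lit 0) [nat_lit 14406, nat_lit 40650, nat_lit 23154, nat_lit 28986, nat_lit 28014, nat_lit 27366, nat_lit 27582, nat_lit 27510, nat_lit 27534, nat_lit 27526] (nat_lit 3) [nat_lit 7846] false,
   Spec.mk (nat_lit 27532) (nat_lit 0) [nat_lit 14410, nat_lit 40654, nat_lit 23158, nat_lit 28990, nat_lit 28018, nat_lit 27370, nat_lit 27586, nat_lit 27526, nat_lit 27534] (nat_lit 2) [nat_lit 47214, nat_lit 7850] false,
   Spec.mk (nat_lit 27534) (nat_lit 0) [nat_lit 14412, nat_lit 40656, nat_lit 23160, nat_lit 28992, nat_lit 28020, nat_lit 27372, nat_lit 27588, nat_lit 27528, nat_lit 27532] (nat_lit 1) [nat_lit 7852] false,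
   Spec.mk (nat_lit 27548) (nat_lit 1) [nat_lit 14426, nat_lit 40670, nat_lit 23174, nat_lit 29006, nat_lit 28034, nat_lit 27386, nat_lit 27494, nat_lit 27554] (nat_lit 0) [nat_lit 47230] false,
   Spec.mk (nat_lit 27554) (nat_lit 0) [nat_lit 14432, nat_lit 40676, nat_lit 23180, nat_lit 29012, nat_lit 28040, nat_lit 27392, nat_lit 27500, nat_lit 27572, nat_lit 27548, nat_lit 27560, nat_lit 27556] (nat_lit 0) [nat_lit 47236] false,
   Spec.mk (nat_lit 27556) (nat_lit 0) [nat_lit 14434, nat_lit 40678, nat_lit 23182, nat_lit 29014, nat_lit 28042, nat_lit 27394, nat_lit 27502, nat_lit 27574, nat_lit 27562, nat_lit 27554] (nat_lit 0) [nat_lit 47238, nat_lit 7874] false,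
   Spec.mk (nat_lit 27560) (nat_lit 0) [nat_lit 14438, nat_lit 40682, nat_lit 23186, nat_lit 29018, nat_lit 28046, nat_lit 27398, nat_lit 27506, nat_lit 27578, nat_lit 27554, nat_lit 27562] (nat_lit 3) [nat_lit 47242] false,
   Spec.mk (nat_lit 27562) (nat_lit 0) [nat_lit 14440, nat_lit 40684, nat_lit 23188, nat_lit 29020, nat_lit 28048, nat_lit 27400, nat_lit 27508, nat_lit 27580, nat_lit 27556, nat_lit 27560, nat_lit 27564] (nat_lit 1) [nat_lit 47244, nat_lit 7880] false,
   Spec.mk (nat_lit 27564) (nat_lit 0) [nat_lit 14442, nat_lit 40686, nat_lit 23190, nat_lit 29022, nat_lit 28050, nat_lit 27402, nat_lit 27510, nat_lit 27582, nat_lit 27562] (nat_lit 1) [nat_lit 7882] false,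
   Spec.mk (nat_lit 27572) (nat_lit 0) [nat_lit 14450, nat_lit 40694, nat_lit 23198, nat_lit 29030, nat_lit 28058, nat_lit 27410, nat_lit 27518, nat_lit 27626, nat_lit 27554, nat_lit 27578, nat_lit 27574] (nat_lit 0) [nat_lit 47254] false,
   Spec.mk (nat_lit 27574) (nat_lit 0) [nat_lit 14452, nat_lit 40696, nat_lit 23200, nat_lit 29032, nat_lit 28060, nat_lit 27412, nat_lit 27520, nat_lit 27628, nat_lit 27556, nat_lit 27580, nat_lit 27572] (nat_lit 1) [nat_lit 47256, nat_lit 7892] false,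
   Spec.mk (nat_lit 27578) (nat_lit 0) [nat_lit 14456, nat_lit 40700, nat_lit 23204, nat_lit 29036, nat_lit 28064, nat_lit 27416, nat_lit 27524, nat_lit 27632, nat_lit 27560, nat_lit 27596, nat_lit 27572, nat_lit 27580] (nat_lit 1) [nat_lit 47260] false,
   Spec.mk (nat_lit 27580) (nat_lit 0) [nat_lit 14458, nat_lit 40702, nat_lit 23206, nat_lit 29038, nat_lit 28066, nat_lit 27418, nat_lit 27526, nat_lit 27634, nat_lit 27562, nat_lit 27598, nat_lit 27574, nat_lit 27586, nat_lit 27578, nat_lit 27582] (nat_lit 0) [nat_lit 47262, nat_lit 7898] false,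
   Spec.mk (nat_lit 27582) (nat_lit 0) [nat_lit 14460, nat_lit 40704, nat_lit 23208, nat_lit 29040, nat_lit 28068, nat_lit 27420, nat_lit 27528, nat_lit 27636, nat_lit 27564, nat_lit 27600, nat_lit 27588, nat_lit 27580] (nat_lit 1) [nat_lit 7900] false,
   Spec.mk (nat_lit 27586) (nat_lit 0) [nat_lit 14464, nat_lit 40708, nat_lit 23212, nat_lit 29044, nat_lit 28072, nat_lit 27424, nat_lit 27532, nat_lit 27640, nat_lit 27604, nat_lit 27580, nat_lit 27588] (nat_lit 1) [nat_lit 47268, nat_lit 7904] false,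
   Spec.mk (nat_lit 27588) (nat_lit 0) [nat_lit 14466, nat_lit 40710, nat_lit 23214, nat_lit 29046, nat_lit 28074, nat_lit 27426, nat_lit 27534, nat_lit 27642, nat_lit 27606, nat_lit 27582, nat_lit 27586] (nat_lit 0) [nat_lit 7906] false,
   Spec.mk (nat_lit 27596) (nat_lit 0) [nat_lit 14474, nat_lit 40718, nat_lit 23222, nat_lit 29054, nat_lit 28082, nat_lit 27434, nat_lit 27650, nat_lit 27578, nat_lit 27598] (nat_lit 1) [nat_lit 47278] false,
   Spec.mk (nat_lit 27598) (nat_lit 0) [nat_lit 14476, nat_lit 40720, nat_lit 23224, nat_lit 29056, nat_lit 28084, nat_lit 27436, nat_lit 27652, nat_lit 27580, nat_lit 27604, nat_lit 27596, nat_lit 27600] (nat_lit 1) [nat_lit 47280, nat_lit 7916] false,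
   Spec.mk (nat_lit 27600) (nat_lit 0) [nat_lit 14478, nat_lit 40722, nat_lit 23226, nat_lit 29058, nat_lit 28086, nat_lit 27438, nat_lit 27654, nat_lit 27582, nat_lit 27606, nat_lit 27598] (nat_lit 3) [nat_lit 7918] false,
   Spec.mk (nat_lit 27604) (nat_lit 0) [nat_lit 14482, nat_lit 40726, nat_lit 23230, nat_lit 29062, nat_lit 28090, nat_lit 27442, nat_lit 27658, nat_lit 27586, nat_lit 27598, nat_lit 27606] (nat_lit 0) [nat_lit 47286, nat_lit 7922] false,
   Spec.mk (nat_lit 27606) (nat_lit 0) [nat_lit 14484, nat_lit 40728, nat_lit 23232, nat_lit 29064, nat_lit 28092, nat_lit 27444, nat_lit 27660, nat_lit 27588, nat_lit 27600, nat_lit 27612, nat_lit 27604] (nat_lit 0) [nat_lit 7924] false,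
   Spec.mk (nat_lit 27612) (nat_lit 1) [nat_lit 14490, nat_lit 40734, nat_lit 23238, nat_lit 29070, nat_lit 28098, nat_lit 27450, nat_lit 27666, nat_lit 27606] (nat_lit 0) [nat_lit 7930] false,
   Spec.mk (nat_lit 27626) (nat_lit 1) [nat_lit 14504, nat_lit 40748, nat_lit 23252, nat_lit 29084, nat_lit 28112, nat_lit 27572, nat_lit 27632, nat_lit 27628] (nat_lit 0) [nat_lit 47308] false,
   Spec.mk (nat_lit 27628) (nat_lit 0) [nat_lit 14506, nat_lit 40750, nat_lit 23254, nat_lit 29086, nat_lit 28114, nat_lit 27574, nat_lit 27634, nat_lit 27626] (nat_lit 0) [nat_lit 47310, nat_lit 7946] false,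
   Spec.mk (nat_lit 27632) (nat_lit 0) [nat_lit 14510, nat_lit 40754, nat_lit 23258, nat_lit 29090, nat_lit 28118, nat_lit 27578, nat_lit 27650, nat_lit 27626, nat_lit 27634] (nat_lit 1) [nat_lit 47314] false,
   Spec.mk (nat_lit 27634) (nat_lit 0) [nat_lit 14512, nat_lit 40756, nat_lit 23260, nat_lit 29092, nat_lit 28120, nat_lit 27580, nat_lit 27652, nat_lit 27628, nat_lit 27640, nat_lit 27632, nat_lit 27636] (nat_lit 0) [nat_lit 47316, nat_lit 7952] false,
   Spec.mk (nat_lit 27636) (nat_lit 0) [nat_lit 14514, nat_lit 40758, nat_lit 23262, nat_lit 29094, nat_lit 28122, nat_lit 27582, nat_lit 27654, nat_lit 27642, nat_lit 27634] (nat_lit 1) [nat_lit 7954] false,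
   Spec.mk (nat_lit 27640) (nat_lit 0) [nat_lit 14518, nat_lit 40762, nat_lit 23266, nat_lit 29098, nat_lit 28126, nat_lit 27586, nat_lit 27658, nat_lit 27634, nat_lit 27642] (nat_lit 2) [nat_lit 47322, nat_lit 7958] false,
   Spec.mk (nat_lit 27642) (nat_lit 0) [nat_lit 14520, nat_lit 40764, nat_lit 23268, nat_lit 29100, nat_lit 28128, nat_lit 27588, nat_lit 27660, nat_lit 27636, nat_lit 27640] (nat_lit 1) [nat_lit 7960] false,
   Spec.mk (nat_lit 27650) (nat_lit 1) [nat_lit 14528, nat_lit 40772, nat_lit 23276, nat_lit 29108, nat_lit 28136, nat_lit 27596, nat_lit 27632, nat_lit 27652] (nat_lit 0) [nat_lit 47332] false,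
   Spec.mk (nat_lit 27652) (nat_lit 1) [nat_lit 14530, nat_lit 40774, nat_lit 23278, nat_lit 29110, nat_lit 28138, nat_lit 27598, nat_lit 27634, nat_lit 27658, nat_lit 27650, nat_lit 27654] (nat_lit 0) [nat_lit 47334, nat_lit 7970] false,
   Spec.mk (nat_lit 27654) (nat_lit 0) [nat_lit 14532, nat_lit 40776, nat_lit 23280, nat_lit 29112, nat_lit 28140, nat_lit 27600, nat_lit 27636, nat_lit 27660, nat_lit 27652] (nat_lit 1) [nat_lit 7972] false,
   Spec.mk (nat_lit 27658) (nat_lit 1) [nat_lit 14536, nat_lit 40780, nat_lit 23284, nat_lit 29116, nat_lit 28144, nat_lit 27604, nat_lit 27640, nat_lit 27676, nat_lit 27652, nat_lit 27660] (nat_lit 0) [nat_lit 47340, nat_lit 7976] false,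
   Spec.mk (nat_lit 27660) (nat_lit 1) [nat_lit 14538, nat_lit 40782, nat_lit 23286, nat_lit 29118, nat_lit 28146, nat_lit 27606, nat_lit 27642, nat_lit 27678, nat_lit 27654, nat_lit 27666, nat_lit 27658] (nat_lit 0) [nat_lit 7978] false,
   Spec.mk (nat_lit 27666) (nat_lit 1) [nat_lit 14544, nat_lit 40788, nat_lit 23292, nat_lit 29124, nat_lit 28152, nat_lit 27612, nat_lit 27684, nat_lit 27660] (nat_lit 0) [nat_lit 7984] false,
   Spec.mk (nat_lit 27676) (nat_lit 2) [nat_lit 14554, nat_lit 40798, nat_lit 23302, nat_lit 29134, nat_lit 28162, nat_lit 27658, nat_lit 27678] (nat_lit 0) [nat_lit 47358, nat_lit 7994] false,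
   Spec.mk (nat_lit 27678) (nat_lit 1) [nat_lit 14556, nat_lit 40800, nat_lit 23304, nat_lit 29136, nat_lit 28164, nat_lit 27660, nat_lit 27684, nat_lit 27676] (nat_lit 0) [nat_lit 7996] false,
   Spec.mk (nat_lit 27684) (nat_lit 3) [nat_lit 14562, nat_lit 40806, nat_lit 23310, nat_lit 29142, nat_lit 28170, nat_lit 27666, nat_lit 27678] (nat_lit 0) [nat_lit 8002] false,
   Spec.mk (nat_lit 27728) (nat_lit 1) [nat_lit 14606, nat_lit 40850, nat_lit 23354, nat_lit 29186, nat_lit 27242, nat_lit 27746] (nat_lit 0) [nat_lit 47410] false]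

noncomputable def sp69 : List Spec :=
  [Spec.mk (nat_lit 27746) (nat_lit 0) [nat_lit 14624, nat_lit 40868, nat_lit 23372, nat_lit 29204, nat_lit 27260, nat_lit 27800, nat_lit 27728, nat_lit 27764, nat_lit 27752] (nat_lit 0) [nat_lit 47428] false,
   Spec.mk (nat_lit 27752) (nat_lit 0) [nat_lit 14630, nat_lit 40874, nat_lit 23378, nat_lit 29210, nat_lit 27266, nat_lit 27806, nat_lit 27770, nat_lit 27746, nat_lit 27754] (nat_lit 1) [nat_lit 47434] false,
   Spec.mk (nat_lit 27754) (nat_lit 0) [nat_lit 14632, nat_lit 40876, nat_lit 23380, nat_lit 29212, nat_lit 27268, nat_lit 27808, nat_lit 27772, nat_lit 27752] (nat_lit 0) [nat_lit 47436, nat_lit 8072] false,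
   Spec.mk (nat_lit 27764) (nat_lit 0) [nat_lit 14642, nat_lit 40886, nat_lit 23390, nat_lit 29222, nat_lit 27278, nat_lit 27818, nat_lit 27746, nat_lit 27770] (nat_lit 3) [nat_lit 47446] false,
   Spec.mk (nat_lit 27770) (nat_lit 0) [nat_lit 14648, nat_lit 40892, nat_lit 23396, nat_lit 29228, nat_lit 27284, nat_lit 27824, nat_lit 27752, nat_lit 27764, nat_lit 27776, nat_lit 27772] (nat_lit 2) [nat_lit 47452] false,
   Spec.mk (nat_lit 27772) (nat_lit 0) [nat_lit 14650, nat_lit 40894, nat_lit 23398, nat_lit 29230, nat_lit 27286, nat_lit 27826, nat_lit 27754, nat_lit 27778, nat_lit 27770] (nat_lit 2) [nat_lit 47454, nat_lit 8090] false,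
   Spec.mk (nat_lit 27776) (nat_lit 0) [nat_lit 14654, nat_lit 40898, nat_lit 23402, nat_lit 29234, nat_lit 27290, nat_lit 27830, nat_lit 27770, nat_lit 27778] (nat_lit 3) [nat_lit 47458] false,
   Spec.mk (nat_lit 27778) (nat_lit 0) [nat_lit 14656, nat_lit 40900, nat_lit 23404, nat_lit 29236, nat_lit 27292, nat_lit 27832, nat_lit 27772, nat_lit 27776, nat_lit 27780] (nat_lit 1) [nat_lit 47460, nat_lit 8096] false,
   Spec.mk (nat_lit 27780) (nat_lit 0) [nat_lit 14658, nat_lit 40902, nat_lit 23406, nat_lit 29238, nat_lit 27294, nat_lit 27834, nat_lit 27778] (nat_lit 1) [nat_lit 8098] false,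
   Spec.mk (nat_lit 27800) (nat_lit 0) [nat_lit 14678, nat_lit 40922, nat_lit 23426, nat_lit 29258, nat_lit 27314, nat_lit 27962, nat_lit 27746, nat_lit 27818, nat_lit 27806] (nat_lit 1) [nat_lit 47482] false,
   Spec.mk (nat_lit 27806) (nat_lit 0) [nat_lit 14684, nat_lit 40928, nat_lit 23432, nat_lit 29264, nat_lit 27320, nat_lit 27968, nat_lit 27752, nat_lit 27824, nat_lit 27800, nat_lit 27808] (nat_lit 3) [nat_lit 47488] false,
   Spec.mk (nat_lit 27808) (nat_lit 0) [nat_lit 14686, nat_lit 40930, nat_lit 23434, nat_lit 29266, nat_lit 27322, nat_lit 27970, nat_lit 27754, nat_lit 27826, nat_lit 27806] (nat_lit 2) [nat_lit 47490, nat_lit 8126] false,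
   Spec.mk (nat_lit 27818) (nat_lit 0) [nat_lit 14696, nat_lit 40940, nat_lit 23444, nat_lit 29276, nat_lit 27332, nat_lit 27980, nat_lit 27764, nat_lit 27872, nat_lit 27800, nat_lit 27824] (nat_lit 2) [nat_lit 47500] false,
   Spec.mk (nat_lit 27824) (nat_lit 0) [nat_lit 14702, nat_lit 40946, nat_lit 23450, nat_lit 29282, nat_lit 27338, nat_lit 27986, nat_lit 27770, nat_lit 27878, nat_lit 27806, nat_lit 27842, nat_lit 27818, nat_lit 27830, nat_lit 27826] (nat_lit 2) [nat_lit 47506] false,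
   Spec.mk (nat_lit 27826) (nat_lit 0) [nat_lit 14704, nat_lit 40948, nat_lit 23452, nat_lit 29284, nat_lit 27340, nat_lit 27988, nat_lit 27772, nat_lit 27880, nat_lit 27808, nat_lit 27844, nat_lit 27832, nat_lit 27824] (nat_lit 2) [nat_lit 47508, nat_lit 8144] false,
   Spec.mk (nat_lit 27830) (nat_lit 0) [nat_lit 14708, nat_lit 40952, nat_lit 23456, nat_lit 29288, nat_lit 27344, nat_lit 27992, nat_lit 27776, nat_lit 27884, nat_lit 27848, nat_lit 27824, nat_lit 27832] (nat_lit 4) [nat_lit 47512] false,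
   Spec.mk (nat_lit 27832) (nat_lit 0) [nat_lit 14710, nat_lit 40954, nat_lit 23458, nat_lit 29290, nat_lit 27346, nat_lit 27994, nat_lit 27778, nat_lit 27886, nat_lit 27850, nat_lit 27826, nat_lit 27830, nat_lit 27834] (nat_lit 2) [nat_lit 47514, nat_lit 8150] false,
   Spec.mk (nat_lit 27834) (nat_lit 0) [nat_lit 14712, nat_lit 40956, nat_lit 23460, nat_lit 29292, nat_lit 27348, nat_lit 27996, nat_lit 27780, nat_lit 27888, nat_lit 27852, nat_lit 27832] (nat_lit 2) [nat_lit 8152] false,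
   Spec.mk (nat_lit 27842) (nat_lit 0) [nat_lit 14720, nat_lit 40964, nat_lit 23468, nat_lit 29300, nat_lit 27356, nat_lit 28004, nat_lit 27896, nat_lit 27824, nat_lit 27848, nat_lit 27844] (nat_lit 3) [nat_lit 47524] false,
   Spec.mk (nat_lit 27844) (nat_lit 0) [nat_lit 14722, nat_lit 40966, nat_lit 23470, nat_lit 29302, nat_lit 27358, nat_lit 28006, nat_lit 27898, nat_lit 27826, nat_lit 27850, nat_lit 27842] (nat_lit 4) [nat_lit 47526, nat_lit 8162] false,
   Spec.mk (nat_lit 27848) (nat_lit 0) [nat_lit 14726, nat_lit 40970, nat_lit 23474, nat_lit 29306, nat_lit 27362, nat_lit 28010, nat_lit 27902, nat_lit 27830, nat_lit 27842, nat_lit 27850] (nat_lit 3) [nat_lit 47530] false,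
   Spec.mk (nat_lit 27850) (nat_lit 0) [nat_lit 14728, nat_lit 40972, nat_lit 23476, nat_lit 29308, nat_lit 27364, nat_lit 28012, nat_lit 27904, nat_lit 27832, nat_lit 27844, nat_lit 27856, nat_lit 27848, nat_lit 27852] (nat_lit 2) [nat_lit 47532, nat_lit 8168] false,
   Spec.mk (nat_lit 27852) (nat_lit 0) [nat_lit 14730, nat_lit 40974, nat_lit 23478, nat_lit 29310, nat_lit 27366, nat_lit 28014, nat_lit 27906, nat_lit 27834, nat_lit 27858, nat_lit 27850] (nat_lit 3) [nat_lit 8170] false,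
   Spec.mk (nat_lit 27856) (nat_lit 0) [nat_lit 14734, nat_lit 40978, nat_lit 23482, nat_lit 29314, nat_lit 27370, nat_lit 28018, nat_lit 27910, nat_lit 27850, nat_lit 27858] (nat_lit 2) [nat_lit 47538, nat_lit 8174] false,
   Spec.mk (nat_lit 27858) (nat_lit 0) [nat_lit 14736, nat_lit 40980, nat_lit 23484, nat_lit 29316, nat_lit 27372, nat_lit 28020, nat_lit 27912, nat_lit 27852, nat_lit 27856] (nat_lit 1) [nat_lit 8176] false,
   Spec.mk (nat_lit 27872) (nat_lit 0) [nat_lit 14750, nat_lit 40994, nat_lit 23498, nat_lit 29330, nat_lit 27386, nat_lit 28034, nat_lit 27818, nat_lit 27878] (nat_lit 3) [nat_lit 47554] false,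
   Spec.mk (nat_lit 27878) (nat_lit 0) [nat_lit 14756, nat_lit 41000, nat_lit 23504, nat_lit 29336, nat_lit 27392, nat_lit 28040, nat_lit 27824, nat_lit 27896, nat_lit 27872, nat_lit 27884, nat_lit 27880] (nat_lit 4) [nat_lit 47560] false,
   Spec.mk (nat_lit 27880) (nat_lit 0) [nat_lit 14758, nat_lit 41002, nat_lit 23506, nat_lit 29338, nat_lit 27394, nat_lit 28042, nat_lit 27826, nat_lit 27898, nat_lit 27886, nat_lit 27878] (nat_lit 4) [nat_lit 47562, nat_lit 8198] false,
   Spec.mk (nat_lit 27884) (nat_lit 0) [nat_lit 14762, nat_lit 41006, nat_lit 23510, nat_lit 29342, nat_lit 27398, nat_lit 28046, nat_lit 27830, nat_lit 27902, nat_lit 27878, nat_lit 27886] (nat_lit 7) [nat_lit 47566] false,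
   Spec.mk (nat_lit 27886) (nat_lit 0) [nat_lit 14764, nat_lit 41008, nat_lit 23512, nat_lit 29344, nat_lit 27400, nat_lit 28048, nat_lit 27832, nat_lit 27904, nat_lit 27880, nat_lit 27884, nat_lit 27888] (nat_lit 5) [nat_lit 47568, nat_lit 8204] false,
   Spec.mk (nat_lit 27888) (nat_lit 0) [nat_lit 14766, nat_lit 41010, nat_lit 23514, nat_lit 29346, nat_lit 27402, nat_lit 28050, nat_lit 27834, nat_lit 27906, nat_lit 27886] (nat_lit 5) [nat_lit 8206] false,
   Spec.mk (nat_lit 27896) (nat_lit 0) [nat_lit 14774, nat_lit 41018, nat_lit 23522, nat_lit 29354, nat_lit 27410, nat_lit 28058, nat_lit 27842, nat_lit 27878, nat_lit 27902, nat_lit 27898] (nat_lit 3) [nat_lit 47578] false,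
   Spec.mk (nat_lit 27898) (nat_lit 0) [nat_lit 14776, nat_lit 41020, nat_lit 23524, nat_lit 29356, nat_lit 27412, nat_lit 28060, nat_lit 27844, nat_lit 27880, nat_lit 27904, nat_lit 27896] (nat_lit 4) [nat_lit 47580, nat_lit 8216] false,
   Spec.mk (nat_lit 27902) (nat_lit 0) [nat_lit 14780, nat_lit 41024, nat_lit 23528, nat_lit 29360, nat_lit 27416, nat_lit 28064, nat_lit 27848, nat_lit 27884, nat_lit 27920, nat_lit 27896, nat_lit 27904] (nat_lit 4) [nat_lit 47584] false,
   Spec.mk (nat_lit 27904) (nat_lit 0) [nat_lit 14782, nat_lit 41026, nat_lit 23530, nat_lit 29362, nat_lit 27418, nat_lit 28066, nat_lit 27850, nat_lit 27886, nat_lit 27922, nat_lit 27898, nat_lit 27910, nat_lit 27902, nat_lit 27906] (nat_lit 3) [nat_lit 47586, nat_lit 8222] false,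
   Spec.mk (nat_lit 27906) (nat_lit 0) [nat_lit 14784, nat_lit 41028, nat_lit 23532, nat_lit 29364, nat_lit 27420, nat_lit 28068, nat_lit 27852, nat_lit 27888, nat_lit 27924, nat_lit 27912, nat_lit 27904] (nat_lit 4) [nat_lit 8224] false,
   Spec.mk (nat_lit 27910) (nat_lit 0) [nat_lit 14788, nat_lit 41032, nat_lit 23536, nat_lit 29368, nat_lit 27424, nat_lit 28072, nat_lit 27856, nat_lit 27928, nat_lit 27904, nat_lit 27912] (nat_lit 4) [nat_lit 47592, nat_lit 8228] false,
   Spec.mk (nat_lit 27912) (nat_lit 0) [nat_lit 14790, nat_lit 41034, nat_lit 23538, nat_lit 29370, nat_lit 27426, nat_lit 28074, nat_lit 27858, nat_lit 27930, nat_lit 27906, nat_lit 27910] (nat_lit 3) [nat_lit 8230] false,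
   Spec.mk (nat_lit 27920) (nat_lit 0) [nat_lit 14798, nat_lit 41042, nat_lit 23546, nat_lit 29378, nat_lit 27434, nat_lit 28082, nat_lit 27902, nat_lit 27922] (nat_lit 3) [nat_lit 47602] false,
   Spec.mk (nat_lit 27922) (nat_lit 0) [nat_lit 14800, nat_lit 41044, nat_lit 23548, nat_lit 29380, nat_lit 27436, nat_lit 28084, nat_lit 27904, nat_lit 27928, nat_lit 27920, nat_lit 27924] (nat_lit 3) [nat_lit 47604, nat_lit 8240] false,
   Spec.mk (nat_lit 27924) (nat_lit 0) [nat_lit 14802, nat_lit 41046, nat_lit 23550, nat_lit 29382, nat_lit 27438, nat_lit 28086, nat_lit 27906, nat_lit 27930, nat_lit 27922] (nat_lit 5) [nat_lit 8242] false,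
   Spec.mk (nat_lit 27928) (nat_lit 0) [nat_lit 14806, nat_lit 41050, nat_lit 23554, nat_lit 29386, nat_lit 27442, nat_lit 28090, nat_lit 27910, nat_lit 27922, nat_lit 27930] (nat_lit 2) [nat_lit 47610, nat_lit 8246] false,
   Spec.mk (nat_lit 27930) (nat_lit 0) [nat_lit 14808, nat_lit 41052, nat_lit 23556, nat_lit 29388, nat_lit 27444, nat_lit 28092, nat_lit 27912, nat_lit 27924, nat_lit 27936, nat_lit 27928] (nat_lit 2) [nat_lit 8248] false,
   Spec.mk (nat_lit 27936) (nat_lit 0) [nat_lit 14814, nat_lit 41058, nat_lit 23562, nat_lit 29394, nat_lit 27450, nat_lit 28098, nat_lit 27930] (nat_lit 1) [nat_lit 8254] false,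
   Spec.mk (nat_lit 27962) (nat_lit 1) [nat_lit 14840, nat_lit 41084, nat_lit 23588, nat_lit 29420, nat_lit 27476, nat_lit 27800, nat_lit 27980, nat_lit 27968] (nat_lit 0) [nat_lit 47644] false,
   Spec.mk (nat_lit 27968) (nat_lit 0) [nat_lit 14846, nat_lit 41090, nat_lit 23594, nat_lit 29426, nat_lit 27482, nat_lit 27806, nat_lit 27986, nat_lit 27962, nat_lit 27970] (nat_lit 1) [nat_lit 47650] false,
   Spec.mk (nat_lit 27970) (nat_lit 0) [nat_lit 14848, nat_lit 41092, nat_lit 23596, nat_lit 29428, nat_lit 27484, nat_lit 27808, nat_lit 27988, nat_lit 27968] (nat_lit 0) [nat_lit 47652, nat_lit 8288] false,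
   Spec.mk (nat_lit 27980) (nat_lit 0) [nat_lit 14858, nat_lit 41102, nat_lit 23606, nat_lit 29438, nat_lit 27494, nat_lit 27818, nat_lit 28034, nat_lit 27962, nat_lit 27986] (nat_lit 1) [nat_lit 47662] false,
   Spec.mk (nat_lit 27986) (nat_lit 0) [nat_lit 14864, nat_lit 41108, nat_lit 23612, nat_lit 29444, nat_lit 27500, nat_lit 27824, nat_lit 28040, nat_lit 27968, nat_lit 28004, nat_lit 27980, nat_lit 27992, nat_lit 27988] (nat_lit 1) [nat_lit 47668] false,
   Spec.mk (nat_lit 27988) (nat_lit 0) [nat_lit 14866, nat_lit 41110, nat_lit 23614, nat_lit 29446, nat_lit 27502, nat_lit 27826, nat_lit 28042, nat_lit 27970, nat_lit 28006, nat_lit 27994, nat_lit 27986] (nat_lit 1) [nat_lit 47670, nat_lit 8306] false,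
   Spec.mk (nat_lit 27992) (nat_lit 0) [nat_lit 14870, nat_lit 41114, nat_lit 23618, nat_lit 29450, nat_lit 27506, nat_lit 27830, nat_lit 28046, nat_lit 28010, nat_lit 27986, nat_lit 27994] (nat_lit 3) [nat_lit 47674] false,
   Spec.mk (nat_lit 27994) (nat_lit 0) [nat_lit 14872, nat_lit 41116, nat_lit 23620, nat_lit 29452, nat_lit 27508, nat_lit 27832, nat_lit 28048, nat_lit 28012, nat_lit 27988, nat_lit 27992, nat_lit 27996] (nat_lit 1) [nat_lit 47676, nat_lit 8312] false,
   Spec.mk (nat_lit 27996) (nat_lit 0) [nat_lit 14874, nat_lit 41118, nat_lit 23622, nat_lit 29454, nat_lit 27510, nat_lit 27834, nat_lit 28050, nat_lit 28014, nat_lit 27994] (nat_lit 1) [nat_lit 8314] false,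
   Spec.mk (nat_lit 28004) (nat_lit 0) [nat_lit 14882, nat_lit 41126, nat_lit 23630, nat_lit 29462, nat_lit 27518, nat_lit 27842, nat_lit 28058, nat_lit 27986, nat_lit 28010, nat_lit 28006] (nat_lit 3) [nat_lit 47686] false,
   Spec.mk (nat_lit 28006) (nat_lit 0) [nat_lit 14884, nat_lit 41128, nat_lit 23632, nat_lit 29464, nat_lit 27520, nat_lit 27844, nat_lit 28060, nat_lit 27988, nat_lit 28012, nat_lit 28004] (nat_lit 4) [nat_lit 47688, nat_lit 8324] false,
   Spec.mk (nat_lit 28010) (nat_lit 0) [nat_lit 14888, nat_lit 41132, nat_lit 23636, nat_lit 29468, nat_lit 27524, nat_lit 27848, nat_lit 28064, nat_lit 27992, nat_lit 28004, nat_lit 28012] (nat_lit 3) [nat_lit 47692] false,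
   Spec.mk (nat_lit 28012) (nat_lit 0) [nat_lit 14890, nat_lit 41134, nat_lit 23638, nat_lit 29470, nat_lit 27526, nat_lit 27850, nat_lit 28066, nat_lit 27994, nat_lit 28006, nat_lit 28018, nat_lit 28010, nat_lit 28014] (nat_lit 2) [nat_lit 47694, nat_lit 8330] false,
   Spec.mk (nat_lit 28014) (nat_lit 0) [nat_lit 14892, nat_lit 41136, nat_lit 23640, nat_lit 29472, nat_lit 27528, nat_lit 27852, nat_lit 28068, nat_lit 27996, nat_lit 28020, nat_lit 28012] (nat_lit 3) [nat_lit 8332] false,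
   Spec.mk (nat_lit 28018) (nat_lit 0) [nat_lit 14896, nat_lit 41140, nat_lit 23644, nat_lit 29476, nat_lit 27532, nat_lit 27856, nat_lit 28072, nat_lit 28012, nat_lit 28020] (nat_lit 2) [nat_lit 47700, nat_lit 8336] false,
   Spec.mk (nat_lit 28020) (nat_lit 0) [nat_lit 14898, nat_lit 41142, nat_lit 23646, nat_lit 29478, nat_lit 27534, nat_lit 27858, nat_lit 28074, nat_lit 28014, nat_lit 28018] (nat_lit 1) [nat_lit 8338] false]

noncomputable def sp70 : List Spec :=
  [Spec.mk (nat_lit 28034) (nat_lit 0) [nat_lit 14912, nat_lit 41156, nat_lit 23660, nat_lit 29492, nat_lit 27548, nat_lit 27872, nat_lit 28196, nat_lit 27980, nat_lit 28040] (nat_lit 0) [nat_lit 47716] false,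
   Spec.mk (nat_lit 28040) (nat_lit 0) [nat_lit 14918, nat_lit 41162, nat_lit 23666, nat_lit 29498, nat_lit 27554, nat_lit 27878, nat_lit 28202, nat_lit 27986, nat_lit 28058, nat_lit 28034, nat_lit 28046, nat_lit 28042] (nat_lit 1) [nat_lit 47722] false,
   Spec.mk (nat_lit 28042) (nat_lit 0) [nat_lit 14920, nat_lit 41164, nat_lit 23668, nat_lit 29500, nat_lit 27556, nat_lit 27880, nat_lit 28204, nat_lit 27988, nat_lit 28060, nat_lit 28048, nat_lit 28040] (nat_lit 1) [nat_lit 47724, nat_lit 8360] false,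
   Spec.mk (nat_lit 28046) (nat_lit 0) [nat_lit 14924, nat_lit 41168, nat_lit 23672, nat_lit 29504, nat_lit 27560, nat_lit 27884, nat_lit 28208, nat_lit 27992, nat_lit 28064, nat_lit 28040, nat_lit 28048] (nat_lit 4) [nat_lit 47728] false,
   Spec.mk (nat_lit 28048) (nat_lit 0) [nat_lit 14926, nat_lit 41170, nat_lit 23674, nat_lit 29506, nat_lit 27562, nat_lit 27886, nat_lit 28210, nat_lit 27994, nat_lit 28066, nat_lit 28042, nat_lit 28046, nat_lit 28050] (nat_lit 2) [nat_lit 47730, nat_lit 8366] false,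
   Spec.mk (nat_lit 28050) (nat_lit 0) [nat_lit 14928, nat_lit 41172, nat_lit 23676, nat_lit 29508, nat_lit 27564, nat_lit 27888, nat_lit 28212, nat_lit 27996, nat_lit 28068, nat_lit 28048] (nat_lit 2) [nat_lit 8368] false,
   Spec.mk (nat_lit 28058) (nat_lit 0) [nat_lit 14936, nat_lit 41180, nat_lit 23684, nat_lit 29516, nat_lit 27572, nat_lit 27896, nat_lit 28220, nat_lit 28004, nat_lit 28112, nat_lit 28040, nat_lit 28064, nat_lit 28060] (nat_lit 1) [nat_lit 47740] false,
   Spec.mk (nat_lit 28060) (nat_lit 0) [nat_lit 14938, nat_lit 41182, nat_lit 23686, nat_lit 29518, nat_lit 27574, nat_lit 27898, nat_lit 28222, nat_lit 28006, nat_lit 28114, nat_lit 28042, nat_lit 28066, nat_lit 28058] (nat_lit 2) [nat_lit 47742, nat_lit 8378] false,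
   Spec.mk (nat_lit 28064) (nat_lit 0) [nat_lit 14942, nat_lit 41186, nat_lit 23690, nat_lit 29522, nat_lit 27578, nat_lit 27902, nat_lit 28226, nat_lit 28010, nat_lit 28118, nat_lit 28046, nat_lit 28082, nat_lit 28058, nat_lit 28066] (nat_lit 2) [nat_lit 47746] false,
   Spec.mk (nat_lit 28066) (nat_lit 0) [nat_lit 14944, nat_lit 41188, nat_lit 23692, nat_lit 29524, nat_lit 27580, nat_lit 27904, nat_lit 28228, nat_lit 28012, nat_lit 28120, nat_lit 28048, nat_lit 28084, nat_lit 28060, nat_lit 28072, nat_lit 28064, nat_lit 28068] (nat_lit 1) [nat_lit 47748, nat_lit 8384] false,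
   Spec.mk (nat_lit 28068) (nat_lit 0) [nat_lit 14946, nat_lit 41190, nat_lit 23694, nat_lit 29526, nat_lit 27582, nat_lit 27906, nat_lit 28230, nat_lit 28014, nat_lit 28122, nat_lit 28050, nat_lit 28086, nat_lit 28074, nat_lit 28066] (nat_lit 2) [nat_lit 8386] false,
   Spec.mk (nat_lit 28072) (nat_lit 0) [nat_lit 14950, nat_lit 41194, nat_lit 23698, nat_lit 29530, nat_lit 27586, nat_lit 27910, nat_lit 28234, nat_lit 28018, nat_lit 28126, nat_lit 28090, nat_lit 28066, nat_lit 28074] (nat_lit 2) [nat_lit 47754, nat_lit 8390] false,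
   Spec.mk (nat_lit 28074) (nat_lit 0) [nat_lit 14952, nat_lit 41196, nat_lit 23700, nat_lit 29532, nat_lit 27588, nat_lit 27912, nat_lit 28236, nat_lit 28020, nat_lit 28128, nat_lit 28092, nat_lit 28068, nat_lit 28072] (nat_lit 1) [nat_lit 8392] false,
   Spec.mk (nat_lit 28082) (nat_lit 0) [nat_lit 14960, nat_lit 41204, nat_lit 23708, nat_lit 29540, nat_lit 27596, nat_lit 27920, nat_lit 28244, nat_lit 28136, nat_lit 28064, nat_lit 28084] (nat_lit 2) [nat_lit 47764] false,
   Spec.mk (nat_lit 28084) (nat_lit 0) [nat_lit 14962, nat_lit 41206, nat_lit 23710, nat_lit 29542, nat_lit 27598, nat_lit 27922, nat_lit 28246, nat_lit 28138, nat_lit 28066, nat_lit 28090, nat_lit 28082, nat_lit 28086] (nat_lit 2) [nat_lit 47766, nat_lit 8402] false,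
   Spec.mk (nat_lit 28086) (nat_lit 0) [nat_lit 14964, nat_lit 41208, nat_lit 23712, nat_lit 29544, nat_lit 27600, nat_lit 27924, nat_lit 28248, nat_lit 28140, nat_lit 28068, nat_lit 28092, nat_lit 28084] (nat_lit 4) [nat_lit 8404] false,
   Spec.mk (nat_lit 28090) (nat_lit 0) [nat_lit 14968, nat_lit 41212, nat_lit 23716, nat_lit 29548, nat_lit 27604, nat_lit 27928, nat_lit 28252, nat_lit 28144, nat_lit 28072, nat_lit 28084, nat_lit 28092] (nat_lit 1) [nat_lit 47772, nat_lit 8408] false,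
   Spec.mk (nat_lit 28092) (nat_lit 0) [nat_lit 14970, nat_lit 41214, nat_lit 23718, nat_lit 29550, nat_lit 27606, nat_lit 27930, nat_lit 28254, nat_lit 28146, nat_lit 28074, nat_lit 28086, nat_lit 28098, nat_lit 28090] (nat_lit 1) [nat_lit 8410] false,
   Spec.mk (nat_lit 28098) (nat_lit 0) [nat_lit 14976, nat_lit 41220, nat_lit 23724, nat_lit 29556, nat_lit 27612, nat_lit 27936, nat_lit 28260, nat_lit 28152, nat_lit 28092] (nat_lit 0) [nat_lit 8416] false,
   Spec.mk (nat_lit 28112) (nat_lit 0) [nat_lit 14990, nat_lit 41234, nat_lit 23738, nat_lit 29570, nat_lit 27626, nat_lit 28274, nat_lit 28058, nat_lit 28118, nat_lit 28114] (nat_lit 1) [nat_lit 47794] false,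
   Spec.mk (nat_lit 28114) (nat_lit 0) [nat_lit 14992, nat_lit 41236, nat_lit 23740, nat_lit 29572, nat_lit 27628, nat_lit 28276, nat_lit 28060, nat_lit 28120, nat_lit 28112] (nat_lit 2) [nat_lit 47796, nat_lit 8432] false,
   Spec.mk (nat_lit 28118) (nat_lit 0) [nat_lit 14996, nat_lit 41240, nat_lit 23744, nat_lit 29576, nat_lit 27632, nat_lit 28280, nat_lit 28064, nat_lit 28136, nat_lit 28112, nat_lit 28120] (nat_lit 3) [nat_lit 47800] false,
   Spec.mk (nat_lit 28120) (nat_lit 0) [nat_lit 14998, nat_lit 41242, nat_lit 23746, nat_lit 29578, nat_lit 27634, nat_lit 28282, nat_lit 28066, nat_lit 28138, nat_lit 28114, nat_lit 28126, nat_lit 28118, nat_lit 28122] (nat_lit 2) [nat_lit 47802, nat_lit 8438] false,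
   Spec.mk (nat_lit 28122) (nat_lit 0) [nat_lit 15000, nat_lit 41244, nat_lit 23748, nat_lit 29580, nat_lit 27636, nat_lit 28284, nat_lit 28068, nat_lit 28140, nat_lit 28128, nat_lit 28120] (nat_lit 3) [nat_lit 8440] false,
   Spec.mk (nat_lit 28126) (nat_lit 0) [nat_lit 15004, nat_lit 41248, nat_lit 23752, nat_lit 29584, nat_lit 27640, nat_lit 28288, nat_lit 28072, nat_lit 28144, nat_lit 28120, nat_lit 28128] (nat_lit 4) [nat_lit 47808, nat_lit 8444] false,
   Spec.mk (nat_lit 28128) (nat_lit 0) [nat_lit 15006, nat_lit 41250, nat_lit 23754, nat_lit 29586, nat_lit 27642, nat_lit 28290, nat_lit 28074, nat_lit 28146, nat_lit 28122, nat_lit 28126] (nat_lit 3) [nat_lit 8446] false,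
   Spec.mk (nat_lit 28136) (nat_lit 0) [nat_lit 15014, nat_lit 41258, nat_lit 23762, nat_lit 29594, nat_lit 27650, nat_lit 28298, nat_lit 28082, nat_lit 28118, nat_lit 28138] (nat_lit 1) [nat_lit 47818] false,
   Spec.mk (nat_lit 28138) (nat_lit 0) [nat_lit 15016, nat_lit 41260, nat_lit 23764, nat_lit 29596, nat_lit 27652, nat_lit 28300, nat_lit 28084, nat_lit 28120, nat_lit 28144, nat_lit 28136, nat_lit 28140] (nat_lit 1) [nat_lit 47820, nat_lit 8456] false,
   Spec.mk (nat_lit 28140) (nat_lit 0) [nat_lit 15018, nat_lit 41262, nat_lit 23766, nat_lit 29598, nat_lit 27654, nat_lit 28302, nat_lit 28086, nat_lit 28122, nat_lit 28146, nat_lit 28138] (nat_lit 3) [nat_lit 8458] false,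
   Spec.mk (nat_lit 28144) (nat_lit 0) [nat_lit 15022, nat_lit 41266, nat_lit 23770, nat_lit 29602, nat_lit 27658, nat_lit 28306, nat_lit 28090, nat_lit 28126, nat_lit 28162, nat_lit 28138, nat_lit 28146] (nat_lit 1) [nat_lit 47826, nat_lit 8462] false,
   Spec.mk (nat_lit 28146) (nat_lit 0) [nat_lit 15024, nat_lit 41268, nat_lit 23772, nat_lit 29604, nat_lit 27660, nat_lit 28308, nat_lit 28092, nat_lit 28128, nat_lit 28164, nat_lit 28140, nat_lit 28152, nat_lit 28144] (nat_lit 1) [nat_lit 8464] false,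
   Spec.mk (nat_lit 28152) (nat_lit 0) [nat_lit 15030, nat_lit 41274, nat_lit 23778, nat_lit 29610, nat_lit 27666, nat_lit 28314, nat_lit 28098, nat_lit 28170, nat_lit 28146] (nat_lit 1) [nat_lit 8470] false,
   Spec.mk (nat_lit 28162) (nat_lit 0) [nat_lit 15040, nat_lit 41284, nat_lit 23788, nat_lit 29620, nat_lit 27676, nat_lit 28324, nat_lit 28144, nat_lit 28164] (nat_lit 0) [nat_lit 47844, nat_lit 8480] false,
   Spec.mk (nat_lit 28164) (nat_lit 0) [nat_lit 15042, nat_lit 41286, nat_lit 23790, nat_lit 29622, nat_lit 27678, nat_lit 28326, nat_lit 28146, nat_lit 28170, nat_lit 28162] (nat_lit 1) [nat_lit 8482] false,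
   Spec.mk (nat_lit 28170) (nat_lit 1) [nat_lit 15048, nat_lit 41292, nat_lit 23796, nat_lit 29628, nat_lit 27684, nat_lit 28332, nat_lit 28152, nat_lit 28164] (nat_lit 0) [nat_lit 8488] false,
   Spec.mk (nat_lit 28196) (nat_lit 1) [nat_lit 15074, nat_lit 41318, nat_lit 23822, nat_lit 29654, nat_lit 28034, nat_lit 28202] (nat_lit 0) [nat_lit 47878] false,
   Spec.mk (nat_lit 28202) (nat_lit 0) [nat_lit 15080, nat_lit 41324, nat_lit 23828, nat_lit 29660, nat_lit 28040, nat_lit 28220, nat_lit 28196, nat_lit 28208, nat_lit 28204] (nat_lit 0) [nat_lit 47884] false,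
   Spec.mk (nat_lit 28204) (nat_lit 0) [nat_lit 15082, nat_lit 41326, nat_lit 23830, nat_lit 29662, nat_lit 28042, nat_lit 28222, nat_lit 28210, nat_lit 28202] (nat_lit 0) [nat_lit 47886, nat_lit 8522] false,
   Spec.mk (nat_lit 28208) (nat_lit 0) [nat_lit 15086, nat_lit 41330, nat_lit 23834, nat_lit 29666, nat_lit 28046, nat_lit 28226, nat_lit 28202, nat_lit 28210] (nat_lit 3) [nat_lit 47890] false,
   Spec.mk (nat_lit 28210) (nat_lit 0) [nat_lit 15088, nat_lit 41332, nat_lit 23836, nat_lit 29668, nat_lit 28048, nat_lit 28228, nat_lit 28204, nat_lit 28208, nat_lit 28212] (nat_lit 1) [nat_lit 47892, nat_lit 8528] false,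
   Spec.mk (nat_lit 28212) (nat_lit 0) [nat_lit 15090, nat_lit 41334, nat_lit 23838, nat_lit 29670, nat_lit 28050, nat_lit 28230, nat_lit 28210] (nat_lit 1) [nat_lit 8530] false,
   Spec.mk (nat_lit 28220) (nat_lit 0) [nat_lit 15098, nat_lit 41342, nat_lit 23846, nat_lit 29678, nat_lit 28058, nat_lit 28274, nat_lit 28202, nat_lit 28226, nat_lit 28222] (nat_lit 1) [nat_lit 47902] false,
   Spec.mk (nat_lit 28222) (nat_lit 0) [nat_lit 15100, nat_lit 41344, nat_lit 23848, nat_lit 29680, nat_lit 28060, nat_lit 28276, nat_lit 28204, nat_lit 28228, nat_lit 28220] (nat_lit 2) [nat_lit 47904, nat_lit 8540] false,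
   Spec.mk (nat_lit 28226) (nat_lit 0) [nat_lit 15104, nat_lit 41348, nat_lit 23852, nat_lit 29684, nat_lit 28064, nat_lit 28280, nat_lit 28208, nat_lit 28244, nat_lit 28220, nat_lit 28228] (nat_lit 2) [nat_lit 47908] false,
   Spec.mk (nat_lit 28228) (nat_lit 0) [nat_lit 15106, nat_lit 41350, nat_lit 23854, nat_lit 29686, nat_lit 28066, nat_lit 28282, nat_lit 28210, nat_lit 28246, nat_lit 28222, nat_lit 28234, nat_lit 28226, nat_lit 28230] (nat_lit 1) [nat_lit 47910, nat_lit 8546] false,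
   Spec.mk (nat_lit 28230) (nat_lit 0) [nat_lit 15108, nat_lit 41352, nat_lit 23856, nat_lit 29688, nat_lit 28068, nat_lit 28284, nat_lit 28212, nat_lit 28248, nat_lit 28236, nat_lit 28228] (nat_lit 2) [nat_lit 8548] false,
   Spec.mk (nat_lit 28234) (nat_lit 0) [nat_lit 15112, nat_lit 41356, nat_lit 23860, nat_lit 29692, nat_lit 28072, nat_lit 28288, nat_lit 28252, nat_lit 28228, nat_lit 28236] (nat_lit 2) [nat_lit 47916, nat_lit 8552] false,
   Spec.mk (nat_lit 28236) (nat_lit 0) [nat_lit 15114, nat_lit 41358, nat_lit 23862, nat_lit 29694, nat_lit 28074, nat_lit 28290, nat_lit 28254, nat_lit 28230, nat_lit 28234] (nat_lit 1) [nat_lit 8554] false,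
   Spec.mk (nat_lit 28244) (nat_lit 0) [nat_lit 15122, nat_lit 41366, nat_lit 23870, nat_lit 29702, nat_lit 28082, nat_lit 28298, nat_lit 28226, nat_lit 28246] (nat_lit 3) [nat_lit 47926] false,
   Spec.mk (nat_lit 28246) (nat_lit 0) [nat_lit 15124, nat_lit 41368, nat_lit 23872, nat_lit 29704, nat_lit 28084, nat_lit 28300, nat_lit 28228, nat_lit 28252, nat_lit 28244, nat_lit 28248] (nat_lit 3) [nat_lit 47928, nat_lit 8564] false,
   Spec.mk (nat_lit 28248) (nat_lit 0) [nat_lit 15126, nat_lit 41370, nat_lit 23874, nat_lit 29706, nat_lit 28086, nat_lit 28302, nat_lit 28230, nat_lit 28254, nat_lit 28246] (nat_lit 5) [nat_lit 8566] false,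
   Spec.mk (nat_lit 28252) (nat_lit 0) [nat_lit 15130, nat_lit 41374, nat_lit 23878, nat_lit 29710, nat_lit 28090, nat_lit 28306, nat_lit 28234, nat_lit 28246, nat_lit 28254] (nat_lit 2) [nat_lit 47934, nat_lit 8570] false,
   Spec.mk (nat_lit 28254) (nat_lit 0) [nat_lit 15132, nat_lit 41376, nat_lit 23880, nat_lit 29712, nat_lit 28092, nat_lit 28308, nat_lit 28236, nat_lit 28248, nat_lit 28260, nat_lit 28252] (nat_lit 2) [nat_lit 8572] false,
   Spec.mk (nat_lit 28260) (nat_lit 0) [nat_lit 15138, nat_lit 41382, nat_lit 23886, nat_lit 29718, nat_lit 28098, nat_lit 28314, nat_lit 28254] (nat_lit 1) [nat_lit 8578] false,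
   Spec.mk (nat_lit 28274) (nat_lit 1) [nat_lit 15152, nat_lit 41396, nat_lit 23900, nat_lit 29732, nat_lit 28112, nat_lit 28220, nat_lit 28280, nat_lit 28276] (nat_lit 0) [nat_lit 47956] false,
   Spec.mk (nat_lit 28276) (nat_lit 0) [nat_lit 15154, nat_lit 41398, nat_lit 23902, nat_lit 29734, nat_lit 28114, nat_lit 28222, nat_lit 28282, nat_lit 28274] (nat_lit 0) [nat_lit 47958, nat_lit 8594] false,
   Spec.mk (nat_lit 28280) (nat_lit 0) [nat_lit 15158, nat_lit 41402, nat_lit 23906, nat_lit 29738, nat_lit 28118, nat_lit 28226, nat_lit 28298, nat_lit 28274, nat_lit 28282] (nat_lit 1) [nat_lit 47962] false,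
   Spec.mk (nat_lit 28282) (nat_lit 0) [nat_lit 15160, nat_lit 41404, nat_lit 23908, nat_lit 29740, nat_lit 28120, nat_lit 28228, nat_lit 28300, nat_lit 28276, nat_lit 28288, nat_lit 28280, nat_lit 28284] (nat_lit 0) [nat_lit 47964, nat_lit 8600] false,
   Spec.mk (nat_lit 28284) (nat_lit 0) [nat_lit 15162, nat_lit 41406, nat_lit 23910, nat_lit 29742, nat_lit 28122, nat_lit 28230, nat_lit 28302, nat_lit 28290, nat_lit 28282] (nat_lit 1) [nat_lit 8602] false,
   Spec.mk (nat_lit 28288) (nat_lit 0) [nat_lit 15166, nat_lit 41410, nat_lit 23914, nat_lit 29746, nat_lit 28126, nat_lit 28234, nat_lit 28306, nat_lit 28282, nat_lit 28290] (nat_lit 2) [nat_lit 47970, nat_lit 8606] false]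

noncomputable def sp71 : List Spec :=
  [Spec.mk (nat_lit 28290) (nat_lit 0) [nat_lit 15168, nat_lit 41412, nat_lit 23916, nat_lit 29748, nat_lit 28128, nat_lit 28236, nat_lit 28308, nat_lit 28284, nat_lit 28288] (nat_lit 1) [nat_lit 8608] false,
   Spec.mk (nat_lit 28298) (nat_lit 0) [nat_lit 15176, nat_lit 41420, nat_lit 23924, nat_lit 29756, nat_lit 28136, nat_lit 28244, nat_lit 28352, nat_lit 28280, nat_lit 28300] (nat_lit 0) [nat_lit 47980] false,
   Spec.mk (nat_lit 28300) (nat_lit 0) [nat_lit 15178, nat_lit 41422, nat_lit 23926, nat_lit 29758, nat_lit 28138, nat_lit 28246, nat_lit 28354, nat_lit 28282, nat_lit 28306, nat_lit 28298, nat_lit 28302] (nat_lit 0) [nat_lit 47982, nat_lit 8618] false,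
   Spec.mk (nat_lit 28302) (nat_lit 0) [nat_lit 15180, nat_lit 41424, nat_lit 23928, nat_lit 29760, nat_lit 28140, nat_lit 28248, nat_lit 28356, nat_lit 28284, nat_lit 28308, nat_lit 28300] (nat_lit 2) [nat_lit 8620] false,
   Spec.mk (nat_lit 28306) (nat_lit 0) [nat_lit 15184, nat_lit 41428, nat_lit 23932, nat_lit 29764, nat_lit 28144, nat_lit 28252, nat_lit 28360, nat_lit 28288, nat_lit 28324, nat_lit 28300, nat_lit 28308] (nat_lit 0) [nat_lit 47988, nat_lit 8624] false,
   Spec.mk (nat_lit 28308) (nat_lit 0) [nat_lit 15186, nat_lit 41430, nat_lit 23934, nat_lit 29766, nat_lit 28146, nat_lit 28254, nat_lit 28362, nat_lit 28290, nat_lit 28326, nat_lit 28302, nat_lit 28314, nat_lit 28306] (nat_lit 0) [nat_lit 8626] false,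
   Spec.mk (nat_lit 28314) (nat_lit 0) [nat_lit 15192, nat_lit 41436, nat_lit 23940, nat_lit 29772, nat_lit 28152, nat_lit 28260, nat_lit 28368, nat_lit 28332, nat_lit 28308] (nat_lit 0) [nat_lit 8632] false,
   Spec.mk (nat_lit 28324) (nat_lit 0) [nat_lit 15202, nat_lit 41446, nat_lit 23950, nat_lit 29782, nat_lit 28162, nat_lit 28378, nat_lit 28306, nat_lit 28326] (nat_lit 0) [nat_lit 48006, nat_lit 8642] false,
   Spec.mk (nat_lit 28326) (nat_lit 0) [nat_lit 15204, nat_lit 41448, nat_lit 23952, nat_lit 29784, nat_lit 28164, nat_lit 28380, nat_lit 28308, nat_lit 28332, nat_lit 28324] (nat_lit 1) [nat_lit 8644] false,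
   Spec.mk (nat_lit 28332) (nat_lit 1) [nat_lit 15210, nat_lit 41454, nat_lit 23958, nat_lit 29790, nat_lit 28170, nat_lit 28386, nat_lit 28314, nat_lit 28326] (nat_lit 0) [nat_lit 8650] false,
   Spec.mk (nat_lit 28352) (nat_lit 1) [nat_lit 15230, nat_lit 41474, nat_lit 23978, nat_lit 29810, nat_lit 28298, nat_lit 28354] (nat_lit 0) [nat_lit 48034] false,
   Spec.mk (nat_lit 28354) (nat_lit 1) [nat_lit 15232, nat_lit 41476, nat_lit 23980, nat_lit 29812, nat_lit 28300, nat_lit 28360, nat_lit 28352, nat_lit 28356] (nat_lit 0) [nat_lit 48036, nat_lit 8672] false,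
   Spec.mk (nat_lit 28356) (nat_lit 0) [nat_lit 15234, nat_lit 41478, nat_lit 23982, nat_lit 29814, nat_lit 28302, nat_lit 28362, nat_lit 28354] (nat_lit 1) [nat_lit 8674] false,
   Spec.mk (nat_lit 28360) (nat_lit 0) [nat_lit 15238, nat_lit 41482, nat_lit 23986, nat_lit 29818, nat_lit 28306, nat_lit 28378, nat_lit 28354, nat_lit 28362] (nat_lit 0) [nat_lit 48042, nat_lit 8678] false,
   Spec.mk (nat_lit 28362) (nat_lit 0) [nat_lit 15240, nat_lit 41484, nat_lit 23988, nat_lit 29820, nat_lit 28308, nat_lit 28380, nat_lit 28356, nat_lit 28368, nat_lit 28360] (nat_lit 0) [nat_lit 8680] false,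
   Spec.mk (nat_lit 28368) (nat_lit 0) [nat_lit 15246, nat_lit 41490, nat_lit 23994, nat_lit 29826, nat_lit 28314, nat_lit 28386, nat_lit 28362] (nat_lit 1) [nat_lit 8686] false,
   Spec.mk (nat_lit 28378) (nat_lit 2) [nat_lit 15256, nat_lit 41500, nat_lit 24004, nat_lit 29836, nat_lit 28324, nat_lit 28360, nat_lit 28380] (nat_lit 0) [nat_lit 48060, nat_lit 8696] false,
   Spec.mk (nat_lit 28380) (nat_lit 1) [nat_lit 15258, nat_lit 41502, nat_lit 24006, nat_lit 29838, nat_lit 28326, nat_lit 28362, nat_lit 28386, nat_lit 28378] (nat_lit 0) [nat_lit 8698] false,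
   Spec.mk (nat_lit 28386) (nat_lit 2) [nat_lit 15264, nat_lit 41508, nat_lit 24012, nat_lit 29844, nat_lit 28332, nat_lit 28368, nat_lit 28404, nat_lit 28380] (nat_lit 0) [nat_lit 8704] false,
   Spec.mk (nat_lit 28404) (nat_lit 3) [nat_lit 15282, nat_lit 41526, nat_lit 24030, nat_lit 29862, nat_lit 28386] (nat_lit 0) [nat_lit 8722] false,
   Spec.mk (nat_lit 28484) (nat_lit 4) [nat_lit 15362, nat_lit 41606, nat_lit 24110, nat_lit 32858, nat_lit 27026, nat_lit 28538, nat_lit 28502] (nat_lit 0) [nat_lit 48166] false,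
   Spec.mk (nat_lit 28502) (nat_lit 2) [nat_lit 15380, nat_lit 41624, nat_lit 24128, nat_lit 32876, nat_lit 27044, nat_lit 28556, nat_lit 28484, nat_lit 28508] (nat_lit 0) [nat_lit 48184] false,
   Spec.mk (nat_lit 28508) (nat_lit 2) [nat_lit 15386, nat_lit 41630, nat_lit 24134, nat_lit 32882, nat_lit 27050, nat_lit 28562, nat_lit 28502, nat_lit 28510] (nat_lit 0) [nat_lit 48190] false,
   Spec.mk (nat_lit 28510) (nat_lit 3) [nat_lit 15388, nat_lit 41632, nat_lit 24136, nat_lit 32884, nat_lit 27052, nat_lit 28564, nat_lit 28508] (nat_lit 0) [nat_lit 48192, nat_lit 8828] false,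
   Spec.mk (nat_lit 28538) (nat_lit 2) [nat_lit 15416, nat_lit 41660, nat_lit 24164, nat_lit 32912, nat_lit 27080, nat_lit 28700, nat_lit 28484, nat_lit 28556] (nat_lit 0) [nat_lit 48220] false,
   Spec.mk (nat_lit 28556) (nat_lit 2) [nat_lit 15434, nat_lit 41678, nat_lit 24182, nat_lit 32930, nat_lit 27098, nat_lit 28718, nat_lit 28502, nat_lit 28610, nat_lit 28538, nat_lit 28574, nat_lit 28562] (nat_lit 0) [nat_lit 48238] false,
   Spec.mk (nat_lit 28562) (nat_lit 1) [nat_lit 15440, nat_lit 41684, nat_lit 24188, nat_lit 32936, nat_lit 27104, nat_lit 28724, nat_lit 28508, nat_lit 28616, nat_lit 28580, nat_lit 28556, nat_lit 28564] (nat_lit 0) [nat_lit 48244] false,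
   Spec.mk (nat_lit 28564) (nat_lit 2) [nat_lit 15442, nat_lit 41686, nat_lit 24190, nat_lit 32938, nat_lit 27106, nat_lit 28726, nat_lit 28510, nat_lit 28618, nat_lit 28582, nat_lit 28562] (nat_lit 0) [nat_lit 48246, nat_lit 8882] false,
   Spec.mk (nat_lit 28574) (nat_lit 0) [nat_lit 15452, nat_lit 41696, nat_lit 24200, nat_lit 32948, nat_lit 27116, nat_lit 28736, nat_lit 28628, nat_lit 28556, nat_lit 28580] (nat_lit 0) [nat_lit 48256] false,
   Spec.mk (nat_lit 28580) (nat_lit 1) [nat_lit 15458, nat_lit 41702, nat_lit 24206, nat_lit 32954, nat_lit 27122, nat_lit 28742, nat_lit 28634, nat_lit 28562, nat_lit 28574, nat_lit 28586, nat_lit 28582] (nat_lit 0) [nat_lit 48262] false,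
   Spec.mk (nat_lit 28582) (nat_lit 1) [nat_lit 15460, nat_lit 41704, nat_lit 24208, nat_lit 32956, nat_lit 27124, nat_lit 28744, nat_lit 28636, nat_lit 28564, nat_lit 28588, nat_lit 28580] (nat_lit 0) [nat_lit 48264, nat_lit 8900] false,
   Spec.mk (nat_lit 28586) (nat_lit 0) [nat_lit 15464, nat_lit 41708, nat_lit 24212, nat_lit 32960, nat_lit 27128, nat_lit 28748, nat_lit 28640, nat_lit 28580, nat_lit 28588] (nat_lit 0) [nat_lit 48268] false,
   Spec.mk (nat_lit 28588) (nat_lit 2) [nat_lit 15466, nat_lit 41710, nat_lit 24214, nat_lit 32962, nat_lit 27130, nat_lit 28750, nat_lit 28642, nat_lit 28582, nat_lit 28586, nat_lit 28590] (nat_lit 0) [nat_lit 48270, nat_lit 8906] false,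
   Spec.mk (nat_lit 28590) (nat_lit 2) [nat_lit 15468, nat_lit 41712, nat_lit 24216, nat_lit 32964, nat_lit 27132, nat_lit 28752, nat_lit 28644, nat_lit 28588] (nat_lit 0) [nat_lit 8908] false,
   Spec.mk (nat_lit 28610) (nat_lit 0) [nat_lit 15488, nat_lit 41732, nat_lit 24236, nat_lit 32984, nat_lit 27152, nat_lit 28772, nat_lit 28556, nat_lit 28628, nat_lit 28616] (nat_lit 0) [nat_lit 48292] false,
   Spec.mk (nat_lit 28616) (nat_lit 0) [nat_lit 15494, nat_lit 41738, nat_lit 24242, nat_lit 32990, nat_lit 27158, nat_lit 28778, nat_lit 28562, nat_lit 28634, nat_lit 28610, nat_lit 28618] (nat_lit 2) [nat_lit 48298] false,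
   Spec.mk (nat_lit 28618) (nat_lit 0) [nat_lit 15496, nat_lit 41740, nat_lit 24244, nat_lit 32992, nat_lit 27160, nat_lit 28780, nat_lit 28564, nat_lit 28636, nat_lit 28616] (nat_lit 1) [nat_lit 48300, nat_lit 8936] false,
   Spec.mk (nat_lit 28628) (nat_lit 0) [nat_lit 15506, nat_lit 41750, nat_lit 24254, nat_lit 33002, nat_lit 27170, nat_lit 28790, nat_lit 28574, nat_lit 28610, nat_lit 28634] (nat_lit 0) [nat_lit 48310] false,
   Spec.mk (nat_lit 28634) (nat_lit 0) [nat_lit 15512, nat_lit 41756, nat_lit 24260, nat_lit 33008, nat_lit 27176, nat_lit 28796, nat_lit 28580, nat_lit 28616, nat_lit 28652, nat_lit 28628, nat_lit 28640, nat_lit 28636] (nat_lit 0) [nat_lit 48316] false,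
   Spec.mk (nat_lit 28636) (nat_lit 0) [nat_lit 15514, nat_lit 41758, nat_lit 24262, nat_lit 33010, nat_lit 27178, nat_lit 28798, nat_lit 28582, nat_lit 28618, nat_lit 28654, nat_lit 28642, nat_lit 28634] (nat_lit 0) [nat_lit 48318, nat_lit 8954] false,
   Spec.mk (nat_lit 28640) (nat_lit 0) [nat_lit 15518, nat_lit 41762, nat_lit 24266, nat_lit 33014, nat_lit 27182, nat_lit 28802, nat_lit 28586, nat_lit 28658, nat_lit 28634, nat_lit 28642] (nat_lit 2) [nat_lit 48322] false,
   Spec.mk (nat_lit 28642) (nat_lit 0) [nat_lit 15520, nat_lit 41764, nat_lit 24268, nat_lit 33016, nat_lit 27184, nat_lit 28804, nat_lit 28588, nat_lit 28660, nat_lit 28636, nat_lit 28640, nat_lit 28644] (nat_lit 0) [nat_lit 48324, nat_lit 8960] false,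
   Spec.mk (nat_lit 28644) (nat_lit 0) [nat_lit 15522, nat_lit 41766, nat_lit 24270, nat_lit 33018, nat_lit 27186, nat_lit 28806, nat_lit 28590, nat_lit 28662, nat_lit 28642] (nat_lit 0) [nat_lit 8962] false,
   Spec.mk (nat_lit 28652) (nat_lit 0) [nat_lit 15530, nat_lit 41774, nat_lit 24278, nat_lit 33026, nat_lit 27194, nat_lit 28814, nat_lit 28634, nat_lit 28658, nat_lit 28654] (nat_lit 0) [nat_lit 48334] false,
   Spec.mk (nat_lit 28654) (nat_lit 0) [nat_lit 15532, nat_lit 41776, nat_lit 24280, nat_lit 33028, nat_lit 27196, nat_lit 28816, nat_lit 28636, nat_lit 28660, nat_lit 28652] (nat_lit 1) [nat_lit 48336, nat_lit 8972] false,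
   Spec.mk (nat_lit 28658) (nat_lit 0) [nat_lit 15536, nat_lit 41780, nat_lit 24284, nat_lit 33032, nat_lit 27200, nat_lit 28820, nat_lit 28640, nat_lit 28652, nat_lit 28660] (nat_lit 0) [nat_lit 48340] false,
   Spec.mk (nat_lit 28660) (nat_lit 1) [nat_lit 15538, nat_lit 41782, nat_lit 24286, nat_lit 33034, nat_lit 27202, nat_lit 28822, nat_lit 28642, nat_lit 28654, nat_lit 28666, nat_lit 28658, nat_lit 28662] (nat_lit 0) [nat_lit 48342, nat_lit 8978] false,
   Spec.mk (nat_lit 28662) (nat_lit 0) [nat_lit 15540, nat_lit 41784, nat_lit 24288, nat_lit 33036, nat_lit 27204, nat_lit 28824, nat_lit 28644, nat_lit 28668, nat_lit 28660] (nat_lit 0) [nat_lit 8980] false,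
   Spec.mk (nat_lit 28666) (nat_lit 1) [nat_lit 15544, nat_lit 41788, nat_lit 24292, nat_lit 33040, nat_lit 27208, nat_lit 28828, nat_lit 28660, nat_lit 28668] (nat_lit 0) [nat_lit 48348, nat_lit 8984] false,
   Spec.mk (nat_lit 28668) (nat_lit 2) [nat_lit 15546, nat_lit 41790, nat_lit 24294, nat_lit 33042, nat_lit 27210, nat_lit 28830, nat_lit 28662, nat_lit 28666] (nat_lit 0) [nat_lit 8986] false,
   Spec.mk (nat_lit 28700) (nat_lit 2) [nat_lit 15578, nat_lit 41822, nat_lit 24326, nat_lit 33074, nat_lit 27242, nat_lit 29186, nat_lit 28538, nat_lit 28718] (nat_lit 0) [nat_lit 48382] false,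
   Spec.mk (nat_lit 28718) (nat_lit 1) [nat_lit 15596, nat_lit 41840, nat_lit 24344, nat_lit 33092, nat_lit 27260, nat_lit 29204, nat_lit 28556, nat_lit 28772, nat_lit 28700, nat_lit 28736, nat_lit 28724] (nat_lit 0) [nat_lit 48400] false,
   Spec.mk (nat_lit 28724) (nat_lit 0) [nat_lit 15602, nat_lit 41846, nat_lit 24350, nat_lit 33098, nat_lit 27266, nat_lit 29210, nat_lit 28562, nat_lit 28778, nat_lit 28742, nat_lit 28718, nat_lit 28726] (nat_lit 0) [nat_lit 48406] false,
   Spec.mk (nat_lit 28726) (nat_lit 1) [nat_lit 15604, nat_lit 41848, nat_lit 24352, nat_lit 33100, nat_lit 27268, nat_lit 29212, nat_lit 28564, nat_lit 28780, nat_lit 28744, nat_lit 28724] (nat_lit 0) [nat_lit 48408, nat_lit 9044] false,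
   Spec.mk (nat_lit 28736) (nat_lit 0) [nat_lit 15614, nat_lit 41858, nat_lit 24362, nat_lit 33110, nat_lit 27278, nat_lit 29222, nat_lit 28574, nat_lit 28790, nat_lit 28718, nat_lit 28742] (nat_lit 2) [nat_lit 48418] false,
   Spec.mk (nat_lit 28742) (nat_lit 0) [nat_lit 15620, nat_lit 41864, nat_lit 24368, nat_lit 33116, nat_lit 27284, nat_lit 29228, nat_lit 28580, nat_lit 28796, nat_lit 28724, nat_lit 28736, nat_lit 28748, nat_lit 28744] (nat_lit 1) [nat_lit 48424] false,
   Spec.mk (nat_lit 28744) (nat_lit 0) [nat_lit 15622, nat_lit 41866, nat_lit 24370, nat_lit 33118, nat_lit 27286, nat_lit 29230, nat_lit 28582, nat_lit 28798, nat_lit 28726, nat_lit 28750, nat_lit 28742] (nat_lit 1) [nat_lit 48426, nat_lit 9062] false,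
   Spec.mk (nat_lit 28748) (nat_lit 0) [nat_lit 15626, nat_lit 41870, nat_lit 24374, nat_lit 33122, nat_lit 27290, nat_lit 29234, nat_lit 28586, nat_lit 28802, nat_lit 28742, nat_lit 28750] (nat_lit 2) [nat_lit 48430] false,
   Spec.mk (nat_lit 28750) (nat_lit 0) [nat_lit 15628, nat_lit 41872, nat_lit 24376, nat_lit 33124, nat_lit 27292, nat_lit 29236, nat_lit 28588, nat_lit 28804, nat_lit 28744, nat_lit 28748, nat_lit 28752] (nat_lit 0) [nat_lit 48432, nat_lit 9068] false,
   Spec.mk (nat_lit 28752) (nat_lit 0) [nat_lit 15630, nat_lit 41874, nat_lit 24378, nat_lit 33126, nat_lit 27294, nat_lit 29238, nat_lit 28590, nat_lit 28806, nat_lit 28750] (nat_lit 0) [nat_lit 9070] false]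

noncomputable def sp72 : List Spec :=
  [Spec.mk (nat_lit 28772) (nat_lit 1) [nat_lit 15650, nat_lit 41894, nat_lit 24398, nat_lit 33146, nat_lit 27314, nat_lit 29258, nat_lit 28610, nat_lit 28934, nat_lit 28718, nat_lit 28790, nat_lit 28778] (nat_lit 0) [nat_lit 48454] false,
   Spec.mk (nat_lit 28778) (nat_lit 0) [nat_lit 15656, nat_lit 41900, nat_lit 24404, nat_lit 33152, nat_lit 27320, nat_lit 29264, nat_lit 28616, nat_lit 28940, nat_lit 28724, nat_lit 28796, nat_lit 28772, nat_lit 28780] (nat_lit 1) [nat_lit 48460] false,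
   Spec.mk (nat_lit 28780) (nat_lit 0) [nat_lit 15658, nat_lit 41902, nat_lit 24406, nat_lit 33154, nat_lit 27322, nat_lit 29266, nat_lit 28618, nat_lit 28942, nat_lit 28726, nat_lit 28798, nat_lit 28778] (nat_lit 0) [nat_lit 48462, nat_lit 9098] false,
   Spec.mk (nat_lit 28790) (nat_lit 0) [nat_lit 15668, nat_lit 41912, nat_lit 24416, nat_lit 33164, nat_lit 27332, nat_lit 29276, nat_lit 28628, nat_lit 28952, nat_lit 28736, nat_lit 28844, nat_lit 28772, nat_lit 28796] (nat_lit 0) [nat_lit 48472] false,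
   Spec.mk (nat_lit 28796) (nat_lit 0) [nat_lit 15674, nat_lit 41918, nat_lit 24422, nat_lit 33170, nat_lit 27338, nat_lit 29282, nat_lit 28634, nat_lit 28958, nat_lit 28742, nat_lit 28850, nat_lit 28778, nat_lit 28814, nat_lit 28790, nat_lit 28802, nat_lit 28798] (nat_lit 0) [nat_lit 48478] false,
   Spec.mk (nat_lit 28798) (nat_lit 0) [nat_lit 15676, nat_lit 41920, nat_lit 24424, nat_lit 33172, nat_lit 27340, nat_lit 29284, nat_lit 28636, nat_lit 28960, nat_lit 28744, nat_lit 28852, nat_lit 28780, nat_lit 28816, nat_lit 28804, nat_lit 28796] (nat_lit 0) [nat_lit 48480, nat_lit 9116] false,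
   Spec.mk (nat_lit 28802) (nat_lit 0) [nat_lit 15680, nat_lit 41924, nat_lit 24428, nat_lit 33176, nat_lit 27344, nat_lit 29288, nat_lit 28640, nat_lit 28964, nat_lit 28748, nat_lit 28856, nat_lit 28820, nat_lit 28796, nat_lit 28804] (nat_lit 2) [nat_lit 48484] false,
   Spec.mk (nat_lit 28804) (nat_lit 0) [nat_lit 15682, nat_lit 41926, nat_lit 24430, nat_lit 33178, nat_lit 27346, nat_lit 29290, nat_lit 28642, nat_lit 28966, nat_lit 28750, nat_lit 28858, nat_lit 28822, nat_lit 28798, nat_lit 28802, nat_lit 28806] (nat_lit 0) [nat_lit 48486, nat_lit 9122] false,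
   Spec.mk (nat_lit 28806) (nat_lit 0) [nat_lit 15684, nat_lit 41928, nat_lit 24432, nat_lit 33180, nat_lit 27348, nat_lit 29292, nat_lit 28644, nat_lit 28968, nat_lit 28752, nat_lit 28860, nat_lit 28824, nat_lit 28804] (nat_lit 0) [nat_lit 9124] false,
   Spec.mk (nat_lit 28814) (nat_lit 0) [nat_lit 15692, nat_lit 41936, nat_lit 24440, nat_lit 33188, nat_lit 27356, nat_lit 29300, nat_lit 28652, nat_lit 28976, nat_lit 28868, nat_lit 28796, nat_lit 28820, nat_lit 28816] (nat_lit 1) [nat_lit 48496] false,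
   Spec.mk (nat_lit 28816) (nat_lit 0) [nat_lit 15694, nat_lit 41938, nat_lit 24442, nat_lit 33190, nat_lit 27358, nat_lit 29302, nat_lit 28654, nat_lit 28978, nat_lit 28870, nat_lit 28798, nat_lit 28822, nat_lit 28814] (nat_lit 2) [nat_lit 48498, nat_lit 9134] false,
   Spec.mk (nat_lit 28820) (nat_lit 0) [nat_lit 15698, nat_lit 41942, nat_lit 24446, nat_lit 33194, nat_lit 27362, nat_lit 29306, nat_lit 28658, nat_lit 28982, nat_lit 28874, nat_lit 28802, nat_lit 28814, nat_lit 28822] (nat_lit 1) [nat_lit 48502] false,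
   Spec.mk (nat_lit 28822) (nat_lit 0) [nat_lit 15700, nat_lit 41944, nat_lit 24448, nat_lit 33196, nat_lit 27364, nat_lit 29308, nat_lit 28660, nat_lit 28984, nat_lit 28876, nat_lit 28804, nat_lit 28816, nat_lit 28828, nat_lit 28820, nat_lit 28824] (nat_lit 0) [nat_lit 48504, nat_lit 9140] false,
   Spec.mk (nat_lit 28824) (nat_lit 0) [nat_lit 15702, nat_lit 41946, nat_lit 24450, nat_lit 33198, nat_lit 27366, nat_lit 29310, nat_lit 28662, nat_lit 28986, nat_lit 28878, nat_lit 28806, nat_lit 28830, nat_lit 28822] (nat_lit 1) [nat_lit 9142] false,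
   Spec.mk (nat_lit 28828) (nat_lit 0) [nat_lit 15706, nat_lit 41950, nat_lit 24454, nat_lit 33202, nat_lit 27370, nat_lit 29314, nat_lit 28666, nat_lit 28990, nat_lit 28882, nat_lit 28822, nat_lit 28830] (nat_lit 0) [nat_lit 48510, nat_lit 9146] false,
   Spec.mk (nat_lit 28830) (nat_lit 1) [nat_lit 15708, nat_lit 41952, nat_lit 24456, nat_lit 33204, nat_lit 27372, nat_lit 29316, nat_lit 28668, nat_lit 28992, nat_lit 28884, nat_lit 28824, nat_lit 28828] (nat_lit 0) [nat_lit 9148] false,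
   Spec.mk (nat_lit 28844) (nat_lit 0) [nat_lit 15722, nat_lit 41966, nat_lit 24470, nat_lit 33218, nat_lit 27386, nat_lit 29330, nat_lit 29006, nat_lit 28790, nat_lit 28850] (nat_lit 0) [nat_lit 48526] false,
   Spec.mk (nat_lit 28850) (nat_lit 0) [nat_lit 15728, nat_lit 41972, nat_lit 24476, nat_lit 33224, nat_lit 27392, nat_lit 29336, nat_lit 29012, nat_lit 28796, nat_lit 28868, nat_lit 28844, nat_lit 28856, nat_lit 28852] (nat_lit 1) [nat_lit 48532] false,
   Spec.mk (nat_lit 28852) (nat_lit 0) [nat_lit 15730, nat_lit 41974, nat_lit 24478, nat_lit 33226, nat_lit 27394, nat_lit 29338, nat_lit 29014, nat_lit 28798, nat_lit 28870, nat_lit 28858, nat_lit 28850] (nat_lit 1) [nat_lit 48534, nat_lit 9170] false,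
   Spec.mk (nat_lit 28856) (nat_lit 0) [nat_lit 15734, nat_lit 41978, nat_lit 24482, nat_lit 33230, nat_lit 27398, nat_lit 29342, nat_lit 29018, nat_lit 28802, nat_lit 28874, nat_lit 28850, nat_lit 28858] (nat_lit 4) [nat_lit 48538] false,
   Spec.mk (nat_lit 28858) (nat_lit 0) [nat_lit 15736, nat_lit 41980, nat_lit 24484, nat_lit 33232, nat_lit 27400, nat_lit 29344, nat_lit 29020, nat_lit 28804, nat_lit 28876, nat_lit 28852, nat_lit 28856, nat_lit 28860] (nat_lit 2) [nat_lit 48540, nat_lit 9176] false,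
   Spec.mk (nat_lit 28860) (nat_lit 0) [nat_lit 15738, nat_lit 41982, nat_lit 24486, nat_lit 33234, nat_lit 27402, nat_lit 29346, nat_lit 29022, nat_lit 28806, nat_lit 28878, nat_lit 28858] (nat_lit 2) [nat_lit 9178] false,
   Spec.mk (nat_lit 28868) (nat_lit 0) [nat_lit 15746, nat_lit 41990, nat_lit 24494, nat_lit 33242, nat_lit 27410, nat_lit 29354, nat_lit 29030, nat_lit 28814, nat_lit 28850, nat_lit 28874, nat_lit 28870] (nat_lit 0) [nat_lit 48550] false,
   Spec.mk (nat_lit 28870) (nat_lit 0) [nat_lit 15748, nat_lit 41992, nat_lit 24496, nat_lit 33244, nat_lit 27412, nat_lit 29356, nat_lit 29032, nat_lit 28816, nat_lit 28852, nat_lit 28876, nat_lit 28868] (nat_lit 1) [nat_lit 48552, nat_lit 9188] false,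
   Spec.mk (nat_lit 28874) (nat_lit 0) [nat_lit 15752, nat_lit 41996, nat_lit 24500, nat_lit 33248, nat_lit 27416, nat_lit 29360, nat_lit 29036, nat_lit 28820, nat_lit 28856, nat_lit 28892, nat_lit 28868, nat_lit 28876] (nat_lit 1) [nat_lit 48556] false,
   Spec.mk (nat_lit 28876) (nat_lit 0) [nat_lit 15754, nat_lit 41998, nat_lit 24502, nat_lit 33250, nat_lit 27418, nat_lit 29362, nat_lit 29038, nat_lit 28822, nat_lit 28858, nat_lit 28894, nat_lit 28870, nat_lit 28882, nat_lit 28874, nat_lit 28878] (nat_lit 0) [nat_lit 48558, nat_lit 9194] false,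
   Spec.mk (nat_lit 28878) (nat_lit 0) [nat_lit 15756, nat_lit 42000, nat_lit 24504, nat_lit 33252, nat_lit 27420, nat_lit 29364, nat_lit 29040, nat_lit 28824, nat_lit 28860, nat_lit 28896, nat_lit 28884, nat_lit 28876] (nat_lit 1) [nat_lit 9196] false,
   Spec.mk (nat_lit 28882) (nat_lit 0) [nat_lit 15760, nat_lit 42004, nat_lit 24508, nat_lit 33256, nat_lit 27424, nat_lit 29368, nat_lit 29044, nat_lit 28828, nat_lit 28900, nat_lit 28876, nat_lit 28884] (nat_lit 1) [nat_lit 48564, nat_lit 9200] false,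
   Spec.mk (nat_lit 28884) (nat_lit 0) [nat_lit 15762, nat_lit 42006, nat_lit 24510, nat_lit 33258, nat_lit 27426, nat_lit 29370, nat_lit 29046, nat_lit 28830, nat_lit 28902, nat_lit 28878, nat_lit 28882] (nat_lit 0) [nat_lit 9202] false,
   Spec.mk (nat_lit 28892) (nat_lit 0) [nat_lit 15770, nat_lit 42014, nat_lit 24518, nat_lit 33266, nat_lit 27434, nat_lit 29378, nat_lit 29054, nat_lit 28874, nat_lit 28894] (nat_lit 0) [nat_lit 48574] false,
   Spec.mk (nat_lit 28894) (nat_lit 0) [nat_lit 15772, nat_lit 42016, nat_lit 24520, nat_lit 33268, nat_lit 27436, nat_lit 29380, nat_lit 29056, nat_lit 28876, nat_lit 28900, nat_lit 28892, nat_lit 28896] (nat_lit 0) [nat_lit 48576, nat_lit 9212] false,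
   Spec.mk (nat_lit 28896) (nat_lit 0) [nat_lit 15774, nat_lit 42018, nat_lit 24522, nat_lit 33270, nat_lit 27438, nat_lit 29382, nat_lit 29058, nat_lit 28878, nat_lit 28902, nat_lit 28894] (nat_lit 2) [nat_lit 9214] false,
   Spec.mk (nat_lit 28900) (nat_lit 1) [nat_lit 15778, nat_lit 42022, nat_lit 24526, nat_lit 33274, nat_lit 27442, nat_lit 29386, nat_lit 29062, nat_lit 28882, nat_lit 28894, nat_lit 28902] (nat_lit 0) [nat_lit 48582, nat_lit 9218] false,
   Spec.mk (nat_lit 28902) (nat_lit 1) [nat_lit 15780, nat_lit 42024, nat_lit 24528, nat_lit 33276, nat_lit 27444, nat_lit 29388, nat_lit 29064, nat_lit 28884, nat_lit 28896, nat_lit 28908, nat_lit 28900] (nat_lit 0) [nat_lit 9220] false,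
   Spec.mk (nat_lit 28908) (nat_lit 2) [nat_lit 15786, nat_lit 42030, nat_lit 24534, nat_lit 33282, nat_lit 27450, nat_lit 29394, nat_lit 29070, nat_lit 28902] (nat_lit 0) [nat_lit 9226] false,
   Spec.mk (nat_lit 28934) (nat_lit 0) [nat_lit 15812, nat_lit 42056, nat_lit 24560, nat_lit 33308, nat_lit 27476, nat_lit 29420, nat_lit 28772, nat_lit 28952, nat_lit 28940] (nat_lit 0) [nat_lit 48616] false,
   Spec.mk (nat_lit 28940) (nat_lit 0) [nat_lit 15818, nat_lit 42062, nat_lit 24566, nat_lit 33314, nat_lit 27482, nat_lit 29426, nat_lit 28778, nat_lit 28958, nat_lit 28934, nat_lit 28942] (nat_lit 2) [nat_lit 48622] false,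
   Spec.mk (nat_lit 28942) (nat_lit 0) [nat_lit 15820, nat_lit 42064, nat_lit 24568, nat_lit 33316, nat_lit 27484, nat_lit 29428, nat_lit 28780, nat_lit 28960, nat_lit 28940] (nat_lit 1) [nat_lit 48624, nat_lit 9260] false,
   Spec.mk (nat_lit 28952) (nat_lit 0) [nat_lit 15830, nat_lit 42074, nat_lit 24578, nat_lit 33326, nat_lit 27494, nat_lit 29438, nat_lit 28790, nat_lit 29006, nat_lit 28934, nat_lit 28958] (nat_lit 2) [nat_lit 48634] false,
   Spec.mk (nat_lit 28958) (nat_lit 0) [nat_lit 15836, nat_lit 42080, nat_lit 24584, nat_lit 33332, nat_lit 27500, nat_lit 29444, nat_lit 28796, nat_lit 29012, nat_lit 28940, nat_lit 28976, nat_lit 28952, nat_lit 28964, nat_lit 28960] (nat_lit 2) [nat_lit 48640] false,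
   Spec.mk (nat_lit 28960) (nat_lit 0) [nat_lit 15838, nat_lit 42082, nat_lit 24586, nat_lit 33334, nat_lit 27502, nat_lit 29446, nat_lit 28798, nat_lit 29014, nat_lit 28942, nat_lit 28978, nat_lit 28966, nat_lit 28958] (nat_lit 2) [nat_lit 48642, nat_lit 9278] false,
   Spec.mk (nat_lit 28964) (nat_lit 0) [nat_lit 15842, nat_lit 42086, nat_lit 24590, nat_lit 33338, nat_lit 27506, nat_lit 29450, nat_lit 28802, nat_lit 29018, nat_lit 28982, nat_lit 28958, nat_lit 28966] (nat_lit 4) [nat_lit 48646] false,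
   Spec.mk (nat_lit 28966) (nat_lit 0) [nat_lit 15844, nat_lit 42088, nat_lit 24592, nat_lit 33340, nat_lit 27508, nat_lit 29452, nat_lit 28804, nat_lit 29020, nat_lit 28984, nat_lit 28960, nat_lit 28964, nat_lit 28968] (nat_lit 2) [nat_lit 48648, nat_lit 9284] false,
   Spec.mk (nat_lit 28968) (nat_lit 0) [nat_lit 15846, nat_lit 42090, nat_lit 24594, nat_lit 33342, nat_lit 27510, nat_lit 29454, nat_lit 28806, nat_lit 29022, nat_lit 28986, nat_lit 28966] (nat_lit 2) [nat_lit 9286] false,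
   Spec.mk (nat_lit 28976) (nat_lit 0) [nat_lit 15854, nat_lit 42098, nat_lit 24602, nat_lit 33350, nat_lit 27518, nat_lit 29462, nat_lit 28814, nat_lit 29030, nat_lit 28958, nat_lit 28982, nat_lit 28978] (nat_lit 4) [nat_lit 48658] false,
   Spec.mk (nat_lit 28978) (nat_lit 0) [nat_lit 15856, nat_lit 42100, nat_lit 24604, nat_lit 33352, nat_lit 27520, nat_lit 29464, nat_lit 28816, nat_lit 29032, nat_lit 28960, nat_lit 28984, nat_lit 28976] (nat_lit 5) [nat_lit 48660, nat_lit 9296] false,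
   Spec.mk (nat_lit 28982) (nat_lit 0) [nat_lit 15860, nat_lit 42104, nat_lit 24608, nat_lit 33356, nat_lit 27524, nat_lit 29468, nat_lit 28820, nat_lit 29036, nat_lit 28964, nat_lit 28976, nat_lit 28984] (nat_lit 4) [nat_lit 48664] false,
   Spec.mk (nat_lit 28984) (nat_lit 0) [nat_lit 15862, nat_lit 42106, nat_lit 24610, nat_lit 33358, nat_lit 27526, nat_lit 29470, nat_lit 28822, nat_lit 29038, nat_lit 28966, nat_lit 28978, nat_lit 28990, nat_lit 28982, nat_lit 28986] (nat_lit 3) [nat_lit 48666, nat_lit 9302] false,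
   Spec.mk (nat_lit 28986) (nat_lit 0) [nat_lit 15864, nat_lit 42108, nat_lit 24612, nat_lit 33360, nat_lit 27528, nat_lit 29472, nat_lit 28824, nat_lit 29040, nat_lit 28968, nat_lit 28992, nat_lit 28984] (nat_lit 4) [nat_lit 9304] false,
   Spec.mk (nat_lit 28990) (nat_lit 0) [nat_lit 15868, nat_lit 42112, nat_lit 24616, nat_lit 33364, nat_lit 27532, nat_lit 29476, nat_lit 28828, nat_lit 29044, nat_lit 28984, nat_lit 28992] (nat_lit 3) [nat_lit 48672, nat_lit 9308] false,
   Spec.mk (nat_lit 28992) (nat_lit 0) [nat_lit 15870, nat_lit 42114, nat_lit 24618, nat_lit 33366, nat_lit 27534, nat_lit 29478, nat_lit 28830, nat_lit 29046, nat_lit 28986, nat_lit 28990] (nat_lit 2) [nat_lit 9310] false,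
   Spec.mk (nat_lit 29006) (nat_lit 0) [nat_lit 15884, nat_lit 42128, nat_lit 24632, nat_lit 33380, nat_lit 27548, nat_lit 29492, nat_lit 28844, nat_lit 28952, nat_lit 29012] (nat_lit 0) [nat_lit 48688] false,
   Spec.mk (nat_lit 29012) (nat_lit 0) [nat_lit 15890, nat_lit 42134, nat_lit 24638, nat_lit 33386, nat_lit 27554, nat_lit 29498, nat_lit 28850, nat_lit 28958, nat_lit 29030, nat_lit 29006, nat_lit 29018, nat_lit 29014] (nat_lit 1) [nat_lit 48694] false,
   Spec.mk (nat_lit 29014) (nat_lit 0) [nat_lit 15892, nat_lit 42136, nat_lit 24640, nat_lit 33388, nat_lit 27556, nat_lit 29500, nat_lit 28852, nat_lit 28960, nat_lit 29032, nat_lit 29020, nat_lit 29012] (nat_lit 1) [nat_lit 48696, nat_lit 9332] false,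
   Spec.mk (nat_lit 29018) (nat_lit 0) [nat_lit 15896, nat_lit 42140, nat_lit 24644, nat_lit 33392, nat_lit 27560, nat_lit 29504, nat_lit 28856, nat_lit 28964, nat_lit 29036, nat_lit 29012, nat_lit 29020] (nat_lit 4) [nat_lit 48700] false,
   Spec.mk (nat_lit 29020) (nat_lit 0) [nat_lit 15898, nat_lit 42142, nat_lit 24646, nat_lit 33394, nat_lit 27562, nat_lit 29506, nat_lit 28858, nat_lit 28966, nat_lit 29038, nat_lit 29014, nat_lit 29018, nat_lit 29022] (nat_lit 2) [nat_lit 48702, nat_lit 9338] false,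
   Spec.mk (nat_lit 29022) (nat_lit 0) [nat_lit 15900, nat_lit 42144, nat_lit 24648, nat_lit 33396, nat_lit 27564, nat_lit 29508, nat_lit 28860, nat_lit 28968, nat_lit 29040, nat_lit 29020] (nat_lit 2) [nat_lit 9340] false,
   Spec.mk (nat_lit 29030) (nat_lit 0) [nat_lit 15908, nat_lit 42152, nat_lit 24656, nat_lit 33404, nat_lit 27572, nat_lit 29516, nat_lit 28868, nat_lit 28976, nat_lit 29084, nat_lit 29012, nat_lit 29036, nat_lit 29032] (nat_lit 1) [nat_lit 48712] false,
   Spec.mk (nat_lit 29032) (nat_lit 0) [nat_lit 15910, nat_lit 42154, nat_lit 24658, nat_lit 33406, nat_lit 27574, nat_lit 29518, nat_lit 28870, nat_lit 28978, nat_lit 29086, nat_lit 29014, nat_lit 29038, nat_lit 29030] (nat_lit 2) [nat_lit 48714, nat_lit 9350] false,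
   Spec.mk (nat_lit 29036) (nat_lit 0) [nat_lit 15914, nat_lit 42158, nat_lit 24662, nat_lit 33410, nat_lit 27578, nat_lit 29522, nat_lit 28874, nat_lit 28982, nat_lit 29090, nat_lit 29018, nat_lit 29054, nat_lit 29030, nat_lit 29038] (nat_lit 2) [nat_lit 48718] false]

noncomputable def sp73 : List Spec :=
  [Spec.mk (nat_lit 29038) (nat_lit 0) [nat_lit 15916, nat_lit 42160, nat_lit 24664, nat_lit 33412, nat_lit 27580, nat_lit 29524, nat_lit 28876, nat_lit 28984, nat_lit 29092, nat_lit 29020, nat_lit 29056, nat_lit 29032, nat_lit 29044, nat_lit 29036, nat_lit 29040] (nat_lit 1) [nat_lit 48720, nat_lit 9356] false,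
   Spec.mk (nat_lit 29040) (nat_lit 0) [nat_lit 15918, nat_lit 42162, nat_lit 24666, nat_lit 33414, nat_lit 27582, nat_lit 29526, nat_lit 28878, nat_lit 28986, nat_lit 29094, nat_lit 29022, nat_lit 29058, nat_lit 29046, nat_lit 29038] (nat_lit 2) [nat_lit 9358] false,
   Spec.mk (nat_lit 29044) (nat_lit 0) [nat_lit 15922, nat_lit 42166, nat_lit 24670, nat_lit 33418, nat_lit 27586, nat_lit 29530, nat_lit 28882, nat_lit 28990, nat_lit 29098, nat_lit 29062, nat_lit 29038, nat_lit 29046] (nat_lit 2) [nat_lit 48726, nat_lit 9362] false,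
   Spec.mk (nat_lit 29046) (nat_lit 0) [nat_lit 15924, nat_lit 42168, nat_lit 24672, nat_lit 33420, nat_lit 27588, nat_lit 29532, nat_lit 28884, nat_lit 28992, nat_lit 29100, nat_lit 29064, nat_lit 29040, nat_lit 29044] (nat_lit 1) [nat_lit 9364] false,
   Spec.mk (nat_lit 29054) (nat_lit 0) [nat_lit 15932, nat_lit 42176, nat_lit 24680, nat_lit 33428, nat_lit 27596, nat_lit 29540, nat_lit 28892, nat_lit 29108, nat_lit 29036, nat_lit 29056] (nat_lit 2) [nat_lit 48736] false,
   Spec.mk (nat_lit 29056) (nat_lit 0) [nat_lit 15934, nat_lit 42178, nat_lit 24682, nat_lit 33430, nat_lit 27598, nat_lit 29542, nat_lit 28894, nat_lit 29110, nat_lit 29038, nat_lit 29062, nat_lit 29054, nat_lit 29058] (nat_lit 2) [nat_lit 48738, nat_lit 9374] false,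
   Spec.mk (nat_lit 29058) (nat_lit 0) [nat_lit 15936, nat_lit 42180, nat_lit 24684, nat_lit 33432, nat_lit 27600, nat_lit 29544, nat_lit 28896, nat_lit 29112, nat_lit 29040, nat_lit 29064, nat_lit 29056] (nat_lit 4) [nat_lit 9376] false,
   Spec.mk (nat_lit 29062) (nat_lit 0) [nat_lit 15940, nat_lit 42184, nat_lit 24688, nat_lit 33436, nat_lit 27604, nat_lit 29548, nat_lit 28900, nat_lit 29116, nat_lit 29044, nat_lit 29056, nat_lit 29064] (nat_lit 1) [nat_lit 48744, nat_lit 9380] false,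
   Spec.mk (nat_lit 29064) (nat_lit 0) [nat_lit 15942, nat_lit 42186, nat_lit 24690, nat_lit 33438, nat_lit 27606, nat_lit 29550, nat_lit 28902, nat_lit 29118, nat_lit 29046, nat_lit 29058, nat_lit 29070, nat_lit 29062] (nat_lit 1) [nat_lit 9382] false,
   Spec.mk (nat_lit 29070) (nat_lit 0) [nat_lit 15948, nat_lit 42192, nat_lit 24696, nat_lit 33444, nat_lit 27612, nat_lit 29556, nat_lit 28908, nat_lit 29124, nat_lit 29064] (nat_lit 0) [nat_lit 9388] false,
   Spec.mk (nat_lit 29084) (nat_lit 0) [nat_lit 15962, nat_lit 42206, nat_lit 24710, nat_lit 33458, nat_lit 27626, nat_lit 29570, nat_lit 29030, nat_lit 29090, nat_lit 29086] (nat_lit 0) [nat_lit 48766] false,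
   Spec.mk (nat_lit 29086) (nat_lit 0) [nat_lit 15964, nat_lit 42208, nat_lit 24712, nat_lit 33460, nat_lit 27628, nat_lit 29572, nat_lit 29032, nat_lit 29092, nat_lit 29084] (nat_lit 1) [nat_lit 48768, nat_lit 9404] false,
   Spec.mk (nat_lit 29090) (nat_lit 0) [nat_lit 15968, nat_lit 42212, nat_lit 24716, nat_lit 33464, nat_lit 27632, nat_lit 29576, nat_lit 29036, nat_lit 29108, nat_lit 29084, nat_lit 29092] (nat_lit 2) [nat_lit 48772] false,
   Spec.mk (nat_lit 29092) (nat_lit 0) [nat_lit 15970, nat_lit 42214, nat_lit 24718, nat_lit 33466, nat_lit 27634, nat_lit 29578, nat_lit 29038, nat_lit 29110, nat_lit 29086, nat_lit 29098, nat_lit 29090, nat_lit 29094] (nat_lit 1) [nat_lit 48774, nat_lit 9410] false,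
   Spec.mk (nat_lit 29094) (nat_lit 0) [nat_lit 15972, nat_lit 42216, nat_lit 24720, nat_lit 33468, nat_lit 27636, nat_lit 29580, nat_lit 29040, nat_lit 29112, nat_lit 29100, nat_lit 29092] (nat_lit 2) [nat_lit 9412] false,
   Spec.mk (nat_lit 29098) (nat_lit 0) [nat_lit 15976, nat_lit 42220, nat_lit 24724, nat_lit 33472, nat_lit 27640, nat_lit 29584, nat_lit 29044, nat_lit 29116, nat_lit 29092, nat_lit 29100] (nat_lit 3) [nat_lit 48780, nat_lit 9416] false,
   Spec.mk (nat_lit 29100) (nat_lit 0) [nat_lit 15978, nat_lit 42222, nat_lit 24726, nat_lit 33474, nat_lit 27642, nat_lit 29586, nat_lit 29046, nat_lit 29118, nat_lit 29094, nat_lit 29098] (nat_lit 2) [nat_lit 9418] false,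
   Spec.mk (nat_lit 29108) (nat_lit 0) [nat_lit 15986, nat_lit 42230, nat_lit 24734, nat_lit 33482, nat_lit 27650, nat_lit 29594, nat_lit 29054, nat_lit 29090, nat_lit 29110] (nat_lit 0) [nat_lit 48790] false,
   Spec.mk (nat_lit 29110) (nat_lit 0) [nat_lit 15988, nat_lit 42232, nat_lit 24736, nat_lit 33484, nat_lit 27652, nat_lit 29596, nat_lit 29056, nat_lit 29092, nat_lit 29116, nat_lit 29108, nat_lit 29112] (nat_lit 0) [nat_lit 48792, nat_lit 9428] false,
   Spec.mk (nat_lit 29112) (nat_lit 0) [nat_lit 15990, nat_lit 42234, nat_lit 24738, nat_lit 33486, nat_lit 27654, nat_lit 29598, nat_lit 29058, nat_lit 29094, nat_lit 29118, nat_lit 29110] (nat_lit 2) [nat_lit 9430] false,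
   Spec.mk (nat_lit 29116) (nat_lit 0) [nat_lit 15994, nat_lit 42238, nat_lit 24742, nat_lit 33490, nat_lit 27658, nat_lit 29602, nat_lit 29062, nat_lit 29098, nat_lit 29134, nat_lit 29110, nat_lit 29118] (nat_lit 0) [nat_lit 48798, nat_lit 9434] false,
   Spec.mk (nat_lit 29118) (nat_lit 0) [nat_lit 15996, nat_lit 42240, nat_lit 24744, nat_lit 33492, nat_lit 27660, nat_lit 29604, nat_lit 29064, nat_lit 29100, nat_lit 29136, nat_lit 29112, nat_lit 29124, nat_lit 29116] (nat_lit 0) [nat_lit 9436] false,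
   Spec.mk (nat_lit 29124) (nat_lit 0) [nat_lit 16002, nat_lit 42246, nat_lit 24750, nat_lit 33498, nat_lit 27666, nat_lit 29610, nat_lit 29070, nat_lit 29142, nat_lit 29118] (nat_lit 0) [nat_lit 9442] false,
   Spec.mk (nat_lit 29134) (nat_lit 1) [nat_lit 16012, nat_lit 42256, nat_lit 24760, nat_lit 33508, nat_lit 27676, nat_lit 29620, nat_lit 29116, nat_lit 29136] (nat_lit 0) [nat_lit 48816, nat_lit 9452] false,
   Spec.mk (nat_lit 29136) (nat_lit 0) [nat_lit 16014, nat_lit 42258, nat_lit 24762, nat_lit 33510, nat_lit 27678, nat_lit 29622, nat_lit 29118, nat_lit 29142, nat_lit 29134] (nat_lit 0) [nat_lit 9454] false,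
   Spec.mk (nat_lit 29142) (nat_lit 2) [nat_lit 16020, nat_lit 42264, nat_lit 24768, nat_lit 33516, nat_lit 27684, nat_lit 29628, nat_lit 29124, nat_lit 29136] (nat_lit 0) [nat_lit 9460] false,
   Spec.mk (nat_lit 29186) (nat_lit 3) [nat_lit 16064, nat_lit 42308, nat_lit 24812, nat_lit 33560, nat_lit 27728, nat_lit 30644, nat_lit 28700, nat_lit 29204] (nat_lit 0) [nat_lit 48868] false,
   Spec.mk (nat_lit 29204) (nat_lit 2) [nat_lit 16082, nat_lit 42326, nat_lit 24830, nat_lit 33578, nat_lit 27746, nat_lit 30662, nat_lit 28718, nat_lit 29258, nat_lit 29186, nat_lit 29222, nat_lit 29210] (nat_lit 0) [nat_lit 48886] false,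
   Spec.mk (nat_lit 29210) (nat_lit 1) [nat_lit 16088, nat_lit 42332, nat_lit 24836, nat_lit 33584, nat_lit 27752, nat_lit 30668, nat_lit 28724, nat_lit 29264, nat_lit 29228, nat_lit 29204, nat_lit 29212] (nat_lit 0) [nat_lit 48892] false,
   Spec.mk (nat_lit 29212) (nat_lit 2) [nat_lit 16090, nat_lit 42334, nat_lit 24838, nat_lit 33586, nat_lit 27754, nat_lit 30670, nat_lit 28726, nat_lit 29266, nat_lit 29230, nat_lit 29210] (nat_lit 0) [nat_lit 48894, nat_lit 9530] false,
   Spec.mk (nat_lit 29222) (nat_lit 0) [nat_lit 16100, nat_lit 42344, nat_lit 24848, nat_lit 33596, nat_lit 27764, nat_lit 30680, nat_lit 28736, nat_lit 29276, nat_lit 29204, nat_lit 29228] (nat_lit 1) [nat_lit 48904] false,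
   Spec.mk (nat_lit 29228) (nat_lit 0) [nat_lit 16106, nat_lit 42350, nat_lit 24854, nat_lit 33602, nat_lit 27770, nat_lit 30686, nat_lit 28742, nat_lit 29282, nat_lit 29210, nat_lit 29222, nat_lit 29234, nat_lit 29230] (nat_lit 0) [nat_lit 48910] false,
   Spec.mk (nat_lit 29230) (nat_lit 0) [nat_lit 16108, nat_lit 42352, nat_lit 24856, nat_lit 33604, nat_lit 27772, nat_lit 30688, nat_lit 28744, nat_lit 29284, nat_lit 29212, nat_lit 29236, nat_lit 29228] (nat_lit 0) [nat_lit 48912, nat_lit 9548] false,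
   Spec.mk (nat_lit 29234) (nat_lit 0) [nat_lit 16112, nat_lit 42356, nat_lit 24860, nat_lit 33608, nat_lit 27776, nat_lit 30692, nat_lit 28748, nat_lit 29288, nat_lit 29228, nat_lit 29236] (nat_lit 1) [nat_lit 48916] false,
   Spec.mk (nat_lit 29236) (nat_lit 1) [nat_lit 16114, nat_lit 42358, nat_lit 24862, nat_lit 33610, nat_lit 27778, nat_lit 30694, nat_lit 28750, nat_lit 29290, nat_lit 29230, nat_lit 29234, nat_lit 29238] (nat_lit 0) [nat_lit 48918, nat_lit 9554] false,
   Spec.mk (nat_lit 29238) (nat_lit 1) [nat_lit 16116, nat_lit 42360, nat_lit 24864, nat_lit 33612, nat_lit 27780, nat_lit 30696, nat_lit 28752, nat_lit 29292, nat_lit 29236] (nat_lit 0) [nat_lit 9556] false,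
   Spec.mk (nat_lit 29258) (nat_lit 1) [nat_lit 16136, nat_lit 42380, nat_lit 24884, nat_lit 33632, nat_lit 27800, nat_lit 30716, nat_lit 28772, nat_lit 29420, nat_lit 29204, nat_lit 29276, nat_lit 29264] (nat_lit 0) [nat_lit 48940] false,
   Spec.mk (nat_lit 29264) (nat_lit 0) [nat_lit 16142, nat_lit 42386, nat_lit 24890, nat_lit 33638, nat_lit 27806, nat_lit 30722, nat_lit 28778, nat_lit 29426, nat_lit 29210, nat_lit 29282, nat_lit 29258, nat_lit 29266] (nat_lit 1) [nat_lit 48946] false,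
   Spec.mk (nat_lit 29266) (nat_lit 0) [nat_lit 16144, nat_lit 42388, nat_lit 24892, nat_lit 33640, nat_lit 27808, nat_lit 30724, nat_lit 28780, nat_lit 29428, nat_lit 29212, nat_lit 29284, nat_lit 29264] (nat_lit 0) [nat_lit 48948, nat_lit 9584] false,
   Spec.mk (nat_lit 29276) (nat_lit 0) [nat_lit 16154, nat_lit 42398, nat_lit 24902, nat_lit 33650, nat_lit 27818, nat_lit 30734, nat_lit 28790, nat_lit 29438, nat_lit 29222, nat_lit 29330, nat_lit 29258, nat_lit 29282] (nat_lit 0) [nat_lit 48958] false,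
   Spec.mk (nat_lit 29282) (nat_lit 0) [nat_lit 16160, nat_lit 42404, nat_lit 24908, nat_lit 33656, nat_lit 27824, nat_lit 30740, nat_lit 28796, nat_lit 29444, nat_lit 29228, nat_lit 29336, nat_lit 29264, nat_lit 29300, nat_lit 29276, nat_lit 29288, nat_lit 29284] (nat_lit 0) [nat_lit 48964] false,
   Spec.mk (nat_lit 29284) (nat_lit 0) [nat_lit 16162, nat_lit 42406, nat_lit 24910, nat_lit 33658, nat_lit 27826, nat_lit 30742, nat_lit 28798, nat_lit 29446, nat_lit 29230, nat_lit 29338, nat_lit 29266, nat_lit 29302, nat_lit 29290, nat_lit 29282] (nat_lit 0) [nat_lit 48966, nat_lit 9602] false,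
   Spec.mk (nat_lit 29288) (nat_lit 0) [nat_lit 16166, nat_lit 42410, nat_lit 24914, nat_lit 33662, nat_lit 27830, nat_lit 30746, nat_lit 28802, nat_lit 29450, nat_lit 29234, nat_lit 29342, nat_lit 29306, nat_lit 29282, nat_lit 29290] (nat_lit 2) [nat_lit 48970] false,
   Spec.mk (nat_lit 29290) (nat_lit 0) [nat_lit 16168, nat_lit 42412, nat_lit 24916, nat_lit 33664, nat_lit 27832, nat_lit 30748, nat_lit 28804, nat_lit 29452, nat_lit 29236, nat_lit 29344, nat_lit 29308, nat_lit 29284, nat_lit 29288, nat_lit 29292] (nat_lit 0) [nat_lit 48972, nat_lit 9608] false,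
   Spec.mk (nat_lit 29292) (nat_lit 0) [nat_lit 16170, nat_lit 42414, nat_lit 24918, nat_lit 33666, nat_lit 27834, nat_lit 30750, nat_lit 28806, nat_lit 29454, nat_lit 29238, nat_lit 29346, nat_lit 29310, nat_lit 29290] (nat_lit 0) [nat_lit 9610] false,
   Spec.mk (nat_lit 29300) (nat_lit 0) [nat_lit 16178, nat_lit 42422, nat_lit 24926, nat_lit 33674, nat_lit 27842, nat_lit 30758, nat_lit 28814, nat_lit 29462, nat_lit 29354, nat_lit 29282, nat_lit 29306, nat_lit 29302] (nat_lit 1) [nat_lit 48982] false,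
   Spec.mk (nat_lit 29302) (nat_lit 0) [nat_lit 16180, nat_lit 42424, nat_lit 24928, nat_lit 33676, nat_lit 27844, nat_lit 30760, nat_lit 28816, nat_lit 29464, nat_lit 29356, nat_lit 29284, nat_lit 29308, nat_lit 29300] (nat_lit 2) [nat_lit 48984, nat_lit 9620] false,
   Spec.mk (nat_lit 29306) (nat_lit 0) [nat_lit 16184, nat_lit 42428, nat_lit 24932, nat_lit 33680, nat_lit 27848, nat_lit 30764, nat_lit 28820, nat_lit 29468, nat_lit 29360, nat_lit 29288, nat_lit 29300, nat_lit 29308] (nat_lit 1) [nat_lit 48988] false,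
   Spec.mk (nat_lit 29308) (nat_lit 0) [nat_lit 16186, nat_lit 42430, nat_lit 24934, nat_lit 33682, nat_lit 27850, nat_lit 30766, nat_lit 28822, nat_lit 29470, nat_lit 29362, nat_lit 29290, nat_lit 29302, nat_lit 29314, nat_lit 29306, nat_lit 29310] (nat_lit 0) [nat_lit 48990, nat_lit 9626] false,
   Spec.mk (nat_lit 29310) (nat_lit 0) [nat_lit 16188, nat_lit 42432, nat_lit 24936, nat_lit 33684, nat_lit 27852, nat_lit 30768, nat_lit 28824, nat_lit 29472, nat_lit 29364, nat_lit 29292, nat_lit 29316, nat_lit 29308] (nat_lit 1) [nat_lit 9628] false,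
   Spec.mk (nat_lit 29314) (nat_lit 0) [nat_lit 16192, nat_lit 42436, nat_lit 24940, nat_lit 33688, nat_lit 27856, nat_lit 30772, nat_lit 28828, nat_lit 29476, nat_lit 29368, nat_lit 29308, nat_lit 29316] (nat_lit 0) [nat_lit 48996, nat_lit 9632] false,
   Spec.mk (nat_lit 29316) (nat_lit 1) [nat_lit 16194, nat_lit 42438, nat_lit 24942, nat_lit 33690, nat_lit 27858, nat_lit 30774, nat_lit 28830, nat_lit 29478, nat_lit 29370, nat_lit 29310, nat_lit 29314] (nat_lit 0) [nat_lit 9634] false,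
   Spec.mk (nat_lit 29330) (nat_lit 0) [nat_lit 16208, nat_lit 42452, nat_lit 24956, nat_lit 33704, nat_lit 27872, nat_lit 30788, nat_lit 28844, nat_lit 29492, nat_lit 29276, nat_lit 29336] (nat_lit 1) [nat_lit 49012] false,
   Spec.mk (nat_lit 29336) (nat_lit 0) [nat_lit 16214, nat_lit 42458, nat_lit 24962, nat_lit 33710, nat_lit 27878, nat_lit 30794, nat_lit 28850, nat_lit 29498, nat_lit 29282, nat_lit 29354, nat_lit 29330, nat_lit 29342, nat_lit 29338] (nat_lit 2) [nat_lit 49018] false,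
   Spec.mk (nat_lit 29338) (nat_lit 0) [nat_lit 16216, nat_lit 42460, nat_lit 24964, nat_lit 33712, nat_lit 27880, nat_lit 30796, nat_lit 28852, nat_lit 29500, nat_lit 29284, nat_lit 29356, nat_lit 29344, nat_lit 29336] (nat_lit 2) [nat_lit 49020, nat_lit 9656] false,
   Spec.mk (nat_lit 29342) (nat_lit 0) [nat_lit 16220, nat_lit 42464, nat_lit 24968, nat_lit 33716, nat_lit 27884, nat_lit 30800, nat_lit 28856, nat_lit 29504, nat_lit 29288, nat_lit 29360, nat_lit 29336, nat_lit 29344] (nat_lit 5) [nat_lit 49024] false,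
   Spec.mk (nat_lit 29344) (nat_lit 0) [nat_lit 16222, nat_lit 42466, nat_lit 24970, nat_lit 33718, nat_lit 27886, nat_lit 30802, nat_lit 28858, nat_lit 29506, nat_lit 29290, nat_lit 29362, nat_lit 29338, nat_lit 29342, nat_lit 29346] (nat_lit 3) [nat_lit 49026, nat_lit 9662] false,
   Spec.mk (nat_lit 29346) (nat_lit 0) [nat_lit 16224, nat_lit 42468, nat_lit 24972, nat_lit 33720, nat_lit 27888, nat_lit 30804, nat_lit 28860, nat_lit 29508, nat_lit 29292, nat_lit 29364, nat_lit 29344] (nat_lit 3) [nat_lit 9664] false,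
   Spec.mk (nat_lit 29354) (nat_lit 0) [nat_lit 16232, nat_lit 42476, nat_lit 24980, nat_lit 33728, nat_lit 27896, nat_lit 30812, nat_lit 28868, nat_lit 29516, nat_lit 29300, nat_lit 29336, nat_lit 29360, nat_lit 29356] (nat_lit 1) [nat_lit 49036] false,
   Spec.mk (nat_lit 29356) (nat_lit 0) [nat_lit 16234, nat_lit 42478, nat_lit 24982, nat_lit 33730, nat_lit 27898, nat_lit 30814, nat_lit 28870, nat_lit 29518, nat_lit 29302, nat_lit 29338, nat_lit 29362, nat_lit 29354] (nat_lit 2) [nat_lit 49038, nat_lit 9674] false]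

noncomputable def sp74 : List Spec :=
  [Spec.mk (nat_lit 29360) (nat_lit 0) [nat_lit 16238, nat_lit 42482, nat_lit 24986, nat_lit 33734, nat_lit 27902, nat_lit 30818, nat_lit 28874, nat_lit 29522, nat_lit 29306, nat_lit 29342, nat_lit 29378, nat_lit 29354, nat_lit 29362] (nat_lit 2) [nat_lit 49042] false,
   Spec.mk (nat_lit 29362) (nat_lit 0) [nat_lit 16240, nat_lit 42484, nat_lit 24988, nat_lit 33736, nat_lit 27904, nat_lit 30820, nat_lit 28876, nat_lit 29524, nat_lit 29308, nat_lit 29344, nat_lit 29380, nat_lit 29356, nat_lit 29368, nat_lit 29360, nat_lit 29364] (nat_lit 1) [nat_lit 49044, nat_lit 9680] false,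
   Spec.mk (nat_lit 29364) (nat_lit 0) [nat_lit 16242, nat_lit 42486, nat_lit 24990, nat_lit 33738, nat_lit 27906, nat_lit 30822, nat_lit 28878, nat_lit 29526, nat_lit 29310, nat_lit 29346, nat_lit 29382, nat_lit 29370, nat_lit 29362] (nat_lit 2) [nat_lit 9682] false,
   Spec.mk (nat_lit 29368) (nat_lit 0) [nat_lit 16246, nat_lit 42490, nat_lit 24994, nat_lit 33742, nat_lit 27910, nat_lit 30826, nat_lit 28882, nat_lit 29530, nat_lit 29314, nat_lit 29386, nat_lit 29362, nat_lit 29370] (nat_lit 2) [nat_lit 49050, nat_lit 9686] false,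
   Spec.mk (nat_lit 29370) (nat_lit 0) [nat_lit 16248, nat_lit 42492, nat_lit 24996, nat_lit 33744, nat_lit 27912, nat_lit 30828, nat_lit 28884, nat_lit 29532, nat_lit 29316, nat_lit 29388, nat_lit 29364, nat_lit 29368] (nat_lit 1) [nat_lit 9688] false,
   Spec.mk (nat_lit 29378) (nat_lit 0) [nat_lit 16256, nat_lit 42500, nat_lit 25004, nat_lit 33752, nat_lit 27920, nat_lit 30836, nat_lit 28892, nat_lit 29540, nat_lit 29360, nat_lit 29380] (nat_lit 1) [nat_lit 49060] false,
   Spec.mk (nat_lit 29380) (nat_lit 0) [nat_lit 16258, nat_lit 42502, nat_lit 25006, nat_lit 33754, nat_lit 27922, nat_lit 30838, nat_lit 28894, nat_lit 29542, nat_lit 29362, nat_lit 29386, nat_lit 29378, nat_lit 29382] (nat_lit 1) [nat_lit 49062, nat_lit 9698] false,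
   Spec.mk (nat_lit 29382) (nat_lit 0) [nat_lit 16260, nat_lit 42504, nat_lit 25008, nat_lit 33756, nat_lit 27924, nat_lit 30840, nat_lit 28896, nat_lit 29544, nat_lit 29364, nat_lit 29388, nat_lit 29380] (nat_lit 3) [nat_lit 9700] false,
   Spec.mk (nat_lit 29386) (nat_lit 0) [nat_lit 16264, nat_lit 42508, nat_lit 25012, nat_lit 33760, nat_lit 27928, nat_lit 30844, nat_lit 28900, nat_lit 29548, nat_lit 29368, nat_lit 29380, nat_lit 29388] (nat_lit 0) [nat_lit 49068, nat_lit 9704] false,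
   Spec.mk (nat_lit 29388) (nat_lit 0) [nat_lit 16266, nat_lit 42510, nat_lit 25014, nat_lit 33762, nat_lit 27930, nat_lit 30846, nat_lit 28902, nat_lit 29550, nat_lit 29370, nat_lit 29382, nat_lit 29394, nat_lit 29386] (nat_lit 0) [nat_lit 9706] false,
   Spec.mk (nat_lit 29394) (nat_lit 1) [nat_lit 16272, nat_lit 42516, nat_lit 25020, nat_lit 33768, nat_lit 27936, nat_lit 30852, nat_lit 28908, nat_lit 29556, nat_lit 29388] (nat_lit 0) [nat_lit 9712] false,
   Spec.mk (nat_lit 29420) (nat_lit 2) [nat_lit 16298, nat_lit 42542, nat_lit 25046, nat_lit 33794, nat_lit 27962, nat_lit 30878, nat_lit 28934, nat_lit 29906, nat_lit 29258, nat_lit 29438, nat_lit 29426] (nat_lit 0) [nat_lit 49102] false,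
   Spec.mk (nat_lit 29426) (nat_lit 0) [nat_lit 16304, nat_lit 42548, nat_lit 25052, nat_lit 33800, nat_lit 27968, nat_lit 30884, nat_lit 28940, nat_lit 29912, nat_lit 29264, nat_lit 29444, nat_lit 29420, nat_lit 29428] (nat_lit 0) [nat_lit 49108] false,
   Spec.mk (nat_lit 29428) (nat_lit 1) [nat_lit 16306, nat_lit 42550, nat_lit 25054, nat_lit 33802, nat_lit 27970, nat_lit 30886, nat_lit 28942, nat_lit 29914, nat_lit 29266, nat_lit 29446, nat_lit 29426] (nat_lit 0) [nat_lit 49110, nat_lit 9746] false,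
   Spec.mk (nat_lit 29438) (nat_lit 0) [nat_lit 16316, nat_lit 42560, nat_lit 25064, nat_lit 33812, nat_lit 27980, nat_lit 30896, nat_lit 28952, nat_lit 29924, nat_lit 29276, nat_lit 29492, nat_lit 29420, nat_lit 29444] (nat_lit 0) [nat_lit 49120] false,
   Spec.mk (nat_lit 29444) (nat_lit 0) [nat_lit 16322, nat_lit 42566, nat_lit 25070, nat_lit 33818, nat_lit 27986, nat_lit 30902, nat_lit 28958, nat_lit 29930, nat_lit 29282, nat_lit 29498, nat_lit 29426, nat_lit 29462, nat_lit 29438, nat_lit 29450, nat_lit 29446] (nat_lit 0) [nat_lit 49126] false,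
   Spec.mk (nat_lit 29446) (nat_lit 0) [nat_lit 16324, nat_lit 42568, nat_lit 25072, nat_lit 33820, nat_lit 27988, nat_lit 30904, nat_lit 28960, nat_lit 29932, nat_lit 29284, nat_lit 29500, nat_lit 29428, nat_lit 29464, nat_lit 29452, nat_lit 29444] (nat_lit 0) [nat_lit 49128, nat_lit 9764] false,
   Spec.mk (nat_lit 29450) (nat_lit 0) [nat_lit 16328, nat_lit 42572, nat_lit 25076, nat_lit 33824, nat_lit 27992, nat_lit 30908, nat_lit 28964, nat_lit 29936, nat_lit 29288, nat_lit 29504, nat_lit 29468, nat_lit 29444, nat_lit 29452] (nat_lit 2) [nat_lit 49132] false,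
   Spec.mk (nat_lit 29452) (nat_lit 0) [nat_lit 16330, nat_lit 42574, nat_lit 25078, nat_lit 33826, nat_lit 27994, nat_lit 30910, nat_lit 28966, nat_lit 29938, nat_lit 29290, nat_lit 29506, nat_lit 29470, nat_lit 29446, nat_lit 29450, nat_lit 29454] (nat_lit 0) [nat_lit 49134, nat_lit 9770] false,
   Spec.mk (nat_lit 29454) (nat_lit 0) [nat_lit 16332, nat_lit 42576, nat_lit 25080, nat_lit 33828, nat_lit 27996, nat_lit 30912, nat_lit 28968, nat_lit 29940, nat_lit 29292, nat_lit 29508, nat_lit 29472, nat_lit 29452] (nat_lit 0) [nat_lit 9772] false,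
   Spec.mk (nat_lit 29462) (nat_lit 0) [nat_lit 16340, nat_lit 42584, nat_lit 25088, nat_lit 33836, nat_lit 28004, nat_lit 30920, nat_lit 28976, nat_lit 29948, nat_lit 29300, nat_lit 29516, nat_lit 29444, nat_lit 29468, nat_lit 29464] (nat_lit 2) [nat_lit 49144] false,
   Spec.mk (nat_lit 29464) (nat_lit 0) [nat_lit 16342, nat_lit 42586, nat_lit 25090, nat_lit 33838, nat_lit 28006, nat_lit 30922, nat_lit 28978, nat_lit 29950, nat_lit 29302, nat_lit 29518, nat_lit 29446, nat_lit 29470, nat_lit 29462] (nat_lit 3) [nat_lit 49146, nat_lit 9782] false,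
   Spec.mk (nat_lit 29468) (nat_lit 0) [nat_lit 16346, nat_lit 42590, nat_lit 25094, nat_lit 33842, nat_lit 28010, nat_lit 30926, nat_lit 28982, nat_lit 29954, nat_lit 29306, nat_lit 29522, nat_lit 29450, nat_lit 29462, nat_lit 29470] (nat_lit 2) [nat_lit 49150] false,
   Spec.mk (nat_lit 29470) (nat_lit 0) [nat_lit 16348, nat_lit 42592, nat_lit 25096, nat_lit 33844, nat_lit 28012, nat_lit 30928, nat_lit 28984, nat_lit 29956, nat_lit 29308, nat_lit 29524, nat_lit 29452, nat_lit 29464, nat_lit 29476, nat_lit 29468, nat_lit 29472] (nat_lit 1) [nat_lit 49152, nat_lit 9788] false,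
   Spec.mk (nat_lit 29472) (nat_lit 0) [nat_lit 16350, nat_lit 42594, nat_lit 25098, nat_lit 33846, nat_lit 28014, nat_lit 30930, nat_lit 28986, nat_lit 29958, nat_lit 29310, nat_lit 29526, nat_lit 29454, nat_lit 29478, nat_lit 29470] (nat_lit 2) [nat_lit 9790] false,
   Spec.mk (nat_lit 29476) (nat_lit 0) [nat_lit 16354, nat_lit 42598, nat_lit 25102, nat_lit 33850, nat_lit 28018, nat_lit 30934, nat_lit 28990, nat_lit 29962, nat_lit 29314, nat_lit 29530, nat_lit 29470, nat_lit 29478] (nat_lit 1) [nat_lit 49158, nat_lit 9794] false,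
   Spec.mk (nat_lit 29478) (nat_lit 0) [nat_lit 16356, nat_lit 42600, nat_lit 25104, nat_lit 33852, nat_lit 28020, nat_lit 30936, nat_lit 28992, nat_lit 29964, nat_lit 29316, nat_lit 29532, nat_lit 29472, nat_lit 29476] (nat_lit 0) [nat_lit 9796] false,
   Spec.mk (nat_lit 29492) (nat_lit 1) [nat_lit 16370, nat_lit 42614, nat_lit 25118, nat_lit 33866, nat_lit 28034, nat_lit 30950, nat_lit 29006, nat_lit 29978, nat_lit 29330, nat_lit 29654, nat_lit 29438, nat_lit 29498] (nat_lit 0) [nat_lit 49174] false,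
   Spec.mk (nat_lit 29498) (nat_lit 0) [nat_lit 16376, nat_lit 42620, nat_lit 25124, nat_lit 33872, nat_lit 28040, nat_lit 30956, nat_lit 29012, nat_lit 29984, nat_lit 29336, nat_lit 29660, nat_lit 29444, nat_lit 29516, nat_lit 29492, nat_lit 29504, nat_lit 29500] (nat_lit 0) [nat_lit 49180] false,
   Spec.mk (nat_lit 29500) (nat_lit 0) [nat_lit 16378, nat_lit 42622, nat_lit 25126, nat_lit 33874, nat_lit 28042, nat_lit 30958, nat_lit 29014, nat_lit 29986, nat_lit 29338, nat_lit 29662, nat_lit 29446, nat_lit 29518, nat_lit 29506, nat_lit 29498] (nat_lit 0) [nat_lit 49182, nat_lit 9818] false,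
   Spec.mk (nat_lit 29504) (nat_lit 0) [nat_lit 16382, nat_lit 42626, nat_lit 25130, nat_lit 33878, nat_lit 28046, nat_lit 30962, nat_lit 29018, nat_lit 29990, nat_lit 29342, nat_lit 29666, nat_lit 29450, nat_lit 29522, nat_lit 29498, nat_lit 29506] (nat_lit 3) [nat_lit 49186] false,
   Spec.mk (nat_lit 29506) (nat_lit 0) [nat_lit 16384, nat_lit 42628, nat_lit 25132, nat_lit 33880, nat_lit 28048, nat_lit 30964, nat_lit 29020, nat_lit 29992, nat_lit 29344, nat_lit 29668, nat_lit 29452, nat_lit 29524, nat_lit 29500, nat_lit 29504, nat_lit 29508] (nat_lit 1) [nat_lit 49188, nat_lit 9824] false,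
   Spec.mk (nat_lit 29508) (nat_lit 0) [nat_lit 16386, nat_lit 42630, nat_lit 25134, nat_lit 33882, nat_lit 28050, nat_lit 30966, nat_lit 29022, nat_lit 29994, nat_lit 29346, nat_lit 29670, nat_lit 29454, nat_lit 29526, nat_lit 29506] (nat_lit 1) [nat_lit 9826] false,
   Spec.mk (nat_lit 29516) (nat_lit 0) [nat_lit 16394, nat_lit 42638, nat_lit 25142, nat_lit 33890, nat_lit 28058, nat_lit 30974, nat_lit 29030, nat_lit 30002, nat_lit 29354, nat_lit 29678, nat_lit 29462, nat_lit 29570, nat_lit 29498, nat_lit 29522, nat_lit 29518] (nat_lit 0) [nat_lit 49198] false,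
   Spec.mk (nat_lit 29518) (nat_lit 0) [nat_lit 16396, nat_lit 42640, nat_lit 25144, nat_lit 33892, nat_lit 28060, nat_lit 30976, nat_lit 29032, nat_lit 30004, nat_lit 29356, nat_lit 29680, nat_lit 29464, nat_lit 29572, nat_lit 29500, nat_lit 29524, nat_lit 29516] (nat_lit 1) [nat_lit 49200, nat_lit 9836] false,
   Spec.mk (nat_lit 29522) (nat_lit 0) [nat_lit 16400, nat_lit 42644, nat_lit 25148, nat_lit 33896, nat_lit 28064, nat_lit 30980, nat_lit 29036, nat_lit 30008, nat_lit 29360, nat_lit 29684, nat_lit 29468, nat_lit 29576, nat_lit 29504, nat_lit 29540, nat_lit 29516, nat_lit 29524] (nat_lit 1) [nat_lit 49204] false,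
   Spec.mk (nat_lit 29524) (nat_lit 0) [nat_lit 16402, nat_lit 42646, nat_lit 25150, nat_lit 33898, nat_lit 28066, nat_lit 30982, nat_lit 29038, nat_lit 30010, nat_lit 29362, nat_lit 29686, nat_lit 29470, nat_lit 29578, nat_lit 29506, nat_lit 29542, nat_lit 29518, nat_lit 29530, nat_lit 29522, nat_lit 29526] (nat_lit 0) [nat_lit 49206, nat_lit 9842] true,
   Spec.mk (nat_lit 29526) (nat_lit 0) [nat_lit 16404, nat_lit 42648, nat_lit 25152, nat_lit 33900, nat_lit 28068, nat_lit 30984, nat_lit 29040, nat_lit 30012, nat_lit 29364, nat_lit 29688, nat_lit 29472, nat_lit 29580, nat_lit 29508, nat_lit 29544, nat_lit 29532, nat_lit 29524] (nat_lit 1) [nat_lit 9844] false,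
   Spec.mk (nat_lit 29530) (nat_lit 0) [nat_lit 16408, nat_lit 42652, nat_lit 25156, nat_lit 33904, nat_lit 28072, nat_lit 30988, nat_lit 29044, nat_lit 30016, nat_lit 29368, nat_lit 29692, nat_lit 29476, nat_lit 29584, nat_lit 29548, nat_lit 29524, nat_lit 29532] (nat_lit 1) [nat_lit 49212, nat_lit 9848] false,
   Spec.mk (nat_lit 29532) (nat_lit 0) [nat_lit 16410, nat_lit 42654, nat_lit 25158, nat_lit 33906, nat_lit 28074, nat_lit 30990, nat_lit 29046, nat_lit 30018, nat_lit 29370, nat_lit 29694, nat_lit 29478, nat_lit 29586, nat_lit 29550, nat_lit 29526, nat_lit 29530] (nat_lit 0) [nat_lit 9850] false,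
   Spec.mk (nat_lit 29540) (nat_lit 0) [nat_lit 16418, nat_lit 42662, nat_lit 25166, nat_lit 33914, nat_lit 28082, nat_lit 30998, nat_lit 29054, nat_lit 30026, nat_lit 29378, nat_lit 29702, nat_lit 29594, nat_lit 29522, nat_lit 29542] (nat_lit 1) [nat_lit 49222] false,
   Spec.mk (nat_lit 29542) (nat_lit 0) [nat_lit 16420, nat_lit 42664, nat_lit 25168, nat_lit 33916, nat_lit 28084, nat_lit 31000, nat_lit 29056, nat_lit 30028, nat_lit 29380, nat_lit 29704, nat_lit 29596, nat_lit 29524, nat_lit 29548, nat_lit 29540, nat_lit 29544] (nat_lit 1) [nat_lit 49224, nat_lit 9860] false,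
   Spec.mk (nat_lit 29544) (nat_lit 0) [nat_lit 16422, nat_lit 42666, nat_lit 25170, nat_lit 33918, nat_lit 28086, nat_lit 31002, nat_lit 29058, nat_lit 30030, nat_lit 29382, nat_lit 29706, nat_lit 29598, nat_lit 29526, nat_lit 29550, nat_lit 29542] (nat_lit 3) [nat_lit 9862] false,
   Spec.mk (nat_lit 29548) (nat_lit 0) [nat_lit 16426, nat_lit 42670, nat_lit 25174, nat_lit 33922, nat_lit 28090, nat_lit 31006, nat_lit 29062, nat_lit 30034, nat_lit 29386, nat_lit 29710, nat_lit 29602, nat_lit 29530, nat_lit 29542, nat_lit 29550] (nat_lit 0) [nat_lit 49230, nat_lit 9866] false,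
   Spec.mk (nat_lit 29550) (nat_lit 0) [nat_lit 16428, nat_lit 42672, nat_lit 25176, nat_lit 33924, nat_lit 28092, nat_lit 31008, nat_lit 29064, nat_lit 30036, nat_lit 29388, nat_lit 29712, nat_lit 29604, nat_lit 29532, nat_lit 29544, nat_lit 29556, nat_lit 29548] (nat_lit 0) [nat_lit 9868] false,
   Spec.mk (nat_lit 29556) (nat_lit 1) [nat_lit 16434, nat_lit 42678, nat_lit 25182, nat_lit 33930, nat_lit 28098, nat_lit 31014, nat_lit 29070, nat_lit 30042, nat_lit 29394, nat_lit 29718, nat_lit 29610, nat_lit 29550] (nat_lit 0) [nat_lit 9874] false,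
   Spec.mk (nat_lit 29570) (nat_lit 0) [nat_lit 16448, nat_lit 42692, nat_lit 25196, nat_lit 33944, nat_lit 28112, nat_lit 31028, nat_lit 29084, nat_lit 30056, nat_lit 29732, nat_lit 29516, nat_lit 29576, nat_lit 29572] (nat_lit 0) [nat_lit 49252] false,
   Spec.mk (nat_lit 29572) (nat_lit 0) [nat_lit 16450, nat_lit 42694, nat_lit 25198, nat_lit 33946, nat_lit 28114, nat_lit 31030, nat_lit 29086, nat_lit 30058, nat_lit 29734, nat_lit 29518, nat_lit 29578, nat_lit 29570] (nat_lit 1) [nat_lit 49254, nat_lit 9890] false,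
   Spec.mk (nat_lit 29576) (nat_lit 0) [nat_lit 16454, nat_lit 42698, nat_lit 25202, nat_lit 33950, nat_lit 28118, nat_lit 31034, nat_lit 29090, nat_lit 30062, nat_lit 29738, nat_lit 29522, nat_lit 29594, nat_lit 29570, nat_lit 29578] (nat_lit 2) [nat_lit 49258] false,
   Spec.mk (nat_lit 29578) (nat_lit 0) [nat_lit 16456, nat_lit 42700, nat_lit 25204, nat_lit 33952, nat_lit 28120, nat_lit 31036, nat_lit 29092, nat_lit 30064, nat_lit 29740, nat_lit 29524, nat_lit 29596, nat_lit 29572, nat_lit 29584, nat_lit 29576, nat_lit 29580] (nat_lit 1) [nat_lit 49260, nat_lit 9896] false,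
   Spec.mk (nat_lit 29580) (nat_lit 0) [nat_lit 16458, nat_lit 42702, nat_lit 25206, nat_lit 33954, nat_lit 28122, nat_lit 31038, nat_lit 29094, nat_lit 30066, nat_lit 29742, nat_lit 29526, nat_lit 29598, nat_lit 29586, nat_lit 29578] (nat_lit 2) [nat_lit 9898] false,
   Spec.mk (nat_lit 29584) (nat_lit 0) [nat_lit 16462, nat_lit 42706, nat_lit 25210, nat_lit 33958, nat_lit 28126, nat_lit 31042, nat_lit 29098, nat_lit 30070, nat_lit 29746, nat_lit 29530, nat_lit 29602, nat_lit 29578, nat_lit 29586] (nat_lit 3) [nat_lit 49266, nat_lit 9902] false,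
   Spec.mk (nat_lit 29586) (nat_lit 0) [nat_lit 16464, nat_lit 42708, nat_lit 25212, nat_lit 33960, nat_lit 28128, nat_lit 31044, nat_lit 29100, nat_lit 30072, nat_lit 29748, nat_lit 29532, nat_lit 29604, nat_lit 29580, nat_lit 29584] (nat_lit 2) [nat_lit 9904] false,
   Spec.mk (nat_lit 29594) (nat_lit 0) [nat_lit 16472, nat_lit 42716, nat_lit 25220, nat_lit 33968, nat_lit 28136, nat_lit 31052, nat_lit 29108, nat_lit 30080, nat_lit 29756, nat_lit 29540, nat_lit 29576, nat_lit 29596] (nat_lit 0) [nat_lit 49276] false,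
   Spec.mk (nat_lit 29596) (nat_lit 0) [nat_lit 16474, nat_lit 42718, nat_lit 25222, nat_lit 33970, nat_lit 28138, nat_lit 31054, nat_lit 29110, nat_lit 30082, nat_lit 29758, nat_lit 29542, nat_lit 29578, nat_lit 29602, nat_lit 29594, nat_lit 29598] (nat_lit 0) [nat_lit 49278, nat_lit 9914] false,
   Spec.mk (nat_lit 29598) (nat_lit 0) [nat_lit 16476, nat_lit 42720, nat_lit 25224, nat_lit 33972, nat_lit 28140, nat_lit 31056, nat_lit 29112, nat_lit 30084, nat_lit 29760, nat_lit 29544, nat_lit 29580, nat_lit 29604, nat_lit 29596] (nat_lit 2) [nat_lit 9916] false,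
   Spec.mk (nat_lit 29602) (nat_lit 0) [nat_lit 16480, nat_lit 42724, nat_lit 25228, nat_lit 33976, nat_lit 28144, nat_lit 31060, nat_lit 29116, nat_lit 30088, nat_lit 29764, nat_lit 29548, nat_lit 29584, nat_lit 29620, nat_lit 29596, nat_lit 29604] (nat_lit 0) [nat_lit 49284, nat_lit 9920] false,
   Spec.mk (nat_lit 29604) (nat_lit 0) [nat_lit 16482, nat_lit 42726, nat_lit 25230, nat_lit 33978, nat_lit 28146, nat_lit 31062, nat_lit 29118, nat_lit 30090, nat_lit 29766, nat_lit 29550, nat_lit 29586, nat_lit 29622, nat_lit 29598, nat_lit 29610, nat_lit 29602] (nat_lit 0) [nat_lit 9922] false,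
   Spec.mk (nat_lit 29610) (nat_lit 0) [nat_lit 16488, nat_lit 42732, nat_lit 25236, nat_lit 33984, nat_lit 28152, nat_lit 31068, nat_lit 29124, nat_lit 30096, nat_lit 29772, nat_lit 29556, nat_lit 29628, nat_lit 29604] (nat_lit 0) [nat_lit 9928] false,
   Spec.mk (nat_lit 29620) (nat_lit 1) [nat_lit 16498, nat_lit 42742, nat_lit 25246, nat_lit 33994, nat_lit 28162, nat_lit 31078, nat_lit 29134, nat_lit 30106, nat_lit 29782, nat_lit 29602, nat_lit 29622] (nat_lit 0) [nat_lit 49302, nat_lit 9938] false]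

noncomputable def sp75 : List Spec :=
  [Spec.mk (nat_lit 29622) (nat_lit 0) [nat_lit 16500, nat_lit 42744, nat_lit 25248, nat_lit 33996, nat_lit 28164, nat_lit 31080, nat_lit 29136, nat_lit 30108, nat_lit 29784, nat_lit 29604, nat_lit 29628, nat_lit 29620] (nat_lit 0) [nat_lit 9940] false,
   Spec.mk (nat_lit 29628) (nat_lit 2) [nat_lit 16506, nat_lit 42750, nat_lit 25254, nat_lit 34002, nat_lit 28170, nat_lit 31086, nat_lit 29142, nat_lit 30114, nat_lit 29790, nat_lit 29610, nat_lit 29622] (nat_lit 0) [nat_lit 9946] false,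
   Spec.mk (nat_lit 29654) (nat_lit 1) [nat_lit 16532, nat_lit 42776, nat_lit 25280, nat_lit 34028, nat_lit 28196, nat_lit 31112, nat_lit 30140, nat_lit 29492, nat_lit 29660] (nat_lit 0) [nat_lit 49336] false,
   Spec.mk (nat_lit 29660) (nat_lit 0) [nat_lit 16538, nat_lit 42782, nat_lit 25286, nat_lit 34034, nat_lit 28202, nat_lit 31118, nat_lit 30146, nat_lit 29498, nat_lit 29678, nat_lit 29654, nat_lit 29666, nat_lit 29662] (nat_lit 0) [nat_lit 49342] false,
   Spec.mk (nat_lit 29662) (nat_lit 0) [nat_lit 16540, nat_lit 42784, nat_lit 25288, nat_lit 34036, nat_lit 28204, nat_lit 31120, nat_lit 30148, nat_lit 29500, nat_lit 29680, nat_lit 29668, nat_lit 29660] (nat_lit 0) [nat_lit 49344, nat_lit 9980] false,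
   Spec.mk (nat_lit 29666) (nat_lit 0) [nat_lit 16544, nat_lit 42788, nat_lit 25292, nat_lit 34040, nat_lit 28208, nat_lit 31124, nat_lit 30152, nat_lit 29504, nat_lit 29684, nat_lit 29660, nat_lit 29668] (nat_lit 3) [nat_lit 49348] false,
   Spec.mk (nat_lit 29668) (nat_lit 0) [nat_lit 16546, nat_lit 42790, nat_lit 25294, nat_lit 34042, nat_lit 28210, nat_lit 31126, nat_lit 30154, nat_lit 29506, nat_lit 29686, nat_lit 29662, nat_lit 29666, nat_lit 29670] (nat_lit 1) [nat_lit 49350, nat_lit 9986] false,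
   Spec.mk (nat_lit 29670) (nat_lit 0) [nat_lit 16548, nat_lit 42792, nat_lit 25296, nat_lit 34044, nat_lit 28212, nat_lit 31128, nat_lit 30156, nat_lit 29508, nat_lit 29688, nat_lit 29668] (nat_lit 1) [nat_lit 9988] false,
   Spec.mk (nat_lit 29678) (nat_lit 0) [nat_lit 16556, nat_lit 42800, nat_lit 25304, nat_lit 34052, nat_lit 28220, nat_lit 31136, nat_lit 30164, nat_lit 29516, nat_lit 29732, nat_lit 29660, nat_lit 29684, nat_lit 29680] (nat_lit 1) [nat_lit 49360] false,
   Spec.mk (nat_lit 29680) (nat_lit 0) [nat_lit 16558, nat_lit 42802, nat_lit 25306, nat_lit 34054, nat_lit 28222, nat_lit 31138, nat_lit 30166, nat_lit 29518, nat_lit 29734, nat_lit 29662, nat_lit 29686, nat_lit 29678] (nat_lit 2) [nat_lit 49362, nat_lit 9998] false,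
   Spec.mk (nat_lit 29684) (nat_lit 0) [nat_lit 16562, nat_lit 42806, nat_lit 25310, nat_lit 34058, nat_lit 28226, nat_lit 31142, nat_lit 30170, nat_lit 29522, nat_lit 29738, nat_lit 29666, nat_lit 29702, nat_lit 29678, nat_lit 29686] (nat_lit 2) [nat_lit 49366] false,
   Spec.mk (nat_lit 29686) (nat_lit 0) [nat_lit 16564, nat_lit 42808, nat_lit 25312, nat_lit 34060, nat_lit 28228, nat_lit 31144, nat_lit 30172, nat_lit 29524, nat_lit 29740, nat_lit 29668, nat_lit 29704, nat_lit 29680, nat_lit 29692, nat_lit 29684, nat_lit 29688] (nat_lit 1) [nat_lit 49368, nat_lit 10004] false,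
   Spec.mk (nat_lit 29688) (nat_lit 0) [nat_lit 16566, nat_lit 42810, nat_lit 25314, nat_lit 34062, nat_lit 28230, nat_lit 31146, nat_lit 30174, nat_lit 29526, nat_lit 29742, nat_lit 29670, nat_lit 29706, nat_lit 29694, nat_lit 29686] (nat_lit 2) [nat_lit 10006] false,
   Spec.mk (nat_lit 29692) (nat_lit 0) [nat_lit 16570, nat_lit 42814, nat_lit 25318, nat_lit 34066, nat_lit 28234, nat_lit 31150, nat_lit 30178, nat_lit 29530, nat_lit 29746, nat_lit 29710, nat_lit 29686, nat_lit 29694] (nat_lit 2) [nat_lit 49374, nat_lit 10010] false,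
   Spec.mk (nat_lit 29694) (nat_lit 0) [nat_lit 16572, nat_lit 42816, nat_lit 25320, nat_lit 34068, nat_lit 28236, nat_lit 31152, nat_lit 30180, nat_lit 29532, nat_lit 29748, nat_lit 29712, nat_lit 29688, nat_lit 29692] (nat_lit 1) [nat_lit 10012] false,
   Spec.mk (nat_lit 29702) (nat_lit 0) [nat_lit 16580, nat_lit 42824, nat_lit 25328, nat_lit 34076, nat_lit 28244, nat_lit 31160, nat_lit 30188, nat_lit 29540, nat_lit 29756, nat_lit 29684, nat_lit 29704] (nat_lit 3) [nat_lit 49384] false,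
   Spec.mk (nat_lit 29704) (nat_lit 0) [nat_lit 16582, nat_lit 42826, nat_lit 25330, nat_lit 34078, nat_lit 28246, nat_lit 31162, nat_lit 30190, nat_lit 29542, nat_lit 29758, nat_lit 29686, nat_lit 29710, nat_lit 29702, nat_lit 29706] (nat_lit 3) [nat_lit 49386, nat_lit 10022] false,
   Spec.mk (nat_lit 29706) (nat_lit 0) [nat_lit 16584, nat_lit 42828, nat_lit 25332, nat_lit 34080, nat_lit 28248, nat_lit 31164, nat_lit 30192, nat_lit 29544, nat_lit 29760, nat_lit 29688, nat_lit 29712, nat_lit 29704] (nat_lit 5) [nat_lit 10024] false,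
   Spec.mk (nat_lit 29710) (nat_lit 0) [nat_lit 16588, nat_lit 42832, nat_lit 25336, nat_lit 34084, nat_lit 28252, nat_lit 31168, nat_lit 30196, nat_lit 29548, nat_lit 29764, nat_lit 29692, nat_lit 29704, nat_lit 29712] (nat_lit 2) [nat_lit 49392, nat_lit 10028] false,
   Spec.mk (nat_lit 29712) (nat_lit 0) [nat_lit 16590, nat_lit 42834, nat_lit 25338, nat_lit 34086, nat_lit 28254, nat_lit 31170, nat_lit 30198, nat_lit 29550, nat_lit 29766, nat_lit 29694, nat_lit 29706, nat_lit 29718, nat_lit 29710] (nat_lit 2) [nat_lit 10030] false,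
   Spec.mk (nat_lit 29718) (nat_lit 0) [nat_lit 16596, nat_lit 42840, nat_lit 25344, nat_lit 34092, nat_lit 28260, nat_lit 31176, nat_lit 30204, nat_lit 29556, nat_lit 29772, nat_lit 29712] (nat_lit 1) [nat_lit 10036] false,
   Spec.mk (nat_lit 29732) (nat_lit 1) [nat_lit 16610, nat_lit 42854, nat_lit 25358, nat_lit 34106, nat_lit 28274, nat_lit 31190, nat_lit 30218, nat_lit 29570, nat_lit 29678, nat_lit 29738, nat_lit 29734] (nat_lit 0) [nat_lit 49414] false,
   Spec.mk (nat_lit 29734) (nat_lit 0) [nat_lit 16612, nat_lit 42856, nat_lit 25360, nat_lit 34108, nat_lit 28276, nat_lit 31192, nat_lit 30220, nat_lit 29572, nat_lit 29680, nat_lit 29740, nat_lit 29732] (nat_lit 0) [nat_lit 49416, nat_lit 10052] false,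
   Spec.mk (nat_lit 29738) (nat_lit 0) [nat_lit 16616, nat_lit 42860, nat_lit 25364, nat_lit 34112, nat_lit 28280, nat_lit 31196, nat_lit 30224, nat_lit 29576, nat_lit 29684, nat_lit 29756, nat_lit 29732, nat_lit 29740] (nat_lit 1) [nat_lit 49420] false,
   Spec.mk (nat_lit 29740) (nat_lit 0) [nat_lit 16618, nat_lit 42862, nat_lit 25366, nat_lit 34114, nat_lit 28282, nat_lit 31198, nat_lit 30226, nat_lit 29578, nat_lit 29686, nat_lit 29758, nat_lit 29734, nat_lit 29746, nat_lit 29738, nat_lit 29742] (nat_lit 0) [nat_lit 49422, nat_lit 10058] false,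
   Spec.mk (nat_lit 29742) (nat_lit 0) [nat_lit 16620, nat_lit 42864, nat_lit 25368, nat_lit 34116, nat_lit 28284, nat_lit 31200, nat_lit 30228, nat_lit 29580, nat_lit 29688, nat_lit 29760, nat_lit 29748, nat_lit 29740] (nat_lit 1) [nat_lit 10060] false,
   Spec.mk (nat_lit 29746) (nat_lit 0) [nat_lit 16624, nat_lit 42868, nat_lit 25372, nat_lit 34120, nat_lit 28288, nat_lit 31204, nat_lit 30232, nat_lit 29584, nat_lit 29692, nat_lit 29764, nat_lit 29740, nat_lit 29748] (nat_lit 2) [nat_lit 49428, nat_lit 10064] false,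
   Spec.mk (nat_lit 29748) (nat_lit 0) [nat_lit 16626, nat_lit 42870, nat_lit 25374, nat_lit 34122, nat_lit 28290, nat_lit 31206, nat_lit 30234, nat_lit 29586, nat_lit 29694, nat_lit 29766, nat_lit 29742, nat_lit 29746] (nat_lit 1) [nat_lit 10066] false,
   Spec.mk (nat_lit 29756) (nat_lit 0) [nat_lit 16634, nat_lit 42878, nat_lit 25382, nat_lit 34130, nat_lit 28298, nat_lit 31214, nat_lit 30242, nat_lit 29594, nat_lit 29702, nat_lit 29810, nat_lit 29738, nat_lit 29758] (nat_lit 0) [nat_lit 49438] false,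
   Spec.mk (nat_lit 29758) (nat_lit 0) [nat_lit 16636, nat_lit 42880, nat_lit 25384, nat_lit 34132, nat_lit 28300, nat_lit 31216, nat_lit 30244, nat_lit 29596, nat_lit 29704, nat_lit 29812, nat_lit 29740, nat_lit 29764, nat_lit 29756, nat_lit 29760] (nat_lit 0) [nat_lit 49440, nat_lit 10076] false,
   Spec.mk (nat_lit 29760) (nat_lit 0) [nat_lit 16638, nat_lit 42882, nat_lit 25386, nat_lit 34134, nat_lit 28302, nat_lit 31218, nat_lit 30246, nat_lit 29598, nat_lit 29706, nat_lit 29814, nat_lit 29742, nat_lit 29766, nat_lit 29758] (nat_lit 2) [nat_lit 10078] false,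
   Spec.mk (nat_lit 29764) (nat_lit 0) [nat_lit 16642, nat_lit 42886, nat_lit 25390, nat_lit 34138, nat_lit 28306, nat_lit 31222, nat_lit 30250, nat_lit 29602, nat_lit 29710, nat_lit 29818, nat_lit 29746, nat_lit 29782, nat_lit 29758, nat_lit 29766] (nat_lit 0) [nat_lit 49446, nat_lit 10082] false,
   Spec.mk (nat_lit 29766) (nat_lit 0) [nat_lit 16644, nat_lit 42888, nat_lit 25392, nat_lit 34140, nat_lit 28308, nat_lit 31224, nat_lit 30252, nat_lit 29604, nat_lit 29712, nat_lit 29820, nat_lit 29748, nat_lit 29784, nat_lit 29760, nat_lit 29772, nat_lit 29764] (nat_lit 0) [nat_lit 10084] false,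
   Spec.mk (nat_lit 29772) (nat_lit 0) [nat_lit 16650, nat_lit 42894, nat_lit 25398, nat_lit 34146, nat_lit 28314, nat_lit 31230, nat_lit 30258, nat_lit 29610, nat_lit 29718, nat_lit 29826, nat_lit 29790, nat_lit 29766] (nat_lit 0) [nat_lit 10090] false,
   Spec.mk (nat_lit 29782) (nat_lit 0) [nat_lit 16660, nat_lit 42904, nat_lit 25408, nat_lit 34156, nat_lit 28324, nat_lit 31240, nat_lit 30268, nat_lit 29620, nat_lit 29836, nat_lit 29764, nat_lit 29784] (nat_lit 0) [nat_lit 49464, nat_lit 10100] false,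
   Spec.mk (nat_lit 29784) (nat_lit 0) [nat_lit 16662, nat_lit 42906, nat_lit 25410, nat_lit 34158, nat_lit 28326, nat_lit 31242, nat_lit 30270, nat_lit 29622, nat_lit 29838, nat_lit 29766, nat_lit 29790, nat_lit 29782] (nat_lit 1) [nat_lit 10102] false,
   Spec.mk (nat_lit 29790) (nat_lit 1) [nat_lit 16668, nat_lit 42912, nat_lit 25416, nat_lit 34164, nat_lit 28332, nat_lit 31248, nat_lit 30276, nat_lit 29628, nat_lit 29844, nat_lit 29772, nat_lit 29784] (nat_lit 0) [nat_lit 10108] false,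
   Spec.mk (nat_lit 29810) (nat_lit 1) [nat_lit 16688, nat_lit 42932, nat_lit 25436, nat_lit 34184, nat_lit 28352, nat_lit 31268, nat_lit 30296, nat_lit 29756, nat_lit 29812] (nat_lit 0) [nat_lit 49492] false,
   Spec.mk (nat_lit 29812) (nat_lit 1) [nat_lit 16690, nat_lit 42934, nat_lit 25438, nat_lit 34186, nat_lit 28354, nat_lit 31270, nat_lit 30298, nat_lit 29758, nat_lit 29818, nat_lit 29810, nat_lit 29814] (nat_lit 0) [nat_lit 49494, nat_lit 10130] false,
   Spec.mk (nat_lit 29814) (nat_lit 0) [nat_lit 16692, nat_lit 42936, nat_lit 25440, nat_lit 34188, nat_lit 28356, nat_lit 31272, nat_lit 30300, nat_lit 29760, nat_lit 29820, nat_lit 29812] (nat_lit 1) [nat_lit 10132] false,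
   Spec.mk (nat_lit 29818) (nat_lit 0) [nat_lit 16696, nat_lit 42940, nat_lit 25444, nat_lit 34192, nat_lit 28360, nat_lit 31276, nat_lit 30304, nat_lit 29764, nat_lit 29836, nat_lit 29812, nat_lit 29820] (nat_lit 0) [nat_lit 49500, nat_lit 10136] false,
   Spec.mk (nat_lit 29820) (nat_lit 0) [nat_lit 16698, nat_lit 42942, nat_lit 25446, nat_lit 34194, nat_lit 28362, nat_lit 31278, nat_lit 30306, nat_lit 29766, nat_lit 29838, nat_lit 29814, nat_lit 29826, nat_lit 29818] (nat_lit 0) [nat_lit 10138] false,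
   Spec.mk (nat_lit 29826) (nat_lit 0) [nat_lit 16704, nat_lit 42948, nat_lit 25452, nat_lit 34200, nat_lit 28368, nat_lit 31284, nat_lit 30312, nat_lit 29772, nat_lit 29844, nat_lit 29820] (nat_lit 1) [nat_lit 10144] false,
   Spec.mk (nat_lit 29836) (nat_lit 2) [nat_lit 16714, nat_lit 42958, nat_lit 25462, nat_lit 34210, nat_lit 28378, nat_lit 31294, nat_lit 30322, nat_lit 29782, nat_lit 29818, nat_lit 29838] (nat_lit 0) [nat_lit 49518, nat_lit 10154] false,
   Spec.mk (nat_lit 29838) (nat_lit 1) [nat_lit 16716, nat_lit 42960, nat_lit 25464, nat_lit 34212, nat_lit 28380, nat_lit 31296, nat_lit 30324, nat_lit 29784, nat_lit 29820, nat_lit 29844, nat_lit 29836] (nat_lit 0) [nat_lit 10156] false,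
   Spec.mk (nat_lit 29844) (nat_lit 2) [nat_lit 16722, nat_lit 42966, nat_lit 25470, nat_lit 34218, nat_lit 28386, nat_lit 31302, nat_lit 30330, nat_lit 29790, nat_lit 29826, nat_lit 29862, nat_lit 29838] (nat_lit 0) [nat_lit 10162] false,
   Spec.mk (nat_lit 29862) (nat_lit 3) [nat_lit 16740, nat_lit 42984, nat_lit 25488, nat_lit 34236, nat_lit 28404, nat_lit 31320, nat_lit 30348, nat_lit 29844] (nat_lit 0) [nat_lit 10180] false,
   Spec.mk (nat_lit 29906) (nat_lit 2) [nat_lit 16784, nat_lit 43028, nat_lit 25532, nat_lit 34280, nat_lit 31364, nat_lit 29420, nat_lit 29924, nat_lit 29912] (nat_lit 0) [nat_lit 49588] false,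
   Spec.mk (nat_lit 29912) (nat_lit 0) [nat_lit 16790, nat_lit 43034, nat_lit 25538, nat_lit 34286, nat_lit 31370, nat_lit 29426, nat_lit 29930, nat_lit 29906, nat_lit 29914] (nat_lit 0) [nat_lit 49594] false,
   Spec.mk (nat_lit 29914) (nat_lit 1) [nat_lit 16792, nat_lit 43036, nat_lit 25540, nat_lit 34288, nat_lit 31372, nat_lit 29428, nat_lit 29932, nat_lit 29912] (nat_lit 0) [nat_lit 49596, nat_lit 10232] false,
   Spec.mk (nat_lit 29924) (nat_lit 0) [nat_lit 16802, nat_lit 43046, nat_lit 25550, nat_lit 34298, nat_lit 31382, nat_lit 29438, nat_lit 29978, nat_lit 29906, nat_lit 29930] (nat_lit 0) [nat_lit 49606] false,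
   Spec.mk (nat_lit 29930) (nat_lit 0) [nat_lit 16808, nat_lit 43052, nat_lit 25556, nat_lit 34304, nat_lit 31388, nat_lit 29444, nat_lit 29984, nat_lit 29912, nat_lit 29948, nat_lit 29924, nat_lit 29936, nat_lit 29932] (nat_lit 0) [nat_lit 49612] false,
   Spec.mk (nat_lit 29932) (nat_lit 0) [nat_lit 16810, nat_lit 43054, nat_lit 25558, nat_lit 34306, nat_lit 31390, nat_lit 29446, nat_lit 29986, nat_lit 29914, nat_lit 29950, nat_lit 29938, nat_lit 29930] (nat_lit 0) [nat_lit 49614, nat_lit 10250] false,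
   Spec.mk (nat_lit 29936) (nat_lit 0) [nat_lit 16814, nat_lit 43058, nat_lit 25562, nat_lit 34310, nat_lit 31394, nat_lit 29450, nat_lit 29990, nat_lit 29954, nat_lit 29930, nat_lit 29938] (nat_lit 2) [nat_lit 49618] false,
   Spec.mk (nat_lit 29938) (nat_lit 0) [nat_lit 16816, nat_lit 43060, nat_lit 25564, nat_lit 34312, nat_lit 31396, nat_lit 29452, nat_lit 29992, nat_lit 29956, nat_lit 29932, nat_lit 29936, nat_lit 29940] (nat_lit 0) [nat_lit 49620, nat_lit 10256] false,
   Spec.mk (nat_lit 29940) (nat_lit 0) [nat_lit 16818, nat_lit 43062, nat_lit 25566, nat_lit 34314, nat_lit 31398, nat_lit 29454, nat_lit 29994, nat_lit 29958, nat_lit 29938] (nat_lit 0) [nat_lit 10258] false,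
   Spec.mk (nat_lit 29948) (nat_lit 0) [nat_lit 16826, nat_lit 43070, nat_lit 25574, nat_lit 34322, nat_lit 31406, nat_lit 29462, nat_lit 30002, nat_lit 29930, nat_lit 29954, nat_lit 29950] (nat_lit 2) [nat_lit 49630] false,
   Spec.mk (nat_lit 29950) (nat_lit 0) [nat_lit 16828, nat_lit 43072, nat_lit 25576, nat_lit 34324, nat_lit 31408, nat_lit 29464, nat_lit 30004, nat_lit 29932, nat_lit 29956, nat_lit 29948] (nat_lit 3) [nat_lit 49632, nat_lit 10268] false,
   Spec.mk (nat_lit 29954) (nat_lit 0) [nat_lit 16832, nat_lit 43076, nat_lit 25580, nat_lit 34328, nat_lit 31412, nat_lit 29468, nat_lit 30008, nat_lit 29936, nat_lit 29948, nat_lit 29956] (nat_lit 2) [nat_lit 49636] false,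
   Spec.mk (nat_lit 29956) (nat_lit 0) [nat_lit 16834, nat_lit 43078, nat_lit 25582, nat_lit 34330, nat_lit 31414, nat_lit 29470, nat_lit 30010, nat_lit 29938, nat_lit 29950, nat_lit 29962, nat_lit 29954, nat_lit 29958] (nat_lit 1) [nat_lit 49638, nat_lit 10274] false]

noncomputable def sp76 : List Spec :=
  [Spec.mk (nat_lit 29958) (nat_lit 0) [nat_lit 16836, nat_lit 43080, nat_lit 25584, nat_lit 34332, nat_lit 31416, nat_lit 29472, nat_lit 30012, nat_lit 29940, nat_lit 29964, nat_lit 29956] (nat_lit 2) [nat_lit 10276] false,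
   Spec.mk (nat_lit 29962) (nat_lit 0) [nat_lit 16840, nat_lit 43084, nat_lit 25588, nat_lit 34336, nat_lit 31420, nat_lit 29476, nat_lit 30016, nat_lit 29956, nat_lit 29964] (nat_lit 1) [nat_lit 49644, nat_lit 10280] false,
   Spec.mk (nat_lit 29964) (nat_lit 0) [nat_lit 16842, nat_lit 43086, nat_lit 25590, nat_lit 34338, nat_lit 31422, nat_lit 29478, nat_lit 30018, nat_lit 29958, nat_lit 29962] (nat_lit 0) [nat_lit 10282] false,
   Spec.mk (nat_lit 29978) (nat_lit 0) [nat_lit 16856, nat_lit 43100, nat_lit 25604, nat_lit 34352, nat_lit 31436, nat_lit 29492, nat_lit 30140, nat_lit 29924, nat_lit 29984] (nat_lit 0) [nat_lit 49660] false,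
   Spec.mk (nat_lit 29984) (nat_lit 0) [nat_lit 16862, nat_lit 43106, nat_lit 25610, nat_lit 34358, nat_lit 31442, nat_lit 29498, nat_lit 30146, nat_lit 29930, nat_lit 30002, nat_lit 29978, nat_lit 29990, nat_lit 29986] (nat_lit 1) [nat_lit 49666] false,
   Spec.mk (nat_lit 29986) (nat_lit 0) [nat_lit 16864, nat_lit 43108, nat_lit 25612, nat_lit 34360, nat_lit 31444, nat_lit 29500, nat_lit 30148, nat_lit 29932, nat_lit 30004, nat_lit 29992, nat_lit 29984] (nat_lit 1) [nat_lit 49668, nat_lit 10304] false,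
   Spec.mk (nat_lit 29990) (nat_lit 0) [nat_lit 16868, nat_lit 43112, nat_lit 25616, nat_lit 34364, nat_lit 31448, nat_lit 29504, nat_lit 30152, nat_lit 29936, nat_lit 30008, nat_lit 29984, nat_lit 29992] (nat_lit 4) [nat_lit 49672] false,
   Spec.mk (nat_lit 29992) (nat_lit 0) [nat_lit 16870, nat_lit 43114, nat_lit 25618, nat_lit 34366, nat_lit 31450, nat_lit 29506, nat_lit 30154, nat_lit 29938, nat_lit 30010, nat_lit 29986, nat_lit 29990, nat_lit 29994] (nat_lit 2) [nat_lit 49674, nat_lit 10310] false,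
   Spec.mk (nat_lit 29994) (nat_lit 0) [nat_lit 16872, nat_lit 43116, nat_lit 25620, nat_lit 34368, nat_lit 31452, nat_lit 29508, nat_lit 30156, nat_lit 29940, nat_lit 30012, nat_lit 29992] (nat_lit 2) [nat_lit 10312] false,
   Spec.mk (nat_lit 30002) (nat_lit 0) [nat_lit 16880, nat_lit 43124, nat_lit 25628, nat_lit 34376, nat_lit 31460, nat_lit 29516, nat_lit 30164, nat_lit 29948, nat_lit 30056, nat_lit 29984, nat_lit 30008, nat_lit 30004] (nat_lit 1) [nat_lit 49684] false,
   Spec.mk (nat_lit 30004) (nat_lit 0) [nat_lit 16882, nat_lit 43126, nat_lit 25630, nat_lit 34378, nat_lit 31462, nat_lit 29518, nat_lit 30166, nat_lit 29950, nat_lit 30058, nat_lit 29986, nat_lit 30010, nat_lit 30002] (nat_lit 2) [nat_lit 49686, nat_lit 10322] false,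
   Spec.mk (nat_lit 30008) (nat_lit 0) [nat_lit 16886, nat_lit 43130, nat_lit 25634, nat_lit 34382, nat_lit 31466, nat_lit 29522, nat_lit 30170, nat_lit 29954, nat_lit 30062, nat_lit 29990, nat_lit 30026, nat_lit 30002, nat_lit 30010] (nat_lit 2) [nat_lit 49690] false,
   Spec.mk (nat_lit 30010) (nat_lit 0) [nat_lit 16888, nat_lit 43132, nat_lit 25636, nat_lit 34384, nat_lit 31468, nat_lit 29524, nat_lit 30172, nat_lit 29956, nat_lit 30064, nat_lit 29992, nat_lit 30028, nat_lit 30004, nat_lit 30016, nat_lit 30008, nat_lit 30012] (nat_lit 1) [nat_lit 49692, nat_lit 10328] false,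
   Spec.mk (nat_lit 30012) (nat_lit 0) [nat_lit 16890, nat_lit 43134, nat_lit 25638, nat_lit 34386, nat_lit 31470, nat_lit 29526, nat_lit 30174, nat_lit 29958, nat_lit 30066, nat_lit 29994, nat_lit 30030, nat_lit 30018, nat_lit 30010] (nat_lit 2) [nat_lit 10330] false,
   Spec.mk (nat_lit 30016) (nat_lit 0) [nat_lit 16894, nat_lit 43138, nat_lit 25642, nat_lit 34390, nat_lit 31474, nat_lit 29530, nat_lit 30178, nat_lit 29962, nat_lit 30070, nat_lit 30034, nat_lit 30010, nat_lit 30018] (nat_lit 2) [nat_lit 49698, nat_lit 10334] false,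
   Spec.mk (nat_lit 30018) (nat_lit 0) [nat_lit 16896, nat_lit 43140, nat_lit 25644, nat_lit 34392, nat_lit 31476, nat_lit 29532, nat_lit 30180, nat_lit 29964, nat_lit 30072, nat_lit 30036, nat_lit 30012, nat_lit 30016] (nat_lit 1) [nat_lit 10336] false,
   Spec.mk (nat_lit 30026) (nat_lit 0) [nat_lit 16904, nat_lit 43148, nat_lit 25652, nat_lit 34400, nat_lit 31484, nat_lit 29540, nat_lit 30188, nat_lit 30080, nat_lit 30008, nat_lit 30028] (nat_lit 2) [nat_lit 49708] false,
   Spec.mk (nat_lit 30028) (nat_lit 0) [nat_lit 16906, nat_lit 43150, nat_lit 25654, nat_lit 34402, nat_lit 31486, nat_lit 29542, nat_lit 30190, nat_lit 30082, nat_lit 30010, nat_lit 30034, nat_lit 30026, nat_lit 30030] (nat_lit 2) [nat_lit 49710, nat_lit 10346] false,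
   Spec.mk (nat_lit 30030) (nat_lit 0) [nat_lit 16908, nat_lit 43152, nat_lit 25656, nat_lit 34404, nat_lit 31488, nat_lit 29544, nat_lit 30192, nat_lit 30084, nat_lit 30012, nat_lit 30036, nat_lit 30028] (nat_lit 4) [nat_lit 10348] false,
   Spec.mk (nat_lit 30034) (nat_lit 0) [nat_lit 16912, nat_lit 43156, nat_lit 25660, nat_lit 34408, nat_lit 31492, nat_lit 29548, nat_lit 30196, nat_lit 30088, nat_lit 30016, nat_lit 30028, nat_lit 30036] (nat_lit 1) [nat_lit 49716, nat_lit 10352] false,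
   Spec.mk (nat_lit 30036) (nat_lit 0) [nat_lit 16914, nat_lit 43158, nat_lit 25662, nat_lit 34410, nat_lit 31494, nat_lit 29550, nat_lit 30198, nat_lit 30090, nat_lit 30018, nat_lit 30030, nat_lit 30042, nat_lit 30034] (nat_lit 1) [nat_lit 10354] false,
   Spec.mk (nat_lit 30042) (nat_lit 0) [nat_lit 16920, nat_lit 43164, nat_lit 25668, nat_lit 34416, nat_lit 31500, nat_lit 29556, nat_lit 30204, nat_lit 30096, nat_lit 30036] (nat_lit 0) [nat_lit 10360] false,
   Spec.mk (nat_lit 30056) (nat_lit 0) [nat_lit 16934, nat_lit 43178, nat_lit 25682, nat_lit 34430, nat_lit 31514, nat_lit 29570, nat_lit 30218, nat_lit 30002, nat_lit 30062, nat_lit 30058] (nat_lit 2) [nat_lit 49738] false,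
   Spec.mk (nat_lit 30058) (nat_lit 0) [nat_lit 16936, nat_lit 43180, nat_lit 25684, nat_lit 34432, nat_lit 31516, nat_lit 29572, nat_lit 30220, nat_lit 30004, nat_lit 30064, nat_lit 30056] (nat_lit 3) [nat_lit 49740, nat_lit 10376] false,
   Spec.mk (nat_lit 30062) (nat_lit 0) [nat_lit 16940, nat_lit 43184, nat_lit 25688, nat_lit 34436, nat_lit 31520, nat_lit 29576, nat_lit 30224, nat_lit 30008, nat_lit 30080, nat_lit 30056, nat_lit 30064] (nat_lit 4) [nat_lit 49744] false,
   Spec.mk (nat_lit 30064) (nat_lit 0) [nat_lit 16942, nat_lit 43186, nat_lit 25690, nat_lit 34438, nat_lit 31522, nat_lit 29578, nat_lit 30226, nat_lit 30010, nat_lit 30082, nat_lit 30058, nat_lit 30070, nat_lit 30062, nat_lit 30066] (nat_lit 3) [nat_lit 49746, nat_lit 10382] false,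
   Spec.mk (nat_lit 30066) (nat_lit 0) [nat_lit 16944, nat_lit 43188, nat_lit 25692, nat_lit 34440, nat_lit 31524, nat_lit 29580, nat_lit 30228, nat_lit 30012, nat_lit 30084, nat_lit 30072, nat_lit 30064] (nat_lit 4) [nat_lit 10384] false,
   Spec.mk (nat_lit 30070) (nat_lit 0) [nat_lit 16948, nat_lit 43192, nat_lit 25696, nat_lit 34444, nat_lit 31528, nat_lit 29584, nat_lit 30232, nat_lit 30016, nat_lit 30088, nat_lit 30064, nat_lit 30072] (nat_lit 5) [nat_lit 49752, nat_lit 10388] false,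
   Spec.mk (nat_lit 30072) (nat_lit 0) [nat_lit 16950, nat_lit 43194, nat_lit 25698, nat_lit 34446, nat_lit 31530, nat_lit 29586, nat_lit 30234, nat_lit 30018, nat_lit 30090, nat_lit 30066, nat_lit 30070] (nat_lit 4) [nat_lit 10390] false,
   Spec.mk (nat_lit 30080) (nat_lit 0) [nat_lit 16958, nat_lit 43202, nat_lit 25706, nat_lit 34454, nat_lit 31538, nat_lit 29594, nat_lit 30242, nat_lit 30026, nat_lit 30062, nat_lit 30082] (nat_lit 2) [nat_lit 49762] false,
   Spec.mk (nat_lit 30082) (nat_lit 0) [nat_lit 16960, nat_lit 43204, nat_lit 25708, nat_lit 34456, nat_lit 31540, nat_lit 29596, nat_lit 30244, nat_lit 30028, nat_lit 30064, nat_lit 30088, nat_lit 30080, nat_lit 30084] (nat_lit 2) [nat_lit 49764, nat_lit 10400] false,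
   Spec.mk (nat_lit 30084) (nat_lit 0) [nat_lit 16962, nat_lit 43206, nat_lit 25710, nat_lit 34458, nat_lit 31542, nat_lit 29598, nat_lit 30246, nat_lit 30030, nat_lit 30066, nat_lit 30090, nat_lit 30082] (nat_lit 4) [nat_lit 10402] false,
   Spec.mk (nat_lit 30088) (nat_lit 0) [nat_lit 16966, nat_lit 43210, nat_lit 25714, nat_lit 34462, nat_lit 31546, nat_lit 29602, nat_lit 30250, nat_lit 30034, nat_lit 30070, nat_lit 30106, nat_lit 30082, nat_lit 30090] (nat_lit 2) [nat_lit 49770, nat_lit 10406] false,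
   Spec.mk (nat_lit 30090) (nat_lit 0) [nat_lit 16968, nat_lit 43212, nat_lit 25716, nat_lit 34464, nat_lit 31548, nat_lit 29604, nat_lit 30252, nat_lit 30036, nat_lit 30072, nat_lit 30108, nat_lit 30084, nat_lit 30096, nat_lit 30088] (nat_lit 2) [nat_lit 10408] false,
   Spec.mk (nat_lit 30096) (nat_lit 0) [nat_lit 16974, nat_lit 43218, nat_lit 25722, nat_lit 34470, nat_lit 31554, nat_lit 29610, nat_lit 30258, nat_lit 30042, nat_lit 30114, nat_lit 30090] (nat_lit 2) [nat_lit 10414] false,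
   Spec.mk (nat_lit 30106) (nat_lit 0) [nat_lit 16984, nat_lit 43228, nat_lit 25732, nat_lit 34480, nat_lit 31564, nat_lit 29620, nat_lit 30268, nat_lit 30088, nat_lit 30108] (nat_lit 1) [nat_lit 49788, nat_lit 10424] false,
   Spec.mk (nat_lit 30108) (nat_lit 0) [nat_lit 16986, nat_lit 43230, nat_lit 25734, nat_lit 34482, nat_lit 31566, nat_lit 29622, nat_lit 30270, nat_lit 30090, nat_lit 30114, nat_lit 30106] (nat_lit 2) [nat_lit 10426] false,
   Spec.mk (nat_lit 30114) (nat_lit 0) [nat_lit 16992, nat_lit 43236, nat_lit 25740, nat_lit 34488, nat_lit 31572, nat_lit 29628, nat_lit 30276, nat_lit 30096, nat_lit 30108] (nat_lit 0) [nat_lit 10432] false,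
   Spec.mk (nat_lit 30140) (nat_lit 2) [nat_lit 17018, nat_lit 43262, nat_lit 25766, nat_lit 34514, nat_lit 31598, nat_lit 29654, nat_lit 29978, nat_lit 30146] (nat_lit 0) [nat_lit 49822] false,
   Spec.mk (nat_lit 30146) (nat_lit 1) [nat_lit 17024, nat_lit 43268, nat_lit 25772, nat_lit 34520, nat_lit 31604, nat_lit 29660, nat_lit 29984, nat_lit 30164, nat_lit 30140, nat_lit 30152, nat_lit 30148] (nat_lit 0) [nat_lit 49828] false,
   Spec.mk (nat_lit 30148) (nat_lit 1) [nat_lit 17026, nat_lit 43270, nat_lit 25774, nat_lit 34522, nat_lit 31606, nat_lit 29662, nat_lit 29986, nat_lit 30166, nat_lit 30154, nat_lit 30146] (nat_lit 0) [nat_lit 49830, nat_lit 10466] false,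
   Spec.mk (nat_lit 30152) (nat_lit 0) [nat_lit 17030, nat_lit 43274, nat_lit 25778, nat_lit 34526, nat_lit 31610, nat_lit 29666, nat_lit 29990, nat_lit 30170, nat_lit 30146, nat_lit 30154] (nat_lit 2) [nat_lit 49834] false,
   Spec.mk (nat_lit 30154) (nat_lit 0) [nat_lit 17032, nat_lit 43276, nat_lit 25780, nat_lit 34528, nat_lit 31612, nat_lit 29668, nat_lit 29992, nat_lit 30172, nat_lit 30148, nat_lit 30152, nat_lit 30156] (nat_lit 0) [nat_lit 49836, nat_lit 10472] false,
   Spec.mk (nat_lit 30156) (nat_lit 0) [nat_lit 17034, nat_lit 43278, nat_lit 25782, nat_lit 34530, nat_lit 31614, nat_lit 29670, nat_lit 29994, nat_lit 30174, nat_lit 30154] (nat_lit 0) [nat_lit 10474] false,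
   Spec.mk (nat_lit 30164) (nat_lit 0) [nat_lit 17042, nat_lit 43286, nat_lit 25790, nat_lit 34538, nat_lit 31622, nat_lit 29678, nat_lit 30002, nat_lit 30218, nat_lit 30146, nat_lit 30170, nat_lit 30166] (nat_lit 0) [nat_lit 49846] false,
   Spec.mk (nat_lit 30166) (nat_lit 0) [nat_lit 17044, nat_lit 43288, nat_lit 25792, nat_lit 34540, nat_lit 31624, nat_lit 29680, nat_lit 30004, nat_lit 30220, nat_lit 30148, nat_lit 30172, nat_lit 30164] (nat_lit 1) [nat_lit 49848, nat_lit 10484] false,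
   Spec.mk (nat_lit 30170) (nat_lit 0) [nat_lit 17048, nat_lit 43292, nat_lit 25796, nat_lit 34544, nat_lit 31628, nat_lit 29684, nat_lit 30008, nat_lit 30224, nat_lit 30152, nat_lit 30188, nat_lit 30164, nat_lit 30172] (nat_lit 1) [nat_lit 49852] false,
   Spec.mk (nat_lit 30172) (nat_lit 0) [nat_lit 17050, nat_lit 43294, nat_lit 25798, nat_lit 34546, nat_lit 31630, nat_lit 29686, nat_lit 30010, nat_lit 30226, nat_lit 30154, nat_lit 30190, nat_lit 30166, nat_lit 30178, nat_lit 30170, nat_lit 30174] (nat_lit 0) [nat_lit 49854, nat_lit 10490] false,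
   Spec.mk (nat_lit 30174) (nat_lit 0) [nat_lit 17052, nat_lit 43296, nat_lit 25800, nat_lit 34548, nat_lit 31632, nat_lit 29688, nat_lit 30012, nat_lit 30228, nat_lit 30156, nat_lit 30192, nat_lit 30180, nat_lit 30172] (nat_lit 1) [nat_lit 10492] false,
   Spec.mk (nat_lit 30178) (nat_lit 0) [nat_lit 17056, nat_lit 43300, nat_lit 25804, nat_lit 34552, nat_lit 31636, nat_lit 29692, nat_lit 30016, nat_lit 30232, nat_lit 30196, nat_lit 30172, nat_lit 30180] (nat_lit 1) [nat_lit 49860, nat_lit 10496] false,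
   Spec.mk (nat_lit 30180) (nat_lit 0) [nat_lit 17058, nat_lit 43302, nat_lit 25806, nat_lit 34554, nat_lit 31638, nat_lit 29694, nat_lit 30018, nat_lit 30234, nat_lit 30198, nat_lit 30174, nat_lit 30178] (nat_lit 0) [nat_lit 10498] false,
   Spec.mk (nat_lit 30188) (nat_lit 0) [nat_lit 17066, nat_lit 43310, nat_lit 25814, nat_lit 34562, nat_lit 31646, nat_lit 29702, nat_lit 30026, nat_lit 30242, nat_lit 30170, nat_lit 30190] (nat_lit 2) [nat_lit 49870] false,
   Spec.mk (nat_lit 30190) (nat_lit 0) [nat_lit 17068, nat_lit 43312, nat_lit 25816, nat_lit 34564, nat_lit 31648, nat_lit 29704, nat_lit 30028, nat_lit 30244, nat_lit 30172, nat_lit 30196, nat_lit 30188, nat_lit 30192] (nat_lit 2) [nat_lit 49872, nat_lit 10508] false,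
   Spec.mk (nat_lit 30192) (nat_lit 0) [nat_lit 17070, nat_lit 43314, nat_lit 25818, nat_lit 34566, nat_lit 31650, nat_lit 29706, nat_lit 30030, nat_lit 30246, nat_lit 30174, nat_lit 30198, nat_lit 30190] (nat_lit 4) [nat_lit 10510] false,
   Spec.mk (nat_lit 30196) (nat_lit 0) [nat_lit 17074, nat_lit 43318, nat_lit 25822, nat_lit 34570, nat_lit 31654, nat_lit 29710, nat_lit 30034, nat_lit 30250, nat_lit 30178, nat_lit 30190, nat_lit 30198] (nat_lit 1) [nat_lit 49878, nat_lit 10514] false,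
   Spec.mk (nat_lit 30198) (nat_lit 0) [nat_lit 17076, nat_lit 43320, nat_lit 25824, nat_lit 34572, nat_lit 31656, nat_lit 29712, nat_lit 30036, nat_lit 30252, nat_lit 30180, nat_lit 30192, nat_lit 30204, nat_lit 30196] (nat_lit 1) [nat_lit 10516] false,
   Spec.mk (nat_lit 30204) (nat_lit 0) [nat_lit 17082, nat_lit 43326, nat_lit 25830, nat_lit 34578, nat_lit 31662, nat_lit 29718, nat_lit 30042, nat_lit 30258, nat_lit 30198] (nat_lit 0) [nat_lit 10522] false,
   Spec.mk (nat_lit 30218) (nat_lit 1) [nat_lit 17096, nat_lit 43340, nat_lit 25844, nat_lit 34592, nat_lit 31676, nat_lit 29732, nat_lit 30056, nat_lit 30380, nat_lit 30164, nat_lit 30224, nat_lit 30220] (nat_lit 0) [nat_lit 49900] false,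
   Spec.mk (nat_lit 30220) (nat_lit 0) [nat_lit 17098, nat_lit 43342, nat_lit 25846, nat_lit 34594, nat_lit 31678, nat_lit 29734, nat_lit 30058, nat_lit 30382, nat_lit 30166, nat_lit 30226, nat_lit 30218] (nat_lit 0) [nat_lit 49902, nat_lit 10538] false,
   Spec.mk (nat_lit 30224) (nat_lit 0) [nat_lit 17102, nat_lit 43346, nat_lit 25850, nat_lit 34598, nat_lit 31682, nat_lit 29738, nat_lit 30062, nat_lit 30386, nat_lit 30170, nat_lit 30242, nat_lit 30218, nat_lit 30226] (nat_lit 1) [nat_lit 49906] false]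

noncomputable def sp77 : List Spec :=
  [Spec.mk (nat_lit 30226) (nat_lit 0) [nat_lit 17104, nat_lit 43348, nat_lit 25852, nat_lit 34600, nat_lit 31684, nat_lit 29740, nat_lit 30064, nat_lit 30388, nat_lit 30172, nat_lit 30244, nat_lit 30220, nat_lit 30232, nat_lit 30224, nat_lit 30228] (nat_lit 0) [nat_lit 49908, nat_lit 10544] false,
   Spec.mk (nat_lit 30228) (nat_lit 0) [nat_lit 17106, nat_lit 43350, nat_lit 25854, nat_lit 34602, nat_lit 31686, nat_lit 29742, nat_lit 30066, nat_lit 30390, nat_lit 30174, nat_lit 30246, nat_lit 30234, nat_lit 30226] (nat_lit 1) [nat_lit 10546] false,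
   Spec.mk (nat_lit 30232) (nat_lit 0) [nat_lit 17110, nat_lit 43354, nat_lit 25858, nat_lit 34606, nat_lit 31690, nat_lit 29746, nat_lit 30070, nat_lit 30394, nat_lit 30178, nat_lit 30250, nat_lit 30226, nat_lit 30234] (nat_lit 2) [nat_lit 49914, nat_lit 10550] false,
   Spec.mk (nat_lit 30234) (nat_lit 0) [nat_lit 17112, nat_lit 43356, nat_lit 25860, nat_lit 34608, nat_lit 31692, nat_lit 29748, nat_lit 30072, nat_lit 30396, nat_lit 30180, nat_lit 30252, nat_lit 30228, nat_lit 30232] (nat_lit 1) [nat_lit 10552] false,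
   Spec.mk (nat_lit 30242) (nat_lit 0) [nat_lit 17120, nat_lit 43364, nat_lit 25868, nat_lit 34616, nat_lit 31700, nat_lit 29756, nat_lit 30080, nat_lit 30404, nat_lit 30188, nat_lit 30296, nat_lit 30224, nat_lit 30244] (nat_lit 0) [nat_lit 49924] false,
   Spec.mk (nat_lit 30244) (nat_lit 0) [nat_lit 17122, nat_lit 43366, nat_lit 25870, nat_lit 34618, nat_lit 31702, nat_lit 29758, nat_lit 30082, nat_lit 30406, nat_lit 30190, nat_lit 30298, nat_lit 30226, nat_lit 30250, nat_lit 30242, nat_lit 30246] (nat_lit 0) [nat_lit 49926, nat_lit 10562] false,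
   Spec.mk (nat_lit 30246) (nat_lit 0) [nat_lit 17124, nat_lit 43368, nat_lit 25872, nat_lit 34620, nat_lit 31704, nat_lit 29760, nat_lit 30084, nat_lit 30408, nat_lit 30192, nat_lit 30300, nat_lit 30228, nat_lit 30252, nat_lit 30244] (nat_lit 2) [nat_lit 10564] false,
   Spec.mk (nat_lit 30250) (nat_lit 0) [nat_lit 17128, nat_lit 43372, nat_lit 25876, nat_lit 34624, nat_lit 31708, nat_lit 29764, nat_lit 30088, nat_lit 30412, nat_lit 30196, nat_lit 30304, nat_lit 30232, nat_lit 30268, nat_lit 30244, nat_lit 30252] (nat_lit 0) [nat_lit 49932, nat_lit 10568] false,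
   Spec.mk (nat_lit 30252) (nat_lit 0) [nat_lit 17130, nat_lit 43374, nat_lit 25878, nat_lit 34626, nat_lit 31710, nat_lit 29766, nat_lit 30090, nat_lit 30414, nat_lit 30198, nat_lit 30306, nat_lit 30234, nat_lit 30270, nat_lit 30246, nat_lit 30258, nat_lit 30250] (nat_lit 0) [nat_lit 10570] false,
   Spec.mk (nat_lit 30258) (nat_lit 0) [nat_lit 17136, nat_lit 43380, nat_lit 25884, nat_lit 34632, nat_lit 31716, nat_lit 29772, nat_lit 30096, nat_lit 30420, nat_lit 30204, nat_lit 30312, nat_lit 30276, nat_lit 30252] (nat_lit 0) [nat_lit 10576] false,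
   Spec.mk (nat_lit 30268) (nat_lit 0) [nat_lit 17146, nat_lit 43390, nat_lit 25894, nat_lit 34642, nat_lit 31726, nat_lit 29782, nat_lit 30106, nat_lit 30430, nat_lit 30322, nat_lit 30250, nat_lit 30270] (nat_lit 0) [nat_lit 49950, nat_lit 10586] false,
   Spec.mk (nat_lit 30270) (nat_lit 0) [nat_lit 17148, nat_lit 43392, nat_lit 25896, nat_lit 34644, nat_lit 31728, nat_lit 29784, nat_lit 30108, nat_lit 30432, nat_lit 30324, nat_lit 30252, nat_lit 30276, nat_lit 30268] (nat_lit 1) [nat_lit 10588] false,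
   Spec.mk (nat_lit 30276) (nat_lit 1) [nat_lit 17154, nat_lit 43398, nat_lit 25902, nat_lit 34650, nat_lit 31734, nat_lit 29790, nat_lit 30114, nat_lit 30438, nat_lit 30330, nat_lit 30258, nat_lit 30270] (nat_lit 0) [nat_lit 10594] false,
   Spec.mk (nat_lit 30296) (nat_lit 0) [nat_lit 17174, nat_lit 43418, nat_lit 25922, nat_lit 34670, nat_lit 31754, nat_lit 29810, nat_lit 30458, nat_lit 30242, nat_lit 30298] (nat_lit 0) [nat_lit 49978] false,
   Spec.mk (nat_lit 30298) (nat_lit 0) [nat_lit 17176, nat_lit 43420, nat_lit 25924, nat_lit 34672, nat_lit 31756, nat_lit 29812, nat_lit 30460, nat_lit 30244, nat_lit 30304, nat_lit 30296, nat_lit 30300] (nat_lit 0) [nat_lit 49980, nat_lit 10616] false,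
   Spec.mk (nat_lit 30300) (nat_lit 0) [nat_lit 17178, nat_lit 43422, nat_lit 25926, nat_lit 34674, nat_lit 31758, nat_lit 29814, nat_lit 30462, nat_lit 30246, nat_lit 30306, nat_lit 30298] (nat_lit 2) [nat_lit 10618] false,
   Spec.mk (nat_lit 30304) (nat_lit 0) [nat_lit 17182, nat_lit 43426, nat_lit 25930, nat_lit 34678, nat_lit 31762, nat_lit 29818, nat_lit 30466, nat_lit 30250, nat_lit 30322, nat_lit 30298, nat_lit 30306] (nat_lit 1) [nat_lit 49986, nat_lit 10622] false,
   Spec.mk (nat_lit 30306) (nat_lit 0) [nat_lit 17184, nat_lit 43428, nat_lit 25932, nat_lit 34680, nat_lit 31764, nat_lit 29820, nat_lit 30468, nat_lit 30252, nat_lit 30324, nat_lit 30300, nat_lit 30312, nat_lit 30304] (nat_lit 1) [nat_lit 10624] false,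
   Spec.mk (nat_lit 30312) (nat_lit 0) [nat_lit 17190, nat_lit 43434, nat_lit 25938, nat_lit 34686, nat_lit 31770, nat_lit 29826, nat_lit 30474, nat_lit 30258, nat_lit 30330, nat_lit 30306] (nat_lit 2) [nat_lit 10630] false,
   Spec.mk (nat_lit 30322) (nat_lit 1) [nat_lit 17200, nat_lit 43444, nat_lit 25948, nat_lit 34696, nat_lit 31780, nat_lit 29836, nat_lit 30484, nat_lit 30268, nat_lit 30304, nat_lit 30324] (nat_lit 0) [nat_lit 50004, nat_lit 10640] false,
   Spec.mk (nat_lit 30324) (nat_lit 0) [nat_lit 17202, nat_lit 43446, nat_lit 25950, nat_lit 34698, nat_lit 31782, nat_lit 29838, nat_lit 30486, nat_lit 30270, nat_lit 30306, nat_lit 30330, nat_lit 30322] (nat_lit 0) [nat_lit 10642] false,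
   Spec.mk (nat_lit 30330) (nat_lit 1) [nat_lit 17208, nat_lit 43452, nat_lit 25956, nat_lit 34704, nat_lit 31788, nat_lit 29844, nat_lit 30492, nat_lit 30276, nat_lit 30312, nat_lit 30348, nat_lit 30324] (nat_lit 0) [nat_lit 10648] false,
   Spec.mk (nat_lit 30348) (nat_lit 2) [nat_lit 17226, nat_lit 43470, nat_lit 25974, nat_lit 34722, nat_lit 31806, nat_lit 29862, nat_lit 30510, nat_lit 30330] (nat_lit 0) [nat_lit 10666] false,
   Spec.mk (nat_lit 30380) (nat_lit 2) [nat_lit 17258, nat_lit 43502, nat_lit 26006, nat_lit 34754, nat_lit 31838, nat_lit 30218, nat_lit 30386, nat_lit 30382] (nat_lit 0) [nat_lit 50062] false,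
   Spec.mk (nat_lit 30382) (nat_lit 1) [nat_lit 17260, nat_lit 43504, nat_lit 26008, nat_lit 34756, nat_lit 31840, nat_lit 30220, nat_lit 30388, nat_lit 30380] (nat_lit 0) [nat_lit 50064, nat_lit 10700] false,
   Spec.mk (nat_lit 30386) (nat_lit 0) [nat_lit 17264, nat_lit 43508, nat_lit 26012, nat_lit 34760, nat_lit 31844, nat_lit 30224, nat_lit 30404, nat_lit 30380, nat_lit 30388] (nat_lit 0) [nat_lit 50068] false,
   Spec.mk (nat_lit 30388) (nat_lit 1) [nat_lit 17266, nat_lit 43510, nat_lit 26014, nat_lit 34762, nat_lit 31846, nat_lit 30226, nat_lit 30406, nat_lit 30382, nat_lit 30394, nat_lit 30386, nat_lit 30390] (nat_lit 0) [nat_lit 50070, nat_lit 10706] false,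
   Spec.mk (nat_lit 30390) (nat_lit 0) [nat_lit 17268, nat_lit 43512, nat_lit 26016, nat_lit 34764, nat_lit 31848, nat_lit 30228, nat_lit 30408, nat_lit 30396, nat_lit 30388] (nat_lit 0) [nat_lit 10708] false,
   Spec.mk (nat_lit 30394) (nat_lit 0) [nat_lit 17272, nat_lit 43516, nat_lit 26020, nat_lit 34768, nat_lit 31852, nat_lit 30232, nat_lit 30412, nat_lit 30388, nat_lit 30396] (nat_lit 1) [nat_lit 50076, nat_lit 10712] false,
   Spec.mk (nat_lit 30396) (nat_lit 0) [nat_lit 17274, nat_lit 43518, nat_lit 26022, nat_lit 34770, nat_lit 31854, nat_lit 30234, nat_lit 30414, nat_lit 30390, nat_lit 30394] (nat_lit 0) [nat_lit 10714] false,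
   Spec.mk (nat_lit 30404) (nat_lit 0) [nat_lit 17282, nat_lit 43526, nat_lit 26030, nat_lit 34778, nat_lit 31862, nat_lit 30242, nat_lit 30458, nat_lit 30386, nat_lit 30406] (nat_lit 0) [nat_lit 50086] false,
   Spec.mk (nat_lit 30406) (nat_lit 0) [nat_lit 17284, nat_lit 43528, nat_lit 26032, nat_lit 34780, nat_lit 31864, nat_lit 30244, nat_lit 30460, nat_lit 30388, nat_lit 30412, nat_lit 30404, nat_lit 30408] (nat_lit 0) [nat_lit 50088, nat_lit 10724] false,
   Spec.mk (nat_lit 30408) (nat_lit 0) [nat_lit 17286, nat_lit 43530, nat_lit 26034, nat_lit 34782, nat_lit 31866, nat_lit 30246, nat_lit 30462, nat_lit 30390, nat_lit 30414, nat_lit 30406] (nat_lit 2) [nat_lit 10726] false,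
   Spec.mk (nat_lit 30412) (nat_lit 0) [nat_lit 17290, nat_lit 43534, nat_lit 26038, nat_lit 34786, nat_lit 31870, nat_lit 30250, nat_lit 30466, nat_lit 30394, nat_lit 30430, nat_lit 30406, nat_lit 30414] (nat_lit 0) [nat_lit 50094, nat_lit 10730] false,
   Spec.mk (nat_lit 30414) (nat_lit 0) [nat_lit 17292, nat_lit 43536, nat_lit 26040, nat_lit 34788, nat_lit 31872, nat_lit 30252, nat_lit 30468, nat_lit 30396, nat_lit 30432, nat_lit 30408, nat_lit 30420, nat_lit 30412] (nat_lit 0) [nat_lit 10732] false,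
   Spec.mk (nat_lit 30420) (nat_lit 0) [nat_lit 17298, nat_lit 43542, nat_lit 26046, nat_lit 34794, nat_lit 31878, nat_lit 30258, nat_lit 30474, nat_lit 30438, nat_lit 30414] (nat_lit 0) [nat_lit 10738] false,
   Spec.mk (nat_lit 30430) (nat_lit 0) [nat_lit 17308, nat_lit 43552, nat_lit 26056, nat_lit 34804, nat_lit 31888, nat_lit 30268, nat_lit 30484, nat_lit 30412, nat_lit 30432] (nat_lit 1) [nat_lit 50112, nat_lit 10748] false,
   Spec.mk (nat_lit 30432) (nat_lit 0) [nat_lit 17310, nat_lit 43554, nat_lit 26058, nat_lit 34806, nat_lit 31890, nat_lit 30270, nat_lit 30486, nat_lit 30414, nat_lit 30438, nat_lit 30430] (nat_lit 2) [nat_lit 10750] false,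
   Spec.mk (nat_lit 30438) (nat_lit 0) [nat_lit 17316, nat_lit 43560, nat_lit 26064, nat_lit 34812, nat_lit 31896, nat_lit 30276, nat_lit 30492, nat_lit 30420, nat_lit 30432] (nat_lit 0) [nat_lit 10756] false,
   Spec.mk (nat_lit 30458) (nat_lit 2) [nat_lit 17336, nat_lit 43580, nat_lit 26084, nat_lit 34832, nat_lit 31916, nat_lit 30296, nat_lit 30404, nat_lit 30460] (nat_lit 0) [nat_lit 50140] false,
   Spec.mk (nat_lit 30460) (nat_lit 2) [nat_lit 17338, nat_lit 43582, nat_lit 26086, nat_lit 34834, nat_lit 31918, nat_lit 30298, nat_lit 30406, nat_lit 30466, nat_lit 30458, nat_lit 30462] (nat_lit 0) [nat_lit 50142, nat_lit 10778] false,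
   Spec.mk (nat_lit 30462) (nat_lit 0) [nat_lit 17340, nat_lit 43584, nat_lit 26088, nat_lit 34836, nat_lit 31920, nat_lit 30300, nat_lit 30408, nat_lit 30468, nat_lit 30460] (nat_lit 0) [nat_lit 10780] false,
   Spec.mk (nat_lit 30466) (nat_lit 1) [nat_lit 17344, nat_lit 43588, nat_lit 26092, nat_lit 34840, nat_lit 31924, nat_lit 30304, nat_lit 30412, nat_lit 30484, nat_lit 30460, nat_lit 30468] (nat_lit 0) [nat_lit 50148, nat_lit 10784] false,
   Spec.mk (nat_lit 30468) (nat_lit 1) [nat_lit 17346, nat_lit 43590, nat_lit 26094, nat_lit 34842, nat_lit 31926, nat_lit 30306, nat_lit 30414, nat_lit 30486, nat_lit 30462, nat_lit 30474, nat_lit 30466] (nat_lit 0) [nat_lit 10786] false,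
   Spec.mk (nat_lit 30474) (nat_lit 0) [nat_lit 17352, nat_lit 43596, nat_lit 26100, nat_lit 34848, nat_lit 31932, nat_lit 30312, nat_lit 30420, nat_lit 30492, nat_lit 30468] (nat_lit 0) [nat_lit 10792] false,
   Spec.mk (nat_lit 30484) (nat_lit 2) [nat_lit 17362, nat_lit 43606, nat_lit 26110, nat_lit 34858, nat_lit 31942, nat_lit 30322, nat_lit 30430, nat_lit 30538, nat_lit 30466, nat_lit 30486] (nat_lit 0) [nat_lit 50166, nat_lit 10802] false,
   Spec.mk (nat_lit 30486) (nat_lit 1) [nat_lit 17364, nat_lit 43608, nat_lit 26112, nat_lit 34860, nat_lit 31944, nat_lit 30324, nat_lit 30432, nat_lit 30540, nat_lit 30468, nat_lit 30492, nat_lit 30484] (nat_lit 0) [nat_lit 10804] false,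
   Spec.mk (nat_lit 30492) (nat_lit 2) [nat_lit 17370, nat_lit 43614, nat_lit 26118, nat_lit 34866, nat_lit 31950, nat_lit 30330, nat_lit 30438, nat_lit 30546, nat_lit 30474, nat_lit 30510, nat_lit 30486] (nat_lit 0) [nat_lit 10810] false,
   Spec.mk (nat_lit 30510) (nat_lit 2) [nat_lit 17388, nat_lit 43632, nat_lit 26136, nat_lit 34884, nat_lit 31968, nat_lit 30348, nat_lit 30564, nat_lit 30492] (nat_lit 0) [nat_lit 10828] false,
   Spec.mk (nat_lit 30538) (nat_lit 3) [nat_lit 17416, nat_lit 43660, nat_lit 26164, nat_lit 34912, nat_lit 31996, nat_lit 30484, nat_lit 30540] (nat_lit 0) [nat_lit 50220, nat_lit 10856] false,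
   Spec.mk (nat_lit 30540) (nat_lit 2) [nat_lit 17418, nat_lit 43662, nat_lit 26166, nat_lit 34914, nat_lit 31998, nat_lit 30486, nat_lit 30546, nat_lit 30538] (nat_lit 0) [nat_lit 10858] false,
   Spec.mk (nat_lit 30546) (nat_lit 2) [nat_lit 17424, nat_lit 43668, nat_lit 26172, nat_lit 34920, nat_lit 32004, nat_lit 30492, nat_lit 30564, nat_lit 30540] (nat_lit 0) [nat_lit 10864] false,
   Spec.mk (nat_lit 30564) (nat_lit 4) [nat_lit 17442, nat_lit 43686, nat_lit 26190, nat_lit 34938, nat_lit 32022, nat_lit 30510, nat_lit 30546] (nat_lit 0) [nat_lit 10882] false,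
   Spec.mk (nat_lit 30644) (nat_lit 3) [nat_lit 17522, nat_lit 43766, nat_lit 35018, nat_lit 29186, nat_lit 30662] (nat_lit 0) [nat_lit 50326] false,
   Spec.mk (nat_lit 30662) (nat_lit 2) [nat_lit 17540, nat_lit 43784, nat_lit 35036, nat_lit 29204, nat_lit 30716, nat_lit 30644, nat_lit 30680, nat_lit 30668] (nat_lit 0) [nat_lit 50344] false,
   Spec.mk (nat_lit 30668) (nat_lit 1) [nat_lit 17546, nat_lit 43790, nat_lit 35042, nat_lit 29210, nat_lit 30722, nat_lit 30686, nat_lit 30662, nat_lit 30670] (nat_lit 0) [nat_lit 50350] false,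
   Spec.mk (nat_lit 30670) (nat_lit 2) [nat_lit 17548, nat_lit 43792, nat_lit 35044, nat_lit 29212, nat_lit 30724, nat_lit 30688, nat_lit 30668] (nat_lit 0) [nat_lit 50352, nat_lit 10988] false,
   Spec.mk (nat_lit 30680) (nat_lit 0) [nat_lit 17558, nat_lit 43802, nat_lit 35054, nat_lit 29222, nat_lit 30734, nat_lit 30662, nat_lit 30686] (nat_lit 1) [nat_lit 50362] false,
   Spec.mk (nat_lit 30686) (nat_lit 0) [nat_lit 17564, nat_lit 43808, nat_lit 35060, nat_lit 29228, nat_lit 30740, nat_lit 30668, nat_lit 30680, nat_lit 30692, nat_lit 30688] (nat_lit 0) [nat_lit 50368] false,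
   Spec.mk (nat_lit 30688) (nat_lit 0) [nat_lit 17566, nat_lit 43810, nat_lit 35062, nat_lit 29230, nat_lit 30742, nat_lit 30670, nat_lit 30694, nat_lit 30686] (nat_lit 0) [nat_lit 50370, nat_lit 11006] false]

noncomputable def sp78 : List Spec :=
  [Spec.mk (nat_lit 30692) (nat_lit 0) [nat_lit 17570, nat_lit 43814, nat_lit 35066, nat_lit 29234, nat_lit 30746, nat_lit 30686, nat_lit 30694] (nat_lit 1) [nat_lit 50374] false,
   Spec.mk (nat_lit 30694) (nat_lit 1) [nat_lit 17572, nat_lit 43816, nat_lit 35068, nat_lit 29236, nat_lit 30748, nat_lit 30688, nat_lit 30692, nat_lit 30696] (nat_lit 0) [nat_lit 50376, nat_lit 11012] false,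
   Spec.mk (nat_lit 30696) (nat_lit 1) [nat_lit 17574, nat_lit 43818, nat_lit 35070, nat_lit 29238, nat_lit 30750, nat_lit 30694] (nat_lit 0) [nat_lit 11014] false,
   Spec.mk (nat_lit 30716) (nat_lit 1) [nat_lit 17594, nat_lit 43838, nat_lit 35090, nat_lit 29258, nat_lit 30878, nat_lit 30662, nat_lit 30734, nat_lit 30722] (nat_lit 0) [nat_lit 50398] false,
   Spec.mk (nat_lit 30722) (nat_lit 0) [nat_lit 17600, nat_lit 43844, nat_lit 35096, nat_lit 29264, nat_lit 30884, nat_lit 30668, nat_lit 30740, nat_lit 30716, nat_lit 30724] (nat_lit 1) [nat_lit 50404] false,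
   Spec.mk (nat_lit 30724) (nat_lit 0) [nat_lit 17602, nat_lit 43846, nat_lit 35098, nat_lit 29266, nat_lit 30886, nat_lit 30670, nat_lit 30742, nat_lit 30722] (nat_lit 0) [nat_lit 50406, nat_lit 11042] false,
   Spec.mk (nat_lit 30734) (nat_lit 0) [nat_lit 17612, nat_lit 43856, nat_lit 35108, nat_lit 29276, nat_lit 30896, nat_lit 30680, nat_lit 30788, nat_lit 30716, nat_lit 30740] (nat_lit 0) [nat_lit 50416] false,
   Spec.mk (nat_lit 30740) (nat_lit 0) [nat_lit 17618, nat_lit 43862, nat_lit 35114, nat_lit 29282, nat_lit 30902, nat_lit 30686, nat_lit 30794, nat_lit 30722, nat_lit 30758, nat_lit 30734, nat_lit 30746, nat_lit 30742] (nat_lit 0) [nat_lit 50422] false,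
   Spec.mk (nat_lit 30742) (nat_lit 0) [nat_lit 17620, nat_lit 43864, nat_lit 35116, nat_lit 29284, nat_lit 30904, nat_lit 30688, nat_lit 30796, nat_lit 30724, nat_lit 30760, nat_lit 30748, nat_lit 30740] (nat_lit 0) [nat_lit 50424, nat_lit 11060] false,
   Spec.mk (nat_lit 30746) (nat_lit 0) [nat_lit 17624, nat_lit 43868, nat_lit 35120, nat_lit 29288, nat_lit 30908, nat_lit 30692, nat_lit 30800, nat_lit 30764, nat_lit 30740, nat_lit 30748] (nat_lit 2) [nat_lit 50428] false,
   Spec.mk (nat_lit 30748) (nat_lit 0) [nat_lit 17626, nat_lit 43870, nat_lit 35122, nat_lit 29290, nat_lit 30910, nat_lit 30694, nat_lit 30802, nat_lit 30766, nat_lit 30742, nat_lit 30746, nat_lit 30750] (nat_lit 0) [nat_lit 50430, nat_lit 11066] false,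
   Spec.mk (nat_lit 30750) (nat_lit 0) [nat_lit 17628, nat_lit 43872, nat_lit 35124, nat_lit 29292, nat_lit 30912, nat_lit 30696, nat_lit 30804, nat_lit 30768, nat_lit 30748] (nat_lit 0) [nat_lit 11068] false,
   Spec.mk (nat_lit 30758) (nat_lit 0) [nat_lit 17636, nat_lit 43880, nat_lit 35132, nat_lit 29300, nat_lit 30920, nat_lit 30812, nat_lit 30740, nat_lit 30764, nat_lit 30760] (nat_lit 1) [nat_lit 50440] false,
   Spec.mk (nat_lit 30760) (nat_lit 0) [nat_lit 17638, nat_lit 43882, nat_lit 35134, nat_lit 29302, nat_lit 30922, nat_lit 30814, nat_lit 30742, nat_lit 30766, nat_lit 30758] (nat_lit 2) [nat_lit 50442, nat_lit 11078] false,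
   Spec.mk (nat_lit 30764) (nat_lit 0) [nat_lit 17642, nat_lit 43886, nat_lit 35138, nat_lit 29306, nat_lit 30926, nat_lit 30818, nat_lit 30746, nat_lit 30758, nat_lit 30766] (nat_lit 1) [nat_lit 50446] false,
   Spec.mk (nat_lit 30766) (nat_lit 0) [nat_lit 17644, nat_lit 43888, nat_lit 35140, nat_lit 29308, nat_lit 30928, nat_lit 30820, nat_lit 30748, nat_lit 30760, nat_lit 30772, nat_lit 30764, nat_lit 30768] (nat_lit 0) [nat_lit 50448, nat_lit 11084] false,
   Spec.mk (nat_lit 30768) (nat_lit 0) [nat_lit 17646, nat_lit 43890, nat_lit 35142, nat_lit 29310, nat_lit 30930, nat_lit 30822, nat_lit 30750, nat_lit 30774, nat_lit 30766] (nat_lit 1) [nat_lit 11086] false,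
   Spec.mk (nat_lit 30772) (nat_lit 0) [nat_lit 17650, nat_lit 43894, nat_lit 35146, nat_lit 29314, nat_lit 30934, nat_lit 30826, nat_lit 30766, nat_lit 30774] (nat_lit 0) [nat_lit 50454, nat_lit 11090] false,
   Spec.mk (nat_lit 30774) (nat_lit 1) [nat_lit 17652, nat_lit 43896, nat_lit 35148, nat_lit 29316, nat_lit 30936, nat_lit 30828, nat_lit 30768, nat_lit 30772] (nat_lit 0) [nat_lit 11092] false,
   Spec.mk (nat_lit 30788) (nat_lit 0) [nat_lit 17666, nat_lit 43910, nat_lit 35162, nat_lit 29330, nat_lit 30950, nat_lit 30734, nat_lit 30794] (nat_lit 1) [nat_lit 50470] false,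
   Spec.mk (nat_lit 30794) (nat_lit 0) [nat_lit 17672, nat_lit 43916, nat_lit 35168, nat_lit 29336, nat_lit 30956, nat_lit 30740, nat_lit 30812, nat_lit 30788, nat_lit 30800, nat_lit 30796] (nat_lit 2) [nat_lit 50476] false,
   Spec.mk (nat_lit 30796) (nat_lit 0) [nat_lit 17674, nat_lit 43918, nat_lit 35170, nat_lit 29338, nat_lit 30958, nat_lit 30742, nat_lit 30814, nat_lit 30802, nat_lit 30794] (nat_lit 2) [nat_lit 50478, nat_lit 11114] false,
   Spec.mk (nat_lit 30800) (nat_lit 0) [nat_lit 17678, nat_lit 43922, nat_lit 35174, nat_lit 29342, nat_lit 30962, nat_lit 30746, nat_lit 30818, nat_lit 30794, nat_lit 30802] (nat_lit 5) [nat_lit 50482] false,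
   Spec.mk (nat_lit 30802) (nat_lit 0) [nat_lit 17680, nat_lit 43924, nat_lit 35176, nat_lit 29344, nat_lit 30964, nat_lit 30748, nat_lit 30820, nat_lit 30796, nat_lit 30800, nat_lit 30804] (nat_lit 3) [nat_lit 50484, nat_lit 11120] false,
   Spec.mk (nat_lit 30804) (nat_lit 0) [nat_lit 17682, nat_lit 43926, nat_lit 35178, nat_lit 29346, nat_lit 30966, nat_lit 30750, nat_lit 30822, nat_lit 30802] (nat_lit 3) [nat_lit 11122] false,
   Spec.mk (nat_lit 30812) (nat_lit 0) [nat_lit 17690, nat_lit 43934, nat_lit 35186, nat_lit 29354, nat_lit 30974, nat_lit 30758, nat_lit 30794, nat_lit 30818, nat_lit 30814] (nat_lit 1) [nat_lit 50494] false,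
   Spec.mk (nat_lit 30814) (nat_lit 0) [nat_lit 17692, nat_lit 43936, nat_lit 35188, nat_lit 29356, nat_lit 30976, nat_lit 30760, nat_lit 30796, nat_lit 30820, nat_lit 30812] (nat_lit 2) [nat_lit 50496, nat_lit 11132] false,
   Spec.mk (nat_lit 30818) (nat_lit 0) [nat_lit 17696, nat_lit 43940, nat_lit 35192, nat_lit 29360, nat_lit 30980, nat_lit 30764, nat_lit 30800, nat_lit 30836, nat_lit 30812, nat_lit 30820] (nat_lit 2) [nat_lit 50500] false,
   Spec.mk (nat_lit 30820) (nat_lit 0) [nat_lit 17698, nat_lit 43942, nat_lit 35194, nat_lit 29362, nat_lit 30982, nat_lit 30766, nat_lit 30802, nat_lit 30838, nat_lit 30814, nat_lit 30826, nat_lit 30818, nat_lit 30822] (nat_lit 1) [nat_lit 50502, nat_lit 11138] false,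
   Spec.mk (nat_lit 30822) (nat_lit 0) [nat_lit 17700, nat_lit 43944, nat_lit 35196, nat_lit 29364, nat_lit 30984, nat_lit 30768, nat_lit 30804, nat_lit 30840, nat_lit 30828, nat_lit 30820] (nat_lit 2) [nat_lit 11140] false,
   Spec.mk (nat_lit 30826) (nat_lit 0) [nat_lit 17704, nat_lit 43948, nat_lit 35200, nat_lit 29368, nat_lit 30988, nat_lit 30772, nat_lit 30844, nat_lit 30820, nat_lit 30828] (nat_lit 2) [nat_lit 50508, nat_lit 11144] false,
   Spec.mk (nat_lit 30828) (nat_lit 0) [nat_lit 17706, nat_lit 43950, nat_lit 35202, nat_lit 29370, nat_lit 30990, nat_lit 30774, nat_lit 30846, nat_lit 30822, nat_lit 30826] (nat_lit 1) [nat_lit 11146] false,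
   Spec.mk (nat_lit 30836) (nat_lit 0) [nat_lit 17714, nat_lit 43958, nat_lit 35210, nat_lit 29378, nat_lit 30998, nat_lit 30818, nat_lit 30838] (nat_lit 1) [nat_lit 50518] false,
   Spec.mk (nat_lit 30838) (nat_lit 0) [nat_lit 17716, nat_lit 43960, nat_lit 35212, nat_lit 29380, nat_lit 31000, nat_lit 30820, nat_lit 30844, nat_lit 30836, nat_lit 30840] (nat_lit 1) [nat_lit 50520, nat_lit 11156] false,
   Spec.mk (nat_lit 30840) (nat_lit 0) [nat_lit 17718, nat_lit 43962, nat_lit 35214, nat_lit 29382, nat_lit 31002, nat_lit 30822, nat_lit 30846, nat_lit 30838] (nat_lit 3) [nat_lit 11158] false,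
   Spec.mk (nat_lit 30844) (nat_lit 0) [nat_lit 17722, nat_lit 43966, nat_lit 35218, nat_lit 29386, nat_lit 31006, nat_lit 30826, nat_lit 30838, nat_lit 30846] (nat_lit 0) [nat_lit 50526, nat_lit 11162] false,
   Spec.mk (nat_lit 30846) (nat_lit 0) [nat_lit 17724, nat_lit 43968, nat_lit 35220, nat_lit 29388, nat_lit 31008, nat_lit 30828, nat_lit 30840, nat_lit 30852, nat_lit 30844] (nat_lit 0) [nat_lit 11164] false,
   Spec.mk (nat_lit 30852) (nat_lit 1) [nat_lit 17730, nat_lit 43974, nat_lit 35226, nat_lit 29394, nat_lit 31014, nat_lit 30846] (nat_lit 0) [nat_lit 11170] false,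
   Spec.mk (nat_lit 30878) (nat_lit 1) [nat_lit 17756, nat_lit 44000, nat_lit 35252, nat_lit 29420, nat_lit 31364, nat_lit 30716, nat_lit 30896, nat_lit 30884] (nat_lit 0) [nat_lit 50560] false,
   Spec.mk (nat_lit 30884) (nat_lit 0) [nat_lit 17762, nat_lit 44006, nat_lit 35258, nat_lit 29426, nat_lit 31370, nat_lit 30722, nat_lit 30902, nat_lit 30878, nat_lit 30886] (nat_lit 1) [nat_lit 50566] false,
   Spec.mk (nat_lit 30886) (nat_lit 0) [nat_lit 17764, nat_lit 44008, nat_lit 35260, nat_lit 29428, nat_lit 31372, nat_lit 30724, nat_lit 30904, nat_lit 30884] (nat_lit 0) [nat_lit 50568, nat_lit 11204] false,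
   Spec.mk (nat_lit 30896) (nat_lit 0) [nat_lit 17774, nat_lit 44018, nat_lit 35270, nat_lit 29438, nat_lit 31382, nat_lit 30734, nat_lit 30950, nat_lit 30878, nat_lit 30902] (nat_lit 1) [nat_lit 50578] false,
   Spec.mk (nat_lit 30902) (nat_lit 0) [nat_lit 17780, nat_lit 44024, nat_lit 35276, nat_lit 29444, nat_lit 31388, nat_lit 30740, nat_lit 30956, nat_lit 30884, nat_lit 30920, nat_lit 30896, nat_lit 30908, nat_lit 30904] (nat_lit 1) [nat_lit 50584] false,
   Spec.mk (nat_lit 30904) (nat_lit 0) [nat_lit 17782, nat_lit 44026, nat_lit 35278, nat_lit 29446, nat_lit 31390, nat_lit 30742, nat_lit 30958, nat_lit 30886, nat_lit 30922, nat_lit 30910, nat_lit 30902] (nat_lit 1) [nat_lit 50586, nat_lit 11222] false,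
   Spec.mk (nat_lit 30908) (nat_lit 0) [nat_lit 17786, nat_lit 44030, nat_lit 35282, nat_lit 29450, nat_lit 31394, nat_lit 30746, nat_lit 30962, nat_lit 30926, nat_lit 30902, nat_lit 30910] (nat_lit 3) [nat_lit 50590] false,
   Spec.mk (nat_lit 30910) (nat_lit 0) [nat_lit 17788, nat_lit 44032, nat_lit 35284, nat_lit 29452, nat_lit 31396, nat_lit 30748, nat_lit 30964, nat_lit 30928, nat_lit 30904, nat_lit 30908, nat_lit 30912] (nat_lit 1) [nat_lit 50592, nat_lit 11228] false,
   Spec.mk (nat_lit 30912) (nat_lit 0) [nat_lit 17790, nat_lit 44034, nat_lit 35286, nat_lit 29454, nat_lit 31398, nat_lit 30750, nat_lit 30966, nat_lit 30930, nat_lit 30910] (nat_lit 1) [nat_lit 11230] false,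
   Spec.mk (nat_lit 30920) (nat_lit 0) [nat_lit 17798, nat_lit 44042, nat_lit 35294, nat_lit 29462, nat_lit 31406, nat_lit 30758, nat_lit 30974, nat_lit 30902, nat_lit 30926, nat_lit 30922] (nat_lit 3) [nat_lit 50602] false,
   Spec.mk (nat_lit 30922) (nat_lit 0) [nat_lit 17800, nat_lit 44044, nat_lit 35296, nat_lit 29464, nat_lit 31408, nat_lit 30760, nat_lit 30976, nat_lit 30904, nat_lit 30928, nat_lit 30920] (nat_lit 4) [nat_lit 50604, nat_lit 11240] false,
   Spec.mk (nat_lit 30926) (nat_lit 0) [nat_lit 17804, nat_lit 44048, nat_lit 35300, nat_lit 29468, nat_lit 31412, nat_lit 30764, nat_lit 30980, nat_lit 30908, nat_lit 30920, nat_lit 30928] (nat_lit 3) [nat_lit 50608] false,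
   Spec.mk (nat_lit 30928) (nat_lit 0) [nat_lit 17806, nat_lit 44050, nat_lit 35302, nat_lit 29470, nat_lit 31414, nat_lit 30766, nat_lit 30982, nat_lit 30910, nat_lit 30922, nat_lit 30934, nat_lit 30926, nat_lit 30930] (nat_lit 2) [nat_lit 50610, nat_lit 11246] false,
   Spec.mk (nat_lit 30930) (nat_lit 0) [nat_lit 17808, nat_lit 44052, nat_lit 35304, nat_lit 29472, nat_lit 31416, nat_lit 30768, nat_lit 30984, nat_lit 30912, nat_lit 30936, nat_lit 30928] (nat_lit 3) [nat_lit 11248] false,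
   Spec.mk (nat_lit 30934) (nat_lit 0) [nat_lit 17812, nat_lit 44056, nat_lit 35308, nat_lit 29476, nat_lit 31420, nat_lit 30772, nat_lit 30988, nat_lit 30928, nat_lit 30936] (nat_lit 2) [nat_lit 50616, nat_lit 11252] false,
   Spec.mk (nat_lit 30936) (nat_lit 0) [nat_lit 17814, nat_lit 44058, nat_lit 35310, nat_lit 29478, nat_lit 31422, nat_lit 30774, nat_lit 30990, nat_lit 30930, nat_lit 30934] (nat_lit 1) [nat_lit 11254] false,
   Spec.mk (nat_lit 30950) (nat_lit 0) [nat_lit 17828, nat_lit 44072, nat_lit 35324, nat_lit 29492, nat_lit 31436, nat_lit 30788, nat_lit 31112, nat_lit 30896, nat_lit 30956] (nat_lit 0) [nat_lit 50632] false,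
   Spec.mk (nat_lit 30956) (nat_lit 0) [nat_lit 17834, nat_lit 44078, nat_lit 35330, nat_lit 29498, nat_lit 31442, nat_lit 30794, nat_lit 31118, nat_lit 30902, nat_lit 30974, nat_lit 30950, nat_lit 30962, nat_lit 30958] (nat_lit 1) [nat_lit 50638] false,
   Spec.mk (nat_lit 30958) (nat_lit 0) [nat_lit 17836, nat_lit 44080, nat_lit 35332, nat_lit 29500, nat_lit 31444, nat_lit 30796, nat_lit 31120, nat_lit 30904, nat_lit 30976, nat_lit 30964, nat_lit 30956] (nat_lit 1) [nat_lit 50640, nat_lit 11276] false,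
   Spec.mk (nat_lit 30962) (nat_lit 0) [nat_lit 17840, nat_lit 44084, nat_lit 35336, nat_lit 29504, nat_lit 31448, nat_lit 30800, nat_lit 31124, nat_lit 30908, nat_lit 30980, nat_lit 30956, nat_lit 30964] (nat_lit 4) [nat_lit 50644] false,
   Spec.mk (nat_lit 30964) (nat_lit 0) [nat_lit 17842, nat_lit 44086, nat_lit 35338, nat_lit 29506, nat_lit 31450, nat_lit 30802, nat_lit 31126, nat_lit 30910, nat_lit 30982, nat_lit 30958, nat_lit 30962, nat_lit 30966] (nat_lit 2) [nat_lit 50646, nat_lit 11282] false,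
   Spec.mk (nat_lit 30966) (nat_lit 0) [nat_lit 17844, nat_lit 44088, nat_lit 35340, nat_lit 29508, nat_lit 31452, nat_lit 30804, nat_lit 31128, nat_lit 30912, nat_lit 30984, nat_lit 30964] (nat_lit 2) [nat_lit 11284] false]

noncomputable def sp79 : List Spec :=
  [Spec.mk (nat_lit 30974) (nat_lit 0) [nat_lit 17852, nat_lit 44096, nat_lit 35348, nat_lit 29516, nat_lit 31460, nat_lit 30812, nat_lit 31136, nat_lit 30920, nat_lit 31028, nat_lit 30956, nat_lit 30980, nat_lit 30976] (nat_lit 1) [nat_lit 50656] false,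
   Spec.mk (nat_lit 30976) (nat_lit 0) [nat_lit 17854, nat_lit 44098, nat_lit 35350, nat_lit 29518, nat_lit 31462, nat_lit 30814, nat_lit 31138, nat_lit 30922, nat_lit 31030, nat_lit 30958, nat_lit 30982, nat_lit 30974] (nat_lit 2) [nat_lit 50658, nat_lit 11294] false,
   Spec.mk (nat_lit 30980) (nat_lit 0) [nat_lit 17858, nat_lit 44102, nat_lit 35354, nat_lit 29522, nat_lit 31466, nat_lit 30818, nat_lit 31142, nat_lit 30926, nat_lit 31034, nat_lit 30962, nat_lit 30998, nat_lit 30974, nat_lit 30982] (nat_lit 2) [nat_lit 50662] false,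
   Spec.mk (nat_lit 30982) (nat_lit 0) [nat_lit 17860, nat_lit 44104, nat_lit 35356, nat_lit 29524, nat_lit 31468, nat_lit 30820, nat_lit 31144, nat_lit 30928, nat_lit 31036, nat_lit 30964, nat_lit 31000, nat_lit 30976, nat_lit 30988, nat_lit 30980, nat_lit 30984] (nat_lit 1) [nat_lit 50664, nat_lit 11300] false,
   Spec.mk (nat_lit 30984) (nat_lit 0) [nat_lit 17862, nat_lit 44106, nat_lit 35358, nat_lit 29526, nat_lit 31470, nat_lit 30822, nat_lit 31146, nat_lit 30930, nat_lit 31038, nat_lit 30966, nat_lit 31002, nat_lit 30990, nat_lit 30982] (nat_lit 2) [nat_lit 11302] false,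
   Spec.mk (nat_lit 30988) (nat_lit 0) [nat_lit 17866, nat_lit 44110, nat_lit 35362, nat_lit 29530, nat_lit 31474, nat_lit 30826, nat_lit 31150, nat_lit 30934, nat_lit 31042, nat_lit 31006, nat_lit 30982, nat_lit 30990] (nat_lit 2) [nat_lit 50670, nat_lit 11306] false,
   Spec.mk (nat_lit 30990) (nat_lit 0) [nat_lit 17868, nat_lit 44112, nat_lit 35364, nat_lit 29532, nat_lit 31476, nat_lit 30828, nat_lit 31152, nat_lit 30936, nat_lit 31044, nat_lit 31008, nat_lit 30984, nat_lit 30988] (nat_lit 1) [nat_lit 11308] false,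
   Spec.mk (nat_lit 30998) (nat_lit 0) [nat_lit 17876, nat_lit 44120, nat_lit 35372, nat_lit 29540, nat_lit 31484, nat_lit 30836, nat_lit 31160, nat_lit 31052, nat_lit 30980, nat_lit 31000] (nat_lit 2) [nat_lit 50680] false,
   Spec.mk (nat_lit 31000) (nat_lit 0) [nat_lit 17878, nat_lit 44122, nat_lit 35374, nat_lit 29542, nat_lit 31486, nat_lit 30838, nat_lit 31162, nat_lit 31054, nat_lit 30982, nat_lit 31006, nat_lit 30998, nat_lit 31002] (nat_lit 2) [nat_lit 50682, nat_lit 11318] false,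
   Spec.mk (nat_lit 31002) (nat_lit 0) [nat_lit 17880, nat_lit 44124, nat_lit 35376, nat_lit 29544, nat_lit 31488, nat_lit 30840, nat_lit 31164, nat_lit 31056, nat_lit 30984, nat_lit 31008, nat_lit 31000] (nat_lit 4) [nat_lit 11320] false,
   Spec.mk (nat_lit 31006) (nat_lit 0) [nat_lit 17884, nat_lit 44128, nat_lit 35380, nat_lit 29548, nat_lit 31492, nat_lit 30844, nat_lit 31168, nat_lit 31060, nat_lit 30988, nat_lit 31000, nat_lit 31008] (nat_lit 1) [nat_lit 50688, nat_lit 11324] false,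
   Spec.mk (nat_lit 31008) (nat_lit 0) [nat_lit 17886, nat_lit 44130, nat_lit 35382, nat_lit 29550, nat_lit 31494, nat_lit 30846, nat_lit 31170, nat_lit 31062, nat_lit 30990, nat_lit 31002, nat_lit 31014, nat_lit 31006] (nat_lit 1) [nat_lit 11326] false,
   Spec.mk (nat_lit 31014) (nat_lit 0) [nat_lit 17892, nat_lit 44136, nat_lit 35388, nat_lit 29556, nat_lit 31500, nat_lit 30852, nat_lit 31176, nat_lit 31068, nat_lit 31008] (nat_lit 0) [nat_lit 11332] false,
   Spec.mk (nat_lit 31028) (nat_lit 0) [nat_lit 17906, nat_lit 44150, nat_lit 35402, nat_lit 29570, nat_lit 31514, nat_lit 31190, nat_lit 30974, nat_lit 31034, nat_lit 31030] (nat_lit 1) [nat_lit 50710] false,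
   Spec.mk (nat_lit 31030) (nat_lit 0) [nat_lit 17908, nat_lit 44152, nat_lit 35404, nat_lit 29572, nat_lit 31516, nat_lit 31192, nat_lit 30976, nat_lit 31036, nat_lit 31028] (nat_lit 2) [nat_lit 50712, nat_lit 11348] false,
   Spec.mk (nat_lit 31034) (nat_lit 0) [nat_lit 17912, nat_lit 44156, nat_lit 35408, nat_lit 29576, nat_lit 31520, nat_lit 31196, nat_lit 30980, nat_lit 31052, nat_lit 31028, nat_lit 31036] (nat_lit 3) [nat_lit 50716] false,
   Spec.mk (nat_lit 31036) (nat_lit 0) [nat_lit 17914, nat_lit 44158, nat_lit 35410, nat_lit 29578, nat_lit 31522, nat_lit 31198, nat_lit 30982, nat_lit 31054, nat_lit 31030, nat_lit 31042, nat_lit 31034, nat_lit 31038] (nat_lit 2) [nat_lit 50718, nat_lit 11354] false,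
   Spec.mk (nat_lit 31038) (nat_lit 0) [nat_lit 17916, nat_lit 44160, nat_lit 35412, nat_lit 29580, nat_lit 31524, nat_lit 31200, nat_lit 30984, nat_lit 31056, nat_lit 31044, nat_lit 31036] (nat_lit 3) [nat_lit 11356] false,
   Spec.mk (nat_lit 31042) (nat_lit 0) [nat_lit 17920, nat_lit 44164, nat_lit 35416, nat_lit 29584, nat_lit 31528, nat_lit 31204, nat_lit 30988, nat_lit 31060, nat_lit 31036, nat_lit 31044] (nat_lit 4) [nat_lit 50724, nat_lit 11360] false,
   Spec.mk (nat_lit 31044) (nat_lit 0) [nat_lit 17922, nat_lit 44166, nat_lit 35418, nat_lit 29586, nat_lit 31530, nat_lit 31206, nat_lit 30990, nat_lit 31062, nat_lit 31038, nat_lit 31042] (nat_lit 3) [nat_lit 11362] false,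
   Spec.mk (nat_lit 31052) (nat_lit 0) [nat_lit 17930, nat_lit 44174, nat_lit 35426, nat_lit 29594, nat_lit 31538, nat_lit 31214, nat_lit 30998, nat_lit 31034, nat_lit 31054] (nat_lit 1) [nat_lit 50734] false,
   Spec.mk (nat_lit 31054) (nat_lit 0) [nat_lit 17932, nat_lit 44176, nat_lit 35428, nat_lit 29596, nat_lit 31540, nat_lit 31216, nat_lit 31000, nat_lit 31036, nat_lit 31060, nat_lit 31052, nat_lit 31056] (nat_lit 1) [nat_lit 50736, nat_lit 11372] false,
   Spec.mk (nat_lit 31056) (nat_lit 0) [nat_lit 17934, nat_lit 44178, nat_lit 35430, nat_lit 29598, nat_lit 31542, nat_lit 31218, nat_lit 31002, nat_lit 31038, nat_lit 31062, nat_lit 31054] (nat_lit 3) [nat_lit 11374] false,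
   Spec.mk (nat_lit 31060) (nat_lit 0) [nat_lit 17938, nat_lit 44182, nat_lit 35434, nat_lit 29602, nat_lit 31546, nat_lit 31222, nat_lit 31006, nat_lit 31042, nat_lit 31078, nat_lit 31054, nat_lit 31062] (nat_lit 1) [nat_lit 50742, nat_lit 11378] false,
   Spec.mk (nat_lit 31062) (nat_lit 0) [nat_lit 17940, nat_lit 44184, nat_lit 35436, nat_lit 29604, nat_lit 31548, nat_lit 31224, nat_lit 31008, nat_lit 31044, nat_lit 31080, nat_lit 31056, nat_lit 31068, nat_lit 31060] (nat_lit 1) [nat_lit 11380] false,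
   Spec.mk (nat_lit 31068) (nat_lit 0) [nat_lit 17946, nat_lit 44190, nat_lit 35442, nat_lit 29610, nat_lit 31554, nat_lit 31230, nat_lit 31014, nat_lit 31086, nat_lit 31062] (nat_lit 1) [nat_lit 11386] false,
   Spec.mk (nat_lit 31078) (nat_lit 0) [nat_lit 17956, nat_lit 44200, nat_lit 35452, nat_lit 29620, nat_lit 31564, nat_lit 31240, nat_lit 31060, nat_lit 31080] (nat_lit 0) [nat_lit 50760, nat_lit 11396] false,
   Spec.mk (nat_lit 31080) (nat_lit 0) [nat_lit 17958, nat_lit 44202, nat_lit 35454, nat_lit 29622, nat_lit 31566, nat_lit 31242, nat_lit 31062, nat_lit 31086, nat_lit 31078] (nat_lit 1) [nat_lit 11398] false,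
   Spec.mk (nat_lit 31086) (nat_lit 1) [nat_lit 17964, nat_lit 44208, nat_lit 35460, nat_lit 29628, nat_lit 31572, nat_lit 31248, nat_lit 31068, nat_lit 31080] (nat_lit 0) [nat_lit 11404] false,
   Spec.mk (nat_lit 31112) (nat_lit 0) [nat_lit 17990, nat_lit 44234, nat_lit 35486, nat_lit 29654, nat_lit 31598, nat_lit 30950, nat_lit 31118] (nat_lit 1) [nat_lit 50794] false,
   Spec.mk (nat_lit 31118) (nat_lit 0) [nat_lit 17996, nat_lit 44240, nat_lit 35492, nat_lit 29660, nat_lit 31604, nat_lit 30956, nat_lit 31136, nat_lit 31112, nat_lit 31124, nat_lit 31120] (nat_lit 2) [nat_lit 50800] false,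
   Spec.mk (nat_lit 31120) (nat_lit 0) [nat_lit 17998, nat_lit 44242, nat_lit 35494, nat_lit 29662, nat_lit 31606, nat_lit 30958, nat_lit 31138, nat_lit 31126, nat_lit 31118] (nat_lit 2) [nat_lit 50802, nat_lit 11438] false,
   Spec.mk (nat_lit 31124) (nat_lit 0) [nat_lit 18002, nat_lit 44246, nat_lit 35498, nat_lit 29666, nat_lit 31610, nat_lit 30962, nat_lit 31142, nat_lit 31118, nat_lit 31126] (nat_lit 5) [nat_lit 50806] false,
   Spec.mk (nat_lit 31126) (nat_lit 0) [nat_lit 18004, nat_lit 44248, nat_lit 35500, nat_lit 29668, nat_lit 31612, nat_lit 30964, nat_lit 31144, nat_lit 31120, nat_lit 31124, nat_lit 31128] (nat_lit 3) [nat_lit 50808, nat_lit 11444] false,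
   Spec.mk (nat_lit 31128) (nat_lit 0) [nat_lit 18006, nat_lit 44250, nat_lit 35502, nat_lit 29670, nat_lit 31614, nat_lit 30966, nat_lit 31146, nat_lit 31126] (nat_lit 3) [nat_lit 11446] false,
   Spec.mk (nat_lit 31136) (nat_lit 0) [nat_lit 18014, nat_lit 44258, nat_lit 35510, nat_lit 29678, nat_lit 31622, nat_lit 30974, nat_lit 31190, nat_lit 31118, nat_lit 31142, nat_lit 31138] (nat_lit 3) [nat_lit 50818] false,
   Spec.mk (nat_lit 31138) (nat_lit 0) [nat_lit 18016, nat_lit 44260, nat_lit 35512, nat_lit 29680, nat_lit 31624, nat_lit 30976, nat_lit 31192, nat_lit 31120, nat_lit 31144, nat_lit 31136] (nat_lit 4) [nat_lit 50820, nat_lit 11456] false,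
   Spec.mk (nat_lit 31142) (nat_lit 0) [nat_lit 18020, nat_lit 44264, nat_lit 35516, nat_lit 29684, nat_lit 31628, nat_lit 30980, nat_lit 31196, nat_lit 31124, nat_lit 31160, nat_lit 31136, nat_lit 31144] (nat_lit 4) [nat_lit 50824] false,
   Spec.mk (nat_lit 31144) (nat_lit 0) [nat_lit 18022, nat_lit 44266, nat_lit 35518, nat_lit 29686, nat_lit 31630, nat_lit 30982, nat_lit 31198, nat_lit 31126, nat_lit 31162, nat_lit 31138, nat_lit 31150, nat_lit 31142, nat_lit 31146] (nat_lit 3) [nat_lit 50826, nat_lit 11462] false,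
   Spec.mk (nat_lit 31146) (nat_lit 0) [nat_lit 18024, nat_lit 44268, nat_lit 35520, nat_lit 29688, nat_lit 31632, nat_lit 30984, nat_lit 31200, nat_lit 31128, nat_lit 31164, nat_lit 31152, nat_lit 31144] (nat_lit 4) [nat_lit 11464] false,
   Spec.mk (nat_lit 31150) (nat_lit 0) [nat_lit 18028, nat_lit 44272, nat_lit 35524, nat_lit 29692, nat_lit 31636, nat_lit 30988, nat_lit 31204, nat_lit 31168, nat_lit 31144, nat_lit 31152] (nat_lit 4) [nat_lit 50832, nat_lit 11468] false,
   Spec.mk (nat_lit 31152) (nat_lit 0) [nat_lit 18030, nat_lit 44274, nat_lit 35526, nat_lit 29694, nat_lit 31638, nat_lit 30990, nat_lit 31206, nat_lit 31170, nat_lit 31146, nat_lit 31150] (nat_lit 3) [nat_lit 11470] false,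
   Spec.mk (nat_lit 31160) (nat_lit 0) [nat_lit 18038, nat_lit 44282, nat_lit 35534, nat_lit 29702, nat_lit 31646, nat_lit 30998, nat_lit 31214, nat_lit 31142, nat_lit 31162] (nat_lit 5) [nat_lit 50842] false,
   Spec.mk (nat_lit 31162) (nat_lit 0) [nat_lit 18040, nat_lit 44284, nat_lit 35536, nat_lit 29704, nat_lit 31648, nat_lit 31000, nat_lit 31216, nat_lit 31144, nat_lit 31168, nat_lit 31160, nat_lit 31164] (nat_lit 5) [nat_lit 50844, nat_lit 11480] false,
   Spec.mk (nat_lit 31164) (nat_lit 0) [nat_lit 18042, nat_lit 44286, nat_lit 35538, nat_lit 29706, nat_lit 31650, nat_lit 31002, nat_lit 31218, nat_lit 31146, nat_lit 31170, nat_lit 31162] (nat_lit 7) [nat_lit 11482] false,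
   Spec.mk (nat_lit 31168) (nat_lit 0) [nat_lit 18046, nat_lit 44290, nat_lit 35542, nat_lit 29710, nat_lit 31654, nat_lit 31006, nat_lit 31222, nat_lit 31150, nat_lit 31162, nat_lit 31170] (nat_lit 4) [nat_lit 50850, nat_lit 11486] false,
   Spec.mk (nat_lit 31170) (nat_lit 0) [nat_lit 18048, nat_lit 44292, nat_lit 35544, nat_lit 29712, nat_lit 31656, nat_lit 31008, nat_lit 31224, nat_lit 31152, nat_lit 31164, nat_lit 31176, nat_lit 31168] (nat_lit 4) [nat_lit 11488] false,
   Spec.mk (nat_lit 31176) (nat_lit 0) [nat_lit 18054, nat_lit 44298, nat_lit 35550, nat_lit 29718, nat_lit 31662, nat_lit 31014, nat_lit 31230, nat_lit 31170] (nat_lit 3) [nat_lit 11494] false,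
   Spec.mk (nat_lit 31190) (nat_lit 0) [nat_lit 18068, nat_lit 44312, nat_lit 35564, nat_lit 29732, nat_lit 31676, nat_lit 31028, nat_lit 31136, nat_lit 31196, nat_lit 31192] (nat_lit 1) [nat_lit 50872] false,
   Spec.mk (nat_lit 31192) (nat_lit 0) [nat_lit 18070, nat_lit 44314, nat_lit 35566, nat_lit 29734, nat_lit 31678, nat_lit 31030, nat_lit 31138, nat_lit 31198, nat_lit 31190] (nat_lit 2) [nat_lit 50874, nat_lit 11510] false,
   Spec.mk (nat_lit 31196) (nat_lit 0) [nat_lit 18074, nat_lit 44318, nat_lit 35570, nat_lit 29738, nat_lit 31682, nat_lit 31034, nat_lit 31142, nat_lit 31214, nat_lit 31190, nat_lit 31198] (nat_lit 3) [nat_lit 50878] false,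
   Spec.mk (nat_lit 31198) (nat_lit 0) [nat_lit 18076, nat_lit 44320, nat_lit 35572, nat_lit 29740, nat_lit 31684, nat_lit 31036, nat_lit 31144, nat_lit 31216, nat_lit 31192, nat_lit 31204, nat_lit 31196, nat_lit 31200] (nat_lit 2) [nat_lit 50880, nat_lit 11516] false,
   Spec.mk (nat_lit 31200) (nat_lit 0) [nat_lit 18078, nat_lit 44322, nat_lit 35574, nat_lit 29742, nat_lit 31686, nat_lit 31038, nat_lit 31146, nat_lit 31218, nat_lit 31206, nat_lit 31198] (nat_lit 3) [nat_lit 11518] false,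
   Spec.mk (nat_lit 31204) (nat_lit 0) [nat_lit 18082, nat_lit 44326, nat_lit 35578, nat_lit 29746, nat_lit 31690, nat_lit 31042, nat_lit 31150, nat_lit 31222, nat_lit 31198, nat_lit 31206] (nat_lit 4) [nat_lit 50886, nat_lit 11522] false,
   Spec.mk (nat_lit 31206) (nat_lit 0) [nat_lit 18084, nat_lit 44328, nat_lit 35580, nat_lit 29748, nat_lit 31692, nat_lit 31044, nat_lit 31152, nat_lit 31224, nat_lit 31200, nat_lit 31204] (nat_lit 3) [nat_lit 11524] false,
   Spec.mk (nat_lit 31214) (nat_lit 0) [nat_lit 18092, nat_lit 44336, nat_lit 35588, nat_lit 29756, nat_lit 31700, nat_lit 31052, nat_lit 31160, nat_lit 31268, nat_lit 31196, nat_lit 31216] (nat_lit 2) [nat_lit 50896] false,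
   Spec.mk (nat_lit 31216) (nat_lit 0) [nat_lit 18094, nat_lit 44338, nat_lit 35590, nat_lit 29758, nat_lit 31702, nat_lit 31054, nat_lit 31162, nat_lit 31270, nat_lit 31198, nat_lit 31222, nat_lit 31214, nat_lit 31218] (nat_lit 2) [nat_lit 50898, nat_lit 11534] false,
   Spec.mk (nat_lit 31218) (nat_lit 0) [nat_lit 18096, nat_lit 44340, nat_lit 35592, nat_lit 29760, nat_lit 31704, nat_lit 31056, nat_lit 31164, nat_lit 31272, nat_lit 31200, nat_lit 31224, nat_lit 31216] (nat_lit 4) [nat_lit 11536] false,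
   Spec.mk (nat_lit 31222) (nat_lit 0) [nat_lit 18100, nat_lit 44344, nat_lit 35596, nat_lit 29764, nat_lit 31708, nat_lit 31060, nat_lit 31168, nat_lit 31276, nat_lit 31204, nat_lit 31240, nat_lit 31216, nat_lit 31224] (nat_lit 2) [nat_lit 50904, nat_lit 11540] false,
   Spec.mk (nat_lit 31224) (nat_lit 0) [nat_lit 18102, nat_lit 44346, nat_lit 35598, nat_lit 29766, nat_lit 31710, nat_lit 31062, nat_lit 31170, nat_lit 31278, nat_lit 31206, nat_lit 31242, nat_lit 31218, nat_lit 31230, nat_lit 31222] (nat_lit 2) [nat_lit 11542] false]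

noncomputable def sp80 : List Spec :=
  [Spec.mk (nat_lit 31230) (nat_lit 0) [nat_lit 18108, nat_lit 44352, nat_lit 35604, nat_lit 29772, nat_lit 31716, nat_lit 31068, nat_lit 31176, nat_lit 31284, nat_lit 31248, nat_lit 31224] (nat_lit 2) [nat_lit 11548] false,
   Spec.mk (nat_lit 31240) (nat_lit 0) [nat_lit 18118, nat_lit 44362, nat_lit 35614, nat_lit 29782, nat_lit 31726, nat_lit 31078, nat_lit 31294, nat_lit 31222, nat_lit 31242] (nat_lit 2) [nat_lit 50922, nat_lit 11558] false,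
   Spec.mk (nat_lit 31242) (nat_lit 0) [nat_lit 18120, nat_lit 44364, nat_lit 35616, nat_lit 29784, nat_lit 31728, nat_lit 31080, nat_lit 31296, nat_lit 31224, nat_lit 31248, nat_lit 31240] (nat_lit 3) [nat_lit 11560] false,
   Spec.mk (nat_lit 31248) (nat_lit 0) [nat_lit 18126, nat_lit 44370, nat_lit 35622, nat_lit 29790, nat_lit 31734, nat_lit 31086, nat_lit 31302, nat_lit 31230, nat_lit 31242] (nat_lit 1) [nat_lit 11566] false,
   Spec.mk (nat_lit 31268) (nat_lit 0) [nat_lit 18146, nat_lit 44390, nat_lit 35642, nat_lit 29810, nat_lit 31754, nat_lit 31214, nat_lit 31270] (nat_lit 1) [nat_lit 50950] false,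
   Spec.mk (nat_lit 31270) (nat_lit 0) [nat_lit 18148, nat_lit 44392, nat_lit 35644, nat_lit 29812, nat_lit 31756, nat_lit 31216, nat_lit 31276, nat_lit 31268, nat_lit 31272] (nat_lit 1) [nat_lit 50952, nat_lit 11588] false,
   Spec.mk (nat_lit 31272) (nat_lit 0) [nat_lit 18150, nat_lit 44394, nat_lit 35646, nat_lit 29814, nat_lit 31758, nat_lit 31218, nat_lit 31278, nat_lit 31270] (nat_lit 3) [nat_lit 11590] false,
   Spec.mk (nat_lit 31276) (nat_lit 0) [nat_lit 18154, nat_lit 44398, nat_lit 35650, nat_lit 29818, nat_lit 31762, nat_lit 31222, nat_lit 31294, nat_lit 31270, nat_lit 31278] (nat_lit 2) [nat_lit 50958, nat_lit 11594] false,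
   Spec.mk (nat_lit 31278) (nat_lit 0) [nat_lit 18156, nat_lit 44400, nat_lit 35652, nat_lit 29820, nat_lit 31764, nat_lit 31224, nat_lit 31296, nat_lit 31272, nat_lit 31284, nat_lit 31276] (nat_lit 2) [nat_lit 11596] false,
   Spec.mk (nat_lit 31284) (nat_lit 0) [nat_lit 18162, nat_lit 44406, nat_lit 35658, nat_lit 29826, nat_lit 31770, nat_lit 31230, nat_lit 31302, nat_lit 31278] (nat_lit 3) [nat_lit 11602] false,
   Spec.mk (nat_lit 31294) (nat_lit 0) [nat_lit 18172, nat_lit 44416, nat_lit 35668, nat_lit 29836, nat_lit 31780, nat_lit 31240, nat_lit 31276, nat_lit 31296] (nat_lit 0) [nat_lit 50976, nat_lit 11612] false,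
   Spec.mk (nat_lit 31296) (nat_lit 0) [nat_lit 18174, nat_lit 44418, nat_lit 35670, nat_lit 29838, nat_lit 31782, nat_lit 31242, nat_lit 31278, nat_lit 31302, nat_lit 31294] (nat_lit 1) [nat_lit 11614] false,
   Spec.mk (nat_lit 31302) (nat_lit 0) [nat_lit 18180, nat_lit 44424, nat_lit 35676, nat_lit 29844, nat_lit 31788, nat_lit 31248, nat_lit 31284, nat_lit 31320, nat_lit 31296] (nat_lit 0) [nat_lit 11620] false,
   Spec.mk (nat_lit 31320) (nat_lit 1) [nat_lit 18198, nat_lit 44442, nat_lit 35694, nat_lit 29862, nat_lit 31806, nat_lit 31302] (nat_lit 0) [nat_lit 11638] false,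
   Spec.mk (nat_lit 31364) (nat_lit 3) [nat_lit 18242, nat_lit 44486, nat_lit 35738, nat_lit 29906, nat_lit 30878, nat_lit 31382, nat_lit 31370] (nat_lit 0) [nat_lit 51046] false,
   Spec.mk (nat_lit 31370) (nat_lit 1) [nat_lit 18248, nat_lit 44492, nat_lit 35744, nat_lit 29912, nat_lit 30884, nat_lit 31388, nat_lit 31364, nat_lit 31372] (nat_lit 0) [nat_lit 51052] false,
   Spec.mk (nat_lit 31372) (nat_lit 2) [nat_lit 18250, nat_lit 44494, nat_lit 35746, nat_lit 29914, nat_lit 30886, nat_lit 31390, nat_lit 31370] (nat_lit 0) [nat_lit 51054, nat_lit 11690] false,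
   Spec.mk (nat_lit 31382) (nat_lit 1) [nat_lit 18260, nat_lit 44504, nat_lit 35756, nat_lit 29924, nat_lit 30896, nat_lit 31436, nat_lit 31364, nat_lit 31388] (nat_lit 0) [nat_lit 51064] false,
   Spec.mk (nat_lit 31388) (nat_lit 1) [nat_lit 18266, nat_lit 44510, nat_lit 35762, nat_lit 29930, nat_lit 30902, nat_lit 31442, nat_lit 31370, nat_lit 31406, nat_lit 31382, nat_lit 31394, nat_lit 31390] (nat_lit 0) [nat_lit 51070] false,
   Spec.mk (nat_lit 31390) (nat_lit 1) [nat_lit 18268, nat_lit 44512, nat_lit 35764, nat_lit 29932, nat_lit 30904, nat_lit 31444, nat_lit 31372, nat_lit 31408, nat_lit 31396, nat_lit 31388] (nat_lit 0) [nat_lit 51072, nat_lit 11708] false,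
   Spec.mk (nat_lit 31394) (nat_lit 0) [nat_lit 18272, nat_lit 44516, nat_lit 35768, nat_lit 29936, nat_lit 30908, nat_lit 31448, nat_lit 31412, nat_lit 31388, nat_lit 31396] (nat_lit 1) [nat_lit 51076] false,
   Spec.mk (nat_lit 31396) (nat_lit 1) [nat_lit 18274, nat_lit 44518, nat_lit 35770, nat_lit 29938, nat_lit 30910, nat_lit 31450, nat_lit 31414, nat_lit 31390, nat_lit 31394, nat_lit 31398] (nat_lit 0) [nat_lit 51078, nat_lit 11714] false,
   Spec.mk (nat_lit 31398) (nat_lit 1) [nat_lit 18276, nat_lit 44520, nat_lit 35772, nat_lit 29940, nat_lit 30912, nat_lit 31452, nat_lit 31416, nat_lit 31396] (nat_lit 0) [nat_lit 11716] false,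
   Spec.mk (nat_lit 31406) (nat_lit 0) [nat_lit 18284, nat_lit 44528, nat_lit 35780, nat_lit 29948, nat_lit 30920, nat_lit 31460, nat_lit 31388, nat_lit 31412, nat_lit 31408] (nat_lit 1) [nat_lit 51088] false,
   Spec.mk (nat_lit 31408) (nat_lit 0) [nat_lit 18286, nat_lit 44530, nat_lit 35782, nat_lit 29950, nat_lit 30922, nat_lit 31462, nat_lit 31390, nat_lit 31414, nat_lit 31406] (nat_lit 2) [nat_lit 51090, nat_lit 11726] false,
   Spec.mk (nat_lit 31412) (nat_lit 0) [nat_lit 18290, nat_lit 44534, nat_lit 35786, nat_lit 29954, nat_lit 30926, nat_lit 31466, nat_lit 31394, nat_lit 31406, nat_lit 31414] (nat_lit 1) [nat_lit 51094] false,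
   Spec.mk (nat_lit 31414) (nat_lit 0) [nat_lit 18292, nat_lit 44536, nat_lit 35788, nat_lit 29956, nat_lit 30928, nat_lit 31468, nat_lit 31396, nat_lit 31408, nat_lit 31420, nat_lit 31412, nat_lit 31416] (nat_lit 0) [nat_lit 51096, nat_lit 11732] false,
   Spec.mk (nat_lit 31416) (nat_lit 0) [nat_lit 18294, nat_lit 44538, nat_lit 35790, nat_lit 29958, nat_lit 30930, nat_lit 31470, nat_lit 31398, nat_lit 31422, nat_lit 31414] (nat_lit 1) [nat_lit 11734] false,
   Spec.mk (nat_lit 31420) (nat_lit 0) [nat_lit 18298, nat_lit 44542, nat_lit 35794, nat_lit 29962, nat_lit 30934, nat_lit 31474, nat_lit 31414, nat_lit 31422] (nat_lit 0) [nat_lit 51102, nat_lit 11738] false,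
   Spec.mk (nat_lit 31422) (nat_lit 1) [nat_lit 18300, nat_lit 44544, nat_lit 35796, nat_lit 29964, nat_lit 30936, nat_lit 31476, nat_lit 31416, nat_lit 31420] (nat_lit 0) [nat_lit 11740] false,
   Spec.mk (nat_lit 31436) (nat_lit 1) [nat_lit 18314, nat_lit 44558, nat_lit 35810, nat_lit 29978, nat_lit 30950, nat_lit 31598, nat_lit 31382, nat_lit 31442] (nat_lit 0) [nat_lit 51118] false,
   Spec.mk (nat_lit 31442) (nat_lit 0) [nat_lit 18320, nat_lit 44564, nat_lit 35816, nat_lit 29984, nat_lit 30956, nat_lit 31604, nat_lit 31388, nat_lit 31460, nat_lit 31436, nat_lit 31448, nat_lit 31444] (nat_lit 0) [nat_lit 51124] false,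
   Spec.mk (nat_lit 31444) (nat_lit 0) [nat_lit 18322, nat_lit 44566, nat_lit 35818, nat_lit 29986, nat_lit 30958, nat_lit 31606, nat_lit 31390, nat_lit 31462, nat_lit 31450, nat_lit 31442] (nat_lit 0) [nat_lit 51126, nat_lit 11762] false,
   Spec.mk (nat_lit 31448) (nat_lit 0) [nat_lit 18326, nat_lit 44570, nat_lit 35822, nat_lit 29990, nat_lit 30962, nat_lit 31610, nat_lit 31394, nat_lit 31466, nat_lit 31442, nat_lit 31450] (nat_lit 3) [nat_lit 51130] false,
   Spec.mk (nat_lit 31450) (nat_lit 0) [nat_lit 18328, nat_lit 44572, nat_lit 35824, nat_lit 29992, nat_lit 30964, nat_lit 31612, nat_lit 31396, nat_lit 31468, nat_lit 31444, nat_lit 31448, nat_lit 31452] (nat_lit 1) [nat_lit 51132, nat_lit 11768] false,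
   Spec.mk (nat_lit 31452) (nat_lit 0) [nat_lit 18330, nat_lit 44574, nat_lit 35826, nat_lit 29994, nat_lit 30966, nat_lit 31614, nat_lit 31398, nat_lit 31470, nat_lit 31450] (nat_lit 1) [nat_lit 11770] false,
   Spec.mk (nat_lit 31460) (nat_lit 0) [nat_lit 18338, nat_lit 44582, nat_lit 35834, nat_lit 30002, nat_lit 30974, nat_lit 31622, nat_lit 31406, nat_lit 31514, nat_lit 31442, nat_lit 31466, nat_lit 31462] (nat_lit 0) [nat_lit 51142] false,
   Spec.mk (nat_lit 31462) (nat_lit 0) [nat_lit 18340, nat_lit 44584, nat_lit 35836, nat_lit 30004, nat_lit 30976, nat_lit 31624, nat_lit 31408, nat_lit 31516, nat_lit 31444, nat_lit 31468, nat_lit 31460] (nat_lit 1) [nat_lit 51144, nat_lit 11780] false,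
   Spec.mk (nat_lit 31466) (nat_lit 0) [nat_lit 18344, nat_lit 44588, nat_lit 35840, nat_lit 30008, nat_lit 30980, nat_lit 31628, nat_lit 31412, nat_lit 31520, nat_lit 31448, nat_lit 31484, nat_lit 31460, nat_lit 31468] (nat_lit 1) [nat_lit 51148] false,
   Spec.mk (nat_lit 31468) (nat_lit 0) [nat_lit 18346, nat_lit 44590, nat_lit 35842, nat_lit 30010, nat_lit 30982, nat_lit 31630, nat_lit 31414, nat_lit 31522, nat_lit 31450, nat_lit 31486, nat_lit 31462, nat_lit 31474, nat_lit 31466, nat_lit 31470] (nat_lit 0) [nat_lit 51150, nat_lit 11786] false,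
   Spec.mk (nat_lit 31470) (nat_lit 0) [nat_lit 18348, nat_lit 44592, nat_lit 35844, nat_lit 30012, nat_lit 30984, nat_lit 31632, nat_lit 31416, nat_lit 31524, nat_lit 31452, nat_lit 31488, nat_lit 31476, nat_lit 31468] (nat_lit 1) [nat_lit 11788] false,
   Spec.mk (nat_lit 31474) (nat_lit 0) [nat_lit 18352, nat_lit 44596, nat_lit 35848, nat_lit 30016, nat_lit 30988, nat_lit 31636, nat_lit 31420, nat_lit 31528, nat_lit 31492, nat_lit 31468, nat_lit 31476] (nat_lit 1) [nat_lit 51156, nat_lit 11792] false,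
   Spec.mk (nat_lit 31476) (nat_lit 0) [nat_lit 18354, nat_lit 44598, nat_lit 35850, nat_lit 30018, nat_lit 30990, nat_lit 31638, nat_lit 31422, nat_lit 31530, nat_lit 31494, nat_lit 31470, nat_lit 31474] (nat_lit 0) [nat_lit 11794] false,
   Spec.mk (nat_lit 31484) (nat_lit 0) [nat_lit 18362, nat_lit 44606, nat_lit 35858, nat_lit 30026, nat_lit 30998, nat_lit 31646, nat_lit 31538, nat_lit 31466, nat_lit 31486] (nat_lit 1) [nat_lit 51166] false,
   Spec.mk (nat_lit 31486) (nat_lit 0) [nat_lit 18364, nat_lit 44608, nat_lit 35860, nat_lit 30028, nat_lit 31000, nat_lit 31648, nat_lit 31540, nat_lit 31468, nat_lit 31492, nat_lit 31484, nat_lit 31488] (nat_lit 1) [nat_lit 51168, nat_lit 11804] false,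
   Spec.mk (nat_lit 31488) (nat_lit 0) [nat_lit 18366, nat_lit 44610, nat_lit 35862, nat_lit 30030, nat_lit 31002, nat_lit 31650, nat_lit 31542, nat_lit 31470, nat_lit 31494, nat_lit 31486] (nat_lit 3) [nat_lit 11806] false,
   Spec.mk (nat_lit 31492) (nat_lit 0) [nat_lit 18370, nat_lit 44614, nat_lit 35866, nat_lit 30034, nat_lit 31006, nat_lit 31654, nat_lit 31546, nat_lit 31474, nat_lit 31486, nat_lit 31494] (nat_lit 0) [nat_lit 51174, nat_lit 11810] false,
   Spec.mk (nat_lit 31494) (nat_lit 0) [nat_lit 18372, nat_lit 44616, nat_lit 35868, nat_lit 30036, nat_lit 31008, nat_lit 31656, nat_lit 31548, nat_lit 31476, nat_lit 31488, nat_lit 31500, nat_lit 31492] (nat_lit 0) [nat_lit 11812] false,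
   Spec.mk (nat_lit 31500) (nat_lit 1) [nat_lit 18378, nat_lit 44622, nat_lit 35874, nat_lit 30042, nat_lit 31014, nat_lit 31662, nat_lit 31554, nat_lit 31494] (nat_lit 0) [nat_lit 11818] false,
   Spec.mk (nat_lit 31514) (nat_lit 0) [nat_lit 18392, nat_lit 44636, nat_lit 35888, nat_lit 30056, nat_lit 31028, nat_lit 31676, nat_lit 31460, nat_lit 31520, nat_lit 31516] (nat_lit 1) [nat_lit 51196] false,
   Spec.mk (nat_lit 31516) (nat_lit 0) [nat_lit 18394, nat_lit 44638, nat_lit 35890, nat_lit 30058, nat_lit 31030, nat_lit 31678, nat_lit 31462, nat_lit 31522, nat_lit 31514] (nat_lit 2) [nat_lit 51198, nat_lit 11834] false,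
   Spec.mk (nat_lit 31520) (nat_lit 0) [nat_lit 18398, nat_lit 44642, nat_lit 35894, nat_lit 30062, nat_lit 31034, nat_lit 31682, nat_lit 31466, nat_lit 31538, nat_lit 31514, nat_lit 31522] (nat_lit 3) [nat_lit 51202] false,
   Spec.mk (nat_lit 31522) (nat_lit 0) [nat_lit 18400, nat_lit 44644, nat_lit 35896, nat_lit 30064, nat_lit 31036, nat_lit 31684, nat_lit 31468, nat_lit 31540, nat_lit 31516, nat_lit 31528, nat_lit 31520, nat_lit 31524] (nat_lit 2) [nat_lit 51204, nat_lit 11840] false,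
   Spec.mk (nat_lit 31524) (nat_lit 0) [nat_lit 18402, nat_lit 44646, nat_lit 35898, nat_lit 30066, nat_lit 31038, nat_lit 31686, nat_lit 31470, nat_lit 31542, nat_lit 31530, nat_lit 31522] (nat_lit 3) [nat_lit 11842] false,
   Spec.mk (nat_lit 31528) (nat_lit 0) [nat_lit 18406, nat_lit 44650, nat_lit 35902, nat_lit 30070, nat_lit 31042, nat_lit 31690, nat_lit 31474, nat_lit 31546, nat_lit 31522, nat_lit 31530] (nat_lit 4) [nat_lit 51210, nat_lit 11846] false,
   Spec.mk (nat_lit 31530) (nat_lit 0) [nat_lit 18408, nat_lit 44652, nat_lit 35904, nat_lit 30072, nat_lit 31044, nat_lit 31692, nat_lit 31476, nat_lit 31548, nat_lit 31524, nat_lit 31528] (nat_lit 3) [nat_lit 11848] false,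
   Spec.mk (nat_lit 31538) (nat_lit 0) [nat_lit 18416, nat_lit 44660, nat_lit 35912, nat_lit 30080, nat_lit 31052, nat_lit 31700, nat_lit 31484, nat_lit 31520, nat_lit 31540] (nat_lit 1) [nat_lit 51220] false,
   Spec.mk (nat_lit 31540) (nat_lit 0) [nat_lit 18418, nat_lit 44662, nat_lit 35914, nat_lit 30082, nat_lit 31054, nat_lit 31702, nat_lit 31486, nat_lit 31522, nat_lit 31546, nat_lit 31538, nat_lit 31542] (nat_lit 1) [nat_lit 51222, nat_lit 11858] false,
   Spec.mk (nat_lit 31542) (nat_lit 0) [nat_lit 18420, nat_lit 44664, nat_lit 35916, nat_lit 30084, nat_lit 31056, nat_lit 31704, nat_lit 31488, nat_lit 31524, nat_lit 31548, nat_lit 31540] (nat_lit 3) [nat_lit 11860] false,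
   Spec.mk (nat_lit 31546) (nat_lit 0) [nat_lit 18424, nat_lit 44668, nat_lit 35920, nat_lit 30088, nat_lit 31060, nat_lit 31708, nat_lit 31492, nat_lit 31528, nat_lit 31564, nat_lit 31540, nat_lit 31548] (nat_lit 1) [nat_lit 51228, nat_lit 11864] false]

noncomputable def sp81 : List Spec :=
  [Spec.mk (nat_lit 31548) (nat_lit 0) [nat_lit 18426, nat_lit 44670, nat_lit 35922, nat_lit 30090, nat_lit 31062, nat_lit 31710, nat_lit 31494, nat_lit 31530, nat_lit 31566, nat_lit 31542, nat_lit 31554, nat_lit 31546] (nat_lit 1) [nat_lit 11866] false,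
   Spec.mk (nat_lit 31554) (nat_lit 0) [nat_lit 18432, nat_lit 44676, nat_lit 35928, nat_lit 30096, nat_lit 31068, nat_lit 31716, nat_lit 31500, nat_lit 31572, nat_lit 31548] (nat_lit 1) [nat_lit 11872] false,
   Spec.mk (nat_lit 31564) (nat_lit 0) [nat_lit 18442, nat_lit 44686, nat_lit 35938, nat_lit 30106, nat_lit 31078, nat_lit 31726, nat_lit 31546, nat_lit 31566] (nat_lit 0) [nat_lit 51246, nat_lit 11882] false,
   Spec.mk (nat_lit 31566) (nat_lit 0) [nat_lit 18444, nat_lit 44688, nat_lit 35940, nat_lit 30108, nat_lit 31080, nat_lit 31728, nat_lit 31548, nat_lit 31572, nat_lit 31564] (nat_lit 1) [nat_lit 11884] false,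
   Spec.mk (nat_lit 31572) (nat_lit 1) [nat_lit 18450, nat_lit 44694, nat_lit 35946, nat_lit 30114, nat_lit 31086, nat_lit 31734, nat_lit 31554, nat_lit 31566] (nat_lit 0) [nat_lit 11890] false,
   Spec.mk (nat_lit 31598) (nat_lit 2) [nat_lit 18476, nat_lit 44720, nat_lit 35972, nat_lit 30140, nat_lit 31112, nat_lit 32084, nat_lit 31436, nat_lit 31604] (nat_lit 0) [nat_lit 51280] false,
   Spec.mk (nat_lit 31604) (nat_lit 1) [nat_lit 18482, nat_lit 44726, nat_lit 35978, nat_lit 30146, nat_lit 31118, nat_lit 32090, nat_lit 31442, nat_lit 31622, nat_lit 31598, nat_lit 31610, nat_lit 31606] (nat_lit 0) [nat_lit 51286] false,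
   Spec.mk (nat_lit 31606) (nat_lit 1) [nat_lit 18484, nat_lit 44728, nat_lit 35980, nat_lit 30148, nat_lit 31120, nat_lit 32092, nat_lit 31444, nat_lit 31624, nat_lit 31612, nat_lit 31604] (nat_lit 0) [nat_lit 51288, nat_lit 11924] false,
   Spec.mk (nat_lit 31610) (nat_lit 0) [nat_lit 18488, nat_lit 44732, nat_lit 35984, nat_lit 30152, nat_lit 31124, nat_lit 32096, nat_lit 31448, nat_lit 31628, nat_lit 31604, nat_lit 31612] (nat_lit 2) [nat_lit 51292] false,
   Spec.mk (nat_lit 31612) (nat_lit 0) [nat_lit 18490, nat_lit 44734, nat_lit 35986, nat_lit 30154, nat_lit 31126, nat_lit 32098, nat_lit 31450, nat_lit 31630, nat_lit 31606, nat_lit 31610, nat_lit 31614] (nat_lit 0) [nat_lit 51294, nat_lit 11930] false,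
   Spec.mk (nat_lit 31614) (nat_lit 0) [nat_lit 18492, nat_lit 44736, nat_lit 35988, nat_lit 30156, nat_lit 31128, nat_lit 32100, nat_lit 31452, nat_lit 31632, nat_lit 31612] (nat_lit 0) [nat_lit 11932] false,
   Spec.mk (nat_lit 31622) (nat_lit 0) [nat_lit 18500, nat_lit 44744, nat_lit 35996, nat_lit 30164, nat_lit 31136, nat_lit 32108, nat_lit 31460, nat_lit 31676, nat_lit 31604, nat_lit 31628, nat_lit 31624] (nat_lit 0) [nat_lit 51304] false,
   Spec.mk (nat_lit 31624) (nat_lit 0) [nat_lit 18502, nat_lit 44746, nat_lit 35998, nat_lit 30166, nat_lit 31138, nat_lit 32110, nat_lit 31462, nat_lit 31678, nat_lit 31606, nat_lit 31630, nat_lit 31622] (nat_lit 1) [nat_lit 51306, nat_lit 11942] false,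
   Spec.mk (nat_lit 31628) (nat_lit 0) [nat_lit 18506, nat_lit 44750, nat_lit 36002, nat_lit 30170, nat_lit 31142, nat_lit 32114, nat_lit 31466, nat_lit 31682, nat_lit 31610, nat_lit 31646, nat_lit 31622, nat_lit 31630] (nat_lit 1) [nat_lit 51310] false,
   Spec.mk (nat_lit 31630) (nat_lit 0) [nat_lit 18508, nat_lit 44752, nat_lit 36004, nat_lit 30172, nat_lit 31144, nat_lit 32116, nat_lit 31468, nat_lit 31684, nat_lit 31612, nat_lit 31648, nat_lit 31624, nat_lit 31636, nat_lit 31628, nat_lit 31632] (nat_lit 0) [nat_lit 51312, nat_lit 11948] false,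
   Spec.mk (nat_lit 31632) (nat_lit 0) [nat_lit 18510, nat_lit 44754, nat_lit 36006, nat_lit 30174, nat_lit 31146, nat_lit 32118, nat_lit 31470, nat_lit 31686, nat_lit 31614, nat_lit 31650, nat_lit 31638, nat_lit 31630] (nat_lit 1) [nat_lit 11950] false,
   Spec.mk (nat_lit 31636) (nat_lit 0) [nat_lit 18514, nat_lit 44758, nat_lit 36010, nat_lit 30178, nat_lit 31150, nat_lit 32122, nat_lit 31474, nat_lit 31690, nat_lit 31654, nat_lit 31630, nat_lit 31638] (nat_lit 1) [nat_lit 51318, nat_lit 11954] false,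
   Spec.mk (nat_lit 31638) (nat_lit 0) [nat_lit 18516, nat_lit 44760, nat_lit 36012, nat_lit 30180, nat_lit 31152, nat_lit 32124, nat_lit 31476, nat_lit 31692, nat_lit 31656, nat_lit 31632, nat_lit 31636] (nat_lit 0) [nat_lit 11956] false,
   Spec.mk (nat_lit 31646) (nat_lit 0) [nat_lit 18524, nat_lit 44768, nat_lit 36020, nat_lit 30188, nat_lit 31160, nat_lit 32132, nat_lit 31484, nat_lit 31700, nat_lit 31628, nat_lit 31648] (nat_lit 2) [nat_lit 51328] false,
   Spec.mk (nat_lit 31648) (nat_lit 0) [nat_lit 18526, nat_lit 44770, nat_lit 36022, nat_lit 30190, nat_lit 31162, nat_lit 32134, nat_lit 31486, nat_lit 31702, nat_lit 31630, nat_lit 31654, nat_lit 31646, nat_lit 31650] (nat_lit 2) [nat_lit 51330, nat_lit 11966] false,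
   Spec.mk (nat_lit 31650) (nat_lit 0) [nat_lit 18528, nat_lit 44772, nat_lit 36024, nat_lit 30192, nat_lit 31164, nat_lit 32136, nat_lit 31488, nat_lit 31704, nat_lit 31632, nat_lit 31656, nat_lit 31648] (nat_lit 4) [nat_lit 11968] false,
   Spec.mk (nat_lit 31654) (nat_lit 0) [nat_lit 18532, nat_lit 44776, nat_lit 36028, nat_lit 30196, nat_lit 31168, nat_lit 32140, nat_lit 31492, nat_lit 31708, nat_lit 31636, nat_lit 31648, nat_lit 31656] (nat_lit 1) [nat_lit 51336, nat_lit 11972] false,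
   Spec.mk (nat_lit 31656) (nat_lit 0) [nat_lit 18534, nat_lit 44778, nat_lit 36030, nat_lit 30198, nat_lit 31170, nat_lit 32142, nat_lit 31494, nat_lit 31710, nat_lit 31638, nat_lit 31650, nat_lit 31662, nat_lit 31654] (nat_lit 1) [nat_lit 11974] false,
   Spec.mk (nat_lit 31662) (nat_lit 0) [nat_lit 18540, nat_lit 44784, nat_lit 36036, nat_lit 30204, nat_lit 31176, nat_lit 32148, nat_lit 31500, nat_lit 31716, nat_lit 31656] (nat_lit 0) [nat_lit 11980] false,
   Spec.mk (nat_lit 31676) (nat_lit 1) [nat_lit 18554, nat_lit 44798, nat_lit 36050, nat_lit 30218, nat_lit 31190, nat_lit 32162, nat_lit 31514, nat_lit 31838, nat_lit 31622, nat_lit 31682, nat_lit 31678] (nat_lit 0) [nat_lit 51358] false,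
   Spec.mk (nat_lit 31678) (nat_lit 0) [nat_lit 18556, nat_lit 44800, nat_lit 36052, nat_lit 30220, nat_lit 31192, nat_lit 32164, nat_lit 31516, nat_lit 31840, nat_lit 31624, nat_lit 31684, nat_lit 31676] (nat_lit 0) [nat_lit 51360, nat_lit 11996] false,
   Spec.mk (nat_lit 31682) (nat_lit 0) [nat_lit 18560, nat_lit 44804, nat_lit 36056, nat_lit 30224, nat_lit 31196, nat_lit 32168, nat_lit 31520, nat_lit 31844, nat_lit 31628, nat_lit 31700, nat_lit 31676, nat_lit 31684] (nat_lit 1) [nat_lit 51364] false,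
   Spec.mk (nat_lit 31684) (nat_lit 0) [nat_lit 18562, nat_lit 44806, nat_lit 36058, nat_lit 30226, nat_lit 31198, nat_lit 32170, nat_lit 31522, nat_lit 31846, nat_lit 31630, nat_lit 31702, nat_lit 31678, nat_lit 31690, nat_lit 31682, nat_lit 31686] (nat_lit 0) [nat_lit 51366, nat_lit 12002] false,
   Spec.mk (nat_lit 31686) (nat_lit 0) [nat_lit 18564, nat_lit 44808, nat_lit 36060, nat_lit 30228, nat_lit 31200, nat_lit 32172, nat_lit 31524, nat_lit 31848, nat_lit 31632, nat_lit 31704, nat_lit 31692, nat_lit 31684] (nat_lit 1) [nat_lit 12004] false,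
   Spec.mk (nat_lit 31690) (nat_lit 0) [nat_lit 18568, nat_lit 44812, nat_lit 36064, nat_lit 30232, nat_lit 31204, nat_lit 32176, nat_lit 31528, nat_lit 31852, nat_lit 31636, nat_lit 31708, nat_lit 31684, nat_lit 31692] (nat_lit 2) [nat_lit 51372, nat_lit 12008] false,
   Spec.mk (nat_lit 31692) (nat_lit 0) [nat_lit 18570, nat_lit 44814, nat_lit 36066, nat_lit 30234, nat_lit 31206, nat_lit 32178, nat_lit 31530, nat_lit 31854, nat_lit 31638, nat_lit 31710, nat_lit 31686, nat_lit 31690] (nat_lit 1) [nat_lit 12010] false,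
   Spec.mk (nat_lit 31700) (nat_lit 0) [nat_lit 18578, nat_lit 44822, nat_lit 36074, nat_lit 30242, nat_lit 31214, nat_lit 32186, nat_lit 31538, nat_lit 31862, nat_lit 31646, nat_lit 31754, nat_lit 31682, nat_lit 31702] (nat_lit 0) [nat_lit 51382] false,
   Spec.mk (nat_lit 31702) (nat_lit 0) [nat_lit 18580, nat_lit 44824, nat_lit 36076, nat_lit 30244, nat_lit 31216, nat_lit 32188, nat_lit 31540, nat_lit 31864, nat_lit 31648, nat_lit 31756, nat_lit 31684, nat_lit 31708, nat_lit 31700, nat_lit 31704] (nat_lit 0) [nat_lit 51384, nat_lit 12020] false,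
   Spec.mk (nat_lit 31704) (nat_lit 0) [nat_lit 18582, nat_lit 44826, nat_lit 36078, nat_lit 30246, nat_lit 31218, nat_lit 32190, nat_lit 31542, nat_lit 31866, nat_lit 31650, nat_lit 31758, nat_lit 31686, nat_lit 31710, nat_lit 31702] (nat_lit 2) [nat_lit 12022] false,
   Spec.mk (nat_lit 31708) (nat_lit 0) [nat_lit 18586, nat_lit 44830, nat_lit 36082, nat_lit 30250, nat_lit 31222, nat_lit 32194, nat_lit 31546, nat_lit 31870, nat_lit 31654, nat_lit 31762, nat_lit 31690, nat_lit 31726, nat_lit 31702, nat_lit 31710] (nat_lit 0) [nat_lit 51390, nat_lit 12026] false,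
   Spec.mk (nat_lit 31710) (nat_lit 0) [nat_lit 18588, nat_lit 44832, nat_lit 36084, nat_lit 30252, nat_lit 31224, nat_lit 32196, nat_lit 31548, nat_lit 31872, nat_lit 31656, nat_lit 31764, nat_lit 31692, nat_lit 31728, nat_lit 31704, nat_lit 31716, nat_lit 31708] (nat_lit 0) [nat_lit 12028] false,
   Spec.mk (nat_lit 31716) (nat_lit 0) [nat_lit 18594, nat_lit 44838, nat_lit 36090, nat_lit 30258, nat_lit 31230, nat_lit 32202, nat_lit 31554, nat_lit 31878, nat_lit 31662, nat_lit 31770, nat_lit 31734, nat_lit 31710] (nat_lit 0) [nat_lit 12034] false,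
   Spec.mk (nat_lit 31726) (nat_lit 0) [nat_lit 18604, nat_lit 44848, nat_lit 36100, nat_lit 30268, nat_lit 31240, nat_lit 32212, nat_lit 31564, nat_lit 31888, nat_lit 31780, nat_lit 31708, nat_lit 31728] (nat_lit 0) [nat_lit 51408, nat_lit 12044] false,
   Spec.mk (nat_lit 31728) (nat_lit 0) [nat_lit 18606, nat_lit 44850, nat_lit 36102, nat_lit 30270, nat_lit 31242, nat_lit 32214, nat_lit 31566, nat_lit 31890, nat_lit 31782, nat_lit 31710, nat_lit 31734, nat_lit 31726] (nat_lit 1) [nat_lit 12046] false,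
   Spec.mk (nat_lit 31734) (nat_lit 1) [nat_lit 18612, nat_lit 44856, nat_lit 36108, nat_lit 30276, nat_lit 31248, nat_lit 32220, nat_lit 31572, nat_lit 31896, nat_lit 31788, nat_lit 31716, nat_lit 31728] (nat_lit 0) [nat_lit 12052] false,
   Spec.mk (nat_lit 31754) (nat_lit 0) [nat_lit 18632, nat_lit 44876, nat_lit 36128, nat_lit 30296, nat_lit 31268, nat_lit 32240, nat_lit 31916, nat_lit 31700, nat_lit 31756] (nat_lit 0) [nat_lit 51436] false,
   Spec.mk (nat_lit 31756) (nat_lit 0) [nat_lit 18634, nat_lit 44878, nat_lit 36130, nat_lit 30298, nat_lit 31270, nat_lit 32242, nat_lit 31918, nat_lit 31702, nat_lit 31762, nat_lit 31754, nat_lit 31758] (nat_lit 0) [nat_lit 51438, nat_lit 12074] false,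
   Spec.mk (nat_lit 31758) (nat_lit 0) [nat_lit 18636, nat_lit 44880, nat_lit 36132, nat_lit 30300, nat_lit 31272, nat_lit 32244, nat_lit 31920, nat_lit 31704, nat_lit 31764, nat_lit 31756] (nat_lit 2) [nat_lit 12076] false,
   Spec.mk (nat_lit 31762) (nat_lit 0) [nat_lit 18640, nat_lit 44884, nat_lit 36136, nat_lit 30304, nat_lit 31276, nat_lit 32248, nat_lit 31924, nat_lit 31708, nat_lit 31780, nat_lit 31756, nat_lit 31764] (nat_lit 1) [nat_lit 51444, nat_lit 12080] false,
   Spec.mk (nat_lit 31764) (nat_lit 0) [nat_lit 18642, nat_lit 44886, nat_lit 36138, nat_lit 30306, nat_lit 31278, nat_lit 32250, nat_lit 31926, nat_lit 31710, nat_lit 31782, nat_lit 31758, nat_lit 31770, nat_lit 31762] (nat_lit 1) [nat_lit 12082] false,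
   Spec.mk (nat_lit 31770) (nat_lit 0) [nat_lit 18648, nat_lit 44892, nat_lit 36144, nat_lit 30312, nat_lit 31284, nat_lit 32256, nat_lit 31932, nat_lit 31716, nat_lit 31788, nat_lit 31764] (nat_lit 2) [nat_lit 12088] false,
   Spec.mk (nat_lit 31780) (nat_lit 1) [nat_lit 18658, nat_lit 44902, nat_lit 36154, nat_lit 30322, nat_lit 31294, nat_lit 32266, nat_lit 31942, nat_lit 31726, nat_lit 31762, nat_lit 31782] (nat_lit 0) [nat_lit 51462, nat_lit 12098] false,
   Spec.mk (nat_lit 31782) (nat_lit 0) [nat_lit 18660, nat_lit 44904, nat_lit 36156, nat_lit 30324, nat_lit 31296, nat_lit 32268, nat_lit 31944, nat_lit 31728, nat_lit 31764, nat_lit 31788, nat_lit 31780] (nat_lit 0) [nat_lit 12100] false,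
   Spec.mk (nat_lit 31788) (nat_lit 1) [nat_lit 18666, nat_lit 44910, nat_lit 36162, nat_lit 30330, nat_lit 31302, nat_lit 32274, nat_lit 31950, nat_lit 31734, nat_lit 31770, nat_lit 31806, nat_lit 31782] (nat_lit 0) [nat_lit 12106] false,
   Spec.mk (nat_lit 31806) (nat_lit 2) [nat_lit 18684, nat_lit 44928, nat_lit 36180, nat_lit 30348, nat_lit 31320, nat_lit 32292, nat_lit 31968, nat_lit 31788] (nat_lit 0) [nat_lit 12124] false,
   Spec.mk (nat_lit 31838) (nat_lit 1) [nat_lit 18716, nat_lit 44960, nat_lit 36212, nat_lit 30380, nat_lit 32324, nat_lit 31676, nat_lit 31844, nat_lit 31840] (nat_lit 0) [nat_lit 51520] false,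
   Spec.mk (nat_lit 31840) (nat_lit 0) [nat_lit 18718, nat_lit 44962, nat_lit 36214, nat_lit 30382, nat_lit 32326, nat_lit 31678, nat_lit 31846, nat_lit 31838] (nat_lit 0) [nat_lit 51522, nat_lit 12158] false,
   Spec.mk (nat_lit 31844) (nat_lit 0) [nat_lit 18722, nat_lit 44966, nat_lit 36218, nat_lit 30386, nat_lit 32330, nat_lit 31682, nat_lit 31862, nat_lit 31838, nat_lit 31846] (nat_lit 1) [nat_lit 51526] false,
   Spec.mk (nat_lit 31846) (nat_lit 0) [nat_lit 18724, nat_lit 44968, nat_lit 36220, nat_lit 30388, nat_lit 32332, nat_lit 31684, nat_lit 31864, nat_lit 31840, nat_lit 31852, nat_lit 31844, nat_lit 31848] (nat_lit 0) [nat_lit 51528, nat_lit 12164] false,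
   Spec.mk (nat_lit 31848) (nat_lit 0) [nat_lit 18726, nat_lit 44970, nat_lit 36222, nat_lit 30390, nat_lit 32334, nat_lit 31686, nat_lit 31866, nat_lit 31854, nat_lit 31846] (nat_lit 1) [nat_lit 12166] false,
   Spec.mk (nat_lit 31852) (nat_lit 0) [nat_lit 18730, nat_lit 44974, nat_lit 36226, nat_lit 30394, nat_lit 32338, nat_lit 31690, nat_lit 31870, nat_lit 31846, nat_lit 31854] (nat_lit 2) [nat_lit 51534, nat_lit 12170] false,
   Spec.mk (nat_lit 31854) (nat_lit 0) [nat_lit 18732, nat_lit 44976, nat_lit 36228, nat_lit 30396, nat_lit 32340, nat_lit 31692, nat_lit 31872, nat_lit 31848, nat_lit 31852] (nat_lit 1) [nat_lit 12172] false,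
   Spec.mk (nat_lit 31862) (nat_lit 0) [nat_lit 18740, nat_lit 44984, nat_lit 36236, nat_lit 30404, nat_lit 32348, nat_lit 31700, nat_lit 31916, nat_lit 31844, nat_lit 31864] (nat_lit 1) [nat_lit 51544] false,
   Spec.mk (nat_lit 31864) (nat_lit 0) [nat_lit 18742, nat_lit 44986, nat_lit 36238, nat_lit 30406, nat_lit 32350, nat_lit 31702, nat_lit 31918, nat_lit 31846, nat_lit 31870, nat_lit 31862, nat_lit 31866] (nat_lit 1) [nat_lit 51546, nat_lit 12182] false,
   Spec.mk (nat_lit 31866) (nat_lit 0) [nat_lit 18744, nat_lit 44988, nat_lit 36240, nat_lit 30408, nat_lit 32352, nat_lit 31704, nat_lit 31920, nat_lit 31848, nat_lit 31872, nat_lit 31864] (nat_lit 3) [nat_lit 12184] false]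

noncomputable def sp82 : List Spec :=
  [Spec.mk (nat_lit 31870) (nat_lit 0) [nat_lit 18748, nat_lit 44992, nat_lit 36244, nat_lit 30412, nat_lit 32356, nat_lit 31708, nat_lit 31924, nat_lit 31852, nat_lit 31888, nat_lit 31864, nat_lit 31872] (nat_lit 1) [nat_lit 51552, nat_lit 12188] false,
   Spec.mk (nat_lit 31872) (nat_lit 0) [nat_lit 18750, nat_lit 44994, nat_lit 36246, nat_lit 30414, nat_lit 32358, nat_lit 31710, nat_lit 31926, nat_lit 31854, nat_lit 31890, nat_lit 31866, nat_lit 31878, nat_lit 31870] (nat_lit 1) [nat_lit 12190] false,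
   Spec.mk (nat_lit 31878) (nat_lit 0) [nat_lit 18756, nat_lit 45000, nat_lit 36252, nat_lit 30420, nat_lit 32364, nat_lit 31716, nat_lit 31932, nat_lit 31896, nat_lit 31872] (nat_lit 1) [nat_lit 12196] false,
   Spec.mk (nat_lit 31888) (nat_lit 0) [nat_lit 18766, nat_lit 45010, nat_lit 36262, nat_lit 30430, nat_lit 32374, nat_lit 31726, nat_lit 31942, nat_lit 31870, nat_lit 31890] (nat_lit 2) [nat_lit 51570, nat_lit 12206] false,
   Spec.mk (nat_lit 31890) (nat_lit 0) [nat_lit 18768, nat_lit 45012, nat_lit 36264, nat_lit 30432, nat_lit 32376, nat_lit 31728, nat_lit 31944, nat_lit 31872, nat_lit 31896, nat_lit 31888] (nat_lit 3) [nat_lit 12208] false,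
   Spec.mk (nat_lit 31896) (nat_lit 0) [nat_lit 18774, nat_lit 45018, nat_lit 36270, nat_lit 30438, nat_lit 32382, nat_lit 31734, nat_lit 31950, nat_lit 31878, nat_lit 31890] (nat_lit 1) [nat_lit 12214] false,
   Spec.mk (nat_lit 31916) (nat_lit 1) [nat_lit 18794, nat_lit 45038, nat_lit 36290, nat_lit 30458, nat_lit 32402, nat_lit 31754, nat_lit 31862, nat_lit 31918] (nat_lit 0) [nat_lit 51598] false,
   Spec.mk (nat_lit 31918) (nat_lit 1) [nat_lit 18796, nat_lit 45040, nat_lit 36292, nat_lit 30460, nat_lit 32404, nat_lit 31756, nat_lit 31864, nat_lit 31924, nat_lit 31916, nat_lit 31920] (nat_lit 0) [nat_lit 51600, nat_lit 12236] false,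
   Spec.mk (nat_lit 31920) (nat_lit 0) [nat_lit 18798, nat_lit 45042, nat_lit 36294, nat_lit 30462, nat_lit 32406, nat_lit 31758, nat_lit 31866, nat_lit 31926, nat_lit 31918] (nat_lit 1) [nat_lit 12238] false,
   Spec.mk (nat_lit 31924) (nat_lit 0) [nat_lit 18802, nat_lit 45046, nat_lit 36298, nat_lit 30466, nat_lit 32410, nat_lit 31762, nat_lit 31870, nat_lit 31942, nat_lit 31918, nat_lit 31926] (nat_lit 0) [nat_lit 51606, nat_lit 12242] false,
   Spec.mk (nat_lit 31926) (nat_lit 0) [nat_lit 18804, nat_lit 45048, nat_lit 36300, nat_lit 30468, nat_lit 32412, nat_lit 31764, nat_lit 31872, nat_lit 31944, nat_lit 31920, nat_lit 31932, nat_lit 31924] (nat_lit 0) [nat_lit 12244] false,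
   Spec.mk (nat_lit 31932) (nat_lit 0) [nat_lit 18810, nat_lit 45054, nat_lit 36306, nat_lit 30474, nat_lit 32418, nat_lit 31770, nat_lit 31878, nat_lit 31950, nat_lit 31926] (nat_lit 1) [nat_lit 12250] false,
   Spec.mk (nat_lit 31942) (nat_lit 1) [nat_lit 18820, nat_lit 45064, nat_lit 36316, nat_lit 30484, nat_lit 32428, nat_lit 31780, nat_lit 31888, nat_lit 31996, nat_lit 31924, nat_lit 31944] (nat_lit 0) [nat_lit 51624, nat_lit 12260] false,
   Spec.mk (nat_lit 31944) (nat_lit 0) [nat_lit 18822, nat_lit 45066, nat_lit 36318, nat_lit 30486, nat_lit 32430, nat_lit 31782, nat_lit 31890, nat_lit 31998, nat_lit 31926, nat_lit 31950, nat_lit 31942] (nat_lit 0) [nat_lit 12262] false,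
   Spec.mk (nat_lit 31950) (nat_lit 1) [nat_lit 18828, nat_lit 45072, nat_lit 36324, nat_lit 30492, nat_lit 32436, nat_lit 31788, nat_lit 31896, nat_lit 32004, nat_lit 31932, nat_lit 31968, nat_lit 31944] (nat_lit 0) [nat_lit 12268] false,
   Spec.mk (nat_lit 31968) (nat_lit 1) [nat_lit 18846, nat_lit 45090, nat_lit 36342, nat_lit 30510, nat_lit 32454, nat_lit 31806, nat_lit 32022, nat_lit 31950] (nat_lit 0) [nat_lit 12286] false,
   Spec.mk (nat_lit 31996) (nat_lit 2) [nat_lit 18874, nat_lit 45118, nat_lit 36370, nat_lit 30538, nat_lit 32482, nat_lit 31942, nat_lit 31998] (nat_lit 0) [nat_lit 51678, nat_lit 12314] false,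
   Spec.mk (nat_lit 31998) (nat_lit 1) [nat_lit 18876, nat_lit 45120, nat_lit 36372, nat_lit 30540, nat_lit 32484, nat_lit 31944, nat_lit 32004, nat_lit 31996] (nat_lit 0) [nat_lit 12316] false,
   Spec.mk (nat_lit 32004) (nat_lit 1) [nat_lit 18882, nat_lit 45126, nat_lit 36378, nat_lit 30546, nat_lit 32490, nat_lit 31950, nat_lit 32022, nat_lit 31998] (nat_lit 0) [nat_lit 12322] false,
   Spec.mk (nat_lit 32022) (nat_lit 3) [nat_lit 18900, nat_lit 45144, nat_lit 36396, nat_lit 30564, nat_lit 32508, nat_lit 31968, nat_lit 32004] (nat_lit 0) [nat_lit 12340] false,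
   Spec.mk (nat_lit 32084) (nat_lit 3) [nat_lit 18962, nat_lit 45206, nat_lit 36458, nat_lit 31598, nat_lit 32090] (nat_lit 0) [nat_lit 51766] false,
   Spec.mk (nat_lit 32090) (nat_lit 2) [nat_lit 18968, nat_lit 45212, nat_lit 36464, nat_lit 31604, nat_lit 32108, nat_lit 32084, nat_lit 32096, nat_lit 32092] (nat_lit 0) [nat_lit 51772] false,
   Spec.mk (nat_lit 32092) (nat_lit 2) [nat_lit 18970, nat_lit 45214, nat_lit 36466, nat_lit 31606, nat_lit 32110, nat_lit 32098, nat_lit 32090] (nat_lit 0) [nat_lit 51774, nat_lit 12410] false,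
   Spec.mk (nat_lit 32096) (nat_lit 0) [nat_lit 18974, nat_lit 45218, nat_lit 36470, nat_lit 31610, nat_lit 32114, nat_lit 32090, nat_lit 32098] (nat_lit 1) [nat_lit 51778] false,
   Spec.mk (nat_lit 32098) (nat_lit 1) [nat_lit 18976, nat_lit 45220, nat_lit 36472, nat_lit 31612, nat_lit 32116, nat_lit 32092, nat_lit 32096, nat_lit 32100] (nat_lit 0) [nat_lit 51780, nat_lit 12416] false,
   Spec.mk (nat_lit 32100) (nat_lit 1) [nat_lit 18978, nat_lit 45222, nat_lit 36474, nat_lit 31614, nat_lit 32118, nat_lit 32098] (nat_lit 0) [nat_lit 12418] false,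
   Spec.mk (nat_lit 32108) (nat_lit 1) [nat_lit 18986, nat_lit 45230, nat_lit 36482, nat_lit 31622, nat_lit 32162, nat_lit 32090, nat_lit 32114, nat_lit 32110] (nat_lit 0) [nat_lit 51790] false,
   Spec.mk (nat_lit 32110) (nat_lit 0) [nat_lit 18988, nat_lit 45232, nat_lit 36484, nat_lit 31624, nat_lit 32164, nat_lit 32092, nat_lit 32116, nat_lit 32108] (nat_lit 0) [nat_lit 51792, nat_lit 12428] false,
   Spec.mk (nat_lit 32114) (nat_lit 0) [nat_lit 18992, nat_lit 45236, nat_lit 36488, nat_lit 31628, nat_lit 32168, nat_lit 32096, nat_lit 32132, nat_lit 32108, nat_lit 32116] (nat_lit 0) [nat_lit 51796] false,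
   Spec.mk (nat_lit 32116) (nat_lit 1) [nat_lit 18994, nat_lit 45238, nat_lit 36490, nat_lit 31630, nat_lit 32170, nat_lit 32098, nat_lit 32134, nat_lit 32110, nat_lit 32122, nat_lit 32114, nat_lit 32118] (nat_lit 0) [nat_lit 51798, nat_lit 12434] false,
   Spec.mk (nat_lit 32118) (nat_lit 0) [nat_lit 18996, nat_lit 45240, nat_lit 36492, nat_lit 31632, nat_lit 32172, nat_lit 32100, nat_lit 32136, nat_lit 32124, nat_lit 32116] (nat_lit 0) [nat_lit 12436] false,
   Spec.mk (nat_lit 32122) (nat_lit 0) [nat_lit 19000, nat_lit 45244, nat_lit 36496, nat_lit 31636, nat_lit 32176, nat_lit 32140, nat_lit 32116, nat_lit 32124] (nat_lit 0) [nat_lit 51804, nat_lit 12440] false,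
   Spec.mk (nat_lit 32124) (nat_lit 1) [nat_lit 19002, nat_lit 45246, nat_lit 36498, nat_lit 31638, nat_lit 32178, nat_lit 32142, nat_lit 32118, nat_lit 32122] (nat_lit 0) [nat_lit 12442] false,
   Spec.mk (nat_lit 32132) (nat_lit 0) [nat_lit 19010, nat_lit 45254, nat_lit 36506, nat_lit 31646, nat_lit 32186, nat_lit 32114, nat_lit 32134] (nat_lit 1) [nat_lit 51814] false,
   Spec.mk (nat_lit 32134) (nat_lit 0) [nat_lit 19012, nat_lit 45256, nat_lit 36508, nat_lit 31648, nat_lit 32188, nat_lit 32116, nat_lit 32140, nat_lit 32132, nat_lit 32136] (nat_lit 1) [nat_lit 51816, nat_lit 12452] false,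
   Spec.mk (nat_lit 32136) (nat_lit 0) [nat_lit 19014, nat_lit 45258, nat_lit 36510, nat_lit 31650, nat_lit 32190, nat_lit 32118, nat_lit 32142, nat_lit 32134] (nat_lit 3) [nat_lit 12454] false,
   Spec.mk (nat_lit 32140) (nat_lit 0) [nat_lit 19018, nat_lit 45262, nat_lit 36514, nat_lit 31654, nat_lit 32194, nat_lit 32122, nat_lit 32134, nat_lit 32142] (nat_lit 0) [nat_lit 51822, nat_lit 12458] false,
   Spec.mk (nat_lit 32142) (nat_lit 0) [nat_lit 19020, nat_lit 45264, nat_lit 36516, nat_lit 31656, nat_lit 32196, nat_lit 32124, nat_lit 32136, nat_lit 32148, nat_lit 32140] (nat_lit 0) [nat_lit 12460] false,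
   Spec.mk (nat_lit 32148) (nat_lit 1) [nat_lit 19026, nat_lit 45270, nat_lit 36522, nat_lit 31662, nat_lit 32202, nat_lit 32142] (nat_lit 0) [nat_lit 12466] false,
   Spec.mk (nat_lit 32162) (nat_lit 1) [nat_lit 19040, nat_lit 45284, nat_lit 36536, nat_lit 31676, nat_lit 32324, nat_lit 32108, nat_lit 32168, nat_lit 32164] (nat_lit 0) [nat_lit 51844] false,
   Spec.mk (nat_lit 32164) (nat_lit 0) [nat_lit 19042, nat_lit 45286, nat_lit 36538, nat_lit 31678, nat_lit 32326, nat_lit 32110, nat_lit 32170, nat_lit 32162] (nat_lit 0) [nat_lit 51846, nat_lit 12482] false,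
   Spec.mk (nat_lit 32168) (nat_lit 0) [nat_lit 19046, nat_lit 45290, nat_lit 36542, nat_lit 31682, nat_lit 32330, nat_lit 32114, nat_lit 32186, nat_lit 32162, nat_lit 32170] (nat_lit 1) [nat_lit 51850] false,
   Spec.mk (nat_lit 32170) (nat_lit 0) [nat_lit 19048, nat_lit 45292, nat_lit 36544, nat_lit 31684, nat_lit 32332, nat_lit 32116, nat_lit 32188, nat_lit 32164, nat_lit 32176, nat_lit 32168, nat_lit 32172] (nat_lit 0) [nat_lit 51852, nat_lit 12488] false,
   Spec.mk (nat_lit 32172) (nat_lit 0) [nat_lit 19050, nat_lit 45294, nat_lit 36546, nat_lit 31686, nat_lit 32334, nat_lit 32118, nat_lit 32190, nat_lit 32178, nat_lit 32170] (nat_lit 1) [nat_lit 12490] false,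
   Spec.mk (nat_lit 32176) (nat_lit 0) [nat_lit 19054, nat_lit 45298, nat_lit 36550, nat_lit 31690, nat_lit 32338, nat_lit 32122, nat_lit 32194, nat_lit 32170, nat_lit 32178] (nat_lit 2) [nat_lit 51858, nat_lit 12494] false,
   Spec.mk (nat_lit 32178) (nat_lit 0) [nat_lit 19056, nat_lit 45300, nat_lit 36552, nat_lit 31692, nat_lit 32340, nat_lit 32124, nat_lit 32196, nat_lit 32172, nat_lit 32176] (nat_lit 1) [nat_lit 12496] false,
   Spec.mk (nat_lit 32186) (nat_lit 0) [nat_lit 19064, nat_lit 45308, nat_lit 36560, nat_lit 31700, nat_lit 32348, nat_lit 32132, nat_lit 32240, nat_lit 32168, nat_lit 32188] (nat_lit 0) [nat_lit 51868] false,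
   Spec.mk (nat_lit 32188) (nat_lit 0) [nat_lit 19066, nat_lit 45310, nat_lit 36562, nat_lit 31702, nat_lit 32350, nat_lit 32134, nat_lit 32242, nat_lit 32170, nat_lit 32194, nat_lit 32186, nat_lit 32190] (nat_lit 0) [nat_lit 51870, nat_lit 12506] false,
   Spec.mk (nat_lit 32190) (nat_lit 0) [nat_lit 19068, nat_lit 45312, nat_lit 36564, nat_lit 31704, nat_lit 32352, nat_lit 32136, nat_lit 32244, nat_lit 32172, nat_lit 32196, nat_lit 32188] (nat_lit 2) [nat_lit 12508] false,
   Spec.mk (nat_lit 32194) (nat_lit 0) [nat_lit 19072, nat_lit 45316, nat_lit 36568, nat_lit 31708, nat_lit 32356, nat_lit 32140, nat_lit 32248, nat_lit 32176, nat_lit 32212, nat_lit 32188, nat_lit 32196] (nat_lit 0) [nat_lit 51876, nat_lit 12512] false,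
   Spec.mk (nat_lit 32196) (nat_lit 0) [nat_lit 19074, nat_lit 45318, nat_lit 36570, nat_lit 31710, nat_lit 32358, nat_lit 32142, nat_lit 32250, nat_lit 32178, nat_lit 32214, nat_lit 32190, nat_lit 32202, nat_lit 32194] (nat_lit 0) [nat_lit 12514] false,
   Spec.mk (nat_lit 32202) (nat_lit 0) [nat_lit 19080, nat_lit 45324, nat_lit 36576, nat_lit 31716, nat_lit 32364, nat_lit 32148, nat_lit 32256, nat_lit 32220, nat_lit 32196] (nat_lit 0) [nat_lit 12520] false,
   Spec.mk (nat_lit 32212) (nat_lit 0) [nat_lit 19090, nat_lit 45334, nat_lit 36586, nat_lit 31726, nat_lit 32374, nat_lit 32266, nat_lit 32194, nat_lit 32214] (nat_lit 0) [nat_lit 51894, nat_lit 12530] false,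
   Spec.mk (nat_lit 32214) (nat_lit 0) [nat_lit 19092, nat_lit 45336, nat_lit 36588, nat_lit 31728, nat_lit 32376, nat_lit 32268, nat_lit 32196, nat_lit 32220, nat_lit 32212] (nat_lit 1) [nat_lit 12532] false,
   Spec.mk (nat_lit 32220) (nat_lit 1) [nat_lit 19098, nat_lit 45342, nat_lit 36594, nat_lit 31734, nat_lit 32382, nat_lit 32274, nat_lit 32202, nat_lit 32214] (nat_lit 0) [nat_lit 12538] false,
   Spec.mk (nat_lit 32240) (nat_lit 0) [nat_lit 19118, nat_lit 45362, nat_lit 36614, nat_lit 31754, nat_lit 32402, nat_lit 32186, nat_lit 32242] (nat_lit 1) [nat_lit 51922] false,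
   Spec.mk (nat_lit 32242) (nat_lit 0) [nat_lit 19120, nat_lit 45364, nat_lit 36616, nat_lit 31756, nat_lit 32404, nat_lit 32188, nat_lit 32248, nat_lit 32240, nat_lit 32244] (nat_lit 1) [nat_lit 51924, nat_lit 12560] false,
   Spec.mk (nat_lit 32244) (nat_lit 0) [nat_lit 19122, nat_lit 45366, nat_lit 36618, nat_lit 31758, nat_lit 32406, nat_lit 32190, nat_lit 32250, nat_lit 32242] (nat_lit 3) [nat_lit 12562] false,
   Spec.mk (nat_lit 32248) (nat_lit 0) [nat_lit 19126, nat_lit 45370, nat_lit 36622, nat_lit 31762, nat_lit 32410, nat_lit 32194, nat_lit 32266, nat_lit 32242, nat_lit 32250] (nat_lit 2) [nat_lit 51930, nat_lit 12566] false,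
   Spec.mk (nat_lit 32250) (nat_lit 0) [nat_lit 19128, nat_lit 45372, nat_lit 36624, nat_lit 31764, nat_lit 32412, nat_lit 32196, nat_lit 32268, nat_lit 32244, nat_lit 32256, nat_lit 32248] (nat_lit 2) [nat_lit 12568] false]

noncomputable def sp83 : List Spec :=
  [Spec.mk (nat_lit 32256) (nat_lit 0) [nat_lit 19134, nat_lit 45378, nat_lit 36630, nat_lit 31770, nat_lit 32418, nat_lit 32202, nat_lit 32274, nat_lit 32250] (nat_lit 3) [nat_lit 12574] false,
   Spec.mk (nat_lit 32266) (nat_lit 0) [nat_lit 19144, nat_lit 45388, nat_lit 36640, nat_lit 31780, nat_lit 32428, nat_lit 32212, nat_lit 32248, nat_lit 32268] (nat_lit 0) [nat_lit 51948, nat_lit 12584] false,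
   Spec.mk (nat_lit 32268) (nat_lit 0) [nat_lit 19146, nat_lit 45390, nat_lit 36642, nat_lit 31782, nat_lit 32430, nat_lit 32214, nat_lit 32250, nat_lit 32274, nat_lit 32266] (nat_lit 1) [nat_lit 12586] false,
   Spec.mk (nat_lit 32274) (nat_lit 0) [nat_lit 19152, nat_lit 45396, nat_lit 36648, nat_lit 31788, nat_lit 32436, nat_lit 32220, nat_lit 32256, nat_lit 32292, nat_lit 32268] (nat_lit 0) [nat_lit 12592] false,
   Spec.mk (nat_lit 32292) (nat_lit 1) [nat_lit 19170, nat_lit 45414, nat_lit 36666, nat_lit 31806, nat_lit 32454, nat_lit 32274] (nat_lit 0) [nat_lit 12610] false,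
   Spec.mk (nat_lit 32324) (nat_lit 3) [nat_lit 19202, nat_lit 45446, nat_lit 36698, nat_lit 31838, nat_lit 32162, nat_lit 32330, nat_lit 32326] (nat_lit 0) [nat_lit 52006] false,
   Spec.mk (nat_lit 32326) (nat_lit 2) [nat_lit 19204, nat_lit 45448, nat_lit 36700, nat_lit 31840, nat_lit 32164, nat_lit 32332, nat_lit 32324] (nat_lit 0) [nat_lit 52008, nat_lit 12644] false,
   Spec.mk (nat_lit 32330) (nat_lit 1) [nat_lit 19208, nat_lit 45452, nat_lit 36704, nat_lit 31844, nat_lit 32168, nat_lit 32348, nat_lit 32324, nat_lit 32332] (nat_lit 0) [nat_lit 52012] false,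
   Spec.mk (nat_lit 32332) (nat_lit 2) [nat_lit 19210, nat_lit 45454, nat_lit 36706, nat_lit 31846, nat_lit 32170, nat_lit 32350, nat_lit 32326, nat_lit 32338, nat_lit 32330, nat_lit 32334] (nat_lit 0) [nat_lit 52014, nat_lit 12650] false,
   Spec.mk (nat_lit 32334) (nat_lit 1) [nat_lit 19212, nat_lit 45456, nat_lit 36708, nat_lit 31848, nat_lit 32172, nat_lit 32352, nat_lit 32340, nat_lit 32332] (nat_lit 0) [nat_lit 12652] false,
   Spec.mk (nat_lit 32338) (nat_lit 0) [nat_lit 19216, nat_lit 45460, nat_lit 36712, nat_lit 31852, nat_lit 32176, nat_lit 32356, nat_lit 32332, nat_lit 32340] (nat_lit 0) [nat_lit 52020, nat_lit 12656] false,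
   Spec.mk (nat_lit 32340) (nat_lit 1) [nat_lit 19218, nat_lit 45462, nat_lit 36714, nat_lit 31854, nat_lit 32178, nat_lit 32358, nat_lit 32334, nat_lit 32338] (nat_lit 0) [nat_lit 12658] false,
   Spec.mk (nat_lit 32348) (nat_lit 1) [nat_lit 19226, nat_lit 45470, nat_lit 36722, nat_lit 31862, nat_lit 32186, nat_lit 32402, nat_lit 32330, nat_lit 32350] (nat_lit 0) [nat_lit 52030] false,
   Spec.mk (nat_lit 32350) (nat_lit 1) [nat_lit 19228, nat_lit 45472, nat_lit 36724, nat_lit 31864, nat_lit 32188, nat_lit 32404, nat_lit 32332, nat_lit 32356, nat_lit 32348, nat_lit 32352] (nat_lit 0) [nat_lit 52032, nat_lit 12668] false,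
   Spec.mk (nat_lit 32352) (nat_lit 0) [nat_lit 19230, nat_lit 45474, nat_lit 36726, nat_lit 31866, nat_lit 32190, nat_lit 32406, nat_lit 32334, nat_lit 32358, nat_lit 32350] (nat_lit 1) [nat_lit 12670] false,
   Spec.mk (nat_lit 32356) (nat_lit 1) [nat_lit 19234, nat_lit 45478, nat_lit 36730, nat_lit 31870, nat_lit 32194, nat_lit 32410, nat_lit 32338, nat_lit 32374, nat_lit 32350, nat_lit 32358] (nat_lit 0) [nat_lit 52038, nat_lit 12674] false,
   Spec.mk (nat_lit 32358) (nat_lit 1) [nat_lit 19236, nat_lit 45480, nat_lit 36732, nat_lit 31872, nat_lit 32196, nat_lit 32412, nat_lit 32340, nat_lit 32376, nat_lit 32352, nat_lit 32364, nat_lit 32356] (nat_lit 0) [nat_lit 12676] false,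
   Spec.mk (nat_lit 32364) (nat_lit 1) [nat_lit 19242, nat_lit 45486, nat_lit 36738, nat_lit 31878, nat_lit 32202, nat_lit 32418, nat_lit 32382, nat_lit 32358] (nat_lit 0) [nat_lit 12682] false,
   Spec.mk (nat_lit 32374) (nat_lit 0) [nat_lit 19252, nat_lit 45496, nat_lit 36748, nat_lit 31888, nat_lit 32212, nat_lit 32428, nat_lit 32356, nat_lit 32376] (nat_lit 0) [nat_lit 52056, nat_lit 12692] false,
   Spec.mk (nat_lit 32376) (nat_lit 0) [nat_lit 19254, nat_lit 45498, nat_lit 36750, nat_lit 31890, nat_lit 32214, nat_lit 32430, nat_lit 32358, nat_lit 32382, nat_lit 32374] (nat_lit 1) [nat_lit 12694] false,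
   Spec.mk (nat_lit 32382) (nat_lit 1) [nat_lit 19260, nat_lit 45504, nat_lit 36756, nat_lit 31896, nat_lit 32220, nat_lit 32436, nat_lit 32364, nat_lit 32376] (nat_lit 0) [nat_lit 12700] false,
   Spec.mk (nat_lit 32402) (nat_lit 2) [nat_lit 19280, nat_lit 45524, nat_lit 36776, nat_lit 31916, nat_lit 32240, nat_lit 32564, nat_lit 32348, nat_lit 32404] (nat_lit 0) [nat_lit 52084] false,
   Spec.mk (nat_lit 32404) (nat_lit 2) [nat_lit 19282, nat_lit 45526, nat_lit 36778, nat_lit 31918, nat_lit 32242, nat_lit 32566, nat_lit 32350, nat_lit 32410, nat_lit 32402, nat_lit 32406] (nat_lit 0) [nat_lit 52086, nat_lit 12722] false,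
   Spec.mk (nat_lit 32406) (nat_lit 0) [nat_lit 19284, nat_lit 45528, nat_lit 36780, nat_lit 31920, nat_lit 32244, nat_lit 32568, nat_lit 32352, nat_lit 32412, nat_lit 32404] (nat_lit 0) [nat_lit 12724] false,
   Spec.mk (nat_lit 32410) (nat_lit 1) [nat_lit 19288, nat_lit 45532, nat_lit 36784, nat_lit 31924, nat_lit 32248, nat_lit 32572, nat_lit 32356, nat_lit 32428, nat_lit 32404, nat_lit 32412] (nat_lit 0) [nat_lit 52092, nat_lit 12728] false,
   Spec.mk (nat_lit 32412) (nat_lit 1) [nat_lit 19290, nat_lit 45534, nat_lit 36786, nat_lit 31926, nat_lit 32250, nat_lit 32574, nat_lit 32358, nat_lit 32430, nat_lit 32406, nat_lit 32418, nat_lit 32410] (nat_lit 0) [nat_lit 12730] false,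
   Spec.mk (nat_lit 32418) (nat_lit 0) [nat_lit 19296, nat_lit 45540, nat_lit 36792, nat_lit 31932, nat_lit 32256, nat_lit 32580, nat_lit 32364, nat_lit 32436, nat_lit 32412] (nat_lit 0) [nat_lit 12736] false,
   Spec.mk (nat_lit 32428) (nat_lit 2) [nat_lit 19306, nat_lit 45550, nat_lit 36802, nat_lit 31942, nat_lit 32266, nat_lit 32590, nat_lit 32374, nat_lit 32482, nat_lit 32410, nat_lit 32430] (nat_lit 0) [nat_lit 52110, nat_lit 12746] false,
   Spec.mk (nat_lit 32430) (nat_lit 1) [nat_lit 19308, nat_lit 45552, nat_lit 36804, nat_lit 31944, nat_lit 32268, nat_lit 32592, nat_lit 32376, nat_lit 32484, nat_lit 32412, nat_lit 32436, nat_lit 32428] (nat_lit 0) [nat_lit 12748] false,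
   Spec.mk (nat_lit 32436) (nat_lit 2) [nat_lit 19314, nat_lit 45558, nat_lit 36810, nat_lit 31950, nat_lit 32274, nat_lit 32598, nat_lit 32382, nat_lit 32490, nat_lit 32418, nat_lit 32454, nat_lit 32430] (nat_lit 0) [nat_lit 12754] false,
   Spec.mk (nat_lit 32454) (nat_lit 2) [nat_lit 19332, nat_lit 45576, nat_lit 36828, nat_lit 31968, nat_lit 32292, nat_lit 32616, nat_lit 32508, nat_lit 32436] (nat_lit 0) [nat_lit 12772] false,
   Spec.mk (nat_lit 32482) (nat_lit 2) [nat_lit 19360, nat_lit 45604, nat_lit 36856, nat_lit 31996, nat_lit 32644, nat_lit 32428, nat_lit 32484] (nat_lit 0) [nat_lit 52164, nat_lit 12800] false,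
   Spec.mk (nat_lit 32484) (nat_lit 1) [nat_lit 19362, nat_lit 45606, nat_lit 36858, nat_lit 31998, nat_lit 32646, nat_lit 32430, nat_lit 32490, nat_lit 32482] (nat_lit 0) [nat_lit 12802] false,
   Spec.mk (nat_lit 32490) (nat_lit 1) [nat_lit 19368, nat_lit 45612, nat_lit 36864, nat_lit 32004, nat_lit 32652, nat_lit 32436, nat_lit 32508, nat_lit 32484] (nat_lit 0) [nat_lit 12808] false,
   Spec.mk (nat_lit 32508) (nat_lit 3) [nat_lit 19386, nat_lit 45630, nat_lit 36882, nat_lit 32022, nat_lit 32670, nat_lit 32454, nat_lit 32490] (nat_lit 0) [nat_lit 12826] false,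
   Spec.mk (nat_lit 32564) (nat_lit 3) [nat_lit 19442, nat_lit 45686, nat_lit 36938, nat_lit 32402, nat_lit 32566] (nat_lit 0) [nat_lit 52246] false,
   Spec.mk (nat_lit 32566) (nat_lit 3) [nat_lit 19444, nat_lit 45688, nat_lit 36940, nat_lit 32404, nat_lit 32572, nat_lit 32564, nat_lit 32568] (nat_lit 0) [nat_lit 52248, nat_lit 12884] false,
   Spec.mk (nat_lit 32568) (nat_lit 1) [nat_lit 19446, nat_lit 45690, nat_lit 36942, nat_lit 32406, nat_lit 32574, nat_lit 32566] (nat_lit 0) [nat_lit 12886] false,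
   Spec.mk (nat_lit 32572) (nat_lit 2) [nat_lit 19450, nat_lit 45694, nat_lit 36946, nat_lit 32410, nat_lit 32590, nat_lit 32566, nat_lit 32574] (nat_lit 0) [nat_lit 52254, nat_lit 12890] false,
   Spec.mk (nat_lit 32574) (nat_lit 2) [nat_lit 19452, nat_lit 45696, nat_lit 36948, nat_lit 32412, nat_lit 32592, nat_lit 32568, nat_lit 32580, nat_lit 32572] (nat_lit 0) [nat_lit 12892] false,
   Spec.mk (nat_lit 32580) (nat_lit 1) [nat_lit 19458, nat_lit 45702, nat_lit 36954, nat_lit 32418, nat_lit 32598, nat_lit 32574] (nat_lit 0) [nat_lit 12898] false,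
   Spec.mk (nat_lit 32590) (nat_lit 2) [nat_lit 19468, nat_lit 45712, nat_lit 36964, nat_lit 32428, nat_lit 32644, nat_lit 32572, nat_lit 32592] (nat_lit 0) [nat_lit 52272, nat_lit 12908] false,
   Spec.mk (nat_lit 32592) (nat_lit 1) [nat_lit 19470, nat_lit 45714, nat_lit 36966, nat_lit 32430, nat_lit 32646, nat_lit 32574, nat_lit 32598, nat_lit 32590] (nat_lit 0) [nat_lit 12910] false,
   Spec.mk (nat_lit 32598) (nat_lit 2) [nat_lit 19476, nat_lit 45720, nat_lit 36972, nat_lit 32436, nat_lit 32652, nat_lit 32580, nat_lit 32616, nat_lit 32592] (nat_lit 0) [nat_lit 12916] false,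
   Spec.mk (nat_lit 32616) (nat_lit 1) [nat_lit 19494, nat_lit 45738, nat_lit 36990, nat_lit 32454, nat_lit 32670, nat_lit 32598] (nat_lit 0) [nat_lit 12934] false,
   Spec.mk (nat_lit 32644) (nat_lit 4) [nat_lit 19522, nat_lit 45766, nat_lit 37018, nat_lit 32482, nat_lit 32590, nat_lit 32646] (nat_lit 0) [nat_lit 52326, nat_lit 12962] false,
   Spec.mk (nat_lit 32646) (nat_lit 3) [nat_lit 19524, nat_lit 45768, nat_lit 37020, nat_lit 32484, nat_lit 32592, nat_lit 32652, nat_lit 32644] (nat_lit 0) [nat_lit 12964] false,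
   Spec.mk (nat_lit 32652) (nat_lit 3) [nat_lit 19530, nat_lit 45774, nat_lit 37026, nat_lit 32490, nat_lit 32598, nat_lit 32670, nat_lit 32646] (nat_lit 0) [nat_lit 12970] false,
   Spec.mk (nat_lit 32670) (nat_lit 4) [nat_lit 19548, nat_lit 45792, nat_lit 37044, nat_lit 32508, nat_lit 32616, nat_lit 32724, nat_lit 32652] (nat_lit 0) [nat_lit 12988] false,
   Spec.mk (nat_lit 32724) (nat_lit 5) [nat_lit 19602, nat_lit 45846, nat_lit 37098, nat_lit 32670] (nat_lit 0) [nat_lit 13042] false,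
   Spec.mk (nat_lit 32858) (nat_lit 4) [nat_lit 45980, nat_lit 28484, nat_lit 32912, nat_lit 32876] (nat_lit 0) [nat_lit 52540] false,
   Spec.mk (nat_lit 32876) (nat_lit 2) [nat_lit 45998, nat_lit 28502, nat_lit 32930, nat_lit 32858, nat_lit 32882] (nat_lit 0) [nat_lit 52558] false,
   Spec.mk (nat_lit 32882) (nat_lit 2) [nat_lit 46004, nat_lit 28508, nat_lit 32936, nat_lit 32876, nat_lit 32884] (nat_lit 0) [nat_lit 52564] false,
   Spec.mk (nat_lit 32884) (nat_lit 3) [nat_lit 46006, nat_lit 28510, nat_lit 32938, nat_lit 32882] (nat_lit 0) [nat_lit 52566, nat_lit 13202] false,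
   Spec.mk (nat_lit 32912) (nat_lit 2) [nat_lit 46034, nat_lit 28538, nat_lit 33074, nat_lit 32858, nat_lit 32930] (nat_lit 0) [nat_lit 52594] false,
   Spec.mk (nat_lit 32930) (nat_lit 2) [nat_lit 46052, nat_lit 28556, nat_lit 33092, nat_lit 32876, nat_lit 32984, nat_lit 32912, nat_lit 32948, nat_lit 32936] (nat_lit 0) [nat_lit 52612] false,
   Spec.mk (nat_lit 32936) (nat_lit 1) [nat_lit 46058, nat_lit 28562, nat_lit 33098, nat_lit 32882, nat_lit 32990, nat_lit 32954, nat_lit 32930, nat_lit 32938] (nat_lit 0) [nat_lit 52618] false,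
   Spec.mk (nat_lit 32938) (nat_lit 2) [nat_lit 46060, nat_lit 28564, nat_lit 33100, nat_lit 32884, nat_lit 32992, nat_lit 32956, nat_lit 32936] (nat_lit 0) [nat_lit 52620, nat_lit 13256] false,
   Spec.mk (nat_lit 32948) (nat_lit 0) [nat_lit 46070, nat_lit 28574, nat_lit 33110, nat_lit 33002, nat_lit 32930, nat_lit 32954] (nat_lit 0) [nat_lit 52630] false,
   Spec.mk (nat_lit 32954) (nat_lit 1) [nat_lit 46076, nat_lit 28580, nat_lit 33116, nat_lit 33008, nat_lit 32936, nat_lit 32948, nat_lit 32960, nat_lit 32956] (nat_lit 0) [nat_lit 52636] false]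

noncomputable def sp84 : List Spec :=
  [Spec.mk (nat_lit 32956) (nat_lit 1) [nat_lit 46078, nat_lit 28582, nat_lit 33118, nat_lit 33010, nat_lit 32938, nat_lit 32962, nat_lit 32954] (nat_lit 0) [nat_lit 52638, nat_lit 13274] false,
   Spec.mk (nat_lit 32960) (nat_lit 0) [nat_lit 46082, nat_lit 28586, nat_lit 33122, nat_lit 33014, nat_lit 32954, nat_lit 32962] (nat_lit 0) [nat_lit 52642] false,
   Spec.mk (nat_lit 32962) (nat_lit 2) [nat_lit 46084, nat_lit 28588, nat_lit 33124, nat_lit 33016, nat_lit 32956, nat_lit 32960, nat_lit 32964] (nat_lit 0) [nat_lit 52644, nat_lit 13280] false,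
   Spec.mk (nat_lit 32964) (nat_lit 2) [nat_lit 46086, nat_lit 28590, nat_lit 33126, nat_lit 33018, nat_lit 32962] (nat_lit 0) [nat_lit 13282] false,
   Spec.mk (nat_lit 32984) (nat_lit 0) [nat_lit 46106, nat_lit 28610, nat_lit 33146, nat_lit 32930, nat_lit 33002, nat_lit 32990] (nat_lit 0) [nat_lit 52666] false,
   Spec.mk (nat_lit 32990) (nat_lit 0) [nat_lit 46112, nat_lit 28616, nat_lit 33152, nat_lit 32936, nat_lit 33008, nat_lit 32984, nat_lit 32992] (nat_lit 2) [nat_lit 52672] false,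
   Spec.mk (nat_lit 32992) (nat_lit 0) [nat_lit 46114, nat_lit 28618, nat_lit 33154, nat_lit 32938, nat_lit 33010, nat_lit 32990] (nat_lit 1) [nat_lit 52674, nat_lit 13310] false,
   Spec.mk (nat_lit 33002) (nat_lit 0) [nat_lit 46124, nat_lit 28628, nat_lit 33164, nat_lit 32948, nat_lit 32984, nat_lit 33008] (nat_lit 0) [nat_lit 52684] false,
   Spec.mk (nat_lit 33008) (nat_lit 0) [nat_lit 46130, nat_lit 28634, nat_lit 33170, nat_lit 32954, nat_lit 32990, nat_lit 33026, nat_lit 33002, nat_lit 33014, nat_lit 33010] (nat_lit 0) [nat_lit 52690] false,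
   Spec.mk (nat_lit 33010) (nat_lit 0) [nat_lit 46132, nat_lit 28636, nat_lit 33172, nat_lit 32956, nat_lit 32992, nat_lit 33028, nat_lit 33016, nat_lit 33008] (nat_lit 0) [nat_lit 52692, nat_lit 13328] false,
   Spec.mk (nat_lit 33014) (nat_lit 0) [nat_lit 46136, nat_lit 28640, nat_lit 33176, nat_lit 32960, nat_lit 33032, nat_lit 33008, nat_lit 33016] (nat_lit 2) [nat_lit 52696] false,
   Spec.mk (nat_lit 33016) (nat_lit 0) [nat_lit 46138, nat_lit 28642, nat_lit 33178, nat_lit 32962, nat_lit 33034, nat_lit 33010, nat_lit 33014, nat_lit 33018] (nat_lit 0) [nat_lit 52698, nat_lit 13334] false,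
   Spec.mk (nat_lit 33018) (nat_lit 0) [nat_lit 46140, nat_lit 28644, nat_lit 33180, nat_lit 32964, nat_lit 33036, nat_lit 33016] (nat_lit 0) [nat_lit 13336] false,
   Spec.mk (nat_lit 33026) (nat_lit 0) [nat_lit 46148, nat_lit 28652, nat_lit 33188, nat_lit 33008, nat_lit 33032, nat_lit 33028] (nat_lit 0) [nat_lit 52708] false,
   Spec.mk (nat_lit 33028) (nat_lit 0) [nat_lit 46150, nat_lit 28654, nat_lit 33190, nat_lit 33010, nat_lit 33034, nat_lit 33026] (nat_lit 1) [nat_lit 52710, nat_lit 13346] false,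
   Spec.mk (nat_lit 33032) (nat_lit 0) [nat_lit 46154, nat_lit 28658, nat_lit 33194, nat_lit 33014, nat_lit 33026, nat_lit 33034] (nat_lit 0) [nat_lit 52714] false,
   Spec.mk (nat_lit 33034) (nat_lit 1) [nat_lit 46156, nat_lit 28660, nat_lit 33196, nat_lit 33016, nat_lit 33028, nat_lit 33040, nat_lit 33032, nat_lit 33036] (nat_lit 0) [nat_lit 52716, nat_lit 13352] false,
   Spec.mk (nat_lit 33036) (nat_lit 0) [nat_lit 46158, nat_lit 28662, nat_lit 33198, nat_lit 33018, nat_lit 33042, nat_lit 33034] (nat_lit 0) [nat_lit 13354] false,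
   Spec.mk (nat_lit 33040) (nat_lit 1) [nat_lit 46162, nat_lit 28666, nat_lit 33202, nat_lit 33034, nat_lit 33042] (nat_lit 0) [nat_lit 52722, nat_lit 13358] false,
   Spec.mk (nat_lit 33042) (nat_lit 2) [nat_lit 46164, nat_lit 28668, nat_lit 33204, nat_lit 33036, nat_lit 33040] (nat_lit 0) [nat_lit 13360] false,
   Spec.mk (nat_lit 33074) (nat_lit 2) [nat_lit 46196, nat_lit 28700, nat_lit 33560, nat_lit 32912, nat_lit 33092] (nat_lit 0) [nat_lit 52756] false,
   Spec.mk (nat_lit 33092) (nat_lit 1) [nat_lit 46214, nat_lit 28718, nat_lit 33578, nat_lit 32930, nat_lit 33146, nat_lit 33074, nat_lit 33110, nat_lit 33098] (nat_lit 0) [nat_lit 52774] false,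
   Spec.mk (nat_lit 33098) (nat_lit 0) [nat_lit 46220, nat_lit 28724, nat_lit 33584, nat_lit 32936, nat_lit 33152, nat_lit 33116, nat_lit 33092, nat_lit 33100] (nat_lit 0) [nat_lit 52780] false,
   Spec.mk (nat_lit 33100) (nat_lit 1) [nat_lit 46222, nat_lit 28726, nat_lit 33586, nat_lit 32938, nat_lit 33154, nat_lit 33118, nat_lit 33098] (nat_lit 0) [nat_lit 52782, nat_lit 13418] false,
   Spec.mk (nat_lit 33110) (nat_lit 0) [nat_lit 46232, nat_lit 28736, nat_lit 33596, nat_lit 32948, nat_lit 33164, nat_lit 33092, nat_lit 33116] (nat_lit 2) [nat_lit 52792] false,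
   Spec.mk (nat_lit 33116) (nat_lit 0) [nat_lit 46238, nat_lit 28742, nat_lit 33602, nat_lit 32954, nat_lit 33170, nat_lit 33098, nat_lit 33110, nat_lit 33122, nat_lit 33118] (nat_lit 1) [nat_lit 52798] false,
   Spec.mk (nat_lit 33118) (nat_lit 0) [nat_lit 46240, nat_lit 28744, nat_lit 33604, nat_lit 32956, nat_lit 33172, nat_lit 33100, nat_lit 33124, nat_lit 33116] (nat_lit 1) [nat_lit 52800, nat_lit 13436] false,
   Spec.mk (nat_lit 33122) (nat_lit 0) [nat_lit 46244, nat_lit 28748, nat_lit 33608, nat_lit 32960, nat_lit 33176, nat_lit 33116, nat_lit 33124] (nat_lit 2) [nat_lit 52804] false,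
   Spec.mk (nat_lit 33124) (nat_lit 0) [nat_lit 46246, nat_lit 28750, nat_lit 33610, nat_lit 32962, nat_lit 33178, nat_lit 33118, nat_lit 33122, nat_lit 33126] (nat_lit 0) [nat_lit 52806, nat_lit 13442] false,
   Spec.mk (nat_lit 33126) (nat_lit 0) [nat_lit 46248, nat_lit 28752, nat_lit 33612, nat_lit 32964, nat_lit 33180, nat_lit 33124] (nat_lit 0) [nat_lit 13444] false,
   Spec.mk (nat_lit 33146) (nat_lit 1) [nat_lit 46268, nat_lit 28772, nat_lit 33632, nat_lit 32984, nat_lit 33308, nat_lit 33092, nat_lit 33164, nat_lit 33152] (nat_lit 0) [nat_lit 52828] false,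
   Spec.mk (nat_lit 33152) (nat_lit 0) [nat_lit 46274, nat_lit 28778, nat_lit 33638, nat_lit 32990, nat_lit 33314, nat_lit 33098, nat_lit 33170, nat_lit 33146, nat_lit 33154] (nat_lit 1) [nat_lit 52834] false,
   Spec.mk (nat_lit 33154) (nat_lit 0) [nat_lit 46276, nat_lit 28780, nat_lit 33640, nat_lit 32992, nat_lit 33316, nat_lit 33100, nat_lit 33172, nat_lit 33152] (nat_lit 0) [nat_lit 52836, nat_lit 13472] false,
   Spec.mk (nat_lit 33164) (nat_lit 0) [nat_lit 46286, nat_lit 28790, nat_lit 33650, nat_lit 33002, nat_lit 33326, nat_lit 33110, nat_lit 33218, nat_lit 33146, nat_lit 33170] (nat_lit 0) [nat_lit 52846] false,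
   Spec.mk (nat_lit 33170) (nat_lit 0) [nat_lit 46292, nat_lit 28796, nat_lit 33656, nat_lit 33008, nat_lit 33332, nat_lit 33116, nat_lit 33224, nat_lit 33152, nat_lit 33188, nat_lit 33164, nat_lit 33176, nat_lit 33172] (nat_lit 0) [nat_lit 52852] false,
   Spec.mk (nat_lit 33172) (nat_lit 0) [nat_lit 46294, nat_lit 28798, nat_lit 33658, nat_lit 33010, nat_lit 33334, nat_lit 33118, nat_lit 33226, nat_lit 33154, nat_lit 33190, nat_lit 33178, nat_lit 33170] (nat_lit 0) [nat_lit 52854, nat_lit 13490] false,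
   Spec.mk (nat_lit 33176) (nat_lit 0) [nat_lit 46298, nat_lit 28802, nat_lit 33662, nat_lit 33014, nat_lit 33338, nat_lit 33122, nat_lit 33230, nat_lit 33194, nat_lit 33170, nat_lit 33178] (nat_lit 2) [nat_lit 52858] false,
   Spec.mk (nat_lit 33178) (nat_lit 0) [nat_lit 46300, nat_lit 28804, nat_lit 33664, nat_lit 33016, nat_lit 33340, nat_lit 33124, nat_lit 33232, nat_lit 33196, nat_lit 33172, nat_lit 33176, nat_lit 33180] (nat_lit 0) [nat_lit 52860, nat_lit 13496] false,
   Spec.mk (nat_lit 33180) (nat_lit 0) [nat_lit 46302, nat_lit 28806, nat_lit 33666, nat_lit 33018, nat_lit 33342, nat_lit 33126, nat_lit 33234, nat_lit 33198, nat_lit 33178] (nat_lit 0) [nat_lit 13498] false,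
   Spec.mk (nat_lit 33188) (nat_lit 0) [nat_lit 46310, nat_lit 28814, nat_lit 33674, nat_lit 33026, nat_lit 33350, nat_lit 33242, nat_lit 33170, nat_lit 33194, nat_lit 33190] (nat_lit 1) [nat_lit 52870] false,
   Spec.mk (nat_lit 33190) (nat_lit 0) [nat_lit 46312, nat_lit 28816, nat_lit 33676, nat_lit 33028, nat_lit 33352, nat_lit 33244, nat_lit 33172, nat_lit 33196, nat_lit 33188] (nat_lit 2) [nat_lit 52872, nat_lit 13508] false,
   Spec.mk (nat_lit 33194) (nat_lit 0) [nat_lit 46316, nat_lit 28820, nat_lit 33680, nat_lit 33032, nat_lit 33356, nat_lit 33248, nat_lit 33176, nat_lit 33188, nat_lit 33196] (nat_lit 1) [nat_lit 52876] false,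
   Spec.mk (nat_lit 33196) (nat_lit 0) [nat_lit 46318, nat_lit 28822, nat_lit 33682, nat_lit 33034, nat_lit 33358, nat_lit 33250, nat_lit 33178, nat_lit 33190, nat_lit 33202, nat_lit 33194, nat_lit 33198] (nat_lit 0) [nat_lit 52878, nat_lit 13514] false,
   Spec.mk (nat_lit 33198) (nat_lit 0) [nat_lit 46320, nat_lit 28824, nat_lit 33684, nat_lit 33036, nat_lit 33360, nat_lit 33252, nat_lit 33180, nat_lit 33204, nat_lit 33196] (nat_lit 1) [nat_lit 13516] false,
   Spec.mk (nat_lit 33202) (nat_lit 0) [nat_lit 46324, nat_lit 28828, nat_lit 33688, nat_lit 33040, nat_lit 33364, nat_lit 33256, nat_lit 33196, nat_lit 33204] (nat_lit 0) [nat_lit 52884, nat_lit 13520] false,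
   Spec.mk (nat_lit 33204) (nat_lit 1) [nat_lit 46326, nat_lit 28830, nat_lit 33690, nat_lit 33042, nat_lit 33366, nat_lit 33258, nat_lit 33198, nat_lit 33202] (nat_lit 0) [nat_lit 13522] false,
   Spec.mk (nat_lit 33218) (nat_lit 0) [nat_lit 46340, nat_lit 28844, nat_lit 33704, nat_lit 33380, nat_lit 33164, nat_lit 33224] (nat_lit 0) [nat_lit 52900] false,
   Spec.mk (nat_lit 33224) (nat_lit 0) [nat_lit 46346, nat_lit 28850, nat_lit 33710, nat_lit 33386, nat_lit 33170, nat_lit 33242, nat_lit 33218, nat_lit 33230, nat_lit 33226] (nat_lit 1) [nat_lit 52906] false,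
   Spec.mk (nat_lit 33226) (nat_lit 0) [nat_lit 46348, nat_lit 28852, nat_lit 33712, nat_lit 33388, nat_lit 33172, nat_lit 33244, nat_lit 33232, nat_lit 33224] (nat_lit 1) [nat_lit 52908, nat_lit 13544] false,
   Spec.mk (nat_lit 33230) (nat_lit 0) [nat_lit 46352, nat_lit 28856, nat_lit 33716, nat_lit 33392, nat_lit 33176, nat_lit 33248, nat_lit 33224, nat_lit 33232] (nat_lit 4) [nat_lit 52912] false,
   Spec.mk (nat_lit 33232) (nat_lit 0) [nat_lit 46354, nat_lit 28858, nat_lit 33718, nat_lit 33394, nat_lit 33178, nat_lit 33250, nat_lit 33226, nat_lit 33230, nat_lit 33234] (nat_lit 2) [nat_lit 52914, nat_lit 13550] false,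
   Spec.mk (nat_lit 33234) (nat_lit 0) [nat_lit 46356, nat_lit 28860, nat_lit 33720, nat_lit 33396, nat_lit 33180, nat_lit 33252, nat_lit 33232] (nat_lit 2) [nat_lit 13552] false,
   Spec.mk (nat_lit 33242) (nat_lit 0) [nat_lit 46364, nat_lit 28868, nat_lit 33728, nat_lit 33404, nat_lit 33188, nat_lit 33224, nat_lit 33248, nat_lit 33244] (nat_lit 0) [nat_lit 52924] false,
   Spec.mk (nat_lit 33244) (nat_lit 0) [nat_lit 46366, nat_lit 28870, nat_lit 33730, nat_lit 33406, nat_lit 33190, nat_lit 33226, nat_lit 33250, nat_lit 33242] (nat_lit 1) [nat_lit 52926, nat_lit 13562] false,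
   Spec.mk (nat_lit 33248) (nat_lit 0) [nat_lit 46370, nat_lit 28874, nat_lit 33734, nat_lit 33410, nat_lit 33194, nat_lit 33230, nat_lit 33266, nat_lit 33242, nat_lit 33250] (nat_lit 1) [nat_lit 52930] false,
   Spec.mk (nat_lit 33250) (nat_lit 0) [nat_lit 46372, nat_lit 28876, nat_lit 33736, nat_lit 33412, nat_lit 33196, nat_lit 33232, nat_lit 33268, nat_lit 33244, nat_lit 33256, nat_lit 33248, nat_lit 33252] (nat_lit 0) [nat_lit 52932, nat_lit 13568] false,
   Spec.mk (nat_lit 33252) (nat_lit 0) [nat_lit 46374, nat_lit 28878, nat_lit 33738, nat_lit 33414, nat_lit 33198, nat_lit 33234, nat_lit 33270, nat_lit 33258, nat_lit 33250] (nat_lit 1) [nat_lit 13570] false,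
   Spec.mk (nat_lit 33256) (nat_lit 0) [nat_lit 46378, nat_lit 28882, nat_lit 33742, nat_lit 33418, nat_lit 33202, nat_lit 33274, nat_lit 33250, nat_lit 33258] (nat_lit 1) [nat_lit 52938, nat_lit 13574] false,
   Spec.mk (nat_lit 33258) (nat_lit 0) [nat_lit 46380, nat_lit 28884, nat_lit 33744, nat_lit 33420, nat_lit 33204, nat_lit 33276, nat_lit 33252, nat_lit 33256] (nat_lit 0) [nat_lit 13576] false,
   Spec.mk (nat_lit 33266) (nat_lit 0) [nat_lit 46388, nat_lit 28892, nat_lit 33752, nat_lit 33428, nat_lit 33248, nat_lit 33268] (nat_lit 0) [nat_lit 52948] false]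

noncomputable def sp85 : List Spec :=
  [Spec.mk (nat_lit 33268) (nat_lit 0) [nat_lit 46390, nat_lit 28894, nat_lit 33754, nat_lit 33430, nat_lit 33250, nat_lit 33274, nat_lit 33266, nat_lit 33270] (nat_lit 0) [nat_lit 52950, nat_lit 13586] false,
   Spec.mk (nat_lit 33270) (nat_lit 0) [nat_lit 46392, nat_lit 28896, nat_lit 33756, nat_lit 33432, nat_lit 33252, nat_lit 33276, nat_lit 33268] (nat_lit 2) [nat_lit 13588] false,
   Spec.mk (nat_lit 33274) (nat_lit 1) [nat_lit 46396, nat_lit 28900, nat_lit 33760, nat_lit 33436, nat_lit 33256, nat_lit 33268, nat_lit 33276] (nat_lit 0) [nat_lit 52956, nat_lit 13592] false,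
   Spec.mk (nat_lit 33276) (nat_lit 1) [nat_lit 46398, nat_lit 28902, nat_lit 33762, nat_lit 33438, nat_lit 33258, nat_lit 33270, nat_lit 33282, nat_lit 33274] (nat_lit 0) [nat_lit 13594] false,
   Spec.mk (nat_lit 33282) (nat_lit 2) [nat_lit 46404, nat_lit 28908, nat_lit 33768, nat_lit 33444, nat_lit 33276] (nat_lit 0) [nat_lit 13600] false,
   Spec.mk (nat_lit 33308) (nat_lit 0) [nat_lit 46430, nat_lit 28934, nat_lit 33794, nat_lit 33146, nat_lit 33326, nat_lit 33314] (nat_lit 0) [nat_lit 52990] false,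
   Spec.mk (nat_lit 33314) (nat_lit 0) [nat_lit 46436, nat_lit 28940, nat_lit 33800, nat_lit 33152, nat_lit 33332, nat_lit 33308, nat_lit 33316] (nat_lit 2) [nat_lit 52996] false,
   Spec.mk (nat_lit 33316) (nat_lit 0) [nat_lit 46438, nat_lit 28942, nat_lit 33802, nat_lit 33154, nat_lit 33334, nat_lit 33314] (nat_lit 1) [nat_lit 52998, nat_lit 13634] false,
   Spec.mk (nat_lit 33326) (nat_lit 0) [nat_lit 46448, nat_lit 28952, nat_lit 33812, nat_lit 33164, nat_lit 33380, nat_lit 33308, nat_lit 33332] (nat_lit 2) [nat_lit 53008] false,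
   Spec.mk (nat_lit 33332) (nat_lit 0) [nat_lit 46454, nat_lit 28958, nat_lit 33818, nat_lit 33170, nat_lit 33386, nat_lit 33314, nat_lit 33350, nat_lit 33326, nat_lit 33338, nat_lit 33334] (nat_lit 2) [nat_lit 53014] false,
   Spec.mk (nat_lit 33334) (nat_lit 0) [nat_lit 46456, nat_lit 28960, nat_lit 33820, nat_lit 33172, nat_lit 33388, nat_lit 33316, nat_lit 33352, nat_lit 33340, nat_lit 33332] (nat_lit 2) [nat_lit 53016, nat_lit 13652] false,
   Spec.mk (nat_lit 33338) (nat_lit 0) [nat_lit 46460, nat_lit 28964, nat_lit 33824, nat_lit 33176, nat_lit 33392, nat_lit 33356, nat_lit 33332, nat_lit 33340] (nat_lit 4) [nat_lit 53020] false,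
   Spec.mk (nat_lit 33340) (nat_lit 0) [nat_lit 46462, nat_lit 28966, nat_lit 33826, nat_lit 33178, nat_lit 33394, nat_lit 33358, nat_lit 33334, nat_lit 33338, nat_lit 33342] (nat_lit 2) [nat_lit 53022, nat_lit 13658] false,
   Spec.mk (nat_lit 33342) (nat_lit 0) [nat_lit 46464, nat_lit 28968, nat_lit 33828, nat_lit 33180, nat_lit 33396, nat_lit 33360, nat_lit 33340] (nat_lit 2) [nat_lit 13660] false,
   Spec.mk (nat_lit 33350) (nat_lit 0) [nat_lit 46472, nat_lit 28976, nat_lit 33836, nat_lit 33188, nat_lit 33404, nat_lit 33332, nat_lit 33356, nat_lit 33352] (nat_lit 4) [nat_lit 53032] false,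
   Spec.mk (nat_lit 33352) (nat_lit 0) [nat_lit 46474, nat_lit 28978, nat_lit 33838, nat_lit 33190, nat_lit 33406, nat_lit 33334, nat_lit 33358, nat_lit 33350] (nat_lit 5) [nat_lit 53034, nat_lit 13670] false,
   Spec.mk (nat_lit 33356) (nat_lit 0) [nat_lit 46478, nat_lit 28982, nat_lit 33842, nat_lit 33194, nat_lit 33410, nat_lit 33338, nat_lit 33350, nat_lit 33358] (nat_lit 4) [nat_lit 53038] false,
   Spec.mk (nat_lit 33358) (nat_lit 0) [nat_lit 46480, nat_lit 28984, nat_lit 33844, nat_lit 33196, nat_lit 33412, nat_lit 33340, nat_lit 33352, nat_lit 33364, nat_lit 33356, nat_lit 33360] (nat_lit 3) [nat_lit 53040, nat_lit 13676] false,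
   Spec.mk (nat_lit 33360) (nat_lit 0) [nat_lit 46482, nat_lit 28986, nat_lit 33846, nat_lit 33198, nat_lit 33414, nat_lit 33342, nat_lit 33366, nat_lit 33358] (nat_lit 4) [nat_lit 13678] false,
   Spec.mk (nat_lit 33364) (nat_lit 0) [nat_lit 46486, nat_lit 28990, nat_lit 33850, nat_lit 33202, nat_lit 33418, nat_lit 33358, nat_lit 33366] (nat_lit 3) [nat_lit 53046, nat_lit 13682] false,
   Spec.mk (nat_lit 33366) (nat_lit 0) [nat_lit 46488, nat_lit 28992, nat_lit 33852, nat_lit 33204, nat_lit 33420, nat_lit 33360, nat_lit 33364] (nat_lit 2) [nat_lit 13684] false,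
   Spec.mk (nat_lit 33380) (nat_lit 0) [nat_lit 46502, nat_lit 29006, nat_lit 33866, nat_lit 33218, nat_lit 33326, nat_lit 33386] (nat_lit 0) [nat_lit 53062] false,
   Spec.mk (nat_lit 33386) (nat_lit 0) [nat_lit 46508, nat_lit 29012, nat_lit 33872, nat_lit 33224, nat_lit 33332, nat_lit 33404, nat_lit 33380, nat_lit 33392, nat_lit 33388] (nat_lit 1) [nat_lit 53068] false,
   Spec.mk (nat_lit 33388) (nat_lit 0) [nat_lit 46510, nat_lit 29014, nat_lit 33874, nat_lit 33226, nat_lit 33334, nat_lit 33406, nat_lit 33394, nat_lit 33386] (nat_lit 1) [nat_lit 53070, nat_lit 13706] false,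
   Spec.mk (nat_lit 33392) (nat_lit 0) [nat_lit 46514, nat_lit 29018, nat_lit 33878, nat_lit 33230, nat_lit 33338, nat_lit 33410, nat_lit 33386, nat_lit 33394] (nat_lit 4) [nat_lit 53074] false,
   Spec.mk (nat_lit 33394) (nat_lit 0) [nat_lit 46516, nat_lit 29020, nat_lit 33880, nat_lit 33232, nat_lit 33340, nat_lit 33412, nat_lit 33388, nat_lit 33392, nat_lit 33396] (nat_lit 2) [nat_lit 53076, nat_lit 13712] false,
   Spec.mk (nat_lit 33396) (nat_lit 0) [nat_lit 46518, nat_lit 29022, nat_lit 33882, nat_lit 33234, nat_lit 33342, nat_lit 33414, nat_lit 33394] (nat_lit 2) [nat_lit 13714] false,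
   Spec.mk (nat_lit 33404) (nat_lit 0) [nat_lit 46526, nat_lit 29030, nat_lit 33890, nat_lit 33242, nat_lit 33350, nat_lit 33458, nat_lit 33386, nat_lit 33410, nat_lit 33406] (nat_lit 1) [nat_lit 53086] false,
   Spec.mk (nat_lit 33406) (nat_lit 0) [nat_lit 46528, nat_lit 29032, nat_lit 33892, nat_lit 33244, nat_lit 33352, nat_lit 33460, nat_lit 33388, nat_lit 33412, nat_lit 33404] (nat_lit 2) [nat_lit 53088, nat_lit 13724] false,
   Spec.mk (nat_lit 33410) (nat_lit 0) [nat_lit 46532, nat_lit 29036, nat_lit 33896, nat_lit 33248, nat_lit 33356, nat_lit 33464, nat_lit 33392, nat_lit 33428, nat_lit 33404, nat_lit 33412] (nat_lit 2) [nat_lit 53092] false,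
   Spec.mk (nat_lit 33412) (nat_lit 0) [nat_lit 46534, nat_lit 29038, nat_lit 33898, nat_lit 33250, nat_lit 33358, nat_lit 33466, nat_lit 33394, nat_lit 33430, nat_lit 33406, nat_lit 33418, nat_lit 33410, nat_lit 33414] (nat_lit 1) [nat_lit 53094, nat_lit 13730] false,
   Spec.mk (nat_lit 33414) (nat_lit 0) [nat_lit 46536, nat_lit 29040, nat_lit 33900, nat_lit 33252, nat_lit 33360, nat_lit 33468, nat_lit 33396, nat_lit 33432, nat_lit 33420, nat_lit 33412] (nat_lit 2) [nat_lit 13732] false,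
   Spec.mk (nat_lit 33418) (nat_lit 0) [nat_lit 46540, nat_lit 29044, nat_lit 33904, nat_lit 33256, nat_lit 33364, nat_lit 33472, nat_lit 33436, nat_lit 33412, nat_lit 33420] (nat_lit 2) [nat_lit 53100, nat_lit 13736] false,
   Spec.mk (nat_lit 33420) (nat_lit 0) [nat_lit 46542, nat_lit 29046, nat_lit 33906, nat_lit 33258, nat_lit 33366, nat_lit 33474, nat_lit 33438, nat_lit 33414, nat_lit 33418] (nat_lit 1) [nat_lit 13738] false,
   Spec.mk (nat_lit 33428) (nat_lit 0) [nat_lit 46550, nat_lit 29054, nat_lit 33914, nat_lit 33266, nat_lit 33482, nat_lit 33410, nat_lit 33430] (nat_lit 2) [nat_lit 53110] false,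
   Spec.mk (nat_lit 33430) (nat_lit 0) [nat_lit 46552, nat_lit 29056, nat_lit 33916, nat_lit 33268, nat_lit 33484, nat_lit 33412, nat_lit 33436, nat_lit 33428, nat_lit 33432] (nat_lit 2) [nat_lit 53112, nat_lit 13748] false,
   Spec.mk (nat_lit 33432) (nat_lit 0) [nat_lit 46554, nat_lit 29058, nat_lit 33918, nat_lit 33270, nat_lit 33486, nat_lit 33414, nat_lit 33438, nat_lit 33430] (nat_lit 4) [nat_lit 13750] false,
   Spec.mk (nat_lit 33436) (nat_lit 0) [nat_lit 46558, nat_lit 29062, nat_lit 33922, nat_lit 33274, nat_lit 33490, nat_lit 33418, nat_lit 33430, nat_lit 33438] (nat_lit 1) [nat_lit 53118, nat_lit 13754] false,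
   Spec.mk (nat_lit 33438) (nat_lit 0) [nat_lit 46560, nat_lit 29064, nat_lit 33924, nat_lit 33276, nat_lit 33492, nat_lit 33420, nat_lit 33432, nat_lit 33444, nat_lit 33436] (nat_lit 1) [nat_lit 13756] false,
   Spec.mk (nat_lit 33444) (nat_lit 0) [nat_lit 46566, nat_lit 29070, nat_lit 33930, nat_lit 33282, nat_lit 33498, nat_lit 33438] (nat_lit 0) [nat_lit 13762] false,
   Spec.mk (nat_lit 33458) (nat_lit 0) [nat_lit 46580, nat_lit 29084, nat_lit 33944, nat_lit 33404, nat_lit 33464, nat_lit 33460] (nat_lit 0) [nat_lit 53140] false,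
   Spec.mk (nat_lit 33460) (nat_lit 0) [nat_lit 46582, nat_lit 29086, nat_lit 33946, nat_lit 33406, nat_lit 33466, nat_lit 33458] (nat_lit 1) [nat_lit 53142, nat_lit 13778] false,
   Spec.mk (nat_lit 33464) (nat_lit 0) [nat_lit 46586, nat_lit 29090, nat_lit 33950, nat_lit 33410, nat_lit 33482, nat_lit 33458, nat_lit 33466] (nat_lit 2) [nat_lit 53146] false,
   Spec.mk (nat_lit 33466) (nat_lit 0) [nat_lit 46588, nat_lit 29092, nat_lit 33952, nat_lit 33412, nat_lit 33484, nat_lit 33460, nat_lit 33472, nat_lit 33464, nat_lit 33468] (nat_lit 1) [nat_lit 53148, nat_lit 13784] false,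
   Spec.mk (nat_lit 33468) (nat_lit 0) [nat_lit 46590, nat_lit 29094, nat_lit 33954, nat_lit 33414, nat_lit 33486, nat_lit 33474, nat_lit 33466] (nat_lit 2) [nat_lit 13786] false,
   Spec.mk (nat_lit 33472) (nat_lit 0) [nat_lit 46594, nat_lit 29098, nat_lit 33958, nat_lit 33418, nat_lit 33490, nat_lit 33466, nat_lit 33474] (nat_lit 3) [nat_lit 53154, nat_lit 13790] false,
   Spec.mk (nat_lit 33474) (nat_lit 0) [nat_lit 46596, nat_lit 29100, nat_lit 33960, nat_lit 33420, nat_lit 33492, nat_lit 33468, nat_lit 33472] (nat_lit 2) [nat_lit 13792] false,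
   Spec.mk (nat_lit 33482) (nat_lit 0) [nat_lit 46604, nat_lit 29108, nat_lit 33968, nat_lit 33428, nat_lit 33464, nat_lit 33484] (nat_lit 0) [nat_lit 53164] false,
   Spec.mk (nat_lit 33484) (nat_lit 0) [nat_lit 46606, nat_lit 29110, nat_lit 33970, nat_lit 33430, nat_lit 33466, nat_lit 33490, nat_lit 33482, nat_lit 33486] (nat_lit 0) [nat_lit 53166, nat_lit 13802] false,
   Spec.mk (nat_lit 33486) (nat_lit 0) [nat_lit 46608, nat_lit 29112, nat_lit 33972, nat_lit 33432, nat_lit 33468, nat_lit 33492, nat_lit 33484] (nat_lit 2) [nat_lit 13804] false,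
   Spec.mk (nat_lit 33490) (nat_lit 0) [nat_lit 46612, nat_lit 29116, nat_lit 33976, nat_lit 33436, nat_lit 33472, nat_lit 33508, nat_lit 33484, nat_lit 33492] (nat_lit 0) [nat_lit 53172, nat_lit 13808] false,
   Spec.mk (nat_lit 33492) (nat_lit 0) [nat_lit 46614, nat_lit 29118, nat_lit 33978, nat_lit 33438, nat_lit 33474, nat_lit 33510, nat_lit 33486, nat_lit 33498, nat_lit 33490] (nat_lit 0) [nat_lit 13810] false,
   Spec.mk (nat_lit 33498) (nat_lit 0) [nat_lit 46620, nat_lit 29124, nat_lit 33984, nat_lit 33444, nat_lit 33516, nat_lit 33492] (nat_lit 0) [nat_lit 13816] false,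
   Spec.mk (nat_lit 33508) (nat_lit 1) [nat_lit 46630, nat_lit 29134, nat_lit 33994, nat_lit 33490, nat_lit 33510] (nat_lit 0) [nat_lit 53190, nat_lit 13826] false,
   Spec.mk (nat_lit 33510) (nat_lit 0) [nat_lit 46632, nat_lit 29136, nat_lit 33996, nat_lit 33492, nat_lit 33516, nat_lit 33508] (nat_lit 0) [nat_lit 13828] false,
   Spec.mk (nat_lit 33516) (nat_lit 2) [nat_lit 46638, nat_lit 29142, nat_lit 34002, nat_lit 33498, nat_lit 33510] (nat_lit 0) [nat_lit 13834] false,
   Spec.mk (nat_lit 33560) (nat_lit 2) [nat_lit 46682, nat_lit 29186, nat_lit 35018, nat_lit 33074, nat_lit 33578] (nat_lit 0) [nat_lit 53242] false,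
   Spec.mk (nat_lit 33578) (nat_lit 1) [nat_lit 46700, nat_lit 29204, nat_lit 35036, nat_lit 33092, nat_lit 33632, nat_lit 33560, nat_lit 33596, nat_lit 33584] (nat_lit 0) [nat_lit 53260] false,
   Spec.mk (nat_lit 33584) (nat_lit 0) [nat_lit 46706, nat_lit 29210, nat_lit 35042, nat_lit 33098, nat_lit 33638, nat_lit 33602, nat_lit 33578, nat_lit 33586] (nat_lit 0) [nat_lit 53266] false,
   Spec.mk (nat_lit 33586) (nat_lit 1) [nat_lit 46708, nat_lit 29212, nat_lit 35044, nat_lit 33100, nat_lit 33640, nat_lit 33604, nat_lit 33584] (nat_lit 0) [nat_lit 53268, nat_lit 13904] false]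

noncomputable def sp86 : List Spec :=
  [Spec.mk (nat_lit 33596) (nat_lit 0) [nat_lit 46718, nat_lit 29222, nat_lit 35054, nat_lit 33110, nat_lit 33650, nat_lit 33578, nat_lit 33602] (nat_lit 2) [nat_lit 53278] false,
   Spec.mk (nat_lit 33602) (nat_lit 0) [nat_lit 46724, nat_lit 29228, nat_lit 35060, nat_lit 33116, nat_lit 33656, nat_lit 33584, nat_lit 33596, nat_lit 33608, nat_lit 33604] (nat_lit 1) [nat_lit 53284] false,
   Spec.mk (nat_lit 33604) (nat_lit 0) [nat_lit 46726, nat_lit 29230, nat_lit 35062, nat_lit 33118, nat_lit 33658, nat_lit 33586, nat_lit 33610, nat_lit 33602] (nat_lit 1) [nat_lit 53286, nat_lit 13922] false,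
   Spec.mk (nat_lit 33608) (nat_lit 0) [nat_lit 46730, nat_lit 29234, nat_lit 35066, nat_lit 33122, nat_lit 33662, nat_lit 33602, nat_lit 33610] (nat_lit 2) [nat_lit 53290] false,
   Spec.mk (nat_lit 33610) (nat_lit 0) [nat_lit 46732, nat_lit 29236, nat_lit 35068, nat_lit 33124, nat_lit 33664, nat_lit 33604, nat_lit 33608, nat_lit 33612] (nat_lit 0) [nat_lit 53292, nat_lit 13928] false,
   Spec.mk (nat_lit 33612) (nat_lit 0) [nat_lit 46734, nat_lit 29238, nat_lit 35070, nat_lit 33126, nat_lit 33666, nat_lit 33610] (nat_lit 0) [nat_lit 13930] false,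
   Spec.mk (nat_lit 33632) (nat_lit 0) [nat_lit 46754, nat_lit 29258, nat_lit 35090, nat_lit 33146, nat_lit 33794, nat_lit 33578, nat_lit 33650, nat_lit 33638] (nat_lit 0) [nat_lit 53314] false,
   Spec.mk (nat_lit 33638) (nat_lit 0) [nat_lit 46760, nat_lit 29264, nat_lit 35096, nat_lit 33152, nat_lit 33800, nat_lit 33584, nat_lit 33656, nat_lit 33632, nat_lit 33640] (nat_lit 2) [nat_lit 53320] false,
   Spec.mk (nat_lit 33640) (nat_lit 0) [nat_lit 46762, nat_lit 29266, nat_lit 35098, nat_lit 33154, nat_lit 33802, nat_lit 33586, nat_lit 33658, nat_lit 33638] (nat_lit 1) [nat_lit 53322, nat_lit 13958] false,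
   Spec.mk (nat_lit 33650) (nat_lit 0) [nat_lit 46772, nat_lit 29276, nat_lit 35108, nat_lit 33164, nat_lit 33812, nat_lit 33596, nat_lit 33704, nat_lit 33632, nat_lit 33656] (nat_lit 1) [nat_lit 53332] false,
   Spec.mk (nat_lit 33656) (nat_lit 0) [nat_lit 46778, nat_lit 29282, nat_lit 35114, nat_lit 33170, nat_lit 33818, nat_lit 33602, nat_lit 33710, nat_lit 33638, nat_lit 33674, nat_lit 33650, nat_lit 33662, nat_lit 33658] (nat_lit 1) [nat_lit 53338] false,
   Spec.mk (nat_lit 33658) (nat_lit 0) [nat_lit 46780, nat_lit 29284, nat_lit 35116, nat_lit 33172, nat_lit 33820, nat_lit 33604, nat_lit 33712, nat_lit 33640, nat_lit 33676, nat_lit 33664, nat_lit 33656] (nat_lit 1) [nat_lit 53340, nat_lit 13976] false,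
   Spec.mk (nat_lit 33662) (nat_lit 0) [nat_lit 46784, nat_lit 29288, nat_lit 35120, nat_lit 33176, nat_lit 33824, nat_lit 33608, nat_lit 33716, nat_lit 33680, nat_lit 33656, nat_lit 33664] (nat_lit 3) [nat_lit 53344] false,
   Spec.mk (nat_lit 33664) (nat_lit 0) [nat_lit 46786, nat_lit 29290, nat_lit 35122, nat_lit 33178, nat_lit 33826, nat_lit 33610, nat_lit 33718, nat_lit 33682, nat_lit 33658, nat_lit 33662, nat_lit 33666] (nat_lit 1) [nat_lit 53346, nat_lit 13982] false,
   Spec.mk (nat_lit 33666) (nat_lit 0) [nat_lit 46788, nat_lit 29292, nat_lit 35124, nat_lit 33180, nat_lit 33828, nat_lit 33612, nat_lit 33720, nat_lit 33684, nat_lit 33664] (nat_lit 1) [nat_lit 13984] false,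
   Spec.mk (nat_lit 33674) (nat_lit 0) [nat_lit 46796, nat_lit 29300, nat_lit 35132, nat_lit 33188, nat_lit 33836, nat_lit 33728, nat_lit 33656, nat_lit 33680, nat_lit 33676] (nat_lit 2) [nat_lit 53356] false,
   Spec.mk (nat_lit 33676) (nat_lit 0) [nat_lit 46798, nat_lit 29302, nat_lit 35134, nat_lit 33190, nat_lit 33838, nat_lit 33730, nat_lit 33658, nat_lit 33682, nat_lit 33674] (nat_lit 3) [nat_lit 53358, nat_lit 13994] false,
   Spec.mk (nat_lit 33680) (nat_lit 0) [nat_lit 46802, nat_lit 29306, nat_lit 35138, nat_lit 33194, nat_lit 33842, nat_lit 33734, nat_lit 33662, nat_lit 33674, nat_lit 33682] (nat_lit 2) [nat_lit 53362] false,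
   Spec.mk (nat_lit 33682) (nat_lit 0) [nat_lit 46804, nat_lit 29308, nat_lit 35140, nat_lit 33196, nat_lit 33844, nat_lit 33736, nat_lit 33664, nat_lit 33676, nat_lit 33688, nat_lit 33680, nat_lit 33684] (nat_lit 1) [nat_lit 53364, nat_lit 14000] false,
   Spec.mk (nat_lit 33684) (nat_lit 0) [nat_lit 46806, nat_lit 29310, nat_lit 35142, nat_lit 33198, nat_lit 33846, nat_lit 33738, nat_lit 33666, nat_lit 33690, nat_lit 33682] (nat_lit 2) [nat_lit 14002] false,
   Spec.mk (nat_lit 33688) (nat_lit 0) [nat_lit 46810, nat_lit 29314, nat_lit 35146, nat_lit 33202, nat_lit 33850, nat_lit 33742, nat_lit 33682, nat_lit 33690] (nat_lit 1) [nat_lit 53370, nat_lit 14006] false,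
   Spec.mk (nat_lit 33690) (nat_lit 0) [nat_lit 46812, nat_lit 29316, nat_lit 35148, nat_lit 33204, nat_lit 33852, nat_lit 33744, nat_lit 33684, nat_lit 33688] (nat_lit 0) [nat_lit 14008] false,
   Spec.mk (nat_lit 33704) (nat_lit 0) [nat_lit 46826, nat_lit 29330, nat_lit 35162, nat_lit 33218, nat_lit 33866, nat_lit 33650, nat_lit 33710] (nat_lit 2) [nat_lit 53386] false,
   Spec.mk (nat_lit 33710) (nat_lit 0) [nat_lit 46832, nat_lit 29336, nat_lit 35168, nat_lit 33224, nat_lit 33872, nat_lit 33656, nat_lit 33728, nat_lit 33704, nat_lit 33716, nat_lit 33712] (nat_lit 3) [nat_lit 53392] false,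
   Spec.mk (nat_lit 33712) (nat_lit 0) [nat_lit 46834, nat_lit 29338, nat_lit 35170, nat_lit 33226, nat_lit 33874, nat_lit 33658, nat_lit 33730, nat_lit 33718, nat_lit 33710] (nat_lit 3) [nat_lit 53394, nat_lit 14030] false,
   Spec.mk (nat_lit 33716) (nat_lit 0) [nat_lit 46838, nat_lit 29342, nat_lit 35174, nat_lit 33230, nat_lit 33878, nat_lit 33662, nat_lit 33734, nat_lit 33710, nat_lit 33718] (nat_lit 6) [nat_lit 53398] false,
   Spec.mk (nat_lit 33718) (nat_lit 0) [nat_lit 46840, nat_lit 29344, nat_lit 35176, nat_lit 33232, nat_lit 33880, nat_lit 33664, nat_lit 33736, nat_lit 33712, nat_lit 33716, nat_lit 33720] (nat_lit 4) [nat_lit 53400, nat_lit 14036] false,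
   Spec.mk (nat_lit 33720) (nat_lit 0) [nat_lit 46842, nat_lit 29346, nat_lit 35178, nat_lit 33234, nat_lit 33882, nat_lit 33666, nat_lit 33738, nat_lit 33718] (nat_lit 4) [nat_lit 14038] false,
   Spec.mk (nat_lit 33728) (nat_lit 0) [nat_lit 46850, nat_lit 29354, nat_lit 35186, nat_lit 33242, nat_lit 33890, nat_lit 33674, nat_lit 33710, nat_lit 33734, nat_lit 33730] (nat_lit 2) [nat_lit 53410] false,
   Spec.mk (nat_lit 33730) (nat_lit 0) [nat_lit 46852, nat_lit 29356, nat_lit 35188, nat_lit 33244, nat_lit 33892, nat_lit 33676, nat_lit 33712, nat_lit 33736, nat_lit 33728] (nat_lit 3) [nat_lit 53412, nat_lit 14048] false,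
   Spec.mk (nat_lit 33734) (nat_lit 0) [nat_lit 46856, nat_lit 29360, nat_lit 35192, nat_lit 33248, nat_lit 33896, nat_lit 33680, nat_lit 33716, nat_lit 33752, nat_lit 33728, nat_lit 33736] (nat_lit 3) [nat_lit 53416] false,
   Spec.mk (nat_lit 33736) (nat_lit 0) [nat_lit 46858, nat_lit 29362, nat_lit 35194, nat_lit 33250, nat_lit 33898, nat_lit 33682, nat_lit 33718, nat_lit 33754, nat_lit 33730, nat_lit 33742, nat_lit 33734, nat_lit 33738] (nat_lit 2) [nat_lit 53418, nat_lit 14054] false,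
   Spec.mk (nat_lit 33738) (nat_lit 0) [nat_lit 46860, nat_lit 29364, nat_lit 35196, nat_lit 33252, nat_lit 33900, nat_lit 33684, nat_lit 33720, nat_lit 33756, nat_lit 33744, nat_lit 33736] (nat_lit 3) [nat_lit 14056] false,
   Spec.mk (nat_lit 33742) (nat_lit 0) [nat_lit 46864, nat_lit 29368, nat_lit 35200, nat_lit 33256, nat_lit 33904, nat_lit 33688, nat_lit 33760, nat_lit 33736, nat_lit 33744] (nat_lit 3) [nat_lit 53424, nat_lit 14060] false,
   Spec.mk (nat_lit 33744) (nat_lit 0) [nat_lit 46866, nat_lit 29370, nat_lit 35202, nat_lit 33258, nat_lit 33906, nat_lit 33690, nat_lit 33762, nat_lit 33738, nat_lit 33742] (nat_lit 2) [nat_lit 14062] false,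
   Spec.mk (nat_lit 33752) (nat_lit 0) [nat_lit 46874, nat_lit 29378, nat_lit 35210, nat_lit 33266, nat_lit 33914, nat_lit 33734, nat_lit 33754] (nat_lit 2) [nat_lit 53434] false,
   Spec.mk (nat_lit 33754) (nat_lit 0) [nat_lit 46876, nat_lit 29380, nat_lit 35212, nat_lit 33268, nat_lit 33916, nat_lit 33736, nat_lit 33760, nat_lit 33752, nat_lit 33756] (nat_lit 2) [nat_lit 53436, nat_lit 14072] false,
   Spec.mk (nat_lit 33756) (nat_lit 0) [nat_lit 46878, nat_lit 29382, nat_lit 35214, nat_lit 33270, nat_lit 33918, nat_lit 33738, nat_lit 33762, nat_lit 33754] (nat_lit 4) [nat_lit 14074] false,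
   Spec.mk (nat_lit 33760) (nat_lit 0) [nat_lit 46882, nat_lit 29386, nat_lit 35218, nat_lit 33274, nat_lit 33922, nat_lit 33742, nat_lit 33754, nat_lit 33762] (nat_lit 1) [nat_lit 53442, nat_lit 14078] false,
   Spec.mk (nat_lit 33762) (nat_lit 0) [nat_lit 46884, nat_lit 29388, nat_lit 35220, nat_lit 33276, nat_lit 33924, nat_lit 33744, nat_lit 33756, nat_lit 33768, nat_lit 33760] (nat_lit 1) [nat_lit 14080] false,
   Spec.mk (nat_lit 33768) (nat_lit 0) [nat_lit 46890, nat_lit 29394, nat_lit 35226, nat_lit 33282, nat_lit 33930, nat_lit 33762] (nat_lit 0) [nat_lit 14086] false,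
   Spec.mk (nat_lit 33794) (nat_lit 1) [nat_lit 46916, nat_lit 29420, nat_lit 35252, nat_lit 33308, nat_lit 34280, nat_lit 33632, nat_lit 33812, nat_lit 33800] (nat_lit 0) [nat_lit 53476] false,
   Spec.mk (nat_lit 33800) (nat_lit 0) [nat_lit 46922, nat_lit 29426, nat_lit 35258, nat_lit 33314, nat_lit 34286, nat_lit 33638, nat_lit 33818, nat_lit 33794, nat_lit 33802] (nat_lit 1) [nat_lit 53482] false,
   Spec.mk (nat_lit 33802) (nat_lit 0) [nat_lit 46924, nat_lit 29428, nat_lit 35260, nat_lit 33316, nat_lit 34288, nat_lit 33640, nat_lit 33820, nat_lit 33800] (nat_lit 0) [nat_lit 53484, nat_lit 14120] false,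
   Spec.mk (nat_lit 33812) (nat_lit 0) [nat_lit 46934, nat_lit 29438, nat_lit 35270, nat_lit 33326, nat_lit 34298, nat_lit 33650, nat_lit 33866, nat_lit 33794, nat_lit 33818] (nat_lit 1) [nat_lit 53494] false,
   Spec.mk (nat_lit 33818) (nat_lit 0) [nat_lit 46940, nat_lit 29444, nat_lit 35276, nat_lit 33332, nat_lit 34304, nat_lit 33656, nat_lit 33872, nat_lit 33800, nat_lit 33836, nat_lit 33812, nat_lit 33824, nat_lit 33820] (nat_lit 1) [nat_lit 53500] false,
   Spec.mk (nat_lit 33820) (nat_lit 0) [nat_lit 46942, nat_lit 29446, nat_lit 35278, nat_lit 33334, nat_lit 34306, nat_lit 33658, nat_lit 33874, nat_lit 33802, nat_lit 33838, nat_lit 33826, nat_lit 33818] (nat_lit 1) [nat_lit 53502, nat_lit 14138] false,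
   Spec.mk (nat_lit 33824) (nat_lit 0) [nat_lit 46946, nat_lit 29450, nat_lit 35282, nat_lit 33338, nat_lit 34310, nat_lit 33662, nat_lit 33878, nat_lit 33842, nat_lit 33818, nat_lit 33826] (nat_lit 3) [nat_lit 53506] false,
   Spec.mk (nat_lit 33826) (nat_lit 0) [nat_lit 46948, nat_lit 29452, nat_lit 35284, nat_lit 33340, nat_lit 34312, nat_lit 33664, nat_lit 33880, nat_lit 33844, nat_lit 33820, nat_lit 33824, nat_lit 33828] (nat_lit 1) [nat_lit 53508, nat_lit 14144] false,
   Spec.mk (nat_lit 33828) (nat_lit 0) [nat_lit 46950, nat_lit 29454, nat_lit 35286, nat_lit 33342, nat_lit 34314, nat_lit 33666, nat_lit 33882, nat_lit 33846, nat_lit 33826] (nat_lit 1) [nat_lit 14146] false,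
   Spec.mk (nat_lit 33836) (nat_lit 0) [nat_lit 46958, nat_lit 29462, nat_lit 35294, nat_lit 33350, nat_lit 34322, nat_lit 33674, nat_lit 33890, nat_lit 33818, nat_lit 33842, nat_lit 33838] (nat_lit 3) [nat_lit 53518] false,
   Spec.mk (nat_lit 33838) (nat_lit 0) [nat_lit 46960, nat_lit 29464, nat_lit 35296, nat_lit 33352, nat_lit 34324, nat_lit 33676, nat_lit 33892, nat_lit 33820, nat_lit 33844, nat_lit 33836] (nat_lit 4) [nat_lit 53520, nat_lit 14156] false,
   Spec.mk (nat_lit 33842) (nat_lit 0) [nat_lit 46964, nat_lit 29468, nat_lit 35300, nat_lit 33356, nat_lit 34328, nat_lit 33680, nat_lit 33896, nat_lit 33824, nat_lit 33836, nat_lit 33844] (nat_lit 3) [nat_lit 53524] false,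
   Spec.mk (nat_lit 33844) (nat_lit 0) [nat_lit 46966, nat_lit 29470, nat_lit 35302, nat_lit 33358, nat_lit 34330, nat_lit 33682, nat_lit 33898, nat_lit 33826, nat_lit 33838, nat_lit 33850, nat_lit 33842, nat_lit 33846] (nat_lit 2) [nat_lit 53526, nat_lit 14162] false,
   Spec.mk (nat_lit 33846) (nat_lit 0) [nat_lit 46968, nat_lit 29472, nat_lit 35304, nat_lit 33360, nat_lit 34332, nat_lit 33684, nat_lit 33900, nat_lit 33828, nat_lit 33852, nat_lit 33844] (nat_lit 3) [nat_lit 14164] false,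
   Spec.mk (nat_lit 33850) (nat_lit 0) [nat_lit 46972, nat_lit 29476, nat_lit 35308, nat_lit 33364, nat_lit 34336, nat_lit 33688, nat_lit 33904, nat_lit 33844, nat_lit 33852] (nat_lit 2) [nat_lit 53532, nat_lit 14168] false,
   Spec.mk (nat_lit 33852) (nat_lit 0) [nat_lit 46974, nat_lit 29478, nat_lit 35310, nat_lit 33366, nat_lit 34338, nat_lit 33690, nat_lit 33906, nat_lit 33846, nat_lit 33850] (nat_lit 1) [nat_lit 14170] false,
   Spec.mk (nat_lit 33866) (nat_lit 0) [nat_lit 46988, nat_lit 29492, nat_lit 35324, nat_lit 33380, nat_lit 34352, nat_lit 33704, nat_lit 34028, nat_lit 33812, nat_lit 33872] (nat_lit 0) [nat_lit 53548] false,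
   Spec.mk (nat_lit 33872) (nat_lit 0) [nat_lit 46994, nat_lit 29498, nat_lit 35330, nat_lit 33386, nat_lit 34358, nat_lit 33710, nat_lit 34034, nat_lit 33818, nat_lit 33890, nat_lit 33866, nat_lit 33878, nat_lit 33874] (nat_lit 1) [nat_lit 53554] false,
   Spec.mk (nat_lit 33874) (nat_lit 0) [nat_lit 46996, nat_lit 29500, nat_lit 35332, nat_lit 33388, nat_lit 34360, nat_lit 33712, nat_lit 34036, nat_lit 33820, nat_lit 33892, nat_lit 33880, nat_lit 33872] (nat_lit 1) [nat_lit 53556, nat_lit 14192] false]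

noncomputable def sp87 : List Spec :=
  [Spec.mk (nat_lit 33878) (nat_lit 0) [nat_lit 47000, nat_lit 29504, nat_lit 35336, nat_lit 33392, nat_lit 34364, nat_lit 33716, nat_lit 34040, nat_lit 33824, nat_lit 33896, nat_lit 33872, nat_lit 33880] (nat_lit 4) [nat_lit 53560] false,
   Spec.mk (nat_lit 33880) (nat_lit 0) [nat_lit 47002, nat_lit 29506, nat_lit 35338, nat_lit 33394, nat_lit 34366, nat_lit 33718, nat_lit 34042, nat_lit 33826, nat_lit 33898, nat_lit 33874, nat_lit 33878, nat_lit 33882] (nat_lit 2) [nat_lit 53562, nat_lit 14198] false,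
   Spec.mk (nat_lit 33882) (nat_lit 0) [nat_lit 47004, nat_lit 29508, nat_lit 35340, nat_lit 33396, nat_lit 34368, nat_lit 33720, nat_lit 34044, nat_lit 33828, nat_lit 33900, nat_lit 33880] (nat_lit 2) [nat_lit 14200] false,
   Spec.mk (nat_lit 33890) (nat_lit 0) [nat_lit 47012, nat_lit 29516, nat_lit 35348, nat_lit 33404, nat_lit 34376, nat_lit 33728, nat_lit 34052, nat_lit 33836, nat_lit 33944, nat_lit 33872, nat_lit 33896, nat_lit 33892] (nat_lit 1) [nat_lit 53572] false,
   Spec.mk (nat_lit 33892) (nat_lit 0) [nat_lit 47014, nat_lit 29518, nat_lit 35350, nat_lit 33406, nat_lit 34378, nat_lit 33730, nat_lit 34054, nat_lit 33838, nat_lit 33946, nat_lit 33874, nat_lit 33898, nat_lit 33890] (nat_lit 2) [nat_lit 53574, nat_lit 14210] false,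
   Spec.mk (nat_lit 33896) (nat_lit 0) [nat_lit 47018, nat_lit 29522, nat_lit 35354, nat_lit 33410, nat_lit 34382, nat_lit 33734, nat_lit 34058, nat_lit 33842, nat_lit 33950, nat_lit 33878, nat_lit 33914, nat_lit 33890, nat_lit 33898] (nat_lit 2) [nat_lit 53578] false,
   Spec.mk (nat_lit 33898) (nat_lit 0) [nat_lit 47020, nat_lit 29524, nat_lit 35356, nat_lit 33412, nat_lit 34384, nat_lit 33736, nat_lit 34060, nat_lit 33844, nat_lit 33952, nat_lit 33880, nat_lit 33916, nat_lit 33892, nat_lit 33904, nat_lit 33896, nat_lit 33900] (nat_lit 1) [nat_lit 53580, nat_lit 14216] false,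
   Spec.mk (nat_lit 33900) (nat_lit 0) [nat_lit 47022, nat_lit 29526, nat_lit 35358, nat_lit 33414, nat_lit 34386, nat_lit 33738, nat_lit 34062, nat_lit 33846, nat_lit 33954, nat_lit 33882, nat_lit 33918, nat_lit 33906, nat_lit 33898] (nat_lit 2) [nat_lit 14218] false,
   Spec.mk (nat_lit 33904) (nat_lit 0) [nat_lit 47026, nat_lit 29530, nat_lit 35362, nat_lit 33418, nat_lit 34390, nat_lit 33742, nat_lit 34066, nat_lit 33850, nat_lit 33958, nat_lit 33922, nat_lit 33898, nat_lit 33906] (nat_lit 2) [nat_lit 53586, nat_lit 14222] false,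
   Spec.mk (nat_lit 33906) (nat_lit 0) [nat_lit 47028, nat_lit 29532, nat_lit 35364, nat_lit 33420, nat_lit 34392, nat_lit 33744, nat_lit 34068, nat_lit 33852, nat_lit 33960, nat_lit 33924, nat_lit 33900, nat_lit 33904] (nat_lit 1) [nat_lit 14224] false,
   Spec.mk (nat_lit 33914) (nat_lit 0) [nat_lit 47036, nat_lit 29540, nat_lit 35372, nat_lit 33428, nat_lit 34400, nat_lit 33752, nat_lit 34076, nat_lit 33968, nat_lit 33896, nat_lit 33916] (nat_lit 2) [nat_lit 53596] false,
   Spec.mk (nat_lit 33916) (nat_lit 0) [nat_lit 47038, nat_lit 29542, nat_lit 35374, nat_lit 33430, nat_lit 34402, nat_lit 33754, nat_lit 34078, nat_lit 33970, nat_lit 33898, nat_lit 33922, nat_lit 33914, nat_lit 33918] (nat_lit 2) [nat_lit 53598, nat_lit 14234] false,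
   Spec.mk (nat_lit 33918) (nat_lit 0) [nat_lit 47040, nat_lit 29544, nat_lit 35376, nat_lit 33432, nat_lit 34404, nat_lit 33756, nat_lit 34080, nat_lit 33972, nat_lit 33900, nat_lit 33924, nat_lit 33916] (nat_lit 4) [nat_lit 14236] false,
   Spec.mk (nat_lit 33922) (nat_lit 0) [nat_lit 47044, nat_lit 29548, nat_lit 35380, nat_lit 33436, nat_lit 34408, nat_lit 33760, nat_lit 34084, nat_lit 33976, nat_lit 33904, nat_lit 33916, nat_lit 33924] (nat_lit 1) [nat_lit 53604, nat_lit 14240] false,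
   Spec.mk (nat_lit 33924) (nat_lit 0) [nat_lit 47046, nat_lit 29550, nat_lit 35382, nat_lit 33438, nat_lit 34410, nat_lit 33762, nat_lit 34086, nat_lit 33978, nat_lit 33906, nat_lit 33918, nat_lit 33930, nat_lit 33922] (nat_lit 1) [nat_lit 14242] false,
   Spec.mk (nat_lit 33930) (nat_lit 0) [nat_lit 47052, nat_lit 29556, nat_lit 35388, nat_lit 33444, nat_lit 34416, nat_lit 33768, nat_lit 34092, nat_lit 33984, nat_lit 33924] (nat_lit 0) [nat_lit 14248] false,
   Spec.mk (nat_lit 33944) (nat_lit 0) [nat_lit 47066, nat_lit 29570, nat_lit 35402, nat_lit 33458, nat_lit 34430, nat_lit 34106, nat_lit 33890, nat_lit 33950, nat_lit 33946] (nat_lit 1) [nat_lit 53626] false,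
   Spec.mk (nat_lit 33946) (nat_lit 0) [nat_lit 47068, nat_lit 29572, nat_lit 35404, nat_lit 33460, nat_lit 34432, nat_lit 34108, nat_lit 33892, nat_lit 33952, nat_lit 33944] (nat_lit 2) [nat_lit 53628, nat_lit 14264] false,
   Spec.mk (nat_lit 33950) (nat_lit 0) [nat_lit 47072, nat_lit 29576, nat_lit 35408, nat_lit 33464, nat_lit 34436, nat_lit 34112, nat_lit 33896, nat_lit 33968, nat_lit 33944, nat_lit 33952] (nat_lit 3) [nat_lit 53632] false,
   Spec.mk (nat_lit 33952) (nat_lit 0) [nat_lit 47074, nat_lit 29578, nat_lit 35410, nat_lit 33466, nat_lit 34438, nat_lit 34114, nat_lit 33898, nat_lit 33970, nat_lit 33946, nat_lit 33958, nat_lit 33950, nat_lit 33954] (nat_lit 2) [nat_lit 53634, nat_lit 14270] false,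
   Spec.mk (nat_lit 33954) (nat_lit 0) [nat_lit 47076, nat_lit 29580, nat_lit 35412, nat_lit 33468, nat_lit 34440, nat_lit 34116, nat_lit 33900, nat_lit 33972, nat_lit 33960, nat_lit 33952] (nat_lit 3) [nat_lit 14272] false,
   Spec.mk (nat_lit 33958) (nat_lit 0) [nat_lit 47080, nat_lit 29584, nat_lit 35416, nat_lit 33472, nat_lit 34444, nat_lit 34120, nat_lit 33904, nat_lit 33976, nat_lit 33952, nat_lit 33960] (nat_lit 4) [nat_lit 53640, nat_lit 14276] false,
   Spec.mk (nat_lit 33960) (nat_lit 0) [nat_lit 47082, nat_lit 29586, nat_lit 35418, nat_lit 33474, nat_lit 34446, nat_lit 34122, nat_lit 33906, nat_lit 33978, nat_lit 33954, nat_lit 33958] (nat_lit 3) [nat_lit 14278] false,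
   Spec.mk (nat_lit 33968) (nat_lit 0) [nat_lit 47090, nat_lit 29594, nat_lit 35426, nat_lit 33482, nat_lit 34454, nat_lit 34130, nat_lit 33914, nat_lit 33950, nat_lit 33970] (nat_lit 1) [nat_lit 53650] false,
   Spec.mk (nat_lit 33970) (nat_lit 0) [nat_lit 47092, nat_lit 29596, nat_lit 35428, nat_lit 33484, nat_lit 34456, nat_lit 34132, nat_lit 33916, nat_lit 33952, nat_lit 33976, nat_lit 33968, nat_lit 33972] (nat_lit 1) [nat_lit 53652, nat_lit 14288] false,
   Spec.mk (nat_lit 33972) (nat_lit 0) [nat_lit 47094, nat_lit 29598, nat_lit 35430, nat_lit 33486, nat_lit 34458, nat_lit 34134, nat_lit 33918, nat_lit 33954, nat_lit 33978, nat_lit 33970] (nat_lit 3) [nat_lit 14290] false,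
   Spec.mk (nat_lit 33976) (nat_lit 0) [nat_lit 47098, nat_lit 29602, nat_lit 35434, nat_lit 33490, nat_lit 34462, nat_lit 34138, nat_lit 33922, nat_lit 33958, nat_lit 33994, nat_lit 33970, nat_lit 33978] (nat_lit 1) [nat_lit 53658, nat_lit 14294] false,
   Spec.mk (nat_lit 33978) (nat_lit 0) [nat_lit 47100, nat_lit 29604, nat_lit 35436, nat_lit 33492, nat_lit 34464, nat_lit 34140, nat_lit 33924, nat_lit 33960, nat_lit 33996, nat_lit 33972, nat_lit 33984, nat_lit 33976] (nat_lit 1) [nat_lit 14296] false,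
   Spec.mk (nat_lit 33984) (nat_lit 0) [nat_lit 47106, nat_lit 29610, nat_lit 35442, nat_lit 33498, nat_lit 34470, nat_lit 34146, nat_lit 33930, nat_lit 34002, nat_lit 33978] (nat_lit 1) [nat_lit 14302] false,
   Spec.mk (nat_lit 33994) (nat_lit 0) [nat_lit 47116, nat_lit 29620, nat_lit 35452, nat_lit 33508, nat_lit 34480, nat_lit 34156, nat_lit 33976, nat_lit 33996] (nat_lit 0) [nat_lit 53676, nat_lit 14312] false,
   Spec.mk (nat_lit 33996) (nat_lit 0) [nat_lit 47118, nat_lit 29622, nat_lit 35454, nat_lit 33510, nat_lit 34482, nat_lit 34158, nat_lit 33978, nat_lit 34002, nat_lit 33994] (nat_lit 1) [nat_lit 14314] false,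
   Spec.mk (nat_lit 34002) (nat_lit 1) [nat_lit 47124, nat_lit 29628, nat_lit 35460, nat_lit 33516, nat_lit 34488, nat_lit 34164, nat_lit 33984, nat_lit 33996] (nat_lit 0) [nat_lit 14320] false,
   Spec.mk (nat_lit 34028) (nat_lit 0) [nat_lit 47150, nat_lit 29654, nat_lit 35486, nat_lit 34514, nat_lit 33866, nat_lit 34034] (nat_lit 0) [nat_lit 53710] false,
   Spec.mk (nat_lit 34034) (nat_lit 0) [nat_lit 47156, nat_lit 29660, nat_lit 35492, nat_lit 34520, nat_lit 33872, nat_lit 34052, nat_lit 34028, nat_lit 34040, nat_lit 34036] (nat_lit 1) [nat_lit 53716] false,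
   Spec.mk (nat_lit 34036) (nat_lit 0) [nat_lit 47158, nat_lit 29662, nat_lit 35494, nat_lit 34522, nat_lit 33874, nat_lit 34054, nat_lit 34042, nat_lit 34034] (nat_lit 1) [nat_lit 53718, nat_lit 14354] false,
   Spec.mk (nat_lit 34040) (nat_lit 0) [nat_lit 47162, nat_lit 29666, nat_lit 35498, nat_lit 34526, nat_lit 33878, nat_lit 34058, nat_lit 34034, nat_lit 34042] (nat_lit 4) [nat_lit 53722] false,
   Spec.mk (nat_lit 34042) (nat_lit 0) [nat_lit 47164, nat_lit 29668, nat_lit 35500, nat_lit 34528, nat_lit 33880, nat_lit 34060, nat_lit 34036, nat_lit 34040, nat_lit 34044] (nat_lit 2) [nat_lit 53724, nat_lit 14360] false,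
   Spec.mk (nat_lit 34044) (nat_lit 0) [nat_lit 47166, nat_lit 29670, nat_lit 35502, nat_lit 34530, nat_lit 33882, nat_lit 34062, nat_lit 34042] (nat_lit 2) [nat_lit 14362] false,
   Spec.mk (nat_lit 34052) (nat_lit 0) [nat_lit 47174, nat_lit 29678, nat_lit 35510, nat_lit 34538, nat_lit 33890, nat_lit 34106, nat_lit 34034, nat_lit 34058, nat_lit 34054] (nat_lit 2) [nat_lit 53734] false,
   Spec.mk (nat_lit 34054) (nat_lit 0) [nat_lit 47176, nat_lit 29680, nat_lit 35512, nat_lit 34540, nat_lit 33892, nat_lit 34108, nat_lit 34036, nat_lit 34060, nat_lit 34052] (nat_lit 3) [nat_lit 53736, nat_lit 14372] false,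
   Spec.mk (nat_lit 34058) (nat_lit 0) [nat_lit 47180, nat_lit 29684, nat_lit 35516, nat_lit 34544, nat_lit 33896, nat_lit 34112, nat_lit 34040, nat_lit 34076, nat_lit 34052, nat_lit 34060] (nat_lit 3) [nat_lit 53740] false,
   Spec.mk (nat_lit 34060) (nat_lit 0) [nat_lit 47182, nat_lit 29686, nat_lit 35518, nat_lit 34546, nat_lit 33898, nat_lit 34114, nat_lit 34042, nat_lit 34078, nat_lit 34054, nat_lit 34066, nat_lit 34058, nat_lit 34062] (nat_lit 2) [nat_lit 53742, nat_lit 14378] false,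
   Spec.mk (nat_lit 34062) (nat_lit 0) [nat_lit 47184, nat_lit 29688, nat_lit 35520, nat_lit 34548, nat_lit 33900, nat_lit 34116, nat_lit 34044, nat_lit 34080, nat_lit 34068, nat_lit 34060] (nat_lit 3) [nat_lit 14380] false,
   Spec.mk (nat_lit 34066) (nat_lit 0) [nat_lit 47188, nat_lit 29692, nat_lit 35524, nat_lit 34552, nat_lit 33904, nat_lit 34120, nat_lit 34084, nat_lit 34060, nat_lit 34068] (nat_lit 3) [nat_lit 53748, nat_lit 14384] false,
   Spec.mk (nat_lit 34068) (nat_lit 0) [nat_lit 47190, nat_lit 29694, nat_lit 35526, nat_lit 34554, nat_lit 33906, nat_lit 34122, nat_lit 34086, nat_lit 34062, nat_lit 34066] (nat_lit 2) [nat_lit 14386] false,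
   Spec.mk (nat_lit 34076) (nat_lit 0) [nat_lit 47198, nat_lit 29702, nat_lit 35534, nat_lit 34562, nat_lit 33914, nat_lit 34130, nat_lit 34058, nat_lit 34078] (nat_lit 4) [nat_lit 53758] false,
   Spec.mk (nat_lit 34078) (nat_lit 0) [nat_lit 47200, nat_lit 29704, nat_lit 35536, nat_lit 34564, nat_lit 33916, nat_lit 34132, nat_lit 34060, nat_lit 34084, nat_lit 34076, nat_lit 34080] (nat_lit 4) [nat_lit 53760, nat_lit 14396] false,
   Spec.mk (nat_lit 34080) (nat_lit 0) [nat_lit 47202, nat_lit 29706, nat_lit 35538, nat_lit 34566, nat_lit 33918, nat_lit 34134, nat_lit 34062, nat_lit 34086, nat_lit 34078] (nat_lit 6) [nat_lit 14398] false,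
   Spec.mk (nat_lit 34084) (nat_lit 0) [nat_lit 47206, nat_lit 29710, nat_lit 35542, nat_lit 34570, nat_lit 33922, nat_lit 34138, nat_lit 34066, nat_lit 34078, nat_lit 34086] (nat_lit 3) [nat_lit 53766, nat_lit 14402] false,
   Spec.mk (nat_lit 34086) (nat_lit 0) [nat_lit 47208, nat_lit 29712, nat_lit 35544, nat_lit 34572, nat_lit 33924, nat_lit 34140, nat_lit 34068, nat_lit 34080, nat_lit 34092, nat_lit 34084] (nat_lit 3) [nat_lit 14404] false,
   Spec.mk (nat_lit 34092) (nat_lit 0) [nat_lit 47214, nat_lit 29718, nat_lit 35550, nat_lit 34578, nat_lit 33930, nat_lit 34146, nat_lit 34086] (nat_lit 2) [nat_lit 14410] false,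
   Spec.mk (nat_lit 34106) (nat_lit 0) [nat_lit 47228, nat_lit 29732, nat_lit 35564, nat_lit 34592, nat_lit 33944, nat_lit 34052, nat_lit 34112, nat_lit 34108] (nat_lit 0) [nat_lit 53788] false,
   Spec.mk (nat_lit 34108) (nat_lit 0) [nat_lit 47230, nat_lit 29734, nat_lit 35566, nat_lit 34594, nat_lit 33946, nat_lit 34054, nat_lit 34114, nat_lit 34106] (nat_lit 1) [nat_lit 53790, nat_lit 14426] false,
   Spec.mk (nat_lit 34112) (nat_lit 0) [nat_lit 47234, nat_lit 29738, nat_lit 35570, nat_lit 34598, nat_lit 33950, nat_lit 34058, nat_lit 34130, nat_lit 34106, nat_lit 34114] (nat_lit 2) [nat_lit 53794] false,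
   Spec.mk (nat_lit 34114) (nat_lit 0) [nat_lit 47236, nat_lit 29740, nat_lit 35572, nat_lit 34600, nat_lit 33952, nat_lit 34060, nat_lit 34132, nat_lit 34108, nat_lit 34120, nat_lit 34112, nat_lit 34116] (nat_lit 1) [nat_lit 53796, nat_lit 14432] false,
   Spec.mk (nat_lit 34116) (nat_lit 0) [nat_lit 47238, nat_lit 29742, nat_lit 35574, nat_lit 34602, nat_lit 33954, nat_lit 34062, nat_lit 34134, nat_lit 34122, nat_lit 34114] (nat_lit 2) [nat_lit 14434] false,
   Spec.mk (nat_lit 34120) (nat_lit 0) [nat_lit 47242, nat_lit 29746, nat_lit 35578, nat_lit 34606, nat_lit 33958, nat_lit 34066, nat_lit 34138, nat_lit 34114, nat_lit 34122] (nat_lit 3) [nat_lit 53802, nat_lit 14438] false,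
   Spec.mk (nat_lit 34122) (nat_lit 0) [nat_lit 47244, nat_lit 29748, nat_lit 35580, nat_lit 34608, nat_lit 33960, nat_lit 34068, nat_lit 34140, nat_lit 34116, nat_lit 34120] (nat_lit 2) [nat_lit 14440] false,
   Spec.mk (nat_lit 34130) (nat_lit 0) [nat_lit 47252, nat_lit 29756, nat_lit 35588, nat_lit 34616, nat_lit 33968, nat_lit 34076, nat_lit 34184, nat_lit 34112, nat_lit 34132] (nat_lit 1) [nat_lit 53812] false,
   Spec.mk (nat_lit 34132) (nat_lit 0) [nat_lit 47254, nat_lit 29758, nat_lit 35590, nat_lit 34618, nat_lit 33970, nat_lit 34078, nat_lit 34186, nat_lit 34114, nat_lit 34138, nat_lit 34130, nat_lit 34134] (nat_lit 1) [nat_lit 53814, nat_lit 14450] false]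

noncomputable def sp88 : List Spec :=
  [Spec.mk (nat_lit 34134) (nat_lit 0) [nat_lit 47256, nat_lit 29760, nat_lit 35592, nat_lit 34620, nat_lit 33972, nat_lit 34080, nat_lit 34188, nat_lit 34116, nat_lit 34140, nat_lit 34132] (nat_lit 3) [nat_lit 14452] false,
   Spec.mk (nat_lit 34138) (nat_lit 0) [nat_lit 47260, nat_lit 29764, nat_lit 35596, nat_lit 34624, nat_lit 33976, nat_lit 34084, nat_lit 34192, nat_lit 34120, nat_lit 34156, nat_lit 34132, nat_lit 34140] (nat_lit 1) [nat_lit 53820, nat_lit 14456] false,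
   Spec.mk (nat_lit 34140) (nat_lit 0) [nat_lit 47262, nat_lit 29766, nat_lit 35598, nat_lit 34626, nat_lit 33978, nat_lit 34086, nat_lit 34194, nat_lit 34122, nat_lit 34158, nat_lit 34134, nat_lit 34146, nat_lit 34138] (nat_lit 1) [nat_lit 14458] false,
   Spec.mk (nat_lit 34146) (nat_lit 0) [nat_lit 47268, nat_lit 29772, nat_lit 35604, nat_lit 34632, nat_lit 33984, nat_lit 34092, nat_lit 34200, nat_lit 34164, nat_lit 34140] (nat_lit 1) [nat_lit 14464] false,
   Spec.mk (nat_lit 34156) (nat_lit 0) [nat_lit 47278, nat_lit 29782, nat_lit 35614, nat_lit 34642, nat_lit 33994, nat_lit 34210, nat_lit 34138, nat_lit 34158] (nat_lit 1) [nat_lit 53838, nat_lit 14474] false,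
   Spec.mk (nat_lit 34158) (nat_lit 0) [nat_lit 47280, nat_lit 29784, nat_lit 35616, nat_lit 34644, nat_lit 33996, nat_lit 34212, nat_lit 34140, nat_lit 34164, nat_lit 34156] (nat_lit 2) [nat_lit 14476] false,
   Spec.mk (nat_lit 34164) (nat_lit 0) [nat_lit 47286, nat_lit 29790, nat_lit 35622, nat_lit 34650, nat_lit 34002, nat_lit 34218, nat_lit 34146, nat_lit 34158] (nat_lit 0) [nat_lit 14482] false,
   Spec.mk (nat_lit 34184) (nat_lit 0) [nat_lit 47306, nat_lit 29810, nat_lit 35642, nat_lit 34670, nat_lit 34130, nat_lit 34186] (nat_lit 0) [nat_lit 53866] false,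
   Spec.mk (nat_lit 34186) (nat_lit 0) [nat_lit 47308, nat_lit 29812, nat_lit 35644, nat_lit 34672, nat_lit 34132, nat_lit 34192, nat_lit 34184, nat_lit 34188] (nat_lit 0) [nat_lit 53868, nat_lit 14504] false,
   Spec.mk (nat_lit 34188) (nat_lit 0) [nat_lit 47310, nat_lit 29814, nat_lit 35646, nat_lit 34674, nat_lit 34134, nat_lit 34194, nat_lit 34186] (nat_lit 2) [nat_lit 14506] false,
   Spec.mk (nat_lit 34192) (nat_lit 0) [nat_lit 47314, nat_lit 29818, nat_lit 35650, nat_lit 34678, nat_lit 34138, nat_lit 34210, nat_lit 34186, nat_lit 34194] (nat_lit 1) [nat_lit 53874, nat_lit 14510] false,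
   Spec.mk (nat_lit 34194) (nat_lit 0) [nat_lit 47316, nat_lit 29820, nat_lit 35652, nat_lit 34680, nat_lit 34140, nat_lit 34212, nat_lit 34188, nat_lit 34200, nat_lit 34192] (nat_lit 1) [nat_lit 14512] false,
   Spec.mk (nat_lit 34200) (nat_lit 0) [nat_lit 47322, nat_lit 29826, nat_lit 35658, nat_lit 34686, nat_lit 34146, nat_lit 34218, nat_lit 34194] (nat_lit 2) [nat_lit 14518] false,
   Spec.mk (nat_lit 34210) (nat_lit 1) [nat_lit 47332, nat_lit 29836, nat_lit 35668, nat_lit 34696, nat_lit 34156, nat_lit 34192, nat_lit 34212] (nat_lit 0) [nat_lit 53892, nat_lit 14528] false,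
   Spec.mk (nat_lit 34212) (nat_lit 0) [nat_lit 47334, nat_lit 29838, nat_lit 35670, nat_lit 34698, nat_lit 34158, nat_lit 34194, nat_lit 34218, nat_lit 34210] (nat_lit 0) [nat_lit 14530] false,
   Spec.mk (nat_lit 34218) (nat_lit 1) [nat_lit 47340, nat_lit 29844, nat_lit 35676, nat_lit 34704, nat_lit 34164, nat_lit 34200, nat_lit 34236, nat_lit 34212] (nat_lit 0) [nat_lit 14536] false,
   Spec.mk (nat_lit 34236) (nat_lit 2) [nat_lit 47358, nat_lit 29862, nat_lit 35694, nat_lit 34722, nat_lit 34218] (nat_lit 0) [nat_lit 14554] false,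
   Spec.mk (nat_lit 34280) (nat_lit 0) [nat_lit 47402, nat_lit 29906, nat_lit 35738, nat_lit 33794, nat_lit 34298, nat_lit 34286] (nat_lit 0) [nat_lit 53962] false,
   Spec.mk (nat_lit 34286) (nat_lit 0) [nat_lit 47408, nat_lit 29912, nat_lit 35744, nat_lit 33800, nat_lit 34304, nat_lit 34280, nat_lit 34288] (nat_lit 2) [nat_lit 53968] false,
   Spec.mk (nat_lit 34288) (nat_lit 0) [nat_lit 47410, nat_lit 29914, nat_lit 35746, nat_lit 33802, nat_lit 34306, nat_lit 34286] (nat_lit 1) [nat_lit 53970, nat_lit 14606] false,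
   Spec.mk (nat_lit 34298) (nat_lit 0) [nat_lit 47420, nat_lit 29924, nat_lit 35756, nat_lit 33812, nat_lit 34352, nat_lit 34280, nat_lit 34304] (nat_lit 2) [nat_lit 53980] false,
   Spec.mk (nat_lit 34304) (nat_lit 0) [nat_lit 47426, nat_lit 29930, nat_lit 35762, nat_lit 33818, nat_lit 34358, nat_lit 34286, nat_lit 34322, nat_lit 34298, nat_lit 34310, nat_lit 34306] (nat_lit 2) [nat_lit 53986] false,
   Spec.mk (nat_lit 34306) (nat_lit 0) [nat_lit 47428, nat_lit 29932, nat_lit 35764, nat_lit 33820, nat_lit 34360, nat_lit 34288, nat_lit 34324, nat_lit 34312, nat_lit 34304] (nat_lit 2) [nat_lit 53988, nat_lit 14624] false,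
   Spec.mk (nat_lit 34310) (nat_lit 0) [nat_lit 47432, nat_lit 29936, nat_lit 35768, nat_lit 33824, nat_lit 34364, nat_lit 34328, nat_lit 34304, nat_lit 34312] (nat_lit 4) [nat_lit 53992] false,
   Spec.mk (nat_lit 34312) (nat_lit 0) [nat_lit 47434, nat_lit 29938, nat_lit 35770, nat_lit 33826, nat_lit 34366, nat_lit 34330, nat_lit 34306, nat_lit 34310, nat_lit 34314] (nat_lit 2) [nat_lit 53994, nat_lit 14630] false,
   Spec.mk (nat_lit 34314) (nat_lit 0) [nat_lit 47436, nat_lit 29940, nat_lit 35772, nat_lit 33828, nat_lit 34368, nat_lit 34332, nat_lit 34312] (nat_lit 2) [nat_lit 14632] false,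
   Spec.mk (nat_lit 34322) (nat_lit 0) [nat_lit 47444, nat_lit 29948, nat_lit 35780, nat_lit 33836, nat_lit 34376, nat_lit 34304, nat_lit 34328, nat_lit 34324] (nat_lit 4) [nat_lit 54004] false,
   Spec.mk (nat_lit 34324) (nat_lit 0) [nat_lit 47446, nat_lit 29950, nat_lit 35782, nat_lit 33838, nat_lit 34378, nat_lit 34306, nat_lit 34330, nat_lit 34322] (nat_lit 5) [nat_lit 54006, nat_lit 14642] false,
   Spec.mk (nat_lit 34328) (nat_lit 0) [nat_lit 47450, nat_lit 29954, nat_lit 35786, nat_lit 33842, nat_lit 34382, nat_lit 34310, nat_lit 34322, nat_lit 34330] (nat_lit 4) [nat_lit 54010] false,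
   Spec.mk (nat_lit 34330) (nat_lit 0) [nat_lit 47452, nat_lit 29956, nat_lit 35788, nat_lit 33844, nat_lit 34384, nat_lit 34312, nat_lit 34324, nat_lit 34336, nat_lit 34328, nat_lit 34332] (nat_lit 3) [nat_lit 54012, nat_lit 14648] false,
   Spec.mk (nat_lit 34332) (nat_lit 0) [nat_lit 47454, nat_lit 29958, nat_lit 35790, nat_lit 33846, nat_lit 34386, nat_lit 34314, nat_lit 34338, nat_lit 34330] (nat_lit 4) [nat_lit 14650] false,
   Spec.mk (nat_lit 34336) (nat_lit 0) [nat_lit 47458, nat_lit 29962, nat_lit 35794, nat_lit 33850, nat_lit 34390, nat_lit 34330, nat_lit 34338] (nat_lit 3) [nat_lit 54018, nat_lit 14654] false,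
   Spec.mk (nat_lit 34338) (nat_lit 0) [nat_lit 47460, nat_lit 29964, nat_lit 35796, nat_lit 33852, nat_lit 34392, nat_lit 34332, nat_lit 34336] (nat_lit 2) [nat_lit 14656] false,
   Spec.mk (nat_lit 34352) (nat_lit 0) [nat_lit 47474, nat_lit 29978, nat_lit 35810, nat_lit 33866, nat_lit 34514, nat_lit 34298, nat_lit 34358] (nat_lit 2) [nat_lit 54034] false,
   Spec.mk (nat_lit 34358) (nat_lit 0) [nat_lit 47480, nat_lit 29984, nat_lit 35816, nat_lit 33872, nat_lit 34520, nat_lit 34304, nat_lit 34376, nat_lit 34352, nat_lit 34364, nat_lit 34360] (nat_lit 3) [nat_lit 54040] false,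
   Spec.mk (nat_lit 34360) (nat_lit 0) [nat_lit 47482, nat_lit 29986, nat_lit 35818, nat_lit 33874, nat_lit 34522, nat_lit 34306, nat_lit 34378, nat_lit 34366, nat_lit 34358] (nat_lit 3) [nat_lit 54042, nat_lit 14678] false,
   Spec.mk (nat_lit 34364) (nat_lit 0) [nat_lit 47486, nat_lit 29990, nat_lit 35822, nat_lit 33878, nat_lit 34526, nat_lit 34310, nat_lit 34382, nat_lit 34358, nat_lit 34366] (nat_lit 6) [nat_lit 54046] false,
   Spec.mk (nat_lit 34366) (nat_lit 0) [nat_lit 47488, nat_lit 29992, nat_lit 35824, nat_lit 33880, nat_lit 34528, nat_lit 34312, nat_lit 34384, nat_lit 34360, nat_lit 34364, nat_lit 34368] (nat_lit 4) [nat_lit 54048, nat_lit 14684] false,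
   Spec.mk (nat_lit 34368) (nat_lit 0) [nat_lit 47490, nat_lit 29994, nat_lit 35826, nat_lit 33882, nat_lit 34530, nat_lit 34314, nat_lit 34386, nat_lit 34366] (nat_lit 4) [nat_lit 14686] false,
   Spec.mk (nat_lit 34376) (nat_lit 0) [nat_lit 47498, nat_lit 30002, nat_lit 35834, nat_lit 33890, nat_lit 34538, nat_lit 34322, nat_lit 34430, nat_lit 34358, nat_lit 34382, nat_lit 34378] (nat_lit 3) [nat_lit 54058] false,
   Spec.mk (nat_lit 34378) (nat_lit 0) [nat_lit 47500, nat_lit 30004, nat_lit 35836, nat_lit 33892, nat_lit 34540, nat_lit 34324, nat_lit 34432, nat_lit 34360, nat_lit 34384, nat_lit 34376] (nat_lit 4) [nat_lit 54060, nat_lit 14696] false,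
   Spec.mk (nat_lit 34382) (nat_lit 0) [nat_lit 47504, nat_lit 30008, nat_lit 35840, nat_lit 33896, nat_lit 34544, nat_lit 34328, nat_lit 34436, nat_lit 34364, nat_lit 34400, nat_lit 34376, nat_lit 34384] (nat_lit 4) [nat_lit 54064] false,
   Spec.mk (nat_lit 34384) (nat_lit 0) [nat_lit 47506, nat_lit 30010, nat_lit 35842, nat_lit 33898, nat_lit 34546, nat_lit 34330, nat_lit 34438, nat_lit 34366, nat_lit 34402, nat_lit 34378, nat_lit 34390, nat_lit 34382, nat_lit 34386] (nat_lit 3) [nat_lit 54066, nat_lit 14702] false,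
   Spec.mk (nat_lit 34386) (nat_lit 0) [nat_lit 47508, nat_lit 30012, nat_lit 35844, nat_lit 33900, nat_lit 34548, nat_lit 34332, nat_lit 34440, nat_lit 34368, nat_lit 34404, nat_lit 34392, nat_lit 34384] (nat_lit 4) [nat_lit 14704] false,
   Spec.mk (nat_lit 34390) (nat_lit 0) [nat_lit 47512, nat_lit 30016, nat_lit 35848, nat_lit 33904, nat_lit 34552, nat_lit 34336, nat_lit 34444, nat_lit 34408, nat_lit 34384, nat_lit 34392] (nat_lit 4) [nat_lit 54072, nat_lit 14708] false,
   Spec.mk (nat_lit 34392) (nat_lit 0) [nat_lit 47514, nat_lit 30018, nat_lit 35850, nat_lit 33906, nat_lit 34554, nat_lit 34338, nat_lit 34446, nat_lit 34410, nat_lit 34386, nat_lit 34390] (nat_lit 3) [nat_lit 14710] false,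
   Spec.mk (nat_lit 34400) (nat_lit 0) [nat_lit 47522, nat_lit 30026, nat_lit 35858, nat_lit 33914, nat_lit 34562, nat_lit 34454, nat_lit 34382, nat_lit 34402] (nat_lit 4) [nat_lit 54082] false,
   Spec.mk (nat_lit 34402) (nat_lit 0) [nat_lit 47524, nat_lit 30028, nat_lit 35860, nat_lit 33916, nat_lit 34564, nat_lit 34456, nat_lit 34384, nat_lit 34408, nat_lit 34400, nat_lit 34404] (nat_lit 4) [nat_lit 54084, nat_lit 14720] false,
   Spec.mk (nat_lit 34404) (nat_lit 0) [nat_lit 47526, nat_lit 30030, nat_lit 35862, nat_lit 33918, nat_lit 34566, nat_lit 34458, nat_lit 34386, nat_lit 34410, nat_lit 34402] (nat_lit 6) [nat_lit 14722] false,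
   Spec.mk (nat_lit 34408) (nat_lit 0) [nat_lit 47530, nat_lit 30034, nat_lit 35866, nat_lit 33922, nat_lit 34570, nat_lit 34462, nat_lit 34390, nat_lit 34402, nat_lit 34410] (nat_lit 3) [nat_lit 54090, nat_lit 14726] false,
   Spec.mk (nat_lit 34410) (nat_lit 0) [nat_lit 47532, nat_lit 30036, nat_lit 35868, nat_lit 33924, nat_lit 34572, nat_lit 34464, nat_lit 34392, nat_lit 34404, nat_lit 34416, nat_lit 34408] (nat_lit 3) [nat_lit 14728] false,
   Spec.mk (nat_lit 34416) (nat_lit 0) [nat_lit 47538, nat_lit 30042, nat_lit 35874, nat_lit 33930, nat_lit 34578, nat_lit 34470, nat_lit 34410] (nat_lit 2) [nat_lit 14734] false,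
   Spec.mk (nat_lit 34430) (nat_lit 0) [nat_lit 47552, nat_lit 30056, nat_lit 35888, nat_lit 33944, nat_lit 34592, nat_lit 34376, nat_lit 34436, nat_lit 34432] (nat_lit 4) [nat_lit 54112] false,
   Spec.mk (nat_lit 34432) (nat_lit 0) [nat_lit 47554, nat_lit 30058, nat_lit 35890, nat_lit 33946, nat_lit 34594, nat_lit 34378, nat_lit 34438, nat_lit 34430] (nat_lit 5) [nat_lit 54114, nat_lit 14750] false,
   Spec.mk (nat_lit 34436) (nat_lit 0) [nat_lit 47558, nat_lit 30062, nat_lit 35894, nat_lit 33950, nat_lit 34598, nat_lit 34382, nat_lit 34454, nat_lit 34430, nat_lit 34438] (nat_lit 6) [nat_lit 54118] false,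
   Spec.mk (nat_lit 34438) (nat_lit 0) [nat_lit 47560, nat_lit 30064, nat_lit 35896, nat_lit 33952, nat_lit 34600, nat_lit 34384, nat_lit 34456, nat_lit 34432, nat_lit 34444, nat_lit 34436, nat_lit 34440] (nat_lit 5) [nat_lit 54120, nat_lit 14756] false,
   Spec.mk (nat_lit 34440) (nat_lit 0) [nat_lit 47562, nat_lit 30066, nat_lit 35898, nat_lit 33954, nat_lit 34602, nat_lit 34386, nat_lit 34458, nat_lit 34446, nat_lit 34438] (nat_lit 6) [nat_lit 14758] false,
   Spec.mk (nat_lit 34444) (nat_lit 0) [nat_lit 47566, nat_lit 30070, nat_lit 35902, nat_lit 33958, nat_lit 34606, nat_lit 34390, nat_lit 34462, nat_lit 34438, nat_lit 34446] (nat_lit 7) [nat_lit 54126, nat_lit 14762] false,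
   Spec.mk (nat_lit 34446) (nat_lit 0) [nat_lit 47568, nat_lit 30072, nat_lit 35904, nat_lit 33960, nat_lit 34608, nat_lit 34392, nat_lit 34464, nat_lit 34440, nat_lit 34444] (nat_lit 6) [nat_lit 14764] false,
   Spec.mk (nat_lit 34454) (nat_lit 0) [nat_lit 47576, nat_lit 30080, nat_lit 35912, nat_lit 33968, nat_lit 34616, nat_lit 34400, nat_lit 34436, nat_lit 34456] (nat_lit 4) [nat_lit 54136] false]

noncomputable def sp89 : List Spec :=
  [Spec.mk (nat_lit 34456) (nat_lit 0) [nat_lit 47578, nat_lit 30082, nat_lit 35914, nat_lit 33970, nat_lit 34618, nat_lit 34402, nat_lit 34438, nat_lit 34462, nat_lit 34454, nat_lit 34458] (nat_lit 4) [nat_lit 54138, nat_lit 14774] false,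
   Spec.mk (nat_lit 34458) (nat_lit 0) [nat_lit 47580, nat_lit 30084, nat_lit 35916, nat_lit 33972, nat_lit 34620, nat_lit 34404, nat_lit 34440, nat_lit 34464, nat_lit 34456] (nat_lit 6) [nat_lit 14776] false,
   Spec.mk (nat_lit 34462) (nat_lit 0) [nat_lit 47584, nat_lit 30088, nat_lit 35920, nat_lit 33976, nat_lit 34624, nat_lit 34408, nat_lit 34444, nat_lit 34480, nat_lit 34456, nat_lit 34464] (nat_lit 4) [nat_lit 54144, nat_lit 14780] false,
   Spec.mk (nat_lit 34464) (nat_lit 0) [nat_lit 47586, nat_lit 30090, nat_lit 35922, nat_lit 33978, nat_lit 34626, nat_lit 34410, nat_lit 34446, nat_lit 34482, nat_lit 34458, nat_lit 34470, nat_lit 34462] (nat_lit 4) [nat_lit 14782] false,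
   Spec.mk (nat_lit 34470) (nat_lit 0) [nat_lit 47592, nat_lit 30096, nat_lit 35928, nat_lit 33984, nat_lit 34632, nat_lit 34416, nat_lit 34488, nat_lit 34464] (nat_lit 4) [nat_lit 14788] false,
   Spec.mk (nat_lit 34480) (nat_lit 0) [nat_lit 47602, nat_lit 30106, nat_lit 35938, nat_lit 33994, nat_lit 34642, nat_lit 34462, nat_lit 34482] (nat_lit 3) [nat_lit 54162, nat_lit 14798] false,
   Spec.mk (nat_lit 34482) (nat_lit 0) [nat_lit 47604, nat_lit 30108, nat_lit 35940, nat_lit 33996, nat_lit 34644, nat_lit 34464, nat_lit 34488, nat_lit 34480] (nat_lit 4) [nat_lit 14800] false,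
   Spec.mk (nat_lit 34488) (nat_lit 0) [nat_lit 47610, nat_lit 30114, nat_lit 35946, nat_lit 34002, nat_lit 34650, nat_lit 34470, nat_lit 34482] (nat_lit 2) [nat_lit 14806] false,
   Spec.mk (nat_lit 34514) (nat_lit 0) [nat_lit 47636, nat_lit 30140, nat_lit 35972, nat_lit 34028, nat_lit 34352, nat_lit 34520] (nat_lit 0) [nat_lit 54196] false,
   Spec.mk (nat_lit 34520) (nat_lit 0) [nat_lit 47642, nat_lit 30146, nat_lit 35978, nat_lit 34034, nat_lit 34358, nat_lit 34538, nat_lit 34514, nat_lit 34526, nat_lit 34522] (nat_lit 1) [nat_lit 54202] false,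
   Spec.mk (nat_lit 34522) (nat_lit 0) [nat_lit 47644, nat_lit 30148, nat_lit 35980, nat_lit 34036, nat_lit 34360, nat_lit 34540, nat_lit 34528, nat_lit 34520] (nat_lit 1) [nat_lit 54204, nat_lit 14840] false,
   Spec.mk (nat_lit 34526) (nat_lit 0) [nat_lit 47648, nat_lit 30152, nat_lit 35984, nat_lit 34040, nat_lit 34364, nat_lit 34544, nat_lit 34520, nat_lit 34528] (nat_lit 4) [nat_lit 54208] false,
   Spec.mk (nat_lit 34528) (nat_lit 0) [nat_lit 47650, nat_lit 30154, nat_lit 35986, nat_lit 34042, nat_lit 34366, nat_lit 34546, nat_lit 34522, nat_lit 34526, nat_lit 34530] (nat_lit 2) [nat_lit 54210, nat_lit 14846] false,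
   Spec.mk (nat_lit 34530) (nat_lit 0) [nat_lit 47652, nat_lit 30156, nat_lit 35988, nat_lit 34044, nat_lit 34368, nat_lit 34548, nat_lit 34528] (nat_lit 2) [nat_lit 14848] false,
   Spec.mk (nat_lit 34538) (nat_lit 0) [nat_lit 47660, nat_lit 30164, nat_lit 35996, nat_lit 34052, nat_lit 34376, nat_lit 34592, nat_lit 34520, nat_lit 34544, nat_lit 34540] (nat_lit 2) [nat_lit 54220] false,
   Spec.mk (nat_lit 34540) (nat_lit 0) [nat_lit 47662, nat_lit 30166, nat_lit 35998, nat_lit 34054, nat_lit 34378, nat_lit 34594, nat_lit 34522, nat_lit 34546, nat_lit 34538] (nat_lit 3) [nat_lit 54222, nat_lit 14858] false,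
   Spec.mk (nat_lit 34544) (nat_lit 0) [nat_lit 47666, nat_lit 30170, nat_lit 36002, nat_lit 34058, nat_lit 34382, nat_lit 34598, nat_lit 34526, nat_lit 34562, nat_lit 34538, nat_lit 34546] (nat_lit 3) [nat_lit 54226] false,
   Spec.mk (nat_lit 34546) (nat_lit 0) [nat_lit 47668, nat_lit 30172, nat_lit 36004, nat_lit 34060, nat_lit 34384, nat_lit 34600, nat_lit 34528, nat_lit 34564, nat_lit 34540, nat_lit 34552, nat_lit 34544, nat_lit 34548] (nat_lit 2) [nat_lit 54228, nat_lit 14864] false,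
   Spec.mk (nat_lit 34548) (nat_lit 0) [nat_lit 47670, nat_lit 30174, nat_lit 36006, nat_lit 34062, nat_lit 34386, nat_lit 34602, nat_lit 34530, nat_lit 34566, nat_lit 34554, nat_lit 34546] (nat_lit 3) [nat_lit 14866] false,
   Spec.mk (nat_lit 34552) (nat_lit 0) [nat_lit 47674, nat_lit 30178, nat_lit 36010, nat_lit 34066, nat_lit 34390, nat_lit 34606, nat_lit 34570, nat_lit 34546, nat_lit 34554] (nat_lit 3) [nat_lit 54234, nat_lit 14870] false,
   Spec.mk (nat_lit 34554) (nat_lit 0) [nat_lit 47676, nat_lit 30180, nat_lit 36012, nat_lit 34068, nat_lit 34392, nat_lit 34608, nat_lit 34572, nat_lit 34548, nat_lit 34552] (nat_lit 2) [nat_lit 14872] false,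
   Spec.mk (nat_lit 34562) (nat_lit 0) [nat_lit 47684, nat_lit 30188, nat_lit 36020, nat_lit 34076, nat_lit 34400, nat_lit 34616, nat_lit 34544, nat_lit 34564] (nat_lit 4) [nat_lit 54244] false,
   Spec.mk (nat_lit 34564) (nat_lit 0) [nat_lit 47686, nat_lit 30190, nat_lit 36022, nat_lit 34078, nat_lit 34402, nat_lit 34618, nat_lit 34546, nat_lit 34570, nat_lit 34562, nat_lit 34566] (nat_lit 4) [nat_lit 54246, nat_lit 14882] false,
   Spec.mk (nat_lit 34566) (nat_lit 0) [nat_lit 47688, nat_lit 30192, nat_lit 36024, nat_lit 34080, nat_lit 34404, nat_lit 34620, nat_lit 34548, nat_lit 34572, nat_lit 34564] (nat_lit 6) [nat_lit 14884] false,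
   Spec.mk (nat_lit 34570) (nat_lit 0) [nat_lit 47692, nat_lit 30196, nat_lit 36028, nat_lit 34084, nat_lit 34408, nat_lit 34624, nat_lit 34552, nat_lit 34564, nat_lit 34572] (nat_lit 3) [nat_lit 54252, nat_lit 14888] false,
   Spec.mk (nat_lit 34572) (nat_lit 0) [nat_lit 47694, nat_lit 30198, nat_lit 36030, nat_lit 34086, nat_lit 34410, nat_lit 34626, nat_lit 34554, nat_lit 34566, nat_lit 34578, nat_lit 34570] (nat_lit 3) [nat_lit 14890] false,
   Spec.mk (nat_lit 34578) (nat_lit 0) [nat_lit 47700, nat_lit 30204, nat_lit 36036, nat_lit 34092, nat_lit 34416, nat_lit 34632, nat_lit 34572] (nat_lit 2) [nat_lit 14896] false,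
   Spec.mk (nat_lit 34592) (nat_lit 0) [nat_lit 47714, nat_lit 30218, nat_lit 36050, nat_lit 34106, nat_lit 34430, nat_lit 34754, nat_lit 34538, nat_lit 34598, nat_lit 34594] (nat_lit 1) [nat_lit 54274] false,
   Spec.mk (nat_lit 34594) (nat_lit 0) [nat_lit 47716, nat_lit 30220, nat_lit 36052, nat_lit 34108, nat_lit 34432, nat_lit 34756, nat_lit 34540, nat_lit 34600, nat_lit 34592] (nat_lit 2) [nat_lit 54276, nat_lit 14912] false,
   Spec.mk (nat_lit 34598) (nat_lit 0) [nat_lit 47720, nat_lit 30224, nat_lit 36056, nat_lit 34112, nat_lit 34436, nat_lit 34760, nat_lit 34544, nat_lit 34616, nat_lit 34592, nat_lit 34600] (nat_lit 3) [nat_lit 54280] false,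
   Spec.mk (nat_lit 34600) (nat_lit 0) [nat_lit 47722, nat_lit 30226, nat_lit 36058, nat_lit 34114, nat_lit 34438, nat_lit 34762, nat_lit 34546, nat_lit 34618, nat_lit 34594, nat_lit 34606, nat_lit 34598, nat_lit 34602] (nat_lit 2) [nat_lit 54282, nat_lit 14918] false,
   Spec.mk (nat_lit 34602) (nat_lit 0) [nat_lit 47724, nat_lit 30228, nat_lit 36060, nat_lit 34116, nat_lit 34440, nat_lit 34764, nat_lit 34548, nat_lit 34620, nat_lit 34608, nat_lit 34600] (nat_lit 3) [nat_lit 14920] false,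
   Spec.mk (nat_lit 34606) (nat_lit 0) [nat_lit 47728, nat_lit 30232, nat_lit 36064, nat_lit 34120, nat_lit 34444, nat_lit 34768, nat_lit 34552, nat_lit 34624, nat_lit 34600, nat_lit 34608] (nat_lit 4) [nat_lit 54288, nat_lit 14924] false,
   Spec.mk (nat_lit 34608) (nat_lit 0) [nat_lit 47730, nat_lit 30234, nat_lit 36066, nat_lit 34122, nat_lit 34446, nat_lit 34770, nat_lit 34554, nat_lit 34626, nat_lit 34602, nat_lit 34606] (nat_lit 3) [nat_lit 14926] false,
   Spec.mk (nat_lit 34616) (nat_lit 0) [nat_lit 47738, nat_lit 30242, nat_lit 36074, nat_lit 34130, nat_lit 34454, nat_lit 34778, nat_lit 34562, nat_lit 34670, nat_lit 34598, nat_lit 34618] (nat_lit 2) [nat_lit 54298] false,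
   Spec.mk (nat_lit 34618) (nat_lit 0) [nat_lit 47740, nat_lit 30244, nat_lit 36076, nat_lit 34132, nat_lit 34456, nat_lit 34780, nat_lit 34564, nat_lit 34672, nat_lit 34600, nat_lit 34624, nat_lit 34616, nat_lit 34620] (nat_lit 2) [nat_lit 54300, nat_lit 14936] false,
   Spec.mk (nat_lit 34620) (nat_lit 0) [nat_lit 47742, nat_lit 30246, nat_lit 36078, nat_lit 34134, nat_lit 34458, nat_lit 34782, nat_lit 34566, nat_lit 34674, nat_lit 34602, nat_lit 34626, nat_lit 34618] (nat_lit 4) [nat_lit 14938] false,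
   Spec.mk (nat_lit 34624) (nat_lit 0) [nat_lit 47746, nat_lit 30250, nat_lit 36082, nat_lit 34138, nat_lit 34462, nat_lit 34786, nat_lit 34570, nat_lit 34678, nat_lit 34606, nat_lit 34642, nat_lit 34618, nat_lit 34626] (nat_lit 2) [nat_lit 54306, nat_lit 14942] false,
   Spec.mk (nat_lit 34626) (nat_lit 0) [nat_lit 47748, nat_lit 30252, nat_lit 36084, nat_lit 34140, nat_lit 34464, nat_lit 34788, nat_lit 34572, nat_lit 34680, nat_lit 34608, nat_lit 34644, nat_lit 34620, nat_lit 34632, nat_lit 34624] (nat_lit 2) [nat_lit 14944] false,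
   Spec.mk (nat_lit 34632) (nat_lit 0) [nat_lit 47754, nat_lit 30258, nat_lit 36090, nat_lit 34146, nat_lit 34470, nat_lit 34794, nat_lit 34578, nat_lit 34686, nat_lit 34650, nat_lit 34626] (nat_lit 2) [nat_lit 14950] false,
   Spec.mk (nat_lit 34642) (nat_lit 0) [nat_lit 47764, nat_lit 30268, nat_lit 36100, nat_lit 34156, nat_lit 34480, nat_lit 34804, nat_lit 34696, nat_lit 34624, nat_lit 34644] (nat_lit 2) [nat_lit 54324, nat_lit 14960] false,
   Spec.mk (nat_lit 34644) (nat_lit 0) [nat_lit 47766, nat_lit 30270, nat_lit 36102, nat_lit 34158, nat_lit 34482, nat_lit 34806, nat_lit 34698, nat_lit 34626, nat_lit 34650, nat_lit 34642] (nat_lit 3) [nat_lit 14962] false,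
   Spec.mk (nat_lit 34650) (nat_lit 0) [nat_lit 47772, nat_lit 30276, nat_lit 36108, nat_lit 34164, nat_lit 34488, nat_lit 34812, nat_lit 34704, nat_lit 34632, nat_lit 34644] (nat_lit 1) [nat_lit 14968] false,
   Spec.mk (nat_lit 34670) (nat_lit 0) [nat_lit 47792, nat_lit 30296, nat_lit 36128, nat_lit 34184, nat_lit 34832, nat_lit 34616, nat_lit 34672] (nat_lit 2) [nat_lit 54352] false,
   Spec.mk (nat_lit 34672) (nat_lit 0) [nat_lit 47794, nat_lit 30298, nat_lit 36130, nat_lit 34186, nat_lit 34834, nat_lit 34618, nat_lit 34678, nat_lit 34670, nat_lit 34674] (nat_lit 2) [nat_lit 54354, nat_lit 14990] false,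
   Spec.mk (nat_lit 34674) (nat_lit 0) [nat_lit 47796, nat_lit 30300, nat_lit 36132, nat_lit 34188, nat_lit 34836, nat_lit 34620, nat_lit 34680, nat_lit 34672] (nat_lit 4) [nat_lit 14992] false,
   Spec.mk (nat_lit 34678) (nat_lit 0) [nat_lit 47800, nat_lit 30304, nat_lit 36136, nat_lit 34192, nat_lit 34840, nat_lit 34624, nat_lit 34696, nat_lit 34672, nat_lit 34680] (nat_lit 3) [nat_lit 54360, nat_lit 14996] false,
   Spec.mk (nat_lit 34680) (nat_lit 0) [nat_lit 47802, nat_lit 30306, nat_lit 36138, nat_lit 34194, nat_lit 34842, nat_lit 34626, nat_lit 34698, nat_lit 34674, nat_lit 34686, nat_lit 34678] (nat_lit 3) [nat_lit 14998] false,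
   Spec.mk (nat_lit 34686) (nat_lit 0) [nat_lit 47808, nat_lit 30312, nat_lit 36144, nat_lit 34200, nat_lit 34848, nat_lit 34632, nat_lit 34704, nat_lit 34680] (nat_lit 4) [nat_lit 15004] false,
   Spec.mk (nat_lit 34696) (nat_lit 0) [nat_lit 47818, nat_lit 30322, nat_lit 36154, nat_lit 34210, nat_lit 34858, nat_lit 34642, nat_lit 34678, nat_lit 34698] (nat_lit 1) [nat_lit 54378, nat_lit 15014] false,
   Spec.mk (nat_lit 34698) (nat_lit 0) [nat_lit 47820, nat_lit 30324, nat_lit 36156, nat_lit 34212, nat_lit 34860, nat_lit 34644, nat_lit 34680, nat_lit 34704, nat_lit 34696] (nat_lit 2) [nat_lit 15016] false,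
   Spec.mk (nat_lit 34704) (nat_lit 0) [nat_lit 47826, nat_lit 30330, nat_lit 36162, nat_lit 34218, nat_lit 34866, nat_lit 34650, nat_lit 34686, nat_lit 34722, nat_lit 34698] (nat_lit 1) [nat_lit 15022] false,
   Spec.mk (nat_lit 34722) (nat_lit 0) [nat_lit 47844, nat_lit 30348, nat_lit 36180, nat_lit 34236, nat_lit 34884, nat_lit 34704] (nat_lit 0) [nat_lit 15040] false,
   Spec.mk (nat_lit 34754) (nat_lit 0) [nat_lit 47876, nat_lit 30380, nat_lit 36212, nat_lit 34592, nat_lit 34760, nat_lit 34756] (nat_lit 0) [nat_lit 54436] false,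
   Spec.mk (nat_lit 34756) (nat_lit 0) [nat_lit 47878, nat_lit 30382, nat_lit 36214, nat_lit 34594, nat_lit 34762, nat_lit 34754] (nat_lit 1) [nat_lit 54438, nat_lit 15074] false,
   Spec.mk (nat_lit 34760) (nat_lit 0) [nat_lit 47882, nat_lit 30386, nat_lit 36218, nat_lit 34598, nat_lit 34778, nat_lit 34754, nat_lit 34762] (nat_lit 2) [nat_lit 54442] false,
   Spec.mk (nat_lit 34762) (nat_lit 0) [nat_lit 47884, nat_lit 30388, nat_lit 36220, nat_lit 34600, nat_lit 34780, nat_lit 34756, nat_lit 34768, nat_lit 34760, nat_lit 34764] (nat_lit 1) [nat_lit 54444, nat_lit 15080] false,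
   Spec.mk (nat_lit 34764) (nat_lit 0) [nat_lit 47886, nat_lit 30390, nat_lit 36222, nat_lit 34602, nat_lit 34782, nat_lit 34770, nat_lit 34762] (nat_lit 2) [nat_lit 15082] false,
   Spec.mk (nat_lit 34768) (nat_lit 0) [nat_lit 47890, nat_lit 30394, nat_lit 36226, nat_lit 34606, nat_lit 34786, nat_lit 34762, nat_lit 34770] (nat_lit 3) [nat_lit 54450, nat_lit 15086] false,
   Spec.mk (nat_lit 34770) (nat_lit 0) [nat_lit 47892, nat_lit 30396, nat_lit 36228, nat_lit 34608, nat_lit 34788, nat_lit 34764, nat_lit 34768] (nat_lit 2) [nat_lit 15088] false]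

noncomputable def sp90 : List Spec :=
  [Spec.mk (nat_lit 34778) (nat_lit 0) [nat_lit 47900, nat_lit 30404, nat_lit 36236, nat_lit 34616, nat_lit 34832, nat_lit 34760, nat_lit 34780] (nat_lit 2) [nat_lit 54460] false,
   Spec.mk (nat_lit 34780) (nat_lit 0) [nat_lit 47902, nat_lit 30406, nat_lit 36238, nat_lit 34618, nat_lit 34834, nat_lit 34762, nat_lit 34786, nat_lit 34778, nat_lit 34782] (nat_lit 2) [nat_lit 54462, nat_lit 15098] false,
   Spec.mk (nat_lit 34782) (nat_lit 0) [nat_lit 47904, nat_lit 30408, nat_lit 36240, nat_lit 34620, nat_lit 34836, nat_lit 34764, nat_lit 34788, nat_lit 34780] (nat_lit 4) [nat_lit 15100] false,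
   Spec.mk (nat_lit 34786) (nat_lit 0) [nat_lit 47908, nat_lit 30412, nat_lit 36244, nat_lit 34624, nat_lit 34840, nat_lit 34768, nat_lit 34804, nat_lit 34780, nat_lit 34788] (nat_lit 2) [nat_lit 54468, nat_lit 15104] false,
   Spec.mk (nat_lit 34788) (nat_lit 0) [nat_lit 47910, nat_lit 30414, nat_lit 36246, nat_lit 34626, nat_lit 34842, nat_lit 34770, nat_lit 34806, nat_lit 34782, nat_lit 34794, nat_lit 34786] (nat_lit 2) [nat_lit 15106] false,
   Spec.mk (nat_lit 34794) (nat_lit 0) [nat_lit 47916, nat_lit 30420, nat_lit 36252, nat_lit 34632, nat_lit 34848, nat_lit 34812, nat_lit 34788] (nat_lit 2) [nat_lit 15112] false,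
   Spec.mk (nat_lit 34804) (nat_lit 0) [nat_lit 47926, nat_lit 30430, nat_lit 36262, nat_lit 34642, nat_lit 34858, nat_lit 34786, nat_lit 34806] (nat_lit 3) [nat_lit 54486, nat_lit 15122] false,
   Spec.mk (nat_lit 34806) (nat_lit 0) [nat_lit 47928, nat_lit 30432, nat_lit 36264, nat_lit 34644, nat_lit 34860, nat_lit 34788, nat_lit 34812, nat_lit 34804] (nat_lit 4) [nat_lit 15124] false,
   Spec.mk (nat_lit 34812) (nat_lit 0) [nat_lit 47934, nat_lit 30438, nat_lit 36270, nat_lit 34650, nat_lit 34866, nat_lit 34794, nat_lit 34806] (nat_lit 2) [nat_lit 15130] false,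
   Spec.mk (nat_lit 34832) (nat_lit 0) [nat_lit 47954, nat_lit 30458, nat_lit 36290, nat_lit 34670, nat_lit 34778, nat_lit 34834] (nat_lit 0) [nat_lit 54514] false,
   Spec.mk (nat_lit 34834) (nat_lit 0) [nat_lit 47956, nat_lit 30460, nat_lit 36292, nat_lit 34672, nat_lit 34780, nat_lit 34840, nat_lit 34832, nat_lit 34836] (nat_lit 0) [nat_lit 54516, nat_lit 15152] false,
   Spec.mk (nat_lit 34836) (nat_lit 0) [nat_lit 47958, nat_lit 30462, nat_lit 36294, nat_lit 34674, nat_lit 34782, nat_lit 34842, nat_lit 34834] (nat_lit 2) [nat_lit 15154] false,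
   Spec.mk (nat_lit 34840) (nat_lit 0) [nat_lit 47962, nat_lit 30466, nat_lit 36298, nat_lit 34678, nat_lit 34786, nat_lit 34858, nat_lit 34834, nat_lit 34842] (nat_lit 1) [nat_lit 54522, nat_lit 15158] false,
   Spec.mk (nat_lit 34842) (nat_lit 0) [nat_lit 47964, nat_lit 30468, nat_lit 36300, nat_lit 34680, nat_lit 34788, nat_lit 34860, nat_lit 34836, nat_lit 34848, nat_lit 34840] (nat_lit 1) [nat_lit 15160] false,
   Spec.mk (nat_lit 34848) (nat_lit 0) [nat_lit 47970, nat_lit 30474, nat_lit 36306, nat_lit 34686, nat_lit 34794, nat_lit 34866, nat_lit 34842] (nat_lit 2) [nat_lit 15166] false,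
   Spec.mk (nat_lit 34858) (nat_lit 0) [nat_lit 47980, nat_lit 30484, nat_lit 36316, nat_lit 34696, nat_lit 34804, nat_lit 34912, nat_lit 34840, nat_lit 34860] (nat_lit 0) [nat_lit 54540, nat_lit 15176] false,
   Spec.mk (nat_lit 34860) (nat_lit 0) [nat_lit 47982, nat_lit 30486, nat_lit 36318, nat_lit 34698, nat_lit 34806, nat_lit 34914, nat_lit 34842, nat_lit 34866, nat_lit 34858] (nat_lit 1) [nat_lit 15178] false,
   Spec.mk (nat_lit 34866) (nat_lit 0) [nat_lit 47988, nat_lit 30492, nat_lit 36324, nat_lit 34704, nat_lit 34812, nat_lit 34920, nat_lit 34848, nat_lit 34884, nat_lit 34860] (nat_lit 0) [nat_lit 15184] false,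
   Spec.mk (nat_lit 34884) (nat_lit 0) [nat_lit 48006, nat_lit 30510, nat_lit 36342, nat_lit 34722, nat_lit 34938, nat_lit 34866] (nat_lit 0) [nat_lit 15202] false,
   Spec.mk (nat_lit 34912) (nat_lit 1) [nat_lit 48034, nat_lit 30538, nat_lit 36370, nat_lit 34858, nat_lit 34914] (nat_lit 0) [nat_lit 54594, nat_lit 15230] false,
   Spec.mk (nat_lit 34914) (nat_lit 0) [nat_lit 48036, nat_lit 30540, nat_lit 36372, nat_lit 34860, nat_lit 34920, nat_lit 34912] (nat_lit 0) [nat_lit 15232] false,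
   Spec.mk (nat_lit 34920) (nat_lit 0) [nat_lit 48042, nat_lit 30546, nat_lit 36378, nat_lit 34866, nat_lit 34938, nat_lit 34914] (nat_lit 0) [nat_lit 15238] false,
   Spec.mk (nat_lit 34938) (nat_lit 2) [nat_lit 48060, nat_lit 30564, nat_lit 36396, nat_lit 34884, nat_lit 34920] (nat_lit 0) [nat_lit 15256] false,
   Spec.mk (nat_lit 35018) (nat_lit 4) [nat_lit 48140, nat_lit 30644, nat_lit 33560, nat_lit 35036] (nat_lit 0) [nat_lit 54700] false,
   Spec.mk (nat_lit 35036) (nat_lit 3) [nat_lit 48158, nat_lit 30662, nat_lit 33578, nat_lit 35090, nat_lit 35018, nat_lit 35054, nat_lit 35042] (nat_lit 0) [nat_lit 54718] false,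
   Spec.mk (nat_lit 35042) (nat_lit 2) [nat_lit 48164, nat_lit 30668, nat_lit 33584, nat_lit 35096, nat_lit 35060, nat_lit 35036, nat_lit 35044] (nat_lit 0) [nat_lit 54724] false,
   Spec.mk (nat_lit 35044) (nat_lit 3) [nat_lit 48166, nat_lit 30670, nat_lit 33586, nat_lit 35098, nat_lit 35062, nat_lit 35042] (nat_lit 0) [nat_lit 54726, nat_lit 15362] false,
   Spec.mk (nat_lit 35054) (nat_lit 0) [nat_lit 48176, nat_lit 30680, nat_lit 33596, nat_lit 35108, nat_lit 35036, nat_lit 35060] (nat_lit 0) [nat_lit 54736] false,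
   Spec.mk (nat_lit 35060) (nat_lit 1) [nat_lit 48182, nat_lit 30686, nat_lit 33602, nat_lit 35114, nat_lit 35042, nat_lit 35054, nat_lit 35066, nat_lit 35062] (nat_lit 0) [nat_lit 54742] false,
   Spec.mk (nat_lit 35062) (nat_lit 1) [nat_lit 48184, nat_lit 30688, nat_lit 33604, nat_lit 35116, nat_lit 35044, nat_lit 35068, nat_lit 35060] (nat_lit 0) [nat_lit 54744, nat_lit 15380] false,
   Spec.mk (nat_lit 35066) (nat_lit 0) [nat_lit 48188, nat_lit 30692, nat_lit 33608, nat_lit 35120, nat_lit 35060, nat_lit 35068] (nat_lit 0) [nat_lit 54748] false,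
   Spec.mk (nat_lit 35068) (nat_lit 2) [nat_lit 48190, nat_lit 30694, nat_lit 33610, nat_lit 35122, nat_lit 35062, nat_lit 35066, nat_lit 35070] (nat_lit 0) [nat_lit 54750, nat_lit 15386] false,
   Spec.mk (nat_lit 35070) (nat_lit 2) [nat_lit 48192, nat_lit 30696, nat_lit 33612, nat_lit 35124, nat_lit 35068] (nat_lit 0) [nat_lit 15388] false,
   Spec.mk (nat_lit 35090) (nat_lit 2) [nat_lit 48212, nat_lit 30716, nat_lit 33632, nat_lit 35252, nat_lit 35036, nat_lit 35108, nat_lit 35096] (nat_lit 0) [nat_lit 54772] false,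
   Spec.mk (nat_lit 35096) (nat_lit 0) [nat_lit 48218, nat_lit 30722, nat_lit 33638, nat_lit 35258, nat_lit 35042, nat_lit 35114, nat_lit 35090, nat_lit 35098] (nat_lit 0) [nat_lit 54778] false,
   Spec.mk (nat_lit 35098) (nat_lit 1) [nat_lit 48220, nat_lit 30724, nat_lit 33640, nat_lit 35260, nat_lit 35044, nat_lit 35116, nat_lit 35096] (nat_lit 0) [nat_lit 54780, nat_lit 15416] false,
   Spec.mk (nat_lit 35108) (nat_lit 1) [nat_lit 48230, nat_lit 30734, nat_lit 33650, nat_lit 35270, nat_lit 35054, nat_lit 35162, nat_lit 35090, nat_lit 35114] (nat_lit 0) [nat_lit 54790] false,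
   Spec.mk (nat_lit 35114) (nat_lit 1) [nat_lit 48236, nat_lit 30740, nat_lit 33656, nat_lit 35276, nat_lit 35060, nat_lit 35168, nat_lit 35096, nat_lit 35132, nat_lit 35108, nat_lit 35120, nat_lit 35116] (nat_lit 0) [nat_lit 54796] false,
   Spec.mk (nat_lit 35116) (nat_lit 1) [nat_lit 48238, nat_lit 30742, nat_lit 33658, nat_lit 35278, nat_lit 35062, nat_lit 35170, nat_lit 35098, nat_lit 35134, nat_lit 35122, nat_lit 35114] (nat_lit 0) [nat_lit 54798, nat_lit 15434] false,
   Spec.mk (nat_lit 35120) (nat_lit 0) [nat_lit 48242, nat_lit 30746, nat_lit 33662, nat_lit 35282, nat_lit 35066, nat_lit 35174, nat_lit 35138, nat_lit 35114, nat_lit 35122] (nat_lit 1) [nat_lit 54802] false,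
   Spec.mk (nat_lit 35122) (nat_lit 1) [nat_lit 48244, nat_lit 30748, nat_lit 33664, nat_lit 35284, nat_lit 35068, nat_lit 35176, nat_lit 35140, nat_lit 35116, nat_lit 35120, nat_lit 35124] (nat_lit 0) [nat_lit 54804, nat_lit 15440] false,
   Spec.mk (nat_lit 35124) (nat_lit 1) [nat_lit 48246, nat_lit 30750, nat_lit 33666, nat_lit 35286, nat_lit 35070, nat_lit 35178, nat_lit 35142, nat_lit 35122] (nat_lit 0) [nat_lit 15442] false,
   Spec.mk (nat_lit 35132) (nat_lit 0) [nat_lit 48254, nat_lit 30758, nat_lit 33674, nat_lit 35294, nat_lit 35186, nat_lit 35114, nat_lit 35138, nat_lit 35134] (nat_lit 0) [nat_lit 54814] false,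
   Spec.mk (nat_lit 35134) (nat_lit 0) [nat_lit 48256, nat_lit 30760, nat_lit 33676, nat_lit 35296, nat_lit 35188, nat_lit 35116, nat_lit 35140, nat_lit 35132] (nat_lit 1) [nat_lit 54816, nat_lit 15452] false,
   Spec.mk (nat_lit 35138) (nat_lit 0) [nat_lit 48260, nat_lit 30764, nat_lit 33680, nat_lit 35300, nat_lit 35192, nat_lit 35120, nat_lit 35132, nat_lit 35140] (nat_lit 0) [nat_lit 54820] false,
   Spec.mk (nat_lit 35140) (nat_lit 1) [nat_lit 48262, nat_lit 30766, nat_lit 33682, nat_lit 35302, nat_lit 35194, nat_lit 35122, nat_lit 35134, nat_lit 35146, nat_lit 35138, nat_lit 35142] (nat_lit 0) [nat_lit 54822, nat_lit 15458] false,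
   Spec.mk (nat_lit 35142) (nat_lit 0) [nat_lit 48264, nat_lit 30768, nat_lit 33684, nat_lit 35304, nat_lit 35196, nat_lit 35124, nat_lit 35148, nat_lit 35140] (nat_lit 0) [nat_lit 15460] false,
   Spec.mk (nat_lit 35146) (nat_lit 1) [nat_lit 48268, nat_lit 30772, nat_lit 33688, nat_lit 35308, nat_lit 35200, nat_lit 35140, nat_lit 35148] (nat_lit 0) [nat_lit 54828, nat_lit 15464] false,
   Spec.mk (nat_lit 35148) (nat_lit 2) [nat_lit 48270, nat_lit 30774, nat_lit 33690, nat_lit 35310, nat_lit 35202, nat_lit 35142, nat_lit 35146] (nat_lit 0) [nat_lit 15466] false,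
   Spec.mk (nat_lit 35162) (nat_lit 0) [nat_lit 48284, nat_lit 30788, nat_lit 33704, nat_lit 35324, nat_lit 35108, nat_lit 35168] (nat_lit 0) [nat_lit 54844] false,
   Spec.mk (nat_lit 35168) (nat_lit 0) [nat_lit 48290, nat_lit 30794, nat_lit 33710, nat_lit 35330, nat_lit 35114, nat_lit 35186, nat_lit 35162, nat_lit 35174, nat_lit 35170] (nat_lit 1) [nat_lit 54850] false,
   Spec.mk (nat_lit 35170) (nat_lit 0) [nat_lit 48292, nat_lit 30796, nat_lit 33712, nat_lit 35332, nat_lit 35116, nat_lit 35188, nat_lit 35176, nat_lit 35168] (nat_lit 1) [nat_lit 54852, nat_lit 15488] false,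
   Spec.mk (nat_lit 35174) (nat_lit 0) [nat_lit 48296, nat_lit 30800, nat_lit 33716, nat_lit 35336, nat_lit 35120, nat_lit 35192, nat_lit 35168, nat_lit 35176] (nat_lit 4) [nat_lit 54856] false,
   Spec.mk (nat_lit 35176) (nat_lit 0) [nat_lit 48298, nat_lit 30802, nat_lit 33718, nat_lit 35338, nat_lit 35122, nat_lit 35194, nat_lit 35170, nat_lit 35174, nat_lit 35178] (nat_lit 2) [nat_lit 54858, nat_lit 15494] false,
   Spec.mk (nat_lit 35178) (nat_lit 0) [nat_lit 48300, nat_lit 30804, nat_lit 33720, nat_lit 35340, nat_lit 35124, nat_lit 35196, nat_lit 35176] (nat_lit 2) [nat_lit 15496] false,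
   Spec.mk (nat_lit 35186) (nat_lit 0) [nat_lit 48308, nat_lit 30812, nat_lit 33728, nat_lit 35348, nat_lit 35132, nat_lit 35168, nat_lit 35192, nat_lit 35188] (nat_lit 0) [nat_lit 54868] false,
   Spec.mk (nat_lit 35188) (nat_lit 0) [nat_lit 48310, nat_lit 30814, nat_lit 33730, nat_lit 35350, nat_lit 35134, nat_lit 35170, nat_lit 35194, nat_lit 35186] (nat_lit 1) [nat_lit 54870, nat_lit 15506] false,
   Spec.mk (nat_lit 35192) (nat_lit 0) [nat_lit 48314, nat_lit 30818, nat_lit 33734, nat_lit 35354, nat_lit 35138, nat_lit 35174, nat_lit 35210, nat_lit 35186, nat_lit 35194] (nat_lit 1) [nat_lit 54874] false,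
   Spec.mk (nat_lit 35194) (nat_lit 0) [nat_lit 48316, nat_lit 30820, nat_lit 33736, nat_lit 35356, nat_lit 35140, nat_lit 35176, nat_lit 35212, nat_lit 35188, nat_lit 35200, nat_lit 35192, nat_lit 35196] (nat_lit 0) [nat_lit 54876, nat_lit 15512] false,
   Spec.mk (nat_lit 35196) (nat_lit 0) [nat_lit 48318, nat_lit 30822, nat_lit 33738, nat_lit 35358, nat_lit 35142, nat_lit 35178, nat_lit 35214, nat_lit 35202, nat_lit 35194] (nat_lit 1) [nat_lit 15514] false]

noncomputable def sp91 : List Spec :=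
  [Spec.mk (nat_lit 35200) (nat_lit 0) [nat_lit 48322, nat_lit 30826, nat_lit 33742, nat_lit 35362, nat_lit 35146, nat_lit 35218, nat_lit 35194, nat_lit 35202] (nat_lit 1) [nat_lit 54882, nat_lit 15518] false,
   Spec.mk (nat_lit 35202) (nat_lit 0) [nat_lit 48324, nat_lit 30828, nat_lit 33744, nat_lit 35364, nat_lit 35148, nat_lit 35220, nat_lit 35196, nat_lit 35200] (nat_lit 0) [nat_lit 15520] false,
   Spec.mk (nat_lit 35210) (nat_lit 0) [nat_lit 48332, nat_lit 30836, nat_lit 33752, nat_lit 35372, nat_lit 35192, nat_lit 35212] (nat_lit 0) [nat_lit 54892] false,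
   Spec.mk (nat_lit 35212) (nat_lit 0) [nat_lit 48334, nat_lit 30838, nat_lit 33754, nat_lit 35374, nat_lit 35194, nat_lit 35218, nat_lit 35210, nat_lit 35214] (nat_lit 0) [nat_lit 54894, nat_lit 15530] false,
   Spec.mk (nat_lit 35214) (nat_lit 0) [nat_lit 48336, nat_lit 30840, nat_lit 33756, nat_lit 35376, nat_lit 35196, nat_lit 35220, nat_lit 35212] (nat_lit 2) [nat_lit 15532] false,
   Spec.mk (nat_lit 35218) (nat_lit 1) [nat_lit 48340, nat_lit 30844, nat_lit 33760, nat_lit 35380, nat_lit 35200, nat_lit 35212, nat_lit 35220] (nat_lit 0) [nat_lit 54900, nat_lit 15536] false,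
   Spec.mk (nat_lit 35220) (nat_lit 1) [nat_lit 48342, nat_lit 30846, nat_lit 33762, nat_lit 35382, nat_lit 35202, nat_lit 35214, nat_lit 35226, nat_lit 35218] (nat_lit 0) [nat_lit 15538] false,
   Spec.mk (nat_lit 35226) (nat_lit 2) [nat_lit 48348, nat_lit 30852, nat_lit 33768, nat_lit 35388, nat_lit 35220] (nat_lit 0) [nat_lit 15544] false,
   Spec.mk (nat_lit 35252) (nat_lit 2) [nat_lit 48374, nat_lit 30878, nat_lit 33794, nat_lit 35738, nat_lit 35090, nat_lit 35270, nat_lit 35258] (nat_lit 0) [nat_lit 54934] false,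
   Spec.mk (nat_lit 35258) (nat_lit 0) [nat_lit 48380, nat_lit 30884, nat_lit 33800, nat_lit 35744, nat_lit 35096, nat_lit 35276, nat_lit 35252, nat_lit 35260] (nat_lit 0) [nat_lit 54940] false,
   Spec.mk (nat_lit 35260) (nat_lit 1) [nat_lit 48382, nat_lit 30886, nat_lit 33802, nat_lit 35746, nat_lit 35098, nat_lit 35278, nat_lit 35258] (nat_lit 0) [nat_lit 54942, nat_lit 15578] false,
   Spec.mk (nat_lit 35270) (nat_lit 0) [nat_lit 48392, nat_lit 30896, nat_lit 33812, nat_lit 35756, nat_lit 35108, nat_lit 35324, nat_lit 35252, nat_lit 35276] (nat_lit 0) [nat_lit 54952] false,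
   Spec.mk (nat_lit 35276) (nat_lit 0) [nat_lit 48398, nat_lit 30902, nat_lit 33818, nat_lit 35762, nat_lit 35114, nat_lit 35330, nat_lit 35258, nat_lit 35294, nat_lit 35270, nat_lit 35282, nat_lit 35278] (nat_lit 0) [nat_lit 54958] false,
   Spec.mk (nat_lit 35278) (nat_lit 0) [nat_lit 48400, nat_lit 30904, nat_lit 33820, nat_lit 35764, nat_lit 35116, nat_lit 35332, nat_lit 35260, nat_lit 35296, nat_lit 35284, nat_lit 35276] (nat_lit 0) [nat_lit 54960, nat_lit 15596] false,
   Spec.mk (nat_lit 35282) (nat_lit 0) [nat_lit 48404, nat_lit 30908, nat_lit 33824, nat_lit 35768, nat_lit 35120, nat_lit 35336, nat_lit 35300, nat_lit 35276, nat_lit 35284] (nat_lit 2) [nat_lit 54964] false,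
   Spec.mk (nat_lit 35284) (nat_lit 0) [nat_lit 48406, nat_lit 30910, nat_lit 33826, nat_lit 35770, nat_lit 35122, nat_lit 35338, nat_lit 35302, nat_lit 35278, nat_lit 35282, nat_lit 35286] (nat_lit 0) [nat_lit 54966, nat_lit 15602] false,
   Spec.mk (nat_lit 35286) (nat_lit 0) [nat_lit 48408, nat_lit 30912, nat_lit 33828, nat_lit 35772, nat_lit 35124, nat_lit 35340, nat_lit 35304, nat_lit 35284] (nat_lit 0) [nat_lit 15604] false,
   Spec.mk (nat_lit 35294) (nat_lit 0) [nat_lit 48416, nat_lit 30920, nat_lit 33836, nat_lit 35780, nat_lit 35132, nat_lit 35348, nat_lit 35276, nat_lit 35300, nat_lit 35296] (nat_lit 2) [nat_lit 54976] false,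
   Spec.mk (nat_lit 35296) (nat_lit 0) [nat_lit 48418, nat_lit 30922, nat_lit 33838, nat_lit 35782, nat_lit 35134, nat_lit 35350, nat_lit 35278, nat_lit 35302, nat_lit 35294] (nat_lit 3) [nat_lit 54978, nat_lit 15614] false,
   Spec.mk (nat_lit 35300) (nat_lit 0) [nat_lit 48422, nat_lit 30926, nat_lit 33842, nat_lit 35786, nat_lit 35138, nat_lit 35354, nat_lit 35282, nat_lit 35294, nat_lit 35302] (nat_lit 2) [nat_lit 54982] false,
   Spec.mk (nat_lit 35302) (nat_lit 0) [nat_lit 48424, nat_lit 30928, nat_lit 33844, nat_lit 35788, nat_lit 35140, nat_lit 35356, nat_lit 35284, nat_lit 35296, nat_lit 35308, nat_lit 35300, nat_lit 35304] (nat_lit 1) [nat_lit 54984, nat_lit 15620] false,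
   Spec.mk (nat_lit 35304) (nat_lit 0) [nat_lit 48426, nat_lit 30930, nat_lit 33846, nat_lit 35790, nat_lit 35142, nat_lit 35358, nat_lit 35286, nat_lit 35310, nat_lit 35302] (nat_lit 2) [nat_lit 15622] false,
   Spec.mk (nat_lit 35308) (nat_lit 0) [nat_lit 48430, nat_lit 30934, nat_lit 33850, nat_lit 35794, nat_lit 35146, nat_lit 35362, nat_lit 35302, nat_lit 35310] (nat_lit 1) [nat_lit 54990, nat_lit 15626] false,
   Spec.mk (nat_lit 35310) (nat_lit 0) [nat_lit 48432, nat_lit 30936, nat_lit 33852, nat_lit 35796, nat_lit 35148, nat_lit 35364, nat_lit 35304, nat_lit 35308] (nat_lit 0) [nat_lit 15628] false,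
   Spec.mk (nat_lit 35324) (nat_lit 1) [nat_lit 48446, nat_lit 30950, nat_lit 33866, nat_lit 35810, nat_lit 35162, nat_lit 35486, nat_lit 35270, nat_lit 35330] (nat_lit 0) [nat_lit 55006] false,
   Spec.mk (nat_lit 35330) (nat_lit 0) [nat_lit 48452, nat_lit 30956, nat_lit 33872, nat_lit 35816, nat_lit 35168, nat_lit 35492, nat_lit 35276, nat_lit 35348, nat_lit 35324, nat_lit 35336, nat_lit 35332] (nat_lit 0) [nat_lit 55012] false,
   Spec.mk (nat_lit 35332) (nat_lit 0) [nat_lit 48454, nat_lit 30958, nat_lit 33874, nat_lit 35818, nat_lit 35170, nat_lit 35494, nat_lit 35278, nat_lit 35350, nat_lit 35338, nat_lit 35330] (nat_lit 0) [nat_lit 55014, nat_lit 15650] false,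
   Spec.mk (nat_lit 35336) (nat_lit 0) [nat_lit 48458, nat_lit 30962, nat_lit 33878, nat_lit 35822, nat_lit 35174, nat_lit 35498, nat_lit 35282, nat_lit 35354, nat_lit 35330, nat_lit 35338] (nat_lit 3) [nat_lit 55018] false,
   Spec.mk (nat_lit 35338) (nat_lit 0) [nat_lit 48460, nat_lit 30964, nat_lit 33880, nat_lit 35824, nat_lit 35176, nat_lit 35500, nat_lit 35284, nat_lit 35356, nat_lit 35332, nat_lit 35336, nat_lit 35340] (nat_lit 1) [nat_lit 55020, nat_lit 15656] false,
   Spec.mk (nat_lit 35340) (nat_lit 0) [nat_lit 48462, nat_lit 30966, nat_lit 33882, nat_lit 35826, nat_lit 35178, nat_lit 35502, nat_lit 35286, nat_lit 35358, nat_lit 35338] (nat_lit 1) [nat_lit 15658] false,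
   Spec.mk (nat_lit 35348) (nat_lit 0) [nat_lit 48470, nat_lit 30974, nat_lit 33890, nat_lit 35834, nat_lit 35186, nat_lit 35510, nat_lit 35294, nat_lit 35402, nat_lit 35330, nat_lit 35354, nat_lit 35350] (nat_lit 0) [nat_lit 55030] false,
   Spec.mk (nat_lit 35350) (nat_lit 0) [nat_lit 48472, nat_lit 30976, nat_lit 33892, nat_lit 35836, nat_lit 35188, nat_lit 35512, nat_lit 35296, nat_lit 35404, nat_lit 35332, nat_lit 35356, nat_lit 35348] (nat_lit 1) [nat_lit 55032, nat_lit 15668] false,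
   Spec.mk (nat_lit 35354) (nat_lit 0) [nat_lit 48476, nat_lit 30980, nat_lit 33896, nat_lit 35840, nat_lit 35192, nat_lit 35516, nat_lit 35300, nat_lit 35408, nat_lit 35336, nat_lit 35372, nat_lit 35348, nat_lit 35356] (nat_lit 1) [nat_lit 55036] false,
   Spec.mk (nat_lit 35356) (nat_lit 0) [nat_lit 48478, nat_lit 30982, nat_lit 33898, nat_lit 35842, nat_lit 35194, nat_lit 35518, nat_lit 35302, nat_lit 35410, nat_lit 35338, nat_lit 35374, nat_lit 35350, nat_lit 35362, nat_lit 35354, nat_lit 35358] (nat_lit 0) [nat_lit 55038, nat_lit 15674] false,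
   Spec.mk (nat_lit 35358) (nat_lit 0) [nat_lit 48480, nat_lit 30984, nat_lit 33900, nat_lit 35844, nat_lit 35196, nat_lit 35520, nat_lit 35304, nat_lit 35412, nat_lit 35340, nat_lit 35376, nat_lit 35364, nat_lit 35356] (nat_lit 1) [nat_lit 15676] false,
   Spec.mk (nat_lit 35362) (nat_lit 0) [nat_lit 48484, nat_lit 30988, nat_lit 33904, nat_lit 35848, nat_lit 35200, nat_lit 35524, nat_lit 35308, nat_lit 35416, nat_lit 35380, nat_lit 35356, nat_lit 35364] (nat_lit 1) [nat_lit 55044, nat_lit 15680] false,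
   Spec.mk (nat_lit 35364) (nat_lit 0) [nat_lit 48486, nat_lit 30990, nat_lit 33906, nat_lit 35850, nat_lit 35202, nat_lit 35526, nat_lit 35310, nat_lit 35418, nat_lit 35382, nat_lit 35358, nat_lit 35362] (nat_lit 0) [nat_lit 15682] false,
   Spec.mk (nat_lit 35372) (nat_lit 0) [nat_lit 48494, nat_lit 30998, nat_lit 33914, nat_lit 35858, nat_lit 35210, nat_lit 35534, nat_lit 35426, nat_lit 35354, nat_lit 35374] (nat_lit 1) [nat_lit 55054] false,
   Spec.mk (nat_lit 35374) (nat_lit 0) [nat_lit 48496, nat_lit 31000, nat_lit 33916, nat_lit 35860, nat_lit 35212, nat_lit 35536, nat_lit 35428, nat_lit 35356, nat_lit 35380, nat_lit 35372, nat_lit 35376] (nat_lit 1) [nat_lit 55056, nat_lit 15692] false,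
   Spec.mk (nat_lit 35376) (nat_lit 0) [nat_lit 48498, nat_lit 31002, nat_lit 33918, nat_lit 35862, nat_lit 35214, nat_lit 35538, nat_lit 35430, nat_lit 35358, nat_lit 35382, nat_lit 35374] (nat_lit 3) [nat_lit 15694] false,
   Spec.mk (nat_lit 35380) (nat_lit 0) [nat_lit 48502, nat_lit 31006, nat_lit 33922, nat_lit 35866, nat_lit 35218, nat_lit 35542, nat_lit 35434, nat_lit 35362, nat_lit 35374, nat_lit 35382] (nat_lit 0) [nat_lit 55062, nat_lit 15698] false,
   Spec.mk (nat_lit 35382) (nat_lit 0) [nat_lit 48504, nat_lit 31008, nat_lit 33924, nat_lit 35868, nat_lit 35220, nat_lit 35544, nat_lit 35436, nat_lit 35364, nat_lit 35376, nat_lit 35388, nat_lit 35380] (nat_lit 0) [nat_lit 15700] false,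
   Spec.mk (nat_lit 35388) (nat_lit 1) [nat_lit 48510, nat_lit 31014, nat_lit 33930, nat_lit 35874, nat_lit 35226, nat_lit 35550, nat_lit 35442, nat_lit 35382] (nat_lit 0) [nat_lit 15706] false,
   Spec.mk (nat_lit 35402) (nat_lit 0) [nat_lit 48524, nat_lit 31028, nat_lit 33944, nat_lit 35888, nat_lit 35564, nat_lit 35348, nat_lit 35408, nat_lit 35404] (nat_lit 0) [nat_lit 55084] false,
   Spec.mk (nat_lit 35404) (nat_lit 0) [nat_lit 48526, nat_lit 31030, nat_lit 33946, nat_lit 35890, nat_lit 35566, nat_lit 35350, nat_lit 35410, nat_lit 35402] (nat_lit 1) [nat_lit 55086, nat_lit 15722] false,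
   Spec.mk (nat_lit 35408) (nat_lit 0) [nat_lit 48530, nat_lit 31034, nat_lit 33950, nat_lit 35894, nat_lit 35570, nat_lit 35354, nat_lit 35426, nat_lit 35402, nat_lit 35410] (nat_lit 2) [nat_lit 55090] false,
   Spec.mk (nat_lit 35410) (nat_lit 0) [nat_lit 48532, nat_lit 31036, nat_lit 33952, nat_lit 35896, nat_lit 35572, nat_lit 35356, nat_lit 35428, nat_lit 35404, nat_lit 35416, nat_lit 35408, nat_lit 35412] (nat_lit 1) [nat_lit 55092, nat_lit 15728] false,
   Spec.mk (nat_lit 35412) (nat_lit 0) [nat_lit 48534, nat_lit 31038, nat_lit 33954, nat_lit 35898, nat_lit 35574, nat_lit 35358, nat_lit 35430, nat_lit 35418, nat_lit 35410] (nat_lit 2) [nat_lit 15730] false,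
   Spec.mk (nat_lit 35416) (nat_lit 0) [nat_lit 48538, nat_lit 31042, nat_lit 33958, nat_lit 35902, nat_lit 35578, nat_lit 35362, nat_lit 35434, nat_lit 35410, nat_lit 35418] (nat_lit 3) [nat_lit 55098, nat_lit 15734] false,
   Spec.mk (nat_lit 35418) (nat_lit 0) [nat_lit 48540, nat_lit 31044, nat_lit 33960, nat_lit 35904, nat_lit 35580, nat_lit 35364, nat_lit 35436, nat_lit 35412, nat_lit 35416] (nat_lit 2) [nat_lit 15736] false,
   Spec.mk (nat_lit 35426) (nat_lit 0) [nat_lit 48548, nat_lit 31052, nat_lit 33968, nat_lit 35912, nat_lit 35588, nat_lit 35372, nat_lit 35408, nat_lit 35428] (nat_lit 0) [nat_lit 55108] false,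
   Spec.mk (nat_lit 35428) (nat_lit 0) [nat_lit 48550, nat_lit 31054, nat_lit 33970, nat_lit 35914, nat_lit 35590, nat_lit 35374, nat_lit 35410, nat_lit 35434, nat_lit 35426, nat_lit 35430] (nat_lit 0) [nat_lit 55110, nat_lit 15746] false,
   Spec.mk (nat_lit 35430) (nat_lit 0) [nat_lit 48552, nat_lit 31056, nat_lit 33972, nat_lit 35916, nat_lit 35592, nat_lit 35376, nat_lit 35412, nat_lit 35436, nat_lit 35428] (nat_lit 2) [nat_lit 15748] false,
   Spec.mk (nat_lit 35434) (nat_lit 0) [nat_lit 48556, nat_lit 31060, nat_lit 33976, nat_lit 35920, nat_lit 35596, nat_lit 35380, nat_lit 35416, nat_lit 35452, nat_lit 35428, nat_lit 35436] (nat_lit 0) [nat_lit 55116, nat_lit 15752] false,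
   Spec.mk (nat_lit 35436) (nat_lit 0) [nat_lit 48558, nat_lit 31062, nat_lit 33978, nat_lit 35922, nat_lit 35598, nat_lit 35382, nat_lit 35418, nat_lit 35454, nat_lit 35430, nat_lit 35442, nat_lit 35434] (nat_lit 0) [nat_lit 15754] false,
   Spec.mk (nat_lit 35442) (nat_lit 0) [nat_lit 48564, nat_lit 31068, nat_lit 33984, nat_lit 35928, nat_lit 35604, nat_lit 35388, nat_lit 35460, nat_lit 35436] (nat_lit 0) [nat_lit 15760] false,
   Spec.mk (nat_lit 35452) (nat_lit 1) [nat_lit 48574, nat_lit 31078, nat_lit 33994, nat_lit 35938, nat_lit 35614, nat_lit 35434, nat_lit 35454] (nat_lit 0) [nat_lit 55134, nat_lit 15770] false,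
   Spec.mk (nat_lit 35454) (nat_lit 0) [nat_lit 48576, nat_lit 31080, nat_lit 33996, nat_lit 35940, nat_lit 35616, nat_lit 35436, nat_lit 35460, nat_lit 35452] (nat_lit 0) [nat_lit 15772] false,
   Spec.mk (nat_lit 35460) (nat_lit 2) [nat_lit 48582, nat_lit 31086, nat_lit 34002, nat_lit 35946, nat_lit 35622, nat_lit 35442, nat_lit 35454] (nat_lit 0) [nat_lit 15778] false,
   Spec.mk (nat_lit 35486) (nat_lit 0) [nat_lit 48608, nat_lit 31112, nat_lit 34028, nat_lit 35972, nat_lit 35324, nat_lit 35492] (nat_lit 0) [nat_lit 55168] false]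

noncomputable def sp92 : List Spec :=
  [Spec.mk (nat_lit 35492) (nat_lit 0) [nat_lit 48614, nat_lit 31118, nat_lit 34034, nat_lit 35978, nat_lit 35330, nat_lit 35510, nat_lit 35486, nat_lit 35498, nat_lit 35494] (nat_lit 1) [nat_lit 55174] false,
   Spec.mk (nat_lit 35494) (nat_lit 0) [nat_lit 48616, nat_lit 31120, nat_lit 34036, nat_lit 35980, nat_lit 35332, nat_lit 35512, nat_lit 35500, nat_lit 35492] (nat_lit 1) [nat_lit 55176, nat_lit 15812] false,
   Spec.mk (nat_lit 35498) (nat_lit 0) [nat_lit 48620, nat_lit 31124, nat_lit 34040, nat_lit 35984, nat_lit 35336, nat_lit 35516, nat_lit 35492, nat_lit 35500] (nat_lit 4) [nat_lit 55180] false,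
   Spec.mk (nat_lit 35500) (nat_lit 0) [nat_lit 48622, nat_lit 31126, nat_lit 34042, nat_lit 35986, nat_lit 35338, nat_lit 35518, nat_lit 35494, nat_lit 35498, nat_lit 35502] (nat_lit 2) [nat_lit 55182, nat_lit 15818] false,
   Spec.mk (nat_lit 35502) (nat_lit 0) [nat_lit 48624, nat_lit 31128, nat_lit 34044, nat_lit 35988, nat_lit 35340, nat_lit 35520, nat_lit 35500] (nat_lit 2) [nat_lit 15820] false,
   Spec.mk (nat_lit 35510) (nat_lit 0) [nat_lit 48632, nat_lit 31136, nat_lit 34052, nat_lit 35996, nat_lit 35348, nat_lit 35564, nat_lit 35492, nat_lit 35516, nat_lit 35512] (nat_lit 2) [nat_lit 55192] false,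
   Spec.mk (nat_lit 35512) (nat_lit 0) [nat_lit 48634, nat_lit 31138, nat_lit 34054, nat_lit 35998, nat_lit 35350, nat_lit 35566, nat_lit 35494, nat_lit 35518, nat_lit 35510] (nat_lit 3) [nat_lit 55194, nat_lit 15830] false,
   Spec.mk (nat_lit 35516) (nat_lit 0) [nat_lit 48638, nat_lit 31142, nat_lit 34058, nat_lit 36002, nat_lit 35354, nat_lit 35570, nat_lit 35498, nat_lit 35534, nat_lit 35510, nat_lit 35518] (nat_lit 3) [nat_lit 55198] false,
   Spec.mk (nat_lit 35518) (nat_lit 0) [nat_lit 48640, nat_lit 31144, nat_lit 34060, nat_lit 36004, nat_lit 35356, nat_lit 35572, nat_lit 35500, nat_lit 35536, nat_lit 35512, nat_lit 35524, nat_lit 35516, nat_lit 35520] (nat_lit 2) [nat_lit 55200, nat_lit 15836] false,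
   Spec.mk (nat_lit 35520) (nat_lit 0) [nat_lit 48642, nat_lit 31146, nat_lit 34062, nat_lit 36006, nat_lit 35358, nat_lit 35574, nat_lit 35502, nat_lit 35538, nat_lit 35526, nat_lit 35518] (nat_lit 3) [nat_lit 15838] false,
   Spec.mk (nat_lit 35524) (nat_lit 0) [nat_lit 48646, nat_lit 31150, nat_lit 34066, nat_lit 36010, nat_lit 35362, nat_lit 35578, nat_lit 35542, nat_lit 35518, nat_lit 35526] (nat_lit 3) [nat_lit 55206, nat_lit 15842] false,
   Spec.mk (nat_lit 35526) (nat_lit 0) [nat_lit 48648, nat_lit 31152, nat_lit 34068, nat_lit 36012, nat_lit 35364, nat_lit 35580, nat_lit 35544, nat_lit 35520, nat_lit 35524] (nat_lit 2) [nat_lit 15844] false,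
   Spec.mk (nat_lit 35534) (nat_lit 0) [nat_lit 48656, nat_lit 31160, nat_lit 34076, nat_lit 36020, nat_lit 35372, nat_lit 35588, nat_lit 35516, nat_lit 35536] (nat_lit 4) [nat_lit 55216] false,
   Spec.mk (nat_lit 35536) (nat_lit 0) [nat_lit 48658, nat_lit 31162, nat_lit 34078, nat_lit 36022, nat_lit 35374, nat_lit 35590, nat_lit 35518, nat_lit 35542, nat_lit 35534, nat_lit 35538] (nat_lit 4) [nat_lit 55218, nat_lit 15854] false,
   Spec.mk (nat_lit 35538) (nat_lit 0) [nat_lit 48660, nat_lit 31164, nat_lit 34080, nat_lit 36024, nat_lit 35376, nat_lit 35592, nat_lit 35520, nat_lit 35544, nat_lit 35536] (nat_lit 6) [nat_lit 15856] false,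
   Spec.mk (nat_lit 35542) (nat_lit 0) [nat_lit 48664, nat_lit 31168, nat_lit 34084, nat_lit 36028, nat_lit 35380, nat_lit 35596, nat_lit 35524, nat_lit 35536, nat_lit 35544] (nat_lit 3) [nat_lit 55224, nat_lit 15860] false,
   Spec.mk (nat_lit 35544) (nat_lit 0) [nat_lit 48666, nat_lit 31170, nat_lit 34086, nat_lit 36030, nat_lit 35382, nat_lit 35598, nat_lit 35526, nat_lit 35538, nat_lit 35550, nat_lit 35542] (nat_lit 3) [nat_lit 15862] false,
   Spec.mk (nat_lit 35550) (nat_lit 0) [nat_lit 48672, nat_lit 31176, nat_lit 34092, nat_lit 36036, nat_lit 35388, nat_lit 35604, nat_lit 35544] (nat_lit 2) [nat_lit 15868] false,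
   Spec.mk (nat_lit 35564) (nat_lit 0) [nat_lit 48686, nat_lit 31190, nat_lit 34106, nat_lit 36050, nat_lit 35402, nat_lit 35510, nat_lit 35570, nat_lit 35566] (nat_lit 0) [nat_lit 55246] false,
   Spec.mk (nat_lit 35566) (nat_lit 0) [nat_lit 48688, nat_lit 31192, nat_lit 34108, nat_lit 36052, nat_lit 35404, nat_lit 35512, nat_lit 35572, nat_lit 35564] (nat_lit 1) [nat_lit 55248, nat_lit 15884] false,
   Spec.mk (nat_lit 35570) (nat_lit 0) [nat_lit 48692, nat_lit 31196, nat_lit 34112, nat_lit 36056, nat_lit 35408, nat_lit 35516, nat_lit 35588, nat_lit 35564, nat_lit 35572] (nat_lit 2) [nat_lit 55252] false,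
   Spec.mk (nat_lit 35572) (nat_lit 0) [nat_lit 48694, nat_lit 31198, nat_lit 34114, nat_lit 36058, nat_lit 35410, nat_lit 35518, nat_lit 35590, nat_lit 35566, nat_lit 35578, nat_lit 35570, nat_lit 35574] (nat_lit 1) [nat_lit 55254, nat_lit 15890] false,
   Spec.mk (nat_lit 35574) (nat_lit 0) [nat_lit 48696, nat_lit 31200, nat_lit 34116, nat_lit 36060, nat_lit 35412, nat_lit 35520, nat_lit 35592, nat_lit 35580, nat_lit 35572] (nat_lit 2) [nat_lit 15892] false,
   Spec.mk (nat_lit 35578) (nat_lit 0) [nat_lit 48700, nat_lit 31204, nat_lit 34120, nat_lit 36064, nat_lit 35416, nat_lit 35524, nat_lit 35596, nat_lit 35572, nat_lit 35580] (nat_lit 3) [nat_lit 55260, nat_lit 15896] false,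
   Spec.mk (nat_lit 35580) (nat_lit 0) [nat_lit 48702, nat_lit 31206, nat_lit 34122, nat_lit 36066, nat_lit 35418, nat_lit 35526, nat_lit 35598, nat_lit 35574, nat_lit 35578] (nat_lit 2) [nat_lit 15898] false,
   Spec.mk (nat_lit 35588) (nat_lit 0) [nat_lit 48710, nat_lit 31214, nat_lit 34130, nat_lit 36074, nat_lit 35426, nat_lit 35534, nat_lit 35642, nat_lit 35570, nat_lit 35590] (nat_lit 1) [nat_lit 55270] false,
   Spec.mk (nat_lit 35590) (nat_lit 0) [nat_lit 48712, nat_lit 31216, nat_lit 34132, nat_lit 36076, nat_lit 35428, nat_lit 35536, nat_lit 35644, nat_lit 35572, nat_lit 35596, nat_lit 35588, nat_lit 35592] (nat_lit 1) [nat_lit 55272, nat_lit 15908] false,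
   Spec.mk (nat_lit 35592) (nat_lit 0) [nat_lit 48714, nat_lit 31218, nat_lit 34134, nat_lit 36078, nat_lit 35430, nat_lit 35538, nat_lit 35646, nat_lit 35574, nat_lit 35598, nat_lit 35590] (nat_lit 3) [nat_lit 15910] false,
   Spec.mk (nat_lit 35596) (nat_lit 0) [nat_lit 48718, nat_lit 31222, nat_lit 34138, nat_lit 36082, nat_lit 35434, nat_lit 35542, nat_lit 35650, nat_lit 35578, nat_lit 35614, nat_lit 35590, nat_lit 35598] (nat_lit 1) [nat_lit 55278, nat_lit 15914] false,
   Spec.mk (nat_lit 35598) (nat_lit 0) [nat_lit 48720, nat_lit 31224, nat_lit 34140, nat_lit 36084, nat_lit 35436, nat_lit 35544, nat_lit 35652, nat_lit 35580, nat_lit 35616, nat_lit 35592, nat_lit 35604, nat_lit 35596] (nat_lit 1) [nat_lit 15916] false,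
   Spec.mk (nat_lit 35604) (nat_lit 0) [nat_lit 48726, nat_lit 31230, nat_lit 34146, nat_lit 36090, nat_lit 35442, nat_lit 35550, nat_lit 35658, nat_lit 35622, nat_lit 35598] (nat_lit 1) [nat_lit 15922] false,
   Spec.mk (nat_lit 35614) (nat_lit 0) [nat_lit 48736, nat_lit 31240, nat_lit 34156, nat_lit 36100, nat_lit 35452, nat_lit 35668, nat_lit 35596, nat_lit 35616] (nat_lit 1) [nat_lit 55296, nat_lit 15932] false,
   Spec.mk (nat_lit 35616) (nat_lit 0) [nat_lit 48738, nat_lit 31242, nat_lit 34158, nat_lit 36102, nat_lit 35454, nat_lit 35670, nat_lit 35598, nat_lit 35622, nat_lit 35614] (nat_lit 2) [nat_lit 15934] false,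
   Spec.mk (nat_lit 35622) (nat_lit 0) [nat_lit 48744, nat_lit 31248, nat_lit 34164, nat_lit 36108, nat_lit 35460, nat_lit 35676, nat_lit 35604, nat_lit 35616] (nat_lit 0) [nat_lit 15940] false,
   Spec.mk (nat_lit 35642) (nat_lit 0) [nat_lit 48764, nat_lit 31268, nat_lit 34184, nat_lit 36128, nat_lit 35588, nat_lit 35644] (nat_lit 0) [nat_lit 55324] false,
   Spec.mk (nat_lit 35644) (nat_lit 0) [nat_lit 48766, nat_lit 31270, nat_lit 34186, nat_lit 36130, nat_lit 35590, nat_lit 35650, nat_lit 35642, nat_lit 35646] (nat_lit 0) [nat_lit 55326, nat_lit 15962] false,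
   Spec.mk (nat_lit 35646) (nat_lit 0) [nat_lit 48768, nat_lit 31272, nat_lit 34188, nat_lit 36132, nat_lit 35592, nat_lit 35652, nat_lit 35644] (nat_lit 2) [nat_lit 15964] false,
   Spec.mk (nat_lit 35650) (nat_lit 0) [nat_lit 48772, nat_lit 31276, nat_lit 34192, nat_lit 36136, nat_lit 35596, nat_lit 35668, nat_lit 35644, nat_lit 35652] (nat_lit 1) [nat_lit 55332, nat_lit 15968] false,
   Spec.mk (nat_lit 35652) (nat_lit 0) [nat_lit 48774, nat_lit 31278, nat_lit 34194, nat_lit 36138, nat_lit 35598, nat_lit 35670, nat_lit 35646, nat_lit 35658, nat_lit 35650] (nat_lit 1) [nat_lit 15970] false,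
   Spec.mk (nat_lit 35658) (nat_lit 0) [nat_lit 48780, nat_lit 31284, nat_lit 34200, nat_lit 36144, nat_lit 35604, nat_lit 35676, nat_lit 35652] (nat_lit 2) [nat_lit 15976] false,
   Spec.mk (nat_lit 35668) (nat_lit 1) [nat_lit 48790, nat_lit 31294, nat_lit 34210, nat_lit 36154, nat_lit 35614, nat_lit 35650, nat_lit 35670] (nat_lit 0) [nat_lit 55350, nat_lit 15986] false,
   Spec.mk (nat_lit 35670) (nat_lit 0) [nat_lit 48792, nat_lit 31296, nat_lit 34212, nat_lit 36156, nat_lit 35616, nat_lit 35652, nat_lit 35676, nat_lit 35668] (nat_lit 0) [nat_lit 15988] false,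
   Spec.mk (nat_lit 35676) (nat_lit 1) [nat_lit 48798, nat_lit 31302, nat_lit 34218, nat_lit 36162, nat_lit 35622, nat_lit 35658, nat_lit 35694, nat_lit 35670] (nat_lit 0) [nat_lit 15994] false,
   Spec.mk (nat_lit 35694) (nat_lit 2) [nat_lit 48816, nat_lit 31320, nat_lit 34236, nat_lit 36180, nat_lit 35676] (nat_lit 0) [nat_lit 16012] false,
   Spec.mk (nat_lit 35738) (nat_lit 3) [nat_lit 48860, nat_lit 31364, nat_lit 34280, nat_lit 37196, nat_lit 35252, nat_lit 35756, nat_lit 35744] (nat_lit 0) [nat_lit 55420] false,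
   Spec.mk (nat_lit 35744) (nat_lit 1) [nat_lit 48866, nat_lit 31370, nat_lit 34286, nat_lit 37202, nat_lit 35258, nat_lit 35762, nat_lit 35738, nat_lit 35746] (nat_lit 0) [nat_lit 55426] false,
   Spec.mk (nat_lit 35746) (nat_lit 2) [nat_lit 48868, nat_lit 31372, nat_lit 34288, nat_lit 37204, nat_lit 35260, nat_lit 35764, nat_lit 35744] (nat_lit 0) [nat_lit 55428, nat_lit 16064] false,
   Spec.mk (nat_lit 35756) (nat_lit 1) [nat_lit 48878, nat_lit 31382, nat_lit 34298, nat_lit 37214, nat_lit 35270, nat_lit 35810, nat_lit 35738, nat_lit 35762] (nat_lit 0) [nat_lit 55438] false,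
   Spec.mk (nat_lit 35762) (nat_lit 1) [nat_lit 48884, nat_lit 31388, nat_lit 34304, nat_lit 37220, nat_lit 35276, nat_lit 35816, nat_lit 35744, nat_lit 35780, nat_lit 35756, nat_lit 35768, nat_lit 35764] (nat_lit 0) [nat_lit 55444] false,
   Spec.mk (nat_lit 35764) (nat_lit 1) [nat_lit 48886, nat_lit 31390, nat_lit 34306, nat_lit 37222, nat_lit 35278, nat_lit 35818, nat_lit 35746, nat_lit 35782, nat_lit 35770, nat_lit 35762] (nat_lit 0) [nat_lit 55446, nat_lit 16082] false,
   Spec.mk (nat_lit 35768) (nat_lit 0) [nat_lit 48890, nat_lit 31394, nat_lit 34310, nat_lit 37226, nat_lit 35282, nat_lit 35822, nat_lit 35786, nat_lit 35762, nat_lit 35770] (nat_lit 1) [nat_lit 55450] false,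
   Spec.mk (nat_lit 35770) (nat_lit 1) [nat_lit 48892, nat_lit 31396, nat_lit 34312, nat_lit 37228, nat_lit 35284, nat_lit 35824, nat_lit 35788, nat_lit 35764, nat_lit 35768, nat_lit 35772] (nat_lit 0) [nat_lit 55452, nat_lit 16088] false,
   Spec.mk (nat_lit 35772) (nat_lit 1) [nat_lit 48894, nat_lit 31398, nat_lit 34314, nat_lit 37230, nat_lit 35286, nat_lit 35826, nat_lit 35790, nat_lit 35770] (nat_lit 0) [nat_lit 16090] false,
   Spec.mk (nat_lit 35780) (nat_lit 0) [nat_lit 48902, nat_lit 31406, nat_lit 34322, nat_lit 37238, nat_lit 35294, nat_lit 35834, nat_lit 35762, nat_lit 35786, nat_lit 35782] (nat_lit 1) [nat_lit 55462] false,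
   Spec.mk (nat_lit 35782) (nat_lit 0) [nat_lit 48904, nat_lit 31408, nat_lit 34324, nat_lit 37240, nat_lit 35296, nat_lit 35836, nat_lit 35764, nat_lit 35788, nat_lit 35780] (nat_lit 2) [nat_lit 55464, nat_lit 16100] false,
   Spec.mk (nat_lit 35786) (nat_lit 0) [nat_lit 48908, nat_lit 31412, nat_lit 34328, nat_lit 37244, nat_lit 35300, nat_lit 35840, nat_lit 35768, nat_lit 35780, nat_lit 35788] (nat_lit 1) [nat_lit 55468] false,
   Spec.mk (nat_lit 35788) (nat_lit 0) [nat_lit 48910, nat_lit 31414, nat_lit 34330, nat_lit 37246, nat_lit 35302, nat_lit 35842, nat_lit 35770, nat_lit 35782, nat_lit 35794, nat_lit 35786, nat_lit 35790] (nat_lit 0) [nat_lit 55470, nat_lit 16106] false,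
   Spec.mk (nat_lit 35790) (nat_lit 0) [nat_lit 48912, nat_lit 31416, nat_lit 34332, nat_lit 37248, nat_lit 35304, nat_lit 35844, nat_lit 35772, nat_lit 35796, nat_lit 35788] (nat_lit 1) [nat_lit 16108] false,
   Spec.mk (nat_lit 35794) (nat_lit 0) [nat_lit 48916, nat_lit 31420, nat_lit 34336, nat_lit 37252, nat_lit 35308, nat_lit 35848, nat_lit 35788, nat_lit 35796] (nat_lit 0) [nat_lit 55476, nat_lit 16112] false,
   Spec.mk (nat_lit 35796) (nat_lit 1) [nat_lit 48918, nat_lit 31422, nat_lit 34338, nat_lit 37254, nat_lit 35310, nat_lit 35850, nat_lit 35790, nat_lit 35794] (nat_lit 0) [nat_lit 16114] false]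

noncomputable def sp93 : List Spec :=
  [Spec.mk (nat_lit 35810) (nat_lit 1) [nat_lit 48932, nat_lit 31436, nat_lit 34352, nat_lit 37268, nat_lit 35324, nat_lit 35972, nat_lit 35756, nat_lit 35816] (nat_lit 0) [nat_lit 55492] false,
   Spec.mk (nat_lit 35816) (nat_lit 0) [nat_lit 48938, nat_lit 31442, nat_lit 34358, nat_lit 37274, nat_lit 35330, nat_lit 35978, nat_lit 35762, nat_lit 35834, nat_lit 35810, nat_lit 35822, nat_lit 35818] (nat_lit 0) [nat_lit 55498] false,
   Spec.mk (nat_lit 35818) (nat_lit 0) [nat_lit 48940, nat_lit 31444, nat_lit 34360, nat_lit 37276, nat_lit 35332, nat_lit 35980, nat_lit 35764, nat_lit 35836, nat_lit 35824, nat_lit 35816] (nat_lit 0) [nat_lit 55500, nat_lit 16136] false,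
   Spec.mk (nat_lit 35822) (nat_lit 0) [nat_lit 48944, nat_lit 31448, nat_lit 34364, nat_lit 37280, nat_lit 35336, nat_lit 35984, nat_lit 35768, nat_lit 35840, nat_lit 35816, nat_lit 35824] (nat_lit 3) [nat_lit 55504] false,
   Spec.mk (nat_lit 35824) (nat_lit 0) [nat_lit 48946, nat_lit 31450, nat_lit 34366, nat_lit 37282, nat_lit 35338, nat_lit 35986, nat_lit 35770, nat_lit 35842, nat_lit 35818, nat_lit 35822, nat_lit 35826] (nat_lit 1) [nat_lit 55506, nat_lit 16142] false,
   Spec.mk (nat_lit 35826) (nat_lit 0) [nat_lit 48948, nat_lit 31452, nat_lit 34368, nat_lit 37284, nat_lit 35340, nat_lit 35988, nat_lit 35772, nat_lit 35844, nat_lit 35824] (nat_lit 1) [nat_lit 16144] false,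
   Spec.mk (nat_lit 35834) (nat_lit 0) [nat_lit 48956, nat_lit 31460, nat_lit 34376, nat_lit 37292, nat_lit 35348, nat_lit 35996, nat_lit 35780, nat_lit 35888, nat_lit 35816, nat_lit 35840, nat_lit 35836] (nat_lit 0) [nat_lit 55516] false,
   Spec.mk (nat_lit 35836) (nat_lit 0) [nat_lit 48958, nat_lit 31462, nat_lit 34378, nat_lit 37294, nat_lit 35350, nat_lit 35998, nat_lit 35782, nat_lit 35890, nat_lit 35818, nat_lit 35842, nat_lit 35834] (nat_lit 1) [nat_lit 55518, nat_lit 16154] false,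
   Spec.mk (nat_lit 35840) (nat_lit 0) [nat_lit 48962, nat_lit 31466, nat_lit 34382, nat_lit 37298, nat_lit 35354, nat_lit 36002, nat_lit 35786, nat_lit 35894, nat_lit 35822, nat_lit 35858, nat_lit 35834, nat_lit 35842] (nat_lit 1) [nat_lit 55522] false,
   Spec.mk (nat_lit 35842) (nat_lit 0) [nat_lit 48964, nat_lit 31468, nat_lit 34384, nat_lit 37300, nat_lit 35356, nat_lit 36004, nat_lit 35788, nat_lit 35896, nat_lit 35824, nat_lit 35860, nat_lit 35836, nat_lit 35848, nat_lit 35840, nat_lit 35844] (nat_lit 0) [nat_lit 55524, nat_lit 16160] false,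
   Spec.mk (nat_lit 35844) (nat_lit 0) [nat_lit 48966, nat_lit 31470, nat_lit 34386, nat_lit 37302, nat_lit 35358, nat_lit 36006, nat_lit 35790, nat_lit 35898, nat_lit 35826, nat_lit 35862, nat_lit 35850, nat_lit 35842] (nat_lit 1) [nat_lit 16162] false,
   Spec.mk (nat_lit 35848) (nat_lit 0) [nat_lit 48970, nat_lit 31474, nat_lit 34390, nat_lit 37306, nat_lit 35362, nat_lit 36010, nat_lit 35794, nat_lit 35902, nat_lit 35866, nat_lit 35842, nat_lit 35850] (nat_lit 1) [nat_lit 55530, nat_lit 16166] false,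
   Spec.mk (nat_lit 35850) (nat_lit 0) [nat_lit 48972, nat_lit 31476, nat_lit 34392, nat_lit 37308, nat_lit 35364, nat_lit 36012, nat_lit 35796, nat_lit 35904, nat_lit 35868, nat_lit 35844, nat_lit 35848] (nat_lit 0) [nat_lit 16168] false,
   Spec.mk (nat_lit 35858) (nat_lit 0) [nat_lit 48980, nat_lit 31484, nat_lit 34400, nat_lit 37316, nat_lit 35372, nat_lit 36020, nat_lit 35912, nat_lit 35840, nat_lit 35860] (nat_lit 1) [nat_lit 55540] false,
   Spec.mk (nat_lit 35860) (nat_lit 0) [nat_lit 48982, nat_lit 31486, nat_lit 34402, nat_lit 37318, nat_lit 35374, nat_lit 36022, nat_lit 35914, nat_lit 35842, nat_lit 35866, nat_lit 35858, nat_lit 35862] (nat_lit 1) [nat_lit 55542, nat_lit 16178] false,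
   Spec.mk (nat_lit 35862) (nat_lit 0) [nat_lit 48984, nat_lit 31488, nat_lit 34404, nat_lit 37320, nat_lit 35376, nat_lit 36024, nat_lit 35916, nat_lit 35844, nat_lit 35868, nat_lit 35860] (nat_lit 3) [nat_lit 16180] false,
   Spec.mk (nat_lit 35866) (nat_lit 0) [nat_lit 48988, nat_lit 31492, nat_lit 34408, nat_lit 37324, nat_lit 35380, nat_lit 36028, nat_lit 35920, nat_lit 35848, nat_lit 35860, nat_lit 35868] (nat_lit 0) [nat_lit 55548, nat_lit 16184] false,
   Spec.mk (nat_lit 35868) (nat_lit 0) [nat_lit 48990, nat_lit 31494, nat_lit 34410, nat_lit 37326, nat_lit 35382, nat_lit 36030, nat_lit 35922, nat_lit 35850, nat_lit 35862, nat_lit 35874, nat_lit 35866] (nat_lit 0) [nat_lit 16186] false,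
   Spec.mk (nat_lit 35874) (nat_lit 1) [nat_lit 48996, nat_lit 31500, nat_lit 34416, nat_lit 37332, nat_lit 35388, nat_lit 36036, nat_lit 35928, nat_lit 35868] (nat_lit 0) [nat_lit 16192] false,
   Spec.mk (nat_lit 35888) (nat_lit 0) [nat_lit 49010, nat_lit 31514, nat_lit 34430, nat_lit 37346, nat_lit 35402, nat_lit 36050, nat_lit 35834, nat_lit 35894, nat_lit 35890] (nat_lit 1) [nat_lit 55570] false,
   Spec.mk (nat_lit 35890) (nat_lit 0) [nat_lit 49012, nat_lit 31516, nat_lit 34432, nat_lit 37348, nat_lit 35404, nat_lit 36052, nat_lit 35836, nat_lit 35896, nat_lit 35888] (nat_lit 2) [nat_lit 55572, nat_lit 16208] false,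
   Spec.mk (nat_lit 35894) (nat_lit 0) [nat_lit 49016, nat_lit 31520, nat_lit 34436, nat_lit 37352, nat_lit 35408, nat_lit 36056, nat_lit 35840, nat_lit 35912, nat_lit 35888, nat_lit 35896] (nat_lit 3) [nat_lit 55576] false,
   Spec.mk (nat_lit 35896) (nat_lit 0) [nat_lit 49018, nat_lit 31522, nat_lit 34438, nat_lit 37354, nat_lit 35410, nat_lit 36058, nat_lit 35842, nat_lit 35914, nat_lit 35890, nat_lit 35902, nat_lit 35894, nat_lit 35898] (nat_lit 2) [nat_lit 55578, nat_lit 16214] false,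
   Spec.mk (nat_lit 35898) (nat_lit 0) [nat_lit 49020, nat_lit 31524, nat_lit 34440, nat_lit 37356, nat_lit 35412, nat_lit 36060, nat_lit 35844, nat_lit 35916, nat_lit 35904, nat_lit 35896] (nat_lit 3) [nat_lit 16216] false,
   Spec.mk (nat_lit 35902) (nat_lit 0) [nat_lit 49024, nat_lit 31528, nat_lit 34444, nat_lit 37360, nat_lit 35416, nat_lit 36064, nat_lit 35848, nat_lit 35920, nat_lit 35896, nat_lit 35904] (nat_lit 4) [nat_lit 55584, nat_lit 16220] false,
   Spec.mk (nat_lit 35904) (nat_lit 0) [nat_lit 49026, nat_lit 31530, nat_lit 34446, nat_lit 37362, nat_lit 35418, nat_lit 36066, nat_lit 35850, nat_lit 35922, nat_lit 35898, nat_lit 35902] (nat_lit 3) [nat_lit 16222] false,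
   Spec.mk (nat_lit 35912) (nat_lit 0) [nat_lit 49034, nat_lit 31538, nat_lit 34454, nat_lit 37370, nat_lit 35426, nat_lit 36074, nat_lit 35858, nat_lit 35894, nat_lit 35914] (nat_lit 1) [nat_lit 55594] false,
   Spec.mk (nat_lit 35914) (nat_lit 0) [nat_lit 49036, nat_lit 31540, nat_lit 34456, nat_lit 37372, nat_lit 35428, nat_lit 36076, nat_lit 35860, nat_lit 35896, nat_lit 35920, nat_lit 35912, nat_lit 35916] (nat_lit 1) [nat_lit 55596, nat_lit 16232] false,
   Spec.mk (nat_lit 35916) (nat_lit 0) [nat_lit 49038, nat_lit 31542, nat_lit 34458, nat_lit 37374, nat_lit 35430, nat_lit 36078, nat_lit 35862, nat_lit 35898, nat_lit 35922, nat_lit 35914] (nat_lit 3) [nat_lit 16234] false,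
   Spec.mk (nat_lit 35920) (nat_lit 0) [nat_lit 49042, nat_lit 31546, nat_lit 34462, nat_lit 37378, nat_lit 35434, nat_lit 36082, nat_lit 35866, nat_lit 35902, nat_lit 35938, nat_lit 35914, nat_lit 35922] (nat_lit 1) [nat_lit 55602, nat_lit 16238] false,
   Spec.mk (nat_lit 35922) (nat_lit 0) [nat_lit 49044, nat_lit 31548, nat_lit 34464, nat_lit 37380, nat_lit 35436, nat_lit 36084, nat_lit 35868, nat_lit 35904, nat_lit 35940, nat_lit 35916, nat_lit 35928, nat_lit 35920] (nat_lit 1) [nat_lit 16240] false,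
   Spec.mk (nat_lit 35928) (nat_lit 0) [nat_lit 49050, nat_lit 31554, nat_lit 34470, nat_lit 37386, nat_lit 35442, nat_lit 36090, nat_lit 35874, nat_lit 35946, nat_lit 35922] (nat_lit 1) [nat_lit 16246] false,
   Spec.mk (nat_lit 35938) (nat_lit 0) [nat_lit 49060, nat_lit 31564, nat_lit 34480, nat_lit 37396, nat_lit 35452, nat_lit 36100, nat_lit 35920, nat_lit 35940] (nat_lit 0) [nat_lit 55620, nat_lit 16256] false,
   Spec.mk (nat_lit 35940) (nat_lit 0) [nat_lit 49062, nat_lit 31566, nat_lit 34482, nat_lit 37398, nat_lit 35454, nat_lit 36102, nat_lit 35922, nat_lit 35946, nat_lit 35938] (nat_lit 1) [nat_lit 16258] false,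
   Spec.mk (nat_lit 35946) (nat_lit 1) [nat_lit 49068, nat_lit 31572, nat_lit 34488, nat_lit 37404, nat_lit 35460, nat_lit 36108, nat_lit 35928, nat_lit 35940] (nat_lit 0) [nat_lit 16264] false,
   Spec.mk (nat_lit 35972) (nat_lit 2) [nat_lit 49094, nat_lit 31598, nat_lit 34514, nat_lit 37430, nat_lit 35486, nat_lit 36458, nat_lit 35810, nat_lit 35978] (nat_lit 0) [nat_lit 55654] false,
   Spec.mk (nat_lit 35978) (nat_lit 1) [nat_lit 49100, nat_lit 31604, nat_lit 34520, nat_lit 37436, nat_lit 35492, nat_lit 36464, nat_lit 35816, nat_lit 35996, nat_lit 35972, nat_lit 35984, nat_lit 35980] (nat_lit 0) [nat_lit 55660] false,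
   Spec.mk (nat_lit 35980) (nat_lit 1) [nat_lit 49102, nat_lit 31606, nat_lit 34522, nat_lit 37438, nat_lit 35494, nat_lit 36466, nat_lit 35818, nat_lit 35998, nat_lit 35986, nat_lit 35978] (nat_lit 0) [nat_lit 55662, nat_lit 16298] false,
   Spec.mk (nat_lit 35984) (nat_lit 0) [nat_lit 49106, nat_lit 31610, nat_lit 34526, nat_lit 37442, nat_lit 35498, nat_lit 36470, nat_lit 35822, nat_lit 36002, nat_lit 35978, nat_lit 35986] (nat_lit 2) [nat_lit 55666] false,
   Spec.mk (nat_lit 35986) (nat_lit 0) [nat_lit 49108, nat_lit 31612, nat_lit 34528, nat_lit 37444, nat_lit 35500, nat_lit 36472, nat_lit 35824, nat_lit 36004, nat_lit 35980, nat_lit 35984, nat_lit 35988] (nat_lit 0) [nat_lit 55668, nat_lit 16304] false,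
   Spec.mk (nat_lit 35988) (nat_lit 0) [nat_lit 49110, nat_lit 31614, nat_lit 34530, nat_lit 37446, nat_lit 35502, nat_lit 36474, nat_lit 35826, nat_lit 36006, nat_lit 35986] (nat_lit 0) [nat_lit 16306] false,
   Spec.mk (nat_lit 35996) (nat_lit 0) [nat_lit 49118, nat_lit 31622, nat_lit 34538, nat_lit 37454, nat_lit 35510, nat_lit 36482, nat_lit 35834, nat_lit 36050, nat_lit 35978, nat_lit 36002, nat_lit 35998] (nat_lit 0) [nat_lit 55678] false,
   Spec.mk (nat_lit 35998) (nat_lit 0) [nat_lit 49120, nat_lit 31624, nat_lit 34540, nat_lit 37456, nat_lit 35512, nat_lit 36484, nat_lit 35836, nat_lit 36052, nat_lit 35980, nat_lit 36004, nat_lit 35996] (nat_lit 1) [nat_lit 55680, nat_lit 16316] false,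
   Spec.mk (nat_lit 36002) (nat_lit 0) [nat_lit 49124, nat_lit 31628, nat_lit 34544, nat_lit 37460, nat_lit 35516, nat_lit 36488, nat_lit 35840, nat_lit 36056, nat_lit 35984, nat_lit 36020, nat_lit 35996, nat_lit 36004] (nat_lit 1) [nat_lit 55684] false,
   Spec.mk (nat_lit 36004) (nat_lit 0) [nat_lit 49126, nat_lit 31630, nat_lit 34546, nat_lit 37462, nat_lit 35518, nat_lit 36490, nat_lit 35842, nat_lit 36058, nat_lit 35986, nat_lit 36022, nat_lit 35998, nat_lit 36010, nat_lit 36002, nat_lit 36006] (nat_lit 0) [nat_lit 55686, nat_lit 16322] false,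
   Spec.mk (nat_lit 36006) (nat_lit 0) [nat_lit 49128, nat_lit 31632, nat_lit 34548, nat_lit 37464, nat_lit 35520, nat_lit 36492, nat_lit 35844, nat_lit 36060, nat_lit 35988, nat_lit 36024, nat_lit 36012, nat_lit 36004] (nat_lit 1) [nat_lit 16324] false,
   Spec.mk (nat_lit 36010) (nat_lit 0) [nat_lit 49132, nat_lit 31636, nat_lit 34552, nat_lit 37468, nat_lit 35524, nat_lit 36496, nat_lit 35848, nat_lit 36064, nat_lit 36028, nat_lit 36004, nat_lit 36012] (nat_lit 1) [nat_lit 55692, nat_lit 16328] false,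
   Spec.mk (nat_lit 36012) (nat_lit 0) [nat_lit 49134, nat_lit 31638, nat_lit 34554, nat_lit 37470, nat_lit 35526, nat_lit 36498, nat_lit 35850, nat_lit 36066, nat_lit 36030, nat_lit 36006, nat_lit 36010] (nat_lit 0) [nat_lit 16330] false,
   Spec.mk (nat_lit 36020) (nat_lit 0) [nat_lit 49142, nat_lit 31646, nat_lit 34562, nat_lit 37478, nat_lit 35534, nat_lit 36506, nat_lit 35858, nat_lit 36074, nat_lit 36002, nat_lit 36022] (nat_lit 2) [nat_lit 55702] false,
   Spec.mk (nat_lit 36022) (nat_lit 0) [nat_lit 49144, nat_lit 31648, nat_lit 34564, nat_lit 37480, nat_lit 35536, nat_lit 36508, nat_lit 35860, nat_lit 36076, nat_lit 36004, nat_lit 36028, nat_lit 36020, nat_lit 36024] (nat_lit 2) [nat_lit 55704, nat_lit 16340] false,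
   Spec.mk (nat_lit 36024) (nat_lit 0) [nat_lit 49146, nat_lit 31650, nat_lit 34566, nat_lit 37482, nat_lit 35538, nat_lit 36510, nat_lit 35862, nat_lit 36078, nat_lit 36006, nat_lit 36030, nat_lit 36022] (nat_lit 4) [nat_lit 16342] false,
   Spec.mk (nat_lit 36028) (nat_lit 0) [nat_lit 49150, nat_lit 31654, nat_lit 34570, nat_lit 37486, nat_lit 35542, nat_lit 36514, nat_lit 35866, nat_lit 36082, nat_lit 36010, nat_lit 36022, nat_lit 36030] (nat_lit 1) [nat_lit 55710, nat_lit 16346] false,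
   Spec.mk (nat_lit 36030) (nat_lit 0) [nat_lit 49152, nat_lit 31656, nat_lit 34572, nat_lit 37488, nat_lit 35544, nat_lit 36516, nat_lit 35868, nat_lit 36084, nat_lit 36012, nat_lit 36024, nat_lit 36036, nat_lit 36028] (nat_lit 1) [nat_lit 16348] false,
   Spec.mk (nat_lit 36036) (nat_lit 0) [nat_lit 49158, nat_lit 31662, nat_lit 34578, nat_lit 37494, nat_lit 35550, nat_lit 36522, nat_lit 35874, nat_lit 36090, nat_lit 36030] (nat_lit 0) [nat_lit 16354] false,
   Spec.mk (nat_lit 36050) (nat_lit 1) [nat_lit 49172, nat_lit 31676, nat_lit 34592, nat_lit 37508, nat_lit 35564, nat_lit 36536, nat_lit 35888, nat_lit 36212, nat_lit 35996, nat_lit 36056, nat_lit 36052] (nat_lit 0) [nat_lit 55732] false,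
   Spec.mk (nat_lit 36052) (nat_lit 0) [nat_lit 49174, nat_lit 31678, nat_lit 34594, nat_lit 37510, nat_lit 35566, nat_lit 36538, nat_lit 35890, nat_lit 36214, nat_lit 35998, nat_lit 36058, nat_lit 36050] (nat_lit 0) [nat_lit 55734, nat_lit 16370] false,
   Spec.mk (nat_lit 36056) (nat_lit 0) [nat_lit 49178, nat_lit 31682, nat_lit 34598, nat_lit 37514, nat_lit 35570, nat_lit 36542, nat_lit 35894, nat_lit 36218, nat_lit 36002, nat_lit 36074, nat_lit 36050, nat_lit 36058] (nat_lit 1) [nat_lit 55738] false,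
   Spec.mk (nat_lit 36058) (nat_lit 0) [nat_lit 49180, nat_lit 31684, nat_lit 34600, nat_lit 37516, nat_lit 35572, nat_lit 36544, nat_lit 35896, nat_lit 36220, nat_lit 36004, nat_lit 36076, nat_lit 36052, nat_lit 36064, nat_lit 36056, nat_lit 36060] (nat_lit 0) [nat_lit 55740, nat_lit 16376] false,
   Spec.mk (nat_lit 36060) (nat_lit 0) [nat_lit 49182, nat_lit 31686, nat_lit 34602, nat_lit 37518, nat_lit 35574, nat_lit 36546, nat_lit 35898, nat_lit 36222, nat_lit 36006, nat_lit 36078, nat_lit 36066, nat_lit 36058] (nat_lit 1) [nat_lit 16378] false,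
   Spec.mk (nat_lit 36064) (nat_lit 0) [nat_lit 49186, nat_lit 31690, nat_lit 34606, nat_lit 37522, nat_lit 35578, nat_lit 36550, nat_lit 35902, nat_lit 36226, nat_lit 36010, nat_lit 36082, nat_lit 36058, nat_lit 36066] (nat_lit 2) [nat_lit 55746, nat_lit 16382] false]

noncomputable def sp94 : List Spec :=
  [Spec.mk (nat_lit 36066) (nat_lit 0) [nat_lit 49188, nat_lit 31692, nat_lit 34608, nat_lit 37524, nat_lit 35580, nat_lit 36552, nat_lit 35904, nat_lit 36228, nat_lit 36012, nat_lit 36084, nat_lit 36060, nat_lit 36064] (nat_lit 1) [nat_lit 16384] false,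
   Spec.mk (nat_lit 36074) (nat_lit 0) [nat_lit 49196, nat_lit 31700, nat_lit 34616, nat_lit 37532, nat_lit 35588, nat_lit 36560, nat_lit 35912, nat_lit 36236, nat_lit 36020, nat_lit 36128, nat_lit 36056, nat_lit 36076] (nat_lit 0) [nat_lit 55756] false,
   Spec.mk (nat_lit 36076) (nat_lit 0) [nat_lit 49198, nat_lit 31702, nat_lit 34618, nat_lit 37534, nat_lit 35590, nat_lit 36562, nat_lit 35914, nat_lit 36238, nat_lit 36022, nat_lit 36130, nat_lit 36058, nat_lit 36082, nat_lit 36074, nat_lit 36078] (nat_lit 0) [nat_lit 55758, nat_lit 16394] false,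
   Spec.mk (nat_lit 36078) (nat_lit 0) [nat_lit 49200, nat_lit 31704, nat_lit 34620, nat_lit 37536, nat_lit 35592, nat_lit 36564, nat_lit 35916, nat_lit 36240, nat_lit 36024, nat_lit 36132, nat_lit 36060, nat_lit 36084, nat_lit 36076] (nat_lit 2) [nat_lit 16396] false,
   Spec.mk (nat_lit 36082) (nat_lit 0) [nat_lit 49204, nat_lit 31708, nat_lit 34624, nat_lit 37540, nat_lit 35596, nat_lit 36568, nat_lit 35920, nat_lit 36244, nat_lit 36028, nat_lit 36136, nat_lit 36064, nat_lit 36100, nat_lit 36076, nat_lit 36084] (nat_lit 0) [nat_lit 55764, nat_lit 16400] false,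
   Spec.mk (nat_lit 36084) (nat_lit 0) [nat_lit 49206, nat_lit 31710, nat_lit 34626, nat_lit 37542, nat_lit 35598, nat_lit 36570, nat_lit 35922, nat_lit 36246, nat_lit 36030, nat_lit 36138, nat_lit 36066, nat_lit 36102, nat_lit 36078, nat_lit 36090, nat_lit 36082] (nat_lit 0) [nat_lit 16402] false,
   Spec.mk (nat_lit 36090) (nat_lit 0) [nat_lit 49212, nat_lit 31716, nat_lit 34632, nat_lit 37548, nat_lit 35604, nat_lit 36576, nat_lit 35928, nat_lit 36252, nat_lit 36036, nat_lit 36144, nat_lit 36108, nat_lit 36084] (nat_lit 0) [nat_lit 16408] false,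
   Spec.mk (nat_lit 36100) (nat_lit 0) [nat_lit 49222, nat_lit 31726, nat_lit 34642, nat_lit 37558, nat_lit 35614, nat_lit 36586, nat_lit 35938, nat_lit 36262, nat_lit 36154, nat_lit 36082, nat_lit 36102] (nat_lit 0) [nat_lit 55782, nat_lit 16418] false,
   Spec.mk (nat_lit 36102) (nat_lit 0) [nat_lit 49224, nat_lit 31728, nat_lit 34644, nat_lit 37560, nat_lit 35616, nat_lit 36588, nat_lit 35940, nat_lit 36264, nat_lit 36156, nat_lit 36084, nat_lit 36108, nat_lit 36100] (nat_lit 1) [nat_lit 16420] false,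
   Spec.mk (nat_lit 36108) (nat_lit 1) [nat_lit 49230, nat_lit 31734, nat_lit 34650, nat_lit 37566, nat_lit 35622, nat_lit 36594, nat_lit 35946, nat_lit 36270, nat_lit 36162, nat_lit 36090, nat_lit 36102] (nat_lit 0) [nat_lit 16426] false,
   Spec.mk (nat_lit 36128) (nat_lit 0) [nat_lit 49250, nat_lit 31754, nat_lit 34670, nat_lit 37586, nat_lit 35642, nat_lit 36614, nat_lit 36290, nat_lit 36074, nat_lit 36130] (nat_lit 0) [nat_lit 55810] false,
   Spec.mk (nat_lit 36130) (nat_lit 0) [nat_lit 49252, nat_lit 31756, nat_lit 34672, nat_lit 37588, nat_lit 35644, nat_lit 36616, nat_lit 36292, nat_lit 36076, nat_lit 36136, nat_lit 36128, nat_lit 36132] (nat_lit 0) [nat_lit 55812, nat_lit 16448] false,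
   Spec.mk (nat_lit 36132) (nat_lit 0) [nat_lit 49254, nat_lit 31758, nat_lit 34674, nat_lit 37590, nat_lit 35646, nat_lit 36618, nat_lit 36294, nat_lit 36078, nat_lit 36138, nat_lit 36130] (nat_lit 2) [nat_lit 16450] false,
   Spec.mk (nat_lit 36136) (nat_lit 0) [nat_lit 49258, nat_lit 31762, nat_lit 34678, nat_lit 37594, nat_lit 35650, nat_lit 36622, nat_lit 36298, nat_lit 36082, nat_lit 36154, nat_lit 36130, nat_lit 36138] (nat_lit 1) [nat_lit 55818, nat_lit 16454] false,
   Spec.mk (nat_lit 36138) (nat_lit 0) [nat_lit 49260, nat_lit 31764, nat_lit 34680, nat_lit 37596, nat_lit 35652, nat_lit 36624, nat_lit 36300, nat_lit 36084, nat_lit 36156, nat_lit 36132, nat_lit 36144, nat_lit 36136] (nat_lit 1) [nat_lit 16456] false,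
   Spec.mk (nat_lit 36144) (nat_lit 0) [nat_lit 49266, nat_lit 31770, nat_lit 34686, nat_lit 37602, nat_lit 35658, nat_lit 36630, nat_lit 36306, nat_lit 36090, nat_lit 36162, nat_lit 36138] (nat_lit 2) [nat_lit 16462] false,
   Spec.mk (nat_lit 36154) (nat_lit 1) [nat_lit 49276, nat_lit 31780, nat_lit 34696, nat_lit 37612, nat_lit 35668, nat_lit 36640, nat_lit 36316, nat_lit 36100, nat_lit 36136, nat_lit 36156] (nat_lit 0) [nat_lit 55836, nat_lit 16472] false,
   Spec.mk (nat_lit 36156) (nat_lit 0) [nat_lit 49278, nat_lit 31782, nat_lit 34698, nat_lit 37614, nat_lit 35670, nat_lit 36642, nat_lit 36318, nat_lit 36102, nat_lit 36138, nat_lit 36162, nat_lit 36154] (nat_lit 0) [nat_lit 16474] false,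
   Spec.mk (nat_lit 36162) (nat_lit 1) [nat_lit 49284, nat_lit 31788, nat_lit 34704, nat_lit 37620, nat_lit 35676, nat_lit 36648, nat_lit 36324, nat_lit 36108, nat_lit 36144, nat_lit 36180, nat_lit 36156] (nat_lit 0) [nat_lit 16480] false,
   Spec.mk (nat_lit 36180) (nat_lit 2) [nat_lit 49302, nat_lit 31806, nat_lit 34722, nat_lit 37638, nat_lit 35694, nat_lit 36666, nat_lit 36342, nat_lit 36162] (nat_lit 0) [nat_lit 16498] false,
   Spec.mk (nat_lit 36212) (nat_lit 1) [nat_lit 49334, nat_lit 31838, nat_lit 34754, nat_lit 37670, nat_lit 36698, nat_lit 36050, nat_lit 36218, nat_lit 36214] (nat_lit 0) [nat_lit 55894] false,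
   Spec.mk (nat_lit 36214) (nat_lit 0) [nat_lit 49336, nat_lit 31840, nat_lit 34756, nat_lit 37672, nat_lit 36700, nat_lit 36052, nat_lit 36220, nat_lit 36212] (nat_lit 0) [nat_lit 55896, nat_lit 16532] false,
   Spec.mk (nat_lit 36218) (nat_lit 0) [nat_lit 49340, nat_lit 31844, nat_lit 34760, nat_lit 37676, nat_lit 36704, nat_lit 36056, nat_lit 36236, nat_lit 36212, nat_lit 36220] (nat_lit 1) [nat_lit 55900] false,
   Spec.mk (nat_lit 36220) (nat_lit 0) [nat_lit 49342, nat_lit 31846, nat_lit 34762, nat_lit 37678, nat_lit 36706, nat_lit 36058, nat_lit 36238, nat_lit 36214, nat_lit 36226, nat_lit 36218, nat_lit 36222] (nat_lit 0) [nat_lit 55902, nat_lit 16538] false,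
   Spec.mk (nat_lit 36222) (nat_lit 0) [nat_lit 49344, nat_lit 31848, nat_lit 34764, nat_lit 37680, nat_lit 36708, nat_lit 36060, nat_lit 36240, nat_lit 36228, nat_lit 36220] (nat_lit 1) [nat_lit 16540] false,
   Spec.mk (nat_lit 36226) (nat_lit 0) [nat_lit 49348, nat_lit 31852, nat_lit 34768, nat_lit 37684, nat_lit 36712, nat_lit 36064, nat_lit 36244, nat_lit 36220, nat_lit 36228] (nat_lit 2) [nat_lit 55908, nat_lit 16544] false,
   Spec.mk (nat_lit 36228) (nat_lit 0) [nat_lit 49350, nat_lit 31854, nat_lit 34770, nat_lit 37686, nat_lit 36714, nat_lit 36066, nat_lit 36246, nat_lit 36222, nat_lit 36226] (nat_lit 1) [nat_lit 16546] false,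
   Spec.mk (nat_lit 36236) (nat_lit 0) [nat_lit 49358, nat_lit 31862, nat_lit 34778, nat_lit 37694, nat_lit 36722, nat_lit 36074, nat_lit 36290, nat_lit 36218, nat_lit 36238] (nat_lit 1) [nat_lit 55918] false,
   Spec.mk (nat_lit 36238) (nat_lit 0) [nat_lit 49360, nat_lit 31864, nat_lit 34780, nat_lit 37696, nat_lit 36724, nat_lit 36076, nat_lit 36292, nat_lit 36220, nat_lit 36244, nat_lit 36236, nat_lit 36240] (nat_lit 1) [nat_lit 55920, nat_lit 16556] false,
   Spec.mk (nat_lit 36240) (nat_lit 0) [nat_lit 49362, nat_lit 31866, nat_lit 34782, nat_lit 37698, nat_lit 36726, nat_lit 36078, nat_lit 36294, nat_lit 36222, nat_lit 36246, nat_lit 36238] (nat_lit 3) [nat_lit 16558] false,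
   Spec.mk (nat_lit 36244) (nat_lit 0) [nat_lit 49366, nat_lit 31870, nat_lit 34786, nat_lit 37702, nat_lit 36730, nat_lit 36082, nat_lit 36298, nat_lit 36226, nat_lit 36262, nat_lit 36238, nat_lit 36246] (nat_lit 1) [nat_lit 55926, nat_lit 16562] false,
   Spec.mk (nat_lit 36246) (nat_lit 0) [nat_lit 49368, nat_lit 31872, nat_lit 34788, nat_lit 37704, nat_lit 36732, nat_lit 36084, nat_lit 36300, nat_lit 36228, nat_lit 36264, nat_lit 36240, nat_lit 36252, nat_lit 36244] (nat_lit 1) [nat_lit 16564] false,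
   Spec.mk (nat_lit 36252) (nat_lit 0) [nat_lit 49374, nat_lit 31878, nat_lit 34794, nat_lit 37710, nat_lit 36738, nat_lit 36090, nat_lit 36306, nat_lit 36270, nat_lit 36246] (nat_lit 1) [nat_lit 16570] false,
   Spec.mk (nat_lit 36262) (nat_lit 0) [nat_lit 49384, nat_lit 31888, nat_lit 34804, nat_lit 37720, nat_lit 36748, nat_lit 36100, nat_lit 36316, nat_lit 36244, nat_lit 36264] (nat_lit 2) [nat_lit 55944, nat_lit 16580] false,
   Spec.mk (nat_lit 36264) (nat_lit 0) [nat_lit 49386, nat_lit 31890, nat_lit 34806, nat_lit 37722, nat_lit 36750, nat_lit 36102, nat_lit 36318, nat_lit 36246, nat_lit 36270, nat_lit 36262] (nat_lit 3) [nat_lit 16582] false,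
   Spec.mk (nat_lit 36270) (nat_lit 0) [nat_lit 49392, nat_lit 31896, nat_lit 34812, nat_lit 37728, nat_lit 36756, nat_lit 36108, nat_lit 36324, nat_lit 36252, nat_lit 36264] (nat_lit 1) [nat_lit 16588] false,
   Spec.mk (nat_lit 36290) (nat_lit 1) [nat_lit 49412, nat_lit 31916, nat_lit 34832, nat_lit 37748, nat_lit 36776, nat_lit 36128, nat_lit 36236, nat_lit 36292] (nat_lit 0) [nat_lit 55972] false,
   Spec.mk (nat_lit 36292) (nat_lit 1) [nat_lit 49414, nat_lit 31918, nat_lit 34834, nat_lit 37750, nat_lit 36778, nat_lit 36130, nat_lit 36238, nat_lit 36298, nat_lit 36290, nat_lit 36294] (nat_lit 0) [nat_lit 55974, nat_lit 16610] false,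
   Spec.mk (nat_lit 36294) (nat_lit 0) [nat_lit 49416, nat_lit 31920, nat_lit 34836, nat_lit 37752, nat_lit 36780, nat_lit 36132, nat_lit 36240, nat_lit 36300, nat_lit 36292] (nat_lit 1) [nat_lit 16612] false,
   Spec.mk (nat_lit 36298) (nat_lit 0) [nat_lit 49420, nat_lit 31924, nat_lit 34840, nat_lit 37756, nat_lit 36784, nat_lit 36136, nat_lit 36244, nat_lit 36316, nat_lit 36292, nat_lit 36300] (nat_lit 0) [nat_lit 55980, nat_lit 16616] false,
   Spec.mk (nat_lit 36300) (nat_lit 0) [nat_lit 49422, nat_lit 31926, nat_lit 34842, nat_lit 37758, nat_lit 36786, nat_lit 36138, nat_lit 36246, nat_lit 36318, nat_lit 36294, nat_lit 36306, nat_lit 36298] (nat_lit 0) [nat_lit 16618] false,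
   Spec.mk (nat_lit 36306) (nat_lit 0) [nat_lit 49428, nat_lit 31932, nat_lit 34848, nat_lit 37764, nat_lit 36792, nat_lit 36144, nat_lit 36252, nat_lit 36324, nat_lit 36300] (nat_lit 1) [nat_lit 16624] false,
   Spec.mk (nat_lit 36316) (nat_lit 1) [nat_lit 49438, nat_lit 31942, nat_lit 34858, nat_lit 37774, nat_lit 36802, nat_lit 36154, nat_lit 36262, nat_lit 36370, nat_lit 36298, nat_lit 36318] (nat_lit 0) [nat_lit 55998, nat_lit 16634] false,
   Spec.mk (nat_lit 36318) (nat_lit 0) [nat_lit 49440, nat_lit 31944, nat_lit 34860, nat_lit 37776, nat_lit 36804, nat_lit 36156, nat_lit 36264, nat_lit 36372, nat_lit 36300, nat_lit 36324, nat_lit 36316] (nat_lit 0) [nat_lit 16636] false,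
   Spec.mk (nat_lit 36324) (nat_lit 1) [nat_lit 49446, nat_lit 31950, nat_lit 34866, nat_lit 37782, nat_lit 36810, nat_lit 36162, nat_lit 36270, nat_lit 36378, nat_lit 36306, nat_lit 36342, nat_lit 36318] (nat_lit 0) [nat_lit 16642] false,
   Spec.mk (nat_lit 36342) (nat_lit 1) [nat_lit 49464, nat_lit 31968, nat_lit 34884, nat_lit 37800, nat_lit 36828, nat_lit 36180, nat_lit 36396, nat_lit 36324] (nat_lit 0) [nat_lit 16660] false,
   Spec.mk (nat_lit 36370) (nat_lit 2) [nat_lit 49492, nat_lit 31996, nat_lit 34912, nat_lit 37828, nat_lit 36856, nat_lit 36316, nat_lit 36372] (nat_lit 0) [nat_lit 56052, nat_lit 16688] false,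
   Spec.mk (nat_lit 36372) (nat_lit 1) [nat_lit 49494, nat_lit 31998, nat_lit 34914, nat_lit 37830, nat_lit 36858, nat_lit 36318, nat_lit 36378, nat_lit 36370] (nat_lit 0) [nat_lit 16690] false,
   Spec.mk (nat_lit 36378) (nat_lit 1) [nat_lit 49500, nat_lit 32004, nat_lit 34920, nat_lit 37836, nat_lit 36864, nat_lit 36324, nat_lit 36396, nat_lit 36372] (nat_lit 0) [nat_lit 16696] false,
   Spec.mk (nat_lit 36396) (nat_lit 3) [nat_lit 49518, nat_lit 32022, nat_lit 34938, nat_lit 37854, nat_lit 36882, nat_lit 36342, nat_lit 36378] (nat_lit 0) [nat_lit 16714] false,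
   Spec.mk (nat_lit 36458) (nat_lit 2) [nat_lit 49580, nat_lit 32084, nat_lit 37916, nat_lit 35972, nat_lit 36464] (nat_lit 0) [nat_lit 56140] false,
   Spec.mk (nat_lit 36464) (nat_lit 1) [nat_lit 49586, nat_lit 32090, nat_lit 37922, nat_lit 35978, nat_lit 36482, nat_lit 36458, nat_lit 36470, nat_lit 36466] (nat_lit 0) [nat_lit 56146] false,
   Spec.mk (nat_lit 36466) (nat_lit 1) [nat_lit 49588, nat_lit 32092, nat_lit 37924, nat_lit 35980, nat_lit 36484, nat_lit 36472, nat_lit 36464] (nat_lit 0) [nat_lit 56148, nat_lit 16784] false,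
   Spec.mk (nat_lit 36470) (nat_lit 0) [nat_lit 49592, nat_lit 32096, nat_lit 37928, nat_lit 35984, nat_lit 36488, nat_lit 36464, nat_lit 36472] (nat_lit 2) [nat_lit 56152] false,
   Spec.mk (nat_lit 36472) (nat_lit 0) [nat_lit 49594, nat_lit 32098, nat_lit 37930, nat_lit 35986, nat_lit 36490, nat_lit 36466, nat_lit 36470, nat_lit 36474] (nat_lit 0) [nat_lit 56154, nat_lit 16790] false,
   Spec.mk (nat_lit 36474) (nat_lit 0) [nat_lit 49596, nat_lit 32100, nat_lit 37932, nat_lit 35988, nat_lit 36492, nat_lit 36472] (nat_lit 0) [nat_lit 16792] false,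
   Spec.mk (nat_lit 36482) (nat_lit 0) [nat_lit 49604, nat_lit 32108, nat_lit 37940, nat_lit 35996, nat_lit 36536, nat_lit 36464, nat_lit 36488, nat_lit 36484] (nat_lit 0) [nat_lit 56164] false,
   Spec.mk (nat_lit 36484) (nat_lit 0) [nat_lit 49606, nat_lit 32110, nat_lit 37942, nat_lit 35998, nat_lit 36538, nat_lit 36466, nat_lit 36490, nat_lit 36482] (nat_lit 1) [nat_lit 56166, nat_lit 16802] false,
   Spec.mk (nat_lit 36488) (nat_lit 0) [nat_lit 49610, nat_lit 32114, nat_lit 37946, nat_lit 36002, nat_lit 36542, nat_lit 36470, nat_lit 36506, nat_lit 36482, nat_lit 36490] (nat_lit 1) [nat_lit 56170] false,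
   Spec.mk (nat_lit 36490) (nat_lit 0) [nat_lit 49612, nat_lit 32116, nat_lit 37948, nat_lit 36004, nat_lit 36544, nat_lit 36472, nat_lit 36508, nat_lit 36484, nat_lit 36496, nat_lit 36488, nat_lit 36492] (nat_lit 0) [nat_lit 56172, nat_lit 16808] false]

noncomputable def sp95 : List Spec :=
  [Spec.mk (nat_lit 36492) (nat_lit 0) [nat_lit 49614, nat_lit 32118, nat_lit 37950, nat_lit 36006, nat_lit 36546, nat_lit 36474, nat_lit 36510, nat_lit 36498, nat_lit 36490] (nat_lit 1) [nat_lit 16810] false,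
   Spec.mk (nat_lit 36496) (nat_lit 0) [nat_lit 49618, nat_lit 32122, nat_lit 37954, nat_lit 36010, nat_lit 36550, nat_lit 36514, nat_lit 36490, nat_lit 36498] (nat_lit 1) [nat_lit 56178, nat_lit 16814] false,
   Spec.mk (nat_lit 36498) (nat_lit 0) [nat_lit 49620, nat_lit 32124, nat_lit 37956, nat_lit 36012, nat_lit 36552, nat_lit 36516, nat_lit 36492, nat_lit 36496] (nat_lit 0) [nat_lit 16816] false,
   Spec.mk (nat_lit 36506) (nat_lit 0) [nat_lit 49628, nat_lit 32132, nat_lit 37964, nat_lit 36020, nat_lit 36560, nat_lit 36488, nat_lit 36508] (nat_lit 2) [nat_lit 56188] false,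
   Spec.mk (nat_lit 36508) (nat_lit 0) [nat_lit 49630, nat_lit 32134, nat_lit 37966, nat_lit 36022, nat_lit 36562, nat_lit 36490, nat_lit 36514, nat_lit 36506, nat_lit 36510] (nat_lit 2) [nat_lit 56190, nat_lit 16826] false,
   Spec.mk (nat_lit 36510) (nat_lit 0) [nat_lit 49632, nat_lit 32136, nat_lit 37968, nat_lit 36024, nat_lit 36564, nat_lit 36492, nat_lit 36516, nat_lit 36508] (nat_lit 4) [nat_lit 16828] false,
   Spec.mk (nat_lit 36514) (nat_lit 0) [nat_lit 49636, nat_lit 32140, nat_lit 37972, nat_lit 36028, nat_lit 36568, nat_lit 36496, nat_lit 36508, nat_lit 36516] (nat_lit 1) [nat_lit 56196, nat_lit 16832] false,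
   Spec.mk (nat_lit 36516) (nat_lit 0) [nat_lit 49638, nat_lit 32142, nat_lit 37974, nat_lit 36030, nat_lit 36570, nat_lit 36498, nat_lit 36510, nat_lit 36522, nat_lit 36514] (nat_lit 1) [nat_lit 16834] false,
   Spec.mk (nat_lit 36522) (nat_lit 0) [nat_lit 49644, nat_lit 32148, nat_lit 37980, nat_lit 36036, nat_lit 36576, nat_lit 36516] (nat_lit 0) [nat_lit 16840] false,
   Spec.mk (nat_lit 36536) (nat_lit 0) [nat_lit 49658, nat_lit 32162, nat_lit 37994, nat_lit 36050, nat_lit 36698, nat_lit 36482, nat_lit 36542, nat_lit 36538] (nat_lit 0) [nat_lit 56218] false,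
   Spec.mk (nat_lit 36538) (nat_lit 0) [nat_lit 49660, nat_lit 32164, nat_lit 37996, nat_lit 36052, nat_lit 36700, nat_lit 36484, nat_lit 36544, nat_lit 36536] (nat_lit 1) [nat_lit 56220, nat_lit 16856] false,
   Spec.mk (nat_lit 36542) (nat_lit 0) [nat_lit 49664, nat_lit 32168, nat_lit 38000, nat_lit 36056, nat_lit 36704, nat_lit 36488, nat_lit 36560, nat_lit 36536, nat_lit 36544] (nat_lit 2) [nat_lit 56224] false,
   Spec.mk (nat_lit 36544) (nat_lit 0) [nat_lit 49666, nat_lit 32170, nat_lit 38002, nat_lit 36058, nat_lit 36706, nat_lit 36490, nat_lit 36562, nat_lit 36538, nat_lit 36550, nat_lit 36542, nat_lit 36546] (nat_lit 1) [nat_lit 56226, nat_lit 16862] false,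
   Spec.mk (nat_lit 36546) (nat_lit 0) [nat_lit 49668, nat_lit 32172, nat_lit 38004, nat_lit 36060, nat_lit 36708, nat_lit 36492, nat_lit 36564, nat_lit 36552, nat_lit 36544] (nat_lit 2) [nat_lit 16864] false,
   Spec.mk (nat_lit 36550) (nat_lit 0) [nat_lit 49672, nat_lit 32176, nat_lit 38008, nat_lit 36064, nat_lit 36712, nat_lit 36496, nat_lit 36568, nat_lit 36544, nat_lit 36552] (nat_lit 3) [nat_lit 56232, nat_lit 16868] false,
   Spec.mk (nat_lit 36552) (nat_lit 0) [nat_lit 49674, nat_lit 32178, nat_lit 38010, nat_lit 36066, nat_lit 36714, nat_lit 36498, nat_lit 36570, nat_lit 36546, nat_lit 36550] (nat_lit 2) [nat_lit 16870] false,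
   Spec.mk (nat_lit 36560) (nat_lit 0) [nat_lit 49682, nat_lit 32186, nat_lit 38018, nat_lit 36074, nat_lit 36722, nat_lit 36506, nat_lit 36614, nat_lit 36542, nat_lit 36562] (nat_lit 1) [nat_lit 56242] false,
   Spec.mk (nat_lit 36562) (nat_lit 0) [nat_lit 49684, nat_lit 32188, nat_lit 38020, nat_lit 36076, nat_lit 36724, nat_lit 36508, nat_lit 36616, nat_lit 36544, nat_lit 36568, nat_lit 36560, nat_lit 36564] (nat_lit 1) [nat_lit 56244, nat_lit 16880] false,
   Spec.mk (nat_lit 36564) (nat_lit 0) [nat_lit 49686, nat_lit 32190, nat_lit 38022, nat_lit 36078, nat_lit 36726, nat_lit 36510, nat_lit 36618, nat_lit 36546, nat_lit 36570, nat_lit 36562] (nat_lit 3) [nat_lit 16882] false,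
   Spec.mk (nat_lit 36568) (nat_lit 0) [nat_lit 49690, nat_lit 32194, nat_lit 38026, nat_lit 36082, nat_lit 36730, nat_lit 36514, nat_lit 36622, nat_lit 36550, nat_lit 36586, nat_lit 36562, nat_lit 36570] (nat_lit 1) [nat_lit 56250, nat_lit 16886] false,
   Spec.mk (nat_lit 36570) (nat_lit 0) [nat_lit 49692, nat_lit 32196, nat_lit 38028, nat_lit 36084, nat_lit 36732, nat_lit 36516, nat_lit 36624, nat_lit 36552, nat_lit 36588, nat_lit 36564, nat_lit 36576, nat_lit 36568] (nat_lit 1) [nat_lit 16888] false,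
   Spec.mk (nat_lit 36576) (nat_lit 0) [nat_lit 49698, nat_lit 32202, nat_lit 38034, nat_lit 36090, nat_lit 36738, nat_lit 36522, nat_lit 36630, nat_lit 36594, nat_lit 36570] (nat_lit 1) [nat_lit 16894] false,
   Spec.mk (nat_lit 36586) (nat_lit 0) [nat_lit 49708, nat_lit 32212, nat_lit 38044, nat_lit 36100, nat_lit 36748, nat_lit 36640, nat_lit 36568, nat_lit 36588] (nat_lit 1) [nat_lit 56268, nat_lit 16904] false,
   Spec.mk (nat_lit 36588) (nat_lit 0) [nat_lit 49710, nat_lit 32214, nat_lit 38046, nat_lit 36102, nat_lit 36750, nat_lit 36642, nat_lit 36570, nat_lit 36594, nat_lit 36586] (nat_lit 2) [nat_lit 16906] false,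
   Spec.mk (nat_lit 36594) (nat_lit 0) [nat_lit 49716, nat_lit 32220, nat_lit 38052, nat_lit 36108, nat_lit 36756, nat_lit 36648, nat_lit 36576, nat_lit 36588] (nat_lit 0) [nat_lit 16912] false,
   Spec.mk (nat_lit 36614) (nat_lit 0) [nat_lit 49736, nat_lit 32240, nat_lit 38072, nat_lit 36128, nat_lit 36776, nat_lit 36560, nat_lit 36616] (nat_lit 2) [nat_lit 56296] false,
   Spec.mk (nat_lit 36616) (nat_lit 0) [nat_lit 49738, nat_lit 32242, nat_lit 38074, nat_lit 36130, nat_lit 36778, nat_lit 36562, nat_lit 36622, nat_lit 36614, nat_lit 36618] (nat_lit 2) [nat_lit 56298, nat_lit 16934] false,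
   Spec.mk (nat_lit 36618) (nat_lit 0) [nat_lit 49740, nat_lit 32244, nat_lit 38076, nat_lit 36132, nat_lit 36780, nat_lit 36564, nat_lit 36624, nat_lit 36616] (nat_lit 4) [nat_lit 16936] false,
   Spec.mk (nat_lit 36622) (nat_lit 0) [nat_lit 49744, nat_lit 32248, nat_lit 38080, nat_lit 36136, nat_lit 36784, nat_lit 36568, nat_lit 36640, nat_lit 36616, nat_lit 36624] (nat_lit 3) [nat_lit 56304, nat_lit 16940] false,
   Spec.mk (nat_lit 36624) (nat_lit 0) [nat_lit 49746, nat_lit 32250, nat_lit 38082, nat_lit 36138, nat_lit 36786, nat_lit 36570, nat_lit 36642, nat_lit 36618, nat_lit 36630, nat_lit 36622] (nat_lit 3) [nat_lit 16942] false,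
   Spec.mk (nat_lit 36630) (nat_lit 0) [nat_lit 49752, nat_lit 32256, nat_lit 38088, nat_lit 36144, nat_lit 36792, nat_lit 36576, nat_lit 36648, nat_lit 36624] (nat_lit 4) [nat_lit 16948] false,
   Spec.mk (nat_lit 36640) (nat_lit 0) [nat_lit 49762, nat_lit 32266, nat_lit 38098, nat_lit 36154, nat_lit 36802, nat_lit 36586, nat_lit 36622, nat_lit 36642] (nat_lit 1) [nat_lit 56322, nat_lit 16958] false,
   Spec.mk (nat_lit 36642) (nat_lit 0) [nat_lit 49764, nat_lit 32268, nat_lit 38100, nat_lit 36156, nat_lit 36804, nat_lit 36588, nat_lit 36624, nat_lit 36648, nat_lit 36640] (nat_lit 2) [nat_lit 16960] false,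
   Spec.mk (nat_lit 36648) (nat_lit 0) [nat_lit 49770, nat_lit 32274, nat_lit 38106, nat_lit 36162, nat_lit 36810, nat_lit 36594, nat_lit 36630, nat_lit 36666, nat_lit 36642] (nat_lit 1) [nat_lit 16966] false,
   Spec.mk (nat_lit 36666) (nat_lit 0) [nat_lit 49788, nat_lit 32292, nat_lit 38124, nat_lit 36180, nat_lit 36828, nat_lit 36648] (nat_lit 0) [nat_lit 16984] false,
   Spec.mk (nat_lit 36698) (nat_lit 2) [nat_lit 49820, nat_lit 32324, nat_lit 38156, nat_lit 36212, nat_lit 36536, nat_lit 36704, nat_lit 36700] (nat_lit 0) [nat_lit 56380] false,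
   Spec.mk (nat_lit 36700) (nat_lit 1) [nat_lit 49822, nat_lit 32326, nat_lit 38158, nat_lit 36214, nat_lit 36538, nat_lit 36706, nat_lit 36698] (nat_lit 0) [nat_lit 56382, nat_lit 17018] false,
   Spec.mk (nat_lit 36704) (nat_lit 0) [nat_lit 49826, nat_lit 32330, nat_lit 38162, nat_lit 36218, nat_lit 36542, nat_lit 36722, nat_lit 36698, nat_lit 36706] (nat_lit 0) [nat_lit 56386] false,
   Spec.mk (nat_lit 36706) (nat_lit 1) [nat_lit 49828, nat_lit 32332, nat_lit 38164, nat_lit 36220, nat_lit 36544, nat_lit 36724, nat_lit 36700, nat_lit 36712, nat_lit 36704, nat_lit 36708] (nat_lit 0) [nat_lit 56388, nat_lit 17024] false,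
   Spec.mk (nat_lit 36708) (nat_lit 0) [nat_lit 49830, nat_lit 32334, nat_lit 38166, nat_lit 36222, nat_lit 36546, nat_lit 36726, nat_lit 36714, nat_lit 36706] (nat_lit 0) [nat_lit 17026] false,
   Spec.mk (nat_lit 36712) (nat_lit 0) [nat_lit 49834, nat_lit 32338, nat_lit 38170, nat_lit 36226, nat_lit 36550, nat_lit 36730, nat_lit 36706, nat_lit 36714] (nat_lit 1) [nat_lit 56394, nat_lit 17030] false,
   Spec.mk (nat_lit 36714) (nat_lit 0) [nat_lit 49836, nat_lit 32340, nat_lit 38172, nat_lit 36228, nat_lit 36552, nat_lit 36732, nat_lit 36708, nat_lit 36712] (nat_lit 0) [nat_lit 17032] false,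
   Spec.mk (nat_lit 36722) (nat_lit 0) [nat_lit 49844, nat_lit 32348, nat_lit 38180, nat_lit 36236, nat_lit 36560, nat_lit 36776, nat_lit 36704, nat_lit 36724] (nat_lit 0) [nat_lit 56404] false,
   Spec.mk (nat_lit 36724) (nat_lit 0) [nat_lit 49846, nat_lit 32350, nat_lit 38182, nat_lit 36238, nat_lit 36562, nat_lit 36778, nat_lit 36706, nat_lit 36730, nat_lit 36722, nat_lit 36726] (nat_lit 0) [nat_lit 56406, nat_lit 17042] false,
   Spec.mk (nat_lit 36726) (nat_lit 0) [nat_lit 49848, nat_lit 32352, nat_lit 38184, nat_lit 36240, nat_lit 36564, nat_lit 36780, nat_lit 36708, nat_lit 36732, nat_lit 36724] (nat_lit 2) [nat_lit 17044] false,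
   Spec.mk (nat_lit 36730) (nat_lit 0) [nat_lit 49852, nat_lit 32356, nat_lit 38188, nat_lit 36244, nat_lit 36568, nat_lit 36784, nat_lit 36712, nat_lit 36748, nat_lit 36724, nat_lit 36732] (nat_lit 0) [nat_lit 56412, nat_lit 17048] false,
   Spec.mk (nat_lit 36732) (nat_lit 0) [nat_lit 49854, nat_lit 32358, nat_lit 38190, nat_lit 36246, nat_lit 36570, nat_lit 36786, nat_lit 36714, nat_lit 36750, nat_lit 36726, nat_lit 36738, nat_lit 36730] (nat_lit 0) [nat_lit 17050] false,
   Spec.mk (nat_lit 36738) (nat_lit 0) [nat_lit 49860, nat_lit 32364, nat_lit 38196, nat_lit 36252, nat_lit 36576, nat_lit 36792, nat_lit 36756, nat_lit 36732] (nat_lit 0) [nat_lit 17056] false,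
   Spec.mk (nat_lit 36748) (nat_lit 0) [nat_lit 49870, nat_lit 32374, nat_lit 38206, nat_lit 36262, nat_lit 36586, nat_lit 36802, nat_lit 36730, nat_lit 36750] (nat_lit 1) [nat_lit 56430, nat_lit 17066] false,
   Spec.mk (nat_lit 36750) (nat_lit 0) [nat_lit 49872, nat_lit 32376, nat_lit 38208, nat_lit 36264, nat_lit 36588, nat_lit 36804, nat_lit 36732, nat_lit 36756, nat_lit 36748] (nat_lit 2) [nat_lit 17068] false,
   Spec.mk (nat_lit 36756) (nat_lit 0) [nat_lit 49878, nat_lit 32382, nat_lit 38214, nat_lit 36270, nat_lit 36594, nat_lit 36810, nat_lit 36738, nat_lit 36750] (nat_lit 0) [nat_lit 17074] false,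
   Spec.mk (nat_lit 36776) (nat_lit 1) [nat_lit 49898, nat_lit 32402, nat_lit 38234, nat_lit 36290, nat_lit 36614, nat_lit 36938, nat_lit 36722, nat_lit 36778] (nat_lit 0) [nat_lit 56458] false,
   Spec.mk (nat_lit 36778) (nat_lit 1) [nat_lit 49900, nat_lit 32404, nat_lit 38236, nat_lit 36292, nat_lit 36616, nat_lit 36940, nat_lit 36724, nat_lit 36784, nat_lit 36776, nat_lit 36780] (nat_lit 0) [nat_lit 56460, nat_lit 17096] false,
   Spec.mk (nat_lit 36780) (nat_lit 0) [nat_lit 49902, nat_lit 32406, nat_lit 38238, nat_lit 36294, nat_lit 36618, nat_lit 36942, nat_lit 36726, nat_lit 36786, nat_lit 36778] (nat_lit 1) [nat_lit 17098] false,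
   Spec.mk (nat_lit 36784) (nat_lit 0) [nat_lit 49906, nat_lit 32410, nat_lit 38242, nat_lit 36298, nat_lit 36622, nat_lit 36946, nat_lit 36730, nat_lit 36802, nat_lit 36778, nat_lit 36786] (nat_lit 0) [nat_lit 56466, nat_lit 17102] false,
   Spec.mk (nat_lit 36786) (nat_lit 0) [nat_lit 49908, nat_lit 32412, nat_lit 38244, nat_lit 36300, nat_lit 36624, nat_lit 36948, nat_lit 36732, nat_lit 36804, nat_lit 36780, nat_lit 36792, nat_lit 36784] (nat_lit 0) [nat_lit 17104] false,
   Spec.mk (nat_lit 36792) (nat_lit 0) [nat_lit 49914, nat_lit 32418, nat_lit 38250, nat_lit 36306, nat_lit 36630, nat_lit 36954, nat_lit 36738, nat_lit 36810, nat_lit 36786] (nat_lit 1) [nat_lit 17110] false,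
   Spec.mk (nat_lit 36802) (nat_lit 1) [nat_lit 49924, nat_lit 32428, nat_lit 38260, nat_lit 36316, nat_lit 36640, nat_lit 36964, nat_lit 36748, nat_lit 36856, nat_lit 36784, nat_lit 36804] (nat_lit 0) [nat_lit 56484, nat_lit 17120] false,
   Spec.mk (nat_lit 36804) (nat_lit 0) [nat_lit 49926, nat_lit 32430, nat_lit 38262, nat_lit 36318, nat_lit 36642, nat_lit 36966, nat_lit 36750, nat_lit 36858, nat_lit 36786, nat_lit 36810, nat_lit 36802] (nat_lit 0) [nat_lit 17122] false,
   Spec.mk (nat_lit 36810) (nat_lit 1) [nat_lit 49932, nat_lit 32436, nat_lit 38268, nat_lit 36324, nat_lit 36648, nat_lit 36972, nat_lit 36756, nat_lit 36864, nat_lit 36792, nat_lit 36828, nat_lit 36804] (nat_lit 0) [nat_lit 17128] false]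

noncomputable def sp96 : List Spec :=
  [Spec.mk (nat_lit 36828) (nat_lit 1) [nat_lit 49950, nat_lit 32454, nat_lit 38286, nat_lit 36342, nat_lit 36666, nat_lit 36990, nat_lit 36882, nat_lit 36810] (nat_lit 0) [nat_lit 17146] false,
   Spec.mk (nat_lit 36856) (nat_lit 1) [nat_lit 49978, nat_lit 32482, nat_lit 38314, nat_lit 36370, nat_lit 37018, nat_lit 36802, nat_lit 36858] (nat_lit 0) [nat_lit 56538, nat_lit 17174] false,
   Spec.mk (nat_lit 36858) (nat_lit 0) [nat_lit 49980, nat_lit 32484, nat_lit 38316, nat_lit 36372, nat_lit 37020, nat_lit 36804, nat_lit 36864, nat_lit 36856] (nat_lit 0) [nat_lit 17176] false,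
   Spec.mk (nat_lit 36864) (nat_lit 0) [nat_lit 49986, nat_lit 32490, nat_lit 38322, nat_lit 36378, nat_lit 37026, nat_lit 36810, nat_lit 36882, nat_lit 36858] (nat_lit 0) [nat_lit 17182] false,
   Spec.mk (nat_lit 36882) (nat_lit 2) [nat_lit 50004, nat_lit 32508, nat_lit 38340, nat_lit 36396, nat_lit 37044, nat_lit 36828, nat_lit 36864] (nat_lit 0) [nat_lit 17200] false,
   Spec.mk (nat_lit 36938) (nat_lit 2) [nat_lit 50060, nat_lit 32564, nat_lit 38396, nat_lit 36776, nat_lit 36940] (nat_lit 0) [nat_lit 56620] false,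
   Spec.mk (nat_lit 36940) (nat_lit 2) [nat_lit 50062, nat_lit 32566, nat_lit 38398, nat_lit 36778, nat_lit 36946, nat_lit 36938, nat_lit 36942] (nat_lit 0) [nat_lit 56622, nat_lit 17258] false,
   Spec.mk (nat_lit 36942) (nat_lit 0) [nat_lit 50064, nat_lit 32568, nat_lit 38400, nat_lit 36780, nat_lit 36948, nat_lit 36940] (nat_lit 0) [nat_lit 17260] false,
   Spec.mk (nat_lit 36946) (nat_lit 1) [nat_lit 50068, nat_lit 32572, nat_lit 38404, nat_lit 36784, nat_lit 36964, nat_lit 36940, nat_lit 36948] (nat_lit 0) [nat_lit 56628, nat_lit 17264] false,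
   Spec.mk (nat_lit 36948) (nat_lit 1) [nat_lit 50070, nat_lit 32574, nat_lit 38406, nat_lit 36786, nat_lit 36966, nat_lit 36942, nat_lit 36954, nat_lit 36946] (nat_lit 0) [nat_lit 17266] false,
   Spec.mk (nat_lit 36954) (nat_lit 0) [nat_lit 50076, nat_lit 32580, nat_lit 38412, nat_lit 36792, nat_lit 36972, nat_lit 36948] (nat_lit 0) [nat_lit 17272] false,
   Spec.mk (nat_lit 36964) (nat_lit 1) [nat_lit 50086, nat_lit 32590, nat_lit 38422, nat_lit 36802, nat_lit 37018, nat_lit 36946, nat_lit 36966] (nat_lit 0) [nat_lit 56646, nat_lit 17282] false,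
   Spec.mk (nat_lit 36966) (nat_lit 0) [nat_lit 50088, nat_lit 32592, nat_lit 38424, nat_lit 36804, nat_lit 37020, nat_lit 36948, nat_lit 36972, nat_lit 36964] (nat_lit 0) [nat_lit 17284] false,
   Spec.mk (nat_lit 36972) (nat_lit 1) [nat_lit 50094, nat_lit 32598, nat_lit 38430, nat_lit 36810, nat_lit 37026, nat_lit 36954, nat_lit 36990, nat_lit 36966] (nat_lit 0) [nat_lit 17290] false,
   Spec.mk (nat_lit 36990) (nat_lit 0) [nat_lit 50112, nat_lit 32616, nat_lit 38448, nat_lit 36828, nat_lit 37044, nat_lit 36972] (nat_lit 0) [nat_lit 17308] false,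
   Spec.mk (nat_lit 37018) (nat_lit 3) [nat_lit 50140, nat_lit 32644, nat_lit 38476, nat_lit 36856, nat_lit 36964, nat_lit 37020] (nat_lit 0) [nat_lit 56700, nat_lit 17336] false,
   Spec.mk (nat_lit 37020) (nat_lit 2) [nat_lit 50142, nat_lit 32646, nat_lit 38478, nat_lit 36858, nat_lit 36966, nat_lit 37026, nat_lit 37018] (nat_lit 0) [nat_lit 17338] false,
   Spec.mk (nat_lit 37026) (nat_lit 2) [nat_lit 50148, nat_lit 32652, nat_lit 38484, nat_lit 36864, nat_lit 36972, nat_lit 37044, nat_lit 37020] (nat_lit 0) [nat_lit 17344] false,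
   Spec.mk (nat_lit 37044) (nat_lit 3) [nat_lit 50166, nat_lit 32670, nat_lit 38502, nat_lit 36882, nat_lit 36990, nat_lit 37098, nat_lit 37026] (nat_lit 0) [nat_lit 17362] false,
   Spec.mk (nat_lit 37098) (nat_lit 4) [nat_lit 50220, nat_lit 32724, nat_lit 38556, nat_lit 37044] (nat_lit 0) [nat_lit 17416] false,
   Spec.mk (nat_lit 37196) (nat_lit 4) [nat_lit 50318, nat_lit 35738, nat_lit 37214, nat_lit 37202] (nat_lit 0) [nat_lit 56878] false,
   Spec.mk (nat_lit 37202) (nat_lit 2) [nat_lit 50324, nat_lit 35744, nat_lit 37220, nat_lit 37196, nat_lit 37204] (nat_lit 0) [nat_lit 56884] false,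
   Spec.mk (nat_lit 37204) (nat_lit 3) [nat_lit 50326, nat_lit 35746, nat_lit 37222, nat_lit 37202] (nat_lit 0) [nat_lit 56886, nat_lit 17522] false,
   Spec.mk (nat_lit 37214) (nat_lit 2) [nat_lit 50336, nat_lit 35756, nat_lit 37268, nat_lit 37196, nat_lit 37220] (nat_lit 0) [nat_lit 56896] false,
   Spec.mk (nat_lit 37220) (nat_lit 2) [nat_lit 50342, nat_lit 35762, nat_lit 37274, nat_lit 37202, nat_lit 37238, nat_lit 37214, nat_lit 37226, nat_lit 37222] (nat_lit 0) [nat_lit 56902] false,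
   Spec.mk (nat_lit 37222) (nat_lit 2) [nat_lit 50344, nat_lit 35764, nat_lit 37276, nat_lit 37204, nat_lit 37240, nat_lit 37228, nat_lit 37220] (nat_lit 0) [nat_lit 56904, nat_lit 17540] false,
   Spec.mk (nat_lit 37226) (nat_lit 0) [nat_lit 50348, nat_lit 35768, nat_lit 37280, nat_lit 37244, nat_lit 37220, nat_lit 37228] (nat_lit 0) [nat_lit 56908] false,
   Spec.mk (nat_lit 37228) (nat_lit 2) [nat_lit 50350, nat_lit 35770, nat_lit 37282, nat_lit 37246, nat_lit 37222, nat_lit 37226, nat_lit 37230] (nat_lit 0) [nat_lit 56910, nat_lit 17546] false,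
   Spec.mk (nat_lit 37230) (nat_lit 2) [nat_lit 50352, nat_lit 35772, nat_lit 37284, nat_lit 37248, nat_lit 37228] (nat_lit 0) [nat_lit 17548] false,
   Spec.mk (nat_lit 37238) (nat_lit 0) [nat_lit 50360, nat_lit 35780, nat_lit 37292, nat_lit 37220, nat_lit 37244, nat_lit 37240] (nat_lit 0) [nat_lit 56920] false,
   Spec.mk (nat_lit 37240) (nat_lit 0) [nat_lit 50362, nat_lit 35782, nat_lit 37294, nat_lit 37222, nat_lit 37246, nat_lit 37238] (nat_lit 1) [nat_lit 56922, nat_lit 17558] false,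
   Spec.mk (nat_lit 37244) (nat_lit 0) [nat_lit 50366, nat_lit 35786, nat_lit 37298, nat_lit 37226, nat_lit 37238, nat_lit 37246] (nat_lit 0) [nat_lit 56926] false,
   Spec.mk (nat_lit 37246) (nat_lit 1) [nat_lit 50368, nat_lit 35788, nat_lit 37300, nat_lit 37228, nat_lit 37240, nat_lit 37252, nat_lit 37244, nat_lit 37248] (nat_lit 0) [nat_lit 56928, nat_lit 17564] false,
   Spec.mk (nat_lit 37248) (nat_lit 0) [nat_lit 50370, nat_lit 35790, nat_lit 37302, nat_lit 37230, nat_lit 37254, nat_lit 37246] (nat_lit 0) [nat_lit 17566] false,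
   Spec.mk (nat_lit 37252) (nat_lit 1) [nat_lit 50374, nat_lit 35794, nat_lit 37306, nat_lit 37246, nat_lit 37254] (nat_lit 0) [nat_lit 56934, nat_lit 17570] false,
   Spec.mk (nat_lit 37254) (nat_lit 2) [nat_lit 50376, nat_lit 35796, nat_lit 37308, nat_lit 37248, nat_lit 37252] (nat_lit 0) [nat_lit 17572] false,
   Spec.mk (nat_lit 37268) (nat_lit 2) [nat_lit 50390, nat_lit 35810, nat_lit 37430, nat_lit 37214, nat_lit 37274] (nat_lit 0) [nat_lit 56950] false,
   Spec.mk (nat_lit 37274) (nat_lit 1) [nat_lit 50396, nat_lit 35816, nat_lit 37436, nat_lit 37220, nat_lit 37292, nat_lit 37268, nat_lit 37280, nat_lit 37276] (nat_lit 0) [nat_lit 56956] false,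
   Spec.mk (nat_lit 37276) (nat_lit 1) [nat_lit 50398, nat_lit 35818, nat_lit 37438, nat_lit 37222, nat_lit 37294, nat_lit 37282, nat_lit 37274] (nat_lit 0) [nat_lit 56958, nat_lit 17594] false,
   Spec.mk (nat_lit 37280) (nat_lit 0) [nat_lit 50402, nat_lit 35822, nat_lit 37442, nat_lit 37226, nat_lit 37298, nat_lit 37274, nat_lit 37282] (nat_lit 2) [nat_lit 56962] false,
   Spec.mk (nat_lit 37282) (nat_lit 0) [nat_lit 50404, nat_lit 35824, nat_lit 37444, nat_lit 37228, nat_lit 37300, nat_lit 37276, nat_lit 37280, nat_lit 37284] (nat_lit 0) [nat_lit 56964, nat_lit 17600] false,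
   Spec.mk (nat_lit 37284) (nat_lit 0) [nat_lit 50406, nat_lit 35826, nat_lit 37446, nat_lit 37230, nat_lit 37302, nat_lit 37282] (nat_lit 0) [nat_lit 17602] false,
   Spec.mk (nat_lit 37292) (nat_lit 1) [nat_lit 50414, nat_lit 35834, nat_lit 37454, nat_lit 37238, nat_lit 37346, nat_lit 37274, nat_lit 37298, nat_lit 37294] (nat_lit 0) [nat_lit 56974] false,
   Spec.mk (nat_lit 37294) (nat_lit 0) [nat_lit 50416, nat_lit 35836, nat_lit 37456, nat_lit 37240, nat_lit 37348, nat_lit 37276, nat_lit 37300, nat_lit 37292] (nat_lit 0) [nat_lit 56976, nat_lit 17612] false,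
   Spec.mk (nat_lit 37298) (nat_lit 0) [nat_lit 50420, nat_lit 35840, nat_lit 37460, nat_lit 37244, nat_lit 37352, nat_lit 37280, nat_lit 37316, nat_lit 37292, nat_lit 37300] (nat_lit 0) [nat_lit 56980] false,
   Spec.mk (nat_lit 37300) (nat_lit 1) [nat_lit 50422, nat_lit 35842, nat_lit 37462, nat_lit 37246, nat_lit 37354, nat_lit 37282, nat_lit 37318, nat_lit 37294, nat_lit 37306, nat_lit 37298, nat_lit 37302] (nat_lit 0) [nat_lit 56982, nat_lit 17618] false,
   Spec.mk (nat_lit 37302) (nat_lit 0) [nat_lit 50424, nat_lit 35844, nat_lit 37464, nat_lit 37248, nat_lit 37356, nat_lit 37284, nat_lit 37320, nat_lit 37308, nat_lit 37300] (nat_lit 0) [nat_lit 17620] false,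
   Spec.mk (nat_lit 37306) (nat_lit 0) [nat_lit 50428, nat_lit 35848, nat_lit 37468, nat_lit 37252, nat_lit 37360, nat_lit 37324, nat_lit 37300, nat_lit 37308] (nat_lit 0) [nat_lit 56988, nat_lit 17624] false,
   Spec.mk (nat_lit 37308) (nat_lit 1) [nat_lit 50430, nat_lit 35850, nat_lit 37470, nat_lit 37254, nat_lit 37362, nat_lit 37326, nat_lit 37302, nat_lit 37306] (nat_lit 0) [nat_lit 17626] false,
   Spec.mk (nat_lit 37316) (nat_lit 0) [nat_lit 50438, nat_lit 35858, nat_lit 37478, nat_lit 37370, nat_lit 37298, nat_lit 37318] (nat_lit 0) [nat_lit 56998] false,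
   Spec.mk (nat_lit 37318) (nat_lit 0) [nat_lit 50440, nat_lit 35860, nat_lit 37480, nat_lit 37372, nat_lit 37300, nat_lit 37324, nat_lit 37316, nat_lit 37320] (nat_lit 0) [nat_lit 57000, nat_lit 17636] false,
   Spec.mk (nat_lit 37320) (nat_lit 0) [nat_lit 50442, nat_lit 35862, nat_lit 37482, nat_lit 37374, nat_lit 37302, nat_lit 37326, nat_lit 37318] (nat_lit 2) [nat_lit 17638] false,
   Spec.mk (nat_lit 37324) (nat_lit 1) [nat_lit 50446, nat_lit 35866, nat_lit 37486, nat_lit 37378, nat_lit 37306, nat_lit 37318, nat_lit 37326] (nat_lit 0) [nat_lit 57006, nat_lit 17642] false,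
   Spec.mk (nat_lit 37326) (nat_lit 1) [nat_lit 50448, nat_lit 35868, nat_lit 37488, nat_lit 37380, nat_lit 37308, nat_lit 37320, nat_lit 37332, nat_lit 37324] (nat_lit 0) [nat_lit 17644] false,
   Spec.mk (nat_lit 37332) (nat_lit 2) [nat_lit 50454, nat_lit 35874, nat_lit 37494, nat_lit 37386, nat_lit 37326] (nat_lit 0) [nat_lit 17650] false,
   Spec.mk (nat_lit 37346) (nat_lit 0) [nat_lit 50468, nat_lit 35888, nat_lit 37508, nat_lit 37292, nat_lit 37352, nat_lit 37348] (nat_lit 0) [nat_lit 57028] false,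
   Spec.mk (nat_lit 37348) (nat_lit 0) [nat_lit 50470, nat_lit 35890, nat_lit 37510, nat_lit 37294, nat_lit 37354, nat_lit 37346] (nat_lit 1) [nat_lit 57030, nat_lit 17666] false,
   Spec.mk (nat_lit 37352) (nat_lit 0) [nat_lit 50474, nat_lit 35894, nat_lit 37514, nat_lit 37298, nat_lit 37370, nat_lit 37346, nat_lit 37354] (nat_lit 2) [nat_lit 57034] false,
   Spec.mk (nat_lit 37354) (nat_lit 0) [nat_lit 50476, nat_lit 35896, nat_lit 37516, nat_lit 37300, nat_lit 37372, nat_lit 37348, nat_lit 37360, nat_lit 37352, nat_lit 37356] (nat_lit 1) [nat_lit 57036, nat_lit 17672] false,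
   Spec.mk (nat_lit 37356) (nat_lit 0) [nat_lit 50478, nat_lit 35898, nat_lit 37518, nat_lit 37302, nat_lit 37374, nat_lit 37362, nat_lit 37354] (nat_lit 2) [nat_lit 17674] false]

noncomputable def sp97 : List Spec :=
  [Spec.mk (nat_lit 37360) (nat_lit 0) [nat_lit 50482, nat_lit 35902, nat_lit 37522, nat_lit 37306, nat_lit 37378, nat_lit 37354, nat_lit 37362] (nat_lit 3) [nat_lit 57042, nat_lit 17678] false,
   Spec.mk (nat_lit 37362) (nat_lit 0) [nat_lit 50484, nat_lit 35904, nat_lit 37524, nat_lit 37308, nat_lit 37380, nat_lit 37356, nat_lit 37360] (nat_lit 2) [nat_lit 17680] false,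
   Spec.mk (nat_lit 37370) (nat_lit 0) [nat_lit 50492, nat_lit 35912, nat_lit 37532, nat_lit 37316, nat_lit 37352, nat_lit 37372] (nat_lit 0) [nat_lit 57052] false,
   Spec.mk (nat_lit 37372) (nat_lit 0) [nat_lit 50494, nat_lit 35914, nat_lit 37534, nat_lit 37318, nat_lit 37354, nat_lit 37378, nat_lit 37370, nat_lit 37374] (nat_lit 0) [nat_lit 57054, nat_lit 17690] false,
   Spec.mk (nat_lit 37374) (nat_lit 0) [nat_lit 50496, nat_lit 35916, nat_lit 37536, nat_lit 37320, nat_lit 37356, nat_lit 37380, nat_lit 37372] (nat_lit 2) [nat_lit 17692] false,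
   Spec.mk (nat_lit 37378) (nat_lit 0) [nat_lit 50500, nat_lit 35920, nat_lit 37540, nat_lit 37324, nat_lit 37360, nat_lit 37396, nat_lit 37372, nat_lit 37380] (nat_lit 0) [nat_lit 57060, nat_lit 17696] false,
   Spec.mk (nat_lit 37380) (nat_lit 0) [nat_lit 50502, nat_lit 35922, nat_lit 37542, nat_lit 37326, nat_lit 37362, nat_lit 37398, nat_lit 37374, nat_lit 37386, nat_lit 37378] (nat_lit 0) [nat_lit 17698] false,
   Spec.mk (nat_lit 37386) (nat_lit 0) [nat_lit 50508, nat_lit 35928, nat_lit 37548, nat_lit 37332, nat_lit 37404, nat_lit 37380] (nat_lit 0) [nat_lit 17704] false,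
   Spec.mk (nat_lit 37396) (nat_lit 1) [nat_lit 50518, nat_lit 35938, nat_lit 37558, nat_lit 37378, nat_lit 37398] (nat_lit 0) [nat_lit 57078, nat_lit 17714] false,
   Spec.mk (nat_lit 37398) (nat_lit 0) [nat_lit 50520, nat_lit 35940, nat_lit 37560, nat_lit 37380, nat_lit 37404, nat_lit 37396] (nat_lit 0) [nat_lit 17716] false,
   Spec.mk (nat_lit 37404) (nat_lit 2) [nat_lit 50526, nat_lit 35946, nat_lit 37566, nat_lit 37386, nat_lit 37398] (nat_lit 0) [nat_lit 17722] false,
   Spec.mk (nat_lit 37430) (nat_lit 2) [nat_lit 50552, nat_lit 35972, nat_lit 37916, nat_lit 37268, nat_lit 37436] (nat_lit 0) [nat_lit 57112] false,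
   Spec.mk (nat_lit 37436) (nat_lit 1) [nat_lit 50558, nat_lit 35978, nat_lit 37922, nat_lit 37274, nat_lit 37454, nat_lit 37430, nat_lit 37442, nat_lit 37438] (nat_lit 0) [nat_lit 57118] false,
   Spec.mk (nat_lit 37438) (nat_lit 1) [nat_lit 50560, nat_lit 35980, nat_lit 37924, nat_lit 37276, nat_lit 37456, nat_lit 37444, nat_lit 37436] (nat_lit 0) [nat_lit 57120, nat_lit 17756] false,
   Spec.mk (nat_lit 37442) (nat_lit 0) [nat_lit 50564, nat_lit 35984, nat_lit 37928, nat_lit 37280, nat_lit 37460, nat_lit 37436, nat_lit 37444] (nat_lit 2) [nat_lit 57124] false,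
   Spec.mk (nat_lit 37444) (nat_lit 0) [nat_lit 50566, nat_lit 35986, nat_lit 37930, nat_lit 37282, nat_lit 37462, nat_lit 37438, nat_lit 37442, nat_lit 37446] (nat_lit 0) [nat_lit 57126, nat_lit 17762] false,
   Spec.mk (nat_lit 37446) (nat_lit 0) [nat_lit 50568, nat_lit 35988, nat_lit 37932, nat_lit 37284, nat_lit 37464, nat_lit 37444] (nat_lit 0) [nat_lit 17764] false,
   Spec.mk (nat_lit 37454) (nat_lit 0) [nat_lit 50576, nat_lit 35996, nat_lit 37940, nat_lit 37292, nat_lit 37508, nat_lit 37436, nat_lit 37460, nat_lit 37456] (nat_lit 0) [nat_lit 57136] false,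
   Spec.mk (nat_lit 37456) (nat_lit 0) [nat_lit 50578, nat_lit 35998, nat_lit 37942, nat_lit 37294, nat_lit 37510, nat_lit 37438, nat_lit 37462, nat_lit 37454] (nat_lit 1) [nat_lit 57138, nat_lit 17774] false,
   Spec.mk (nat_lit 37460) (nat_lit 0) [nat_lit 50582, nat_lit 36002, nat_lit 37946, nat_lit 37298, nat_lit 37514, nat_lit 37442, nat_lit 37478, nat_lit 37454, nat_lit 37462] (nat_lit 1) [nat_lit 57142] false,
   Spec.mk (nat_lit 37462) (nat_lit 0) [nat_lit 50584, nat_lit 36004, nat_lit 37948, nat_lit 37300, nat_lit 37516, nat_lit 37444, nat_lit 37480, nat_lit 37456, nat_lit 37468, nat_lit 37460, nat_lit 37464] (nat_lit 0) [nat_lit 57144, nat_lit 17780] false,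
   Spec.mk (nat_lit 37464) (nat_lit 0) [nat_lit 50586, nat_lit 36006, nat_lit 37950, nat_lit 37302, nat_lit 37518, nat_lit 37446, nat_lit 37482, nat_lit 37470, nat_lit 37462] (nat_lit 1) [nat_lit 17782] false,
   Spec.mk (nat_lit 37468) (nat_lit 0) [nat_lit 50590, nat_lit 36010, nat_lit 37954, nat_lit 37306, nat_lit 37522, nat_lit 37486, nat_lit 37462, nat_lit 37470] (nat_lit 1) [nat_lit 57150, nat_lit 17786] false,
   Spec.mk (nat_lit 37470) (nat_lit 0) [nat_lit 50592, nat_lit 36012, nat_lit 37956, nat_lit 37308, nat_lit 37524, nat_lit 37488, nat_lit 37464, nat_lit 37468] (nat_lit 0) [nat_lit 17788] false,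
   Spec.mk (nat_lit 37478) (nat_lit 0) [nat_lit 50600, nat_lit 36020, nat_lit 37964, nat_lit 37316, nat_lit 37532, nat_lit 37460, nat_lit 37480] (nat_lit 2) [nat_lit 57160] false,
   Spec.mk (nat_lit 37480) (nat_lit 0) [nat_lit 50602, nat_lit 36022, nat_lit 37966, nat_lit 37318, nat_lit 37534, nat_lit 37462, nat_lit 37486, nat_lit 37478, nat_lit 37482] (nat_lit 2) [nat_lit 57162, nat_lit 17798] false,
   Spec.mk (nat_lit 37482) (nat_lit 0) [nat_lit 50604, nat_lit 36024, nat_lit 37968, nat_lit 37320, nat_lit 37536, nat_lit 37464, nat_lit 37488, nat_lit 37480] (nat_lit 4) [nat_lit 17800] false,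
   Spec.mk (nat_lit 37486) (nat_lit 0) [nat_lit 50608, nat_lit 36028, nat_lit 37972, nat_lit 37324, nat_lit 37540, nat_lit 37468, nat_lit 37480, nat_lit 37488] (nat_lit 1) [nat_lit 57168, nat_lit 17804] false,
   Spec.mk (nat_lit 37488) (nat_lit 0) [nat_lit 50610, nat_lit 36030, nat_lit 37974, nat_lit 37326, nat_lit 37542, nat_lit 37470, nat_lit 37482, nat_lit 37494, nat_lit 37486] (nat_lit 1) [nat_lit 17806] false,
   Spec.mk (nat_lit 37494) (nat_lit 0) [nat_lit 50616, nat_lit 36036, nat_lit 37980, nat_lit 37332, nat_lit 37548, nat_lit 37488] (nat_lit 0) [nat_lit 17812] false,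
   Spec.mk (nat_lit 37508) (nat_lit 1) [nat_lit 50630, nat_lit 36050, nat_lit 37994, nat_lit 37346, nat_lit 37670, nat_lit 37454, nat_lit 37514, nat_lit 37510] (nat_lit 0) [nat_lit 57190] false,
   Spec.mk (nat_lit 37510) (nat_lit 0) [nat_lit 50632, nat_lit 36052, nat_lit 37996, nat_lit 37348, nat_lit 37672, nat_lit 37456, nat_lit 37516, nat_lit 37508] (nat_lit 0) [nat_lit 57192, nat_lit 17828] false,
   Spec.mk (nat_lit 37514) (nat_lit 0) [nat_lit 50636, nat_lit 36056, nat_lit 38000, nat_lit 37352, nat_lit 37676, nat_lit 37460, nat_lit 37532, nat_lit 37508, nat_lit 37516] (nat_lit 1) [nat_lit 57196] false,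
   Spec.mk (nat_lit 37516) (nat_lit 0) [nat_lit 50638, nat_lit 36058, nat_lit 38002, nat_lit 37354, nat_lit 37678, nat_lit 37462, nat_lit 37534, nat_lit 37510, nat_lit 37522, nat_lit 37514, nat_lit 37518] (nat_lit 0) [nat_lit 57198, nat_lit 17834] false,
   Spec.mk (nat_lit 37518) (nat_lit 0) [nat_lit 50640, nat_lit 36060, nat_lit 38004, nat_lit 37356, nat_lit 37680, nat_lit 37464, nat_lit 37536, nat_lit 37524, nat_lit 37516] (nat_lit 1) [nat_lit 17836] false,
   Spec.mk (nat_lit 37522) (nat_lit 0) [nat_lit 50644, nat_lit 36064, nat_lit 38008, nat_lit 37360, nat_lit 37684, nat_lit 37468, nat_lit 37540, nat_lit 37516, nat_lit 37524] (nat_lit 2) [nat_lit 57204, nat_lit 17840] false,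
   Spec.mk (nat_lit 37524) (nat_lit 0) [nat_lit 50646, nat_lit 36066, nat_lit 38010, nat_lit 37362, nat_lit 37686, nat_lit 37470, nat_lit 37542, nat_lit 37518, nat_lit 37522] (nat_lit 1) [nat_lit 17842] false,
   Spec.mk (nat_lit 37532) (nat_lit 0) [nat_lit 50654, nat_lit 36074, nat_lit 38018, nat_lit 37370, nat_lit 37694, nat_lit 37478, nat_lit 37586, nat_lit 37514, nat_lit 37534] (nat_lit 0) [nat_lit 57214] false,
   Spec.mk (nat_lit 37534) (nat_lit 0) [nat_lit 50656, nat_lit 36076, nat_lit 38020, nat_lit 37372, nat_lit 37696, nat_lit 37480, nat_lit 37588, nat_lit 37516, nat_lit 37540, nat_lit 37532, nat_lit 37536] (nat_lit 0) [nat_lit 57216, nat_lit 17852] false,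
   Spec.mk (nat_lit 37536) (nat_lit 0) [nat_lit 50658, nat_lit 36078, nat_lit 38022, nat_lit 37374, nat_lit 37698, nat_lit 37482, nat_lit 37590, nat_lit 37518, nat_lit 37542, nat_lit 37534] (nat_lit 2) [nat_lit 17854] false,
   Spec.mk (nat_lit 37540) (nat_lit 0) [nat_lit 50662, nat_lit 36082, nat_lit 38026, nat_lit 37378, nat_lit 37702, nat_lit 37486, nat_lit 37594, nat_lit 37522, nat_lit 37558, nat_lit 37534, nat_lit 37542] (nat_lit 0) [nat_lit 57222, nat_lit 17858] false,
   Spec.mk (nat_lit 37542) (nat_lit 0) [nat_lit 50664, nat_lit 36084, nat_lit 38028, nat_lit 37380, nat_lit 37704, nat_lit 37488, nat_lit 37596, nat_lit 37524, nat_lit 37560, nat_lit 37536, nat_lit 37548, nat_lit 37540] (nat_lit 0) [nat_lit 17860] false,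
   Spec.mk (nat_lit 37548) (nat_lit 0) [nat_lit 50670, nat_lit 36090, nat_lit 38034, nat_lit 37386, nat_lit 37710, nat_lit 37494, nat_lit 37602, nat_lit 37566, nat_lit 37542] (nat_lit 0) [nat_lit 17866] false,
   Spec.mk (nat_lit 37558) (nat_lit 0) [nat_lit 50680, nat_lit 36100, nat_lit 38044, nat_lit 37396, nat_lit 37720, nat_lit 37612, nat_lit 37540, nat_lit 37560] (nat_lit 0) [nat_lit 57240, nat_lit 17876] false,
   Spec.mk (nat_lit 37560) (nat_lit 0) [nat_lit 50682, nat_lit 36102, nat_lit 38046, nat_lit 37398, nat_lit 37722, nat_lit 37614, nat_lit 37542, nat_lit 37566, nat_lit 37558] (nat_lit 1) [nat_lit 17878] false,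
   Spec.mk (nat_lit 37566) (nat_lit 1) [nat_lit 50688, nat_lit 36108, nat_lit 38052, nat_lit 37404, nat_lit 37728, nat_lit 37620, nat_lit 37548, nat_lit 37560] (nat_lit 0) [nat_lit 17884] false,
   Spec.mk (nat_lit 37586) (nat_lit 0) [nat_lit 50708, nat_lit 36128, nat_lit 38072, nat_lit 37748, nat_lit 37532, nat_lit 37588] (nat_lit 0) [nat_lit 57268] false,
   Spec.mk (nat_lit 37588) (nat_lit 0) [nat_lit 50710, nat_lit 36130, nat_lit 38074, nat_lit 37750, nat_lit 37534, nat_lit 37594, nat_lit 37586, nat_lit 37590] (nat_lit 0) [nat_lit 57270, nat_lit 17906] false,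
   Spec.mk (nat_lit 37590) (nat_lit 0) [nat_lit 50712, nat_lit 36132, nat_lit 38076, nat_lit 37752, nat_lit 37536, nat_lit 37596, nat_lit 37588] (nat_lit 2) [nat_lit 17908] false,
   Spec.mk (nat_lit 37594) (nat_lit 0) [nat_lit 50716, nat_lit 36136, nat_lit 38080, nat_lit 37756, nat_lit 37540, nat_lit 37612, nat_lit 37588, nat_lit 37596] (nat_lit 1) [nat_lit 57276, nat_lit 17912] false,
   Spec.mk (nat_lit 37596) (nat_lit 0) [nat_lit 50718, nat_lit 36138, nat_lit 38082, nat_lit 37758, nat_lit 37542, nat_lit 37614, nat_lit 37590, nat_lit 37602, nat_lit 37594] (nat_lit 1) [nat_lit 17914] false,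
   Spec.mk (nat_lit 37602) (nat_lit 0) [nat_lit 50724, nat_lit 36144, nat_lit 38088, nat_lit 37764, nat_lit 37548, nat_lit 37620, nat_lit 37596] (nat_lit 2) [nat_lit 17920] false,
   Spec.mk (nat_lit 37612) (nat_lit 1) [nat_lit 50734, nat_lit 36154, nat_lit 38098, nat_lit 37774, nat_lit 37558, nat_lit 37594, nat_lit 37614] (nat_lit 0) [nat_lit 57294, nat_lit 17930] false,
   Spec.mk (nat_lit 37614) (nat_lit 0) [nat_lit 50736, nat_lit 36156, nat_lit 38100, nat_lit 37776, nat_lit 37560, nat_lit 37596, nat_lit 37620, nat_lit 37612] (nat_lit 0) [nat_lit 17932] false,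
   Spec.mk (nat_lit 37620) (nat_lit 1) [nat_lit 50742, nat_lit 36162, nat_lit 38106, nat_lit 37782, nat_lit 37566, nat_lit 37602, nat_lit 37638, nat_lit 37614] (nat_lit 0) [nat_lit 17938] false,
   Spec.mk (nat_lit 37638) (nat_lit 2) [nat_lit 50760, nat_lit 36180, nat_lit 38124, nat_lit 37800, nat_lit 37620] (nat_lit 0) [nat_lit 17956] false,
   Spec.mk (nat_lit 37670) (nat_lit 0) [nat_lit 50792, nat_lit 36212, nat_lit 38156, nat_lit 37508, nat_lit 37676, nat_lit 37672] (nat_lit 0) [nat_lit 57352] false,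
   Spec.mk (nat_lit 37672) (nat_lit 0) [nat_lit 50794, nat_lit 36214, nat_lit 38158, nat_lit 37510, nat_lit 37678, nat_lit 37670] (nat_lit 1) [nat_lit 57354, nat_lit 17990] false,
   Spec.mk (nat_lit 37676) (nat_lit 0) [nat_lit 50798, nat_lit 36218, nat_lit 38162, nat_lit 37514, nat_lit 37694, nat_lit 37670, nat_lit 37678] (nat_lit 2) [nat_lit 57358] false,
   Spec.mk (nat_lit 37678) (nat_lit 0) [nat_lit 50800, nat_lit 36220, nat_lit 38164, nat_lit 37516, nat_lit 37696, nat_lit 37672, nat_lit 37684, nat_lit 37676, nat_lit 37680] (nat_lit 1) [nat_lit 57360, nat_lit 17996] false]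

noncomputable def sp98 : List Spec :=
  [Spec.mk (nat_lit 37680) (nat_lit 0) [nat_lit 50802, nat_lit 36222, nat_lit 38166, nat_lit 37518, nat_lit 37698, nat_lit 37686, nat_lit 37678] (nat_lit 2) [nat_lit 17998] false,
   Spec.mk (nat_lit 37684) (nat_lit 0) [nat_lit 50806, nat_lit 36226, nat_lit 38170, nat_lit 37522, nat_lit 37702, nat_lit 37678, nat_lit 37686] (nat_lit 3) [nat_lit 57366, nat_lit 18002] false,
   Spec.mk (nat_lit 37686) (nat_lit 0) [nat_lit 50808, nat_lit 36228, nat_lit 38172, nat_lit 37524, nat_lit 37704, nat_lit 37680, nat_lit 37684] (nat_lit 2) [nat_lit 18004] false,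
   Spec.mk (nat_lit 37694) (nat_lit 0) [nat_lit 50816, nat_lit 36236, nat_lit 38180, nat_lit 37532, nat_lit 37748, nat_lit 37676, nat_lit 37696] (nat_lit 2) [nat_lit 57376] false,
   Spec.mk (nat_lit 37696) (nat_lit 0) [nat_lit 50818, nat_lit 36238, nat_lit 38182, nat_lit 37534, nat_lit 37750, nat_lit 37678, nat_lit 37702, nat_lit 37694, nat_lit 37698] (nat_lit 2) [nat_lit 57378, nat_lit 18014] false,
   Spec.mk (nat_lit 37698) (nat_lit 0) [nat_lit 50820, nat_lit 36240, nat_lit 38184, nat_lit 37536, nat_lit 37752, nat_lit 37680, nat_lit 37704, nat_lit 37696] (nat_lit 4) [nat_lit 18016] false,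
   Spec.mk (nat_lit 37702) (nat_lit 0) [nat_lit 50824, nat_lit 36244, nat_lit 38188, nat_lit 37540, nat_lit 37756, nat_lit 37684, nat_lit 37720, nat_lit 37696, nat_lit 37704] (nat_lit 2) [nat_lit 57384, nat_lit 18020] false,
   Spec.mk (nat_lit 37704) (nat_lit 0) [nat_lit 50826, nat_lit 36246, nat_lit 38190, nat_lit 37542, nat_lit 37758, nat_lit 37686, nat_lit 37722, nat_lit 37698, nat_lit 37710, nat_lit 37702] (nat_lit 2) [nat_lit 18022] false,
   Spec.mk (nat_lit 37710) (nat_lit 0) [nat_lit 50832, nat_lit 36252, nat_lit 38196, nat_lit 37548, nat_lit 37764, nat_lit 37728, nat_lit 37704] (nat_lit 2) [nat_lit 18028] false,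
   Spec.mk (nat_lit 37720) (nat_lit 0) [nat_lit 50842, nat_lit 36262, nat_lit 38206, nat_lit 37558, nat_lit 37774, nat_lit 37702, nat_lit 37722] (nat_lit 3) [nat_lit 57402, nat_lit 18038] false,
   Spec.mk (nat_lit 37722) (nat_lit 0) [nat_lit 50844, nat_lit 36264, nat_lit 38208, nat_lit 37560, nat_lit 37776, nat_lit 37704, nat_lit 37728, nat_lit 37720] (nat_lit 4) [nat_lit 18040] false,
   Spec.mk (nat_lit 37728) (nat_lit 0) [nat_lit 50850, nat_lit 36270, nat_lit 38214, nat_lit 37566, nat_lit 37782, nat_lit 37710, nat_lit 37722] (nat_lit 2) [nat_lit 18046] false,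
   Spec.mk (nat_lit 37748) (nat_lit 0) [nat_lit 50870, nat_lit 36290, nat_lit 38234, nat_lit 37586, nat_lit 37694, nat_lit 37750] (nat_lit 0) [nat_lit 57430] false,
   Spec.mk (nat_lit 37750) (nat_lit 0) [nat_lit 50872, nat_lit 36292, nat_lit 38236, nat_lit 37588, nat_lit 37696, nat_lit 37756, nat_lit 37748, nat_lit 37752] (nat_lit 0) [nat_lit 57432, nat_lit 18068] false,
   Spec.mk (nat_lit 37752) (nat_lit 0) [nat_lit 50874, nat_lit 36294, nat_lit 38238, nat_lit 37590, nat_lit 37698, nat_lit 37758, nat_lit 37750] (nat_lit 2) [nat_lit 18070] false,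
   Spec.mk (nat_lit 37756) (nat_lit 0) [nat_lit 50878, nat_lit 36298, nat_lit 38242, nat_lit 37594, nat_lit 37702, nat_lit 37774, nat_lit 37750, nat_lit 37758] (nat_lit 1) [nat_lit 57438, nat_lit 18074] false,
   Spec.mk (nat_lit 37758) (nat_lit 0) [nat_lit 50880, nat_lit 36300, nat_lit 38244, nat_lit 37596, nat_lit 37704, nat_lit 37776, nat_lit 37752, nat_lit 37764, nat_lit 37756] (nat_lit 1) [nat_lit 18076] false,
   Spec.mk (nat_lit 37764) (nat_lit 0) [nat_lit 50886, nat_lit 36306, nat_lit 38250, nat_lit 37602, nat_lit 37710, nat_lit 37782, nat_lit 37758] (nat_lit 2) [nat_lit 18082] false,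
   Spec.mk (nat_lit 37774) (nat_lit 0) [nat_lit 50896, nat_lit 36316, nat_lit 38260, nat_lit 37612, nat_lit 37720, nat_lit 37828, nat_lit 37756, nat_lit 37776] (nat_lit 0) [nat_lit 57456, nat_lit 18092] false,
   Spec.mk (nat_lit 37776) (nat_lit 0) [nat_lit 50898, nat_lit 36318, nat_lit 38262, nat_lit 37614, nat_lit 37722, nat_lit 37830, nat_lit 37758, nat_lit 37782, nat_lit 37774] (nat_lit 1) [nat_lit 18094] false,
   Spec.mk (nat_lit 37782) (nat_lit 0) [nat_lit 50904, nat_lit 36324, nat_lit 38268, nat_lit 37620, nat_lit 37728, nat_lit 37836, nat_lit 37764, nat_lit 37800, nat_lit 37776] (nat_lit 0) [nat_lit 18100] false,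
   Spec.mk (nat_lit 37800) (nat_lit 0) [nat_lit 50922, nat_lit 36342, nat_lit 38286, nat_lit 37638, nat_lit 37854, nat_lit 37782] (nat_lit 0) [nat_lit 18118] false,
   Spec.mk (nat_lit 37828) (nat_lit 1) [nat_lit 50950, nat_lit 36370, nat_lit 38314, nat_lit 37774, nat_lit 37830] (nat_lit 0) [nat_lit 57510, nat_lit 18146] false,
   Spec.mk (nat_lit 37830) (nat_lit 0) [nat_lit 50952, nat_lit 36372, nat_lit 38316, nat_lit 37776, nat_lit 37836, nat_lit 37828] (nat_lit 0) [nat_lit 18148] false,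
   Spec.mk (nat_lit 37836) (nat_lit 0) [nat_lit 50958, nat_lit 36378, nat_lit 38322, nat_lit 37782, nat_lit 37854, nat_lit 37830] (nat_lit 0) [nat_lit 18154] false,
   Spec.mk (nat_lit 37854) (nat_lit 2) [nat_lit 50976, nat_lit 36396, nat_lit 38340, nat_lit 37800, nat_lit 37836] (nat_lit 0) [nat_lit 18172] false,
   Spec.mk (nat_lit 37916) (nat_lit 4) [nat_lit 51038, nat_lit 36458, nat_lit 37430, nat_lit 37922] (nat_lit 0) [nat_lit 57598] false,
   Spec.mk (nat_lit 37922) (nat_lit 3) [nat_lit 51044, nat_lit 36464, nat_lit 37436, nat_lit 37940, nat_lit 37916, nat_lit 37928, nat_lit 37924] (nat_lit 0) [nat_lit 57604] false,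
   Spec.mk (nat_lit 37924) (nat_lit 3) [nat_lit 51046, nat_lit 36466, nat_lit 37438, nat_lit 37942, nat_lit 37930, nat_lit 37922] (nat_lit 0) [nat_lit 57606, nat_lit 18242] false,
   Spec.mk (nat_lit 37928) (nat_lit 0) [nat_lit 51050, nat_lit 36470, nat_lit 37442, nat_lit 37946, nat_lit 37922, nat_lit 37930] (nat_lit 0) [nat_lit 57610] false,
   Spec.mk (nat_lit 37930) (nat_lit 2) [nat_lit 51052, nat_lit 36472, nat_lit 37444, nat_lit 37948, nat_lit 37924, nat_lit 37928, nat_lit 37932] (nat_lit 0) [nat_lit 57612, nat_lit 18248] false,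
   Spec.mk (nat_lit 37932) (nat_lit 2) [nat_lit 51054, nat_lit 36474, nat_lit 37446, nat_lit 37950, nat_lit 37930] (nat_lit 0) [nat_lit 18250] false,
   Spec.mk (nat_lit 37940) (nat_lit 2) [nat_lit 51062, nat_lit 36482, nat_lit 37454, nat_lit 37994, nat_lit 37922, nat_lit 37946, nat_lit 37942] (nat_lit 0) [nat_lit 57622] false,
   Spec.mk (nat_lit 37942) (nat_lit 1) [nat_lit 51064, nat_lit 36484, nat_lit 37456, nat_lit 37996, nat_lit 37924, nat_lit 37948, nat_lit 37940] (nat_lit 0) [nat_lit 57624, nat_lit 18260] false,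
   Spec.mk (nat_lit 37946) (nat_lit 1) [nat_lit 51068, nat_lit 36488, nat_lit 37460, nat_lit 38000, nat_lit 37928, nat_lit 37964, nat_lit 37940, nat_lit 37948] (nat_lit 0) [nat_lit 57628] false,
   Spec.mk (nat_lit 37948) (nat_lit 2) [nat_lit 51070, nat_lit 36490, nat_lit 37462, nat_lit 38002, nat_lit 37930, nat_lit 37966, nat_lit 37942, nat_lit 37954, nat_lit 37946, nat_lit 37950] (nat_lit 0) [nat_lit 57630, nat_lit 18266] false,
   Spec.mk (nat_lit 37950) (nat_lit 1) [nat_lit 51072, nat_lit 36492, nat_lit 37464, nat_lit 38004, nat_lit 37932, nat_lit 37968, nat_lit 37956, nat_lit 37948] (nat_lit 0) [nat_lit 18268] false,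
   Spec.mk (nat_lit 37954) (nat_lit 1) [nat_lit 51076, nat_lit 36496, nat_lit 37468, nat_lit 38008, nat_lit 37972, nat_lit 37948, nat_lit 37956] (nat_lit 0) [nat_lit 57636, nat_lit 18272] false,
   Spec.mk (nat_lit 37956) (nat_lit 2) [nat_lit 51078, nat_lit 36498, nat_lit 37470, nat_lit 38010, nat_lit 37974, nat_lit 37950, nat_lit 37954] (nat_lit 0) [nat_lit 18274] false,
   Spec.mk (nat_lit 37964) (nat_lit 0) [nat_lit 51086, nat_lit 36506, nat_lit 37478, nat_lit 38018, nat_lit 37946, nat_lit 37966] (nat_lit 0) [nat_lit 57646] false,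
   Spec.mk (nat_lit 37966) (nat_lit 0) [nat_lit 51088, nat_lit 36508, nat_lit 37480, nat_lit 38020, nat_lit 37948, nat_lit 37972, nat_lit 37964, nat_lit 37968] (nat_lit 0) [nat_lit 57648, nat_lit 18284] false,
   Spec.mk (nat_lit 37968) (nat_lit 0) [nat_lit 51090, nat_lit 36510, nat_lit 37482, nat_lit 38022, nat_lit 37950, nat_lit 37974, nat_lit 37966] (nat_lit 2) [nat_lit 18286] false,
   Spec.mk (nat_lit 37972) (nat_lit 1) [nat_lit 51094, nat_lit 36514, nat_lit 37486, nat_lit 38026, nat_lit 37954, nat_lit 37966, nat_lit 37974] (nat_lit 0) [nat_lit 57654, nat_lit 18290] false,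
   Spec.mk (nat_lit 37974) (nat_lit 1) [nat_lit 51096, nat_lit 36516, nat_lit 37488, nat_lit 38028, nat_lit 37956, nat_lit 37968, nat_lit 37980, nat_lit 37972] (nat_lit 0) [nat_lit 18292] false,
   Spec.mk (nat_lit 37980) (nat_lit 2) [nat_lit 51102, nat_lit 36522, nat_lit 37494, nat_lit 38034, nat_lit 37974] (nat_lit 0) [nat_lit 18298] false,
   Spec.mk (nat_lit 37994) (nat_lit 2) [nat_lit 51116, nat_lit 36536, nat_lit 37508, nat_lit 38156, nat_lit 37940, nat_lit 38000, nat_lit 37996] (nat_lit 0) [nat_lit 57676] false,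
   Spec.mk (nat_lit 37996) (nat_lit 1) [nat_lit 51118, nat_lit 36538, nat_lit 37510, nat_lit 38158, nat_lit 37942, nat_lit 38002, nat_lit 37994] (nat_lit 0) [nat_lit 57678, nat_lit 18314] false,
   Spec.mk (nat_lit 38000) (nat_lit 0) [nat_lit 51122, nat_lit 36542, nat_lit 37514, nat_lit 38162, nat_lit 37946, nat_lit 38018, nat_lit 37994, nat_lit 38002] (nat_lit 0) [nat_lit 57682] false,
   Spec.mk (nat_lit 38002) (nat_lit 1) [nat_lit 51124, nat_lit 36544, nat_lit 37516, nat_lit 38164, nat_lit 37948, nat_lit 38020, nat_lit 37996, nat_lit 38008, nat_lit 38000, nat_lit 38004] (nat_lit 0) [nat_lit 57684, nat_lit 18320] false,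
   Spec.mk (nat_lit 38004) (nat_lit 0) [nat_lit 51126, nat_lit 36546, nat_lit 37518, nat_lit 38166, nat_lit 37950, nat_lit 38022, nat_lit 38010, nat_lit 38002] (nat_lit 0) [nat_lit 18322] false,
   Spec.mk (nat_lit 38008) (nat_lit 0) [nat_lit 51130, nat_lit 36550, nat_lit 37522, nat_lit 38170, nat_lit 37954, nat_lit 38026, nat_lit 38002, nat_lit 38010] (nat_lit 1) [nat_lit 57690, nat_lit 18326] false,
   Spec.mk (nat_lit 38010) (nat_lit 0) [nat_lit 51132, nat_lit 36552, nat_lit 37524, nat_lit 38172, nat_lit 37956, nat_lit 38028, nat_lit 38004, nat_lit 38008] (nat_lit 0) [nat_lit 18328] false,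
   Spec.mk (nat_lit 38018) (nat_lit 1) [nat_lit 51140, nat_lit 36560, nat_lit 37532, nat_lit 38180, nat_lit 37964, nat_lit 38072, nat_lit 38000, nat_lit 38020] (nat_lit 0) [nat_lit 57700] false,
   Spec.mk (nat_lit 38020) (nat_lit 1) [nat_lit 51142, nat_lit 36562, nat_lit 37534, nat_lit 38182, nat_lit 37966, nat_lit 38074, nat_lit 38002, nat_lit 38026, nat_lit 38018, nat_lit 38022] (nat_lit 0) [nat_lit 57702, nat_lit 18338] false,
   Spec.mk (nat_lit 38022) (nat_lit 0) [nat_lit 51144, nat_lit 36564, nat_lit 37536, nat_lit 38184, nat_lit 37968, nat_lit 38076, nat_lit 38004, nat_lit 38028, nat_lit 38020] (nat_lit 1) [nat_lit 18340] false,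
   Spec.mk (nat_lit 38026) (nat_lit 1) [nat_lit 51148, nat_lit 36568, nat_lit 37540, nat_lit 38188, nat_lit 37972, nat_lit 38080, nat_lit 38008, nat_lit 38044, nat_lit 38020, nat_lit 38028] (nat_lit 0) [nat_lit 57708, nat_lit 18344] false,
   Spec.mk (nat_lit 38028) (nat_lit 1) [nat_lit 51150, nat_lit 36570, nat_lit 37542, nat_lit 38190, nat_lit 37974, nat_lit 38082, nat_lit 38010, nat_lit 38046, nat_lit 38022, nat_lit 38034, nat_lit 38026] (nat_lit 0) [nat_lit 18346] false,
   Spec.mk (nat_lit 38034) (nat_lit 1) [nat_lit 51156, nat_lit 36576, nat_lit 37548, nat_lit 38196, nat_lit 37980, nat_lit 38088, nat_lit 38052, nat_lit 38028] (nat_lit 0) [nat_lit 18352] false,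
   Spec.mk (nat_lit 38044) (nat_lit 1) [nat_lit 51166, nat_lit 36586, nat_lit 37558, nat_lit 38206, nat_lit 38098, nat_lit 38026, nat_lit 38046] (nat_lit 0) [nat_lit 57726, nat_lit 18362] false,
   Spec.mk (nat_lit 38046) (nat_lit 0) [nat_lit 51168, nat_lit 36588, nat_lit 37560, nat_lit 38208, nat_lit 38100, nat_lit 38028, nat_lit 38052, nat_lit 38044] (nat_lit 0) [nat_lit 18364] false]

noncomputable def sp99 : List Spec :=
  [Spec.mk (nat_lit 38052) (nat_lit 2) [nat_lit 51174, nat_lit 36594, nat_lit 37566, nat_lit 38214, nat_lit 38106, nat_lit 38034, nat_lit 38046] (nat_lit 0) [nat_lit 18370] false,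
   Spec.mk (nat_lit 38072) (nat_lit 0) [nat_lit 51194, nat_lit 36614, nat_lit 37586, nat_lit 38234, nat_lit 38018, nat_lit 38074] (nat_lit 0) [nat_lit 57754] false,
   Spec.mk (nat_lit 38074) (nat_lit 0) [nat_lit 51196, nat_lit 36616, nat_lit 37588, nat_lit 38236, nat_lit 38020, nat_lit 38080, nat_lit 38072, nat_lit 38076] (nat_lit 0) [nat_lit 57756, nat_lit 18392] false,
   Spec.mk (nat_lit 38076) (nat_lit 0) [nat_lit 51198, nat_lit 36618, nat_lit 37590, nat_lit 38238, nat_lit 38022, nat_lit 38082, nat_lit 38074] (nat_lit 2) [nat_lit 18394] false,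
   Spec.mk (nat_lit 38080) (nat_lit 0) [nat_lit 51202, nat_lit 36622, nat_lit 37594, nat_lit 38242, nat_lit 38026, nat_lit 38098, nat_lit 38074, nat_lit 38082] (nat_lit 1) [nat_lit 57762, nat_lit 18398] false,
   Spec.mk (nat_lit 38082) (nat_lit 0) [nat_lit 51204, nat_lit 36624, nat_lit 37596, nat_lit 38244, nat_lit 38028, nat_lit 38100, nat_lit 38076, nat_lit 38088, nat_lit 38080] (nat_lit 1) [nat_lit 18400] false,
   Spec.mk (nat_lit 38088) (nat_lit 0) [nat_lit 51210, nat_lit 36630, nat_lit 37602, nat_lit 38250, nat_lit 38034, nat_lit 38106, nat_lit 38082] (nat_lit 2) [nat_lit 18406] false,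
   Spec.mk (nat_lit 38098) (nat_lit 1) [nat_lit 51220, nat_lit 36640, nat_lit 37612, nat_lit 38260, nat_lit 38044, nat_lit 38080, nat_lit 38100] (nat_lit 0) [nat_lit 57780, nat_lit 18416] false,
   Spec.mk (nat_lit 38100) (nat_lit 0) [nat_lit 51222, nat_lit 36642, nat_lit 37614, nat_lit 38262, nat_lit 38046, nat_lit 38082, nat_lit 38106, nat_lit 38098] (nat_lit 0) [nat_lit 18418] false,
   Spec.mk (nat_lit 38106) (nat_lit 1) [nat_lit 51228, nat_lit 36648, nat_lit 37620, nat_lit 38268, nat_lit 38052, nat_lit 38088, nat_lit 38124, nat_lit 38100] (nat_lit 0) [nat_lit 18424] false,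
   Spec.mk (nat_lit 38124) (nat_lit 2) [nat_lit 51246, nat_lit 36666, nat_lit 37638, nat_lit 38286, nat_lit 38106] (nat_lit 0) [nat_lit 18442] false,
   Spec.mk (nat_lit 38156) (nat_lit 3) [nat_lit 51278, nat_lit 36698, nat_lit 37670, nat_lit 38642, nat_lit 37994, nat_lit 38162, nat_lit 38158] (nat_lit 0) [nat_lit 57838] false,
   Spec.mk (nat_lit 38158) (nat_lit 2) [nat_lit 51280, nat_lit 36700, nat_lit 37672, nat_lit 38644, nat_lit 37996, nat_lit 38164, nat_lit 38156] (nat_lit 0) [nat_lit 57840, nat_lit 18476] false,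
   Spec.mk (nat_lit 38162) (nat_lit 1) [nat_lit 51284, nat_lit 36704, nat_lit 37676, nat_lit 38648, nat_lit 38000, nat_lit 38180, nat_lit 38156, nat_lit 38164] (nat_lit 0) [nat_lit 57844] false,
   Spec.mk (nat_lit 38164) (nat_lit 2) [nat_lit 51286, nat_lit 36706, nat_lit 37678, nat_lit 38650, nat_lit 38002, nat_lit 38182, nat_lit 38158, nat_lit 38170, nat_lit 38162, nat_lit 38166] (nat_lit 0) [nat_lit 57846, nat_lit 18482] false,
   Spec.mk (nat_lit 38166) (nat_lit 1) [nat_lit 51288, nat_lit 36708, nat_lit 37680, nat_lit 38652, nat_lit 38004, nat_lit 38184, nat_lit 38172, nat_lit 38164] (nat_lit 0) [nat_lit 18484] false,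
   Spec.mk (nat_lit 38170) (nat_lit 0) [nat_lit 51292, nat_lit 36712, nat_lit 37684, nat_lit 38656, nat_lit 38008, nat_lit 38188, nat_lit 38164, nat_lit 38172] (nat_lit 0) [nat_lit 57852, nat_lit 18488] false,
   Spec.mk (nat_lit 38172) (nat_lit 1) [nat_lit 51294, nat_lit 36714, nat_lit 37686, nat_lit 38658, nat_lit 38010, nat_lit 38190, nat_lit 38166, nat_lit 38170] (nat_lit 0) [nat_lit 18490] false,
   Spec.mk (nat_lit 38180) (nat_lit 1) [nat_lit 51302, nat_lit 36722, nat_lit 37694, nat_lit 38666, nat_lit 38018, nat_lit 38234, nat_lit 38162, nat_lit 38182] (nat_lit 0) [nat_lit 57862] false,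
   Spec.mk (nat_lit 38182) (nat_lit 1) [nat_lit 51304, nat_lit 36724, nat_lit 37696, nat_lit 38668, nat_lit 38020, nat_lit 38236, nat_lit 38164, nat_lit 38188, nat_lit 38180, nat_lit 38184] (nat_lit 0) [nat_lit 57864, nat_lit 18500] false,
   Spec.mk (nat_lit 38184) (nat_lit 0) [nat_lit 51306, nat_lit 36726, nat_lit 37698, nat_lit 38670, nat_lit 38022, nat_lit 38238, nat_lit 38166, nat_lit 38190, nat_lit 38182] (nat_lit 1) [nat_lit 18502] false,
   Spec.mk (nat_lit 38188) (nat_lit 1) [nat_lit 51310, nat_lit 36730, nat_lit 37702, nat_lit 38674, nat_lit 38026, nat_lit 38242, nat_lit 38170, nat_lit 38206, nat_lit 38182, nat_lit 38190] (nat_lit 0) [nat_lit 57870, nat_lit 18506] false,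
   Spec.mk (nat_lit 38190) (nat_lit 1) [nat_lit 51312, nat_lit 36732, nat_lit 37704, nat_lit 38676, nat_lit 38028, nat_lit 38244, nat_lit 38172, nat_lit 38208, nat_lit 38184, nat_lit 38196, nat_lit 38188] (nat_lit 0) [nat_lit 18508] false,
   Spec.mk (nat_lit 38196) (nat_lit 1) [nat_lit 51318, nat_lit 36738, nat_lit 37710, nat_lit 38682, nat_lit 38034, nat_lit 38250, nat_lit 38214, nat_lit 38190] (nat_lit 0) [nat_lit 18514] false,
   Spec.mk (nat_lit 38206) (nat_lit 0) [nat_lit 51328, nat_lit 36748, nat_lit 37720, nat_lit 38692, nat_lit 38044, nat_lit 38260, nat_lit 38188, nat_lit 38208] (nat_lit 0) [nat_lit 57888, nat_lit 18524] false,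
   Spec.mk (nat_lit 38208) (nat_lit 0) [nat_lit 51330, nat_lit 36750, nat_lit 37722, nat_lit 38694, nat_lit 38046, nat_lit 38262, nat_lit 38190, nat_lit 38214, nat_lit 38206] (nat_lit 1) [nat_lit 18526] false,
   Spec.mk (nat_lit 38214) (nat_lit 1) [nat_lit 51336, nat_lit 36756, nat_lit 37728, nat_lit 38700, nat_lit 38052, nat_lit 38268, nat_lit 38196, nat_lit 38208] (nat_lit 0) [nat_lit 18532] false,
   Spec.mk (nat_lit 38234) (nat_lit 2) [nat_lit 51356, nat_lit 36776, nat_lit 37748, nat_lit 38720, nat_lit 38072, nat_lit 38396, nat_lit 38180, nat_lit 38236] (nat_lit 0) [nat_lit 57916] false,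
   Spec.mk (nat_lit 38236) (nat_lit 2) [nat_lit 51358, nat_lit 36778, nat_lit 37750, nat_lit 38722, nat_lit 38074, nat_lit 38398, nat_lit 38182, nat_lit 38242, nat_lit 38234, nat_lit 38238] (nat_lit 0) [nat_lit 57918, nat_lit 18554] false,
   Spec.mk (nat_lit 38238) (nat_lit 0) [nat_lit 51360, nat_lit 36780, nat_lit 37752, nat_lit 38724, nat_lit 38076, nat_lit 38400, nat_lit 38184, nat_lit 38244, nat_lit 38236] (nat_lit 0) [nat_lit 18556] false,
   Spec.mk (nat_lit 38242) (nat_lit 1) [nat_lit 51364, nat_lit 36784, nat_lit 37756, nat_lit 38728, nat_lit 38080, nat_lit 38404, nat_lit 38188, nat_lit 38260, nat_lit 38236, nat_lit 38244] (nat_lit 0) [nat_lit 57924, nat_lit 18560] false,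
   Spec.mk (nat_lit 38244) (nat_lit 1) [nat_lit 51366, nat_lit 36786, nat_lit 37758, nat_lit 38730, nat_lit 38082, nat_lit 38406, nat_lit 38190, nat_lit 38262, nat_lit 38238, nat_lit 38250, nat_lit 38242] (nat_lit 0) [nat_lit 18562] false,
   Spec.mk (nat_lit 38250) (nat_lit 0) [nat_lit 51372, nat_lit 36792, nat_lit 37764, nat_lit 38736, nat_lit 38088, nat_lit 38412, nat_lit 38196, nat_lit 38268, nat_lit 38244] (nat_lit 0) [nat_lit 18568] false,
   Spec.mk (nat_lit 38260) (nat_lit 2) [nat_lit 51382, nat_lit 36802, nat_lit 37774, nat_lit 38746, nat_lit 38098, nat_lit 38422, nat_lit 38206, nat_lit 38314, nat_lit 38242, nat_lit 38262] (nat_lit 0) [nat_lit 57942, nat_lit 18578] false,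
   Spec.mk (nat_lit 38262) (nat_lit 1) [nat_lit 51384, nat_lit 36804, nat_lit 37776, nat_lit 38748, nat_lit 38100, nat_lit 38424, nat_lit 38208, nat_lit 38316, nat_lit 38244, nat_lit 38268, nat_lit 38260] (nat_lit 0) [nat_lit 18580] false,
   Spec.mk (nat_lit 38268) (nat_lit 2) [nat_lit 51390, nat_lit 36810, nat_lit 37782, nat_lit 38754, nat_lit 38106, nat_lit 38430, nat_lit 38214, nat_lit 38322, nat_lit 38250, nat_lit 38286, nat_lit 38262] (nat_lit 0) [nat_lit 18586] false,
   Spec.mk (nat_lit 38286) (nat_lit 2) [nat_lit 51408, nat_lit 36828, nat_lit 37800, nat_lit 38772, nat_lit 38124, nat_lit 38448, nat_lit 38340, nat_lit 38268] (nat_lit 0) [nat_lit 18604] false,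
   Spec.mk (nat_lit 38314) (nat_lit 2) [nat_lit 51436, nat_lit 36856, nat_lit 37828, nat_lit 38800, nat_lit 38476, nat_lit 38260, nat_lit 38316] (nat_lit 0) [nat_lit 57996, nat_lit 18632] false,
   Spec.mk (nat_lit 38316) (nat_lit 1) [nat_lit 51438, nat_lit 36858, nat_lit 37830, nat_lit 38802, nat_lit 38478, nat_lit 38262, nat_lit 38322, nat_lit 38314] (nat_lit 0) [nat_lit 18634] false,
   Spec.mk (nat_lit 38322) (nat_lit 1) [nat_lit 51444, nat_lit 36864, nat_lit 37836, nat_lit 38808, nat_lit 38484, nat_lit 38268, nat_lit 38340, nat_lit 38316] (nat_lit 0) [nat_lit 18640] false,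
   Spec.mk (nat_lit 38340) (nat_lit 3) [nat_lit 51462, nat_lit 36882, nat_lit 37854, nat_lit 38826, nat_lit 38502, nat_lit 38286, nat_lit 38322] (nat_lit 0) [nat_lit 18658] false,
   Spec.mk (nat_lit 38396) (nat_lit 2) [nat_lit 51518, nat_lit 36938, nat_lit 38882, nat_lit 38234, nat_lit 38398] (nat_lit 0) [nat_lit 58078] false,
   Spec.mk (nat_lit 38398) (nat_lit 2) [nat_lit 51520, nat_lit 36940, nat_lit 38884, nat_lit 38236, nat_lit 38404, nat_lit 38396, nat_lit 38400] (nat_lit 0) [nat_lit 58080, nat_lit 18716] false,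
   Spec.mk (nat_lit 38400) (nat_lit 0) [nat_lit 51522, nat_lit 36942, nat_lit 38886, nat_lit 38238, nat_lit 38406, nat_lit 38398] (nat_lit 0) [nat_lit 18718] false,
   Spec.mk (nat_lit 38404) (nat_lit 1) [nat_lit 51526, nat_lit 36946, nat_lit 38890, nat_lit 38242, nat_lit 38422, nat_lit 38398, nat_lit 38406] (nat_lit 0) [nat_lit 58086, nat_lit 18722] false,
   Spec.mk (nat_lit 38406) (nat_lit 1) [nat_lit 51528, nat_lit 36948, nat_lit 38892, nat_lit 38244, nat_lit 38424, nat_lit 38400, nat_lit 38412, nat_lit 38404] (nat_lit 0) [nat_lit 18724] false,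
   Spec.mk (nat_lit 38412) (nat_lit 0) [nat_lit 51534, nat_lit 36954, nat_lit 38898, nat_lit 38250, nat_lit 38430, nat_lit 38406] (nat_lit 0) [nat_lit 18730] false,
   Spec.mk (nat_lit 38422) (nat_lit 1) [nat_lit 51544, nat_lit 36964, nat_lit 38908, nat_lit 38260, nat_lit 38476, nat_lit 38404, nat_lit 38424] (nat_lit 0) [nat_lit 58104, nat_lit 18740] false,
   Spec.mk (nat_lit 38424) (nat_lit 0) [nat_lit 51546, nat_lit 36966, nat_lit 38910, nat_lit 38262, nat_lit 38478, nat_lit 38406, nat_lit 38430, nat_lit 38422] (nat_lit 0) [nat_lit 18742] false,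
   Spec.mk (nat_lit 38430) (nat_lit 1) [nat_lit 51552, nat_lit 36972, nat_lit 38916, nat_lit 38268, nat_lit 38484, nat_lit 38412, nat_lit 38448, nat_lit 38424] (nat_lit 0) [nat_lit 18748] false,
   Spec.mk (nat_lit 38448) (nat_lit 0) [nat_lit 51570, nat_lit 36990, nat_lit 38934, nat_lit 38286, nat_lit 38502, nat_lit 38430] (nat_lit 0) [nat_lit 18766] false,
   Spec.mk (nat_lit 38476) (nat_lit 3) [nat_lit 51598, nat_lit 37018, nat_lit 38962, nat_lit 38314, nat_lit 38422, nat_lit 38478] (nat_lit 0) [nat_lit 58158, nat_lit 18794] false,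
   Spec.mk (nat_lit 38478) (nat_lit 2) [nat_lit 51600, nat_lit 37020, nat_lit 38964, nat_lit 38316, nat_lit 38424, nat_lit 38484, nat_lit 38476] (nat_lit 0) [nat_lit 18796] false,
   Spec.mk (nat_lit 38484) (nat_lit 2) [nat_lit 51606, nat_lit 37026, nat_lit 38970, nat_lit 38322, nat_lit 38430, nat_lit 38502, nat_lit 38478] (nat_lit 0) [nat_lit 18802] false,
   Spec.mk (nat_lit 38502) (nat_lit 3) [nat_lit 51624, nat_lit 37044, nat_lit 38988, nat_lit 38340, nat_lit 38448, nat_lit 38556, nat_lit 38484] (nat_lit 0) [nat_lit 18820] false,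
   Spec.mk (nat_lit 38556) (nat_lit 4) [nat_lit 51678, nat_lit 37098, nat_lit 39042, nat_lit 38502] (nat_lit 0) [nat_lit 18874] false,
   Spec.mk (nat_lit 38642) (nat_lit 4) [nat_lit 51764, nat_lit 38156, nat_lit 38648, nat_lit 38644] (nat_lit 0) [nat_lit 58324] false,
   Spec.mk (nat_lit 38644) (nat_lit 3) [nat_lit 51766, nat_lit 38158, nat_lit 38650, nat_lit 38642] (nat_lit 0) [nat_lit 58326, nat_lit 18962] false,
   Spec.mk (nat_lit 38648) (nat_lit 2) [nat_lit 51770, nat_lit 38162, nat_lit 38666, nat_lit 38642, nat_lit 38650] (nat_lit 0) [nat_lit 58330] false,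
   Spec.mk (nat_lit 38650) (nat_lit 3) [nat_lit 51772, nat_lit 38164, nat_lit 38668, nat_lit 38644, nat_lit 38656, nat_lit 38648, nat_lit 38652] (nat_lit 0) [nat_lit 58332, nat_lit 18968] false]

noncomputable def sp100 : List Spec :=
  [Spec.mk (nat_lit 38652) (nat_lit 2) [nat_lit 51774, nat_lit 38166, nat_lit 38670, nat_lit 38658, nat_lit 38650] (nat_lit 0) [nat_lit 18970] false,
   Spec.mk (nat_lit 38656) (nat_lit 1) [nat_lit 51778, nat_lit 38170, nat_lit 38674, nat_lit 38650, nat_lit 38658] (nat_lit 0) [nat_lit 58338, nat_lit 18974] false,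
   Spec.mk (nat_lit 38658) (nat_lit 2) [nat_lit 51780, nat_lit 38172, nat_lit 38676, nat_lit 38652, nat_lit 38656] (nat_lit 0) [nat_lit 18976] false,
   Spec.mk (nat_lit 38666) (nat_lit 2) [nat_lit 51788, nat_lit 38180, nat_lit 38720, nat_lit 38648, nat_lit 38668] (nat_lit 0) [nat_lit 58348] false,
   Spec.mk (nat_lit 38668) (nat_lit 2) [nat_lit 51790, nat_lit 38182, nat_lit 38722, nat_lit 38650, nat_lit 38674, nat_lit 38666, nat_lit 38670] (nat_lit 0) [nat_lit 58350, nat_lit 18986] false,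
   Spec.mk (nat_lit 38670) (nat_lit 0) [nat_lit 51792, nat_lit 38184, nat_lit 38724, nat_lit 38652, nat_lit 38676, nat_lit 38668] (nat_lit 0) [nat_lit 18988] false,
   Spec.mk (nat_lit 38674) (nat_lit 2) [nat_lit 51796, nat_lit 38188, nat_lit 38728, nat_lit 38656, nat_lit 38692, nat_lit 38668, nat_lit 38676] (nat_lit 0) [nat_lit 58356, nat_lit 18992] false,
   Spec.mk (nat_lit 38676) (nat_lit 2) [nat_lit 51798, nat_lit 38190, nat_lit 38730, nat_lit 38658, nat_lit 38694, nat_lit 38670, nat_lit 38682, nat_lit 38674] (nat_lit 0) [nat_lit 18994] false,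
   Spec.mk (nat_lit 38682) (nat_lit 2) [nat_lit 51804, nat_lit 38196, nat_lit 38736, nat_lit 38700, nat_lit 38676] (nat_lit 0) [nat_lit 19000] false,
   Spec.mk (nat_lit 38692) (nat_lit 1) [nat_lit 51814, nat_lit 38206, nat_lit 38746, nat_lit 38674, nat_lit 38694] (nat_lit 0) [nat_lit 58374, nat_lit 19010] false,
   Spec.mk (nat_lit 38694) (nat_lit 0) [nat_lit 51816, nat_lit 38208, nat_lit 38748, nat_lit 38676, nat_lit 38700, nat_lit 38692] (nat_lit 0) [nat_lit 19012] false,
   Spec.mk (nat_lit 38700) (nat_lit 2) [nat_lit 51822, nat_lit 38214, nat_lit 38754, nat_lit 38682, nat_lit 38694] (nat_lit 0) [nat_lit 19018] false,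
   Spec.mk (nat_lit 38720) (nat_lit 2) [nat_lit 51842, nat_lit 38234, nat_lit 38882, nat_lit 38666, nat_lit 38722] (nat_lit 0) [nat_lit 58402] false,
   Spec.mk (nat_lit 38722) (nat_lit 2) [nat_lit 51844, nat_lit 38236, nat_lit 38884, nat_lit 38668, nat_lit 38728, nat_lit 38720, nat_lit 38724] (nat_lit 0) [nat_lit 58404, nat_lit 19040] false,
   Spec.mk (nat_lit 38724) (nat_lit 0) [nat_lit 51846, nat_lit 38238, nat_lit 38886, nat_lit 38670, nat_lit 38730, nat_lit 38722] (nat_lit 0) [nat_lit 19042] false,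
   Spec.mk (nat_lit 38728) (nat_lit 1) [nat_lit 51850, nat_lit 38242, nat_lit 38890, nat_lit 38674, nat_lit 38746, nat_lit 38722, nat_lit 38730] (nat_lit 0) [nat_lit 58410, nat_lit 19046] false,
   Spec.mk (nat_lit 38730) (nat_lit 1) [nat_lit 51852, nat_lit 38244, nat_lit 38892, nat_lit 38676, nat_lit 38748, nat_lit 38724, nat_lit 38736, nat_lit 38728] (nat_lit 0) [nat_lit 19048] false,
   Spec.mk (nat_lit 38736) (nat_lit 0) [nat_lit 51858, nat_lit 38250, nat_lit 38898, nat_lit 38682, nat_lit 38754, nat_lit 38730] (nat_lit 0) [nat_lit 19054] false,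
   Spec.mk (nat_lit 38746) (nat_lit 2) [nat_lit 51868, nat_lit 38260, nat_lit 38908, nat_lit 38692, nat_lit 38800, nat_lit 38728, nat_lit 38748] (nat_lit 0) [nat_lit 58428, nat_lit 19064] false,
   Spec.mk (nat_lit 38748) (nat_lit 1) [nat_lit 51870, nat_lit 38262, nat_lit 38910, nat_lit 38694, nat_lit 38802, nat_lit 38730, nat_lit 38754, nat_lit 38746] (nat_lit 0) [nat_lit 19066] false,
   Spec.mk (nat_lit 38754) (nat_lit 2) [nat_lit 51876, nat_lit 38268, nat_lit 38916, nat_lit 38700, nat_lit 38808, nat_lit 38736, nat_lit 38772, nat_lit 38748] (nat_lit 0) [nat_lit 19072] false,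
   Spec.mk (nat_lit 38772) (nat_lit 2) [nat_lit 51894, nat_lit 38286, nat_lit 38934, nat_lit 38826, nat_lit 38754] (nat_lit 0) [nat_lit 19090] false,
   Spec.mk (nat_lit 38800) (nat_lit 1) [nat_lit 51922, nat_lit 38314, nat_lit 38962, nat_lit 38746, nat_lit 38802] (nat_lit 0) [nat_lit 58482, nat_lit 19118] false,
   Spec.mk (nat_lit 38802) (nat_lit 0) [nat_lit 51924, nat_lit 38316, nat_lit 38964, nat_lit 38748, nat_lit 38808, nat_lit 38800] (nat_lit 0) [nat_lit 19120] false,
   Spec.mk (nat_lit 38808) (nat_lit 0) [nat_lit 51930, nat_lit 38322, nat_lit 38970, nat_lit 38754, nat_lit 38826, nat_lit 38802] (nat_lit 0) [nat_lit 19126] false,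
   Spec.mk (nat_lit 38826) (nat_lit 2) [nat_lit 51948, nat_lit 38340, nat_lit 38988, nat_lit 38772, nat_lit 38808] (nat_lit 0) [nat_lit 19144] false,
   Spec.mk (nat_lit 38882) (nat_lit 4) [nat_lit 52004, nat_lit 38396, nat_lit 38720, nat_lit 38884] (nat_lit 0) [nat_lit 58564] false,
   Spec.mk (nat_lit 38884) (nat_lit 4) [nat_lit 52006, nat_lit 38398, nat_lit 38722, nat_lit 38890, nat_lit 38882, nat_lit 38886] (nat_lit 0) [nat_lit 58566, nat_lit 19202] false,
   Spec.mk (nat_lit 38886) (nat_lit 2) [nat_lit 52008, nat_lit 38400, nat_lit 38724, nat_lit 38892, nat_lit 38884] (nat_lit 0) [nat_lit 19204] false,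
   Spec.mk (nat_lit 38890) (nat_lit 3) [nat_lit 52012, nat_lit 38404, nat_lit 38728, nat_lit 38908, nat_lit 38884, nat_lit 38892] (nat_lit 0) [nat_lit 58572, nat_lit 19208] false,
   Spec.mk (nat_lit 38892) (nat_lit 3) [nat_lit 52014, nat_lit 38406, nat_lit 38730, nat_lit 38910, nat_lit 38886, nat_lit 38898, nat_lit 38890] (nat_lit 0) [nat_lit 19210] false,
   Spec.mk (nat_lit 38898) (nat_lit 2) [nat_lit 52020, nat_lit 38412, nat_lit 38736, nat_lit 38916, nat_lit 38892] (nat_lit 0) [nat_lit 19216] false,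
   Spec.mk (nat_lit 38908) (nat_lit 3) [nat_lit 52030, nat_lit 38422, nat_lit 38746, nat_lit 38962, nat_lit 38890, nat_lit 38910] (nat_lit 0) [nat_lit 58590, nat_lit 19226] false,
   Spec.mk (nat_lit 38910) (nat_lit 2) [nat_lit 52032, nat_lit 38424, nat_lit 38748, nat_lit 38964, nat_lit 38892, nat_lit 38916, nat_lit 38908] (nat_lit 0) [nat_lit 19228] false,
   Spec.mk (nat_lit 38916) (nat_lit 3) [nat_lit 52038, nat_lit 38430, nat_lit 38754, nat_lit 38970, nat_lit 38898, nat_lit 38934, nat_lit 38910] (nat_lit 0) [nat_lit 19234] false,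
   Spec.mk (nat_lit 38934) (nat_lit 2) [nat_lit 52056, nat_lit 38448, nat_lit 38772, nat_lit 38988, nat_lit 38916] (nat_lit 0) [nat_lit 19252] false,
   Spec.mk (nat_lit 38962) (nat_lit 4) [nat_lit 52084, nat_lit 38476, nat_lit 38800, nat_lit 39124, nat_lit 38908, nat_lit 38964] (nat_lit 0) [nat_lit 58644, nat_lit 19280] false,
   Spec.mk (nat_lit 38964) (nat_lit 3) [nat_lit 52086, nat_lit 38478, nat_lit 38802, nat_lit 39126, nat_lit 38910, nat_lit 38970, nat_lit 38962] (nat_lit 0) [nat_lit 19282] false,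
   Spec.mk (nat_lit 38970) (nat_lit 3) [nat_lit 52092, nat_lit 38484, nat_lit 38808, nat_lit 39132, nat_lit 38916, nat_lit 38988, nat_lit 38964] (nat_lit 0) [nat_lit 19288] false,
   Spec.mk (nat_lit 38988) (nat_lit 4) [nat_lit 52110, nat_lit 38502, nat_lit 38826, nat_lit 39150, nat_lit 38934, nat_lit 39042, nat_lit 38970] (nat_lit 0) [nat_lit 19306] false,
   Spec.mk (nat_lit 39042) (nat_lit 4) [nat_lit 52164, nat_lit 38556, nat_lit 39204, nat_lit 38988] (nat_lit 0) [nat_lit 19360] false,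
   Spec.mk (nat_lit 39124) (nat_lit 5) [nat_lit 52246, nat_lit 38962, nat_lit 39126] (nat_lit 0) [nat_lit 58806, nat_lit 19442] false,
   Spec.mk (nat_lit 39126) (nat_lit 4) [nat_lit 52248, nat_lit 38964, nat_lit 39132, nat_lit 39124] (nat_lit 0) [nat_lit 19444] false,
   Spec.mk (nat_lit 39132) (nat_lit 4) [nat_lit 52254, nat_lit 38970, nat_lit 39150, nat_lit 39126] (nat_lit 0) [nat_lit 19450] false,
   Spec.mk (nat_lit 39150) (nat_lit 4) [nat_lit 52272, nat_lit 38988, nat_lit 39204, nat_lit 39132] (nat_lit 0) [nat_lit 19468] false,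
   Spec.mk (nat_lit 39204) (nat_lit 6) [nat_lit 52326, nat_lit 39042, nat_lit 39150] (nat_lit 0) [nat_lit 19522] false,
   Spec.mk (nat_lit 39446) (nat_lit 6) [nat_lit 26324, nat_lit 39500] (nat_lit 0) [] false,
   Spec.mk (nat_lit 39500) (nat_lit 5) [nat_lit 26378, nat_lit 39662, nat_lit 39446, nat_lit 39554, nat_lit 39518] (nat_lit 0) [] false,
   Spec.mk (nat_lit 39518) (nat_lit 4) [nat_lit 26396, nat_lit 39680, nat_lit 39572, nat_lit 39500, nat_lit 39524] (nat_lit 0) [] false,
   Spec.mk (nat_lit 39524) (nat_lit 4) [nat_lit 26402, nat_lit 39686, nat_lit 39578, nat_lit 39518, nat_lit 39526] (nat_lit 0) [] false,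
   Spec.mk (nat_lit 39526) (nat_lit 4) [nat_lit 26404, nat_lit 39688, nat_lit 39580, nat_lit 39524] (nat_lit 0) [nat_lit 19844] false,
   Spec.mk (nat_lit 39554) (nat_lit 2) [nat_lit 26432, nat_lit 39716, nat_lit 39500, nat_lit 39572] (nat_lit 0) [] false,
   Spec.mk (nat_lit 39572) (nat_lit 3) [nat_lit 26450, nat_lit 39734, nat_lit 39518, nat_lit 39554, nat_lit 39590, nat_lit 39578] (nat_lit 0) [] false,
   Spec.mk (nat_lit 39578) (nat_lit 2) [nat_lit 26456, nat_lit 39740, nat_lit 39524, nat_lit 39596, nat_lit 39572, nat_lit 39580] (nat_lit 0) [] false,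
   Spec.mk (nat_lit 39580) (nat_lit 2) [nat_lit 26458, nat_lit 39742, nat_lit 39526, nat_lit 39598, nat_lit 39578] (nat_lit 0) [nat_lit 19898] false,
   Spec.mk (nat_lit 39590) (nat_lit 2) [nat_lit 26468, nat_lit 39752, nat_lit 39572, nat_lit 39596] (nat_lit 0) [] false,
   Spec.mk (nat_lit 39596) (nat_lit 3) [nat_lit 26474, nat_lit 39758, nat_lit 39578, nat_lit 39590, nat_lit 39602, nat_lit 39598] (nat_lit 0) [] false,
   Spec.mk (nat_lit 39598) (nat_lit 2) [nat_lit 26476, nat_lit 39760, nat_lit 39580, nat_lit 39604, nat_lit 39596] (nat_lit 0) [nat_lit 19916] false,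
   Spec.mk (nat_lit 39602) (nat_lit 2) [nat_lit 26480, nat_lit 39764, nat_lit 39596, nat_lit 39604] (nat_lit 0) [] false,
   Spec.mk (nat_lit 39604) (nat_lit 3) [nat_lit 26482, nat_lit 39766, nat_lit 39598, nat_lit 39602, nat_lit 39606] (nat_lit 0) [nat_lit 19922] false]

noncomputable def sp101 : List Spec :=
  [Spec.mk (nat_lit 39606) (nat_lit 2) [nat_lit 26484, nat_lit 39768, nat_lit 39604] (nat_lit 0) [nat_lit 19924] false,
   Spec.mk (nat_lit 39662) (nat_lit 4) [nat_lit 26540, nat_lit 40148, nat_lit 39500, nat_lit 39716, nat_lit 39680] (nat_lit 0) [] false,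
   Spec.mk (nat_lit 39680) (nat_lit 2) [nat_lit 26558, nat_lit 40166, nat_lit 39518, nat_lit 39734, nat_lit 39662, nat_lit 39686] (nat_lit 0) [] false,
   Spec.mk (nat_lit 39686) (nat_lit 2) [nat_lit 26564, nat_lit 40172, nat_lit 39524, nat_lit 39740, nat_lit 39680, nat_lit 39688] (nat_lit 0) [] false,
   Spec.mk (nat_lit 39688) (nat_lit 2) [nat_lit 26566, nat_lit 40174, nat_lit 39526, nat_lit 39742, nat_lit 39686] (nat_lit 0) [nat_lit 20006] false,
   Spec.mk (nat_lit 39716) (nat_lit 3) [nat_lit 26594, nat_lit 40202, nat_lit 39554, nat_lit 39878, nat_lit 39662, nat_lit 39734] (nat_lit 0) [] false,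
   Spec.mk (nat_lit 39734) (nat_lit 3) [nat_lit 26612, nat_lit 40220, nat_lit 39572, nat_lit 39896, nat_lit 39680, nat_lit 39788, nat_lit 39716, nat_lit 39752, nat_lit 39740] (nat_lit 0) [] false,
   Spec.mk (nat_lit 39740) (nat_lit 2) [nat_lit 26618, nat_lit 40226, nat_lit 39578, nat_lit 39902, nat_lit 39686, nat_lit 39794, nat_lit 39758, nat_lit 39734, nat_lit 39742] (nat_lit 0) [] false,
   Spec.mk (nat_lit 39742) (nat_lit 2) [nat_lit 26620, nat_lit 40228, nat_lit 39580, nat_lit 39904, nat_lit 39688, nat_lit 39796, nat_lit 39760, nat_lit 39740] (nat_lit 0) [nat_lit 20060] false,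
   Spec.mk (nat_lit 39752) (nat_lit 1) [nat_lit 26630, nat_lit 40238, nat_lit 39590, nat_lit 39914, nat_lit 39806, nat_lit 39734, nat_lit 39758] (nat_lit 0) [] false,
   Spec.mk (nat_lit 39758) (nat_lit 2) [nat_lit 26636, nat_lit 40244, nat_lit 39596, nat_lit 39920, nat_lit 39812, nat_lit 39740, nat_lit 39752, nat_lit 39764, nat_lit 39760] (nat_lit 0) [] false,
   Spec.mk (nat_lit 39760) (nat_lit 1) [nat_lit 26638, nat_lit 40246, nat_lit 39598, nat_lit 39922, nat_lit 39814, nat_lit 39742, nat_lit 39766, nat_lit 39758] (nat_lit 0) [nat_lit 20078] false,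
   Spec.mk (nat_lit 39764) (nat_lit 1) [nat_lit 26642, nat_lit 40250, nat_lit 39602, nat_lit 39926, nat_lit 39818, nat_lit 39758, nat_lit 39766] (nat_lit 0) [] false,
   Spec.mk (nat_lit 39766) (nat_lit 2) [nat_lit 26644, nat_lit 40252, nat_lit 39604, nat_lit 39928, nat_lit 39820, nat_lit 39760, nat_lit 39764, nat_lit 39768] (nat_lit 0) [nat_lit 20084] false,
   Spec.mk (nat_lit 39768) (nat_lit 1) [nat_lit 26646, nat_lit 40254, nat_lit 39606, nat_lit 39930, nat_lit 39822, nat_lit 39766] (nat_lit 0) [nat_lit 20086] false,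
   Spec.mk (nat_lit 39788) (nat_lit 2) [nat_lit 26666, nat_lit 40274, nat_lit 39950, nat_lit 39734, nat_lit 39806, nat_lit 39794] (nat_lit 0) [] false,
   Spec.mk (nat_lit 39794) (nat_lit 0) [nat_lit 26672, nat_lit 40280, nat_lit 39956, nat_lit 39740, nat_lit 39812, nat_lit 39788, nat_lit 39796] (nat_lit 0) [] false,
   Spec.mk (nat_lit 39796) (nat_lit 0) [nat_lit 26674, nat_lit 40282, nat_lit 39958, nat_lit 39742, nat_lit 39814, nat_lit 39794] (nat_lit 0) [nat_lit 20114] false,
   Spec.mk (nat_lit 39806) (nat_lit 2) [nat_lit 26684, nat_lit 40292, nat_lit 39968, nat_lit 39752, nat_lit 39788, nat_lit 39812] (nat_lit 0) [] false,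
   Spec.mk (nat_lit 39812) (nat_lit 2) [nat_lit 26690, nat_lit 40298, nat_lit 39974, nat_lit 39758, nat_lit 39794, nat_lit 39830, nat_lit 39806, nat_lit 39818, nat_lit 39814] (nat_lit 0) [] false,
   Spec.mk (nat_lit 39814) (nat_lit 1) [nat_lit 26692, nat_lit 40300, nat_lit 39976, nat_lit 39760, nat_lit 39796, nat_lit 39832, nat_lit 39820, nat_lit 39812] (nat_lit 0) [nat_lit 20132] false,
   Spec.mk (nat_lit 39818) (nat_lit 0) [nat_lit 26696, nat_lit 40304, nat_lit 39980, nat_lit 39764, nat_lit 39836, nat_lit 39812, nat_lit 39820] (nat_lit 0) [] false,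
   Spec.mk (nat_lit 39820) (nat_lit 1) [nat_lit 26698, nat_lit 40306, nat_lit 39982, nat_lit 39766, nat_lit 39838, nat_lit 39814, nat_lit 39818, nat_lit 39822] (nat_lit 0) [nat_lit 20138] false,
   Spec.mk (nat_lit 39822) (nat_lit 0) [nat_lit 26700, nat_lit 40308, nat_lit 39984, nat_lit 39768, nat_lit 39840, nat_lit 39820] (nat_lit 0) [nat_lit 20140] false,
   Spec.mk (nat_lit 39830) (nat_lit 2) [nat_lit 26708, nat_lit 40316, nat_lit 39992, nat_lit 39812, nat_lit 39836, nat_lit 39832] (nat_lit 0) [] false,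
   Spec.mk (nat_lit 39832) (nat_lit 0) [nat_lit 26710, nat_lit 40318, nat_lit 39994, nat_lit 39814, nat_lit 39838, nat_lit 39830] (nat_lit 0) [nat_lit 20150] false,
   Spec.mk (nat_lit 39836) (nat_lit 2) [nat_lit 26714, nat_lit 40322, nat_lit 39998, nat_lit 39818, nat_lit 39830, nat_lit 39838] (nat_lit 0) [] false,
   Spec.mk (nat_lit 39838) (nat_lit 2) [nat_lit 26716, nat_lit 40324, nat_lit 40000, nat_lit 39820, nat_lit 39832, nat_lit 39844, nat_lit 39836, nat_lit 39840] (nat_lit 0) [nat_lit 20156] false,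
   Spec.mk (nat_lit 39840) (nat_lit 0) [nat_lit 26718, nat_lit 40326, nat_lit 40002, nat_lit 39822, nat_lit 39846, nat_lit 39838] (nat_lit 0) [nat_lit 20158] false,
   Spec.mk (nat_lit 39844) (nat_lit 2) [nat_lit 26722, nat_lit 40330, nat_lit 40006, nat_lit 39838, nat_lit 39846] (nat_lit 0) [nat_lit 20162] false,
   Spec.mk (nat_lit 39846) (nat_lit 2) [nat_lit 26724, nat_lit 40332, nat_lit 40008, nat_lit 39840, nat_lit 39844] (nat_lit 0) [nat_lit 20164] false,
   Spec.mk (nat_lit 39878) (nat_lit 2) [nat_lit 26756, nat_lit 40364, nat_lit 39716, nat_lit 39896] (nat_lit 0) [] false,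
   Spec.mk (nat_lit 39896) (nat_lit 1) [nat_lit 26774, nat_lit 40382, nat_lit 39734, nat_lit 39950, nat_lit 39878, nat_lit 39914, nat_lit 39902] (nat_lit 0) [] false,
   Spec.mk (nat_lit 39902) (nat_lit 0) [nat_lit 26780, nat_lit 40388, nat_lit 39740, nat_lit 39956, nat_lit 39920, nat_lit 39896, nat_lit 39904] (nat_lit 0) [] false,
   Spec.mk (nat_lit 39904) (nat_lit 0) [nat_lit 26782, nat_lit 40390, nat_lit 39742, nat_lit 39958, nat_lit 39922, nat_lit 39902] (nat_lit 0) [nat_lit 20222] false,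
   Spec.mk (nat_lit 39914) (nat_lit 0) [nat_lit 26792, nat_lit 40400, nat_lit 39752, nat_lit 39968, nat_lit 39896, nat_lit 39920] (nat_lit 2) [] false,
   Spec.mk (nat_lit 39920) (nat_lit 0) [nat_lit 26798, nat_lit 40406, nat_lit 39758, nat_lit 39974, nat_lit 39902, nat_lit 39914, nat_lit 39926, nat_lit 39922] (nat_lit 1) [] false,
   Spec.mk (nat_lit 39922) (nat_lit 0) [nat_lit 26800, nat_lit 40408, nat_lit 39760, nat_lit 39976, nat_lit 39904, nat_lit 39928, nat_lit 39920] (nat_lit 2) [nat_lit 20240] false,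
   Spec.mk (nat_lit 39926) (nat_lit 0) [nat_lit 26804, nat_lit 40412, nat_lit 39764, nat_lit 39980, nat_lit 39920, nat_lit 39928] (nat_lit 2) [] false,
   Spec.mk (nat_lit 39928) (nat_lit 0) [nat_lit 26806, nat_lit 40414, nat_lit 39766, nat_lit 39982, nat_lit 39922, nat_lit 39926, nat_lit 39930] (nat_lit 1) [nat_lit 20246] false,
   Spec.mk (nat_lit 39930) (nat_lit 0) [nat_lit 26808, nat_lit 40416, nat_lit 39768, nat_lit 39984, nat_lit 39928] (nat_lit 2) [nat_lit 20248] false,
   Spec.mk (nat_lit 39950) (nat_lit 2) [nat_lit 26828, nat_lit 40436, nat_lit 39788, nat_lit 39896, nat_lit 39968, nat_lit 39956] (nat_lit 0) [] false,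
   Spec.mk (nat_lit 39956) (nat_lit 0) [nat_lit 26834, nat_lit 40442, nat_lit 39794, nat_lit 39902, nat_lit 39974, nat_lit 39950, nat_lit 39958] (nat_lit 0) [] false,
   Spec.mk (nat_lit 39958) (nat_lit 0) [nat_lit 26836, nat_lit 40444, nat_lit 39796, nat_lit 39904, nat_lit 39976, nat_lit 39956] (nat_lit 0) [nat_lit 20276] false,
   Spec.mk (nat_lit 39968) (nat_lit 1) [nat_lit 26846, nat_lit 40454, nat_lit 39806, nat_lit 39914, nat_lit 40022, nat_lit 39950, nat_lit 39974] (nat_lit 0) [] false,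
   Spec.mk (nat_lit 39974) (nat_lit 1) [nat_lit 26852, nat_lit 40460, nat_lit 39812, nat_lit 39920, nat_lit 40028, nat_lit 39956, nat_lit 39992, nat_lit 39968, nat_lit 39980, nat_lit 39976] (nat_lit 0) [] false,
   Spec.mk (nat_lit 39976) (nat_lit 0) [nat_lit 26854, nat_lit 40462, nat_lit 39814, nat_lit 39922, nat_lit 40030, nat_lit 39958, nat_lit 39994, nat_lit 39982, nat_lit 39974] (nat_lit 0) [nat_lit 20294] false,
   Spec.mk (nat_lit 39980) (nat_lit 0) [nat_lit 26858, nat_lit 40466, nat_lit 39818, nat_lit 39926, nat_lit 40034, nat_lit 39998, nat_lit 39974, nat_lit 39982] (nat_lit 1) [] false,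
   Spec.mk (nat_lit 39982) (nat_lit 0) [nat_lit 26860, nat_lit 40468, nat_lit 39820, nat_lit 39928, nat_lit 40036, nat_lit 40000, nat_lit 39976, nat_lit 39980, nat_lit 39984] (nat_lit 0) [nat_lit 20300] false,
   Spec.mk (nat_lit 39984) (nat_lit 0) [nat_lit 26862, nat_lit 40470, nat_lit 39822, nat_lit 39930, nat_lit 40038, nat_lit 40002, nat_lit 39982] (nat_lit 1) [nat_lit 20302] false,
   Spec.mk (nat_lit 39992) (nat_lit 0) [nat_lit 26870, nat_lit 40478, nat_lit 39830, nat_lit 40046, nat_lit 39974, nat_lit 39998, nat_lit 39994] (nat_lit 0) [] false,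
   Spec.mk (nat_lit 39994) (nat_lit 0) [nat_lit 26872, nat_lit 40480, nat_lit 39832, nat_lit 40048, nat_lit 39976, nat_lit 40000, nat_lit 39992] (nat_lit 2) [nat_lit 20312] false,
   Spec.mk (nat_lit 39998) (nat_lit 0) [nat_lit 26876, nat_lit 40484, nat_lit 39836, nat_lit 40052, nat_lit 39980, nat_lit 39992, nat_lit 40000] (nat_lit 0) [] false,
   Spec.mk (nat_lit 40000) (nat_lit 0) [nat_lit 26878, nat_lit 40486, nat_lit 39838, nat_lit 40054, nat_lit 39982, nat_lit 39994, nat_lit 40006, nat_lit 39998, nat_lit 40002] (nat_lit 0) [nat_lit 20318] false,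
   Spec.mk (nat_lit 40002) (nat_lit 0) [nat_lit 26880, nat_lit 40488, nat_lit 39840, nat_lit 40056, nat_lit 39984, nat_lit 40008, nat_lit 40000] (nat_lit 2) [nat_lit 20320] false,
   Spec.mk (nat_lit 40006) (nat_lit 0) [nat_lit 26884, nat_lit 40492, nat_lit 39844, nat_lit 40060, nat_lit 40000, nat_lit 40008] (nat_lit 0) [nat_lit 20324] false,
   Spec.mk (nat_lit 40008) (nat_lit 0) [nat_lit 26886, nat_lit 40494, nat_lit 39846, nat_lit 40062, nat_lit 40002, nat_lit 40006] (nat_lit 0) [nat_lit 20326] false,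
   Spec.mk (nat_lit 40022) (nat_lit 2) [nat_lit 26900, nat_lit 40508, nat_lit 39968, nat_lit 40028] (nat_lit 0) [] false,
   Spec.mk (nat_lit 40028) (nat_lit 1) [nat_lit 26906, nat_lit 40514, nat_lit 39974, nat_lit 40046, nat_lit 40022, nat_lit 40034, nat_lit 40030] (nat_lit 0) [] false,
   Spec.mk (nat_lit 40030) (nat_lit 0) [nat_lit 26908, nat_lit 40516, nat_lit 39976, nat_lit 40048, nat_lit 40036, nat_lit 40028] (nat_lit 0) [nat_lit 20348] false]

noncomputable def sp102 : List Spec :=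
  [Spec.mk (nat_lit 40034) (nat_lit 0) [nat_lit 26912, nat_lit 40520, nat_lit 39980, nat_lit 40052, nat_lit 40028, nat_lit 40036] (nat_lit 2) [] false,
   Spec.mk (nat_lit 40036) (nat_lit 0) [nat_lit 26914, nat_lit 40522, nat_lit 39982, nat_lit 40054, nat_lit 40030, nat_lit 40034, nat_lit 40038] (nat_lit 1) [nat_lit 20354] false,
   Spec.mk (nat_lit 40038) (nat_lit 0) [nat_lit 26916, nat_lit 40524, nat_lit 39984, nat_lit 40056, nat_lit 40036] (nat_lit 2) [nat_lit 20356] false,
   Spec.mk (nat_lit 40046) (nat_lit 2) [nat_lit 26924, nat_lit 40532, nat_lit 39992, nat_lit 40028, nat_lit 40052, nat_lit 40048] (nat_lit 0) [] false,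
   Spec.mk (nat_lit 40048) (nat_lit 0) [nat_lit 26926, nat_lit 40534, nat_lit 39994, nat_lit 40030, nat_lit 40054, nat_lit 40046] (nat_lit 0) [nat_lit 20366] false,
   Spec.mk (nat_lit 40052) (nat_lit 1) [nat_lit 26930, nat_lit 40538, nat_lit 39998, nat_lit 40034, nat_lit 40070, nat_lit 40046, nat_lit 40054] (nat_lit 0) [] false,
   Spec.mk (nat_lit 40054) (nat_lit 1) [nat_lit 26932, nat_lit 40540, nat_lit 40000, nat_lit 40036, nat_lit 40072, nat_lit 40048, nat_lit 40060, nat_lit 40052, nat_lit 40056] (nat_lit 0) [nat_lit 20372] false,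
   Spec.mk (nat_lit 40056) (nat_lit 0) [nat_lit 26934, nat_lit 40542, nat_lit 40002, nat_lit 40038, nat_lit 40074, nat_lit 40062, nat_lit 40054] (nat_lit 1) [nat_lit 20374] false,
   Spec.mk (nat_lit 40060) (nat_lit 0) [nat_lit 26938, nat_lit 40546, nat_lit 40006, nat_lit 40078, nat_lit 40054, nat_lit 40062] (nat_lit 0) [nat_lit 20378] false,
   Spec.mk (nat_lit 40062) (nat_lit 0) [nat_lit 26940, nat_lit 40548, nat_lit 40008, nat_lit 40080, nat_lit 40056, nat_lit 40060] (nat_lit 0) [nat_lit 20380] false,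
   Spec.mk (nat_lit 40070) (nat_lit 2) [nat_lit 26948, nat_lit 40556, nat_lit 40052, nat_lit 40072] (nat_lit 0) [] false,
   Spec.mk (nat_lit 40072) (nat_lit 1) [nat_lit 26950, nat_lit 40558, nat_lit 40054, nat_lit 40078, nat_lit 40070, nat_lit 40074] (nat_lit 0) [nat_lit 20390] false,
   Spec.mk (nat_lit 40074) (nat_lit 0) [nat_lit 26952, nat_lit 40560, nat_lit 40056, nat_lit 40080, nat_lit 40072] (nat_lit 2) [nat_lit 20392] false,
   Spec.mk (nat_lit 40078) (nat_lit 2) [nat_lit 26956, nat_lit 40564, nat_lit 40060, nat_lit 40072, nat_lit 40080] (nat_lit 0) [nat_lit 20396] false,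
   Spec.mk (nat_lit 40080) (nat_lit 1) [nat_lit 26958, nat_lit 40566, nat_lit 40062, nat_lit 40074, nat_lit 40086, nat_lit 40078] (nat_lit 0) [nat_lit 20398] false,
   Spec.mk (nat_lit 40086) (nat_lit 2) [nat_lit 26964, nat_lit 40572, nat_lit 40080] (nat_lit 0) [nat_lit 20404] false,
   Spec.mk (nat_lit 40148) (nat_lit 4) [nat_lit 27026, nat_lit 41606, nat_lit 39662, nat_lit 40202, nat_lit 40166] (nat_lit 0) [] false,
   Spec.mk (nat_lit 40166) (nat_lit 2) [nat_lit 27044, nat_lit 41624, nat_lit 39680, nat_lit 40220, nat_lit 40148, nat_lit 40172] (nat_lit 0) [] false,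
   Spec.mk (nat_lit 40172) (nat_lit 2) [nat_lit 27050, nat_lit 41630, nat_lit 39686, nat_lit 40226, nat_lit 40166, nat_lit 40174] (nat_lit 0) [] false,
   Spec.mk (nat_lit 40174) (nat_lit 2) [nat_lit 27052, nat_lit 41632, nat_lit 39688, nat_lit 40228, nat_lit 40172] (nat_lit 0) [nat_lit 20492] false,
   Spec.mk (nat_lit 40202) (nat_lit 2) [nat_lit 27080, nat_lit 41660, nat_lit 39716, nat_lit 40364, nat_lit 40148, nat_lit 40220] (nat_lit 0) [] false,
   Spec.mk (nat_lit 40220) (nat_lit 2) [nat_lit 27098, nat_lit 41678, nat_lit 39734, nat_lit 40382, nat_lit 40166, nat_lit 40274, nat_lit 40202, nat_lit 40238, nat_lit 40226] (nat_lit 0) [] false,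
   Spec.mk (nat_lit 40226) (nat_lit 1) [nat_lit 27104, nat_lit 41684, nat_lit 39740, nat_lit 40388, nat_lit 40172, nat_lit 40280, nat_lit 40244, nat_lit 40220, nat_lit 40228] (nat_lit 0) [] false,
   Spec.mk (nat_lit 40228) (nat_lit 1) [nat_lit 27106, nat_lit 41686, nat_lit 39742, nat_lit 40390, nat_lit 40174, nat_lit 40282, nat_lit 40246, nat_lit 40226] (nat_lit 0) [nat_lit 20546] false,
   Spec.mk (nat_lit 40238) (nat_lit 0) [nat_lit 27116, nat_lit 41696, nat_lit 39752, nat_lit 40400, nat_lit 40292, nat_lit 40220, nat_lit 40244] (nat_lit 0) [] false,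
   Spec.mk (nat_lit 40244) (nat_lit 1) [nat_lit 27122, nat_lit 41702, nat_lit 39758, nat_lit 40406, nat_lit 40298, nat_lit 40226, nat_lit 40238, nat_lit 40250, nat_lit 40246] (nat_lit 0) [] false,
   Spec.mk (nat_lit 40246) (nat_lit 0) [nat_lit 27124, nat_lit 41704, nat_lit 39760, nat_lit 40408, nat_lit 40300, nat_lit 40228, nat_lit 40252, nat_lit 40244] (nat_lit 0) [nat_lit 20564] false,
   Spec.mk (nat_lit 40250) (nat_lit 0) [nat_lit 27128, nat_lit 41708, nat_lit 39764, nat_lit 40412, nat_lit 40304, nat_lit 40244, nat_lit 40252] (nat_lit 0) [] false,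
   Spec.mk (nat_lit 40252) (nat_lit 1) [nat_lit 27130, nat_lit 41710, nat_lit 39766, nat_lit 40414, nat_lit 40306, nat_lit 40246, nat_lit 40250, nat_lit 40254] (nat_lit 0) [nat_lit 20570] false,
   Spec.mk (nat_lit 40254) (nat_lit 0) [nat_lit 27132, nat_lit 41712, nat_lit 39768, nat_lit 40416, nat_lit 40308, nat_lit 40252] (nat_lit 0) [nat_lit 20572] false,
   Spec.mk (nat_lit 40274) (nat_lit 0) [nat_lit 27152, nat_lit 41732, nat_lit 39788, nat_lit 40436, nat_lit 40220, nat_lit 40292, nat_lit 40280] (nat_lit 0) [] false,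
   Spec.mk (nat_lit 40280) (nat_lit 0) [nat_lit 27158, nat_lit 41738, nat_lit 39794, nat_lit 40442, nat_lit 40226, nat_lit 40298, nat_lit 40274, nat_lit 40282] (nat_lit 2) [] false,
   Spec.mk (nat_lit 40282) (nat_lit 0) [nat_lit 27160, nat_lit 41740, nat_lit 39796, nat_lit 40444, nat_lit 40228, nat_lit 40300, nat_lit 40280] (nat_lit 2) [nat_lit 20600] false,
   Spec.mk (nat_lit 40292) (nat_lit 0) [nat_lit 27170, nat_lit 41750, nat_lit 39806, nat_lit 40454, nat_lit 40238, nat_lit 40274, nat_lit 40298] (nat_lit 0) [] false,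
   Spec.mk (nat_lit 40298) (nat_lit 0) [nat_lit 27176, nat_lit 41756, nat_lit 39812, nat_lit 40460, nat_lit 40244, nat_lit 40280, nat_lit 40316, nat_lit 40292, nat_lit 40304, nat_lit 40300] (nat_lit 0) [] false,
   Spec.mk (nat_lit 40300) (nat_lit 0) [nat_lit 27178, nat_lit 41758, nat_lit 39814, nat_lit 40462, nat_lit 40246, nat_lit 40282, nat_lit 40318, nat_lit 40306, nat_lit 40298] (nat_lit 1) [nat_lit 20618] false,
   Spec.mk (nat_lit 40304) (nat_lit 0) [nat_lit 27182, nat_lit 41762, nat_lit 39818, nat_lit 40466, nat_lit 40250, nat_lit 40322, nat_lit 40298, nat_lit 40306] (nat_lit 2) [] false,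
   Spec.mk (nat_lit 40306) (nat_lit 0) [nat_lit 27184, nat_lit 41764, nat_lit 39820, nat_lit 40468, nat_lit 40252, nat_lit 40324, nat_lit 40300, nat_lit 40304, nat_lit 40308] (nat_lit 1) [nat_lit 20624] false,
   Spec.mk (nat_lit 40308) (nat_lit 0) [nat_lit 27186, nat_lit 41766, nat_lit 39822, nat_lit 40470, nat_lit 40254, nat_lit 40326, nat_lit 40306] (nat_lit 2) [nat_lit 20626] false,
   Spec.mk (nat_lit 40316) (nat_lit 0) [nat_lit 27194, nat_lit 41774, nat_lit 39830, nat_lit 40478, nat_lit 40298, nat_lit 40322, nat_lit 40318] (nat_lit 0) [] false,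
   Spec.mk (nat_lit 40318) (nat_lit 0) [nat_lit 27196, nat_lit 41776, nat_lit 39832, nat_lit 40480, nat_lit 40300, nat_lit 40324, nat_lit 40316] (nat_lit 2) [nat_lit 20636] false,
   Spec.mk (nat_lit 40322) (nat_lit 0) [nat_lit 27200, nat_lit 41780, nat_lit 39836, nat_lit 40484, nat_lit 40304, nat_lit 40316, nat_lit 40324] (nat_lit 0) [] false,
   Spec.mk (nat_lit 40324) (nat_lit 0) [nat_lit 27202, nat_lit 41782, nat_lit 39838, nat_lit 40486, nat_lit 40306, nat_lit 40318, nat_lit 40330, nat_lit 40322, nat_lit 40326] (nat_lit 0) [nat_lit 20642] false,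
   Spec.mk (nat_lit 40326) (nat_lit 0) [nat_lit 27204, nat_lit 41784, nat_lit 39840, nat_lit 40488, nat_lit 40308, nat_lit 40332, nat_lit 40324] (nat_lit 2) [nat_lit 20644] false,
   Spec.mk (nat_lit 40330) (nat_lit 0) [nat_lit 27208, nat_lit 41788, nat_lit 39844, nat_lit 40492, nat_lit 40324, nat_lit 40332] (nat_lit 0) [nat_lit 20648] false,
   Spec.mk (nat_lit 40332) (nat_lit 0) [nat_lit 27210, nat_lit 41790, nat_lit 39846, nat_lit 40494, nat_lit 40326, nat_lit 40330] (nat_lit 0) [nat_lit 20650] false,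
   Spec.mk (nat_lit 40364) (nat_lit 3) [nat_lit 27242, nat_lit 41822, nat_lit 39878, nat_lit 40850, nat_lit 40202, nat_lit 40382] (nat_lit 0) [] false,
   Spec.mk (nat_lit 40382) (nat_lit 2) [nat_lit 27260, nat_lit 41840, nat_lit 39896, nat_lit 40868, nat_lit 40220, nat_lit 40436, nat_lit 40364, nat_lit 40400, nat_lit 40388] (nat_lit 0) [] false,
   Spec.mk (nat_lit 40388) (nat_lit 1) [nat_lit 27266, nat_lit 41846, nat_lit 39902, nat_lit 40874, nat_lit 40226, nat_lit 40442, nat_lit 40406, nat_lit 40382, nat_lit 40390] (nat_lit 0) [] false,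
   Spec.mk (nat_lit 40390) (nat_lit 1) [nat_lit 27268, nat_lit 41848, nat_lit 39904, nat_lit 40876, nat_lit 40228, nat_lit 40444, nat_lit 40408, nat_lit 40388] (nat_lit 0) [nat_lit 20708] false,
   Spec.mk (nat_lit 40400) (nat_lit 0) [nat_lit 27278, nat_lit 41858, nat_lit 39914, nat_lit 40886, nat_lit 40238, nat_lit 40454, nat_lit 40382, nat_lit 40406] (nat_lit 1) [] false,
   Spec.mk (nat_lit 40406) (nat_lit 0) [nat_lit 27284, nat_lit 41864, nat_lit 39920, nat_lit 40892, nat_lit 40244, nat_lit 40460, nat_lit 40388, nat_lit 40400, nat_lit 40412, nat_lit 40408] (nat_lit 0) [] false,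
   Spec.mk (nat_lit 40408) (nat_lit 0) [nat_lit 27286, nat_lit 41866, nat_lit 39922, nat_lit 40894, nat_lit 40246, nat_lit 40462, nat_lit 40390, nat_lit 40414, nat_lit 40406] (nat_lit 1) [nat_lit 20726] false,
   Spec.mk (nat_lit 40412) (nat_lit 0) [nat_lit 27290, nat_lit 41870, nat_lit 39926, nat_lit 40898, nat_lit 40250, nat_lit 40466, nat_lit 40406, nat_lit 40414] (nat_lit 1) [] false,
   Spec.mk (nat_lit 40414) (nat_lit 0) [nat_lit 27292, nat_lit 41872, nat_lit 39928, nat_lit 40900, nat_lit 40252, nat_lit 40468, nat_lit 40408, nat_lit 40412, nat_lit 40416] (nat_lit 0) [nat_lit 20732] false,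
   Spec.mk (nat_lit 40416) (nat_lit 0) [nat_lit 27294, nat_lit 41874, nat_lit 39930, nat_lit 40902, nat_lit 40254, nat_lit 40470, nat_lit 40414] (nat_lit 1) [nat_lit 20734] false,
   Spec.mk (nat_lit 40436) (nat_lit 2) [nat_lit 27314, nat_lit 41894, nat_lit 39950, nat_lit 40922, nat_lit 40274, nat_lit 40598, nat_lit 40382, nat_lit 40454, nat_lit 40442] (nat_lit 0) [] false,
   Spec.mk (nat_lit 40442) (nat_lit 0) [nat_lit 27320, nat_lit 41900, nat_lit 39956, nat_lit 40928, nat_lit 40280, nat_lit 40604, nat_lit 40388, nat_lit 40460, nat_lit 40436, nat_lit 40444] (nat_lit 0) [] false,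
   Spec.mk (nat_lit 40444) (nat_lit 0) [nat_lit 27322, nat_lit 41902, nat_lit 39958, nat_lit 40930, nat_lit 40282, nat_lit 40606, nat_lit 40390, nat_lit 40462, nat_lit 40442] (nat_lit 0) [nat_lit 20762] false,
   Spec.mk (nat_lit 40454) (nat_lit 1) [nat_lit 27332, nat_lit 41912, nat_lit 39968, nat_lit 40940, nat_lit 40292, nat_lit 40616, nat_lit 40400, nat_lit 40508, nat_lit 40436, nat_lit 40460] (nat_lit 0) [] false]

noncomputable def sp103 : List Spec :=
  [Spec.mk (nat_lit 40460) (nat_lit 1) [nat_lit 27338, nat_lit 41918, nat_lit 39974, nat_lit 40946, nat_lit 40298, nat_lit 40622, nat_lit 40406, nat_lit 40514, nat_lit 40442, nat_lit 40478, nat_lit 40454, nat_lit 40466, nat_lit 40462] (nat_lit 0) [] false,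
   Spec.mk (nat_lit 40462) (nat_lit 0) [nat_lit 27340, nat_lit 41920, nat_lit 39976, nat_lit 40948, nat_lit 40300, nat_lit 40624, nat_lit 40408, nat_lit 40516, nat_lit 40444, nat_lit 40480, nat_lit 40468, nat_lit 40460] (nat_lit 0) [nat_lit 20780] false,
   Spec.mk (nat_lit 40466) (nat_lit 0) [nat_lit 27344, nat_lit 41924, nat_lit 39980, nat_lit 40952, nat_lit 40304, nat_lit 40628, nat_lit 40412, nat_lit 40520, nat_lit 40484, nat_lit 40460, nat_lit 40468] (nat_lit 1) [] false,
   Spec.mk (nat_lit 40468) (nat_lit 0) [nat_lit 27346, nat_lit 41926, nat_lit 39982, nat_lit 40954, nat_lit 40306, nat_lit 40630, nat_lit 40414, nat_lit 40522, nat_lit 40486, nat_lit 40462, nat_lit 40466, nat_lit 40470] (nat_lit 0) [nat_lit 20786] false,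
   Spec.mk (nat_lit 40470) (nat_lit 0) [nat_lit 27348, nat_lit 41928, nat_lit 39984, nat_lit 40956, nat_lit 40308, nat_lit 40632, nat_lit 40416, nat_lit 40524, nat_lit 40488, nat_lit 40468] (nat_lit 1) [nat_lit 20788] false,
   Spec.mk (nat_lit 40478) (nat_lit 0) [nat_lit 27356, nat_lit 41936, nat_lit 39992, nat_lit 40964, nat_lit 40316, nat_lit 40640, nat_lit 40532, nat_lit 40460, nat_lit 40484, nat_lit 40480] (nat_lit 0) [] false,
   Spec.mk (nat_lit 40480) (nat_lit 0) [nat_lit 27358, nat_lit 41938, nat_lit 39994, nat_lit 40966, nat_lit 40318, nat_lit 40642, nat_lit 40534, nat_lit 40462, nat_lit 40486, nat_lit 40478] (nat_lit 2) [nat_lit 20798] false,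
   Spec.mk (nat_lit 40484) (nat_lit 0) [nat_lit 27362, nat_lit 41942, nat_lit 39998, nat_lit 40970, nat_lit 40322, nat_lit 40646, nat_lit 40538, nat_lit 40466, nat_lit 40478, nat_lit 40486] (nat_lit 0) [] false,
   Spec.mk (nat_lit 40486) (nat_lit 0) [nat_lit 27364, nat_lit 41944, nat_lit 40000, nat_lit 40972, nat_lit 40324, nat_lit 40648, nat_lit 40540, nat_lit 40468, nat_lit 40480, nat_lit 40492, nat_lit 40484, nat_lit 40488] (nat_lit 0) [nat_lit 20804] false,
   Spec.mk (nat_lit 40488) (nat_lit 0) [nat_lit 27366, nat_lit 41946, nat_lit 40002, nat_lit 40974, nat_lit 40326, nat_lit 40650, nat_lit 40542, nat_lit 40470, nat_lit 40494, nat_lit 40486] (nat_lit 2) [nat_lit 20806] false,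
   Spec.mk (nat_lit 40492) (nat_lit 0) [nat_lit 27370, nat_lit 41950, nat_lit 40006, nat_lit 40978, nat_lit 40330, nat_lit 40654, nat_lit 40546, nat_lit 40486, nat_lit 40494] (nat_lit 0) [nat_lit 20810] false,
   Spec.mk (nat_lit 40494) (nat_lit 0) [nat_lit 27372, nat_lit 41952, nat_lit 40008, nat_lit 40980, nat_lit 40332, nat_lit 40656, nat_lit 40548, nat_lit 40488, nat_lit 40492] (nat_lit 0) [nat_lit 20812] false,
   Spec.mk (nat_lit 40508) (nat_lit 1) [nat_lit 27386, nat_lit 41966, nat_lit 40022, nat_lit 40994, nat_lit 40670, nat_lit 40454, nat_lit 40514] (nat_lit 0) [] false,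
   Spec.mk (nat_lit 40514) (nat_lit 0) [nat_lit 27392, nat_lit 41972, nat_lit 40028, nat_lit 41000, nat_lit 40676, nat_lit 40460, nat_lit 40532, nat_lit 40508, nat_lit 40520, nat_lit 40516] (nat_lit 0) [] false,
   Spec.mk (nat_lit 40516) (nat_lit 0) [nat_lit 27394, nat_lit 41974, nat_lit 40030, nat_lit 41002, nat_lit 40678, nat_lit 40462, nat_lit 40534, nat_lit 40522, nat_lit 40514] (nat_lit 1) [nat_lit 20834] false,
   Spec.mk (nat_lit 40520) (nat_lit 0) [nat_lit 27398, nat_lit 41978, nat_lit 40034, nat_lit 41006, nat_lit 40682, nat_lit 40466, nat_lit 40538, nat_lit 40514, nat_lit 40522] (nat_lit 3) [] false,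
   Spec.mk (nat_lit 40522) (nat_lit 0) [nat_lit 27400, nat_lit 41980, nat_lit 40036, nat_lit 41008, nat_lit 40684, nat_lit 40468, nat_lit 40540, nat_lit 40516, nat_lit 40520, nat_lit 40524] (nat_lit 2) [nat_lit 20840] false,
   Spec.mk (nat_lit 40524) (nat_lit 0) [nat_lit 27402, nat_lit 41982, nat_lit 40038, nat_lit 41010, nat_lit 40686, nat_lit 40470, nat_lit 40542, nat_lit 40522] (nat_lit 3) [nat_lit 20842] false,
   Spec.mk (nat_lit 40532) (nat_lit 1) [nat_lit 27410, nat_lit 41990, nat_lit 40046, nat_lit 41018, nat_lit 40694, nat_lit 40478, nat_lit 40514, nat_lit 40538, nat_lit 40534] (nat_lit 0) [] false,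
   Spec.mk (nat_lit 40534) (nat_lit 0) [nat_lit 27412, nat_lit 41992, nat_lit 40048, nat_lit 41020, nat_lit 40696, nat_lit 40480, nat_lit 40516, nat_lit 40540, nat_lit 40532] (nat_lit 1) [nat_lit 20852] false,
   Spec.mk (nat_lit 40538) (nat_lit 0) [nat_lit 27416, nat_lit 41996, nat_lit 40052, nat_lit 41024, nat_lit 40700, nat_lit 40484, nat_lit 40520, nat_lit 40556, nat_lit 40532, nat_lit 40540] (nat_lit 0) [] false,
   Spec.mk (nat_lit 40540) (nat_lit 0) [nat_lit 27418, nat_lit 41998, nat_lit 40054, nat_lit 41026, nat_lit 40702, nat_lit 40486, nat_lit 40522, nat_lit 40558, nat_lit 40534, nat_lit 40546, nat_lit 40538, nat_lit 40542] (nat_lit 0) [nat_lit 20858] false,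
   Spec.mk (nat_lit 40542) (nat_lit 0) [nat_lit 27420, nat_lit 42000, nat_lit 40056, nat_lit 41028, nat_lit 40704, nat_lit 40488, nat_lit 40524, nat_lit 40560, nat_lit 40548, nat_lit 40540] (nat_lit 2) [nat_lit 20860] false,
   Spec.mk (nat_lit 40546) (nat_lit 0) [nat_lit 27424, nat_lit 42004, nat_lit 40060, nat_lit 41032, nat_lit 40708, nat_lit 40492, nat_lit 40564, nat_lit 40540, nat_lit 40548] (nat_lit 1) [nat_lit 20864] false,
   Spec.mk (nat_lit 40548) (nat_lit 0) [nat_lit 27426, nat_lit 42006, nat_lit 40062, nat_lit 41034, nat_lit 40710, nat_lit 40494, nat_lit 40566, nat_lit 40542, nat_lit 40546] (nat_lit 1) [nat_lit 20866] false,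
   Spec.mk (nat_lit 40556) (nat_lit 1) [nat_lit 27434, nat_lit 42014, nat_lit 40070, nat_lit 41042, nat_lit 40718, nat_lit 40538, nat_lit 40558] (nat_lit 0) [] false,
   Spec.mk (nat_lit 40558) (nat_lit 0) [nat_lit 27436, nat_lit 42016, nat_lit 40072, nat_lit 41044, nat_lit 40720, nat_lit 40540, nat_lit 40564, nat_lit 40556, nat_lit 40560] (nat_lit 0) [nat_lit 20876] false,
   Spec.mk (nat_lit 40560) (nat_lit 0) [nat_lit 27438, nat_lit 42018, nat_lit 40074, nat_lit 41046, nat_lit 40722, nat_lit 40542, nat_lit 40566, nat_lit 40558] (nat_lit 3) [nat_lit 20878] false,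
   Spec.mk (nat_lit 40564) (nat_lit 1) [nat_lit 27442, nat_lit 42022, nat_lit 40078, nat_lit 41050, nat_lit 40726, nat_lit 40546, nat_lit 40558, nat_lit 40566] (nat_lit 0) [nat_lit 20882] false,
   Spec.mk (nat_lit 40566) (nat_lit 0) [nat_lit 27444, nat_lit 42024, nat_lit 40080, nat_lit 41052, nat_lit 40728, nat_lit 40548, nat_lit 40560, nat_lit 40572, nat_lit 40564] (nat_lit 0) [nat_lit 20884] false,
   Spec.mk (nat_lit 40572) (nat_lit 1) [nat_lit 27450, nat_lit 42030, nat_lit 40086, nat_lit 41058, nat_lit 40734, nat_lit 40566] (nat_lit 0) [nat_lit 20890] false,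
   Spec.mk (nat_lit 40598) (nat_lit 2) [nat_lit 27476, nat_lit 42056, nat_lit 41084, nat_lit 40436, nat_lit 40616, nat_lit 40604] (nat_lit 0) [] false,
   Spec.mk (nat_lit 40604) (nat_lit 0) [nat_lit 27482, nat_lit 42062, nat_lit 41090, nat_lit 40442, nat_lit 40622, nat_lit 40598, nat_lit 40606] (nat_lit 0) [] false,
   Spec.mk (nat_lit 40606) (nat_lit 0) [nat_lit 27484, nat_lit 42064, nat_lit 41092, nat_lit 40444, nat_lit 40624, nat_lit 40604] (nat_lit 0) [nat_lit 20924] false,
   Spec.mk (nat_lit 40616) (nat_lit 0) [nat_lit 27494, nat_lit 42074, nat_lit 41102, nat_lit 40454, nat_lit 40670, nat_lit 40598, nat_lit 40622] (nat_lit 0) [] false,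
   Spec.mk (nat_lit 40622) (nat_lit 0) [nat_lit 27500, nat_lit 42080, nat_lit 41108, nat_lit 40460, nat_lit 40676, nat_lit 40604, nat_lit 40640, nat_lit 40616, nat_lit 40628, nat_lit 40624] (nat_lit 0) [] false,
   Spec.mk (nat_lit 40624) (nat_lit 0) [nat_lit 27502, nat_lit 42082, nat_lit 41110, nat_lit 40462, nat_lit 40678, nat_lit 40606, nat_lit 40642, nat_lit 40630, nat_lit 40622] (nat_lit 1) [nat_lit 20942] false,
   Spec.mk (nat_lit 40628) (nat_lit 0) [nat_lit 27506, nat_lit 42086, nat_lit 41114, nat_lit 40466, nat_lit 40682, nat_lit 40646, nat_lit 40622, nat_lit 40630] (nat_lit 2) [] false,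
   Spec.mk (nat_lit 40630) (nat_lit 0) [nat_lit 27508, nat_lit 42088, nat_lit 41116, nat_lit 40468, nat_lit 40684, nat_lit 40648, nat_lit 40624, nat_lit 40628, nat_lit 40632] (nat_lit 1) [nat_lit 20948] false,
   Spec.mk (nat_lit 40632) (nat_lit 0) [nat_lit 27510, nat_lit 42090, nat_lit 41118, nat_lit 40470, nat_lit 40686, nat_lit 40650, nat_lit 40630] (nat_lit 2) [nat_lit 20950] false,
   Spec.mk (nat_lit 40640) (nat_lit 0) [nat_lit 27518, nat_lit 42098, nat_lit 41126, nat_lit 40478, nat_lit 40694, nat_lit 40622, nat_lit 40646, nat_lit 40642] (nat_lit 2) [] false,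
   Spec.mk (nat_lit 40642) (nat_lit 0) [nat_lit 27520, nat_lit 42100, nat_lit 41128, nat_lit 40480, nat_lit 40696, nat_lit 40624, nat_lit 40648, nat_lit 40640] (nat_lit 4) [nat_lit 20960] false,
   Spec.mk (nat_lit 40646) (nat_lit 0) [nat_lit 27524, nat_lit 42104, nat_lit 41132, nat_lit 40484, nat_lit 40700, nat_lit 40628, nat_lit 40640, nat_lit 40648] (nat_lit 2) [] false,
   Spec.mk (nat_lit 40648) (nat_lit 0) [nat_lit 27526, nat_lit 42106, nat_lit 41134, nat_lit 40486, nat_lit 40702, nat_lit 40630, nat_lit 40642, nat_lit 40654, nat_lit 40646, nat_lit 40650] (nat_lit 2) [nat_lit 20966] false,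
   Spec.mk (nat_lit 40650) (nat_lit 0) [nat_lit 27528, nat_lit 42108, nat_lit 41136, nat_lit 40488, nat_lit 40704, nat_lit 40632, nat_lit 40656, nat_lit 40648] (nat_lit 4) [nat_lit 20968] false,
   Spec.mk (nat_lit 40654) (nat_lit 0) [nat_lit 27532, nat_lit 42112, nat_lit 41140, nat_lit 40492, nat_lit 40708, nat_lit 40648, nat_lit 40656] (nat_lit 2) [nat_lit 20972] false,
   Spec.mk (nat_lit 40656) (nat_lit 0) [nat_lit 27534, nat_lit 42114, nat_lit 41142, nat_lit 40494, nat_lit 40710, nat_lit 40650, nat_lit 40654] (nat_lit 2) [nat_lit 20974] false,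
   Spec.mk (nat_lit 40670) (nat_lit 2) [nat_lit 27548, nat_lit 42128, nat_lit 41156, nat_lit 40508, nat_lit 40616, nat_lit 40676] (nat_lit 0) [] false,
   Spec.mk (nat_lit 40676) (nat_lit 1) [nat_lit 27554, nat_lit 42134, nat_lit 41162, nat_lit 40514, nat_lit 40622, nat_lit 40694, nat_lit 40670, nat_lit 40682, nat_lit 40678] (nat_lit 0) [] false,
   Spec.mk (nat_lit 40678) (nat_lit 0) [nat_lit 27556, nat_lit 42136, nat_lit 41164, nat_lit 40516, nat_lit 40624, nat_lit 40696, nat_lit 40684, nat_lit 40676] (nat_lit 0) [nat_lit 20996] false,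
   Spec.mk (nat_lit 40682) (nat_lit 0) [nat_lit 27560, nat_lit 42140, nat_lit 41168, nat_lit 40520, nat_lit 40628, nat_lit 40700, nat_lit 40676, nat_lit 40684] (nat_lit 2) [] false,
   Spec.mk (nat_lit 40684) (nat_lit 0) [nat_lit 27562, nat_lit 42142, nat_lit 41170, nat_lit 40522, nat_lit 40630, nat_lit 40702, nat_lit 40678, nat_lit 40682, nat_lit 40686] (nat_lit 1) [nat_lit 21002] false,
   Spec.mk (nat_lit 40686) (nat_lit 0) [nat_lit 27564, nat_lit 42144, nat_lit 41172, nat_lit 40524, nat_lit 40632, nat_lit 40704, nat_lit 40684] (nat_lit 2) [nat_lit 21004] false,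
   Spec.mk (nat_lit 40694) (nat_lit 1) [nat_lit 27572, nat_lit 42152, nat_lit 41180, nat_lit 40532, nat_lit 40640, nat_lit 40748, nat_lit 40676, nat_lit 40700, nat_lit 40696] (nat_lit 0) [] false,
   Spec.mk (nat_lit 40696) (nat_lit 0) [nat_lit 27574, nat_lit 42154, nat_lit 41182, nat_lit 40534, nat_lit 40642, nat_lit 40750, nat_lit 40678, nat_lit 40702, nat_lit 40694] (nat_lit 1) [nat_lit 21014] false,
   Spec.mk (nat_lit 40700) (nat_lit 0) [nat_lit 27578, nat_lit 42158, nat_lit 41186, nat_lit 40538, nat_lit 40646, nat_lit 40754, nat_lit 40682, nat_lit 40718, nat_lit 40694, nat_lit 40702] (nat_lit 0) [] false,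
   Spec.mk (nat_lit 40702) (nat_lit 0) [nat_lit 27580, nat_lit 42160, nat_lit 41188, nat_lit 40540, nat_lit 40648, nat_lit 40756, nat_lit 40684, nat_lit 40720, nat_lit 40696, nat_lit 40708, nat_lit 40700, nat_lit 40704] (nat_lit 0) [nat_lit 21020] false,
   Spec.mk (nat_lit 40704) (nat_lit 0) [nat_lit 27582, nat_lit 42162, nat_lit 41190, nat_lit 40542, nat_lit 40650, nat_lit 40758, nat_lit 40686, nat_lit 40722, nat_lit 40710, nat_lit 40702] (nat_lit 2) [nat_lit 21022] false,
   Spec.mk (nat_lit 40708) (nat_lit 0) [nat_lit 27586, nat_lit 42166, nat_lit 41194, nat_lit 40546, nat_lit 40654, nat_lit 40762, nat_lit 40726, nat_lit 40702, nat_lit 40710] (nat_lit 1) [nat_lit 21026] false,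
   Spec.mk (nat_lit 40710) (nat_lit 0) [nat_lit 27588, nat_lit 42168, nat_lit 41196, nat_lit 40548, nat_lit 40656, nat_lit 40764, nat_lit 40728, nat_lit 40704, nat_lit 40708] (nat_lit 1) [nat_lit 21028] false]

noncomputable def sp104 : List Spec :=
  [Spec.mk (nat_lit 40718) (nat_lit 0) [nat_lit 27596, nat_lit 42176, nat_lit 41204, nat_lit 40556, nat_lit 40772, nat_lit 40700, nat_lit 40720] (nat_lit 0) [] false,
   Spec.mk (nat_lit 40720) (nat_lit 0) [nat_lit 27598, nat_lit 42178, nat_lit 41206, nat_lit 40558, nat_lit 40774, nat_lit 40702, nat_lit 40726, nat_lit 40718, nat_lit 40722] (nat_lit 1) [nat_lit 21038] false,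
   Spec.mk (nat_lit 40722) (nat_lit 0) [nat_lit 27600, nat_lit 42180, nat_lit 41208, nat_lit 40560, nat_lit 40776, nat_lit 40704, nat_lit 40728, nat_lit 40720] (nat_lit 4) [nat_lit 21040] false,
   Spec.mk (nat_lit 40726) (nat_lit 0) [nat_lit 27604, nat_lit 42184, nat_lit 41212, nat_lit 40564, nat_lit 40780, nat_lit 40708, nat_lit 40720, nat_lit 40728] (nat_lit 0) [nat_lit 21044] false,
   Spec.mk (nat_lit 40728) (nat_lit 0) [nat_lit 27606, nat_lit 42186, nat_lit 41214, nat_lit 40566, nat_lit 40782, nat_lit 40710, nat_lit 40722, nat_lit 40734, nat_lit 40726] (nat_lit 1) [nat_lit 21046] false,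
   Spec.mk (nat_lit 40734) (nat_lit 0) [nat_lit 27612, nat_lit 42192, nat_lit 41220, nat_lit 40572, nat_lit 40788, nat_lit 40728] (nat_lit 0) [nat_lit 21052] false,
   Spec.mk (nat_lit 40748) (nat_lit 2) [nat_lit 27626, nat_lit 42206, nat_lit 41234, nat_lit 40694, nat_lit 40754, nat_lit 40750] (nat_lit 0) [] false,
   Spec.mk (nat_lit 40750) (nat_lit 0) [nat_lit 27628, nat_lit 42208, nat_lit 41236, nat_lit 40696, nat_lit 40756, nat_lit 40748] (nat_lit 0) [nat_lit 21068] false,
   Spec.mk (nat_lit 40754) (nat_lit 0) [nat_lit 27632, nat_lit 42212, nat_lit 41240, nat_lit 40700, nat_lit 40772, nat_lit 40748, nat_lit 40756] (nat_lit 0) [] false,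
   Spec.mk (nat_lit 40756) (nat_lit 0) [nat_lit 27634, nat_lit 42214, nat_lit 41242, nat_lit 40702, nat_lit 40774, nat_lit 40750, nat_lit 40762, nat_lit 40754, nat_lit 40758] (nat_lit 0) [nat_lit 21074] false,
   Spec.mk (nat_lit 40758) (nat_lit 0) [nat_lit 27636, nat_lit 42216, nat_lit 41244, nat_lit 40704, nat_lit 40776, nat_lit 40764, nat_lit 40756] (nat_lit 2) [nat_lit 21076] false,
   Spec.mk (nat_lit 40762) (nat_lit 0) [nat_lit 27640, nat_lit 42220, nat_lit 41248, nat_lit 40708, nat_lit 40780, nat_lit 40756, nat_lit 40764] (nat_lit 2) [nat_lit 21080] false,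
   Spec.mk (nat_lit 40764) (nat_lit 0) [nat_lit 27642, nat_lit 42222, nat_lit 41250, nat_lit 40710, nat_lit 40782, nat_lit 40758, nat_lit 40762] (nat_lit 2) [nat_lit 21082] false,
   Spec.mk (nat_lit 40772) (nat_lit 2) [nat_lit 27650, nat_lit 42230, nat_lit 41258, nat_lit 40718, nat_lit 40754, nat_lit 40774] (nat_lit 0) [] false,
   Spec.mk (nat_lit 40774) (nat_lit 1) [nat_lit 27652, nat_lit 42232, nat_lit 41260, nat_lit 40720, nat_lit 40756, nat_lit 40780, nat_lit 40772, nat_lit 40776] (nat_lit 0) [nat_lit 21092] false,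
   Spec.mk (nat_lit 40776) (nat_lit 0) [nat_lit 27654, nat_lit 42234, nat_lit 41262, nat_lit 40722, nat_lit 40758, nat_lit 40782, nat_lit 40774] (nat_lit 2) [nat_lit 21094] false,
   Spec.mk (nat_lit 40780) (nat_lit 1) [nat_lit 27658, nat_lit 42238, nat_lit 41266, nat_lit 40726, nat_lit 40762, nat_lit 40798, nat_lit 40774, nat_lit 40782] (nat_lit 0) [nat_lit 21098] false,
   Spec.mk (nat_lit 40782) (nat_lit 0) [nat_lit 27660, nat_lit 42240, nat_lit 41268, nat_lit 40728, nat_lit 40764, nat_lit 40800, nat_lit 40776, nat_lit 40788, nat_lit 40780] (nat_lit 0) [nat_lit 21100] false,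
   Spec.mk (nat_lit 40788) (nat_lit 0) [nat_lit 27666, nat_lit 42246, nat_lit 41274, nat_lit 40734, nat_lit 40806, nat_lit 40782] (nat_lit 0) [nat_lit 21106] false,
   Spec.mk (nat_lit 40798) (nat_lit 2) [nat_lit 27676, nat_lit 42256, nat_lit 41284, nat_lit 40780, nat_lit 40800] (nat_lit 0) [nat_lit 21116] false,
   Spec.mk (nat_lit 40800) (nat_lit 0) [nat_lit 27678, nat_lit 42258, nat_lit 41286, nat_lit 40782, nat_lit 40806, nat_lit 40798] (nat_lit 0) [nat_lit 21118] false,
   Spec.mk (nat_lit 40806) (nat_lit 2) [nat_lit 27684, nat_lit 42264, nat_lit 41292, nat_lit 40788, nat_lit 40800] (nat_lit 0) [nat_lit 21124] false,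
   Spec.mk (nat_lit 40850) (nat_lit 2) [nat_lit 27728, nat_lit 42308, nat_lit 40364, nat_lit 40868] (nat_lit 0) [] false,
   Spec.mk (nat_lit 40868) (nat_lit 1) [nat_lit 27746, nat_lit 42326, nat_lit 40382, nat_lit 40922, nat_lit 40850, nat_lit 40886, nat_lit 40874] (nat_lit 0) [] false,
   Spec.mk (nat_lit 40874) (nat_lit 0) [nat_lit 27752, nat_lit 42332, nat_lit 40388, nat_lit 40928, nat_lit 40892, nat_lit 40868, nat_lit 40876] (nat_lit 0) [] false,
   Spec.mk (nat_lit 40876) (nat_lit 0) [nat_lit 27754, nat_lit 42334, nat_lit 40390, nat_lit 40930, nat_lit 40894, nat_lit 40874] (nat_lit 0) [nat_lit 21194] false,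
   Spec.mk (nat_lit 40886) (nat_lit 0) [nat_lit 27764, nat_lit 42344, nat_lit 40400, nat_lit 40940, nat_lit 40868, nat_lit 40892] (nat_lit 2) [] false,
   Spec.mk (nat_lit 40892) (nat_lit 0) [nat_lit 27770, nat_lit 42350, nat_lit 40406, nat_lit 40946, nat_lit 40874, nat_lit 40886, nat_lit 40898, nat_lit 40894] (nat_lit 1) [] false,
   Spec.mk (nat_lit 40894) (nat_lit 0) [nat_lit 27772, nat_lit 42352, nat_lit 40408, nat_lit 40948, nat_lit 40876, nat_lit 40900, nat_lit 40892] (nat_lit 2) [nat_lit 21212] false,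
   Spec.mk (nat_lit 40898) (nat_lit 0) [nat_lit 27776, nat_lit 42356, nat_lit 40412, nat_lit 40952, nat_lit 40892, nat_lit 40900] (nat_lit 2) [] false,
   Spec.mk (nat_lit 40900) (nat_lit 0) [nat_lit 27778, nat_lit 42358, nat_lit 40414, nat_lit 40954, nat_lit 40894, nat_lit 40898, nat_lit 40902] (nat_lit 1) [nat_lit 21218] false,
   Spec.mk (nat_lit 40902) (nat_lit 0) [nat_lit 27780, nat_lit 42360, nat_lit 40416, nat_lit 40956, nat_lit 40900] (nat_lit 2) [nat_lit 21220] false,
   Spec.mk (nat_lit 40922) (nat_lit 0) [nat_lit 27800, nat_lit 42380, nat_lit 40436, nat_lit 41084, nat_lit 40868, nat_lit 40940, nat_lit 40928] (nat_lit 0) [] false,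
   Spec.mk (nat_lit 40928) (nat_lit 0) [nat_lit 27806, nat_lit 42386, nat_lit 40442, nat_lit 41090, nat_lit 40874, nat_lit 40946, nat_lit 40922, nat_lit 40930] (nat_lit 2) [] false,
   Spec.mk (nat_lit 40930) (nat_lit 0) [nat_lit 27808, nat_lit 42388, nat_lit 40444, nat_lit 41092, nat_lit 40876, nat_lit 40948, nat_lit 40928] (nat_lit 2) [nat_lit 21248] false,
   Spec.mk (nat_lit 40940) (nat_lit 0) [nat_lit 27818, nat_lit 42398, nat_lit 40454, nat_lit 41102, nat_lit 40886, nat_lit 40994, nat_lit 40922, nat_lit 40946] (nat_lit 1) [] false,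
   Spec.mk (nat_lit 40946) (nat_lit 0) [nat_lit 27824, nat_lit 42404, nat_lit 40460, nat_lit 41108, nat_lit 40892, nat_lit 41000, nat_lit 40928, nat_lit 40964, nat_lit 40940, nat_lit 40952, nat_lit 40948] (nat_lit 1) [] false,
   Spec.mk (nat_lit 40948) (nat_lit 0) [nat_lit 27826, nat_lit 42406, nat_lit 40462, nat_lit 41110, nat_lit 40894, nat_lit 41002, nat_lit 40930, nat_lit 40966, nat_lit 40954, nat_lit 40946] (nat_lit 2) [nat_lit 21266] false,
   Spec.mk (nat_lit 40952) (nat_lit 0) [nat_lit 27830, nat_lit 42410, nat_lit 40466, nat_lit 41114, nat_lit 40898, nat_lit 41006, nat_lit 40970, nat_lit 40946, nat_lit 40954] (nat_lit 3) [] false,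
   Spec.mk (nat_lit 40954) (nat_lit 0) [nat_lit 27832, nat_lit 42412, nat_lit 40468, nat_lit 41116, nat_lit 40900, nat_lit 41008, nat_lit 40972, nat_lit 40948, nat_lit 40952, nat_lit 40956] (nat_lit 2) [nat_lit 21272] false,
   Spec.mk (nat_lit 40956) (nat_lit 0) [nat_lit 27834, nat_lit 42414, nat_lit 40470, nat_lit 41118, nat_lit 40902, nat_lit 41010, nat_lit 40974, nat_lit 40954] (nat_lit 3) [nat_lit 21274] false,
   Spec.mk (nat_lit 40964) (nat_lit 0) [nat_lit 27842, nat_lit 42422, nat_lit 40478, nat_lit 41126, nat_lit 41018, nat_lit 40946, nat_lit 40970, nat_lit 40966] (nat_lit 2) [] false,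
   Spec.mk (nat_lit 40966) (nat_lit 0) [nat_lit 27844, nat_lit 42424, nat_lit 40480, nat_lit 41128, nat_lit 41020, nat_lit 40948, nat_lit 40972, nat_lit 40964] (nat_lit 4) [nat_lit 21284] false,
   Spec.mk (nat_lit 40970) (nat_lit 0) [nat_lit 27848, nat_lit 42428, nat_lit 40484, nat_lit 41132, nat_lit 41024, nat_lit 40952, nat_lit 40964, nat_lit 40972] (nat_lit 2) [] false,
   Spec.mk (nat_lit 40972) (nat_lit 0) [nat_lit 27850, nat_lit 42430, nat_lit 40486, nat_lit 41134, nat_lit 41026, nat_lit 40954, nat_lit 40966, nat_lit 40978, nat_lit 40970, nat_lit 40974] (nat_lit 2) [nat_lit 21290] false,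
   Spec.mk (nat_lit 40974) (nat_lit 0) [nat_lit 27852, nat_lit 42432, nat_lit 40488, nat_lit 41136, nat_lit 41028, nat_lit 40956, nat_lit 40980, nat_lit 40972] (nat_lit 4) [nat_lit 21292] false,
   Spec.mk (nat_lit 40978) (nat_lit 0) [nat_lit 27856, nat_lit 42436, nat_lit 40492, nat_lit 41140, nat_lit 41032, nat_lit 40972, nat_lit 40980] (nat_lit 2) [nat_lit 21296] false,
   Spec.mk (nat_lit 40980) (nat_lit 0) [nat_lit 27858, nat_lit 42438, nat_lit 40494, nat_lit 41142, nat_lit 41034, nat_lit 40974, nat_lit 40978] (nat_lit 2) [nat_lit 21298] false,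
   Spec.mk (nat_lit 40994) (nat_lit 0) [nat_lit 27872, nat_lit 42452, nat_lit 40508, nat_lit 41156, nat_lit 40940, nat_lit 41000] (nat_lit 2) [] false,
   Spec.mk (nat_lit 41000) (nat_lit 0) [nat_lit 27878, nat_lit 42458, nat_lit 40514, nat_lit 41162, nat_lit 40946, nat_lit 41018, nat_lit 40994, nat_lit 41006, nat_lit 41002] (nat_lit 3) [] false,
   Spec.mk (nat_lit 41002) (nat_lit 0) [nat_lit 27880, nat_lit 42460, nat_lit 40516, nat_lit 41164, nat_lit 40948, nat_lit 41020, nat_lit 41008, nat_lit 41000] (nat_lit 4) [nat_lit 21320] false,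
   Spec.mk (nat_lit 41006) (nat_lit 0) [nat_lit 27884, nat_lit 42464, nat_lit 40520, nat_lit 41168, nat_lit 40952, nat_lit 41024, nat_lit 41000, nat_lit 41008] (nat_lit 6) [] false,
   Spec.mk (nat_lit 41008) (nat_lit 0) [nat_lit 27886, nat_lit 42466, nat_lit 40522, nat_lit 41170, nat_lit 40954, nat_lit 41026, nat_lit 41002, nat_lit 41006, nat_lit 41010] (nat_lit 5) [nat_lit 21326] false,
   Spec.mk (nat_lit 41010) (nat_lit 0) [nat_lit 27888, nat_lit 42468, nat_lit 40524, nat_lit 41172, nat_lit 40956, nat_lit 41028, nat_lit 41008] (nat_lit 6) [nat_lit 21328] false,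
   Spec.mk (nat_lit 41018) (nat_lit 0) [nat_lit 27896, nat_lit 42476, nat_lit 40532, nat_lit 41180, nat_lit 40964, nat_lit 41000, nat_lit 41024, nat_lit 41020] (nat_lit 2) [] false,
   Spec.mk (nat_lit 41020) (nat_lit 0) [nat_lit 27898, nat_lit 42478, nat_lit 40534, nat_lit 41182, nat_lit 40966, nat_lit 41002, nat_lit 41026, nat_lit 41018] (nat_lit 4) [nat_lit 21338] false,
   Spec.mk (nat_lit 41024) (nat_lit 0) [nat_lit 27902, nat_lit 42482, nat_lit 40538, nat_lit 41186, nat_lit 40970, nat_lit 41006, nat_lit 41042, nat_lit 41018, nat_lit 41026] (nat_lit 3) [] false,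
   Spec.mk (nat_lit 41026) (nat_lit 0) [nat_lit 27904, nat_lit 42484, nat_lit 40540, nat_lit 41188, nat_lit 40972, nat_lit 41008, nat_lit 41044, nat_lit 41020, nat_lit 41032, nat_lit 41024, nat_lit 41028] (nat_lit 3) [nat_lit 21344] false,
   Spec.mk (nat_lit 41028) (nat_lit 0) [nat_lit 27906, nat_lit 42486, nat_lit 40542, nat_lit 41190, nat_lit 40974, nat_lit 41010, nat_lit 41046, nat_lit 41034, nat_lit 41026] (nat_lit 5) [nat_lit 21346] false,
   Spec.mk (nat_lit 41032) (nat_lit 0) [nat_lit 27910, nat_lit 42490, nat_lit 40546, nat_lit 41194, nat_lit 40978, nat_lit 41050, nat_lit 41026, nat_lit 41034] (nat_lit 4) [nat_lit 21350] false]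

noncomputable def sp105 : List Spec :=
  [Spec.mk (nat_lit 41034) (nat_lit 0) [nat_lit 27912, nat_lit 42492, nat_lit 40548, nat_lit 41196, nat_lit 40980, nat_lit 41052, nat_lit 41028, nat_lit 41032] (nat_lit 4) [nat_lit 21352] false,
   Spec.mk (nat_lit 41042) (nat_lit 0) [nat_lit 27920, nat_lit 42500, nat_lit 40556, nat_lit 41204, nat_lit 41024, nat_lit 41044] (nat_lit 2) [] false,
   Spec.mk (nat_lit 41044) (nat_lit 0) [nat_lit 27922, nat_lit 42502, nat_lit 40558, nat_lit 41206, nat_lit 41026, nat_lit 41050, nat_lit 41042, nat_lit 41046] (nat_lit 3) [nat_lit 21362] false,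
   Spec.mk (nat_lit 41046) (nat_lit 0) [nat_lit 27924, nat_lit 42504, nat_lit 40560, nat_lit 41208, nat_lit 41028, nat_lit 41052, nat_lit 41044] (nat_lit 6) [nat_lit 21364] false,
   Spec.mk (nat_lit 41050) (nat_lit 0) [nat_lit 27928, nat_lit 42508, nat_lit 40564, nat_lit 41212, nat_lit 41032, nat_lit 41044, nat_lit 41052] (nat_lit 2) [nat_lit 21368] false,
   Spec.mk (nat_lit 41052) (nat_lit 0) [nat_lit 27930, nat_lit 42510, nat_lit 40566, nat_lit 41214, nat_lit 41034, nat_lit 41046, nat_lit 41058, nat_lit 41050] (nat_lit 3) [nat_lit 21370] false,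
   Spec.mk (nat_lit 41058) (nat_lit 0) [nat_lit 27936, nat_lit 42516, nat_lit 40572, nat_lit 41220, nat_lit 41052] (nat_lit 2) [nat_lit 21376] false,
   Spec.mk (nat_lit 41084) (nat_lit 2) [nat_lit 27962, nat_lit 42542, nat_lit 40598, nat_lit 40922, nat_lit 41102, nat_lit 41090] (nat_lit 0) [] false,
   Spec.mk (nat_lit 41090) (nat_lit 0) [nat_lit 27968, nat_lit 42548, nat_lit 40604, nat_lit 40928, nat_lit 41108, nat_lit 41084, nat_lit 41092] (nat_lit 0) [] false,
   Spec.mk (nat_lit 41092) (nat_lit 0) [nat_lit 27970, nat_lit 42550, nat_lit 40606, nat_lit 40930, nat_lit 41110, nat_lit 41090] (nat_lit 0) [nat_lit 21410] false,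
   Spec.mk (nat_lit 41102) (nat_lit 0) [nat_lit 27980, nat_lit 42560, nat_lit 40616, nat_lit 40940, nat_lit 41156, nat_lit 41084, nat_lit 41108] (nat_lit 0) [] false,
   Spec.mk (nat_lit 41108) (nat_lit 0) [nat_lit 27986, nat_lit 42566, nat_lit 40622, nat_lit 40946, nat_lit 41162, nat_lit 41090, nat_lit 41126, nat_lit 41102, nat_lit 41114, nat_lit 41110] (nat_lit 0) [] false,
   Spec.mk (nat_lit 41110) (nat_lit 0) [nat_lit 27988, nat_lit 42568, nat_lit 40624, nat_lit 40948, nat_lit 41164, nat_lit 41092, nat_lit 41128, nat_lit 41116, nat_lit 41108] (nat_lit 1) [nat_lit 21428] false,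
   Spec.mk (nat_lit 41114) (nat_lit 0) [nat_lit 27992, nat_lit 42572, nat_lit 40628, nat_lit 40952, nat_lit 41168, nat_lit 41132, nat_lit 41108, nat_lit 41116] (nat_lit 2) [] false,
   Spec.mk (nat_lit 41116) (nat_lit 0) [nat_lit 27994, nat_lit 42574, nat_lit 40630, nat_lit 40954, nat_lit 41170, nat_lit 41134, nat_lit 41110, nat_lit 41114, nat_lit 41118] (nat_lit 1) [nat_lit 21434] false,
   Spec.mk (nat_lit 41118) (nat_lit 0) [nat_lit 27996, nat_lit 42576, nat_lit 40632, nat_lit 40956, nat_lit 41172, nat_lit 41136, nat_lit 41116] (nat_lit 2) [nat_lit 21436] false,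
   Spec.mk (nat_lit 41126) (nat_lit 0) [nat_lit 28004, nat_lit 42584, nat_lit 40640, nat_lit 40964, nat_lit 41180, nat_lit 41108, nat_lit 41132, nat_lit 41128] (nat_lit 2) [] false,
   Spec.mk (nat_lit 41128) (nat_lit 0) [nat_lit 28006, nat_lit 42586, nat_lit 40642, nat_lit 40966, nat_lit 41182, nat_lit 41110, nat_lit 41134, nat_lit 41126] (nat_lit 4) [nat_lit 21446] false,
   Spec.mk (nat_lit 41132) (nat_lit 0) [nat_lit 28010, nat_lit 42590, nat_lit 40646, nat_lit 40970, nat_lit 41186, nat_lit 41114, nat_lit 41126, nat_lit 41134] (nat_lit 2) [] false,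
   Spec.mk (nat_lit 41134) (nat_lit 0) [nat_lit 28012, nat_lit 42592, nat_lit 40648, nat_lit 40972, nat_lit 41188, nat_lit 41116, nat_lit 41128, nat_lit 41140, nat_lit 41132, nat_lit 41136] (nat_lit 2) [nat_lit 21452] false,
   Spec.mk (nat_lit 41136) (nat_lit 0) [nat_lit 28014, nat_lit 42594, nat_lit 40650, nat_lit 40974, nat_lit 41190, nat_lit 41118, nat_lit 41142, nat_lit 41134] (nat_lit 4) [nat_lit 21454] false,
   Spec.mk (nat_lit 41140) (nat_lit 0) [nat_lit 28018, nat_lit 42598, nat_lit 40654, nat_lit 40978, nat_lit 41194, nat_lit 41134, nat_lit 41142] (nat_lit 2) [nat_lit 21458] false,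
   Spec.mk (nat_lit 41142) (nat_lit 0) [nat_lit 28020, nat_lit 42600, nat_lit 40656, nat_lit 40980, nat_lit 41196, nat_lit 41136, nat_lit 41140] (nat_lit 2) [nat_lit 21460] false,
   Spec.mk (nat_lit 41156) (nat_lit 1) [nat_lit 28034, nat_lit 42614, nat_lit 40670, nat_lit 40994, nat_lit 41318, nat_lit 41102, nat_lit 41162] (nat_lit 0) [] false,
   Spec.mk (nat_lit 41162) (nat_lit 0) [nat_lit 28040, nat_lit 42620, nat_lit 40676, nat_lit 41000, nat_lit 41324, nat_lit 41108, nat_lit 41180, nat_lit 41156, nat_lit 41168, nat_lit 41164] (nat_lit 0) [] false,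
   Spec.mk (nat_lit 41164) (nat_lit 0) [nat_lit 28042, nat_lit 42622, nat_lit 40678, nat_lit 41002, nat_lit 41326, nat_lit 41110, nat_lit 41182, nat_lit 41170, nat_lit 41162] (nat_lit 1) [nat_lit 21482] false,
   Spec.mk (nat_lit 41168) (nat_lit 0) [nat_lit 28046, nat_lit 42626, nat_lit 40682, nat_lit 41006, nat_lit 41330, nat_lit 41114, nat_lit 41186, nat_lit 41162, nat_lit 41170] (nat_lit 3) [] false,
   Spec.mk (nat_lit 41170) (nat_lit 0) [nat_lit 28048, nat_lit 42628, nat_lit 40684, nat_lit 41008, nat_lit 41332, nat_lit 41116, nat_lit 41188, nat_lit 41164, nat_lit 41168, nat_lit 41172] (nat_lit 2) [nat_lit 21488] false,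
   Spec.mk (nat_lit 41172) (nat_lit 0) [nat_lit 28050, nat_lit 42630, nat_lit 40686, nat_lit 41010, nat_lit 41334, nat_lit 41118, nat_lit 41190, nat_lit 41170] (nat_lit 3) [nat_lit 21490] false,
   Spec.mk (nat_lit 41180) (nat_lit 0) [nat_lit 28058, nat_lit 42638, nat_lit 40694, nat_lit 41018, nat_lit 41342, nat_lit 41126, nat_lit 41234, nat_lit 41162, nat_lit 41186, nat_lit 41182] (nat_lit 0) [] false,
   Spec.mk (nat_lit 41182) (nat_lit 0) [nat_lit 28060, nat_lit 42640, nat_lit 40696, nat_lit 41020, nat_lit 41344, nat_lit 41128, nat_lit 41236, nat_lit 41164, nat_lit 41188, nat_lit 41180] (nat_lit 2) [nat_lit 21500] false,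
   Spec.mk (nat_lit 41186) (nat_lit 0) [nat_lit 28064, nat_lit 42644, nat_lit 40700, nat_lit 41024, nat_lit 41348, nat_lit 41132, nat_lit 41240, nat_lit 41168, nat_lit 41204, nat_lit 41180, nat_lit 41188] (nat_lit 1) [] false,
   Spec.mk (nat_lit 41188) (nat_lit 0) [nat_lit 28066, nat_lit 42646, nat_lit 40702, nat_lit 41026, nat_lit 41350, nat_lit 41134, nat_lit 41242, nat_lit 41170, nat_lit 41206, nat_lit 41182, nat_lit 41194, nat_lit 41186, nat_lit 41190] (nat_lit 1) [nat_lit 21506] false,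
   Spec.mk (nat_lit 41190) (nat_lit 0) [nat_lit 28068, nat_lit 42648, nat_lit 40704, nat_lit 41028, nat_lit 41352, nat_lit 41136, nat_lit 41244, nat_lit 41172, nat_lit 41208, nat_lit 41196, nat_lit 41188] (nat_lit 3) [nat_lit 21508] false,
   Spec.mk (nat_lit 41194) (nat_lit 0) [nat_lit 28072, nat_lit 42652, nat_lit 40708, nat_lit 41032, nat_lit 41356, nat_lit 41140, nat_lit 41248, nat_lit 41212, nat_lit 41188, nat_lit 41196] (nat_lit 2) [nat_lit 21512] false,
   Spec.mk (nat_lit 41196) (nat_lit 0) [nat_lit 28074, nat_lit 42654, nat_lit 40710, nat_lit 41034, nat_lit 41358, nat_lit 41142, nat_lit 41250, nat_lit 41214, nat_lit 41190, nat_lit 41194] (nat_lit 2) [nat_lit 21514] false,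
   Spec.mk (nat_lit 41204) (nat_lit 0) [nat_lit 28082, nat_lit 42662, nat_lit 40718, nat_lit 41042, nat_lit 41366, nat_lit 41258, nat_lit 41186, nat_lit 41206] (nat_lit 1) [] false,
   Spec.mk (nat_lit 41206) (nat_lit 0) [nat_lit 28084, nat_lit 42664, nat_lit 40720, nat_lit 41044, nat_lit 41368, nat_lit 41260, nat_lit 41188, nat_lit 41212, nat_lit 41204, nat_lit 41208] (nat_lit 2) [nat_lit 21524] false,
   Spec.mk (nat_lit 41208) (nat_lit 0) [nat_lit 28086, nat_lit 42666, nat_lit 40722, nat_lit 41046, nat_lit 41370, nat_lit 41262, nat_lit 41190, nat_lit 41214, nat_lit 41206] (nat_lit 5) [nat_lit 21526] false,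
   Spec.mk (nat_lit 41212) (nat_lit 0) [nat_lit 28090, nat_lit 42670, nat_lit 40726, nat_lit 41050, nat_lit 41374, nat_lit 41266, nat_lit 41194, nat_lit 41206, nat_lit 41214] (nat_lit 1) [nat_lit 21530] false,
   Spec.mk (nat_lit 41214) (nat_lit 0) [nat_lit 28092, nat_lit 42672, nat_lit 40728, nat_lit 41052, nat_lit 41376, nat_lit 41268, nat_lit 41196, nat_lit 41208, nat_lit 41220, nat_lit 41212] (nat_lit 2) [nat_lit 21532] false,
   Spec.mk (nat_lit 41220) (nat_lit 0) [nat_lit 28098, nat_lit 42678, nat_lit 40734, nat_lit 41058, nat_lit 41382, nat_lit 41274, nat_lit 41214] (nat_lit 1) [nat_lit 21538] false,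
   Spec.mk (nat_lit 41234) (nat_lit 0) [nat_lit 28112, nat_lit 42692, nat_lit 40748, nat_lit 41396, nat_lit 41180, nat_lit 41240, nat_lit 41236] (nat_lit 0) [] false,
   Spec.mk (nat_lit 41236) (nat_lit 0) [nat_lit 28114, nat_lit 42694, nat_lit 40750, nat_lit 41398, nat_lit 41182, nat_lit 41242, nat_lit 41234] (nat_lit 2) [nat_lit 21554] false,
   Spec.mk (nat_lit 41240) (nat_lit 0) [nat_lit 28118, nat_lit 42698, nat_lit 40754, nat_lit 41402, nat_lit 41186, nat_lit 41258, nat_lit 41234, nat_lit 41242] (nat_lit 2) [] false,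
   Spec.mk (nat_lit 41242) (nat_lit 0) [nat_lit 28120, nat_lit 42700, nat_lit 40756, nat_lit 41404, nat_lit 41188, nat_lit 41260, nat_lit 41236, nat_lit 41248, nat_lit 41240, nat_lit 41244] (nat_lit 2) [nat_lit 21560] false,
   Spec.mk (nat_lit 41244) (nat_lit 0) [nat_lit 28122, nat_lit 42702, nat_lit 40758, nat_lit 41406, nat_lit 41190, nat_lit 41262, nat_lit 41250, nat_lit 41242] (nat_lit 4) [nat_lit 21562] false,
   Spec.mk (nat_lit 41248) (nat_lit 0) [nat_lit 28126, nat_lit 42706, nat_lit 40762, nat_lit 41410, nat_lit 41194, nat_lit 41266, nat_lit 41242, nat_lit 41250] (nat_lit 4) [nat_lit 21566] false,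
   Spec.mk (nat_lit 41250) (nat_lit 0) [nat_lit 28128, nat_lit 42708, nat_lit 40764, nat_lit 41412, nat_lit 41196, nat_lit 41268, nat_lit 41244, nat_lit 41248] (nat_lit 4) [nat_lit 21568] false,
   Spec.mk (nat_lit 41258) (nat_lit 0) [nat_lit 28136, nat_lit 42716, nat_lit 40772, nat_lit 41420, nat_lit 41204, nat_lit 41240, nat_lit 41260] (nat_lit 0) [] false,
   Spec.mk (nat_lit 41260) (nat_lit 0) [nat_lit 28138, nat_lit 42718, nat_lit 40774, nat_lit 41422, nat_lit 41206, nat_lit 41242, nat_lit 41266, nat_lit 41258, nat_lit 41262] (nat_lit 1) [nat_lit 21578] false,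
   Spec.mk (nat_lit 41262) (nat_lit 0) [nat_lit 28140, nat_lit 42720, nat_lit 40776, nat_lit 41424, nat_lit 41208, nat_lit 41244, nat_lit 41268, nat_lit 41260] (nat_lit 4) [nat_lit 21580] false,
   Spec.mk (nat_lit 41266) (nat_lit 0) [nat_lit 28144, nat_lit 42724, nat_lit 40780, nat_lit 41428, nat_lit 41212, nat_lit 41248, nat_lit 41284, nat_lit 41260, nat_lit 41268] (nat_lit 1) [nat_lit 21584] false,
   Spec.mk (nat_lit 41268) (nat_lit 0) [nat_lit 28146, nat_lit 42726, nat_lit 40782, nat_lit 41430, nat_lit 41214, nat_lit 41250, nat_lit 41286, nat_lit 41262, nat_lit 41274, nat_lit 41266] (nat_lit 2) [nat_lit 21586] false,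
   Spec.mk (nat_lit 41274) (nat_lit 0) [nat_lit 28152, nat_lit 42732, nat_lit 40788, nat_lit 41436, nat_lit 41220, nat_lit 41292, nat_lit 41268] (nat_lit 2) [nat_lit 21592] false,
   Spec.mk (nat_lit 41284) (nat_lit 0) [nat_lit 28162, nat_lit 42742, nat_lit 40798, nat_lit 41446, nat_lit 41266, nat_lit 41286] (nat_lit 0) [nat_lit 21602] false,
   Spec.mk (nat_lit 41286) (nat_lit 0) [nat_lit 28164, nat_lit 42744, nat_lit 40800, nat_lit 41448, nat_lit 41268, nat_lit 41292, nat_lit 41284] (nat_lit 2) [nat_lit 21604] false,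
   Spec.mk (nat_lit 41292) (nat_lit 0) [nat_lit 28170, nat_lit 42750, nat_lit 40806, nat_lit 41454, nat_lit 41274, nat_lit 41286] (nat_lit 0) [nat_lit 21610] false,
   Spec.mk (nat_lit 41318) (nat_lit 2) [nat_lit 28196, nat_lit 42776, nat_lit 41156, nat_lit 41324] (nat_lit 0) [] false,
   Spec.mk (nat_lit 41324) (nat_lit 1) [nat_lit 28202, nat_lit 42782, nat_lit 41162, nat_lit 41342, nat_lit 41318, nat_lit 41330, nat_lit 41326] (nat_lit 0) [] false]

noncomputable def sp106 : List Spec :=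
  [Spec.mk (nat_lit 41326) (nat_lit 0) [nat_lit 28204, nat_lit 42784, nat_lit 41164, nat_lit 41344, nat_lit 41332, nat_lit 41324] (nat_lit 0) [nat_lit 21644] false,
   Spec.mk (nat_lit 41330) (nat_lit 0) [nat_lit 28208, nat_lit 42788, nat_lit 41168, nat_lit 41348, nat_lit 41324, nat_lit 41332] (nat_lit 2) [] false,
   Spec.mk (nat_lit 41332) (nat_lit 0) [nat_lit 28210, nat_lit 42790, nat_lit 41170, nat_lit 41350, nat_lit 41326, nat_lit 41330, nat_lit 41334] (nat_lit 1) [nat_lit 21650] false,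
   Spec.mk (nat_lit 41334) (nat_lit 0) [nat_lit 28212, nat_lit 42792, nat_lit 41172, nat_lit 41352, nat_lit 41332] (nat_lit 2) [nat_lit 21652] false,
   Spec.mk (nat_lit 41342) (nat_lit 0) [nat_lit 28220, nat_lit 42800, nat_lit 41180, nat_lit 41396, nat_lit 41324, nat_lit 41348, nat_lit 41344] (nat_lit 0) [] false,
   Spec.mk (nat_lit 41344) (nat_lit 0) [nat_lit 28222, nat_lit 42802, nat_lit 41182, nat_lit 41398, nat_lit 41326, nat_lit 41350, nat_lit 41342] (nat_lit 2) [nat_lit 21662] false,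
   Spec.mk (nat_lit 41348) (nat_lit 0) [nat_lit 28226, nat_lit 42806, nat_lit 41186, nat_lit 41402, nat_lit 41330, nat_lit 41366, nat_lit 41342, nat_lit 41350] (nat_lit 1) [] false,
   Spec.mk (nat_lit 41350) (nat_lit 0) [nat_lit 28228, nat_lit 42808, nat_lit 41188, nat_lit 41404, nat_lit 41332, nat_lit 41368, nat_lit 41344, nat_lit 41356, nat_lit 41348, nat_lit 41352] (nat_lit 1) [nat_lit 21668] false,
   Spec.mk (nat_lit 41352) (nat_lit 0) [nat_lit 28230, nat_lit 42810, nat_lit 41190, nat_lit 41406, nat_lit 41334, nat_lit 41370, nat_lit 41358, nat_lit 41350] (nat_lit 3) [nat_lit 21670] false,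
   Spec.mk (nat_lit 41356) (nat_lit 0) [nat_lit 28234, nat_lit 42814, nat_lit 41194, nat_lit 41410, nat_lit 41374, nat_lit 41350, nat_lit 41358] (nat_lit 2) [nat_lit 21674] false,
   Spec.mk (nat_lit 41358) (nat_lit 0) [nat_lit 28236, nat_lit 42816, nat_lit 41196, nat_lit 41412, nat_lit 41376, nat_lit 41352, nat_lit 41356] (nat_lit 2) [nat_lit 21676] false,
   Spec.mk (nat_lit 41366) (nat_lit 0) [nat_lit 28244, nat_lit 42824, nat_lit 41204, nat_lit 41420, nat_lit 41348, nat_lit 41368] (nat_lit 2) [] false,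
   Spec.mk (nat_lit 41368) (nat_lit 0) [nat_lit 28246, nat_lit 42826, nat_lit 41206, nat_lit 41422, nat_lit 41350, nat_lit 41374, nat_lit 41366, nat_lit 41370] (nat_lit 3) [nat_lit 21686] false,
   Spec.mk (nat_lit 41370) (nat_lit 0) [nat_lit 28248, nat_lit 42828, nat_lit 41208, nat_lit 41424, nat_lit 41352, nat_lit 41376, nat_lit 41368] (nat_lit 6) [nat_lit 21688] false,
   Spec.mk (nat_lit 41374) (nat_lit 0) [nat_lit 28252, nat_lit 42832, nat_lit 41212, nat_lit 41428, nat_lit 41356, nat_lit 41368, nat_lit 41376] (nat_lit 2) [nat_lit 21692] false,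
   Spec.mk (nat_lit 41376) (nat_lit 0) [nat_lit 28254, nat_lit 42834, nat_lit 41214, nat_lit 41430, nat_lit 41358, nat_lit 41370, nat_lit 41382, nat_lit 41374] (nat_lit 3) [nat_lit 21694] false,
   Spec.mk (nat_lit 41382) (nat_lit 0) [nat_lit 28260, nat_lit 42840, nat_lit 41220, nat_lit 41436, nat_lit 41376] (nat_lit 2) [nat_lit 21700] false,
   Spec.mk (nat_lit 41396) (nat_lit 2) [nat_lit 28274, nat_lit 42854, nat_lit 41234, nat_lit 41342, nat_lit 41402, nat_lit 41398] (nat_lit 0) [] false,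
   Spec.mk (nat_lit 41398) (nat_lit 0) [nat_lit 28276, nat_lit 42856, nat_lit 41236, nat_lit 41344, nat_lit 41404, nat_lit 41396] (nat_lit 0) [nat_lit 21716] false,
   Spec.mk (nat_lit 41402) (nat_lit 0) [nat_lit 28280, nat_lit 42860, nat_lit 41240, nat_lit 41348, nat_lit 41420, nat_lit 41396, nat_lit 41404] (nat_lit 0) [] false,
   Spec.mk (nat_lit 41404) (nat_lit 0) [nat_lit 28282, nat_lit 42862, nat_lit 41242, nat_lit 41350, nat_lit 41422, nat_lit 41398, nat_lit 41410, nat_lit 41402, nat_lit 41406] (nat_lit 0) [nat_lit 21722] false,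
   Spec.mk (nat_lit 41406) (nat_lit 0) [nat_lit 28284, nat_lit 42864, nat_lit 41244, nat_lit 41352, nat_lit 41424, nat_lit 41412, nat_lit 41404] (nat_lit 2) [nat_lit 21724] false,
   Spec.mk (nat_lit 41410) (nat_lit 0) [nat_lit 28288, nat_lit 42868, nat_lit 41248, nat_lit 41356, nat_lit 41428, nat_lit 41404, nat_lit 41412] (nat_lit 2) [nat_lit 21728] false,
   Spec.mk (nat_lit 41412) (nat_lit 0) [nat_lit 28290, nat_lit 42870, nat_lit 41250, nat_lit 41358, nat_lit 41430, nat_lit 41406, nat_lit 41410] (nat_lit 2) [nat_lit 21730] false,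
   Spec.mk (nat_lit 41420) (nat_lit 1) [nat_lit 28298, nat_lit 42878, nat_lit 41258, nat_lit 41366, nat_lit 41474, nat_lit 41402, nat_lit 41422] (nat_lit 0) [] false,
   Spec.mk (nat_lit 41422) (nat_lit 0) [nat_lit 28300, nat_lit 42880, nat_lit 41260, nat_lit 41368, nat_lit 41476, nat_lit 41404, nat_lit 41428, nat_lit 41420, nat_lit 41424] (nat_lit 0) [nat_lit 21740] false,
   Spec.mk (nat_lit 41424) (nat_lit 0) [nat_lit 28302, nat_lit 42882, nat_lit 41262, nat_lit 41370, nat_lit 41478, nat_lit 41406, nat_lit 41430, nat_lit 41422] (nat_lit 3) [nat_lit 21742] false,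
   Spec.mk (nat_lit 41428) (nat_lit 0) [nat_lit 28306, nat_lit 42886, nat_lit 41266, nat_lit 41374, nat_lit 41482, nat_lit 41410, nat_lit 41446, nat_lit 41422, nat_lit 41430] (nat_lit 0) [nat_lit 21746] false,
   Spec.mk (nat_lit 41430) (nat_lit 0) [nat_lit 28308, nat_lit 42888, nat_lit 41268, nat_lit 41376, nat_lit 41484, nat_lit 41412, nat_lit 41448, nat_lit 41424, nat_lit 41436, nat_lit 41428] (nat_lit 1) [nat_lit 21748] false,
   Spec.mk (nat_lit 41436) (nat_lit 0) [nat_lit 28314, nat_lit 42894, nat_lit 41274, nat_lit 41382, nat_lit 41490, nat_lit 41454, nat_lit 41430] (nat_lit 1) [nat_lit 21754] false,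
   Spec.mk (nat_lit 41446) (nat_lit 0) [nat_lit 28324, nat_lit 42904, nat_lit 41284, nat_lit 41500, nat_lit 41428, nat_lit 41448] (nat_lit 0) [nat_lit 21764] false,
   Spec.mk (nat_lit 41448) (nat_lit 0) [nat_lit 28326, nat_lit 42906, nat_lit 41286, nat_lit 41502, nat_lit 41430, nat_lit 41454, nat_lit 41446] (nat_lit 2) [nat_lit 21766] false,
   Spec.mk (nat_lit 41454) (nat_lit 0) [nat_lit 28332, nat_lit 42912, nat_lit 41292, nat_lit 41508, nat_lit 41436, nat_lit 41448] (nat_lit 0) [nat_lit 21772] false,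
   Spec.mk (nat_lit 41474) (nat_lit 2) [nat_lit 28352, nat_lit 42932, nat_lit 41420, nat_lit 41476] (nat_lit 0) [] false,
   Spec.mk (nat_lit 41476) (nat_lit 1) [nat_lit 28354, nat_lit 42934, nat_lit 41422, nat_lit 41482, nat_lit 41474, nat_lit 41478] (nat_lit 0) [nat_lit 21794] false,
   Spec.mk (nat_lit 41478) (nat_lit 0) [nat_lit 28356, nat_lit 42936, nat_lit 41424, nat_lit 41484, nat_lit 41476] (nat_lit 2) [nat_lit 21796] false,
   Spec.mk (nat_lit 41482) (nat_lit 0) [nat_lit 28360, nat_lit 42940, nat_lit 41428, nat_lit 41500, nat_lit 41476, nat_lit 41484] (nat_lit 0) [nat_lit 21800] false,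
   Spec.mk (nat_lit 41484) (nat_lit 0) [nat_lit 28362, nat_lit 42942, nat_lit 41430, nat_lit 41502, nat_lit 41478, nat_lit 41490, nat_lit 41482] (nat_lit 1) [nat_lit 21802] false,
   Spec.mk (nat_lit 41490) (nat_lit 0) [nat_lit 28368, nat_lit 42948, nat_lit 41436, nat_lit 41508, nat_lit 41484] (nat_lit 2) [nat_lit 21808] false,
   Spec.mk (nat_lit 41500) (nat_lit 2) [nat_lit 28378, nat_lit 42958, nat_lit 41446, nat_lit 41482, nat_lit 41502] (nat_lit 0) [nat_lit 21818] false,
   Spec.mk (nat_lit 41502) (nat_lit 0) [nat_lit 28380, nat_lit 42960, nat_lit 41448, nat_lit 41484, nat_lit 41508, nat_lit 41500] (nat_lit 0) [nat_lit 21820] false,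
   Spec.mk (nat_lit 41508) (nat_lit 1) [nat_lit 28386, nat_lit 42966, nat_lit 41454, nat_lit 41490, nat_lit 41526, nat_lit 41502] (nat_lit 0) [nat_lit 21826] false,
   Spec.mk (nat_lit 41526) (nat_lit 2) [nat_lit 28404, nat_lit 42984, nat_lit 41508] (nat_lit 0) [nat_lit 21844] false,
   Spec.mk (nat_lit 41606) (nat_lit 4) [nat_lit 28484, nat_lit 45980, nat_lit 40148, nat_lit 41660, nat_lit 41624] (nat_lit 0) [] false,
   Spec.mk (nat_lit 41624) (nat_lit 2) [nat_lit 28502, nat_lit 45998, nat_lit 40166, nat_lit 41678, nat_lit 41606, nat_lit 41630] (nat_lit 0) [] false,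
   Spec.mk (nat_lit 41630) (nat_lit 2) [nat_lit 28508, nat_lit 46004, nat_lit 40172, nat_lit 41684, nat_lit 41624, nat_lit 41632] (nat_lit 0) [] false,
   Spec.mk (nat_lit 41632) (nat_lit 2) [nat_lit 28510, nat_lit 46006, nat_lit 40174, nat_lit 41686, nat_lit 41630] (nat_lit 0) [nat_lit 21950] false,
   Spec.mk (nat_lit 41660) (nat_lit 2) [nat_lit 28538, nat_lit 46034, nat_lit 40202, nat_lit 41822, nat_lit 41606, nat_lit 41678] (nat_lit 0) [] false,
   Spec.mk (nat_lit 41678) (nat_lit 2) [nat_lit 28556, nat_lit 46052, nat_lit 40220, nat_lit 41840, nat_lit 41624, nat_lit 41732, nat_lit 41660, nat_lit 41696, nat_lit 41684] (nat_lit 0) [] false,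
   Spec.mk (nat_lit 41684) (nat_lit 1) [nat_lit 28562, nat_lit 46058, nat_lit 40226, nat_lit 41846, nat_lit 41630, nat_lit 41738, nat_lit 41702, nat_lit 41678, nat_lit 41686] (nat_lit 0) [] false,
   Spec.mk (nat_lit 41686) (nat_lit 1) [nat_lit 28564, nat_lit 46060, nat_lit 40228, nat_lit 41848, nat_lit 41632, nat_lit 41740, nat_lit 41704, nat_lit 41684] (nat_lit 0) [nat_lit 22004] false,
   Spec.mk (nat_lit 41696) (nat_lit 0) [nat_lit 28574, nat_lit 46070, nat_lit 40238, nat_lit 41858, nat_lit 41750, nat_lit 41678, nat_lit 41702] (nat_lit 0) [] false,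
   Spec.mk (nat_lit 41702) (nat_lit 1) [nat_lit 28580, nat_lit 46076, nat_lit 40244, nat_lit 41864, nat_lit 41756, nat_lit 41684, nat_lit 41696, nat_lit 41708, nat_lit 41704] (nat_lit 0) [] false,
   Spec.mk (nat_lit 41704) (nat_lit 0) [nat_lit 28582, nat_lit 46078, nat_lit 40246, nat_lit 41866, nat_lit 41758, nat_lit 41686, nat_lit 41710, nat_lit 41702] (nat_lit 0) [nat_lit 22022] false,
   Spec.mk (nat_lit 41708) (nat_lit 0) [nat_lit 28586, nat_lit 46082, nat_lit 40250, nat_lit 41870, nat_lit 41762, nat_lit 41702, nat_lit 41710] (nat_lit 0) [] false,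
   Spec.mk (nat_lit 41710) (nat_lit 1) [nat_lit 28588, nat_lit 46084, nat_lit 40252, nat_lit 41872, nat_lit 41764, nat_lit 41704, nat_lit 41708, nat_lit 41712] (nat_lit 0) [nat_lit 22028] false,
   Spec.mk (nat_lit 41712) (nat_lit 0) [nat_lit 28590, nat_lit 46086, nat_lit 40254, nat_lit 41874, nat_lit 41766, nat_lit 41710] (nat_lit 0) [nat_lit 22030] false,
   Spec.mk (nat_lit 41732) (nat_lit 0) [nat_lit 28610, nat_lit 46106, nat_lit 40274, nat_lit 41894, nat_lit 41678, nat_lit 41750, nat_lit 41738] (nat_lit 0) [] false,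
   Spec.mk (nat_lit 41738) (nat_lit 0) [nat_lit 28616, nat_lit 46112, nat_lit 40280, nat_lit 41900, nat_lit 41684, nat_lit 41756, nat_lit 41732, nat_lit 41740] (nat_lit 2) [] false,
   Spec.mk (nat_lit 41740) (nat_lit 0) [nat_lit 28618, nat_lit 46114, nat_lit 40282, nat_lit 41902, nat_lit 41686, nat_lit 41758, nat_lit 41738] (nat_lit 2) [nat_lit 22058] false]

noncomputable def sp107 : List Spec :=
  [Spec.mk (nat_lit 41750) (nat_lit 0) [nat_lit 28628, nat_lit 46124, nat_lit 40292, nat_lit 41912, nat_lit 41696, nat_lit 41732, nat_lit 41756] (nat_lit 0) [] false,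
   Spec.mk (nat_lit 41756) (nat_lit 0) [nat_lit 28634, nat_lit 46130, nat_lit 40298, nat_lit 41918, nat_lit 41702, nat_lit 41738, nat_lit 41774, nat_lit 41750, nat_lit 41762, nat_lit 41758] (nat_lit 0) [] false,
   Spec.mk (nat_lit 41758) (nat_lit 0) [nat_lit 28636, nat_lit 46132, nat_lit 40300, nat_lit 41920, nat_lit 41704, nat_lit 41740, nat_lit 41776, nat_lit 41764, nat_lit 41756] (nat_lit 1) [nat_lit 22076] false,
   Spec.mk (nat_lit 41762) (nat_lit 0) [nat_lit 28640, nat_lit 46136, nat_lit 40304, nat_lit 41924, nat_lit 41708, nat_lit 41780, nat_lit 41756, nat_lit 41764] (nat_lit 2) [] false,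
   Spec.mk (nat_lit 41764) (nat_lit 0) [nat_lit 28642, nat_lit 46138, nat_lit 40306, nat_lit 41926, nat_lit 41710, nat_lit 41782, nat_lit 41758, nat_lit 41762, nat_lit 41766] (nat_lit 1) [nat_lit 22082] false,
   Spec.mk (nat_lit 41766) (nat_lit 0) [nat_lit 28644, nat_lit 46140, nat_lit 40308, nat_lit 41928, nat_lit 41712, nat_lit 41784, nat_lit 41764] (nat_lit 2) [nat_lit 22084] false,
   Spec.mk (nat_lit 41774) (nat_lit 0) [nat_lit 28652, nat_lit 46148, nat_lit 40316, nat_lit 41936, nat_lit 41756, nat_lit 41780, nat_lit 41776] (nat_lit 0) [] false,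
   Spec.mk (nat_lit 41776) (nat_lit 0) [nat_lit 28654, nat_lit 46150, nat_lit 40318, nat_lit 41938, nat_lit 41758, nat_lit 41782, nat_lit 41774] (nat_lit 2) [nat_lit 22094] false,
   Spec.mk (nat_lit 41780) (nat_lit 0) [nat_lit 28658, nat_lit 46154, nat_lit 40322, nat_lit 41942, nat_lit 41762, nat_lit 41774, nat_lit 41782] (nat_lit 0) [] false,
   Spec.mk (nat_lit 41782) (nat_lit 0) [nat_lit 28660, nat_lit 46156, nat_lit 40324, nat_lit 41944, nat_lit 41764, nat_lit 41776, nat_lit 41788, nat_lit 41780, nat_lit 41784] (nat_lit 0) [nat_lit 22100] false,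
   Spec.mk (nat_lit 41784) (nat_lit 0) [nat_lit 28662, nat_lit 46158, nat_lit 40326, nat_lit 41946, nat_lit 41766, nat_lit 41790, nat_lit 41782] (nat_lit 2) [nat_lit 22102] false,
   Spec.mk (nat_lit 41788) (nat_lit 0) [nat_lit 28666, nat_lit 46162, nat_lit 40330, nat_lit 41950, nat_lit 41782, nat_lit 41790] (nat_lit 0) [nat_lit 22106] false,
   Spec.mk (nat_lit 41790) (nat_lit 0) [nat_lit 28668, nat_lit 46164, nat_lit 40332, nat_lit 41952, nat_lit 41784, nat_lit 41788] (nat_lit 0) [nat_lit 22108] false,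
   Spec.mk (nat_lit 41822) (nat_lit 2) [nat_lit 28700, nat_lit 46196, nat_lit 40364, nat_lit 42308, nat_lit 41660, nat_lit 41840] (nat_lit 0) [] false,
   Spec.mk (nat_lit 41840) (nat_lit 1) [nat_lit 28718, nat_lit 46214, nat_lit 40382, nat_lit 42326, nat_lit 41678, nat_lit 41894, nat_lit 41822, nat_lit 41858, nat_lit 41846] (nat_lit 0) [] false,
   Spec.mk (nat_lit 41846) (nat_lit 0) [nat_lit 28724, nat_lit 46220, nat_lit 40388, nat_lit 42332, nat_lit 41684, nat_lit 41900, nat_lit 41864, nat_lit 41840, nat_lit 41848] (nat_lit 0) [] false,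
   Spec.mk (nat_lit 41848) (nat_lit 0) [nat_lit 28726, nat_lit 46222, nat_lit 40390, nat_lit 42334, nat_lit 41686, nat_lit 41902, nat_lit 41866, nat_lit 41846] (nat_lit 0) [nat_lit 22166] false,
   Spec.mk (nat_lit 41858) (nat_lit 0) [nat_lit 28736, nat_lit 46232, nat_lit 40400, nat_lit 42344, nat_lit 41696, nat_lit 41912, nat_lit 41840, nat_lit 41864] (nat_lit 2) [] false,
   Spec.mk (nat_lit 41864) (nat_lit 0) [nat_lit 28742, nat_lit 46238, nat_lit 40406, nat_lit 42350, nat_lit 41702, nat_lit 41918, nat_lit 41846, nat_lit 41858, nat_lit 41870, nat_lit 41866] (nat_lit 1) [] false,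
   Spec.mk (nat_lit 41866) (nat_lit 0) [nat_lit 28744, nat_lit 46240, nat_lit 40408, nat_lit 42352, nat_lit 41704, nat_lit 41920, nat_lit 41848, nat_lit 41872, nat_lit 41864] (nat_lit 2) [nat_lit 22184] false,
   Spec.mk (nat_lit 41870) (nat_lit 0) [nat_lit 28748, nat_lit 46244, nat_lit 40412, nat_lit 42356, nat_lit 41708, nat_lit 41924, nat_lit 41864, nat_lit 41872] (nat_lit 2) [] false,
   Spec.mk (nat_lit 41872) (nat_lit 0) [nat_lit 28750, nat_lit 46246, nat_lit 40414, nat_lit 42358, nat_lit 41710, nat_lit 41926, nat_lit 41866, nat_lit 41870, nat_lit 41874] (nat_lit 1) [nat_lit 22190] false,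
   Spec.mk (nat_lit 41874) (nat_lit 0) [nat_lit 28752, nat_lit 46248, nat_lit 40416, nat_lit 42360, nat_lit 41712, nat_lit 41928, nat_lit 41872] (nat_lit 2) [nat_lit 22192] false,
   Spec.mk (nat_lit 41894) (nat_lit 1) [nat_lit 28772, nat_lit 46268, nat_lit 40436, nat_lit 42380, nat_lit 41732, nat_lit 42056, nat_lit 41840, nat_lit 41912, nat_lit 41900] (nat_lit 0) [] false,
   Spec.mk (nat_lit 41900) (nat_lit 0) [nat_lit 28778, nat_lit 46274, nat_lit 40442, nat_lit 42386, nat_lit 41738, nat_lit 42062, nat_lit 41846, nat_lit 41918, nat_lit 41894, nat_lit 41902] (nat_lit 1) [] false,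
   Spec.mk (nat_lit 41902) (nat_lit 0) [nat_lit 28780, nat_lit 46276, nat_lit 40444, nat_lit 42388, nat_lit 41740, nat_lit 42064, nat_lit 41848, nat_lit 41920, nat_lit 41900] (nat_lit 1) [nat_lit 22220] false,
   Spec.mk (nat_lit 41912) (nat_lit 0) [nat_lit 28790, nat_lit 46286, nat_lit 40454, nat_lit 42398, nat_lit 41750, nat_lit 42074, nat_lit 41858, nat_lit 41966, nat_lit 41894, nat_lit 41918] (nat_lit 0) [] false,
   Spec.mk (nat_lit 41918) (nat_lit 0) [nat_lit 28796, nat_lit 46292, nat_lit 40460, nat_lit 42404, nat_lit 41756, nat_lit 42080, nat_lit 41864, nat_lit 41972, nat_lit 41900, nat_lit 41936, nat_lit 41912, nat_lit 41924, nat_lit 41920] (nat_lit 0) [] false,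
   Spec.mk (nat_lit 41920) (nat_lit 0) [nat_lit 28798, nat_lit 46294, nat_lit 40462, nat_lit 42406, nat_lit 41758, nat_lit 42082, nat_lit 41866, nat_lit 41974, nat_lit 41902, nat_lit 41938, nat_lit 41926, nat_lit 41918] (nat_lit 1) [nat_lit 22238] false,
   Spec.mk (nat_lit 41924) (nat_lit 0) [nat_lit 28802, nat_lit 46298, nat_lit 40466, nat_lit 42410, nat_lit 41762, nat_lit 42086, nat_lit 41870, nat_lit 41978, nat_lit 41942, nat_lit 41918, nat_lit 41926] (nat_lit 2) [] false,
   Spec.mk (nat_lit 41926) (nat_lit 0) [nat_lit 28804, nat_lit 46300, nat_lit 40468, nat_lit 42412, nat_lit 41764, nat_lit 42088, nat_lit 41872, nat_lit 41980, nat_lit 41944, nat_lit 41920, nat_lit 41924, nat_lit 41928] (nat_lit 1) [nat_lit 22244] false,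
   Spec.mk (nat_lit 41928) (nat_lit 0) [nat_lit 28806, nat_lit 46302, nat_lit 40470, nat_lit 42414, nat_lit 41766, nat_lit 42090, nat_lit 41874, nat_lit 41982, nat_lit 41946, nat_lit 41926] (nat_lit 2) [nat_lit 22246] false,
   Spec.mk (nat_lit 41936) (nat_lit 0) [nat_lit 28814, nat_lit 46310, nat_lit 40478, nat_lit 42422, nat_lit 41774, nat_lit 42098, nat_lit 41990, nat_lit 41918, nat_lit 41942, nat_lit 41938] (nat_lit 1) [] false,
   Spec.mk (nat_lit 41938) (nat_lit 0) [nat_lit 28816, nat_lit 46312, nat_lit 40480, nat_lit 42424, nat_lit 41776, nat_lit 42100, nat_lit 41992, nat_lit 41920, nat_lit 41944, nat_lit 41936] (nat_lit 3) [nat_lit 22256] false,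
   Spec.mk (nat_lit 41942) (nat_lit 0) [nat_lit 28820, nat_lit 46316, nat_lit 40484, nat_lit 42428, nat_lit 41780, nat_lit 42104, nat_lit 41996, nat_lit 41924, nat_lit 41936, nat_lit 41944] (nat_lit 1) [] false,
   Spec.mk (nat_lit 41944) (nat_lit 0) [nat_lit 28822, nat_lit 46318, nat_lit 40486, nat_lit 42430, nat_lit 41782, nat_lit 42106, nat_lit 41998, nat_lit 41926, nat_lit 41938, nat_lit 41950, nat_lit 41942, nat_lit 41946] (nat_lit 1) [nat_lit 22262] false,
   Spec.mk (nat_lit 41946) (nat_lit 0) [nat_lit 28824, nat_lit 46320, nat_lit 40488, nat_lit 42432, nat_lit 41784, nat_lit 42108, nat_lit 42000, nat_lit 41928, nat_lit 41952, nat_lit 41944] (nat_lit 3) [nat_lit 22264] false,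
   Spec.mk (nat_lit 41950) (nat_lit 0) [nat_lit 28828, nat_lit 46324, nat_lit 40492, nat_lit 42436, nat_lit 41788, nat_lit 42112, nat_lit 42004, nat_lit 41944, nat_lit 41952] (nat_lit 1) [nat_lit 22268] false,
   Spec.mk (nat_lit 41952) (nat_lit 0) [nat_lit 28830, nat_lit 46326, nat_lit 40494, nat_lit 42438, nat_lit 41790, nat_lit 42114, nat_lit 42006, nat_lit 41946, nat_lit 41950] (nat_lit 1) [nat_lit 22270] false,
   Spec.mk (nat_lit 41966) (nat_lit 0) [nat_lit 28844, nat_lit 46340, nat_lit 40508, nat_lit 42452, nat_lit 42128, nat_lit 41912, nat_lit 41972] (nat_lit 0) [] false,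
   Spec.mk (nat_lit 41972) (nat_lit 0) [nat_lit 28850, nat_lit 46346, nat_lit 40514, nat_lit 42458, nat_lit 42134, nat_lit 41918, nat_lit 41990, nat_lit 41966, nat_lit 41978, nat_lit 41974] (nat_lit 1) [] false,
   Spec.mk (nat_lit 41974) (nat_lit 0) [nat_lit 28852, nat_lit 46348, nat_lit 40516, nat_lit 42460, nat_lit 42136, nat_lit 41920, nat_lit 41992, nat_lit 41980, nat_lit 41972] (nat_lit 2) [nat_lit 22292] false,
   Spec.mk (nat_lit 41978) (nat_lit 0) [nat_lit 28856, nat_lit 46352, nat_lit 40520, nat_lit 42464, nat_lit 42140, nat_lit 41924, nat_lit 41996, nat_lit 41972, nat_lit 41980] (nat_lit 4) [] false,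
   Spec.mk (nat_lit 41980) (nat_lit 0) [nat_lit 28858, nat_lit 46354, nat_lit 40522, nat_lit 42466, nat_lit 42142, nat_lit 41926, nat_lit 41998, nat_lit 41974, nat_lit 41978, nat_lit 41982] (nat_lit 3) [nat_lit 22298] false,
   Spec.mk (nat_lit 41982) (nat_lit 0) [nat_lit 28860, nat_lit 46356, nat_lit 40524, nat_lit 42468, nat_lit 42144, nat_lit 41928, nat_lit 42000, nat_lit 41980] (nat_lit 4) [nat_lit 22300] false,
   Spec.mk (nat_lit 41990) (nat_lit 0) [nat_lit 28868, nat_lit 46364, nat_lit 40532, nat_lit 42476, nat_lit 42152, nat_lit 41936, nat_lit 41972, nat_lit 41996, nat_lit 41992] (nat_lit 0) [] false,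
   Spec.mk (nat_lit 41992) (nat_lit 0) [nat_lit 28870, nat_lit 46366, nat_lit 40534, nat_lit 42478, nat_lit 42154, nat_lit 41938, nat_lit 41974, nat_lit 41998, nat_lit 41990] (nat_lit 2) [nat_lit 22310] false,
   Spec.mk (nat_lit 41996) (nat_lit 0) [nat_lit 28874, nat_lit 46370, nat_lit 40538, nat_lit 42482, nat_lit 42158, nat_lit 41942, nat_lit 41978, nat_lit 42014, nat_lit 41990, nat_lit 41998] (nat_lit 1) [] false,
   Spec.mk (nat_lit 41998) (nat_lit 0) [nat_lit 28876, nat_lit 46372, nat_lit 40540, nat_lit 42484, nat_lit 42160, nat_lit 41944, nat_lit 41980, nat_lit 42016, nat_lit 41992, nat_lit 42004, nat_lit 41996, nat_lit 42000] (nat_lit 1) [nat_lit 22316] false,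
   Spec.mk (nat_lit 42000) (nat_lit 0) [nat_lit 28878, nat_lit 46374, nat_lit 40542, nat_lit 42486, nat_lit 42162, nat_lit 41946, nat_lit 41982, nat_lit 42018, nat_lit 42006, nat_lit 41998] (nat_lit 3) [nat_lit 22318] false,
   Spec.mk (nat_lit 42004) (nat_lit 0) [nat_lit 28882, nat_lit 46378, nat_lit 40546, nat_lit 42490, nat_lit 42166, nat_lit 41950, nat_lit 42022, nat_lit 41998, nat_lit 42006] (nat_lit 2) [nat_lit 22322] false,
   Spec.mk (nat_lit 42006) (nat_lit 0) [nat_lit 28884, nat_lit 46380, nat_lit 40548, nat_lit 42492, nat_lit 42168, nat_lit 41952, nat_lit 42024, nat_lit 42000, nat_lit 42004] (nat_lit 2) [nat_lit 22324] false,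
   Spec.mk (nat_lit 42014) (nat_lit 0) [nat_lit 28892, nat_lit 46388, nat_lit 40556, nat_lit 42500, nat_lit 42176, nat_lit 41996, nat_lit 42016] (nat_lit 0) [] false,
   Spec.mk (nat_lit 42016) (nat_lit 0) [nat_lit 28894, nat_lit 46390, nat_lit 40558, nat_lit 42502, nat_lit 42178, nat_lit 41998, nat_lit 42022, nat_lit 42014, nat_lit 42018] (nat_lit 1) [nat_lit 22334] false,
   Spec.mk (nat_lit 42018) (nat_lit 0) [nat_lit 28896, nat_lit 46392, nat_lit 40560, nat_lit 42504, nat_lit 42180, nat_lit 42000, nat_lit 42024, nat_lit 42016] (nat_lit 4) [nat_lit 22336] false,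
   Spec.mk (nat_lit 42022) (nat_lit 0) [nat_lit 28900, nat_lit 46396, nat_lit 40564, nat_lit 42508, nat_lit 42184, nat_lit 42004, nat_lit 42016, nat_lit 42024] (nat_lit 0) [nat_lit 22340] false,
   Spec.mk (nat_lit 42024) (nat_lit 0) [nat_lit 28902, nat_lit 46398, nat_lit 40566, nat_lit 42510, nat_lit 42186, nat_lit 42006, nat_lit 42018, nat_lit 42030, nat_lit 42022] (nat_lit 1) [nat_lit 22342] false,
   Spec.mk (nat_lit 42030) (nat_lit 0) [nat_lit 28908, nat_lit 46404, nat_lit 40572, nat_lit 42516, nat_lit 42192, nat_lit 42024] (nat_lit 0) [nat_lit 22348] false,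
   Spec.mk (nat_lit 42056) (nat_lit 0) [nat_lit 28934, nat_lit 46430, nat_lit 40598, nat_lit 42542, nat_lit 41894, nat_lit 42074, nat_lit 42062] (nat_lit 0) [] false,
   Spec.mk (nat_lit 42062) (nat_lit 0) [nat_lit 28940, nat_lit 46436, nat_lit 40604, nat_lit 42548, nat_lit 41900, nat_lit 42080, nat_lit 42056, nat_lit 42064] (nat_lit 2) [] false]

noncomputable def sp108 : List Spec :=
  [Spec.mk (nat_lit 42064) (nat_lit 0) [nat_lit 28942, nat_lit 46438, nat_lit 40606, nat_lit 42550, nat_lit 41902, nat_lit 42082, nat_lit 42062] (nat_lit 2) [nat_lit 22382] false,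
   Spec.mk (nat_lit 42074) (nat_lit 0) [nat_lit 28952, nat_lit 46448, nat_lit 40616, nat_lit 42560, nat_lit 41912, nat_lit 42128, nat_lit 42056, nat_lit 42080] (nat_lit 2) [] false,
   Spec.mk (nat_lit 42080) (nat_lit 0) [nat_lit 28958, nat_lit 46454, nat_lit 40622, nat_lit 42566, nat_lit 41918, nat_lit 42134, nat_lit 42062, nat_lit 42098, nat_lit 42074, nat_lit 42086, nat_lit 42082] (nat_lit 2) [] false,
   Spec.mk (nat_lit 42082) (nat_lit 0) [nat_lit 28960, nat_lit 46456, nat_lit 40624, nat_lit 42568, nat_lit 41920, nat_lit 42136, nat_lit 42064, nat_lit 42100, nat_lit 42088, nat_lit 42080] (nat_lit 3) [nat_lit 22400] false,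
   Spec.mk (nat_lit 42086) (nat_lit 0) [nat_lit 28964, nat_lit 46460, nat_lit 40628, nat_lit 42572, nat_lit 41924, nat_lit 42140, nat_lit 42104, nat_lit 42080, nat_lit 42088] (nat_lit 4) [] false,
   Spec.mk (nat_lit 42088) (nat_lit 0) [nat_lit 28966, nat_lit 46462, nat_lit 40630, nat_lit 42574, nat_lit 41926, nat_lit 42142, nat_lit 42106, nat_lit 42082, nat_lit 42086, nat_lit 42090] (nat_lit 3) [nat_lit 22406] false,
   Spec.mk (nat_lit 42090) (nat_lit 0) [nat_lit 28968, nat_lit 46464, nat_lit 40632, nat_lit 42576, nat_lit 41928, nat_lit 42144, nat_lit 42108, nat_lit 42088] (nat_lit 4) [nat_lit 22408] false,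
   Spec.mk (nat_lit 42098) (nat_lit 0) [nat_lit 28976, nat_lit 46472, nat_lit 40640, nat_lit 42584, nat_lit 41936, nat_lit 42152, nat_lit 42080, nat_lit 42104, nat_lit 42100] (nat_lit 4) [] false,
   Spec.mk (nat_lit 42100) (nat_lit 0) [nat_lit 28978, nat_lit 46474, nat_lit 40642, nat_lit 42586, nat_lit 41938, nat_lit 42154, nat_lit 42082, nat_lit 42106, nat_lit 42098] (nat_lit 6) [nat_lit 22418] false,
   Spec.mk (nat_lit 42104) (nat_lit 0) [nat_lit 28982, nat_lit 46478, nat_lit 40646, nat_lit 42590, nat_lit 41942, nat_lit 42158, nat_lit 42086, nat_lit 42098, nat_lit 42106] (nat_lit 4) [] false,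
   Spec.mk (nat_lit 42106) (nat_lit 0) [nat_lit 28984, nat_lit 46480, nat_lit 40648, nat_lit 42592, nat_lit 41944, nat_lit 42160, nat_lit 42088, nat_lit 42100, nat_lit 42112, nat_lit 42104, nat_lit 42108] (nat_lit 4) [nat_lit 22424] false,
   Spec.mk (nat_lit 42108) (nat_lit 0) [nat_lit 28986, nat_lit 46482, nat_lit 40650, nat_lit 42594, nat_lit 41946, nat_lit 42162, nat_lit 42090, nat_lit 42114, nat_lit 42106] (nat_lit 6) [nat_lit 22426] false,
   Spec.mk (nat_lit 42112) (nat_lit 0) [nat_lit 28990, nat_lit 46486, nat_lit 40654, nat_lit 42598, nat_lit 41950, nat_lit 42166, nat_lit 42106, nat_lit 42114] (nat_lit 4) [nat_lit 22430] false,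
   Spec.mk (nat_lit 42114) (nat_lit 0) [nat_lit 28992, nat_lit 46488, nat_lit 40656, nat_lit 42600, nat_lit 41952, nat_lit 42168, nat_lit 42108, nat_lit 42112] (nat_lit 4) [nat_lit 22432] false,
   Spec.mk (nat_lit 42128) (nat_lit 0) [nat_lit 29006, nat_lit 46502, nat_lit 40670, nat_lit 42614, nat_lit 41966, nat_lit 42074, nat_lit 42134] (nat_lit 0) [] false,
   Spec.mk (nat_lit 42134) (nat_lit 0) [nat_lit 29012, nat_lit 46508, nat_lit 40676, nat_lit 42620, nat_lit 41972, nat_lit 42080, nat_lit 42152, nat_lit 42128, nat_lit 42140, nat_lit 42136] (nat_lit 1) [] false,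
   Spec.mk (nat_lit 42136) (nat_lit 0) [nat_lit 29014, nat_lit 46510, nat_lit 40678, nat_lit 42622, nat_lit 41974, nat_lit 42082, nat_lit 42154, nat_lit 42142, nat_lit 42134] (nat_lit 2) [nat_lit 22454] false,
   Spec.mk (nat_lit 42140) (nat_lit 0) [nat_lit 29018, nat_lit 46514, nat_lit 40682, nat_lit 42626, nat_lit 41978, nat_lit 42086, nat_lit 42158, nat_lit 42134, nat_lit 42142] (nat_lit 4) [] false,
   Spec.mk (nat_lit 42142) (nat_lit 0) [nat_lit 29020, nat_lit 46516, nat_lit 40684, nat_lit 42628, nat_lit 41980, nat_lit 42088, nat_lit 42160, nat_lit 42136, nat_lit 42140, nat_lit 42144] (nat_lit 3) [nat_lit 22460] false,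
   Spec.mk (nat_lit 42144) (nat_lit 0) [nat_lit 29022, nat_lit 46518, nat_lit 40686, nat_lit 42630, nat_lit 41982, nat_lit 42090, nat_lit 42162, nat_lit 42142] (nat_lit 4) [nat_lit 22462] false,
   Spec.mk (nat_lit 42152) (nat_lit 0) [nat_lit 29030, nat_lit 46526, nat_lit 40694, nat_lit 42638, nat_lit 41990, nat_lit 42098, nat_lit 42206, nat_lit 42134, nat_lit 42158, nat_lit 42154] (nat_lit 1) [] false,
   Spec.mk (nat_lit 42154) (nat_lit 0) [nat_lit 29032, nat_lit 46528, nat_lit 40696, nat_lit 42640, nat_lit 41992, nat_lit 42100, nat_lit 42208, nat_lit 42136, nat_lit 42160, nat_lit 42152] (nat_lit 3) [nat_lit 22472] false,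
   Spec.mk (nat_lit 42158) (nat_lit 0) [nat_lit 29036, nat_lit 46532, nat_lit 40700, nat_lit 42644, nat_lit 41996, nat_lit 42104, nat_lit 42212, nat_lit 42140, nat_lit 42176, nat_lit 42152, nat_lit 42160] (nat_lit 2) [] false,
   Spec.mk (nat_lit 42160) (nat_lit 0) [nat_lit 29038, nat_lit 46534, nat_lit 40702, nat_lit 42646, nat_lit 41998, nat_lit 42106, nat_lit 42214, nat_lit 42142, nat_lit 42178, nat_lit 42154, nat_lit 42166, nat_lit 42158, nat_lit 42162] (nat_lit 2) [nat_lit 22478] false,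
   Spec.mk (nat_lit 42162) (nat_lit 0) [nat_lit 29040, nat_lit 46536, nat_lit 40704, nat_lit 42648, nat_lit 42000, nat_lit 42108, nat_lit 42216, nat_lit 42144, nat_lit 42180, nat_lit 42168, nat_lit 42160] (nat_lit 4) [nat_lit 22480] false,
   Spec.mk (nat_lit 42166) (nat_lit 0) [nat_lit 29044, nat_lit 46540, nat_lit 40708, nat_lit 42652, nat_lit 42004, nat_lit 42112, nat_lit 42220, nat_lit 42184, nat_lit 42160, nat_lit 42168] (nat_lit 3) [nat_lit 22484] false,
   Spec.mk (nat_lit 42168) (nat_lit 0) [nat_lit 29046, nat_lit 46542, nat_lit 40710, nat_lit 42654, nat_lit 42006, nat_lit 42114, nat_lit 42222, nat_lit 42186, nat_lit 42162, nat_lit 42166] (nat_lit 3) [nat_lit 22486] false,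
   Spec.mk (nat_lit 42176) (nat_lit 0) [nat_lit 29054, nat_lit 46550, nat_lit 40718, nat_lit 42662, nat_lit 42014, nat_lit 42230, nat_lit 42158, nat_lit 42178] (nat_lit 2) [] false,
   Spec.mk (nat_lit 42178) (nat_lit 0) [nat_lit 29056, nat_lit 46552, nat_lit 40720, nat_lit 42664, nat_lit 42016, nat_lit 42232, nat_lit 42160, nat_lit 42184, nat_lit 42176, nat_lit 42180] (nat_lit 3) [nat_lit 22496] false,
   Spec.mk (nat_lit 42180) (nat_lit 0) [nat_lit 29058, nat_lit 46554, nat_lit 40722, nat_lit 42666, nat_lit 42018, nat_lit 42234, nat_lit 42162, nat_lit 42186, nat_lit 42178] (nat_lit 6) [nat_lit 22498] false,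
   Spec.mk (nat_lit 42184) (nat_lit 0) [nat_lit 29062, nat_lit 46558, nat_lit 40726, nat_lit 42670, nat_lit 42022, nat_lit 42238, nat_lit 42166, nat_lit 42178, nat_lit 42186] (nat_lit 2) [nat_lit 22502] false,
   Spec.mk (nat_lit 42186) (nat_lit 0) [nat_lit 29064, nat_lit 46560, nat_lit 40728, nat_lit 42672, nat_lit 42024, nat_lit 42240, nat_lit 42168, nat_lit 42180, nat_lit 42192, nat_lit 42184] (nat_lit 3) [nat_lit 22504] false,
   Spec.mk (nat_lit 42192) (nat_lit 0) [nat_lit 29070, nat_lit 46566, nat_lit 40734, nat_lit 42678, nat_lit 42030, nat_lit 42246, nat_lit 42186] (nat_lit 2) [nat_lit 22510] false,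
   Spec.mk (nat_lit 42206) (nat_lit 0) [nat_lit 29084, nat_lit 46580, nat_lit 40748, nat_lit 42692, nat_lit 42152, nat_lit 42212, nat_lit 42208] (nat_lit 0) [] false,
   Spec.mk (nat_lit 42208) (nat_lit 0) [nat_lit 29086, nat_lit 46582, nat_lit 40750, nat_lit 42694, nat_lit 42154, nat_lit 42214, nat_lit 42206] (nat_lit 2) [nat_lit 22526] false,
   Spec.mk (nat_lit 42212) (nat_lit 0) [nat_lit 29090, nat_lit 46586, nat_lit 40754, nat_lit 42698, nat_lit 42158, nat_lit 42230, nat_lit 42206, nat_lit 42214] (nat_lit 2) [] false,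
   Spec.mk (nat_lit 42214) (nat_lit 0) [nat_lit 29092, nat_lit 46588, nat_lit 40756, nat_lit 42700, nat_lit 42160, nat_lit 42232, nat_lit 42208, nat_lit 42220, nat_lit 42212, nat_lit 42216] (nat_lit 2) [nat_lit 22532] false,
   Spec.mk (nat_lit 42216) (nat_lit 0) [nat_lit 29094, nat_lit 46590, nat_lit 40758, nat_lit 42702, nat_lit 42162, nat_lit 42234, nat_lit 42222, nat_lit 42214] (nat_lit 4) [nat_lit 22534] false,
   Spec.mk (nat_lit 42220) (nat_lit 0) [nat_lit 29098, nat_lit 46594, nat_lit 40762, nat_lit 42706, nat_lit 42166, nat_lit 42238, nat_lit 42214, nat_lit 42222] (nat_lit 4) [nat_lit 22538] false,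
   Spec.mk (nat_lit 42222) (nat_lit 0) [nat_lit 29100, nat_lit 46596, nat_lit 40764, nat_lit 42708, nat_lit 42168, nat_lit 42240, nat_lit 42216, nat_lit 42220] (nat_lit 4) [nat_lit 22540] false,
   Spec.mk (nat_lit 42230) (nat_lit 0) [nat_lit 29108, nat_lit 46604, nat_lit 40772, nat_lit 42716, nat_lit 42176, nat_lit 42212, nat_lit 42232] (nat_lit 0) [] false,
   Spec.mk (nat_lit 42232) (nat_lit 0) [nat_lit 29110, nat_lit 46606, nat_lit 40774, nat_lit 42718, nat_lit 42178, nat_lit 42214, nat_lit 42238, nat_lit 42230, nat_lit 42234] (nat_lit 1) [nat_lit 22550] false,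
   Spec.mk (nat_lit 42234) (nat_lit 0) [nat_lit 29112, nat_lit 46608, nat_lit 40776, nat_lit 42720, nat_lit 42180, nat_lit 42216, nat_lit 42240, nat_lit 42232] (nat_lit 4) [nat_lit 22552] false,
   Spec.mk (nat_lit 42238) (nat_lit 0) [nat_lit 29116, nat_lit 46612, nat_lit 40780, nat_lit 42724, nat_lit 42184, nat_lit 42220, nat_lit 42256, nat_lit 42232, nat_lit 42240] (nat_lit 1) [nat_lit 22556] false,
   Spec.mk (nat_lit 42240) (nat_lit 0) [nat_lit 29118, nat_lit 46614, nat_lit 40782, nat_lit 42726, nat_lit 42186, nat_lit 42222, nat_lit 42258, nat_lit 42234, nat_lit 42246, nat_lit 42238] (nat_lit 2) [nat_lit 22558] false,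
   Spec.mk (nat_lit 42246) (nat_lit 0) [nat_lit 29124, nat_lit 46620, nat_lit 40788, nat_lit 42732, nat_lit 42192, nat_lit 42264, nat_lit 42240] (nat_lit 2) [nat_lit 22564] false,
   Spec.mk (nat_lit 42256) (nat_lit 0) [nat_lit 29134, nat_lit 46630, nat_lit 40798, nat_lit 42742, nat_lit 42238, nat_lit 42258] (nat_lit 0) [nat_lit 22574] false,
   Spec.mk (nat_lit 42258) (nat_lit 0) [nat_lit 29136, nat_lit 46632, nat_lit 40800, nat_lit 42744, nat_lit 42240, nat_lit 42264, nat_lit 42256] (nat_lit 2) [nat_lit 22576] false,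
   Spec.mk (nat_lit 42264) (nat_lit 0) [nat_lit 29142, nat_lit 46638, nat_lit 40806, nat_lit 42750, nat_lit 42246, nat_lit 42258] (nat_lit 0) [nat_lit 22582] false,
   Spec.mk (nat_lit 42308) (nat_lit 3) [nat_lit 29186, nat_lit 46682, nat_lit 40850, nat_lit 43766, nat_lit 41822, nat_lit 42326] (nat_lit 0) [] false,
   Spec.mk (nat_lit 42326) (nat_lit 2) [nat_lit 29204, nat_lit 46700, nat_lit 40868, nat_lit 43784, nat_lit 41840, nat_lit 42380, nat_lit 42308, nat_lit 42344, nat_lit 42332] (nat_lit 0) [] false,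
   Spec.mk (nat_lit 42332) (nat_lit 1) [nat_lit 29210, nat_lit 46706, nat_lit 40874, nat_lit 43790, nat_lit 41846, nat_lit 42386, nat_lit 42350, nat_lit 42326, nat_lit 42334] (nat_lit 0) [] false,
   Spec.mk (nat_lit 42334) (nat_lit 1) [nat_lit 29212, nat_lit 46708, nat_lit 40876, nat_lit 43792, nat_lit 41848, nat_lit 42388, nat_lit 42352, nat_lit 42332] (nat_lit 0) [nat_lit 22652] false,
   Spec.mk (nat_lit 42344) (nat_lit 0) [nat_lit 29222, nat_lit 46718, nat_lit 40886, nat_lit 43802, nat_lit 41858, nat_lit 42398, nat_lit 42326, nat_lit 42350] (nat_lit 1) [] false,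
   Spec.mk (nat_lit 42350) (nat_lit 0) [nat_lit 29228, nat_lit 46724, nat_lit 40892, nat_lit 43808, nat_lit 41864, nat_lit 42404, nat_lit 42332, nat_lit 42344, nat_lit 42356, nat_lit 42352] (nat_lit 0) [] false,
   Spec.mk (nat_lit 42352) (nat_lit 0) [nat_lit 29230, nat_lit 46726, nat_lit 40894, nat_lit 43810, nat_lit 41866, nat_lit 42406, nat_lit 42334, nat_lit 42358, nat_lit 42350] (nat_lit 1) [nat_lit 22670] false,
   Spec.mk (nat_lit 42356) (nat_lit 0) [nat_lit 29234, nat_lit 46730, nat_lit 40898, nat_lit 43814, nat_lit 41870, nat_lit 42410, nat_lit 42350, nat_lit 42358] (nat_lit 1) [] false,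
   Spec.mk (nat_lit 42358) (nat_lit 0) [nat_lit 29236, nat_lit 46732, nat_lit 40900, nat_lit 43816, nat_lit 41872, nat_lit 42412, nat_lit 42352, nat_lit 42356, nat_lit 42360] (nat_lit 0) [nat_lit 22676] false,
   Spec.mk (nat_lit 42360) (nat_lit 0) [nat_lit 29238, nat_lit 46734, nat_lit 40902, nat_lit 43818, nat_lit 41874, nat_lit 42414, nat_lit 42358] (nat_lit 1) [nat_lit 22678] false,
   Spec.mk (nat_lit 42380) (nat_lit 1) [nat_lit 29258, nat_lit 46754, nat_lit 40922, nat_lit 43838, nat_lit 41894, nat_lit 42542, nat_lit 42326, nat_lit 42398, nat_lit 42386] (nat_lit 0) [] false]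

noncomputable def sp109 : List Spec :=
  [Spec.mk (nat_lit 42386) (nat_lit 0) [nat_lit 29264, nat_lit 46760, nat_lit 40928, nat_lit 43844, nat_lit 41900, nat_lit 42548, nat_lit 42332, nat_lit 42404, nat_lit 42380, nat_lit 42388] (nat_lit 1) [] false,
   Spec.mk (nat_lit 42388) (nat_lit 0) [nat_lit 29266, nat_lit 46762, nat_lit 40930, nat_lit 43846, nat_lit 41902, nat_lit 42550, nat_lit 42334, nat_lit 42406, nat_lit 42386] (nat_lit 1) [nat_lit 22706] false,
   Spec.mk (nat_lit 42398) (nat_lit 0) [nat_lit 29276, nat_lit 46772, nat_lit 40940, nat_lit 43856, nat_lit 41912, nat_lit 42560, nat_lit 42344, nat_lit 42452, nat_lit 42380, nat_lit 42404] (nat_lit 0) [] false,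
   Spec.mk (nat_lit 42404) (nat_lit 0) [nat_lit 29282, nat_lit 46778, nat_lit 40946, nat_lit 43862, nat_lit 41918, nat_lit 42566, nat_lit 42350, nat_lit 42458, nat_lit 42386, nat_lit 42422, nat_lit 42398, nat_lit 42410, nat_lit 42406] (nat_lit 0) [] false,
   Spec.mk (nat_lit 42406) (nat_lit 0) [nat_lit 29284, nat_lit 46780, nat_lit 40948, nat_lit 43864, nat_lit 41920, nat_lit 42568, nat_lit 42352, nat_lit 42460, nat_lit 42388, nat_lit 42424, nat_lit 42412, nat_lit 42404] (nat_lit 1) [nat_lit 22724] false,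
   Spec.mk (nat_lit 42410) (nat_lit 0) [nat_lit 29288, nat_lit 46784, nat_lit 40952, nat_lit 43868, nat_lit 41924, nat_lit 42572, nat_lit 42356, nat_lit 42464, nat_lit 42428, nat_lit 42404, nat_lit 42412] (nat_lit 2) [] false,
   Spec.mk (nat_lit 42412) (nat_lit 0) [nat_lit 29290, nat_lit 46786, nat_lit 40954, nat_lit 43870, nat_lit 41926, nat_lit 42574, nat_lit 42358, nat_lit 42466, nat_lit 42430, nat_lit 42406, nat_lit 42410, nat_lit 42414] (nat_lit 1) [nat_lit 22730] false,
   Spec.mk (nat_lit 42414) (nat_lit 0) [nat_lit 29292, nat_lit 46788, nat_lit 40956, nat_lit 43872, nat_lit 41928, nat_lit 42576, nat_lit 42360, nat_lit 42468, nat_lit 42432, nat_lit 42412] (nat_lit 2) [nat_lit 22732] false,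
   Spec.mk (nat_lit 42422) (nat_lit 0) [nat_lit 29300, nat_lit 46796, nat_lit 40964, nat_lit 43880, nat_lit 41936, nat_lit 42584, nat_lit 42476, nat_lit 42404, nat_lit 42428, nat_lit 42424] (nat_lit 1) [] false,
   Spec.mk (nat_lit 42424) (nat_lit 0) [nat_lit 29302, nat_lit 46798, nat_lit 40966, nat_lit 43882, nat_lit 41938, nat_lit 42586, nat_lit 42478, nat_lit 42406, nat_lit 42430, nat_lit 42422] (nat_lit 3) [nat_lit 22742] false,
   Spec.mk (nat_lit 42428) (nat_lit 0) [nat_lit 29306, nat_lit 46802, nat_lit 40970, nat_lit 43886, nat_lit 41942, nat_lit 42590, nat_lit 42482, nat_lit 42410, nat_lit 42422, nat_lit 42430] (nat_lit 1) [] false,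
   Spec.mk (nat_lit 42430) (nat_lit 0) [nat_lit 29308, nat_lit 46804, nat_lit 40972, nat_lit 43888, nat_lit 41944, nat_lit 42592, nat_lit 42484, nat_lit 42412, nat_lit 42424, nat_lit 42436, nat_lit 42428, nat_lit 42432] (nat_lit 1) [nat_lit 22748] false,
   Spec.mk (nat_lit 42432) (nat_lit 0) [nat_lit 29310, nat_lit 46806, nat_lit 40974, nat_lit 43890, nat_lit 41946, nat_lit 42594, nat_lit 42486, nat_lit 42414, nat_lit 42438, nat_lit 42430] (nat_lit 3) [nat_lit 22750] false,
   Spec.mk (nat_lit 42436) (nat_lit 0) [nat_lit 29314, nat_lit 46810, nat_lit 40978, nat_lit 43894, nat_lit 41950, nat_lit 42598, nat_lit 42490, nat_lit 42430, nat_lit 42438] (nat_lit 1) [nat_lit 22754] false,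
   Spec.mk (nat_lit 42438) (nat_lit 0) [nat_lit 29316, nat_lit 46812, nat_lit 40980, nat_lit 43896, nat_lit 41952, nat_lit 42600, nat_lit 42492, nat_lit 42432, nat_lit 42436] (nat_lit 1) [nat_lit 22756] false,
   Spec.mk (nat_lit 42452) (nat_lit 0) [nat_lit 29330, nat_lit 46826, nat_lit 40994, nat_lit 43910, nat_lit 41966, nat_lit 42614, nat_lit 42398, nat_lit 42458] (nat_lit 1) [] false,
   Spec.mk (nat_lit 42458) (nat_lit 0) [nat_lit 29336, nat_lit 46832, nat_lit 41000, nat_lit 43916, nat_lit 41972, nat_lit 42620, nat_lit 42404, nat_lit 42476, nat_lit 42452, nat_lit 42464, nat_lit 42460] (nat_lit 2) [] false,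
   Spec.mk (nat_lit 42460) (nat_lit 0) [nat_lit 29338, nat_lit 46834, nat_lit 41002, nat_lit 43918, nat_lit 41974, nat_lit 42622, nat_lit 42406, nat_lit 42478, nat_lit 42466, nat_lit 42458] (nat_lit 3) [nat_lit 22778] false,
   Spec.mk (nat_lit 42464) (nat_lit 0) [nat_lit 29342, nat_lit 46838, nat_lit 41006, nat_lit 43922, nat_lit 41978, nat_lit 42626, nat_lit 42410, nat_lit 42482, nat_lit 42458, nat_lit 42466] (nat_lit 5) [] false,
   Spec.mk (nat_lit 42466) (nat_lit 0) [nat_lit 29344, nat_lit 46840, nat_lit 41008, nat_lit 43924, nat_lit 41980, nat_lit 42628, nat_lit 42412, nat_lit 42484, nat_lit 42460, nat_lit 42464, nat_lit 42468] (nat_lit 4) [nat_lit 22784] false,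
   Spec.mk (nat_lit 42468) (nat_lit 0) [nat_lit 29346, nat_lit 46842, nat_lit 41010, nat_lit 43926, nat_lit 41982, nat_lit 42630, nat_lit 42414, nat_lit 42486, nat_lit 42466] (nat_lit 5) [nat_lit 22786] false,
   Spec.mk (nat_lit 42476) (nat_lit 0) [nat_lit 29354, nat_lit 46850, nat_lit 41018, nat_lit 43934, nat_lit 41990, nat_lit 42638, nat_lit 42422, nat_lit 42458, nat_lit 42482, nat_lit 42478] (nat_lit 1) [] false,
   Spec.mk (nat_lit 42478) (nat_lit 0) [nat_lit 29356, nat_lit 46852, nat_lit 41020, nat_lit 43936, nat_lit 41992, nat_lit 42640, nat_lit 42424, nat_lit 42460, nat_lit 42484, nat_lit 42476] (nat_lit 3) [nat_lit 22796] false,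
   Spec.mk (nat_lit 42482) (nat_lit 0) [nat_lit 29360, nat_lit 46856, nat_lit 41024, nat_lit 43940, nat_lit 41996, nat_lit 42644, nat_lit 42428, nat_lit 42464, nat_lit 42500, nat_lit 42476, nat_lit 42484] (nat_lit 2) [] false,
   Spec.mk (nat_lit 42484) (nat_lit 0) [nat_lit 29362, nat_lit 46858, nat_lit 41026, nat_lit 43942, nat_lit 41998, nat_lit 42646, nat_lit 42430, nat_lit 42466, nat_lit 42502, nat_lit 42478, nat_lit 42490, nat_lit 42482, nat_lit 42486] (nat_lit 2) [nat_lit 22802] false,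
   Spec.mk (nat_lit 42486) (nat_lit 0) [nat_lit 29364, nat_lit 46860, nat_lit 41028, nat_lit 43944, nat_lit 42000, nat_lit 42648, nat_lit 42432, nat_lit 42468, nat_lit 42504, nat_lit 42492, nat_lit 42484] (nat_lit 4) [nat_lit 22804] false,
   Spec.mk (nat_lit 42490) (nat_lit 0) [nat_lit 29368, nat_lit 46864, nat_lit 41032, nat_lit 43948, nat_lit 42004, nat_lit 42652, nat_lit 42436, nat_lit 42508, nat_lit 42484, nat_lit 42492] (nat_lit 3) [nat_lit 22808] false,
   Spec.mk (nat_lit 42492) (nat_lit 0) [nat_lit 29370, nat_lit 46866, nat_lit 41034, nat_lit 43950, nat_lit 42006, nat_lit 42654, nat_lit 42438, nat_lit 42510, nat_lit 42486, nat_lit 42490] (nat_lit 3) [nat_lit 22810] false,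
   Spec.mk (nat_lit 42500) (nat_lit 0) [nat_lit 29378, nat_lit 46874, nat_lit 41042, nat_lit 43958, nat_lit 42014, nat_lit 42662, nat_lit 42482, nat_lit 42502] (nat_lit 1) [] false,
   Spec.mk (nat_lit 42502) (nat_lit 0) [nat_lit 29380, nat_lit 46876, nat_lit 41044, nat_lit 43960, nat_lit 42016, nat_lit 42664, nat_lit 42484, nat_lit 42508, nat_lit 42500, nat_lit 42504] (nat_lit 2) [nat_lit 22820] false,
   Spec.mk (nat_lit 42504) (nat_lit 0) [nat_lit 29382, nat_lit 46878, nat_lit 41046, nat_lit 43962, nat_lit 42018, nat_lit 42666, nat_lit 42486, nat_lit 42510, nat_lit 42502] (nat_lit 5) [nat_lit 22822] false,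
   Spec.mk (nat_lit 42508) (nat_lit 0) [nat_lit 29386, nat_lit 46882, nat_lit 41050, nat_lit 43966, nat_lit 42022, nat_lit 42670, nat_lit 42490, nat_lit 42502, nat_lit 42510] (nat_lit 1) [nat_lit 22826] false,
   Spec.mk (nat_lit 42510) (nat_lit 0) [nat_lit 29388, nat_lit 46884, nat_lit 41052, nat_lit 43968, nat_lit 42024, nat_lit 42672, nat_lit 42492, nat_lit 42504, nat_lit 42516, nat_lit 42508] (nat_lit 2) [nat_lit 22828] false,
   Spec.mk (nat_lit 42516) (nat_lit 0) [nat_lit 29394, nat_lit 46890, nat_lit 41058, nat_lit 43974, nat_lit 42030, nat_lit 42678, nat_lit 42510] (nat_lit 1) [nat_lit 22834] false,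
   Spec.mk (nat_lit 42542) (nat_lit 2) [nat_lit 29420, nat_lit 46916, nat_lit 41084, nat_lit 44000, nat_lit 42056, nat_lit 43028, nat_lit 42380, nat_lit 42560, nat_lit 42548] (nat_lit 0) [] false,
   Spec.mk (nat_lit 42548) (nat_lit 0) [nat_lit 29426, nat_lit 46922, nat_lit 41090, nat_lit 44006, nat_lit 42062, nat_lit 43034, nat_lit 42386, nat_lit 42566, nat_lit 42542, nat_lit 42550] (nat_lit 0) [] false,
   Spec.mk (nat_lit 42550) (nat_lit 0) [nat_lit 29428, nat_lit 46924, nat_lit 41092, nat_lit 44008, nat_lit 42064, nat_lit 43036, nat_lit 42388, nat_lit 42568, nat_lit 42548] (nat_lit 0) [nat_lit 22868] false,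
   Spec.mk (nat_lit 42560) (nat_lit 0) [nat_lit 29438, nat_lit 46934, nat_lit 41102, nat_lit 44018, nat_lit 42074, nat_lit 43046, nat_lit 42398, nat_lit 42614, nat_lit 42542, nat_lit 42566] (nat_lit 0) [] false,
   Spec.mk (nat_lit 42566) (nat_lit 0) [nat_lit 29444, nat_lit 46940, nat_lit 41108, nat_lit 44024, nat_lit 42080, nat_lit 43052, nat_lit 42404, nat_lit 42620, nat_lit 42548, nat_lit 42584, nat_lit 42560, nat_lit 42572, nat_lit 42568] (nat_lit 0) [] false,
   Spec.mk (nat_lit 42568) (nat_lit 0) [nat_lit 29446, nat_lit 46942, nat_lit 41110, nat_lit 44026, nat_lit 42082, nat_lit 43054, nat_lit 42406, nat_lit 42622, nat_lit 42550, nat_lit 42586, nat_lit 42574, nat_lit 42566] (nat_lit 1) [nat_lit 22886] false,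
   Spec.mk (nat_lit 42572) (nat_lit 0) [nat_lit 29450, nat_lit 46946, nat_lit 41114, nat_lit 44030, nat_lit 42086, nat_lit 43058, nat_lit 42410, nat_lit 42626, nat_lit 42590, nat_lit 42566, nat_lit 42574] (nat_lit 2) [] false,
   Spec.mk (nat_lit 42574) (nat_lit 0) [nat_lit 29452, nat_lit 46948, nat_lit 41116, nat_lit 44032, nat_lit 42088, nat_lit 43060, nat_lit 42412, nat_lit 42628, nat_lit 42592, nat_lit 42568, nat_lit 42572, nat_lit 42576] (nat_lit 1) [nat_lit 22892] false,
   Spec.mk (nat_lit 42576) (nat_lit 0) [nat_lit 29454, nat_lit 46950, nat_lit 41118, nat_lit 44034, nat_lit 42090, nat_lit 43062, nat_lit 42414, nat_lit 42630, nat_lit 42594, nat_lit 42574] (nat_lit 2) [nat_lit 22894] false,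
   Spec.mk (nat_lit 42584) (nat_lit 0) [nat_lit 29462, nat_lit 46958, nat_lit 41126, nat_lit 44042, nat_lit 42098, nat_lit 43070, nat_lit 42422, nat_lit 42638, nat_lit 42566, nat_lit 42590, nat_lit 42586] (nat_lit 2) [] false,
   Spec.mk (nat_lit 42586) (nat_lit 0) [nat_lit 29464, nat_lit 46960, nat_lit 41128, nat_lit 44044, nat_lit 42100, nat_lit 43072, nat_lit 42424, nat_lit 42640, nat_lit 42568, nat_lit 42592, nat_lit 42584] (nat_lit 4) [nat_lit 22904] false,
   Spec.mk (nat_lit 42590) (nat_lit 0) [nat_lit 29468, nat_lit 46964, nat_lit 41132, nat_lit 44048, nat_lit 42104, nat_lit 43076, nat_lit 42428, nat_lit 42644, nat_lit 42572, nat_lit 42584, nat_lit 42592] (nat_lit 2) [] false,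
   Spec.mk (nat_lit 42592) (nat_lit 0) [nat_lit 29470, nat_lit 46966, nat_lit 41134, nat_lit 44050, nat_lit 42106, nat_lit 43078, nat_lit 42430, nat_lit 42646, nat_lit 42574, nat_lit 42586, nat_lit 42598, nat_lit 42590, nat_lit 42594] (nat_lit 2) [nat_lit 22910] false,
   Spec.mk (nat_lit 42594) (nat_lit 0) [nat_lit 29472, nat_lit 46968, nat_lit 41136, nat_lit 44052, nat_lit 42108, nat_lit 43080, nat_lit 42432, nat_lit 42648, nat_lit 42576, nat_lit 42600, nat_lit 42592] (nat_lit 4) [nat_lit 22912] false,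
   Spec.mk (nat_lit 42598) (nat_lit 0) [nat_lit 29476, nat_lit 46972, nat_lit 41140, nat_lit 44056, nat_lit 42112, nat_lit 43084, nat_lit 42436, nat_lit 42652, nat_lit 42592, nat_lit 42600] (nat_lit 2) [nat_lit 22916] false,
   Spec.mk (nat_lit 42600) (nat_lit 0) [nat_lit 29478, nat_lit 46974, nat_lit 41142, nat_lit 44058, nat_lit 42114, nat_lit 43086, nat_lit 42438, nat_lit 42654, nat_lit 42594, nat_lit 42598] (nat_lit 2) [nat_lit 22918] false,
   Spec.mk (nat_lit 42614) (nat_lit 1) [nat_lit 29492, nat_lit 46988, nat_lit 41156, nat_lit 44072, nat_lit 42128, nat_lit 43100, nat_lit 42452, nat_lit 42776, nat_lit 42560, nat_lit 42620] (nat_lit 0) [] false,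
   Spec.mk (nat_lit 42620) (nat_lit 0) [nat_lit 29498, nat_lit 46994, nat_lit 41162, nat_lit 44078, nat_lit 42134, nat_lit 43106, nat_lit 42458, nat_lit 42782, nat_lit 42566, nat_lit 42638, nat_lit 42614, nat_lit 42626, nat_lit 42622] (nat_lit 0) [] false,
   Spec.mk (nat_lit 42622) (nat_lit 0) [nat_lit 29500, nat_lit 46996, nat_lit 41164, nat_lit 44080, nat_lit 42136, nat_lit 43108, nat_lit 42460, nat_lit 42784, nat_lit 42568, nat_lit 42640, nat_lit 42628, nat_lit 42620] (nat_lit 1) [nat_lit 22940] false,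
   Spec.mk (nat_lit 42626) (nat_lit 0) [nat_lit 29504, nat_lit 47000, nat_lit 41168, nat_lit 44084, nat_lit 42140, nat_lit 43112, nat_lit 42464, nat_lit 42788, nat_lit 42572, nat_lit 42644, nat_lit 42620, nat_lit 42628] (nat_lit 3) [] false,
   Spec.mk (nat_lit 42628) (nat_lit 0) [nat_lit 29506, nat_lit 47002, nat_lit 41170, nat_lit 44086, nat_lit 42142, nat_lit 43114, nat_lit 42466, nat_lit 42790, nat_lit 42574, nat_lit 42646, nat_lit 42622, nat_lit 42626, nat_lit 42630] (nat_lit 2) [nat_lit 22946] false,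
   Spec.mk (nat_lit 42630) (nat_lit 0) [nat_lit 29508, nat_lit 47004, nat_lit 41172, nat_lit 44088, nat_lit 42144, nat_lit 43116, nat_lit 42468, nat_lit 42792, nat_lit 42576, nat_lit 42648, nat_lit 42628] (nat_lit 3) [nat_lit 22948] false,
   Spec.mk (nat_lit 42638) (nat_lit 0) [nat_lit 29516, nat_lit 47012, nat_lit 41180, nat_lit 44096, nat_lit 42152, nat_lit 43124, nat_lit 42476, nat_lit 42800, nat_lit 42584, nat_lit 42692, nat_lit 42620, nat_lit 42644, nat_lit 42640] (nat_lit 0) [] false,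
   Spec.mk (nat_lit 42640) (nat_lit 0) [nat_lit 29518, nat_lit 47014, nat_lit 41182, nat_lit 44098, nat_lit 42154, nat_lit 43126, nat_lit 42478, nat_lit 42802, nat_lit 42586, nat_lit 42694, nat_lit 42622, nat_lit 42646, nat_lit 42638] (nat_lit 2) [nat_lit 22958] false,
   Spec.mk (nat_lit 42644) (nat_lit 0) [nat_lit 29522, nat_lit 47018, nat_lit 41186, nat_lit 44102, nat_lit 42158, nat_lit 43130, nat_lit 42482, nat_lit 42806, nat_lit 42590, nat_lit 42698, nat_lit 42626, nat_lit 42662, nat_lit 42638, nat_lit 42646] (nat_lit 1) [] false,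
   Spec.mk (nat_lit 42646) (nat_lit 0) [nat_lit 29524, nat_lit 47020, nat_lit 41188, nat_lit 44104, nat_lit 42160, nat_lit 43132, nat_lit 42484, nat_lit 42808, nat_lit 42592, nat_lit 42700, nat_lit 42628, nat_lit 42664, nat_lit 42640, nat_lit 42652, nat_lit 42644, nat_lit 42648] (nat_lit 1) [nat_lit 22964] false]

noncomputable def sp110 : List Spec :=
  [Spec.mk (nat_lit 42648) (nat_lit 0) [nat_lit 29526, nat_lit 47022, nat_lit 41190, nat_lit 44106, nat_lit 42162, nat_lit 43134, nat_lit 42486, nat_lit 42810, nat_lit 42594, nat_lit 42702, nat_lit 42630, nat_lit 42666, nat_lit 42654, nat_lit 42646] (nat_lit 3) [nat_lit 22966] false,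
   Spec.mk (nat_lit 42652) (nat_lit 0) [nat_lit 29530, nat_lit 47026, nat_lit 41194, nat_lit 44110, nat_lit 42166, nat_lit 43138, nat_lit 42490, nat_lit 42814, nat_lit 42598, nat_lit 42706, nat_lit 42670, nat_lit 42646, nat_lit 42654] (nat_lit 2) [nat_lit 22970] false,
   Spec.mk (nat_lit 42654) (nat_lit 0) [nat_lit 29532, nat_lit 47028, nat_lit 41196, nat_lit 44112, nat_lit 42168, nat_lit 43140, nat_lit 42492, nat_lit 42816, nat_lit 42600, nat_lit 42708, nat_lit 42672, nat_lit 42648, nat_lit 42652] (nat_lit 2) [nat_lit 22972] false,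
   Spec.mk (nat_lit 42662) (nat_lit 0) [nat_lit 29540, nat_lit 47036, nat_lit 41204, nat_lit 44120, nat_lit 42176, nat_lit 43148, nat_lit 42500, nat_lit 42824, nat_lit 42716, nat_lit 42644, nat_lit 42664] (nat_lit 1) [] false,
   Spec.mk (nat_lit 42664) (nat_lit 0) [nat_lit 29542, nat_lit 47038, nat_lit 41206, nat_lit 44122, nat_lit 42178, nat_lit 43150, nat_lit 42502, nat_lit 42826, nat_lit 42718, nat_lit 42646, nat_lit 42670, nat_lit 42662, nat_lit 42666] (nat_lit 2) [nat_lit 22982] false,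
   Spec.mk (nat_lit 42666) (nat_lit 0) [nat_lit 29544, nat_lit 47040, nat_lit 41208, nat_lit 44124, nat_lit 42180, nat_lit 43152, nat_lit 42504, nat_lit 42828, nat_lit 42720, nat_lit 42648, nat_lit 42672, nat_lit 42664] (nat_lit 5) [nat_lit 22984] false,
   Spec.mk (nat_lit 42670) (nat_lit 0) [nat_lit 29548, nat_lit 47044, nat_lit 41212, nat_lit 44128, nat_lit 42184, nat_lit 43156, nat_lit 42508, nat_lit 42832, nat_lit 42724, nat_lit 42652, nat_lit 42664, nat_lit 42672] (nat_lit 1) [nat_lit 22988] false,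
   Spec.mk (nat_lit 42672) (nat_lit 0) [nat_lit 29550, nat_lit 47046, nat_lit 41214, nat_lit 44130, nat_lit 42186, nat_lit 43158, nat_lit 42510, nat_lit 42834, nat_lit 42726, nat_lit 42654, nat_lit 42666, nat_lit 42678, nat_lit 42670] (nat_lit 2) [nat_lit 22990] false,
   Spec.mk (nat_lit 42678) (nat_lit 0) [nat_lit 29556, nat_lit 47052, nat_lit 41220, nat_lit 44136, nat_lit 42192, nat_lit 43164, nat_lit 42516, nat_lit 42840, nat_lit 42732, nat_lit 42672] (nat_lit 1) [nat_lit 22996] false,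
   Spec.mk (nat_lit 42692) (nat_lit 0) [nat_lit 29570, nat_lit 47066, nat_lit 41234, nat_lit 44150, nat_lit 42206, nat_lit 43178, nat_lit 42854, nat_lit 42638, nat_lit 42698, nat_lit 42694] (nat_lit 0) [] false,
   Spec.mk (nat_lit 42694) (nat_lit 0) [nat_lit 29572, nat_lit 47068, nat_lit 41236, nat_lit 44152, nat_lit 42208, nat_lit 43180, nat_lit 42856, nat_lit 42640, nat_lit 42700, nat_lit 42692] (nat_lit 2) [nat_lit 23012] false,
   Spec.mk (nat_lit 42698) (nat_lit 0) [nat_lit 29576, nat_lit 47072, nat_lit 41240, nat_lit 44156, nat_lit 42212, nat_lit 43184, nat_lit 42860, nat_lit 42644, nat_lit 42716, nat_lit 42692, nat_lit 42700] (nat_lit 2) [] false,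
   Spec.mk (nat_lit 42700) (nat_lit 0) [nat_lit 29578, nat_lit 47074, nat_lit 41242, nat_lit 44158, nat_lit 42214, nat_lit 43186, nat_lit 42862, nat_lit 42646, nat_lit 42718, nat_lit 42694, nat_lit 42706, nat_lit 42698, nat_lit 42702] (nat_lit 2) [nat_lit 23018] false,
   Spec.mk (nat_lit 42702) (nat_lit 0) [nat_lit 29580, nat_lit 47076, nat_lit 41244, nat_lit 44160, nat_lit 42216, nat_lit 43188, nat_lit 42864, nat_lit 42648, nat_lit 42720, nat_lit 42708, nat_lit 42700] (nat_lit 4) [nat_lit 23020] false,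
   Spec.mk (nat_lit 42706) (nat_lit 0) [nat_lit 29584, nat_lit 47080, nat_lit 41248, nat_lit 44164, nat_lit 42220, nat_lit 43192, nat_lit 42868, nat_lit 42652, nat_lit 42724, nat_lit 42700, nat_lit 42708] (nat_lit 4) [nat_lit 23024] false,
   Spec.mk (nat_lit 42708) (nat_lit 0) [nat_lit 29586, nat_lit 47082, nat_lit 41250, nat_lit 44166, nat_lit 42222, nat_lit 43194, nat_lit 42870, nat_lit 42654, nat_lit 42726, nat_lit 42702, nat_lit 42706] (nat_lit 4) [nat_lit 23026] false,
   Spec.mk (nat_lit 42716) (nat_lit 0) [nat_lit 29594, nat_lit 47090, nat_lit 41258, nat_lit 44174, nat_lit 42230, nat_lit 43202, nat_lit 42878, nat_lit 42662, nat_lit 42698, nat_lit 42718] (nat_lit 0) [] false,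
   Spec.mk (nat_lit 42718) (nat_lit 0) [nat_lit 29596, nat_lit 47092, nat_lit 41260, nat_lit 44176, nat_lit 42232, nat_lit 43204, nat_lit 42880, nat_lit 42664, nat_lit 42700, nat_lit 42724, nat_lit 42716, nat_lit 42720] (nat_lit 1) [nat_lit 23036] false,
   Spec.mk (nat_lit 42720) (nat_lit 0) [nat_lit 29598, nat_lit 47094, nat_lit 41262, nat_lit 44178, nat_lit 42234, nat_lit 43206, nat_lit 42882, nat_lit 42666, nat_lit 42702, nat_lit 42726, nat_lit 42718] (nat_lit 4) [nat_lit 23038] false,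
   Spec.mk (nat_lit 42724) (nat_lit 0) [nat_lit 29602, nat_lit 47098, nat_lit 41266, nat_lit 44182, nat_lit 42238, nat_lit 43210, nat_lit 42886, nat_lit 42670, nat_lit 42706, nat_lit 42742, nat_lit 42718, nat_lit 42726] (nat_lit 1) [nat_lit 23042] false,
   Spec.mk (nat_lit 42726) (nat_lit 0) [nat_lit 29604, nat_lit 47100, nat_lit 41268, nat_lit 44184, nat_lit 42240, nat_lit 43212, nat_lit 42888, nat_lit 42672, nat_lit 42708, nat_lit 42744, nat_lit 42720, nat_lit 42732, nat_lit 42724] (nat_lit 2) [nat_lit 23044] false,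
   Spec.mk (nat_lit 42732) (nat_lit 0) [nat_lit 29610, nat_lit 47106, nat_lit 41274, nat_lit 44190, nat_lit 42246, nat_lit 43218, nat_lit 42894, nat_lit 42678, nat_lit 42750, nat_lit 42726] (nat_lit 2) [nat_lit 23050] false,
   Spec.mk (nat_lit 42742) (nat_lit 0) [nat_lit 29620, nat_lit 47116, nat_lit 41284, nat_lit 44200, nat_lit 42256, nat_lit 43228, nat_lit 42904, nat_lit 42724, nat_lit 42744] (nat_lit 0) [nat_lit 23060] false,
   Spec.mk (nat_lit 42744) (nat_lit 0) [nat_lit 29622, nat_lit 47118, nat_lit 41286, nat_lit 44202, nat_lit 42258, nat_lit 43230, nat_lit 42906, nat_lit 42726, nat_lit 42750, nat_lit 42742] (nat_lit 2) [nat_lit 23062] false,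
   Spec.mk (nat_lit 42750) (nat_lit 0) [nat_lit 29628, nat_lit 47124, nat_lit 41292, nat_lit 44208, nat_lit 42264, nat_lit 43236, nat_lit 42912, nat_lit 42732, nat_lit 42744] (nat_lit 0) [nat_lit 23068] false,
   Spec.mk (nat_lit 42776) (nat_lit 1) [nat_lit 29654, nat_lit 47150, nat_lit 41318, nat_lit 44234, nat_lit 43262, nat_lit 42614, nat_lit 42782] (nat_lit 0) [] false,
   Spec.mk (nat_lit 42782) (nat_lit 0) [nat_lit 29660, nat_lit 47156, nat_lit 41324, nat_lit 44240, nat_lit 43268, nat_lit 42620, nat_lit 42800, nat_lit 42776, nat_lit 42788, nat_lit 42784] (nat_lit 0) [] false,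
   Spec.mk (nat_lit 42784) (nat_lit 0) [nat_lit 29662, nat_lit 47158, nat_lit 41326, nat_lit 44242, nat_lit 43270, nat_lit 42622, nat_lit 42802, nat_lit 42790, nat_lit 42782] (nat_lit 1) [nat_lit 23102] false,
   Spec.mk (nat_lit 42788) (nat_lit 0) [nat_lit 29666, nat_lit 47162, nat_lit 41330, nat_lit 44246, nat_lit 43274, nat_lit 42626, nat_lit 42806, nat_lit 42782, nat_lit 42790] (nat_lit 3) [] false,
   Spec.mk (nat_lit 42790) (nat_lit 0) [nat_lit 29668, nat_lit 47164, nat_lit 41332, nat_lit 44248, nat_lit 43276, nat_lit 42628, nat_lit 42808, nat_lit 42784, nat_lit 42788, nat_lit 42792] (nat_lit 2) [nat_lit 23108] false,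
   Spec.mk (nat_lit 42792) (nat_lit 0) [nat_lit 29670, nat_lit 47166, nat_lit 41334, nat_lit 44250, nat_lit 43278, nat_lit 42630, nat_lit 42810, nat_lit 42790] (nat_lit 3) [nat_lit 23110] false,
   Spec.mk (nat_lit 42800) (nat_lit 0) [nat_lit 29678, nat_lit 47174, nat_lit 41342, nat_lit 44258, nat_lit 43286, nat_lit 42638, nat_lit 42854, nat_lit 42782, nat_lit 42806, nat_lit 42802] (nat_lit 1) [] false,
   Spec.mk (nat_lit 42802) (nat_lit 0) [nat_lit 29680, nat_lit 47176, nat_lit 41344, nat_lit 44260, nat_lit 43288, nat_lit 42640, nat_lit 42856, nat_lit 42784, nat_lit 42808, nat_lit 42800] (nat_lit 3) [nat_lit 23120] false,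
   Spec.mk (nat_lit 42806) (nat_lit 0) [nat_lit 29684, nat_lit 47180, nat_lit 41348, nat_lit 44264, nat_lit 43292, nat_lit 42644, nat_lit 42860, nat_lit 42788, nat_lit 42824, nat_lit 42800, nat_lit 42808] (nat_lit 2) [] false,
   Spec.mk (nat_lit 42808) (nat_lit 0) [nat_lit 29686, nat_lit 47182, nat_lit 41350, nat_lit 44266, nat_lit 43294, nat_lit 42646, nat_lit 42862, nat_lit 42790, nat_lit 42826, nat_lit 42802, nat_lit 42814, nat_lit 42806, nat_lit 42810] (nat_lit 2) [nat_lit 23126] false,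
   Spec.mk (nat_lit 42810) (nat_lit 0) [nat_lit 29688, nat_lit 47184, nat_lit 41352, nat_lit 44268, nat_lit 43296, nat_lit 42648, nat_lit 42864, nat_lit 42792, nat_lit 42828, nat_lit 42816, nat_lit 42808] (nat_lit 4) [nat_lit 23128] false,
   Spec.mk (nat_lit 42814) (nat_lit 0) [nat_lit 29692, nat_lit 47188, nat_lit 41356, nat_lit 44272, nat_lit 43300, nat_lit 42652, nat_lit 42868, nat_lit 42832, nat_lit 42808, nat_lit 42816] (nat_lit 3) [nat_lit 23132] false,
   Spec.mk (nat_lit 42816) (nat_lit 0) [nat_lit 29694, nat_lit 47190, nat_lit 41358, nat_lit 44274, nat_lit 43302, nat_lit 42654, nat_lit 42870, nat_lit 42834, nat_lit 42810, nat_lit 42814] (nat_lit 3) [nat_lit 23134] false,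
   Spec.mk (nat_lit 42824) (nat_lit 0) [nat_lit 29702, nat_lit 47198, nat_lit 41366, nat_lit 44282, nat_lit 43310, nat_lit 42662, nat_lit 42878, nat_lit 42806, nat_lit 42826] (nat_lit 3) [] false,
   Spec.mk (nat_lit 42826) (nat_lit 0) [nat_lit 29704, nat_lit 47200, nat_lit 41368, nat_lit 44284, nat_lit 43312, nat_lit 42664, nat_lit 42880, nat_lit 42808, nat_lit 42832, nat_lit 42824, nat_lit 42828] (nat_lit 4) [nat_lit 23144] false,
   Spec.mk (nat_lit 42828) (nat_lit 0) [nat_lit 29706, nat_lit 47202, nat_lit 41370, nat_lit 44286, nat_lit 43314, nat_lit 42666, nat_lit 42882, nat_lit 42810, nat_lit 42834, nat_lit 42826] (nat_lit 7) [nat_lit 23146] false,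
   Spec.mk (nat_lit 42832) (nat_lit 0) [nat_lit 29710, nat_lit 47206, nat_lit 41374, nat_lit 44290, nat_lit 43318, nat_lit 42670, nat_lit 42886, nat_lit 42814, nat_lit 42826, nat_lit 42834] (nat_lit 3) [nat_lit 23150] false,
   Spec.mk (nat_lit 42834) (nat_lit 0) [nat_lit 29712, nat_lit 47208, nat_lit 41376, nat_lit 44292, nat_lit 43320, nat_lit 42672, nat_lit 42888, nat_lit 42816, nat_lit 42828, nat_lit 42840, nat_lit 42832] (nat_lit 4) [nat_lit 23152] false,
   Spec.mk (nat_lit 42840) (nat_lit 0) [nat_lit 29718, nat_lit 47214, nat_lit 41382, nat_lit 44298, nat_lit 43326, nat_lit 42678, nat_lit 42894, nat_lit 42834] (nat_lit 3) [nat_lit 23158] false,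
   Spec.mk (nat_lit 42854) (nat_lit 1) [nat_lit 29732, nat_lit 47228, nat_lit 41396, nat_lit 44312, nat_lit 43340, nat_lit 42692, nat_lit 42800, nat_lit 42860, nat_lit 42856] (nat_lit 0) [] false,
   Spec.mk (nat_lit 42856) (nat_lit 0) [nat_lit 29734, nat_lit 47230, nat_lit 41398, nat_lit 44314, nat_lit 43342, nat_lit 42694, nat_lit 42802, nat_lit 42862, nat_lit 42854] (nat_lit 1) [nat_lit 23174] false,
   Spec.mk (nat_lit 42860) (nat_lit 0) [nat_lit 29738, nat_lit 47234, nat_lit 41402, nat_lit 44318, nat_lit 43346, nat_lit 42698, nat_lit 42806, nat_lit 42878, nat_lit 42854, nat_lit 42862] (nat_lit 1) [] false,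
   Spec.mk (nat_lit 42862) (nat_lit 0) [nat_lit 29740, nat_lit 47236, nat_lit 41404, nat_lit 44320, nat_lit 43348, nat_lit 42700, nat_lit 42808, nat_lit 42880, nat_lit 42856, nat_lit 42868, nat_lit 42860, nat_lit 42864] (nat_lit 1) [nat_lit 23180] false,
   Spec.mk (nat_lit 42864) (nat_lit 0) [nat_lit 29742, nat_lit 47238, nat_lit 41406, nat_lit 44322, nat_lit 43350, nat_lit 42702, nat_lit 42810, nat_lit 42882, nat_lit 42870, nat_lit 42862] (nat_lit 3) [nat_lit 23182] false,
   Spec.mk (nat_lit 42868) (nat_lit 0) [nat_lit 29746, nat_lit 47242, nat_lit 41410, nat_lit 44326, nat_lit 43354, nat_lit 42706, nat_lit 42814, nat_lit 42886, nat_lit 42862, nat_lit 42870] (nat_lit 3) [nat_lit 23186] false,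
   Spec.mk (nat_lit 42870) (nat_lit 0) [nat_lit 29748, nat_lit 47244, nat_lit 41412, nat_lit 44328, nat_lit 43356, nat_lit 42708, nat_lit 42816, nat_lit 42888, nat_lit 42864, nat_lit 42868] (nat_lit 3) [nat_lit 23188] false,
   Spec.mk (nat_lit 42878) (nat_lit 0) [nat_lit 29756, nat_lit 47252, nat_lit 41420, nat_lit 44336, nat_lit 43364, nat_lit 42716, nat_lit 42824, nat_lit 42932, nat_lit 42860, nat_lit 42880] (nat_lit 0) [] false,
   Spec.mk (nat_lit 42880) (nat_lit 0) [nat_lit 29758, nat_lit 47254, nat_lit 41422, nat_lit 44338, nat_lit 43366, nat_lit 42718, nat_lit 42826, nat_lit 42934, nat_lit 42862, nat_lit 42886, nat_lit 42878, nat_lit 42882] (nat_lit 1) [nat_lit 23198] false,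
   Spec.mk (nat_lit 42882) (nat_lit 0) [nat_lit 29760, nat_lit 47256, nat_lit 41424, nat_lit 44340, nat_lit 43368, nat_lit 42720, nat_lit 42828, nat_lit 42936, nat_lit 42864, nat_lit 42888, nat_lit 42880] (nat_lit 4) [nat_lit 23200] false,
   Spec.mk (nat_lit 42886) (nat_lit 0) [nat_lit 29764, nat_lit 47260, nat_lit 41428, nat_lit 44344, nat_lit 43372, nat_lit 42724, nat_lit 42832, nat_lit 42940, nat_lit 42868, nat_lit 42904, nat_lit 42880, nat_lit 42888] (nat_lit 1) [nat_lit 23204] false,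
   Spec.mk (nat_lit 42888) (nat_lit 0) [nat_lit 29766, nat_lit 47262, nat_lit 41430, nat_lit 44346, nat_lit 43374, nat_lit 42726, nat_lit 42834, nat_lit 42942, nat_lit 42870, nat_lit 42906, nat_lit 42882, nat_lit 42894, nat_lit 42886] (nat_lit 2) [nat_lit 23206] false,
   Spec.mk (nat_lit 42894) (nat_lit 0) [nat_lit 29772, nat_lit 47268, nat_lit 41436, nat_lit 44352, nat_lit 43380, nat_lit 42732, nat_lit 42840, nat_lit 42948, nat_lit 42912, nat_lit 42888] (nat_lit 2) [nat_lit 23212] false,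
   Spec.mk (nat_lit 42904) (nat_lit 0) [nat_lit 29782, nat_lit 47278, nat_lit 41446, nat_lit 44362, nat_lit 43390, nat_lit 42742, nat_lit 42958, nat_lit 42886, nat_lit 42906] (nat_lit 1) [nat_lit 23222] false,
   Spec.mk (nat_lit 42906) (nat_lit 0) [nat_lit 29784, nat_lit 47280, nat_lit 41448, nat_lit 44364, nat_lit 43392, nat_lit 42744, nat_lit 42960, nat_lit 42888, nat_lit 42912, nat_lit 42904] (nat_lit 3) [nat_lit 23224] false,
   Spec.mk (nat_lit 42912) (nat_lit 0) [nat_lit 29790, nat_lit 47286, nat_lit 41454, nat_lit 44370, nat_lit 43398, nat_lit 42750, nat_lit 42966, nat_lit 42894, nat_lit 42906] (nat_lit 1) [nat_lit 23230] false]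

noncomputable def sp111 : List Spec :=
  [Spec.mk (nat_lit 42932) (nat_lit 1) [nat_lit 29810, nat_lit 47306, nat_lit 41474, nat_lit 44390, nat_lit 43418, nat_lit 42878, nat_lit 42934] (nat_lit 0) [] false,
   Spec.mk (nat_lit 42934) (nat_lit 0) [nat_lit 29812, nat_lit 47308, nat_lit 41476, nat_lit 44392, nat_lit 43420, nat_lit 42880, nat_lit 42940, nat_lit 42932, nat_lit 42936] (nat_lit 0) [nat_lit 23252] false,
   Spec.mk (nat_lit 42936) (nat_lit 0) [nat_lit 29814, nat_lit 47310, nat_lit 41478, nat_lit 44394, nat_lit 43422, nat_lit 42882, nat_lit 42942, nat_lit 42934] (nat_lit 3) [nat_lit 23254] false,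
   Spec.mk (nat_lit 42940) (nat_lit 0) [nat_lit 29818, nat_lit 47314, nat_lit 41482, nat_lit 44398, nat_lit 43426, nat_lit 42886, nat_lit 42958, nat_lit 42934, nat_lit 42942] (nat_lit 1) [nat_lit 23258] false,
   Spec.mk (nat_lit 42942) (nat_lit 0) [nat_lit 29820, nat_lit 47316, nat_lit 41484, nat_lit 44400, nat_lit 43428, nat_lit 42888, nat_lit 42960, nat_lit 42936, nat_lit 42948, nat_lit 42940] (nat_lit 2) [nat_lit 23260] false,
   Spec.mk (nat_lit 42948) (nat_lit 0) [nat_lit 29826, nat_lit 47322, nat_lit 41490, nat_lit 44406, nat_lit 43434, nat_lit 42894, nat_lit 42966, nat_lit 42942] (nat_lit 3) [nat_lit 23266] false,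
   Spec.mk (nat_lit 42958) (nat_lit 1) [nat_lit 29836, nat_lit 47332, nat_lit 41500, nat_lit 44416, nat_lit 43444, nat_lit 42904, nat_lit 42940, nat_lit 42960] (nat_lit 0) [nat_lit 23276] false,
   Spec.mk (nat_lit 42960) (nat_lit 0) [nat_lit 29838, nat_lit 47334, nat_lit 41502, nat_lit 44418, nat_lit 43446, nat_lit 42906, nat_lit 42942, nat_lit 42966, nat_lit 42958] (nat_lit 1) [nat_lit 23278] false,
   Spec.mk (nat_lit 42966) (nat_lit 0) [nat_lit 29844, nat_lit 47340, nat_lit 41508, nat_lit 44424, nat_lit 43452, nat_lit 42912, nat_lit 42948, nat_lit 42984, nat_lit 42960] (nat_lit 0) [nat_lit 23284] false,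
   Spec.mk (nat_lit 42984) (nat_lit 1) [nat_lit 29862, nat_lit 47358, nat_lit 41526, nat_lit 44442, nat_lit 43470, nat_lit 42966] (nat_lit 0) [nat_lit 23302] false,
   Spec.mk (nat_lit 43028) (nat_lit 2) [nat_lit 29906, nat_lit 47402, nat_lit 44486, nat_lit 42542, nat_lit 43046, nat_lit 43034] (nat_lit 0) [] false,
   Spec.mk (nat_lit 43034) (nat_lit 0) [nat_lit 29912, nat_lit 47408, nat_lit 44492, nat_lit 42548, nat_lit 43052, nat_lit 43028, nat_lit 43036] (nat_lit 0) [] false,
   Spec.mk (nat_lit 43036) (nat_lit 0) [nat_lit 29914, nat_lit 47410, nat_lit 44494, nat_lit 42550, nat_lit 43054, nat_lit 43034] (nat_lit 0) [nat_lit 23354] false,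
   Spec.mk (nat_lit 43046) (nat_lit 0) [nat_lit 29924, nat_lit 47420, nat_lit 44504, nat_lit 42560, nat_lit 43100, nat_lit 43028, nat_lit 43052] (nat_lit 0) [] false,
   Spec.mk (nat_lit 43052) (nat_lit 0) [nat_lit 29930, nat_lit 47426, nat_lit 44510, nat_lit 42566, nat_lit 43106, nat_lit 43034, nat_lit 43070, nat_lit 43046, nat_lit 43058, nat_lit 43054] (nat_lit 0) [] false,
   Spec.mk (nat_lit 43054) (nat_lit 0) [nat_lit 29932, nat_lit 47428, nat_lit 44512, nat_lit 42568, nat_lit 43108, nat_lit 43036, nat_lit 43072, nat_lit 43060, nat_lit 43052] (nat_lit 1) [nat_lit 23372] false,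
   Spec.mk (nat_lit 43058) (nat_lit 0) [nat_lit 29936, nat_lit 47432, nat_lit 44516, nat_lit 42572, nat_lit 43112, nat_lit 43076, nat_lit 43052, nat_lit 43060] (nat_lit 2) [] false,
   Spec.mk (nat_lit 43060) (nat_lit 0) [nat_lit 29938, nat_lit 47434, nat_lit 44518, nat_lit 42574, nat_lit 43114, nat_lit 43078, nat_lit 43054, nat_lit 43058, nat_lit 43062] (nat_lit 1) [nat_lit 23378] false,
   Spec.mk (nat_lit 43062) (nat_lit 0) [nat_lit 29940, nat_lit 47436, nat_lit 44520, nat_lit 42576, nat_lit 43116, nat_lit 43080, nat_lit 43060] (nat_lit 2) [nat_lit 23380] false,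
   Spec.mk (nat_lit 43070) (nat_lit 0) [nat_lit 29948, nat_lit 47444, nat_lit 44528, nat_lit 42584, nat_lit 43124, nat_lit 43052, nat_lit 43076, nat_lit 43072] (nat_lit 2) [] false,
   Spec.mk (nat_lit 43072) (nat_lit 0) [nat_lit 29950, nat_lit 47446, nat_lit 44530, nat_lit 42586, nat_lit 43126, nat_lit 43054, nat_lit 43078, nat_lit 43070] (nat_lit 4) [nat_lit 23390] false,
   Spec.mk (nat_lit 43076) (nat_lit 0) [nat_lit 29954, nat_lit 47450, nat_lit 44534, nat_lit 42590, nat_lit 43130, nat_lit 43058, nat_lit 43070, nat_lit 43078] (nat_lit 2) [] false,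
   Spec.mk (nat_lit 43078) (nat_lit 0) [nat_lit 29956, nat_lit 47452, nat_lit 44536, nat_lit 42592, nat_lit 43132, nat_lit 43060, nat_lit 43072, nat_lit 43084, nat_lit 43076, nat_lit 43080] (nat_lit 2) [nat_lit 23396] false,
   Spec.mk (nat_lit 43080) (nat_lit 0) [nat_lit 29958, nat_lit 47454, nat_lit 44538, nat_lit 42594, nat_lit 43134, nat_lit 43062, nat_lit 43086, nat_lit 43078] (nat_lit 4) [nat_lit 23398] false,
   Spec.mk (nat_lit 43084) (nat_lit 0) [nat_lit 29962, nat_lit 47458, nat_lit 44542, nat_lit 42598, nat_lit 43138, nat_lit 43078, nat_lit 43086] (nat_lit 2) [nat_lit 23402] false,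
   Spec.mk (nat_lit 43086) (nat_lit 0) [nat_lit 29964, nat_lit 47460, nat_lit 44544, nat_lit 42600, nat_lit 43140, nat_lit 43080, nat_lit 43084] (nat_lit 2) [nat_lit 23404] false,
   Spec.mk (nat_lit 43100) (nat_lit 0) [nat_lit 29978, nat_lit 47474, nat_lit 44558, nat_lit 42614, nat_lit 43262, nat_lit 43046, nat_lit 43106] (nat_lit 0) [] false,
   Spec.mk (nat_lit 43106) (nat_lit 0) [nat_lit 29984, nat_lit 47480, nat_lit 44564, nat_lit 42620, nat_lit 43268, nat_lit 43052, nat_lit 43124, nat_lit 43100, nat_lit 43112, nat_lit 43108] (nat_lit 1) [] false,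
   Spec.mk (nat_lit 43108) (nat_lit 0) [nat_lit 29986, nat_lit 47482, nat_lit 44566, nat_lit 42622, nat_lit 43270, nat_lit 43054, nat_lit 43126, nat_lit 43114, nat_lit 43106] (nat_lit 2) [nat_lit 23426] false,
   Spec.mk (nat_lit 43112) (nat_lit 0) [nat_lit 29990, nat_lit 47486, nat_lit 44570, nat_lit 42626, nat_lit 43274, nat_lit 43058, nat_lit 43130, nat_lit 43106, nat_lit 43114] (nat_lit 4) [] false,
   Spec.mk (nat_lit 43114) (nat_lit 0) [nat_lit 29992, nat_lit 47488, nat_lit 44572, nat_lit 42628, nat_lit 43276, nat_lit 43060, nat_lit 43132, nat_lit 43108, nat_lit 43112, nat_lit 43116] (nat_lit 3) [nat_lit 23432] false,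
   Spec.mk (nat_lit 43116) (nat_lit 0) [nat_lit 29994, nat_lit 47490, nat_lit 44574, nat_lit 42630, nat_lit 43278, nat_lit 43062, nat_lit 43134, nat_lit 43114] (nat_lit 4) [nat_lit 23434] false,
   Spec.mk (nat_lit 43124) (nat_lit 0) [nat_lit 30002, nat_lit 47498, nat_lit 44582, nat_lit 42638, nat_lit 43286, nat_lit 43070, nat_lit 43178, nat_lit 43106, nat_lit 43130, nat_lit 43126] (nat_lit 1) [] false,
   Spec.mk (nat_lit 43126) (nat_lit 0) [nat_lit 30004, nat_lit 47500, nat_lit 44584, nat_lit 42640, nat_lit 43288, nat_lit 43072, nat_lit 43180, nat_lit 43108, nat_lit 43132, nat_lit 43124] (nat_lit 3) [nat_lit 23444] false,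
   Spec.mk (nat_lit 43130) (nat_lit 0) [nat_lit 30008, nat_lit 47504, nat_lit 44588, nat_lit 42644, nat_lit 43292, nat_lit 43076, nat_lit 43184, nat_lit 43112, nat_lit 43148, nat_lit 43124, nat_lit 43132] (nat_lit 2) [] false,
   Spec.mk (nat_lit 43132) (nat_lit 0) [nat_lit 30010, nat_lit 47506, nat_lit 44590, nat_lit 42646, nat_lit 43294, nat_lit 43078, nat_lit 43186, nat_lit 43114, nat_lit 43150, nat_lit 43126, nat_lit 43138, nat_lit 43130, nat_lit 43134] (nat_lit 2) [nat_lit 23450] false,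
   Spec.mk (nat_lit 43134) (nat_lit 0) [nat_lit 30012, nat_lit 47508, nat_lit 44592, nat_lit 42648, nat_lit 43296, nat_lit 43080, nat_lit 43188, nat_lit 43116, nat_lit 43152, nat_lit 43140, nat_lit 43132] (nat_lit 4) [nat_lit 23452] false,
   Spec.mk (nat_lit 43138) (nat_lit 0) [nat_lit 30016, nat_lit 47512, nat_lit 44596, nat_lit 42652, nat_lit 43300, nat_lit 43084, nat_lit 43192, nat_lit 43156, nat_lit 43132, nat_lit 43140] (nat_lit 3) [nat_lit 23456] false,
   Spec.mk (nat_lit 43140) (nat_lit 0) [nat_lit 30018, nat_lit 47514, nat_lit 44598, nat_lit 42654, nat_lit 43302, nat_lit 43086, nat_lit 43194, nat_lit 43158, nat_lit 43134, nat_lit 43138] (nat_lit 3) [nat_lit 23458] false,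
   Spec.mk (nat_lit 43148) (nat_lit 0) [nat_lit 30026, nat_lit 47522, nat_lit 44606, nat_lit 42662, nat_lit 43310, nat_lit 43202, nat_lit 43130, nat_lit 43150] (nat_lit 2) [] false,
   Spec.mk (nat_lit 43150) (nat_lit 0) [nat_lit 30028, nat_lit 47524, nat_lit 44608, nat_lit 42664, nat_lit 43312, nat_lit 43204, nat_lit 43132, nat_lit 43156, nat_lit 43148, nat_lit 43152] (nat_lit 3) [nat_lit 23468] false,
   Spec.mk (nat_lit 43152) (nat_lit 0) [nat_lit 30030, nat_lit 47526, nat_lit 44610, nat_lit 42666, nat_lit 43314, nat_lit 43206, nat_lit 43134, nat_lit 43158, nat_lit 43150] (nat_lit 6) [nat_lit 23470] false,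
   Spec.mk (nat_lit 43156) (nat_lit 0) [nat_lit 30034, nat_lit 47530, nat_lit 44614, nat_lit 42670, nat_lit 43318, nat_lit 43210, nat_lit 43138, nat_lit 43150, nat_lit 43158] (nat_lit 2) [nat_lit 23474] false,
   Spec.mk (nat_lit 43158) (nat_lit 0) [nat_lit 30036, nat_lit 47532, nat_lit 44616, nat_lit 42672, nat_lit 43320, nat_lit 43212, nat_lit 43140, nat_lit 43152, nat_lit 43164, nat_lit 43156] (nat_lit 3) [nat_lit 23476] false,
   Spec.mk (nat_lit 43164) (nat_lit 0) [nat_lit 30042, nat_lit 47538, nat_lit 44622, nat_lit 42678, nat_lit 43326, nat_lit 43218, nat_lit 43158] (nat_lit 2) [nat_lit 23482] false,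
   Spec.mk (nat_lit 43178) (nat_lit 0) [nat_lit 30056, nat_lit 47552, nat_lit 44636, nat_lit 42692, nat_lit 43340, nat_lit 43124, nat_lit 43184, nat_lit 43180] (nat_lit 2) [] false,
   Spec.mk (nat_lit 43180) (nat_lit 0) [nat_lit 30058, nat_lit 47554, nat_lit 44638, nat_lit 42694, nat_lit 43342, nat_lit 43126, nat_lit 43186, nat_lit 43178] (nat_lit 4) [nat_lit 23498] false,
   Spec.mk (nat_lit 43184) (nat_lit 0) [nat_lit 30062, nat_lit 47558, nat_lit 44642, nat_lit 42698, nat_lit 43346, nat_lit 43130, nat_lit 43202, nat_lit 43178, nat_lit 43186] (nat_lit 4) [] false,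
   Spec.mk (nat_lit 43186) (nat_lit 0) [nat_lit 30064, nat_lit 47560, nat_lit 44644, nat_lit 42700, nat_lit 43348, nat_lit 43132, nat_lit 43204, nat_lit 43180, nat_lit 43192, nat_lit 43184, nat_lit 43188] (nat_lit 4) [nat_lit 23504] false,
   Spec.mk (nat_lit 43188) (nat_lit 0) [nat_lit 30066, nat_lit 47562, nat_lit 44646, nat_lit 42702, nat_lit 43350, nat_lit 43134, nat_lit 43206, nat_lit 43194, nat_lit 43186] (nat_lit 6) [nat_lit 23506] false,
   Spec.mk (nat_lit 43192) (nat_lit 0) [nat_lit 30070, nat_lit 47566, nat_lit 44650, nat_lit 42706, nat_lit 43354, nat_lit 43138, nat_lit 43210, nat_lit 43186, nat_lit 43194] (nat_lit 6) [nat_lit 23510] false,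
   Spec.mk (nat_lit 43194) (nat_lit 0) [nat_lit 30072, nat_lit 47568, nat_lit 44652, nat_lit 42708, nat_lit 43356, nat_lit 43140, nat_lit 43212, nat_lit 43188, nat_lit 43192] (nat_lit 6) [nat_lit 23512] false,
   Spec.mk (nat_lit 43202) (nat_lit 0) [nat_lit 30080, nat_lit 47576, nat_lit 44660, nat_lit 42716, nat_lit 43364, nat_lit 43148, nat_lit 43184, nat_lit 43204] (nat_lit 2) [] false,
   Spec.mk (nat_lit 43204) (nat_lit 0) [nat_lit 30082, nat_lit 47578, nat_lit 44662, nat_lit 42718, nat_lit 43366, nat_lit 43150, nat_lit 43186, nat_lit 43210, nat_lit 43202, nat_lit 43206] (nat_lit 3) [nat_lit 23522] false,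
   Spec.mk (nat_lit 43206) (nat_lit 0) [nat_lit 30084, nat_lit 47580, nat_lit 44664, nat_lit 42720, nat_lit 43368, nat_lit 43152, nat_lit 43188, nat_lit 43212, nat_lit 43204] (nat_lit 6) [nat_lit 23524] false,
   Spec.mk (nat_lit 43210) (nat_lit 0) [nat_lit 30088, nat_lit 47584, nat_lit 44668, nat_lit 42724, nat_lit 43372, nat_lit 43156, nat_lit 43192, nat_lit 43228, nat_lit 43204, nat_lit 43212] (nat_lit 3) [nat_lit 23528] false,
   Spec.mk (nat_lit 43212) (nat_lit 0) [nat_lit 30090, nat_lit 47586, nat_lit 44670, nat_lit 42726, nat_lit 43374, nat_lit 43158, nat_lit 43194, nat_lit 43230, nat_lit 43206, nat_lit 43218, nat_lit 43210] (nat_lit 4) [nat_lit 23530] false,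
   Spec.mk (nat_lit 43218) (nat_lit 0) [nat_lit 30096, nat_lit 47592, nat_lit 44676, nat_lit 42732, nat_lit 43380, nat_lit 43164, nat_lit 43236, nat_lit 43212] (nat_lit 4) [nat_lit 23536] false,
   Spec.mk (nat_lit 43228) (nat_lit 0) [nat_lit 30106, nat_lit 47602, nat_lit 44686, nat_lit 42742, nat_lit 43390, nat_lit 43210, nat_lit 43230] (nat_lit 2) [nat_lit 23546] false,
   Spec.mk (nat_lit 43230) (nat_lit 0) [nat_lit 30108, nat_lit 47604, nat_lit 44688, nat_lit 42744, nat_lit 43392, nat_lit 43212, nat_lit 43236, nat_lit 43228] (nat_lit 4) [nat_lit 23548] false]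

noncomputable def sp112 : List Spec :=
  [Spec.mk (nat_lit 43236) (nat_lit 0) [nat_lit 30114, nat_lit 47610, nat_lit 44694, nat_lit 42750, nat_lit 43398, nat_lit 43218, nat_lit 43230] (nat_lit 2) [nat_lit 23554] false,
   Spec.mk (nat_lit 43262) (nat_lit 2) [nat_lit 30140, nat_lit 47636, nat_lit 44720, nat_lit 42776, nat_lit 43100, nat_lit 43268] (nat_lit 0) [] false,
   Spec.mk (nat_lit 43268) (nat_lit 1) [nat_lit 30146, nat_lit 47642, nat_lit 44726, nat_lit 42782, nat_lit 43106, nat_lit 43286, nat_lit 43262, nat_lit 43274, nat_lit 43270] (nat_lit 0) [] false,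
   Spec.mk (nat_lit 43270) (nat_lit 0) [nat_lit 30148, nat_lit 47644, nat_lit 44728, nat_lit 42784, nat_lit 43108, nat_lit 43288, nat_lit 43276, nat_lit 43268] (nat_lit 0) [nat_lit 23588] false,
   Spec.mk (nat_lit 43274) (nat_lit 0) [nat_lit 30152, nat_lit 47648, nat_lit 44732, nat_lit 42788, nat_lit 43112, nat_lit 43292, nat_lit 43268, nat_lit 43276] (nat_lit 2) [] false,
   Spec.mk (nat_lit 43276) (nat_lit 0) [nat_lit 30154, nat_lit 47650, nat_lit 44734, nat_lit 42790, nat_lit 43114, nat_lit 43294, nat_lit 43270, nat_lit 43274, nat_lit 43278] (nat_lit 1) [nat_lit 23594] false,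
   Spec.mk (nat_lit 43278) (nat_lit 0) [nat_lit 30156, nat_lit 47652, nat_lit 44736, nat_lit 42792, nat_lit 43116, nat_lit 43296, nat_lit 43276] (nat_lit 2) [nat_lit 23596] false,
   Spec.mk (nat_lit 43286) (nat_lit 0) [nat_lit 30164, nat_lit 47660, nat_lit 44744, nat_lit 42800, nat_lit 43124, nat_lit 43340, nat_lit 43268, nat_lit 43292, nat_lit 43288] (nat_lit 0) [] false,
   Spec.mk (nat_lit 43288) (nat_lit 0) [nat_lit 30166, nat_lit 47662, nat_lit 44746, nat_lit 42802, nat_lit 43126, nat_lit 43342, nat_lit 43270, nat_lit 43294, nat_lit 43286] (nat_lit 2) [nat_lit 23606] false,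
   Spec.mk (nat_lit 43292) (nat_lit 0) [nat_lit 30170, nat_lit 47666, nat_lit 44750, nat_lit 42806, nat_lit 43130, nat_lit 43346, nat_lit 43274, nat_lit 43310, nat_lit 43286, nat_lit 43294] (nat_lit 1) [] false,
   Spec.mk (nat_lit 43294) (nat_lit 0) [nat_lit 30172, nat_lit 47668, nat_lit 44752, nat_lit 42808, nat_lit 43132, nat_lit 43348, nat_lit 43276, nat_lit 43312, nat_lit 43288, nat_lit 43300, nat_lit 43292, nat_lit 43296] (nat_lit 1) [nat_lit 23612] false,
   Spec.mk (nat_lit 43296) (nat_lit 0) [nat_lit 30174, nat_lit 47670, nat_lit 44754, nat_lit 42810, nat_lit 43134, nat_lit 43350, nat_lit 43278, nat_lit 43314, nat_lit 43302, nat_lit 43294] (nat_lit 3) [nat_lit 23614] false,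
   Spec.mk (nat_lit 43300) (nat_lit 0) [nat_lit 30178, nat_lit 47674, nat_lit 44758, nat_lit 42814, nat_lit 43138, nat_lit 43354, nat_lit 43318, nat_lit 43294, nat_lit 43302] (nat_lit 2) [nat_lit 23618] false,
   Spec.mk (nat_lit 43302) (nat_lit 0) [nat_lit 30180, nat_lit 47676, nat_lit 44760, nat_lit 42816, nat_lit 43140, nat_lit 43356, nat_lit 43320, nat_lit 43296, nat_lit 43300] (nat_lit 2) [nat_lit 23620] false,
   Spec.mk (nat_lit 43310) (nat_lit 0) [nat_lit 30188, nat_lit 47684, nat_lit 44768, nat_lit 42824, nat_lit 43148, nat_lit 43364, nat_lit 43292, nat_lit 43312] (nat_lit 2) [] false,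
   Spec.mk (nat_lit 43312) (nat_lit 0) [nat_lit 30190, nat_lit 47686, nat_lit 44770, nat_lit 42826, nat_lit 43150, nat_lit 43366, nat_lit 43294, nat_lit 43318, nat_lit 43310, nat_lit 43314] (nat_lit 3) [nat_lit 23630] false,
   Spec.mk (nat_lit 43314) (nat_lit 0) [nat_lit 30192, nat_lit 47688, nat_lit 44772, nat_lit 42828, nat_lit 43152, nat_lit 43368, nat_lit 43296, nat_lit 43320, nat_lit 43312] (nat_lit 6) [nat_lit 23632] false,
   Spec.mk (nat_lit 43318) (nat_lit 0) [nat_lit 30196, nat_lit 47692, nat_lit 44776, nat_lit 42832, nat_lit 43156, nat_lit 43372, nat_lit 43300, nat_lit 43312, nat_lit 43320] (nat_lit 2) [nat_lit 23636] false,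
   Spec.mk (nat_lit 43320) (nat_lit 0) [nat_lit 30198, nat_lit 47694, nat_lit 44778, nat_lit 42834, nat_lit 43158, nat_lit 43374, nat_lit 43302, nat_lit 43314, nat_lit 43326, nat_lit 43318] (nat_lit 3) [nat_lit 23638] false,
   Spec.mk (nat_lit 43326) (nat_lit 0) [nat_lit 30204, nat_lit 47700, nat_lit 44784, nat_lit 42840, nat_lit 43164, nat_lit 43380, nat_lit 43320] (nat_lit 2) [nat_lit 23644] false,
   Spec.mk (nat_lit 43340) (nat_lit 1) [nat_lit 30218, nat_lit 47714, nat_lit 44798, nat_lit 42854, nat_lit 43178, nat_lit 43502, nat_lit 43286, nat_lit 43346, nat_lit 43342] (nat_lit 0) [] false,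
   Spec.mk (nat_lit 43342) (nat_lit 0) [nat_lit 30220, nat_lit 47716, nat_lit 44800, nat_lit 42856, nat_lit 43180, nat_lit 43504, nat_lit 43288, nat_lit 43348, nat_lit 43340] (nat_lit 1) [nat_lit 23660] false,
   Spec.mk (nat_lit 43346) (nat_lit 0) [nat_lit 30224, nat_lit 47720, nat_lit 44804, nat_lit 42860, nat_lit 43184, nat_lit 43508, nat_lit 43292, nat_lit 43364, nat_lit 43340, nat_lit 43348] (nat_lit 1) [] false,
   Spec.mk (nat_lit 43348) (nat_lit 0) [nat_lit 30226, nat_lit 47722, nat_lit 44806, nat_lit 42862, nat_lit 43186, nat_lit 43510, nat_lit 43294, nat_lit 43366, nat_lit 43342, nat_lit 43354, nat_lit 43346, nat_lit 43350] (nat_lit 1) [nat_lit 23666] false,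
   Spec.mk (nat_lit 43350) (nat_lit 0) [nat_lit 30228, nat_lit 47724, nat_lit 44808, nat_lit 42864, nat_lit 43188, nat_lit 43512, nat_lit 43296, nat_lit 43368, nat_lit 43356, nat_lit 43348] (nat_lit 3) [nat_lit 23668] false,
   Spec.mk (nat_lit 43354) (nat_lit 0) [nat_lit 30232, nat_lit 47728, nat_lit 44812, nat_lit 42868, nat_lit 43192, nat_lit 43516, nat_lit 43300, nat_lit 43372, nat_lit 43348, nat_lit 43356] (nat_lit 3) [nat_lit 23672] false,
   Spec.mk (nat_lit 43356) (nat_lit 0) [nat_lit 30234, nat_lit 47730, nat_lit 44814, nat_lit 42870, nat_lit 43194, nat_lit 43518, nat_lit 43302, nat_lit 43374, nat_lit 43350, nat_lit 43354] (nat_lit 3) [nat_lit 23674] false,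
   Spec.mk (nat_lit 43364) (nat_lit 0) [nat_lit 30242, nat_lit 47738, nat_lit 44822, nat_lit 42878, nat_lit 43202, nat_lit 43526, nat_lit 43310, nat_lit 43418, nat_lit 43346, nat_lit 43366] (nat_lit 0) [] false,
   Spec.mk (nat_lit 43366) (nat_lit 0) [nat_lit 30244, nat_lit 47740, nat_lit 44824, nat_lit 42880, nat_lit 43204, nat_lit 43528, nat_lit 43312, nat_lit 43420, nat_lit 43348, nat_lit 43372, nat_lit 43364, nat_lit 43368] (nat_lit 1) [nat_lit 23684] false,
   Spec.mk (nat_lit 43368) (nat_lit 0) [nat_lit 30246, nat_lit 47742, nat_lit 44826, nat_lit 42882, nat_lit 43206, nat_lit 43530, nat_lit 43314, nat_lit 43422, nat_lit 43350, nat_lit 43374, nat_lit 43366] (nat_lit 4) [nat_lit 23686] false,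
   Spec.mk (nat_lit 43372) (nat_lit 0) [nat_lit 30250, nat_lit 47746, nat_lit 44830, nat_lit 42886, nat_lit 43210, nat_lit 43534, nat_lit 43318, nat_lit 43426, nat_lit 43354, nat_lit 43390, nat_lit 43366, nat_lit 43374] (nat_lit 1) [nat_lit 23690] false,
   Spec.mk (nat_lit 43374) (nat_lit 0) [nat_lit 30252, nat_lit 47748, nat_lit 44832, nat_lit 42888, nat_lit 43212, nat_lit 43536, nat_lit 43320, nat_lit 43428, nat_lit 43356, nat_lit 43392, nat_lit 43368, nat_lit 43380, nat_lit 43372] (nat_lit 2) [nat_lit 23692] false,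
   Spec.mk (nat_lit 43380) (nat_lit 0) [nat_lit 30258, nat_lit 47754, nat_lit 44838, nat_lit 42894, nat_lit 43218, nat_lit 43542, nat_lit 43326, nat_lit 43434, nat_lit 43398, nat_lit 43374] (nat_lit 2) [nat_lit 23698] false,
   Spec.mk (nat_lit 43390) (nat_lit 0) [nat_lit 30268, nat_lit 47764, nat_lit 44848, nat_lit 42904, nat_lit 43228, nat_lit 43552, nat_lit 43444, nat_lit 43372, nat_lit 43392] (nat_lit 1) [nat_lit 23708] false,
   Spec.mk (nat_lit 43392) (nat_lit 0) [nat_lit 30270, nat_lit 47766, nat_lit 44850, nat_lit 42906, nat_lit 43230, nat_lit 43554, nat_lit 43446, nat_lit 43374, nat_lit 43398, nat_lit 43390] (nat_lit 3) [nat_lit 23710] false,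
   Spec.mk (nat_lit 43398) (nat_lit 0) [nat_lit 30276, nat_lit 47772, nat_lit 44856, nat_lit 42912, nat_lit 43236, nat_lit 43560, nat_lit 43452, nat_lit 43380, nat_lit 43392] (nat_lit 1) [nat_lit 23716] false,
   Spec.mk (nat_lit 43418) (nat_lit 0) [nat_lit 30296, nat_lit 47792, nat_lit 44876, nat_lit 42932, nat_lit 43580, nat_lit 43364, nat_lit 43420] (nat_lit 0) [] false,
   Spec.mk (nat_lit 43420) (nat_lit 0) [nat_lit 30298, nat_lit 47794, nat_lit 44878, nat_lit 42934, nat_lit 43582, nat_lit 43366, nat_lit 43426, nat_lit 43418, nat_lit 43422] (nat_lit 1) [nat_lit 23738] false,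
   Spec.mk (nat_lit 43422) (nat_lit 0) [nat_lit 30300, nat_lit 47796, nat_lit 44880, nat_lit 42936, nat_lit 43584, nat_lit 43368, nat_lit 43428, nat_lit 43420] (nat_lit 4) [nat_lit 23740] false,
   Spec.mk (nat_lit 43426) (nat_lit 0) [nat_lit 30304, nat_lit 47800, nat_lit 44884, nat_lit 42940, nat_lit 43588, nat_lit 43372, nat_lit 43444, nat_lit 43420, nat_lit 43428] (nat_lit 2) [nat_lit 23744] false,
   Spec.mk (nat_lit 43428) (nat_lit 0) [nat_lit 30306, nat_lit 47802, nat_lit 44886, nat_lit 42942, nat_lit 43590, nat_lit 43374, nat_lit 43446, nat_lit 43422, nat_lit 43434, nat_lit 43426] (nat_lit 3) [nat_lit 23746] false,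
   Spec.mk (nat_lit 43434) (nat_lit 0) [nat_lit 30312, nat_lit 47808, nat_lit 44892, nat_lit 42948, nat_lit 43596, nat_lit 43380, nat_lit 43452, nat_lit 43428] (nat_lit 4) [nat_lit 23752] false,
   Spec.mk (nat_lit 43444) (nat_lit 0) [nat_lit 30322, nat_lit 47818, nat_lit 44902, nat_lit 42958, nat_lit 43606, nat_lit 43390, nat_lit 43426, nat_lit 43446] (nat_lit 0) [nat_lit 23762] false,
   Spec.mk (nat_lit 43446) (nat_lit 0) [nat_lit 30324, nat_lit 47820, nat_lit 44904, nat_lit 42960, nat_lit 43608, nat_lit 43392, nat_lit 43428, nat_lit 43452, nat_lit 43444] (nat_lit 2) [nat_lit 23764] false,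
   Spec.mk (nat_lit 43452) (nat_lit 0) [nat_lit 30330, nat_lit 47826, nat_lit 44910, nat_lit 42966, nat_lit 43614, nat_lit 43398, nat_lit 43434, nat_lit 43470, nat_lit 43446] (nat_lit 1) [nat_lit 23770] false,
   Spec.mk (nat_lit 43470) (nat_lit 0) [nat_lit 30348, nat_lit 47844, nat_lit 44928, nat_lit 42984, nat_lit 43632, nat_lit 43452] (nat_lit 0) [nat_lit 23788] false,
   Spec.mk (nat_lit 43502) (nat_lit 2) [nat_lit 30380, nat_lit 47876, nat_lit 44960, nat_lit 43340, nat_lit 43508, nat_lit 43504] (nat_lit 0) [] false,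
   Spec.mk (nat_lit 43504) (nat_lit 0) [nat_lit 30382, nat_lit 47878, nat_lit 44962, nat_lit 43342, nat_lit 43510, nat_lit 43502] (nat_lit 0) [nat_lit 23822] false,
   Spec.mk (nat_lit 43508) (nat_lit 0) [nat_lit 30386, nat_lit 47882, nat_lit 44966, nat_lit 43346, nat_lit 43526, nat_lit 43502, nat_lit 43510] (nat_lit 0) [] false,
   Spec.mk (nat_lit 43510) (nat_lit 0) [nat_lit 30388, nat_lit 47884, nat_lit 44968, nat_lit 43348, nat_lit 43528, nat_lit 43504, nat_lit 43516, nat_lit 43508, nat_lit 43512] (nat_lit 0) [nat_lit 23828] false,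
   Spec.mk (nat_lit 43512) (nat_lit 0) [nat_lit 30390, nat_lit 47886, nat_lit 44970, nat_lit 43350, nat_lit 43530, nat_lit 43518, nat_lit 43510] (nat_lit 2) [nat_lit 23830] false,
   Spec.mk (nat_lit 43516) (nat_lit 0) [nat_lit 30394, nat_lit 47890, nat_lit 44974, nat_lit 43354, nat_lit 43534, nat_lit 43510, nat_lit 43518] (nat_lit 2) [nat_lit 23834] false,
   Spec.mk (nat_lit 43518) (nat_lit 0) [nat_lit 30396, nat_lit 47892, nat_lit 44976, nat_lit 43356, nat_lit 43536, nat_lit 43512, nat_lit 43516] (nat_lit 2) [nat_lit 23836] false,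
   Spec.mk (nat_lit 43526) (nat_lit 0) [nat_lit 30404, nat_lit 47900, nat_lit 44984, nat_lit 43364, nat_lit 43580, nat_lit 43508, nat_lit 43528] (nat_lit 0) [] false,
   Spec.mk (nat_lit 43528) (nat_lit 0) [nat_lit 30406, nat_lit 47902, nat_lit 44986, nat_lit 43366, nat_lit 43582, nat_lit 43510, nat_lit 43534, nat_lit 43526, nat_lit 43530] (nat_lit 1) [nat_lit 23846] false,
   Spec.mk (nat_lit 43530) (nat_lit 0) [nat_lit 30408, nat_lit 47904, nat_lit 44988, nat_lit 43368, nat_lit 43584, nat_lit 43512, nat_lit 43536, nat_lit 43528] (nat_lit 4) [nat_lit 23848] false,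
   Spec.mk (nat_lit 43534) (nat_lit 0) [nat_lit 30412, nat_lit 47908, nat_lit 44992, nat_lit 43372, nat_lit 43588, nat_lit 43516, nat_lit 43552, nat_lit 43528, nat_lit 43536] (nat_lit 1) [nat_lit 23852] false,
   Spec.mk (nat_lit 43536) (nat_lit 0) [nat_lit 30414, nat_lit 47910, nat_lit 44994, nat_lit 43374, nat_lit 43590, nat_lit 43518, nat_lit 43554, nat_lit 43530, nat_lit 43542, nat_lit 43534] (nat_lit 2) [nat_lit 23854] false,
   Spec.mk (nat_lit 43542) (nat_lit 0) [nat_lit 30420, nat_lit 47916, nat_lit 45000, nat_lit 43380, nat_lit 43596, nat_lit 43560, nat_lit 43536] (nat_lit 2) [nat_lit 23860] false,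
   Spec.mk (nat_lit 43552) (nat_lit 0) [nat_lit 30430, nat_lit 47926, nat_lit 45010, nat_lit 43390, nat_lit 43606, nat_lit 43534, nat_lit 43554] (nat_lit 2) [nat_lit 23870] false]

noncomputable def sp113 : List Spec :=
  [Spec.mk (nat_lit 43554) (nat_lit 0) [nat_lit 30432, nat_lit 47928, nat_lit 45012, nat_lit 43392, nat_lit 43608, nat_lit 43536, nat_lit 43560, nat_lit 43552] (nat_lit 4) [nat_lit 23872] false,
   Spec.mk (nat_lit 43560) (nat_lit 0) [nat_lit 30438, nat_lit 47934, nat_lit 45018, nat_lit 43398, nat_lit 43614, nat_lit 43542, nat_lit 43554] (nat_lit 2) [nat_lit 23878] false,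
   Spec.mk (nat_lit 43580) (nat_lit 2) [nat_lit 30458, nat_lit 47954, nat_lit 45038, nat_lit 43418, nat_lit 43526, nat_lit 43582] (nat_lit 0) [] false,
   Spec.mk (nat_lit 43582) (nat_lit 1) [nat_lit 30460, nat_lit 47956, nat_lit 45040, nat_lit 43420, nat_lit 43528, nat_lit 43588, nat_lit 43580, nat_lit 43584] (nat_lit 0) [nat_lit 23900] false,
   Spec.mk (nat_lit 43584) (nat_lit 0) [nat_lit 30462, nat_lit 47958, nat_lit 45042, nat_lit 43422, nat_lit 43530, nat_lit 43590, nat_lit 43582] (nat_lit 2) [nat_lit 23902] false,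
   Spec.mk (nat_lit 43588) (nat_lit 0) [nat_lit 30466, nat_lit 47962, nat_lit 45046, nat_lit 43426, nat_lit 43534, nat_lit 43606, nat_lit 43582, nat_lit 43590] (nat_lit 0) [nat_lit 23906] false,
   Spec.mk (nat_lit 43590) (nat_lit 0) [nat_lit 30468, nat_lit 47964, nat_lit 45048, nat_lit 43428, nat_lit 43536, nat_lit 43608, nat_lit 43584, nat_lit 43596, nat_lit 43588] (nat_lit 1) [nat_lit 23908] false,
   Spec.mk (nat_lit 43596) (nat_lit 0) [nat_lit 30474, nat_lit 47970, nat_lit 45054, nat_lit 43434, nat_lit 43542, nat_lit 43614, nat_lit 43590] (nat_lit 2) [nat_lit 23914] false,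
   Spec.mk (nat_lit 43606) (nat_lit 1) [nat_lit 30484, nat_lit 47980, nat_lit 45064, nat_lit 43444, nat_lit 43552, nat_lit 43660, nat_lit 43588, nat_lit 43608] (nat_lit 0) [nat_lit 23924] false,
   Spec.mk (nat_lit 43608) (nat_lit 0) [nat_lit 30486, nat_lit 47982, nat_lit 45066, nat_lit 43446, nat_lit 43554, nat_lit 43662, nat_lit 43590, nat_lit 43614, nat_lit 43606] (nat_lit 1) [nat_lit 23926] false,
   Spec.mk (nat_lit 43614) (nat_lit 0) [nat_lit 30492, nat_lit 47988, nat_lit 45072, nat_lit 43452, nat_lit 43560, nat_lit 43668, nat_lit 43596, nat_lit 43632, nat_lit 43608] (nat_lit 0) [nat_lit 23932] false,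
   Spec.mk (nat_lit 43632) (nat_lit 0) [nat_lit 30510, nat_lit 48006, nat_lit 45090, nat_lit 43470, nat_lit 43686, nat_lit 43614] (nat_lit 0) [nat_lit 23950] false,
   Spec.mk (nat_lit 43660) (nat_lit 2) [nat_lit 30538, nat_lit 48034, nat_lit 45118, nat_lit 43606, nat_lit 43662] (nat_lit 0) [nat_lit 23978] false,
   Spec.mk (nat_lit 43662) (nat_lit 0) [nat_lit 30540, nat_lit 48036, nat_lit 45120, nat_lit 43608, nat_lit 43668, nat_lit 43660] (nat_lit 0) [nat_lit 23980] false,
   Spec.mk (nat_lit 43668) (nat_lit 0) [nat_lit 30546, nat_lit 48042, nat_lit 45126, nat_lit 43614, nat_lit 43686, nat_lit 43662] (nat_lit 0) [nat_lit 23986] false,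
   Spec.mk (nat_lit 43686) (nat_lit 2) [nat_lit 30564, nat_lit 48060, nat_lit 45144, nat_lit 43632, nat_lit 43668] (nat_lit 0) [nat_lit 24004] false,
   Spec.mk (nat_lit 43766) (nat_lit 2) [nat_lit 30644, nat_lit 48140, nat_lit 42308, nat_lit 43784] (nat_lit 0) [] false,
   Spec.mk (nat_lit 43784) (nat_lit 1) [nat_lit 30662, nat_lit 48158, nat_lit 42326, nat_lit 43838, nat_lit 43766, nat_lit 43802, nat_lit 43790] (nat_lit 0) [] false,
   Spec.mk (nat_lit 43790) (nat_lit 0) [nat_lit 30668, nat_lit 48164, nat_lit 42332, nat_lit 43844, nat_lit 43808, nat_lit 43784, nat_lit 43792] (nat_lit 0) [] false,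
   Spec.mk (nat_lit 43792) (nat_lit 0) [nat_lit 30670, nat_lit 48166, nat_lit 42334, nat_lit 43846, nat_lit 43810, nat_lit 43790] (nat_lit 0) [nat_lit 24110] false,
   Spec.mk (nat_lit 43802) (nat_lit 0) [nat_lit 30680, nat_lit 48176, nat_lit 42344, nat_lit 43856, nat_lit 43784, nat_lit 43808] (nat_lit 2) [] false,
   Spec.mk (nat_lit 43808) (nat_lit 0) [nat_lit 30686, nat_lit 48182, nat_lit 42350, nat_lit 43862, nat_lit 43790, nat_lit 43802, nat_lit 43814, nat_lit 43810] (nat_lit 1) [] false,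
   Spec.mk (nat_lit 43810) (nat_lit 0) [nat_lit 30688, nat_lit 48184, nat_lit 42352, nat_lit 43864, nat_lit 43792, nat_lit 43816, nat_lit 43808] (nat_lit 2) [nat_lit 24128] false,
   Spec.mk (nat_lit 43814) (nat_lit 0) [nat_lit 30692, nat_lit 48188, nat_lit 42356, nat_lit 43868, nat_lit 43808, nat_lit 43816] (nat_lit 2) [] false,
   Spec.mk (nat_lit 43816) (nat_lit 0) [nat_lit 30694, nat_lit 48190, nat_lit 42358, nat_lit 43870, nat_lit 43810, nat_lit 43814, nat_lit 43818] (nat_lit 1) [nat_lit 24134] false,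
   Spec.mk (nat_lit 43818) (nat_lit 0) [nat_lit 30696, nat_lit 48192, nat_lit 42360, nat_lit 43872, nat_lit 43816] (nat_lit 2) [nat_lit 24136] false,
   Spec.mk (nat_lit 43838) (nat_lit 0) [nat_lit 30716, nat_lit 48212, nat_lit 42380, nat_lit 44000, nat_lit 43784, nat_lit 43856, nat_lit 43844] (nat_lit 0) [] false,
   Spec.mk (nat_lit 43844) (nat_lit 0) [nat_lit 30722, nat_lit 48218, nat_lit 42386, nat_lit 44006, nat_lit 43790, nat_lit 43862, nat_lit 43838, nat_lit 43846] (nat_lit 2) [] false,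
   Spec.mk (nat_lit 43846) (nat_lit 0) [nat_lit 30724, nat_lit 48220, nat_lit 42388, nat_lit 44008, nat_lit 43792, nat_lit 43864, nat_lit 43844] (nat_lit 2) [nat_lit 24164] false,
   Spec.mk (nat_lit 43856) (nat_lit 0) [nat_lit 30734, nat_lit 48230, nat_lit 42398, nat_lit 44018, nat_lit 43802, nat_lit 43910, nat_lit 43838, nat_lit 43862] (nat_lit 1) [] false,
   Spec.mk (nat_lit 43862) (nat_lit 0) [nat_lit 30740, nat_lit 48236, nat_lit 42404, nat_lit 44024, nat_lit 43808, nat_lit 43916, nat_lit 43844, nat_lit 43880, nat_lit 43856, nat_lit 43868, nat_lit 43864] (nat_lit 1) [] false,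
   Spec.mk (nat_lit 43864) (nat_lit 0) [nat_lit 30742, nat_lit 48238, nat_lit 42406, nat_lit 44026, nat_lit 43810, nat_lit 43918, nat_lit 43846, nat_lit 43882, nat_lit 43870, nat_lit 43862] (nat_lit 2) [nat_lit 24182] false,
   Spec.mk (nat_lit 43868) (nat_lit 0) [nat_lit 30746, nat_lit 48242, nat_lit 42410, nat_lit 44030, nat_lit 43814, nat_lit 43922, nat_lit 43886, nat_lit 43862, nat_lit 43870] (nat_lit 3) [] false,
   Spec.mk (nat_lit 43870) (nat_lit 0) [nat_lit 30748, nat_lit 48244, nat_lit 42412, nat_lit 44032, nat_lit 43816, nat_lit 43924, nat_lit 43888, nat_lit 43864, nat_lit 43868, nat_lit 43872] (nat_lit 2) [nat_lit 24188] false,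
   Spec.mk (nat_lit 43872) (nat_lit 0) [nat_lit 30750, nat_lit 48246, nat_lit 42414, nat_lit 44034, nat_lit 43818, nat_lit 43926, nat_lit 43890, nat_lit 43870] (nat_lit 3) [nat_lit 24190] false,
   Spec.mk (nat_lit 43880) (nat_lit 0) [nat_lit 30758, nat_lit 48254, nat_lit 42422, nat_lit 44042, nat_lit 43934, nat_lit 43862, nat_lit 43886, nat_lit 43882] (nat_lit 2) [] false,
   Spec.mk (nat_lit 43882) (nat_lit 0) [nat_lit 30760, nat_lit 48256, nat_lit 42424, nat_lit 44044, nat_lit 43936, nat_lit 43864, nat_lit 43888, nat_lit 43880] (nat_lit 4) [nat_lit 24200] false,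
   Spec.mk (nat_lit 43886) (nat_lit 0) [nat_lit 30764, nat_lit 48260, nat_lit 42428, nat_lit 44048, nat_lit 43940, nat_lit 43868, nat_lit 43880, nat_lit 43888] (nat_lit 2) [] false,
   Spec.mk (nat_lit 43888) (nat_lit 0) [nat_lit 30766, nat_lit 48262, nat_lit 42430, nat_lit 44050, nat_lit 43942, nat_lit 43870, nat_lit 43882, nat_lit 43894, nat_lit 43886, nat_lit 43890] (nat_lit 2) [nat_lit 24206] false,
   Spec.mk (nat_lit 43890) (nat_lit 0) [nat_lit 30768, nat_lit 48264, nat_lit 42432, nat_lit 44052, nat_lit 43944, nat_lit 43872, nat_lit 43896, nat_lit 43888] (nat_lit 4) [nat_lit 24208] false,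
   Spec.mk (nat_lit 43894) (nat_lit 0) [nat_lit 30772, nat_lit 48268, nat_lit 42436, nat_lit 44056, nat_lit 43948, nat_lit 43888, nat_lit 43896] (nat_lit 2) [nat_lit 24212] false,
   Spec.mk (nat_lit 43896) (nat_lit 0) [nat_lit 30774, nat_lit 48270, nat_lit 42438, nat_lit 44058, nat_lit 43950, nat_lit 43890, nat_lit 43894] (nat_lit 2) [nat_lit 24214] false,
   Spec.mk (nat_lit 43910) (nat_lit 0) [nat_lit 30788, nat_lit 48284, nat_lit 42452, nat_lit 44072, nat_lit 43856, nat_lit 43916] (nat_lit 2) [] false,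
   Spec.mk (nat_lit 43916) (nat_lit 0) [nat_lit 30794, nat_lit 48290, nat_lit 42458, nat_lit 44078, nat_lit 43862, nat_lit 43934, nat_lit 43910, nat_lit 43922, nat_lit 43918] (nat_lit 3) [] false,
   Spec.mk (nat_lit 43918) (nat_lit 0) [nat_lit 30796, nat_lit 48292, nat_lit 42460, nat_lit 44080, nat_lit 43864, nat_lit 43936, nat_lit 43924, nat_lit 43916] (nat_lit 4) [nat_lit 24236] false,
   Spec.mk (nat_lit 43922) (nat_lit 0) [nat_lit 30800, nat_lit 48296, nat_lit 42464, nat_lit 44084, nat_lit 43868, nat_lit 43940, nat_lit 43916, nat_lit 43924] (nat_lit 6) [] false,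
   Spec.mk (nat_lit 43924) (nat_lit 0) [nat_lit 30802, nat_lit 48298, nat_lit 42466, nat_lit 44086, nat_lit 43870, nat_lit 43942, nat_lit 43918, nat_lit 43922, nat_lit 43926] (nat_lit 5) [nat_lit 24242] false,
   Spec.mk (nat_lit 43926) (nat_lit 0) [nat_lit 30804, nat_lit 48300, nat_lit 42468, nat_lit 44088, nat_lit 43872, nat_lit 43944, nat_lit 43924] (nat_lit 6) [nat_lit 24244] false,
   Spec.mk (nat_lit 43934) (nat_lit 0) [nat_lit 30812, nat_lit 48308, nat_lit 42476, nat_lit 44096, nat_lit 43880, nat_lit 43916, nat_lit 43940, nat_lit 43936] (nat_lit 2) [] false,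
   Spec.mk (nat_lit 43936) (nat_lit 0) [nat_lit 30814, nat_lit 48310, nat_lit 42478, nat_lit 44098, nat_lit 43882, nat_lit 43918, nat_lit 43942, nat_lit 43934] (nat_lit 4) [nat_lit 24254] false,
   Spec.mk (nat_lit 43940) (nat_lit 0) [nat_lit 30818, nat_lit 48314, nat_lit 42482, nat_lit 44102, nat_lit 43886, nat_lit 43922, nat_lit 43958, nat_lit 43934, nat_lit 43942] (nat_lit 3) [] false,
   Spec.mk (nat_lit 43942) (nat_lit 0) [nat_lit 30820, nat_lit 48316, nat_lit 42484, nat_lit 44104, nat_lit 43888, nat_lit 43924, nat_lit 43960, nat_lit 43936, nat_lit 43948, nat_lit 43940, nat_lit 43944] (nat_lit 3) [nat_lit 24260] false,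
   Spec.mk (nat_lit 43944) (nat_lit 0) [nat_lit 30822, nat_lit 48318, nat_lit 42486, nat_lit 44106, nat_lit 43890, nat_lit 43926, nat_lit 43962, nat_lit 43950, nat_lit 43942] (nat_lit 5) [nat_lit 24262] false,
   Spec.mk (nat_lit 43948) (nat_lit 0) [nat_lit 30826, nat_lit 48322, nat_lit 42490, nat_lit 44110, nat_lit 43894, nat_lit 43966, nat_lit 43942, nat_lit 43950] (nat_lit 4) [nat_lit 24266] false,
   Spec.mk (nat_lit 43950) (nat_lit 0) [nat_lit 30828, nat_lit 48324, nat_lit 42492, nat_lit 44112, nat_lit 43896, nat_lit 43968, nat_lit 43944, nat_lit 43948] (nat_lit 4) [nat_lit 24268] false,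
   Spec.mk (nat_lit 43958) (nat_lit 0) [nat_lit 30836, nat_lit 48332, nat_lit 42500, nat_lit 44120, nat_lit 43940, nat_lit 43960] (nat_lit 2) [] false,
   Spec.mk (nat_lit 43960) (nat_lit 0) [nat_lit 30838, nat_lit 48334, nat_lit 42502, nat_lit 44122, nat_lit 43942, nat_lit 43966, nat_lit 43958, nat_lit 43962] (nat_lit 3) [nat_lit 24278] false,
   Spec.mk (nat_lit 43962) (nat_lit 0) [nat_lit 30840, nat_lit 48336, nat_lit 42504, nat_lit 44124, nat_lit 43944, nat_lit 43968, nat_lit 43960] (nat_lit 6) [nat_lit 24280] false,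
   Spec.mk (nat_lit 43966) (nat_lit 0) [nat_lit 30844, nat_lit 48340, nat_lit 42508, nat_lit 44128, nat_lit 43948, nat_lit 43960, nat_lit 43968] (nat_lit 2) [nat_lit 24284] false,
   Spec.mk (nat_lit 43968) (nat_lit 0) [nat_lit 30846, nat_lit 48342, nat_lit 42510, nat_lit 44130, nat_lit 43950, nat_lit 43962, nat_lit 43974, nat_lit 43966] (nat_lit 3) [nat_lit 24286] false]

noncomputable def sp114 : List Spec :=
  [Spec.mk (nat_lit 43974) (nat_lit 0) [nat_lit 30852, nat_lit 48348, nat_lit 42516, nat_lit 44136, nat_lit 43968] (nat_lit 2) [nat_lit 24292] false,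
   Spec.mk (nat_lit 44000) (nat_lit 0) [nat_lit 30878, nat_lit 48374, nat_lit 42542, nat_lit 44486, nat_lit 43838, nat_lit 44018, nat_lit 44006] (nat_lit 0) [] false,
   Spec.mk (nat_lit 44006) (nat_lit 0) [nat_lit 30884, nat_lit 48380, nat_lit 42548, nat_lit 44492, nat_lit 43844, nat_lit 44024, nat_lit 44000, nat_lit 44008] (nat_lit 2) [] false,
   Spec.mk (nat_lit 44008) (nat_lit 0) [nat_lit 30886, nat_lit 48382, nat_lit 42550, nat_lit 44494, nat_lit 43846, nat_lit 44026, nat_lit 44006] (nat_lit 2) [nat_lit 24326] false,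
   Spec.mk (nat_lit 44018) (nat_lit 0) [nat_lit 30896, nat_lit 48392, nat_lit 42560, nat_lit 44504, nat_lit 43856, nat_lit 44072, nat_lit 44000, nat_lit 44024] (nat_lit 2) [] false,
   Spec.mk (nat_lit 44024) (nat_lit 0) [nat_lit 30902, nat_lit 48398, nat_lit 42566, nat_lit 44510, nat_lit 43862, nat_lit 44078, nat_lit 44006, nat_lit 44042, nat_lit 44018, nat_lit 44030, nat_lit 44026] (nat_lit 2) [] false,
   Spec.mk (nat_lit 44026) (nat_lit 0) [nat_lit 30904, nat_lit 48400, nat_lit 42568, nat_lit 44512, nat_lit 43864, nat_lit 44080, nat_lit 44008, nat_lit 44044, nat_lit 44032, nat_lit 44024] (nat_lit 3) [nat_lit 24344] false,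
   Spec.mk (nat_lit 44030) (nat_lit 0) [nat_lit 30908, nat_lit 48404, nat_lit 42572, nat_lit 44516, nat_lit 43868, nat_lit 44084, nat_lit 44048, nat_lit 44024, nat_lit 44032] (nat_lit 4) [] false,
   Spec.mk (nat_lit 44032) (nat_lit 0) [nat_lit 30910, nat_lit 48406, nat_lit 42574, nat_lit 44518, nat_lit 43870, nat_lit 44086, nat_lit 44050, nat_lit 44026, nat_lit 44030, nat_lit 44034] (nat_lit 3) [nat_lit 24350] false,
   Spec.mk (nat_lit 44034) (nat_lit 0) [nat_lit 30912, nat_lit 48408, nat_lit 42576, nat_lit 44520, nat_lit 43872, nat_lit 44088, nat_lit 44052, nat_lit 44032] (nat_lit 4) [nat_lit 24352] false,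
   Spec.mk (nat_lit 44042) (nat_lit 0) [nat_lit 30920, nat_lit 48416, nat_lit 42584, nat_lit 44528, nat_lit 43880, nat_lit 44096, nat_lit 44024, nat_lit 44048, nat_lit 44044] (nat_lit 4) [] false,
   Spec.mk (nat_lit 44044) (nat_lit 0) [nat_lit 30922, nat_lit 48418, nat_lit 42586, nat_lit 44530, nat_lit 43882, nat_lit 44098, nat_lit 44026, nat_lit 44050, nat_lit 44042] (nat_lit 6) [nat_lit 24362] false,
   Spec.mk (nat_lit 44048) (nat_lit 0) [nat_lit 30926, nat_lit 48422, nat_lit 42590, nat_lit 44534, nat_lit 43886, nat_lit 44102, nat_lit 44030, nat_lit 44042, nat_lit 44050] (nat_lit 4) [] false,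
   Spec.mk (nat_lit 44050) (nat_lit 0) [nat_lit 30928, nat_lit 48424, nat_lit 42592, nat_lit 44536, nat_lit 43888, nat_lit 44104, nat_lit 44032, nat_lit 44044, nat_lit 44056, nat_lit 44048, nat_lit 44052] (nat_lit 4) [nat_lit 24368] false,
   Spec.mk (nat_lit 44052) (nat_lit 0) [nat_lit 30930, nat_lit 48426, nat_lit 42594, nat_lit 44538, nat_lit 43890, nat_lit 44106, nat_lit 44034, nat_lit 44058, nat_lit 44050] (nat_lit 6) [nat_lit 24370] false,
   Spec.mk (nat_lit 44056) (nat_lit 0) [nat_lit 30934, nat_lit 48430, nat_lit 42598, nat_lit 44542, nat_lit 43894, nat_lit 44110, nat_lit 44050, nat_lit 44058] (nat_lit 4) [nat_lit 24374] false,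
   Spec.mk (nat_lit 44058) (nat_lit 0) [nat_lit 30936, nat_lit 48432, nat_lit 42600, nat_lit 44544, nat_lit 43896, nat_lit 44112, nat_lit 44052, nat_lit 44056] (nat_lit 4) [nat_lit 24376] false,
   Spec.mk (nat_lit 44072) (nat_lit 0) [nat_lit 30950, nat_lit 48446, nat_lit 42614, nat_lit 44558, nat_lit 43910, nat_lit 44234, nat_lit 44018, nat_lit 44078] (nat_lit 1) [] false,
   Spec.mk (nat_lit 44078) (nat_lit 0) [nat_lit 30956, nat_lit 48452, nat_lit 42620, nat_lit 44564, nat_lit 43916, nat_lit 44240, nat_lit 44024, nat_lit 44096, nat_lit 44072, nat_lit 44084, nat_lit 44080] (nat_lit 2) [] false,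
   Spec.mk (nat_lit 44080) (nat_lit 0) [nat_lit 30958, nat_lit 48454, nat_lit 42622, nat_lit 44566, nat_lit 43918, nat_lit 44242, nat_lit 44026, nat_lit 44098, nat_lit 44086, nat_lit 44078] (nat_lit 3) [nat_lit 24398] false,
   Spec.mk (nat_lit 44084) (nat_lit 0) [nat_lit 30962, nat_lit 48458, nat_lit 42626, nat_lit 44570, nat_lit 43922, nat_lit 44246, nat_lit 44030, nat_lit 44102, nat_lit 44078, nat_lit 44086] (nat_lit 5) [] false,
   Spec.mk (nat_lit 44086) (nat_lit 0) [nat_lit 30964, nat_lit 48460, nat_lit 42628, nat_lit 44572, nat_lit 43924, nat_lit 44248, nat_lit 44032, nat_lit 44104, nat_lit 44080, nat_lit 44084, nat_lit 44088] (nat_lit 4) [nat_lit 24404] false,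
   Spec.mk (nat_lit 44088) (nat_lit 0) [nat_lit 30966, nat_lit 48462, nat_lit 42630, nat_lit 44574, nat_lit 43926, nat_lit 44250, nat_lit 44034, nat_lit 44106, nat_lit 44086] (nat_lit 5) [nat_lit 24406] false,
   Spec.mk (nat_lit 44096) (nat_lit 0) [nat_lit 30974, nat_lit 48470, nat_lit 42638, nat_lit 44582, nat_lit 43934, nat_lit 44258, nat_lit 44042, nat_lit 44150, nat_lit 44078, nat_lit 44102, nat_lit 44098] (nat_lit 2) [] false,
   Spec.mk (nat_lit 44098) (nat_lit 0) [nat_lit 30976, nat_lit 48472, nat_lit 42640, nat_lit 44584, nat_lit 43936, nat_lit 44260, nat_lit 44044, nat_lit 44152, nat_lit 44080, nat_lit 44104, nat_lit 44096] (nat_lit 4) [nat_lit 24416] false,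
   Spec.mk (nat_lit 44102) (nat_lit 0) [nat_lit 30980, nat_lit 48476, nat_lit 42644, nat_lit 44588, nat_lit 43940, nat_lit 44264, nat_lit 44048, nat_lit 44156, nat_lit 44084, nat_lit 44120, nat_lit 44096, nat_lit 44104] (nat_lit 3) [] false,
   Spec.mk (nat_lit 44104) (nat_lit 0) [nat_lit 30982, nat_lit 48478, nat_lit 42646, nat_lit 44590, nat_lit 43942, nat_lit 44266, nat_lit 44050, nat_lit 44158, nat_lit 44086, nat_lit 44122, nat_lit 44098, nat_lit 44110, nat_lit 44102, nat_lit 44106] (nat_lit 3) [nat_lit 24422] false,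
   Spec.mk (nat_lit 44106) (nat_lit 0) [nat_lit 30984, nat_lit 48480, nat_lit 42648, nat_lit 44592, nat_lit 43944, nat_lit 44268, nat_lit 44052, nat_lit 44160, nat_lit 44088, nat_lit 44124, nat_lit 44112, nat_lit 44104] (nat_lit 5) [nat_lit 24424] false,
   Spec.mk (nat_lit 44110) (nat_lit 0) [nat_lit 30988, nat_lit 48484, nat_lit 42652, nat_lit 44596, nat_lit 43948, nat_lit 44272, nat_lit 44056, nat_lit 44164, nat_lit 44128, nat_lit 44104, nat_lit 44112] (nat_lit 4) [nat_lit 24428] false,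
   Spec.mk (nat_lit 44112) (nat_lit 0) [nat_lit 30990, nat_lit 48486, nat_lit 42654, nat_lit 44598, nat_lit 43950, nat_lit 44274, nat_lit 44058, nat_lit 44166, nat_lit 44130, nat_lit 44106, nat_lit 44110] (nat_lit 4) [nat_lit 24430] false,
   Spec.mk (nat_lit 44120) (nat_lit 0) [nat_lit 30998, nat_lit 48494, nat_lit 42662, nat_lit 44606, nat_lit 43958, nat_lit 44282, nat_lit 44174, nat_lit 44102, nat_lit 44122] (nat_lit 3) [] false,
   Spec.mk (nat_lit 44122) (nat_lit 0) [nat_lit 31000, nat_lit 48496, nat_lit 42664, nat_lit 44608, nat_lit 43960, nat_lit 44284, nat_lit 44176, nat_lit 44104, nat_lit 44128, nat_lit 44120, nat_lit 44124] (nat_lit 4) [nat_lit 24440] false,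
   Spec.mk (nat_lit 44124) (nat_lit 0) [nat_lit 31002, nat_lit 48498, nat_lit 42666, nat_lit 44610, nat_lit 43962, nat_lit 44286, nat_lit 44178, nat_lit 44106, nat_lit 44130, nat_lit 44122] (nat_lit 7) [nat_lit 24442] false,
   Spec.mk (nat_lit 44128) (nat_lit 0) [nat_lit 31006, nat_lit 48502, nat_lit 42670, nat_lit 44614, nat_lit 43966, nat_lit 44290, nat_lit 44182, nat_lit 44110, nat_lit 44122, nat_lit 44130] (nat_lit 3) [nat_lit 24446] false,
   Spec.mk (nat_lit 44130) (nat_lit 0) [nat_lit 31008, nat_lit 48504, nat_lit 42672, nat_lit 44616, nat_lit 43968, nat_lit 44292, nat_lit 44184, nat_lit 44112, nat_lit 44124, nat_lit 44136, nat_lit 44128] (nat_lit 4) [nat_lit 24448] false,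
   Spec.mk (nat_lit 44136) (nat_lit 0) [nat_lit 31014, nat_lit 48510, nat_lit 42678, nat_lit 44622, nat_lit 43974, nat_lit 44298, nat_lit 44190, nat_lit 44130] (nat_lit 3) [nat_lit 24454] false,
   Spec.mk (nat_lit 44150) (nat_lit 0) [nat_lit 31028, nat_lit 48524, nat_lit 42692, nat_lit 44636, nat_lit 44312, nat_lit 44096, nat_lit 44156, nat_lit 44152] (nat_lit 2) [] false,
   Spec.mk (nat_lit 44152) (nat_lit 0) [nat_lit 31030, nat_lit 48526, nat_lit 42694, nat_lit 44638, nat_lit 44314, nat_lit 44098, nat_lit 44158, nat_lit 44150] (nat_lit 4) [nat_lit 24470] false,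
   Spec.mk (nat_lit 44156) (nat_lit 0) [nat_lit 31034, nat_lit 48530, nat_lit 42698, nat_lit 44642, nat_lit 44318, nat_lit 44102, nat_lit 44174, nat_lit 44150, nat_lit 44158] (nat_lit 4) [] false,
   Spec.mk (nat_lit 44158) (nat_lit 0) [nat_lit 31036, nat_lit 48532, nat_lit 42700, nat_lit 44644, nat_lit 44320, nat_lit 44104, nat_lit 44176, nat_lit 44152, nat_lit 44164, nat_lit 44156, nat_lit 44160] (nat_lit 4) [nat_lit 24476] false,
   Spec.mk (nat_lit 44160) (nat_lit 0) [nat_lit 31038, nat_lit 48534, nat_lit 42702, nat_lit 44646, nat_lit 44322, nat_lit 44106, nat_lit 44178, nat_lit 44166, nat_lit 44158] (nat_lit 6) [nat_lit 24478] false,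
   Spec.mk (nat_lit 44164) (nat_lit 0) [nat_lit 31042, nat_lit 48538, nat_lit 42706, nat_lit 44650, nat_lit 44326, nat_lit 44110, nat_lit 44182, nat_lit 44158, nat_lit 44166] (nat_lit 6) [nat_lit 24482] false,
   Spec.mk (nat_lit 44166) (nat_lit 0) [nat_lit 31044, nat_lit 48540, nat_lit 42708, nat_lit 44652, nat_lit 44328, nat_lit 44112, nat_lit 44184, nat_lit 44160, nat_lit 44164] (nat_lit 6) [nat_lit 24484] false,
   Spec.mk (nat_lit 44174) (nat_lit 0) [nat_lit 31052, nat_lit 48548, nat_lit 42716, nat_lit 44660, nat_lit 44336, nat_lit 44120, nat_lit 44156, nat_lit 44176] (nat_lit 2) [] false,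
   Spec.mk (nat_lit 44176) (nat_lit 0) [nat_lit 31054, nat_lit 48550, nat_lit 42718, nat_lit 44662, nat_lit 44338, nat_lit 44122, nat_lit 44158, nat_lit 44182, nat_lit 44174, nat_lit 44178] (nat_lit 3) [nat_lit 24494] false,
   Spec.mk (nat_lit 44178) (nat_lit 0) [nat_lit 31056, nat_lit 48552, nat_lit 42720, nat_lit 44664, nat_lit 44340, nat_lit 44124, nat_lit 44160, nat_lit 44184, nat_lit 44176] (nat_lit 6) [nat_lit 24496] false,
   Spec.mk (nat_lit 44182) (nat_lit 0) [nat_lit 31060, nat_lit 48556, nat_lit 42724, nat_lit 44668, nat_lit 44344, nat_lit 44128, nat_lit 44164, nat_lit 44200, nat_lit 44176, nat_lit 44184] (nat_lit 3) [nat_lit 24500] false,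
   Spec.mk (nat_lit 44184) (nat_lit 0) [nat_lit 31062, nat_lit 48558, nat_lit 42726, nat_lit 44670, nat_lit 44346, nat_lit 44130, nat_lit 44166, nat_lit 44202, nat_lit 44178, nat_lit 44190, nat_lit 44182] (nat_lit 4) [nat_lit 24502] false,
   Spec.mk (nat_lit 44190) (nat_lit 0) [nat_lit 31068, nat_lit 48564, nat_lit 42732, nat_lit 44676, nat_lit 44352, nat_lit 44136, nat_lit 44208, nat_lit 44184] (nat_lit 4) [nat_lit 24508] false,
   Spec.mk (nat_lit 44200) (nat_lit 0) [nat_lit 31078, nat_lit 48574, nat_lit 42742, nat_lit 44686, nat_lit 44362, nat_lit 44182, nat_lit 44202] (nat_lit 2) [nat_lit 24518] false,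
   Spec.mk (nat_lit 44202) (nat_lit 0) [nat_lit 31080, nat_lit 48576, nat_lit 42744, nat_lit 44688, nat_lit 44364, nat_lit 44184, nat_lit 44208, nat_lit 44200] (nat_lit 4) [nat_lit 24520] false,
   Spec.mk (nat_lit 44208) (nat_lit 0) [nat_lit 31086, nat_lit 48582, nat_lit 42750, nat_lit 44694, nat_lit 44370, nat_lit 44190, nat_lit 44202] (nat_lit 2) [nat_lit 24526] false,
   Spec.mk (nat_lit 44234) (nat_lit 0) [nat_lit 31112, nat_lit 48608, nat_lit 42776, nat_lit 44720, nat_lit 44072, nat_lit 44240] (nat_lit 2) [] false,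
   Spec.mk (nat_lit 44240) (nat_lit 0) [nat_lit 31118, nat_lit 48614, nat_lit 42782, nat_lit 44726, nat_lit 44078, nat_lit 44258, nat_lit 44234, nat_lit 44246, nat_lit 44242] (nat_lit 3) [] false,
   Spec.mk (nat_lit 44242) (nat_lit 0) [nat_lit 31120, nat_lit 48616, nat_lit 42784, nat_lit 44728, nat_lit 44080, nat_lit 44260, nat_lit 44248, nat_lit 44240] (nat_lit 4) [nat_lit 24560] false,
   Spec.mk (nat_lit 44246) (nat_lit 0) [nat_lit 31124, nat_lit 48620, nat_lit 42788, nat_lit 44732, nat_lit 44084, nat_lit 44264, nat_lit 44240, nat_lit 44248] (nat_lit 6) [] false,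
   Spec.mk (nat_lit 44248) (nat_lit 0) [nat_lit 31126, nat_lit 48622, nat_lit 42790, nat_lit 44734, nat_lit 44086, nat_lit 44266, nat_lit 44242, nat_lit 44246, nat_lit 44250] (nat_lit 5) [nat_lit 24566] false,
   Spec.mk (nat_lit 44250) (nat_lit 0) [nat_lit 31128, nat_lit 48624, nat_lit 42792, nat_lit 44736, nat_lit 44088, nat_lit 44268, nat_lit 44248] (nat_lit 6) [nat_lit 24568] false,
   Spec.mk (nat_lit 44258) (nat_lit 0) [nat_lit 31136, nat_lit 48632, nat_lit 42800, nat_lit 44744, nat_lit 44096, nat_lit 44312, nat_lit 44240, nat_lit 44264, nat_lit 44260] (nat_lit 4) [] false,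
   Spec.mk (nat_lit 44260) (nat_lit 0) [nat_lit 31138, nat_lit 48634, nat_lit 42802, nat_lit 44746, nat_lit 44098, nat_lit 44314, nat_lit 44242, nat_lit 44266, nat_lit 44258] (nat_lit 6) [nat_lit 24578] false]

noncomputable def sp115 : List Spec :=
  [Spec.mk (nat_lit 44264) (nat_lit 0) [nat_lit 31142, nat_lit 48638, nat_lit 42806, nat_lit 44750, nat_lit 44102, nat_lit 44318, nat_lit 44246, nat_lit 44282, nat_lit 44258, nat_lit 44266] (nat_lit 5) [] false,
   Spec.mk (nat_lit 44266) (nat_lit 0) [nat_lit 31144, nat_lit 48640, nat_lit 42808, nat_lit 44752, nat_lit 44104, nat_lit 44320, nat_lit 44248, nat_lit 44284, nat_lit 44260, nat_lit 44272, nat_lit 44264, nat_lit 44268] (nat_lit 5) [nat_lit 24584] false,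
   Spec.mk (nat_lit 44268) (nat_lit 0) [nat_lit 31146, nat_lit 48642, nat_lit 42810, nat_lit 44754, nat_lit 44106, nat_lit 44322, nat_lit 44250, nat_lit 44286, nat_lit 44274, nat_lit 44266] (nat_lit 7) [nat_lit 24586] false,
   Spec.mk (nat_lit 44272) (nat_lit 0) [nat_lit 31150, nat_lit 48646, nat_lit 42814, nat_lit 44758, nat_lit 44110, nat_lit 44326, nat_lit 44290, nat_lit 44266, nat_lit 44274] (nat_lit 6) [nat_lit 24590] false,
   Spec.mk (nat_lit 44274) (nat_lit 0) [nat_lit 31152, nat_lit 48648, nat_lit 42816, nat_lit 44760, nat_lit 44112, nat_lit 44328, nat_lit 44292, nat_lit 44268, nat_lit 44272] (nat_lit 6) [nat_lit 24592] false,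
   Spec.mk (nat_lit 44282) (nat_lit 0) [nat_lit 31160, nat_lit 48656, nat_lit 42824, nat_lit 44768, nat_lit 44120, nat_lit 44336, nat_lit 44264, nat_lit 44284] (nat_lit 6) [] false,
   Spec.mk (nat_lit 44284) (nat_lit 0) [nat_lit 31162, nat_lit 48658, nat_lit 42826, nat_lit 44770, nat_lit 44122, nat_lit 44338, nat_lit 44266, nat_lit 44290, nat_lit 44282, nat_lit 44286] (nat_lit 7) [nat_lit 24602] false,
   Spec.mk (nat_lit 44286) (nat_lit 0) [nat_lit 31164, nat_lit 48660, nat_lit 42828, nat_lit 44772, nat_lit 44124, nat_lit 44340, nat_lit 44268, nat_lit 44292, nat_lit 44284] (nat_lit 10) [nat_lit 24604] false,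
   Spec.mk (nat_lit 44290) (nat_lit 0) [nat_lit 31168, nat_lit 48664, nat_lit 42832, nat_lit 44776, nat_lit 44128, nat_lit 44344, nat_lit 44272, nat_lit 44284, nat_lit 44292] (nat_lit 6) [nat_lit 24608] false,
   Spec.mk (nat_lit 44292) (nat_lit 0) [nat_lit 31170, nat_lit 48666, nat_lit 42834, nat_lit 44778, nat_lit 44130, nat_lit 44346, nat_lit 44274, nat_lit 44286, nat_lit 44298, nat_lit 44290] (nat_lit 7) [nat_lit 24610] false,
   Spec.mk (nat_lit 44298) (nat_lit 0) [nat_lit 31176, nat_lit 48672, nat_lit 42840, nat_lit 44784, nat_lit 44136, nat_lit 44352, nat_lit 44292] (nat_lit 6) [nat_lit 24616] false,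
   Spec.mk (nat_lit 44312) (nat_lit 0) [nat_lit 31190, nat_lit 48686, nat_lit 42854, nat_lit 44798, nat_lit 44150, nat_lit 44258, nat_lit 44318, nat_lit 44314] (nat_lit 2) [] false,
   Spec.mk (nat_lit 44314) (nat_lit 0) [nat_lit 31192, nat_lit 48688, nat_lit 42856, nat_lit 44800, nat_lit 44152, nat_lit 44260, nat_lit 44320, nat_lit 44312] (nat_lit 4) [nat_lit 24632] false,
   Spec.mk (nat_lit 44318) (nat_lit 0) [nat_lit 31196, nat_lit 48692, nat_lit 42860, nat_lit 44804, nat_lit 44156, nat_lit 44264, nat_lit 44336, nat_lit 44312, nat_lit 44320] (nat_lit 4) [] false,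
   Spec.mk (nat_lit 44320) (nat_lit 0) [nat_lit 31198, nat_lit 48694, nat_lit 42862, nat_lit 44806, nat_lit 44158, nat_lit 44266, nat_lit 44338, nat_lit 44314, nat_lit 44326, nat_lit 44318, nat_lit 44322] (nat_lit 4) [nat_lit 24638] false,
   Spec.mk (nat_lit 44322) (nat_lit 0) [nat_lit 31200, nat_lit 48696, nat_lit 42864, nat_lit 44808, nat_lit 44160, nat_lit 44268, nat_lit 44340, nat_lit 44328, nat_lit 44320] (nat_lit 6) [nat_lit 24640] false,
   Spec.mk (nat_lit 44326) (nat_lit 0) [nat_lit 31204, nat_lit 48700, nat_lit 42868, nat_lit 44812, nat_lit 44164, nat_lit 44272, nat_lit 44344, nat_lit 44320, nat_lit 44328] (nat_lit 6) [nat_lit 24644] false,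
   Spec.mk (nat_lit 44328) (nat_lit 0) [nat_lit 31206, nat_lit 48702, nat_lit 42870, nat_lit 44814, nat_lit 44166, nat_lit 44274, nat_lit 44346, nat_lit 44322, nat_lit 44326] (nat_lit 6) [nat_lit 24646] false,
   Spec.mk (nat_lit 44336) (nat_lit 0) [nat_lit 31214, nat_lit 48710, nat_lit 42878, nat_lit 44822, nat_lit 44174, nat_lit 44282, nat_lit 44390, nat_lit 44318, nat_lit 44338] (nat_lit 3) [] false,
   Spec.mk (nat_lit 44338) (nat_lit 0) [nat_lit 31216, nat_lit 48712, nat_lit 42880, nat_lit 44824, nat_lit 44176, nat_lit 44284, nat_lit 44392, nat_lit 44320, nat_lit 44344, nat_lit 44336, nat_lit 44340] (nat_lit 4) [nat_lit 24656] false,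
   Spec.mk (nat_lit 44340) (nat_lit 0) [nat_lit 31218, nat_lit 48714, nat_lit 42882, nat_lit 44826, nat_lit 44178, nat_lit 44286, nat_lit 44394, nat_lit 44322, nat_lit 44346, nat_lit 44338] (nat_lit 7) [nat_lit 24658] false,
   Spec.mk (nat_lit 44344) (nat_lit 0) [nat_lit 31222, nat_lit 48718, nat_lit 42886, nat_lit 44830, nat_lit 44182, nat_lit 44290, nat_lit 44398, nat_lit 44326, nat_lit 44362, nat_lit 44338, nat_lit 44346] (nat_lit 4) [nat_lit 24662] false,
   Spec.mk (nat_lit 44346) (nat_lit 0) [nat_lit 31224, nat_lit 48720, nat_lit 42888, nat_lit 44832, nat_lit 44184, nat_lit 44292, nat_lit 44400, nat_lit 44328, nat_lit 44364, nat_lit 44340, nat_lit 44352, nat_lit 44344] (nat_lit 5) [nat_lit 24664] false,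
   Spec.mk (nat_lit 44352) (nat_lit 0) [nat_lit 31230, nat_lit 48726, nat_lit 42894, nat_lit 44838, nat_lit 44190, nat_lit 44298, nat_lit 44406, nat_lit 44370, nat_lit 44346] (nat_lit 5) [nat_lit 24670] false,
   Spec.mk (nat_lit 44362) (nat_lit 0) [nat_lit 31240, nat_lit 48736, nat_lit 42904, nat_lit 44848, nat_lit 44200, nat_lit 44416, nat_lit 44344, nat_lit 44364] (nat_lit 4) [nat_lit 24680] false,
   Spec.mk (nat_lit 44364) (nat_lit 0) [nat_lit 31242, nat_lit 48738, nat_lit 42906, nat_lit 44850, nat_lit 44202, nat_lit 44418, nat_lit 44346, nat_lit 44370, nat_lit 44362] (nat_lit 6) [nat_lit 24682] false,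
   Spec.mk (nat_lit 44370) (nat_lit 0) [nat_lit 31248, nat_lit 48744, nat_lit 42912, nat_lit 44856, nat_lit 44208, nat_lit 44424, nat_lit 44352, nat_lit 44364] (nat_lit 4) [nat_lit 24688] false,
   Spec.mk (nat_lit 44390) (nat_lit 0) [nat_lit 31268, nat_lit 48764, nat_lit 42932, nat_lit 44876, nat_lit 44336, nat_lit 44392] (nat_lit 2) [] false,
   Spec.mk (nat_lit 44392) (nat_lit 0) [nat_lit 31270, nat_lit 48766, nat_lit 42934, nat_lit 44878, nat_lit 44338, nat_lit 44398, nat_lit 44390, nat_lit 44394] (nat_lit 3) [nat_lit 24710] false,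
   Spec.mk (nat_lit 44394) (nat_lit 0) [nat_lit 31272, nat_lit 48768, nat_lit 42936, nat_lit 44880, nat_lit 44340, nat_lit 44400, nat_lit 44392] (nat_lit 6) [nat_lit 24712] false,
   Spec.mk (nat_lit 44398) (nat_lit 0) [nat_lit 31276, nat_lit 48772, nat_lit 42940, nat_lit 44884, nat_lit 44344, nat_lit 44416, nat_lit 44392, nat_lit 44400] (nat_lit 4) [nat_lit 24716] false,
   Spec.mk (nat_lit 44400) (nat_lit 0) [nat_lit 31278, nat_lit 48774, nat_lit 42942, nat_lit 44886, nat_lit 44346, nat_lit 44418, nat_lit 44394, nat_lit 44406, nat_lit 44398] (nat_lit 5) [nat_lit 24718] false,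
   Spec.mk (nat_lit 44406) (nat_lit 0) [nat_lit 31284, nat_lit 48780, nat_lit 42948, nat_lit 44892, nat_lit 44352, nat_lit 44424, nat_lit 44400] (nat_lit 6) [nat_lit 24724] false,
   Spec.mk (nat_lit 44416) (nat_lit 0) [nat_lit 31294, nat_lit 48790, nat_lit 42958, nat_lit 44902, nat_lit 44362, nat_lit 44398, nat_lit 44418] (nat_lit 2) [nat_lit 24734] false,
   Spec.mk (nat_lit 44418) (nat_lit 0) [nat_lit 31296, nat_lit 48792, nat_lit 42960, nat_lit 44904, nat_lit 44364, nat_lit 44400, nat_lit 44424, nat_lit 44416] (nat_lit 4) [nat_lit 24736] false,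
   Spec.mk (nat_lit 44424) (nat_lit 0) [nat_lit 31302, nat_lit 48798, nat_lit 42966, nat_lit 44910, nat_lit 44370, nat_lit 44406, nat_lit 44442, nat_lit 44418] (nat_lit 3) [nat_lit 24742] false,
   Spec.mk (nat_lit 44442) (nat_lit 0) [nat_lit 31320, nat_lit 48816, nat_lit 42984, nat_lit 44928, nat_lit 44424] (nat_lit 2) [nat_lit 24760] false,
   Spec.mk (nat_lit 44486) (nat_lit 2) [nat_lit 31364, nat_lit 48860, nat_lit 43028, nat_lit 44000, nat_lit 44504, nat_lit 44492] (nat_lit 0) [] false,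
   Spec.mk (nat_lit 44492) (nat_lit 0) [nat_lit 31370, nat_lit 48866, nat_lit 43034, nat_lit 44006, nat_lit 44510, nat_lit 44486, nat_lit 44494] (nat_lit 0) [] false,
   Spec.mk (nat_lit 44494) (nat_lit 0) [nat_lit 31372, nat_lit 48868, nat_lit 43036, nat_lit 44008, nat_lit 44512, nat_lit 44492] (nat_lit 0) [nat_lit 24812] false,
   Spec.mk (nat_lit 44504) (nat_lit 0) [nat_lit 31382, nat_lit 48878, nat_lit 43046, nat_lit 44018, nat_lit 44558, nat_lit 44486, nat_lit 44510] (nat_lit 0) [] false,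
   Spec.mk (nat_lit 44510) (nat_lit 0) [nat_lit 31388, nat_lit 48884, nat_lit 43052, nat_lit 44024, nat_lit 44564, nat_lit 44492, nat_lit 44528, nat_lit 44504, nat_lit 44516, nat_lit 44512] (nat_lit 0) [] false,
   Spec.mk (nat_lit 44512) (nat_lit 0) [nat_lit 31390, nat_lit 48886, nat_lit 43054, nat_lit 44026, nat_lit 44566, nat_lit 44494, nat_lit 44530, nat_lit 44518, nat_lit 44510] (nat_lit 1) [nat_lit 24830] false,
   Spec.mk (nat_lit 44516) (nat_lit 0) [nat_lit 31394, nat_lit 48890, nat_lit 43058, nat_lit 44030, nat_lit 44570, nat_lit 44534, nat_lit 44510, nat_lit 44518] (nat_lit 2) [] false,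
   Spec.mk (nat_lit 44518) (nat_lit 0) [nat_lit 31396, nat_lit 48892, nat_lit 43060, nat_lit 44032, nat_lit 44572, nat_lit 44536, nat_lit 44512, nat_lit 44516, nat_lit 44520] (nat_lit 1) [nat_lit 24836] false,
   Spec.mk (nat_lit 44520) (nat_lit 0) [nat_lit 31398, nat_lit 48894, nat_lit 43062, nat_lit 44034, nat_lit 44574, nat_lit 44538, nat_lit 44518] (nat_lit 2) [nat_lit 24838] false,
   Spec.mk (nat_lit 44528) (nat_lit 0) [nat_lit 31406, nat_lit 48902, nat_lit 43070, nat_lit 44042, nat_lit 44582, nat_lit 44510, nat_lit 44534, nat_lit 44530] (nat_lit 2) [] false,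
   Spec.mk (nat_lit 44530) (nat_lit 0) [nat_lit 31408, nat_lit 48904, nat_lit 43072, nat_lit 44044, nat_lit 44584, nat_lit 44512, nat_lit 44536, nat_lit 44528] (nat_lit 4) [nat_lit 24848] false,
   Spec.mk (nat_lit 44534) (nat_lit 0) [nat_lit 31412, nat_lit 48908, nat_lit 43076, nat_lit 44048, nat_lit 44588, nat_lit 44516, nat_lit 44528, nat_lit 44536] (nat_lit 2) [] false,
   Spec.mk (nat_lit 44536) (nat_lit 0) [nat_lit 31414, nat_lit 48910, nat_lit 43078, nat_lit 44050, nat_lit 44590, nat_lit 44518, nat_lit 44530, nat_lit 44542, nat_lit 44534, nat_lit 44538] (nat_lit 2) [nat_lit 24854] false,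
   Spec.mk (nat_lit 44538) (nat_lit 0) [nat_lit 31416, nat_lit 48912, nat_lit 43080, nat_lit 44052, nat_lit 44592, nat_lit 44520, nat_lit 44544, nat_lit 44536] (nat_lit 4) [nat_lit 24856] false,
   Spec.mk (nat_lit 44542) (nat_lit 0) [nat_lit 31420, nat_lit 48916, nat_lit 43084, nat_lit 44056, nat_lit 44596, nat_lit 44536, nat_lit 44544] (nat_lit 2) [nat_lit 24860] false,
   Spec.mk (nat_lit 44544) (nat_lit 0) [nat_lit 31422, nat_lit 48918, nat_lit 43086, nat_lit 44058, nat_lit 44598, nat_lit 44538, nat_lit 44542] (nat_lit 2) [nat_lit 24862] false,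
   Spec.mk (nat_lit 44558) (nat_lit 0) [nat_lit 31436, nat_lit 48932, nat_lit 43100, nat_lit 44072, nat_lit 44720, nat_lit 44504, nat_lit 44564] (nat_lit 0) [] false,
   Spec.mk (nat_lit 44564) (nat_lit 0) [nat_lit 31442, nat_lit 48938, nat_lit 43106, nat_lit 44078, nat_lit 44726, nat_lit 44510, nat_lit 44582, nat_lit 44558, nat_lit 44570, nat_lit 44566] (nat_lit 1) [] false,
   Spec.mk (nat_lit 44566) (nat_lit 0) [nat_lit 31444, nat_lit 48940, nat_lit 43108, nat_lit 44080, nat_lit 44728, nat_lit 44512, nat_lit 44584, nat_lit 44572, nat_lit 44564] (nat_lit 2) [nat_lit 24884] false,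
   Spec.mk (nat_lit 44570) (nat_lit 0) [nat_lit 31448, nat_lit 48944, nat_lit 43112, nat_lit 44084, nat_lit 44732, nat_lit 44516, nat_lit 44588, nat_lit 44564, nat_lit 44572] (nat_lit 4) [] false,
   Spec.mk (nat_lit 44572) (nat_lit 0) [nat_lit 31450, nat_lit 48946, nat_lit 43114, nat_lit 44086, nat_lit 44734, nat_lit 44518, nat_lit 44590, nat_lit 44566, nat_lit 44570, nat_lit 44574] (nat_lit 3) [nat_lit 24890] false,
   Spec.mk (nat_lit 44574) (nat_lit 0) [nat_lit 31452, nat_lit 48948, nat_lit 43116, nat_lit 44088, nat_lit 44736, nat_lit 44520, nat_lit 44592, nat_lit 44572] (nat_lit 4) [nat_lit 24892] false,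
   Spec.mk (nat_lit 44582) (nat_lit 0) [nat_lit 31460, nat_lit 48956, nat_lit 43124, nat_lit 44096, nat_lit 44744, nat_lit 44528, nat_lit 44636, nat_lit 44564, nat_lit 44588, nat_lit 44584] (nat_lit 1) [] false]

noncomputable def sp116 : List Spec :=
  [Spec.mk (nat_lit 44584) (nat_lit 0) [nat_lit 31462, nat_lit 48958, nat_lit 43126, nat_lit 44098, nat_lit 44746, nat_lit 44530, nat_lit 44638, nat_lit 44566, nat_lit 44590, nat_lit 44582] (nat_lit 3) [nat_lit 24902] false,
   Spec.mk (nat_lit 44588) (nat_lit 0) [nat_lit 31466, nat_lit 48962, nat_lit 43130, nat_lit 44102, nat_lit 44750, nat_lit 44534, nat_lit 44642, nat_lit 44570, nat_lit 44606, nat_lit 44582, nat_lit 44590] (nat_lit 2) [] false,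
   Spec.mk (nat_lit 44590) (nat_lit 0) [nat_lit 31468, nat_lit 48964, nat_lit 43132, nat_lit 44104, nat_lit 44752, nat_lit 44536, nat_lit 44644, nat_lit 44572, nat_lit 44608, nat_lit 44584, nat_lit 44596, nat_lit 44588, nat_lit 44592] (nat_lit 2) [nat_lit 24908] false,
   Spec.mk (nat_lit 44592) (nat_lit 0) [nat_lit 31470, nat_lit 48966, nat_lit 43134, nat_lit 44106, nat_lit 44754, nat_lit 44538, nat_lit 44646, nat_lit 44574, nat_lit 44610, nat_lit 44598, nat_lit 44590] (nat_lit 4) [nat_lit 24910] false,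
   Spec.mk (nat_lit 44596) (nat_lit 0) [nat_lit 31474, nat_lit 48970, nat_lit 43138, nat_lit 44110, nat_lit 44758, nat_lit 44542, nat_lit 44650, nat_lit 44614, nat_lit 44590, nat_lit 44598] (nat_lit 3) [nat_lit 24914] false,
   Spec.mk (nat_lit 44598) (nat_lit 0) [nat_lit 31476, nat_lit 48972, nat_lit 43140, nat_lit 44112, nat_lit 44760, nat_lit 44544, nat_lit 44652, nat_lit 44616, nat_lit 44592, nat_lit 44596] (nat_lit 3) [nat_lit 24916] false,
   Spec.mk (nat_lit 44606) (nat_lit 0) [nat_lit 31484, nat_lit 48980, nat_lit 43148, nat_lit 44120, nat_lit 44768, nat_lit 44660, nat_lit 44588, nat_lit 44608] (nat_lit 2) [] false,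
   Spec.mk (nat_lit 44608) (nat_lit 0) [nat_lit 31486, nat_lit 48982, nat_lit 43150, nat_lit 44122, nat_lit 44770, nat_lit 44662, nat_lit 44590, nat_lit 44614, nat_lit 44606, nat_lit 44610] (nat_lit 3) [nat_lit 24926] false,
   Spec.mk (nat_lit 44610) (nat_lit 0) [nat_lit 31488, nat_lit 48984, nat_lit 43152, nat_lit 44124, nat_lit 44772, nat_lit 44664, nat_lit 44592, nat_lit 44616, nat_lit 44608] (nat_lit 6) [nat_lit 24928] false,
   Spec.mk (nat_lit 44614) (nat_lit 0) [nat_lit 31492, nat_lit 48988, nat_lit 43156, nat_lit 44128, nat_lit 44776, nat_lit 44668, nat_lit 44596, nat_lit 44608, nat_lit 44616] (nat_lit 2) [nat_lit 24932] false,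
   Spec.mk (nat_lit 44616) (nat_lit 0) [nat_lit 31494, nat_lit 48990, nat_lit 43158, nat_lit 44130, nat_lit 44778, nat_lit 44670, nat_lit 44598, nat_lit 44610, nat_lit 44622, nat_lit 44614] (nat_lit 3) [nat_lit 24934] false,
   Spec.mk (nat_lit 44622) (nat_lit 0) [nat_lit 31500, nat_lit 48996, nat_lit 43164, nat_lit 44136, nat_lit 44784, nat_lit 44676, nat_lit 44616] (nat_lit 2) [nat_lit 24940] false,
   Spec.mk (nat_lit 44636) (nat_lit 0) [nat_lit 31514, nat_lit 49010, nat_lit 43178, nat_lit 44150, nat_lit 44798, nat_lit 44582, nat_lit 44642, nat_lit 44638] (nat_lit 2) [] false,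
   Spec.mk (nat_lit 44638) (nat_lit 0) [nat_lit 31516, nat_lit 49012, nat_lit 43180, nat_lit 44152, nat_lit 44800, nat_lit 44584, nat_lit 44644, nat_lit 44636] (nat_lit 4) [nat_lit 24956] false,
   Spec.mk (nat_lit 44642) (nat_lit 0) [nat_lit 31520, nat_lit 49016, nat_lit 43184, nat_lit 44156, nat_lit 44804, nat_lit 44588, nat_lit 44660, nat_lit 44636, nat_lit 44644] (nat_lit 4) [] false,
   Spec.mk (nat_lit 44644) (nat_lit 0) [nat_lit 31522, nat_lit 49018, nat_lit 43186, nat_lit 44158, nat_lit 44806, nat_lit 44590, nat_lit 44662, nat_lit 44638, nat_lit 44650, nat_lit 44642, nat_lit 44646] (nat_lit 4) [nat_lit 24962] false,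
   Spec.mk (nat_lit 44646) (nat_lit 0) [nat_lit 31524, nat_lit 49020, nat_lit 43188, nat_lit 44160, nat_lit 44808, nat_lit 44592, nat_lit 44664, nat_lit 44652, nat_lit 44644] (nat_lit 6) [nat_lit 24964] false,
   Spec.mk (nat_lit 44650) (nat_lit 0) [nat_lit 31528, nat_lit 49024, nat_lit 43192, nat_lit 44164, nat_lit 44812, nat_lit 44596, nat_lit 44668, nat_lit 44644, nat_lit 44652] (nat_lit 6) [nat_lit 24968] false,
   Spec.mk (nat_lit 44652) (nat_lit 0) [nat_lit 31530, nat_lit 49026, nat_lit 43194, nat_lit 44166, nat_lit 44814, nat_lit 44598, nat_lit 44670, nat_lit 44646, nat_lit 44650] (nat_lit 6) [nat_lit 24970] false,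
   Spec.mk (nat_lit 44660) (nat_lit 0) [nat_lit 31538, nat_lit 49034, nat_lit 43202, nat_lit 44174, nat_lit 44822, nat_lit 44606, nat_lit 44642, nat_lit 44662] (nat_lit 2) [] false,
   Spec.mk (nat_lit 44662) (nat_lit 0) [nat_lit 31540, nat_lit 49036, nat_lit 43204, nat_lit 44176, nat_lit 44824, nat_lit 44608, nat_lit 44644, nat_lit 44668, nat_lit 44660, nat_lit 44664] (nat_lit 3) [nat_lit 24980] false,
   Spec.mk (nat_lit 44664) (nat_lit 0) [nat_lit 31542, nat_lit 49038, nat_lit 43206, nat_lit 44178, nat_lit 44826, nat_lit 44610, nat_lit 44646, nat_lit 44670, nat_lit 44662] (nat_lit 6) [nat_lit 24982] false,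
   Spec.mk (nat_lit 44668) (nat_lit 0) [nat_lit 31546, nat_lit 49042, nat_lit 43210, nat_lit 44182, nat_lit 44830, nat_lit 44614, nat_lit 44650, nat_lit 44686, nat_lit 44662, nat_lit 44670] (nat_lit 3) [nat_lit 24986] false,
   Spec.mk (nat_lit 44670) (nat_lit 0) [nat_lit 31548, nat_lit 49044, nat_lit 43212, nat_lit 44184, nat_lit 44832, nat_lit 44616, nat_lit 44652, nat_lit 44688, nat_lit 44664, nat_lit 44676, nat_lit 44668] (nat_lit 4) [nat_lit 24988] false,
   Spec.mk (nat_lit 44676) (nat_lit 0) [nat_lit 31554, nat_lit 49050, nat_lit 43218, nat_lit 44190, nat_lit 44838, nat_lit 44622, nat_lit 44694, nat_lit 44670] (nat_lit 4) [nat_lit 24994] false,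
   Spec.mk (nat_lit 44686) (nat_lit 0) [nat_lit 31564, nat_lit 49060, nat_lit 43228, nat_lit 44200, nat_lit 44848, nat_lit 44668, nat_lit 44688] (nat_lit 2) [nat_lit 25004] false,
   Spec.mk (nat_lit 44688) (nat_lit 0) [nat_lit 31566, nat_lit 49062, nat_lit 43230, nat_lit 44202, nat_lit 44850, nat_lit 44670, nat_lit 44694, nat_lit 44686] (nat_lit 4) [nat_lit 25006] false,
   Spec.mk (nat_lit 44694) (nat_lit 0) [nat_lit 31572, nat_lit 49068, nat_lit 43236, nat_lit 44208, nat_lit 44856, nat_lit 44676, nat_lit 44688] (nat_lit 2) [nat_lit 25012] false,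
   Spec.mk (nat_lit 44720) (nat_lit 1) [nat_lit 31598, nat_lit 49094, nat_lit 43262, nat_lit 44234, nat_lit 45206, nat_lit 44558, nat_lit 44726] (nat_lit 0) [] false,
   Spec.mk (nat_lit 44726) (nat_lit 0) [nat_lit 31604, nat_lit 49100, nat_lit 43268, nat_lit 44240, nat_lit 45212, nat_lit 44564, nat_lit 44744, nat_lit 44720, nat_lit 44732, nat_lit 44728] (nat_lit 0) [] false,
   Spec.mk (nat_lit 44728) (nat_lit 0) [nat_lit 31606, nat_lit 49102, nat_lit 43270, nat_lit 44242, nat_lit 45214, nat_lit 44566, nat_lit 44746, nat_lit 44734, nat_lit 44726] (nat_lit 1) [nat_lit 25046] false,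
   Spec.mk (nat_lit 44732) (nat_lit 0) [nat_lit 31610, nat_lit 49106, nat_lit 43274, nat_lit 44246, nat_lit 45218, nat_lit 44570, nat_lit 44750, nat_lit 44726, nat_lit 44734] (nat_lit 3) [] false,
   Spec.mk (nat_lit 44734) (nat_lit 0) [nat_lit 31612, nat_lit 49108, nat_lit 43276, nat_lit 44248, nat_lit 45220, nat_lit 44572, nat_lit 44752, nat_lit 44728, nat_lit 44732, nat_lit 44736] (nat_lit 2) [nat_lit 25052] false,
   Spec.mk (nat_lit 44736) (nat_lit 0) [nat_lit 31614, nat_lit 49110, nat_lit 43278, nat_lit 44250, nat_lit 45222, nat_lit 44574, nat_lit 44754, nat_lit 44734] (nat_lit 3) [nat_lit 25054] false,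
   Spec.mk (nat_lit 44744) (nat_lit 0) [nat_lit 31622, nat_lit 49118, nat_lit 43286, nat_lit 44258, nat_lit 45230, nat_lit 44582, nat_lit 44798, nat_lit 44726, nat_lit 44750, nat_lit 44746] (nat_lit 1) [] false,
   Spec.mk (nat_lit 44746) (nat_lit 0) [nat_lit 31624, nat_lit 49120, nat_lit 43288, nat_lit 44260, nat_lit 45232, nat_lit 44584, nat_lit 44800, nat_lit 44728, nat_lit 44752, nat_lit 44744] (nat_lit 3) [nat_lit 25064] false,
   Spec.mk (nat_lit 44750) (nat_lit 0) [nat_lit 31628, nat_lit 49124, nat_lit 43292, nat_lit 44264, nat_lit 45236, nat_lit 44588, nat_lit 44804, nat_lit 44732, nat_lit 44768, nat_lit 44744, nat_lit 44752] (nat_lit 2) [] false,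
   Spec.mk (nat_lit 44752) (nat_lit 0) [nat_lit 31630, nat_lit 49126, nat_lit 43294, nat_lit 44266, nat_lit 45238, nat_lit 44590, nat_lit 44806, nat_lit 44734, nat_lit 44770, nat_lit 44746, nat_lit 44758, nat_lit 44750, nat_lit 44754] (nat_lit 2) [nat_lit 25070] false,
   Spec.mk (nat_lit 44754) (nat_lit 0) [nat_lit 31632, nat_lit 49128, nat_lit 43296, nat_lit 44268, nat_lit 45240, nat_lit 44592, nat_lit 44808, nat_lit 44736, nat_lit 44772, nat_lit 44760, nat_lit 44752] (nat_lit 4) [nat_lit 25072] false,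
   Spec.mk (nat_lit 44758) (nat_lit 0) [nat_lit 31636, nat_lit 49132, nat_lit 43300, nat_lit 44272, nat_lit 45244, nat_lit 44596, nat_lit 44812, nat_lit 44776, nat_lit 44752, nat_lit 44760] (nat_lit 3) [nat_lit 25076] false,
   Spec.mk (nat_lit 44760) (nat_lit 0) [nat_lit 31638, nat_lit 49134, nat_lit 43302, nat_lit 44274, nat_lit 45246, nat_lit 44598, nat_lit 44814, nat_lit 44778, nat_lit 44754, nat_lit 44758] (nat_lit 3) [nat_lit 25078] false,
   Spec.mk (nat_lit 44768) (nat_lit 0) [nat_lit 31646, nat_lit 49142, nat_lit 43310, nat_lit 44282, nat_lit 45254, nat_lit 44606, nat_lit 44822, nat_lit 44750, nat_lit 44770] (nat_lit 3) [] false,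
   Spec.mk (nat_lit 44770) (nat_lit 0) [nat_lit 31648, nat_lit 49144, nat_lit 43312, nat_lit 44284, nat_lit 45256, nat_lit 44608, nat_lit 44824, nat_lit 44752, nat_lit 44776, nat_lit 44768, nat_lit 44772] (nat_lit 4) [nat_lit 25088] false,
   Spec.mk (nat_lit 44772) (nat_lit 0) [nat_lit 31650, nat_lit 49146, nat_lit 43314, nat_lit 44286, nat_lit 45258, nat_lit 44610, nat_lit 44826, nat_lit 44754, nat_lit 44778, nat_lit 44770] (nat_lit 7) [nat_lit 25090] false,
   Spec.mk (nat_lit 44776) (nat_lit 0) [nat_lit 31654, nat_lit 49150, nat_lit 43318, nat_lit 44290, nat_lit 45262, nat_lit 44614, nat_lit 44830, nat_lit 44758, nat_lit 44770, nat_lit 44778] (nat_lit 3) [nat_lit 25094] false,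
   Spec.mk (nat_lit 44778) (nat_lit 0) [nat_lit 31656, nat_lit 49152, nat_lit 43320, nat_lit 44292, nat_lit 45264, nat_lit 44616, nat_lit 44832, nat_lit 44760, nat_lit 44772, nat_lit 44784, nat_lit 44776] (nat_lit 4) [nat_lit 25096] false,
   Spec.mk (nat_lit 44784) (nat_lit 0) [nat_lit 31662, nat_lit 49158, nat_lit 43326, nat_lit 44298, nat_lit 45270, nat_lit 44622, nat_lit 44838, nat_lit 44778] (nat_lit 3) [nat_lit 25102] false,
   Spec.mk (nat_lit 44798) (nat_lit 0) [nat_lit 31676, nat_lit 49172, nat_lit 43340, nat_lit 44312, nat_lit 45284, nat_lit 44636, nat_lit 44960, nat_lit 44744, nat_lit 44804, nat_lit 44800] (nat_lit 0) [] false,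
   Spec.mk (nat_lit 44800) (nat_lit 0) [nat_lit 31678, nat_lit 49174, nat_lit 43342, nat_lit 44314, nat_lit 45286, nat_lit 44638, nat_lit 44962, nat_lit 44746, nat_lit 44806, nat_lit 44798] (nat_lit 2) [nat_lit 25118] false,
   Spec.mk (nat_lit 44804) (nat_lit 0) [nat_lit 31682, nat_lit 49178, nat_lit 43346, nat_lit 44318, nat_lit 45290, nat_lit 44642, nat_lit 44966, nat_lit 44750, nat_lit 44822, nat_lit 44798, nat_lit 44806] (nat_lit 2) [] false,
   Spec.mk (nat_lit 44806) (nat_lit 0) [nat_lit 31684, nat_lit 49180, nat_lit 43348, nat_lit 44320, nat_lit 45292, nat_lit 44644, nat_lit 44968, nat_lit 44752, nat_lit 44824, nat_lit 44800, nat_lit 44812, nat_lit 44804, nat_lit 44808] (nat_lit 2) [nat_lit 25124] false,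
   Spec.mk (nat_lit 44808) (nat_lit 0) [nat_lit 31686, nat_lit 49182, nat_lit 43350, nat_lit 44322, nat_lit 45294, nat_lit 44646, nat_lit 44970, nat_lit 44754, nat_lit 44826, nat_lit 44814, nat_lit 44806] (nat_lit 4) [nat_lit 25126] false,
   Spec.mk (nat_lit 44812) (nat_lit 0) [nat_lit 31690, nat_lit 49186, nat_lit 43354, nat_lit 44326, nat_lit 45298, nat_lit 44650, nat_lit 44974, nat_lit 44758, nat_lit 44830, nat_lit 44806, nat_lit 44814] (nat_lit 4) [nat_lit 25130] false,
   Spec.mk (nat_lit 44814) (nat_lit 0) [nat_lit 31692, nat_lit 49188, nat_lit 43356, nat_lit 44328, nat_lit 45300, nat_lit 44652, nat_lit 44976, nat_lit 44760, nat_lit 44832, nat_lit 44808, nat_lit 44812] (nat_lit 4) [nat_lit 25132] false,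
   Spec.mk (nat_lit 44822) (nat_lit 0) [nat_lit 31700, nat_lit 49196, nat_lit 43364, nat_lit 44336, nat_lit 45308, nat_lit 44660, nat_lit 44984, nat_lit 44768, nat_lit 44876, nat_lit 44804, nat_lit 44824] (nat_lit 1) [] false,
   Spec.mk (nat_lit 44824) (nat_lit 0) [nat_lit 31702, nat_lit 49198, nat_lit 43366, nat_lit 44338, nat_lit 45310, nat_lit 44662, nat_lit 44986, nat_lit 44770, nat_lit 44878, nat_lit 44806, nat_lit 44830, nat_lit 44822, nat_lit 44826] (nat_lit 2) [nat_lit 25142] false,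
   Spec.mk (nat_lit 44826) (nat_lit 0) [nat_lit 31704, nat_lit 49200, nat_lit 43368, nat_lit 44340, nat_lit 45312, nat_lit 44664, nat_lit 44988, nat_lit 44772, nat_lit 44880, nat_lit 44808, nat_lit 44832, nat_lit 44824] (nat_lit 5) [nat_lit 25144] false,
   Spec.mk (nat_lit 44830) (nat_lit 0) [nat_lit 31708, nat_lit 49204, nat_lit 43372, nat_lit 44344, nat_lit 45316, nat_lit 44668, nat_lit 44992, nat_lit 44776, nat_lit 44884, nat_lit 44812, nat_lit 44848, nat_lit 44824, nat_lit 44832] (nat_lit 2) [nat_lit 25148] false,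
   Spec.mk (nat_lit 44832) (nat_lit 0) [nat_lit 31710, nat_lit 49206, nat_lit 43374, nat_lit 44346, nat_lit 45318, nat_lit 44670, nat_lit 44994, nat_lit 44778, nat_lit 44886, nat_lit 44814, nat_lit 44850, nat_lit 44826, nat_lit 44838, nat_lit 44830] (nat_lit 3) [nat_lit 25150] false,
   Spec.mk (nat_lit 44838) (nat_lit 0) [nat_lit 31716, nat_lit 49212, nat_lit 43380, nat_lit 44352, nat_lit 45324, nat_lit 44676, nat_lit 45000, nat_lit 44784, nat_lit 44892, nat_lit 44856, nat_lit 44832] (nat_lit 3) [nat_lit 25156] false]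

noncomputable def sp117 : List Spec :=
  [Spec.mk (nat_lit 44848) (nat_lit 0) [nat_lit 31726, nat_lit 49222, nat_lit 43390, nat_lit 44362, nat_lit 45334, nat_lit 44686, nat_lit 45010, nat_lit 44902, nat_lit 44830, nat_lit 44850] (nat_lit 2) [nat_lit 25166] false,
   Spec.mk (nat_lit 44850) (nat_lit 0) [nat_lit 31728, nat_lit 49224, nat_lit 43392, nat_lit 44364, nat_lit 45336, nat_lit 44688, nat_lit 45012, nat_lit 44904, nat_lit 44832, nat_lit 44856, nat_lit 44848] (nat_lit 4) [nat_lit 25168] false,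
   Spec.mk (nat_lit 44856) (nat_lit 0) [nat_lit 31734, nat_lit 49230, nat_lit 43398, nat_lit 44370, nat_lit 45342, nat_lit 44694, nat_lit 45018, nat_lit 44910, nat_lit 44838, nat_lit 44850] (nat_lit 2) [nat_lit 25174] false,
   Spec.mk (nat_lit 44876) (nat_lit 0) [nat_lit 31754, nat_lit 49250, nat_lit 43418, nat_lit 44390, nat_lit 45362, nat_lit 45038, nat_lit 44822, nat_lit 44878] (nat_lit 1) [] false,
   Spec.mk (nat_lit 44878) (nat_lit 0) [nat_lit 31756, nat_lit 49252, nat_lit 43420, nat_lit 44392, nat_lit 45364, nat_lit 45040, nat_lit 44824, nat_lit 44884, nat_lit 44876, nat_lit 44880] (nat_lit 2) [nat_lit 25196] false,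
   Spec.mk (nat_lit 44880) (nat_lit 0) [nat_lit 31758, nat_lit 49254, nat_lit 43422, nat_lit 44394, nat_lit 45366, nat_lit 45042, nat_lit 44826, nat_lit 44886, nat_lit 44878] (nat_lit 5) [nat_lit 25198] false,
   Spec.mk (nat_lit 44884) (nat_lit 0) [nat_lit 31762, nat_lit 49258, nat_lit 43426, nat_lit 44398, nat_lit 45370, nat_lit 45046, nat_lit 44830, nat_lit 44902, nat_lit 44878, nat_lit 44886] (nat_lit 3) [nat_lit 25202] false,
   Spec.mk (nat_lit 44886) (nat_lit 0) [nat_lit 31764, nat_lit 49260, nat_lit 43428, nat_lit 44400, nat_lit 45372, nat_lit 45048, nat_lit 44832, nat_lit 44904, nat_lit 44880, nat_lit 44892, nat_lit 44884] (nat_lit 4) [nat_lit 25204] false,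
   Spec.mk (nat_lit 44892) (nat_lit 0) [nat_lit 31770, nat_lit 49266, nat_lit 43434, nat_lit 44406, nat_lit 45378, nat_lit 45054, nat_lit 44838, nat_lit 44910, nat_lit 44886] (nat_lit 5) [nat_lit 25210] false,
   Spec.mk (nat_lit 44902) (nat_lit 0) [nat_lit 31780, nat_lit 49276, nat_lit 43444, nat_lit 44416, nat_lit 45388, nat_lit 45064, nat_lit 44848, nat_lit 44884, nat_lit 44904] (nat_lit 1) [nat_lit 25220] false,
   Spec.mk (nat_lit 44904) (nat_lit 0) [nat_lit 31782, nat_lit 49278, nat_lit 43446, nat_lit 44418, nat_lit 45390, nat_lit 45066, nat_lit 44850, nat_lit 44886, nat_lit 44910, nat_lit 44902] (nat_lit 3) [nat_lit 25222] false,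
   Spec.mk (nat_lit 44910) (nat_lit 0) [nat_lit 31788, nat_lit 49284, nat_lit 43452, nat_lit 44424, nat_lit 45396, nat_lit 45072, nat_lit 44856, nat_lit 44892, nat_lit 44928, nat_lit 44904] (nat_lit 2) [nat_lit 25228] false,
   Spec.mk (nat_lit 44928) (nat_lit 0) [nat_lit 31806, nat_lit 49302, nat_lit 43470, nat_lit 44442, nat_lit 45414, nat_lit 45090, nat_lit 44910] (nat_lit 1) [nat_lit 25246] false,
   Spec.mk (nat_lit 44960) (nat_lit 0) [nat_lit 31838, nat_lit 49334, nat_lit 43502, nat_lit 45446, nat_lit 44798, nat_lit 44966, nat_lit 44962] (nat_lit 0) [] false,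
   Spec.mk (nat_lit 44962) (nat_lit 0) [nat_lit 31840, nat_lit 49336, nat_lit 43504, nat_lit 45448, nat_lit 44800, nat_lit 44968, nat_lit 44960] (nat_lit 2) [nat_lit 25280] false,
   Spec.mk (nat_lit 44966) (nat_lit 0) [nat_lit 31844, nat_lit 49340, nat_lit 43508, nat_lit 45452, nat_lit 44804, nat_lit 44984, nat_lit 44960, nat_lit 44968] (nat_lit 2) [] false,
   Spec.mk (nat_lit 44968) (nat_lit 0) [nat_lit 31846, nat_lit 49342, nat_lit 43510, nat_lit 45454, nat_lit 44806, nat_lit 44986, nat_lit 44962, nat_lit 44974, nat_lit 44966, nat_lit 44970] (nat_lit 2) [nat_lit 25286] false,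
   Spec.mk (nat_lit 44970) (nat_lit 0) [nat_lit 31848, nat_lit 49344, nat_lit 43512, nat_lit 45456, nat_lit 44808, nat_lit 44988, nat_lit 44976, nat_lit 44968] (nat_lit 4) [nat_lit 25288] false,
   Spec.mk (nat_lit 44974) (nat_lit 0) [nat_lit 31852, nat_lit 49348, nat_lit 43516, nat_lit 45460, nat_lit 44812, nat_lit 44992, nat_lit 44968, nat_lit 44976] (nat_lit 4) [nat_lit 25292] false,
   Spec.mk (nat_lit 44976) (nat_lit 0) [nat_lit 31854, nat_lit 49350, nat_lit 43518, nat_lit 45462, nat_lit 44814, nat_lit 44994, nat_lit 44970, nat_lit 44974] (nat_lit 4) [nat_lit 25294] false,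
   Spec.mk (nat_lit 44984) (nat_lit 0) [nat_lit 31862, nat_lit 49358, nat_lit 43526, nat_lit 45470, nat_lit 44822, nat_lit 45038, nat_lit 44966, nat_lit 44986] (nat_lit 2) [] false,
   Spec.mk (nat_lit 44986) (nat_lit 0) [nat_lit 31864, nat_lit 49360, nat_lit 43528, nat_lit 45472, nat_lit 44824, nat_lit 45040, nat_lit 44968, nat_lit 44992, nat_lit 44984, nat_lit 44988] (nat_lit 3) [nat_lit 25304] false,
   Spec.mk (nat_lit 44988) (nat_lit 0) [nat_lit 31866, nat_lit 49362, nat_lit 43530, nat_lit 45474, nat_lit 44826, nat_lit 45042, nat_lit 44970, nat_lit 44994, nat_lit 44986] (nat_lit 6) [nat_lit 25306] false,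
   Spec.mk (nat_lit 44992) (nat_lit 0) [nat_lit 31870, nat_lit 49366, nat_lit 43534, nat_lit 45478, nat_lit 44830, nat_lit 45046, nat_lit 44974, nat_lit 45010, nat_lit 44986, nat_lit 44994] (nat_lit 3) [nat_lit 25310] false,
   Spec.mk (nat_lit 44994) (nat_lit 0) [nat_lit 31872, nat_lit 49368, nat_lit 43536, nat_lit 45480, nat_lit 44832, nat_lit 45048, nat_lit 44976, nat_lit 45012, nat_lit 44988, nat_lit 45000, nat_lit 44992] (nat_lit 4) [nat_lit 25312] false,
   Spec.mk (nat_lit 45000) (nat_lit 0) [nat_lit 31878, nat_lit 49374, nat_lit 43542, nat_lit 45486, nat_lit 44838, nat_lit 45054, nat_lit 45018, nat_lit 44994] (nat_lit 4) [nat_lit 25318] false,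
   Spec.mk (nat_lit 45010) (nat_lit 0) [nat_lit 31888, nat_lit 49384, nat_lit 43552, nat_lit 45496, nat_lit 44848, nat_lit 45064, nat_lit 44992, nat_lit 45012] (nat_lit 4) [nat_lit 25328] false,
   Spec.mk (nat_lit 45012) (nat_lit 0) [nat_lit 31890, nat_lit 49386, nat_lit 43554, nat_lit 45498, nat_lit 44850, nat_lit 45066, nat_lit 44994, nat_lit 45018, nat_lit 45010] (nat_lit 6) [nat_lit 25330] false,
   Spec.mk (nat_lit 45018) (nat_lit 0) [nat_lit 31896, nat_lit 49392, nat_lit 43560, nat_lit 45504, nat_lit 44856, nat_lit 45072, nat_lit 45000, nat_lit 45012] (nat_lit 4) [nat_lit 25336] false,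
   Spec.mk (nat_lit 45038) (nat_lit 0) [nat_lit 31916, nat_lit 49412, nat_lit 43580, nat_lit 45524, nat_lit 44876, nat_lit 44984, nat_lit 45040] (nat_lit 0) [] false,
   Spec.mk (nat_lit 45040) (nat_lit 0) [nat_lit 31918, nat_lit 49414, nat_lit 43582, nat_lit 45526, nat_lit 44878, nat_lit 44986, nat_lit 45046, nat_lit 45038, nat_lit 45042] (nat_lit 1) [nat_lit 25358] false,
   Spec.mk (nat_lit 45042) (nat_lit 0) [nat_lit 31920, nat_lit 49416, nat_lit 43584, nat_lit 45528, nat_lit 44880, nat_lit 44988, nat_lit 45048, nat_lit 45040] (nat_lit 4) [nat_lit 25360] false,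
   Spec.mk (nat_lit 45046) (nat_lit 0) [nat_lit 31924, nat_lit 49420, nat_lit 43588, nat_lit 45532, nat_lit 44884, nat_lit 44992, nat_lit 45064, nat_lit 45040, nat_lit 45048] (nat_lit 2) [nat_lit 25364] false,
   Spec.mk (nat_lit 45048) (nat_lit 0) [nat_lit 31926, nat_lit 49422, nat_lit 43590, nat_lit 45534, nat_lit 44886, nat_lit 44994, nat_lit 45066, nat_lit 45042, nat_lit 45054, nat_lit 45046] (nat_lit 3) [nat_lit 25366] false,
   Spec.mk (nat_lit 45054) (nat_lit 0) [nat_lit 31932, nat_lit 49428, nat_lit 43596, nat_lit 45540, nat_lit 44892, nat_lit 45000, nat_lit 45072, nat_lit 45048] (nat_lit 4) [nat_lit 25372] false,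
   Spec.mk (nat_lit 45064) (nat_lit 0) [nat_lit 31942, nat_lit 49438, nat_lit 43606, nat_lit 45550, nat_lit 44902, nat_lit 45010, nat_lit 45118, nat_lit 45046, nat_lit 45066] (nat_lit 1) [nat_lit 25382] false,
   Spec.mk (nat_lit 45066) (nat_lit 0) [nat_lit 31944, nat_lit 49440, nat_lit 43608, nat_lit 45552, nat_lit 44904, nat_lit 45012, nat_lit 45120, nat_lit 45048, nat_lit 45072, nat_lit 45064] (nat_lit 3) [nat_lit 25384] false,
   Spec.mk (nat_lit 45072) (nat_lit 0) [nat_lit 31950, nat_lit 49446, nat_lit 43614, nat_lit 45558, nat_lit 44910, nat_lit 45018, nat_lit 45126, nat_lit 45054, nat_lit 45090, nat_lit 45066] (nat_lit 2) [nat_lit 25390] false,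
   Spec.mk (nat_lit 45090) (nat_lit 0) [nat_lit 31968, nat_lit 49464, nat_lit 43632, nat_lit 45576, nat_lit 44928, nat_lit 45144, nat_lit 45072] (nat_lit 2) [nat_lit 25408] false,
   Spec.mk (nat_lit 45118) (nat_lit 0) [nat_lit 31996, nat_lit 49492, nat_lit 43660, nat_lit 45604, nat_lit 45064, nat_lit 45120] (nat_lit 0) [nat_lit 25436] false,
   Spec.mk (nat_lit 45120) (nat_lit 0) [nat_lit 31998, nat_lit 49494, nat_lit 43662, nat_lit 45606, nat_lit 45066, nat_lit 45126, nat_lit 45118] (nat_lit 2) [nat_lit 25438] false,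
   Spec.mk (nat_lit 45126) (nat_lit 0) [nat_lit 32004, nat_lit 49500, nat_lit 43668, nat_lit 45612, nat_lit 45072, nat_lit 45144, nat_lit 45120] (nat_lit 2) [nat_lit 25444] false,
   Spec.mk (nat_lit 45144) (nat_lit 0) [nat_lit 32022, nat_lit 49518, nat_lit 43686, nat_lit 45630, nat_lit 45090, nat_lit 45126] (nat_lit 0) [nat_lit 25462] false,
   Spec.mk (nat_lit 45206) (nat_lit 2) [nat_lit 32084, nat_lit 49580, nat_lit 44720, nat_lit 45212] (nat_lit 0) [] false,
   Spec.mk (nat_lit 45212) (nat_lit 1) [nat_lit 32090, nat_lit 49586, nat_lit 44726, nat_lit 45230, nat_lit 45206, nat_lit 45218, nat_lit 45214] (nat_lit 0) [] false,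
   Spec.mk (nat_lit 45214) (nat_lit 0) [nat_lit 32092, nat_lit 49588, nat_lit 44728, nat_lit 45232, nat_lit 45220, nat_lit 45212] (nat_lit 0) [nat_lit 25532] false,
   Spec.mk (nat_lit 45218) (nat_lit 0) [nat_lit 32096, nat_lit 49592, nat_lit 44732, nat_lit 45236, nat_lit 45212, nat_lit 45220] (nat_lit 2) [] false,
   Spec.mk (nat_lit 45220) (nat_lit 0) [nat_lit 32098, nat_lit 49594, nat_lit 44734, nat_lit 45238, nat_lit 45214, nat_lit 45218, nat_lit 45222] (nat_lit 1) [nat_lit 25538] false,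
   Spec.mk (nat_lit 45222) (nat_lit 0) [nat_lit 32100, nat_lit 49596, nat_lit 44736, nat_lit 45240, nat_lit 45220] (nat_lit 2) [nat_lit 25540] false,
   Spec.mk (nat_lit 45230) (nat_lit 0) [nat_lit 32108, nat_lit 49604, nat_lit 44744, nat_lit 45284, nat_lit 45212, nat_lit 45236, nat_lit 45232] (nat_lit 0) [] false,
   Spec.mk (nat_lit 45232) (nat_lit 0) [nat_lit 32110, nat_lit 49606, nat_lit 44746, nat_lit 45286, nat_lit 45214, nat_lit 45238, nat_lit 45230] (nat_lit 2) [nat_lit 25550] false,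
   Spec.mk (nat_lit 45236) (nat_lit 0) [nat_lit 32114, nat_lit 49610, nat_lit 44750, nat_lit 45290, nat_lit 45218, nat_lit 45254, nat_lit 45230, nat_lit 45238] (nat_lit 1) [] false,
   Spec.mk (nat_lit 45238) (nat_lit 0) [nat_lit 32116, nat_lit 49612, nat_lit 44752, nat_lit 45292, nat_lit 45220, nat_lit 45256, nat_lit 45232, nat_lit 45244, nat_lit 45236, nat_lit 45240] (nat_lit 1) [nat_lit 25556] false,
   Spec.mk (nat_lit 45240) (nat_lit 0) [nat_lit 32118, nat_lit 49614, nat_lit 44754, nat_lit 45294, nat_lit 45222, nat_lit 45258, nat_lit 45246, nat_lit 45238] (nat_lit 3) [nat_lit 25558] false,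
   Spec.mk (nat_lit 45244) (nat_lit 0) [nat_lit 32122, nat_lit 49618, nat_lit 44758, nat_lit 45298, nat_lit 45262, nat_lit 45238, nat_lit 45246] (nat_lit 2) [nat_lit 25562] false,
   Spec.mk (nat_lit 45246) (nat_lit 0) [nat_lit 32124, nat_lit 49620, nat_lit 44760, nat_lit 45300, nat_lit 45264, nat_lit 45240, nat_lit 45244] (nat_lit 2) [nat_lit 25564] false,
   Spec.mk (nat_lit 45254) (nat_lit 0) [nat_lit 32132, nat_lit 49628, nat_lit 44768, nat_lit 45308, nat_lit 45236, nat_lit 45256] (nat_lit 2) [] false,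
   Spec.mk (nat_lit 45256) (nat_lit 0) [nat_lit 32134, nat_lit 49630, nat_lit 44770, nat_lit 45310, nat_lit 45238, nat_lit 45262, nat_lit 45254, nat_lit 45258] (nat_lit 3) [nat_lit 25574] false,
   Spec.mk (nat_lit 45258) (nat_lit 0) [nat_lit 32136, nat_lit 49632, nat_lit 44772, nat_lit 45312, nat_lit 45240, nat_lit 45264, nat_lit 45256] (nat_lit 6) [nat_lit 25576] false,
   Spec.mk (nat_lit 45262) (nat_lit 0) [nat_lit 32140, nat_lit 49636, nat_lit 44776, nat_lit 45316, nat_lit 45244, nat_lit 45256, nat_lit 45264] (nat_lit 2) [nat_lit 25580] false]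

noncomputable def sp118 : List Spec :=
  [Spec.mk (nat_lit 45264) (nat_lit 0) [nat_lit 32142, nat_lit 49638, nat_lit 44778, nat_lit 45318, nat_lit 45246, nat_lit 45258, nat_lit 45270, nat_lit 45262] (nat_lit 3) [nat_lit 25582] false,
   Spec.mk (nat_lit 45270) (nat_lit 0) [nat_lit 32148, nat_lit 49644, nat_lit 44784, nat_lit 45324, nat_lit 45264] (nat_lit 2) [nat_lit 25588] false,
   Spec.mk (nat_lit 45284) (nat_lit 0) [nat_lit 32162, nat_lit 49658, nat_lit 44798, nat_lit 45446, nat_lit 45230, nat_lit 45290, nat_lit 45286] (nat_lit 0) [] false,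
   Spec.mk (nat_lit 45286) (nat_lit 0) [nat_lit 32164, nat_lit 49660, nat_lit 44800, nat_lit 45448, nat_lit 45232, nat_lit 45292, nat_lit 45284] (nat_lit 2) [nat_lit 25604] false,
   Spec.mk (nat_lit 45290) (nat_lit 0) [nat_lit 32168, nat_lit 49664, nat_lit 44804, nat_lit 45452, nat_lit 45236, nat_lit 45308, nat_lit 45284, nat_lit 45292] (nat_lit 2) [] false,
   Spec.mk (nat_lit 45292) (nat_lit 0) [nat_lit 32170, nat_lit 49666, nat_lit 44806, nat_lit 45454, nat_lit 45238, nat_lit 45310, nat_lit 45286, nat_lit 45298, nat_lit 45290, nat_lit 45294] (nat_lit 2) [nat_lit 25610] false,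
   Spec.mk (nat_lit 45294) (nat_lit 0) [nat_lit 32172, nat_lit 49668, nat_lit 44808, nat_lit 45456, nat_lit 45240, nat_lit 45312, nat_lit 45300, nat_lit 45292] (nat_lit 4) [nat_lit 25612] false,
   Spec.mk (nat_lit 45298) (nat_lit 0) [nat_lit 32176, nat_lit 49672, nat_lit 44812, nat_lit 45460, nat_lit 45244, nat_lit 45316, nat_lit 45292, nat_lit 45300] (nat_lit 4) [nat_lit 25616] false,
   Spec.mk (nat_lit 45300) (nat_lit 0) [nat_lit 32178, nat_lit 49674, nat_lit 44814, nat_lit 45462, nat_lit 45246, nat_lit 45318, nat_lit 45294, nat_lit 45298] (nat_lit 4) [nat_lit 25618] false,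
   Spec.mk (nat_lit 45308) (nat_lit 0) [nat_lit 32186, nat_lit 49682, nat_lit 44822, nat_lit 45470, nat_lit 45254, nat_lit 45362, nat_lit 45290, nat_lit 45310] (nat_lit 1) [] false,
   Spec.mk (nat_lit 45310) (nat_lit 0) [nat_lit 32188, nat_lit 49684, nat_lit 44824, nat_lit 45472, nat_lit 45256, nat_lit 45364, nat_lit 45292, nat_lit 45316, nat_lit 45308, nat_lit 45312] (nat_lit 2) [nat_lit 25628] false,
   Spec.mk (nat_lit 45312) (nat_lit 0) [nat_lit 32190, nat_lit 49686, nat_lit 44826, nat_lit 45474, nat_lit 45258, nat_lit 45366, nat_lit 45294, nat_lit 45318, nat_lit 45310] (nat_lit 5) [nat_lit 25630] false,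
   Spec.mk (nat_lit 45316) (nat_lit 0) [nat_lit 32194, nat_lit 49690, nat_lit 44830, nat_lit 45478, nat_lit 45262, nat_lit 45370, nat_lit 45298, nat_lit 45334, nat_lit 45310, nat_lit 45318] (nat_lit 2) [nat_lit 25634] false,
   Spec.mk (nat_lit 45318) (nat_lit 0) [nat_lit 32196, nat_lit 49692, nat_lit 44832, nat_lit 45480, nat_lit 45264, nat_lit 45372, nat_lit 45300, nat_lit 45336, nat_lit 45312, nat_lit 45324, nat_lit 45316] (nat_lit 3) [nat_lit 25636] false,
   Spec.mk (nat_lit 45324) (nat_lit 0) [nat_lit 32202, nat_lit 49698, nat_lit 44838, nat_lit 45486, nat_lit 45270, nat_lit 45378, nat_lit 45342, nat_lit 45318] (nat_lit 3) [nat_lit 25642] false,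
   Spec.mk (nat_lit 45334) (nat_lit 0) [nat_lit 32212, nat_lit 49708, nat_lit 44848, nat_lit 45496, nat_lit 45388, nat_lit 45316, nat_lit 45336] (nat_lit 2) [nat_lit 25652] false,
   Spec.mk (nat_lit 45336) (nat_lit 0) [nat_lit 32214, nat_lit 49710, nat_lit 44850, nat_lit 45498, nat_lit 45390, nat_lit 45318, nat_lit 45342, nat_lit 45334] (nat_lit 4) [nat_lit 25654] false,
   Spec.mk (nat_lit 45342) (nat_lit 0) [nat_lit 32220, nat_lit 49716, nat_lit 44856, nat_lit 45504, nat_lit 45396, nat_lit 45324, nat_lit 45336] (nat_lit 2) [nat_lit 25660] false,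
   Spec.mk (nat_lit 45362) (nat_lit 0) [nat_lit 32240, nat_lit 49736, nat_lit 44876, nat_lit 45524, nat_lit 45308, nat_lit 45364] (nat_lit 2) [] false,
   Spec.mk (nat_lit 45364) (nat_lit 0) [nat_lit 32242, nat_lit 49738, nat_lit 44878, nat_lit 45526, nat_lit 45310, nat_lit 45370, nat_lit 45362, nat_lit 45366] (nat_lit 3) [nat_lit 25682] false,
   Spec.mk (nat_lit 45366) (nat_lit 0) [nat_lit 32244, nat_lit 49740, nat_lit 44880, nat_lit 45528, nat_lit 45312, nat_lit 45372, nat_lit 45364] (nat_lit 6) [nat_lit 25684] false,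
   Spec.mk (nat_lit 45370) (nat_lit 0) [nat_lit 32248, nat_lit 49744, nat_lit 44884, nat_lit 45532, nat_lit 45316, nat_lit 45388, nat_lit 45364, nat_lit 45372] (nat_lit 4) [nat_lit 25688] false,
   Spec.mk (nat_lit 45372) (nat_lit 0) [nat_lit 32250, nat_lit 49746, nat_lit 44886, nat_lit 45534, nat_lit 45318, nat_lit 45390, nat_lit 45366, nat_lit 45378, nat_lit 45370] (nat_lit 5) [nat_lit 25690] false,
   Spec.mk (nat_lit 45378) (nat_lit 0) [nat_lit 32256, nat_lit 49752, nat_lit 44892, nat_lit 45540, nat_lit 45324, nat_lit 45396, nat_lit 45372] (nat_lit 6) [nat_lit 25696] false,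
   Spec.mk (nat_lit 45388) (nat_lit 0) [nat_lit 32266, nat_lit 49762, nat_lit 44902, nat_lit 45550, nat_lit 45334, nat_lit 45370, nat_lit 45390] (nat_lit 2) [nat_lit 25706] false,
   Spec.mk (nat_lit 45390) (nat_lit 0) [nat_lit 32268, nat_lit 49764, nat_lit 44904, nat_lit 45552, nat_lit 45336, nat_lit 45372, nat_lit 45396, nat_lit 45388] (nat_lit 4) [nat_lit 25708] false,
   Spec.mk (nat_lit 45396) (nat_lit 0) [nat_lit 32274, nat_lit 49770, nat_lit 44910, nat_lit 45558, nat_lit 45342, nat_lit 45378, nat_lit 45414, nat_lit 45390] (nat_lit 3) [nat_lit 25714] false,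
   Spec.mk (nat_lit 45414) (nat_lit 0) [nat_lit 32292, nat_lit 49788, nat_lit 44928, nat_lit 45576, nat_lit 45396] (nat_lit 2) [nat_lit 25732] false,
   Spec.mk (nat_lit 45446) (nat_lit 2) [nat_lit 32324, nat_lit 49820, nat_lit 44960, nat_lit 45284, nat_lit 45452, nat_lit 45448] (nat_lit 0) [] false,
   Spec.mk (nat_lit 45448) (nat_lit 0) [nat_lit 32326, nat_lit 49822, nat_lit 44962, nat_lit 45286, nat_lit 45454, nat_lit 45446] (nat_lit 0) [nat_lit 25766] false,
   Spec.mk (nat_lit 45452) (nat_lit 0) [nat_lit 32330, nat_lit 49826, nat_lit 44966, nat_lit 45290, nat_lit 45470, nat_lit 45446, nat_lit 45454] (nat_lit 0) [] false,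
   Spec.mk (nat_lit 45454) (nat_lit 0) [nat_lit 32332, nat_lit 49828, nat_lit 44968, nat_lit 45292, nat_lit 45472, nat_lit 45448, nat_lit 45460, nat_lit 45452, nat_lit 45456] (nat_lit 0) [nat_lit 25772] false,
   Spec.mk (nat_lit 45456) (nat_lit 0) [nat_lit 32334, nat_lit 49830, nat_lit 44970, nat_lit 45294, nat_lit 45474, nat_lit 45462, nat_lit 45454] (nat_lit 2) [nat_lit 25774] false,
   Spec.mk (nat_lit 45460) (nat_lit 0) [nat_lit 32338, nat_lit 49834, nat_lit 44974, nat_lit 45298, nat_lit 45478, nat_lit 45454, nat_lit 45462] (nat_lit 2) [nat_lit 25778] false,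
   Spec.mk (nat_lit 45462) (nat_lit 0) [nat_lit 32340, nat_lit 49836, nat_lit 44976, nat_lit 45300, nat_lit 45480, nat_lit 45456, nat_lit 45460] (nat_lit 2) [nat_lit 25780] false,
   Spec.mk (nat_lit 45470) (nat_lit 0) [nat_lit 32348, nat_lit 49844, nat_lit 44984, nat_lit 45308, nat_lit 45524, nat_lit 45452, nat_lit 45472] (nat_lit 0) [] false,
   Spec.mk (nat_lit 45472) (nat_lit 0) [nat_lit 32350, nat_lit 49846, nat_lit 44986, nat_lit 45310, nat_lit 45526, nat_lit 45454, nat_lit 45478, nat_lit 45470, nat_lit 45474] (nat_lit 1) [nat_lit 25790] false,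
   Spec.mk (nat_lit 45474) (nat_lit 0) [nat_lit 32352, nat_lit 49848, nat_lit 44988, nat_lit 45312, nat_lit 45528, nat_lit 45456, nat_lit 45480, nat_lit 45472] (nat_lit 4) [nat_lit 25792] false,
   Spec.mk (nat_lit 45478) (nat_lit 0) [nat_lit 32356, nat_lit 49852, nat_lit 44992, nat_lit 45316, nat_lit 45532, nat_lit 45460, nat_lit 45496, nat_lit 45472, nat_lit 45480] (nat_lit 1) [nat_lit 25796] false,
   Spec.mk (nat_lit 45480) (nat_lit 0) [nat_lit 32358, nat_lit 49854, nat_lit 44994, nat_lit 45318, nat_lit 45534, nat_lit 45462, nat_lit 45498, nat_lit 45474, nat_lit 45486, nat_lit 45478] (nat_lit 2) [nat_lit 25798] false,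
   Spec.mk (nat_lit 45486) (nat_lit 0) [nat_lit 32364, nat_lit 49860, nat_lit 45000, nat_lit 45324, nat_lit 45540, nat_lit 45504, nat_lit 45480] (nat_lit 2) [nat_lit 25804] false,
   Spec.mk (nat_lit 45496) (nat_lit 0) [nat_lit 32374, nat_lit 49870, nat_lit 45010, nat_lit 45334, nat_lit 45550, nat_lit 45478, nat_lit 45498] (nat_lit 2) [nat_lit 25814] false,
   Spec.mk (nat_lit 45498) (nat_lit 0) [nat_lit 32376, nat_lit 49872, nat_lit 45012, nat_lit 45336, nat_lit 45552, nat_lit 45480, nat_lit 45504, nat_lit 45496] (nat_lit 4) [nat_lit 25816] false,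
   Spec.mk (nat_lit 45504) (nat_lit 0) [nat_lit 32382, nat_lit 49878, nat_lit 45018, nat_lit 45342, nat_lit 45558, nat_lit 45486, nat_lit 45498] (nat_lit 2) [nat_lit 25822] false,
   Spec.mk (nat_lit 45524) (nat_lit 1) [nat_lit 32402, nat_lit 49898, nat_lit 45038, nat_lit 45362, nat_lit 45686, nat_lit 45470, nat_lit 45526] (nat_lit 0) [] false,
   Spec.mk (nat_lit 45526) (nat_lit 0) [nat_lit 32404, nat_lit 49900, nat_lit 45040, nat_lit 45364, nat_lit 45688, nat_lit 45472, nat_lit 45532, nat_lit 45524, nat_lit 45528] (nat_lit 0) [nat_lit 25844] false,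
   Spec.mk (nat_lit 45528) (nat_lit 0) [nat_lit 32406, nat_lit 49902, nat_lit 45042, nat_lit 45366, nat_lit 45690, nat_lit 45474, nat_lit 45534, nat_lit 45526] (nat_lit 3) [nat_lit 25846] false,
   Spec.mk (nat_lit 45532) (nat_lit 0) [nat_lit 32410, nat_lit 49906, nat_lit 45046, nat_lit 45370, nat_lit 45694, nat_lit 45478, nat_lit 45550, nat_lit 45526, nat_lit 45534] (nat_lit 1) [nat_lit 25850] false,
   Spec.mk (nat_lit 45534) (nat_lit 0) [nat_lit 32412, nat_lit 49908, nat_lit 45048, nat_lit 45372, nat_lit 45696, nat_lit 45480, nat_lit 45552, nat_lit 45528, nat_lit 45540, nat_lit 45532] (nat_lit 2) [nat_lit 25852] false,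
   Spec.mk (nat_lit 45540) (nat_lit 0) [nat_lit 32418, nat_lit 49914, nat_lit 45054, nat_lit 45378, nat_lit 45702, nat_lit 45486, nat_lit 45558, nat_lit 45534] (nat_lit 3) [nat_lit 25858] false,
   Spec.mk (nat_lit 45550) (nat_lit 0) [nat_lit 32428, nat_lit 49924, nat_lit 45064, nat_lit 45388, nat_lit 45712, nat_lit 45496, nat_lit 45604, nat_lit 45532, nat_lit 45552] (nat_lit 0) [nat_lit 25868] false,
   Spec.mk (nat_lit 45552) (nat_lit 0) [nat_lit 32430, nat_lit 49926, nat_lit 45066, nat_lit 45390, nat_lit 45714, nat_lit 45498, nat_lit 45606, nat_lit 45534, nat_lit 45558, nat_lit 45550] (nat_lit 2) [nat_lit 25870] false,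
   Spec.mk (nat_lit 45558) (nat_lit 0) [nat_lit 32436, nat_lit 49932, nat_lit 45072, nat_lit 45396, nat_lit 45720, nat_lit 45504, nat_lit 45612, nat_lit 45540, nat_lit 45576, nat_lit 45552] (nat_lit 1) [nat_lit 25876] false,
   Spec.mk (nat_lit 45576) (nat_lit 0) [nat_lit 32454, nat_lit 49950, nat_lit 45090, nat_lit 45414, nat_lit 45738, nat_lit 45630, nat_lit 45558] (nat_lit 1) [nat_lit 25894] false,
   Spec.mk (nat_lit 45604) (nat_lit 0) [nat_lit 32482, nat_lit 49978, nat_lit 45118, nat_lit 45766, nat_lit 45550, nat_lit 45606] (nat_lit 0) [nat_lit 25922] false,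
   Spec.mk (nat_lit 45606) (nat_lit 0) [nat_lit 32484, nat_lit 49980, nat_lit 45120, nat_lit 45768, nat_lit 45552, nat_lit 45612, nat_lit 45604] (nat_lit 2) [nat_lit 25924] false,
   Spec.mk (nat_lit 45612) (nat_lit 0) [nat_lit 32490, nat_lit 49986, nat_lit 45126, nat_lit 45774, nat_lit 45558, nat_lit 45630, nat_lit 45606] (nat_lit 2) [nat_lit 25930] false,
   Spec.mk (nat_lit 45630) (nat_lit 0) [nat_lit 32508, nat_lit 50004, nat_lit 45144, nat_lit 45792, nat_lit 45576, nat_lit 45612] (nat_lit 0) [nat_lit 25948] false,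
   Spec.mk (nat_lit 45686) (nat_lit 2) [nat_lit 32564, nat_lit 50060, nat_lit 45524, nat_lit 45688] (nat_lit 0) [] false,
   Spec.mk (nat_lit 45688) (nat_lit 1) [nat_lit 32566, nat_lit 50062, nat_lit 45526, nat_lit 45694, nat_lit 45686, nat_lit 45690] (nat_lit 0) [nat_lit 26006] false]

noncomputable def sp119 : List Spec :=
  [Spec.mk (nat_lit 45690) (nat_lit 0) [nat_lit 32568, nat_lit 50064, nat_lit 45528, nat_lit 45696, nat_lit 45688] (nat_lit 2) [nat_lit 26008] false,
   Spec.mk (nat_lit 45694) (nat_lit 0) [nat_lit 32572, nat_lit 50068, nat_lit 45532, nat_lit 45712, nat_lit 45688, nat_lit 45696] (nat_lit 0) [nat_lit 26012] false,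
   Spec.mk (nat_lit 45696) (nat_lit 0) [nat_lit 32574, nat_lit 50070, nat_lit 45534, nat_lit 45714, nat_lit 45690, nat_lit 45702, nat_lit 45694] (nat_lit 1) [nat_lit 26014] false,
   Spec.mk (nat_lit 45702) (nat_lit 0) [nat_lit 32580, nat_lit 50076, nat_lit 45540, nat_lit 45720, nat_lit 45696] (nat_lit 2) [nat_lit 26020] false,
   Spec.mk (nat_lit 45712) (nat_lit 0) [nat_lit 32590, nat_lit 50086, nat_lit 45550, nat_lit 45766, nat_lit 45694, nat_lit 45714] (nat_lit 0) [nat_lit 26030] false,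
   Spec.mk (nat_lit 45714) (nat_lit 0) [nat_lit 32592, nat_lit 50088, nat_lit 45552, nat_lit 45768, nat_lit 45696, nat_lit 45720, nat_lit 45712] (nat_lit 2) [nat_lit 26032] false,
   Spec.mk (nat_lit 45720) (nat_lit 0) [nat_lit 32598, nat_lit 50094, nat_lit 45558, nat_lit 45774, nat_lit 45702, nat_lit 45738, nat_lit 45714] (nat_lit 1) [nat_lit 26038] false,
   Spec.mk (nat_lit 45738) (nat_lit 0) [nat_lit 32616, nat_lit 50112, nat_lit 45576, nat_lit 45792, nat_lit 45720] (nat_lit 2) [nat_lit 26056] false,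
   Spec.mk (nat_lit 45766) (nat_lit 2) [nat_lit 32644, nat_lit 50140, nat_lit 45604, nat_lit 45712, nat_lit 45768] (nat_lit 0) [nat_lit 26084] false,
   Spec.mk (nat_lit 45768) (nat_lit 0) [nat_lit 32646, nat_lit 50142, nat_lit 45606, nat_lit 45714, nat_lit 45774, nat_lit 45766] (nat_lit 0) [nat_lit 26086] false,
   Spec.mk (nat_lit 45774) (nat_lit 0) [nat_lit 32652, nat_lit 50148, nat_lit 45612, nat_lit 45720, nat_lit 45792, nat_lit 45768] (nat_lit 0) [nat_lit 26092] false,
   Spec.mk (nat_lit 45792) (nat_lit 1) [nat_lit 32670, nat_lit 50166, nat_lit 45630, nat_lit 45738, nat_lit 45846, nat_lit 45774] (nat_lit 0) [nat_lit 26110] false,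
   Spec.mk (nat_lit 45846) (nat_lit 2) [nat_lit 32724, nat_lit 50220, nat_lit 45792] (nat_lit 0) [nat_lit 26164] false,
   Spec.mk (nat_lit 45980) (nat_lit 6) [nat_lit 32858, nat_lit 41606, nat_lit 46034, nat_lit 45998] (nat_lit 0) [] false,
   Spec.mk (nat_lit 45998) (nat_lit 4) [nat_lit 32876, nat_lit 41624, nat_lit 46052, nat_lit 45980, nat_lit 46004] (nat_lit 0) [] false,
   Spec.mk (nat_lit 46004) (nat_lit 4) [nat_lit 32882, nat_lit 41630, nat_lit 46058, nat_lit 45998, nat_lit 46006] (nat_lit 0) [] false,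
   Spec.mk (nat_lit 46006) (nat_lit 4) [nat_lit 32884, nat_lit 41632, nat_lit 46060, nat_lit 46004] (nat_lit 0) [nat_lit 26324] false,
   Spec.mk (nat_lit 46034) (nat_lit 4) [nat_lit 32912, nat_lit 41660, nat_lit 46196, nat_lit 45980, nat_lit 46052] (nat_lit 0) [] false,
   Spec.mk (nat_lit 46052) (nat_lit 4) [nat_lit 32930, nat_lit 41678, nat_lit 46214, nat_lit 45998, nat_lit 46106, nat_lit 46034, nat_lit 46070, nat_lit 46058] (nat_lit 0) [] false,
   Spec.mk (nat_lit 46058) (nat_lit 3) [nat_lit 32936, nat_lit 41684, nat_lit 46220, nat_lit 46004, nat_lit 46112, nat_lit 46076, nat_lit 46052, nat_lit 46060] (nat_lit 0) [] false,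
   Spec.mk (nat_lit 46060) (nat_lit 3) [nat_lit 32938, nat_lit 41686, nat_lit 46222, nat_lit 46006, nat_lit 46114, nat_lit 46078, nat_lit 46058] (nat_lit 0) [nat_lit 26378] false,
   Spec.mk (nat_lit 46070) (nat_lit 2) [nat_lit 32948, nat_lit 41696, nat_lit 46232, nat_lit 46124, nat_lit 46052, nat_lit 46076] (nat_lit 0) [] false,
   Spec.mk (nat_lit 46076) (nat_lit 3) [nat_lit 32954, nat_lit 41702, nat_lit 46238, nat_lit 46130, nat_lit 46058, nat_lit 46070, nat_lit 46082, nat_lit 46078] (nat_lit 0) [] false,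
   Spec.mk (nat_lit 46078) (nat_lit 2) [nat_lit 32956, nat_lit 41704, nat_lit 46240, nat_lit 46132, nat_lit 46060, nat_lit 46084, nat_lit 46076] (nat_lit 0) [nat_lit 26396] false,
   Spec.mk (nat_lit 46082) (nat_lit 2) [nat_lit 32960, nat_lit 41708, nat_lit 46244, nat_lit 46136, nat_lit 46076, nat_lit 46084] (nat_lit 0) [] false,
   Spec.mk (nat_lit 46084) (nat_lit 3) [nat_lit 32962, nat_lit 41710, nat_lit 46246, nat_lit 46138, nat_lit 46078, nat_lit 46082, nat_lit 46086] (nat_lit 0) [nat_lit 26402] false,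
   Spec.mk (nat_lit 46086) (nat_lit 2) [nat_lit 32964, nat_lit 41712, nat_lit 46248, nat_lit 46140, nat_lit 46084] (nat_lit 0) [nat_lit 26404] false,
   Spec.mk (nat_lit 46106) (nat_lit 2) [nat_lit 32984, nat_lit 41732, nat_lit 46268, nat_lit 46052, nat_lit 46124, nat_lit 46112] (nat_lit 0) [] false,
   Spec.mk (nat_lit 46112) (nat_lit 0) [nat_lit 32990, nat_lit 41738, nat_lit 46274, nat_lit 46058, nat_lit 46130, nat_lit 46106, nat_lit 46114] (nat_lit 0) [] false,
   Spec.mk (nat_lit 46114) (nat_lit 0) [nat_lit 32992, nat_lit 41740, nat_lit 46276, nat_lit 46060, nat_lit 46132, nat_lit 46112] (nat_lit 0) [nat_lit 26432] false,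
   Spec.mk (nat_lit 46124) (nat_lit 2) [nat_lit 33002, nat_lit 41750, nat_lit 46286, nat_lit 46070, nat_lit 46106, nat_lit 46130] (nat_lit 0) [] false,
   Spec.mk (nat_lit 46130) (nat_lit 2) [nat_lit 33008, nat_lit 41756, nat_lit 46292, nat_lit 46076, nat_lit 46112, nat_lit 46148, nat_lit 46124, nat_lit 46136, nat_lit 46132] (nat_lit 0) [] false,
   Spec.mk (nat_lit 46132) (nat_lit 1) [nat_lit 33010, nat_lit 41758, nat_lit 46294, nat_lit 46078, nat_lit 46114, nat_lit 46150, nat_lit 46138, nat_lit 46130] (nat_lit 0) [nat_lit 26450] false,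
   Spec.mk (nat_lit 46136) (nat_lit 0) [nat_lit 33014, nat_lit 41762, nat_lit 46298, nat_lit 46082, nat_lit 46154, nat_lit 46130, nat_lit 46138] (nat_lit 0) [] false,
   Spec.mk (nat_lit 46138) (nat_lit 1) [nat_lit 33016, nat_lit 41764, nat_lit 46300, nat_lit 46084, nat_lit 46156, nat_lit 46132, nat_lit 46136, nat_lit 46140] (nat_lit 0) [nat_lit 26456] false,
   Spec.mk (nat_lit 46140) (nat_lit 0) [nat_lit 33018, nat_lit 41766, nat_lit 46302, nat_lit 46086, nat_lit 46158, nat_lit 46138] (nat_lit 0) [nat_lit 26458] false,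
   Spec.mk (nat_lit 46148) (nat_lit 2) [nat_lit 33026, nat_lit 41774, nat_lit 46310, nat_lit 46130, nat_lit 46154, nat_lit 46150] (nat_lit 0) [] false,
   Spec.mk (nat_lit 46150) (nat_lit 0) [nat_lit 33028, nat_lit 41776, nat_lit 46312, nat_lit 46132, nat_lit 46156, nat_lit 46148] (nat_lit 0) [nat_lit 26468] false,
   Spec.mk (nat_lit 46154) (nat_lit 2) [nat_lit 33032, nat_lit 41780, nat_lit 46316, nat_lit 46136, nat_lit 46148, nat_lit 46156] (nat_lit 0) [] false,
   Spec.mk (nat_lit 46156) (nat_lit 2) [nat_lit 33034, nat_lit 41782, nat_lit 46318, nat_lit 46138, nat_lit 46150, nat_lit 46162, nat_lit 46154, nat_lit 46158] (nat_lit 0) [nat_lit 26474] false,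
   Spec.mk (nat_lit 46158) (nat_lit 0) [nat_lit 33036, nat_lit 41784, nat_lit 46320, nat_lit 46140, nat_lit 46164, nat_lit 46156] (nat_lit 0) [nat_lit 26476] false,
   Spec.mk (nat_lit 46162) (nat_lit 2) [nat_lit 33040, nat_lit 41788, nat_lit 46324, nat_lit 46156, nat_lit 46164] (nat_lit 0) [nat_lit 26480] false,
   Spec.mk (nat_lit 46164) (nat_lit 2) [nat_lit 33042, nat_lit 41790, nat_lit 46326, nat_lit 46158, nat_lit 46162] (nat_lit 0) [nat_lit 26482] false,
   Spec.mk (nat_lit 46196) (nat_lit 4) [nat_lit 33074, nat_lit 41822, nat_lit 46682, nat_lit 46034, nat_lit 46214] (nat_lit 0) [] false,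
   Spec.mk (nat_lit 46214) (nat_lit 3) [nat_lit 33092, nat_lit 41840, nat_lit 46700, nat_lit 46052, nat_lit 46268, nat_lit 46196, nat_lit 46232, nat_lit 46220] (nat_lit 0) [] false,
   Spec.mk (nat_lit 46220) (nat_lit 2) [nat_lit 33098, nat_lit 41846, nat_lit 46706, nat_lit 46058, nat_lit 46274, nat_lit 46238, nat_lit 46214, nat_lit 46222] (nat_lit 0) [] false,
   Spec.mk (nat_lit 46222) (nat_lit 2) [nat_lit 33100, nat_lit 41848, nat_lit 46708, nat_lit 46060, nat_lit 46276, nat_lit 46240, nat_lit 46220] (nat_lit 0) [nat_lit 26540] false,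
   Spec.mk (nat_lit 46232) (nat_lit 0) [nat_lit 33110, nat_lit 41858, nat_lit 46718, nat_lit 46070, nat_lit 46286, nat_lit 46214, nat_lit 46238] (nat_lit 0) [] false,
   Spec.mk (nat_lit 46238) (nat_lit 1) [nat_lit 33116, nat_lit 41864, nat_lit 46724, nat_lit 46076, nat_lit 46292, nat_lit 46220, nat_lit 46232, nat_lit 46244, nat_lit 46240] (nat_lit 0) [] false,
   Spec.mk (nat_lit 46240) (nat_lit 0) [nat_lit 33118, nat_lit 41866, nat_lit 46726, nat_lit 46078, nat_lit 46294, nat_lit 46222, nat_lit 46246, nat_lit 46238] (nat_lit 0) [nat_lit 26558] false,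
   Spec.mk (nat_lit 46244) (nat_lit 0) [nat_lit 33122, nat_lit 41870, nat_lit 46730, nat_lit 46082, nat_lit 46298, nat_lit 46238, nat_lit 46246] (nat_lit 0) [] false,
   Spec.mk (nat_lit 46246) (nat_lit 1) [nat_lit 33124, nat_lit 41872, nat_lit 46732, nat_lit 46084, nat_lit 46300, nat_lit 46240, nat_lit 46244, nat_lit 46248] (nat_lit 0) [nat_lit 26564] false,
   Spec.mk (nat_lit 46248) (nat_lit 0) [nat_lit 33126, nat_lit 41874, nat_lit 46734, nat_lit 46086, nat_lit 46302, nat_lit 46246] (nat_lit 0) [nat_lit 26566] false,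
   Spec.mk (nat_lit 46268) (nat_lit 3) [nat_lit 33146, nat_lit 41894, nat_lit 46754, nat_lit 46106, nat_lit 46430, nat_lit 46214, nat_lit 46286, nat_lit 46274] (nat_lit 0) [] false,
   Spec.mk (nat_lit 46274) (nat_lit 1) [nat_lit 33152, nat_lit 41900, nat_lit 46760, nat_lit 46112, nat_lit 46436, nat_lit 46220, nat_lit 46292, nat_lit 46268, nat_lit 46276] (nat_lit 0) [] false,
   Spec.mk (nat_lit 46276) (nat_lit 1) [nat_lit 33154, nat_lit 41902, nat_lit 46762, nat_lit 46114, nat_lit 46438, nat_lit 46222, nat_lit 46294, nat_lit 46274] (nat_lit 0) [nat_lit 26594] false,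
   Spec.mk (nat_lit 46286) (nat_lit 2) [nat_lit 33164, nat_lit 41912, nat_lit 46772, nat_lit 46124, nat_lit 46448, nat_lit 46232, nat_lit 46340, nat_lit 46268, nat_lit 46292] (nat_lit 0) [] false,
   Spec.mk (nat_lit 46292) (nat_lit 2) [nat_lit 33170, nat_lit 41918, nat_lit 46778, nat_lit 46130, nat_lit 46454, nat_lit 46238, nat_lit 46346, nat_lit 46274, nat_lit 46310, nat_lit 46286, nat_lit 46298, nat_lit 46294] (nat_lit 0) [] false,
   Spec.mk (nat_lit 46294) (nat_lit 1) [nat_lit 33172, nat_lit 41920, nat_lit 46780, nat_lit 46132, nat_lit 46456, nat_lit 46240, nat_lit 46348, nat_lit 46276, nat_lit 46312, nat_lit 46300, nat_lit 46292] (nat_lit 0) [nat_lit 26612] false,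
   Spec.mk (nat_lit 46298) (nat_lit 0) [nat_lit 33176, nat_lit 41924, nat_lit 46784, nat_lit 46136, nat_lit 46460, nat_lit 46244, nat_lit 46352, nat_lit 46316, nat_lit 46292, nat_lit 46300] (nat_lit 0) [] false]

noncomputable def sp120 : List Spec :=
  [Spec.mk (nat_lit 46300) (nat_lit 1) [nat_lit 33178, nat_lit 41926, nat_lit 46786, nat_lit 46138, nat_lit 46462, nat_lit 46246, nat_lit 46354, nat_lit 46318, nat_lit 46294, nat_lit 46298, nat_lit 46302] (nat_lit 0) [nat_lit 26618] false,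
   Spec.mk (nat_lit 46302) (nat_lit 0) [nat_lit 33180, nat_lit 41928, nat_lit 46788, nat_lit 46140, nat_lit 46464, nat_lit 46248, nat_lit 46356, nat_lit 46320, nat_lit 46300] (nat_lit 0) [nat_lit 26620] false,
   Spec.mk (nat_lit 46310) (nat_lit 1) [nat_lit 33188, nat_lit 41936, nat_lit 46796, nat_lit 46148, nat_lit 46472, nat_lit 46364, nat_lit 46292, nat_lit 46316, nat_lit 46312] (nat_lit 0) [] false,
   Spec.mk (nat_lit 46312) (nat_lit 0) [nat_lit 33190, nat_lit 41938, nat_lit 46798, nat_lit 46150, nat_lit 46474, nat_lit 46366, nat_lit 46294, nat_lit 46318, nat_lit 46310] (nat_lit 1) [nat_lit 26630] false,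
   Spec.mk (nat_lit 46316) (nat_lit 1) [nat_lit 33194, nat_lit 41942, nat_lit 46802, nat_lit 46154, nat_lit 46478, nat_lit 46370, nat_lit 46298, nat_lit 46310, nat_lit 46318] (nat_lit 0) [] false,
   Spec.mk (nat_lit 46318) (nat_lit 1) [nat_lit 33196, nat_lit 41944, nat_lit 46804, nat_lit 46156, nat_lit 46480, nat_lit 46372, nat_lit 46300, nat_lit 46312, nat_lit 46324, nat_lit 46316, nat_lit 46320] (nat_lit 0) [nat_lit 26636] false,
   Spec.mk (nat_lit 46320) (nat_lit 0) [nat_lit 33198, nat_lit 41946, nat_lit 46806, nat_lit 46158, nat_lit 46482, nat_lit 46374, nat_lit 46302, nat_lit 46326, nat_lit 46318] (nat_lit 1) [nat_lit 26638] false,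
   Spec.mk (nat_lit 46324) (nat_lit 1) [nat_lit 33202, nat_lit 41950, nat_lit 46810, nat_lit 46162, nat_lit 46486, nat_lit 46378, nat_lit 46318, nat_lit 46326] (nat_lit 0) [nat_lit 26642] false,
   Spec.mk (nat_lit 46326) (nat_lit 1) [nat_lit 33204, nat_lit 41952, nat_lit 46812, nat_lit 46164, nat_lit 46488, nat_lit 46380, nat_lit 46320, nat_lit 46324] (nat_lit 0) [nat_lit 26644] false,
   Spec.mk (nat_lit 46340) (nat_lit 2) [nat_lit 33218, nat_lit 41966, nat_lit 46826, nat_lit 46502, nat_lit 46286, nat_lit 46346] (nat_lit 0) [] false,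
   Spec.mk (nat_lit 46346) (nat_lit 1) [nat_lit 33224, nat_lit 41972, nat_lit 46832, nat_lit 46508, nat_lit 46292, nat_lit 46364, nat_lit 46340, nat_lit 46352, nat_lit 46348] (nat_lit 0) [] false,
   Spec.mk (nat_lit 46348) (nat_lit 0) [nat_lit 33226, nat_lit 41974, nat_lit 46834, nat_lit 46510, nat_lit 46294, nat_lit 46366, nat_lit 46354, nat_lit 46346] (nat_lit 0) [nat_lit 26666] false,
   Spec.mk (nat_lit 46352) (nat_lit 0) [nat_lit 33230, nat_lit 41978, nat_lit 46838, nat_lit 46514, nat_lit 46298, nat_lit 46370, nat_lit 46346, nat_lit 46354] (nat_lit 2) [] false,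
   Spec.mk (nat_lit 46354) (nat_lit 0) [nat_lit 33232, nat_lit 41980, nat_lit 46840, nat_lit 46516, nat_lit 46300, nat_lit 46372, nat_lit 46348, nat_lit 46352, nat_lit 46356] (nat_lit 1) [nat_lit 26672] false,
   Spec.mk (nat_lit 46356) (nat_lit 0) [nat_lit 33234, nat_lit 41982, nat_lit 46842, nat_lit 46518, nat_lit 46302, nat_lit 46374, nat_lit 46354] (nat_lit 2) [nat_lit 26674] false,
   Spec.mk (nat_lit 46364) (nat_lit 2) [nat_lit 33242, nat_lit 41990, nat_lit 46850, nat_lit 46526, nat_lit 46310, nat_lit 46346, nat_lit 46370, nat_lit 46366] (nat_lit 0) [] false,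
   Spec.mk (nat_lit 46366) (nat_lit 0) [nat_lit 33244, nat_lit 41992, nat_lit 46852, nat_lit 46528, nat_lit 46312, nat_lit 46348, nat_lit 46372, nat_lit 46364] (nat_lit 0) [nat_lit 26684] false,
   Spec.mk (nat_lit 46370) (nat_lit 1) [nat_lit 33248, nat_lit 41996, nat_lit 46856, nat_lit 46532, nat_lit 46316, nat_lit 46352, nat_lit 46388, nat_lit 46364, nat_lit 46372] (nat_lit 0) [] false,
   Spec.mk (nat_lit 46372) (nat_lit 1) [nat_lit 33250, nat_lit 41998, nat_lit 46858, nat_lit 46534, nat_lit 46318, nat_lit 46354, nat_lit 46390, nat_lit 46366, nat_lit 46378, nat_lit 46370, nat_lit 46374] (nat_lit 0) [nat_lit 26690] false,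
   Spec.mk (nat_lit 46374) (nat_lit 0) [nat_lit 33252, nat_lit 42000, nat_lit 46860, nat_lit 46536, nat_lit 46320, nat_lit 46356, nat_lit 46392, nat_lit 46380, nat_lit 46372] (nat_lit 1) [nat_lit 26692] false,
   Spec.mk (nat_lit 46378) (nat_lit 0) [nat_lit 33256, nat_lit 42004, nat_lit 46864, nat_lit 46540, nat_lit 46324, nat_lit 46396, nat_lit 46372, nat_lit 46380] (nat_lit 0) [nat_lit 26696] false,
   Spec.mk (nat_lit 46380) (nat_lit 0) [nat_lit 33258, nat_lit 42006, nat_lit 46866, nat_lit 46542, nat_lit 46326, nat_lit 46398, nat_lit 46374, nat_lit 46378] (nat_lit 0) [nat_lit 26698] false,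
   Spec.mk (nat_lit 46388) (nat_lit 2) [nat_lit 33266, nat_lit 42014, nat_lit 46874, nat_lit 46550, nat_lit 46370, nat_lit 46390] (nat_lit 0) [] false,
   Spec.mk (nat_lit 46390) (nat_lit 1) [nat_lit 33268, nat_lit 42016, nat_lit 46876, nat_lit 46552, nat_lit 46372, nat_lit 46396, nat_lit 46388, nat_lit 46392] (nat_lit 0) [nat_lit 26708] false,
   Spec.mk (nat_lit 46392) (nat_lit 0) [nat_lit 33270, nat_lit 42018, nat_lit 46878, nat_lit 46554, nat_lit 46374, nat_lit 46398, nat_lit 46390] (nat_lit 2) [nat_lit 26710] false,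
   Spec.mk (nat_lit 46396) (nat_lit 2) [nat_lit 33274, nat_lit 42022, nat_lit 46882, nat_lit 46558, nat_lit 46378, nat_lit 46390, nat_lit 46398] (nat_lit 0) [nat_lit 26714] false,
   Spec.mk (nat_lit 46398) (nat_lit 1) [nat_lit 33276, nat_lit 42024, nat_lit 46884, nat_lit 46560, nat_lit 46380, nat_lit 46392, nat_lit 46404, nat_lit 46396] (nat_lit 0) [nat_lit 26716] false,
   Spec.mk (nat_lit 46404) (nat_lit 2) [nat_lit 33282, nat_lit 42030, nat_lit 46890, nat_lit 46566, nat_lit 46398] (nat_lit 0) [nat_lit 26722] false,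
   Spec.mk (nat_lit 46430) (nat_lit 2) [nat_lit 33308, nat_lit 42056, nat_lit 46916, nat_lit 46268, nat_lit 46448, nat_lit 46436] (nat_lit 0) [] false,
   Spec.mk (nat_lit 46436) (nat_lit 0) [nat_lit 33314, nat_lit 42062, nat_lit 46922, nat_lit 46274, nat_lit 46454, nat_lit 46430, nat_lit 46438] (nat_lit 0) [] false,
   Spec.mk (nat_lit 46438) (nat_lit 0) [nat_lit 33316, nat_lit 42064, nat_lit 46924, nat_lit 46276, nat_lit 46456, nat_lit 46436] (nat_lit 0) [nat_lit 26756] false,
   Spec.mk (nat_lit 46448) (nat_lit 0) [nat_lit 33326, nat_lit 42074, nat_lit 46934, nat_lit 46286, nat_lit 46502, nat_lit 46430, nat_lit 46454] (nat_lit 0) [] false,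
   Spec.mk (nat_lit 46454) (nat_lit 0) [nat_lit 33332, nat_lit 42080, nat_lit 46940, nat_lit 46292, nat_lit 46508, nat_lit 46436, nat_lit 46472, nat_lit 46448, nat_lit 46460, nat_lit 46456] (nat_lit 0) [] false,
   Spec.mk (nat_lit 46456) (nat_lit 0) [nat_lit 33334, nat_lit 42082, nat_lit 46942, nat_lit 46294, nat_lit 46510, nat_lit 46438, nat_lit 46474, nat_lit 46462, nat_lit 46454] (nat_lit 1) [nat_lit 26774] false,
   Spec.mk (nat_lit 46460) (nat_lit 0) [nat_lit 33338, nat_lit 42086, nat_lit 46946, nat_lit 46298, nat_lit 46514, nat_lit 46478, nat_lit 46454, nat_lit 46462] (nat_lit 2) [] false,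
   Spec.mk (nat_lit 46462) (nat_lit 0) [nat_lit 33340, nat_lit 42088, nat_lit 46948, nat_lit 46300, nat_lit 46516, nat_lit 46480, nat_lit 46456, nat_lit 46460, nat_lit 46464] (nat_lit 1) [nat_lit 26780] false,
   Spec.mk (nat_lit 46464) (nat_lit 0) [nat_lit 33342, nat_lit 42090, nat_lit 46950, nat_lit 46302, nat_lit 46518, nat_lit 46482, nat_lit 46462] (nat_lit 2) [nat_lit 26782] false,
   Spec.mk (nat_lit 46472) (nat_lit 0) [nat_lit 33350, nat_lit 42098, nat_lit 46958, nat_lit 46310, nat_lit 46526, nat_lit 46454, nat_lit 46478, nat_lit 46474] (nat_lit 2) [] false,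
   Spec.mk (nat_lit 46474) (nat_lit 0) [nat_lit 33352, nat_lit 42100, nat_lit 46960, nat_lit 46312, nat_lit 46528, nat_lit 46456, nat_lit 46480, nat_lit 46472] (nat_lit 4) [nat_lit 26792] false,
   Spec.mk (nat_lit 46478) (nat_lit 0) [nat_lit 33356, nat_lit 42104, nat_lit 46964, nat_lit 46316, nat_lit 46532, nat_lit 46460, nat_lit 46472, nat_lit 46480] (nat_lit 2) [] false,
   Spec.mk (nat_lit 46480) (nat_lit 0) [nat_lit 33358, nat_lit 42106, nat_lit 46966, nat_lit 46318, nat_lit 46534, nat_lit 46462, nat_lit 46474, nat_lit 46486, nat_lit 46478, nat_lit 46482] (nat_lit 2) [nat_lit 26798] false,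
   Spec.mk (nat_lit 46482) (nat_lit 0) [nat_lit 33360, nat_lit 42108, nat_lit 46968, nat_lit 46320, nat_lit 46536, nat_lit 46464, nat_lit 46488, nat_lit 46480] (nat_lit 4) [nat_lit 26800] false,
   Spec.mk (nat_lit 46486) (nat_lit 0) [nat_lit 33364, nat_lit 42112, nat_lit 46972, nat_lit 46324, nat_lit 46540, nat_lit 46480, nat_lit 46488] (nat_lit 2) [nat_lit 26804] false,
   Spec.mk (nat_lit 46488) (nat_lit 0) [nat_lit 33366, nat_lit 42114, nat_lit 46974, nat_lit 46326, nat_lit 46542, nat_lit 46482, nat_lit 46486] (nat_lit 2) [nat_lit 26806] false,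
   Spec.mk (nat_lit 46502) (nat_lit 2) [nat_lit 33380, nat_lit 42128, nat_lit 46988, nat_lit 46340, nat_lit 46448, nat_lit 46508] (nat_lit 0) [] false,
   Spec.mk (nat_lit 46508) (nat_lit 1) [nat_lit 33386, nat_lit 42134, nat_lit 46994, nat_lit 46346, nat_lit 46454, nat_lit 46526, nat_lit 46502, nat_lit 46514, nat_lit 46510] (nat_lit 0) [] false,
   Spec.mk (nat_lit 46510) (nat_lit 0) [nat_lit 33388, nat_lit 42136, nat_lit 46996, nat_lit 46348, nat_lit 46456, nat_lit 46528, nat_lit 46516, nat_lit 46508] (nat_lit 0) [nat_lit 26828] false,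
   Spec.mk (nat_lit 46514) (nat_lit 0) [nat_lit 33392, nat_lit 42140, nat_lit 47000, nat_lit 46352, nat_lit 46460, nat_lit 46532, nat_lit 46508, nat_lit 46516] (nat_lit 2) [] false,
   Spec.mk (nat_lit 46516) (nat_lit 0) [nat_lit 33394, nat_lit 42142, nat_lit 47002, nat_lit 46354, nat_lit 46462, nat_lit 46534, nat_lit 46510, nat_lit 46514, nat_lit 46518] (nat_lit 1) [nat_lit 26834] false,
   Spec.mk (nat_lit 46518) (nat_lit 0) [nat_lit 33396, nat_lit 42144, nat_lit 47004, nat_lit 46356, nat_lit 46464, nat_lit 46536, nat_lit 46516] (nat_lit 2) [nat_lit 26836] false,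
   Spec.mk (nat_lit 46526) (nat_lit 1) [nat_lit 33404, nat_lit 42152, nat_lit 47012, nat_lit 46364, nat_lit 46472, nat_lit 46580, nat_lit 46508, nat_lit 46532, nat_lit 46528] (nat_lit 0) [] false,
   Spec.mk (nat_lit 46528) (nat_lit 0) [nat_lit 33406, nat_lit 42154, nat_lit 47014, nat_lit 46366, nat_lit 46474, nat_lit 46582, nat_lit 46510, nat_lit 46534, nat_lit 46526] (nat_lit 1) [nat_lit 26846] false,
   Spec.mk (nat_lit 46532) (nat_lit 0) [nat_lit 33410, nat_lit 42158, nat_lit 47018, nat_lit 46370, nat_lit 46478, nat_lit 46586, nat_lit 46514, nat_lit 46550, nat_lit 46526, nat_lit 46534] (nat_lit 0) [] false,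
   Spec.mk (nat_lit 46534) (nat_lit 0) [nat_lit 33412, nat_lit 42160, nat_lit 47020, nat_lit 46372, nat_lit 46480, nat_lit 46588, nat_lit 46516, nat_lit 46552, nat_lit 46528, nat_lit 46540, nat_lit 46532, nat_lit 46536] (nat_lit 0) [nat_lit 26852] false,
   Spec.mk (nat_lit 46536) (nat_lit 0) [nat_lit 33414, nat_lit 42162, nat_lit 47022, nat_lit 46374, nat_lit 46482, nat_lit 46590, nat_lit 46518, nat_lit 46554, nat_lit 46542, nat_lit 46534] (nat_lit 2) [nat_lit 26854] false,
   Spec.mk (nat_lit 46540) (nat_lit 0) [nat_lit 33418, nat_lit 42166, nat_lit 47026, nat_lit 46378, nat_lit 46486, nat_lit 46594, nat_lit 46558, nat_lit 46534, nat_lit 46542] (nat_lit 1) [nat_lit 26858] false,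
   Spec.mk (nat_lit 46542) (nat_lit 0) [nat_lit 33420, nat_lit 42168, nat_lit 47028, nat_lit 46380, nat_lit 46488, nat_lit 46596, nat_lit 46560, nat_lit 46536, nat_lit 46540] (nat_lit 1) [nat_lit 26860] false,
   Spec.mk (nat_lit 46550) (nat_lit 0) [nat_lit 33428, nat_lit 42176, nat_lit 47036, nat_lit 46388, nat_lit 46604, nat_lit 46532, nat_lit 46552] (nat_lit 0) [] false,
   Spec.mk (nat_lit 46552) (nat_lit 0) [nat_lit 33430, nat_lit 42178, nat_lit 47038, nat_lit 46390, nat_lit 46606, nat_lit 46534, nat_lit 46558, nat_lit 46550, nat_lit 46554] (nat_lit 1) [nat_lit 26870] false,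
   Spec.mk (nat_lit 46554) (nat_lit 0) [nat_lit 33432, nat_lit 42180, nat_lit 47040, nat_lit 46392, nat_lit 46608, nat_lit 46536, nat_lit 46560, nat_lit 46552] (nat_lit 4) [nat_lit 26872] false]

noncomputable def sp121 : List Spec :=
  [Spec.mk (nat_lit 46558) (nat_lit 0) [nat_lit 33436, nat_lit 42184, nat_lit 47044, nat_lit 46396, nat_lit 46612, nat_lit 46540, nat_lit 46552, nat_lit 46560] (nat_lit 0) [nat_lit 26876] false,
   Spec.mk (nat_lit 46560) (nat_lit 0) [nat_lit 33438, nat_lit 42186, nat_lit 47046, nat_lit 46398, nat_lit 46614, nat_lit 46542, nat_lit 46554, nat_lit 46566, nat_lit 46558] (nat_lit 1) [nat_lit 26878] false,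
   Spec.mk (nat_lit 46566) (nat_lit 0) [nat_lit 33444, nat_lit 42192, nat_lit 47052, nat_lit 46404, nat_lit 46620, nat_lit 46560] (nat_lit 0) [nat_lit 26884] false,
   Spec.mk (nat_lit 46580) (nat_lit 2) [nat_lit 33458, nat_lit 42206, nat_lit 47066, nat_lit 46526, nat_lit 46586, nat_lit 46582] (nat_lit 0) [] false,
   Spec.mk (nat_lit 46582) (nat_lit 0) [nat_lit 33460, nat_lit 42208, nat_lit 47068, nat_lit 46528, nat_lit 46588, nat_lit 46580] (nat_lit 0) [nat_lit 26900] false,
   Spec.mk (nat_lit 46586) (nat_lit 0) [nat_lit 33464, nat_lit 42212, nat_lit 47072, nat_lit 46532, nat_lit 46604, nat_lit 46580, nat_lit 46588] (nat_lit 0) [] false,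
   Spec.mk (nat_lit 46588) (nat_lit 0) [nat_lit 33466, nat_lit 42214, nat_lit 47074, nat_lit 46534, nat_lit 46606, nat_lit 46582, nat_lit 46594, nat_lit 46586, nat_lit 46590] (nat_lit 0) [nat_lit 26906] false,
   Spec.mk (nat_lit 46590) (nat_lit 0) [nat_lit 33468, nat_lit 42216, nat_lit 47076, nat_lit 46536, nat_lit 46608, nat_lit 46596, nat_lit 46588] (nat_lit 2) [nat_lit 26908] false,
   Spec.mk (nat_lit 46594) (nat_lit 0) [nat_lit 33472, nat_lit 42220, nat_lit 47080, nat_lit 46540, nat_lit 46612, nat_lit 46588, nat_lit 46596] (nat_lit 2) [nat_lit 26912] false,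
   Spec.mk (nat_lit 46596) (nat_lit 0) [nat_lit 33474, nat_lit 42222, nat_lit 47082, nat_lit 46542, nat_lit 46614, nat_lit 46590, nat_lit 46594] (nat_lit 2) [nat_lit 26914] false,
   Spec.mk (nat_lit 46604) (nat_lit 2) [nat_lit 33482, nat_lit 42230, nat_lit 47090, nat_lit 46550, nat_lit 46586, nat_lit 46606] (nat_lit 0) [] false,
   Spec.mk (nat_lit 46606) (nat_lit 1) [nat_lit 33484, nat_lit 42232, nat_lit 47092, nat_lit 46552, nat_lit 46588, nat_lit 46612, nat_lit 46604, nat_lit 46608] (nat_lit 0) [nat_lit 26924] false,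
   Spec.mk (nat_lit 46608) (nat_lit 0) [nat_lit 33486, nat_lit 42234, nat_lit 47094, nat_lit 46554, nat_lit 46590, nat_lit 46614, nat_lit 46606] (nat_lit 2) [nat_lit 26926] false,
   Spec.mk (nat_lit 46612) (nat_lit 1) [nat_lit 33490, nat_lit 42238, nat_lit 47098, nat_lit 46558, nat_lit 46594, nat_lit 46630, nat_lit 46606, nat_lit 46614] (nat_lit 0) [nat_lit 26930] false,
   Spec.mk (nat_lit 46614) (nat_lit 0) [nat_lit 33492, nat_lit 42240, nat_lit 47100, nat_lit 46560, nat_lit 46596, nat_lit 46632, nat_lit 46608, nat_lit 46620, nat_lit 46612] (nat_lit 0) [nat_lit 26932] false,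
   Spec.mk (nat_lit 46620) (nat_lit 0) [nat_lit 33498, nat_lit 42246, nat_lit 47106, nat_lit 46566, nat_lit 46638, nat_lit 46614] (nat_lit 0) [nat_lit 26938] false,
   Spec.mk (nat_lit 46630) (nat_lit 2) [nat_lit 33508, nat_lit 42256, nat_lit 47116, nat_lit 46612, nat_lit 46632] (nat_lit 0) [nat_lit 26948] false,
   Spec.mk (nat_lit 46632) (nat_lit 0) [nat_lit 33510, nat_lit 42258, nat_lit 47118, nat_lit 46614, nat_lit 46638, nat_lit 46630] (nat_lit 0) [nat_lit 26950] false,
   Spec.mk (nat_lit 46638) (nat_lit 2) [nat_lit 33516, nat_lit 42264, nat_lit 47124, nat_lit 46620, nat_lit 46632] (nat_lit 0) [nat_lit 26956] false,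
   Spec.mk (nat_lit 46682) (nat_lit 4) [nat_lit 33560, nat_lit 42308, nat_lit 48140, nat_lit 46196, nat_lit 46700] (nat_lit 0) [] false,
   Spec.mk (nat_lit 46700) (nat_lit 3) [nat_lit 33578, nat_lit 42326, nat_lit 48158, nat_lit 46214, nat_lit 46754, nat_lit 46682, nat_lit 46718, nat_lit 46706] (nat_lit 0) [] false,
   Spec.mk (nat_lit 46706) (nat_lit 2) [nat_lit 33584, nat_lit 42332, nat_lit 48164, nat_lit 46220, nat_lit 46760, nat_lit 46724, nat_lit 46700, nat_lit 46708] (nat_lit 0) [] false,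
   Spec.mk (nat_lit 46708) (nat_lit 2) [nat_lit 33586, nat_lit 42334, nat_lit 48166, nat_lit 46222, nat_lit 46762, nat_lit 46726, nat_lit 46706] (nat_lit 0) [nat_lit 27026] false,
   Spec.mk (nat_lit 46718) (nat_lit 0) [nat_lit 33596, nat_lit 42344, nat_lit 48176, nat_lit 46232, nat_lit 46772, nat_lit 46700, nat_lit 46724] (nat_lit 0) [] false,
   Spec.mk (nat_lit 46724) (nat_lit 1) [nat_lit 33602, nat_lit 42350, nat_lit 48182, nat_lit 46238, nat_lit 46778, nat_lit 46706, nat_lit 46718, nat_lit 46730, nat_lit 46726] (nat_lit 0) [] false,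
   Spec.mk (nat_lit 46726) (nat_lit 0) [nat_lit 33604, nat_lit 42352, nat_lit 48184, nat_lit 46240, nat_lit 46780, nat_lit 46708, nat_lit 46732, nat_lit 46724] (nat_lit 0) [nat_lit 27044] false,
   Spec.mk (nat_lit 46730) (nat_lit 0) [nat_lit 33608, nat_lit 42356, nat_lit 48188, nat_lit 46244, nat_lit 46784, nat_lit 46724, nat_lit 46732] (nat_lit 0) [] false,
   Spec.mk (nat_lit 46732) (nat_lit 1) [nat_lit 33610, nat_lit 42358, nat_lit 48190, nat_lit 46246, nat_lit 46786, nat_lit 46726, nat_lit 46730, nat_lit 46734] (nat_lit 0) [nat_lit 27050] false,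
   Spec.mk (nat_lit 46734) (nat_lit 0) [nat_lit 33612, nat_lit 42360, nat_lit 48192, nat_lit 46248, nat_lit 46788, nat_lit 46732] (nat_lit 0) [nat_lit 27052] false,
   Spec.mk (nat_lit 46754) (nat_lit 2) [nat_lit 33632, nat_lit 42380, nat_lit 48212, nat_lit 46268, nat_lit 46916, nat_lit 46700, nat_lit 46772, nat_lit 46760] (nat_lit 0) [] false,
   Spec.mk (nat_lit 46760) (nat_lit 0) [nat_lit 33638, nat_lit 42386, nat_lit 48218, nat_lit 46274, nat_lit 46922, nat_lit 46706, nat_lit 46778, nat_lit 46754, nat_lit 46762] (nat_lit 0) [] false,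
   Spec.mk (nat_lit 46762) (nat_lit 0) [nat_lit 33640, nat_lit 42388, nat_lit 48220, nat_lit 46276, nat_lit 46924, nat_lit 46708, nat_lit 46780, nat_lit 46760] (nat_lit 0) [nat_lit 27080] false,
   Spec.mk (nat_lit 46772) (nat_lit 1) [nat_lit 33650, nat_lit 42398, nat_lit 48230, nat_lit 46286, nat_lit 46934, nat_lit 46718, nat_lit 46826, nat_lit 46754, nat_lit 46778] (nat_lit 0) [] false,
   Spec.mk (nat_lit 46778) (nat_lit 1) [nat_lit 33656, nat_lit 42404, nat_lit 48236, nat_lit 46292, nat_lit 46940, nat_lit 46724, nat_lit 46832, nat_lit 46760, nat_lit 46796, nat_lit 46772, nat_lit 46784, nat_lit 46780] (nat_lit 0) [] false,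
   Spec.mk (nat_lit 46780) (nat_lit 0) [nat_lit 33658, nat_lit 42406, nat_lit 48238, nat_lit 46294, nat_lit 46942, nat_lit 46726, nat_lit 46834, nat_lit 46762, nat_lit 46798, nat_lit 46786, nat_lit 46778] (nat_lit 0) [nat_lit 27098] false,
   Spec.mk (nat_lit 46784) (nat_lit 0) [nat_lit 33662, nat_lit 42410, nat_lit 48242, nat_lit 46298, nat_lit 46946, nat_lit 46730, nat_lit 46838, nat_lit 46802, nat_lit 46778, nat_lit 46786] (nat_lit 1) [] false,
   Spec.mk (nat_lit 46786) (nat_lit 0) [nat_lit 33664, nat_lit 42412, nat_lit 48244, nat_lit 46300, nat_lit 46948, nat_lit 46732, nat_lit 46840, nat_lit 46804, nat_lit 46780, nat_lit 46784, nat_lit 46788] (nat_lit 0) [nat_lit 27104] false,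
   Spec.mk (nat_lit 46788) (nat_lit 0) [nat_lit 33666, nat_lit 42414, nat_lit 48246, nat_lit 46302, nat_lit 46950, nat_lit 46734, nat_lit 46842, nat_lit 46806, nat_lit 46786] (nat_lit 1) [nat_lit 27106] false,
   Spec.mk (nat_lit 46796) (nat_lit 0) [nat_lit 33674, nat_lit 42422, nat_lit 48254, nat_lit 46310, nat_lit 46958, nat_lit 46850, nat_lit 46778, nat_lit 46802, nat_lit 46798] (nat_lit 0) [] false,
   Spec.mk (nat_lit 46798) (nat_lit 0) [nat_lit 33676, nat_lit 42424, nat_lit 48256, nat_lit 46312, nat_lit 46960, nat_lit 46852, nat_lit 46780, nat_lit 46804, nat_lit 46796] (nat_lit 2) [nat_lit 27116] false,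
   Spec.mk (nat_lit 46802) (nat_lit 0) [nat_lit 33680, nat_lit 42428, nat_lit 48260, nat_lit 46316, nat_lit 46964, nat_lit 46856, nat_lit 46784, nat_lit 46796, nat_lit 46804] (nat_lit 0) [] false,
   Spec.mk (nat_lit 46804) (nat_lit 0) [nat_lit 33682, nat_lit 42430, nat_lit 48262, nat_lit 46318, nat_lit 46966, nat_lit 46858, nat_lit 46786, nat_lit 46798, nat_lit 46810, nat_lit 46802, nat_lit 46806] (nat_lit 0) [nat_lit 27122] false,
   Spec.mk (nat_lit 46806) (nat_lit 0) [nat_lit 33684, nat_lit 42432, nat_lit 48264, nat_lit 46320, nat_lit 46968, nat_lit 46860, nat_lit 46788, nat_lit 46812, nat_lit 46804] (nat_lit 2) [nat_lit 27124] false,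
   Spec.mk (nat_lit 46810) (nat_lit 0) [nat_lit 33688, nat_lit 42436, nat_lit 48268, nat_lit 46324, nat_lit 46972, nat_lit 46864, nat_lit 46804, nat_lit 46812] (nat_lit 0) [nat_lit 27128] false,
   Spec.mk (nat_lit 46812) (nat_lit 0) [nat_lit 33690, nat_lit 42438, nat_lit 48270, nat_lit 46326, nat_lit 46974, nat_lit 46866, nat_lit 46806, nat_lit 46810] (nat_lit 0) [nat_lit 27130] false,
   Spec.mk (nat_lit 46826) (nat_lit 0) [nat_lit 33704, nat_lit 42452, nat_lit 48284, nat_lit 46340, nat_lit 46988, nat_lit 46772, nat_lit 46832] (nat_lit 0) [] false,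
   Spec.mk (nat_lit 46832) (nat_lit 0) [nat_lit 33710, nat_lit 42458, nat_lit 48290, nat_lit 46346, nat_lit 46994, nat_lit 46778, nat_lit 46850, nat_lit 46826, nat_lit 46838, nat_lit 46834] (nat_lit 1) [] false,
   Spec.mk (nat_lit 46834) (nat_lit 0) [nat_lit 33712, nat_lit 42460, nat_lit 48292, nat_lit 46348, nat_lit 46996, nat_lit 46780, nat_lit 46852, nat_lit 46840, nat_lit 46832] (nat_lit 2) [nat_lit 27152] false,
   Spec.mk (nat_lit 46838) (nat_lit 0) [nat_lit 33716, nat_lit 42464, nat_lit 48296, nat_lit 46352, nat_lit 47000, nat_lit 46784, nat_lit 46856, nat_lit 46832, nat_lit 46840] (nat_lit 4) [] false,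
   Spec.mk (nat_lit 46840) (nat_lit 0) [nat_lit 33718, nat_lit 42466, nat_lit 48298, nat_lit 46354, nat_lit 47002, nat_lit 46786, nat_lit 46858, nat_lit 46834, nat_lit 46838, nat_lit 46842] (nat_lit 3) [nat_lit 27158] false,
   Spec.mk (nat_lit 46842) (nat_lit 0) [nat_lit 33720, nat_lit 42468, nat_lit 48300, nat_lit 46356, nat_lit 47004, nat_lit 46788, nat_lit 46860, nat_lit 46840] (nat_lit 4) [nat_lit 27160] false,
   Spec.mk (nat_lit 46850) (nat_lit 0) [nat_lit 33728, nat_lit 42476, nat_lit 48308, nat_lit 46364, nat_lit 47012, nat_lit 46796, nat_lit 46832, nat_lit 46856, nat_lit 46852] (nat_lit 0) [] false,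
   Spec.mk (nat_lit 46852) (nat_lit 0) [nat_lit 33730, nat_lit 42478, nat_lit 48310, nat_lit 46366, nat_lit 47014, nat_lit 46798, nat_lit 46834, nat_lit 46858, nat_lit 46850] (nat_lit 2) [nat_lit 27170] false,
   Spec.mk (nat_lit 46856) (nat_lit 0) [nat_lit 33734, nat_lit 42482, nat_lit 48314, nat_lit 46370, nat_lit 47018, nat_lit 46802, nat_lit 46838, nat_lit 46874, nat_lit 46850, nat_lit 46858] (nat_lit 1) [] false,
   Spec.mk (nat_lit 46858) (nat_lit 0) [nat_lit 33736, nat_lit 42484, nat_lit 48316, nat_lit 46372, nat_lit 47020, nat_lit 46804, nat_lit 46840, nat_lit 46876, nat_lit 46852, nat_lit 46864, nat_lit 46856, nat_lit 46860] (nat_lit 1) [nat_lit 27176] false,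
   Spec.mk (nat_lit 46860) (nat_lit 0) [nat_lit 33738, nat_lit 42486, nat_lit 48318, nat_lit 46374, nat_lit 47022, nat_lit 46806, nat_lit 46842, nat_lit 46878, nat_lit 46866, nat_lit 46858] (nat_lit 3) [nat_lit 27178] false,
   Spec.mk (nat_lit 46864) (nat_lit 0) [nat_lit 33742, nat_lit 42490, nat_lit 48322, nat_lit 46378, nat_lit 47026, nat_lit 46810, nat_lit 46882, nat_lit 46858, nat_lit 46866] (nat_lit 2) [nat_lit 27182] false,
   Spec.mk (nat_lit 46866) (nat_lit 0) [nat_lit 33744, nat_lit 42492, nat_lit 48324, nat_lit 46380, nat_lit 47028, nat_lit 46812, nat_lit 46884, nat_lit 46860, nat_lit 46864] (nat_lit 2) [nat_lit 27184] false,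
   Spec.mk (nat_lit 46874) (nat_lit 0) [nat_lit 33752, nat_lit 42500, nat_lit 48332, nat_lit 46388, nat_lit 47036, nat_lit 46856, nat_lit 46876] (nat_lit 0) [] false,
   Spec.mk (nat_lit 46876) (nat_lit 0) [nat_lit 33754, nat_lit 42502, nat_lit 48334, nat_lit 46390, nat_lit 47038, nat_lit 46858, nat_lit 46882, nat_lit 46874, nat_lit 46878] (nat_lit 1) [nat_lit 27194] false]

noncomputable def sp122 : List Spec :=
  [Spec.mk (nat_lit 46878) (nat_lit 0) [nat_lit 33756, nat_lit 42504, nat_lit 48336, nat_lit 46392, nat_lit 47040, nat_lit 46860, nat_lit 46884, nat_lit 46876] (nat_lit 4) [nat_lit 27196] false,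
   Spec.mk (nat_lit 46882) (nat_lit 0) [nat_lit 33760, nat_lit 42508, nat_lit 48340, nat_lit 46396, nat_lit 47044, nat_lit 46864, nat_lit 46876, nat_lit 46884] (nat_lit 0) [nat_lit 27200] false,
   Spec.mk (nat_lit 46884) (nat_lit 0) [nat_lit 33762, nat_lit 42510, nat_lit 48342, nat_lit 46398, nat_lit 47046, nat_lit 46866, nat_lit 46878, nat_lit 46890, nat_lit 46882] (nat_lit 1) [nat_lit 27202] false,
   Spec.mk (nat_lit 46890) (nat_lit 0) [nat_lit 33768, nat_lit 42516, nat_lit 48348, nat_lit 46404, nat_lit 47052, nat_lit 46884] (nat_lit 0) [nat_lit 27208] false,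
   Spec.mk (nat_lit 46916) (nat_lit 3) [nat_lit 33794, nat_lit 42542, nat_lit 48374, nat_lit 46430, nat_lit 47402, nat_lit 46754, nat_lit 46934, nat_lit 46922] (nat_lit 0) [] false,
   Spec.mk (nat_lit 46922) (nat_lit 1) [nat_lit 33800, nat_lit 42548, nat_lit 48380, nat_lit 46436, nat_lit 47408, nat_lit 46760, nat_lit 46940, nat_lit 46916, nat_lit 46924] (nat_lit 0) [] false,
   Spec.mk (nat_lit 46924) (nat_lit 1) [nat_lit 33802, nat_lit 42550, nat_lit 48382, nat_lit 46438, nat_lit 47410, nat_lit 46762, nat_lit 46942, nat_lit 46922] (nat_lit 0) [nat_lit 27242] false,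
   Spec.mk (nat_lit 46934) (nat_lit 1) [nat_lit 33812, nat_lit 42560, nat_lit 48392, nat_lit 46448, nat_lit 47420, nat_lit 46772, nat_lit 46988, nat_lit 46916, nat_lit 46940] (nat_lit 0) [] false,
   Spec.mk (nat_lit 46940) (nat_lit 1) [nat_lit 33818, nat_lit 42566, nat_lit 48398, nat_lit 46454, nat_lit 47426, nat_lit 46778, nat_lit 46994, nat_lit 46922, nat_lit 46958, nat_lit 46934, nat_lit 46946, nat_lit 46942] (nat_lit 0) [] false,
   Spec.mk (nat_lit 46942) (nat_lit 0) [nat_lit 33820, nat_lit 42568, nat_lit 48400, nat_lit 46456, nat_lit 47428, nat_lit 46780, nat_lit 46996, nat_lit 46924, nat_lit 46960, nat_lit 46948, nat_lit 46940] (nat_lit 0) [nat_lit 27260] false,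
   Spec.mk (nat_lit 46946) (nat_lit 0) [nat_lit 33824, nat_lit 42572, nat_lit 48404, nat_lit 46460, nat_lit 47432, nat_lit 46784, nat_lit 47000, nat_lit 46964, nat_lit 46940, nat_lit 46948] (nat_lit 1) [] false,
   Spec.mk (nat_lit 46948) (nat_lit 0) [nat_lit 33826, nat_lit 42574, nat_lit 48406, nat_lit 46462, nat_lit 47434, nat_lit 46786, nat_lit 47002, nat_lit 46966, nat_lit 46942, nat_lit 46946, nat_lit 46950] (nat_lit 0) [nat_lit 27266] false,
   Spec.mk (nat_lit 46950) (nat_lit 0) [nat_lit 33828, nat_lit 42576, nat_lit 48408, nat_lit 46464, nat_lit 47436, nat_lit 46788, nat_lit 47004, nat_lit 46968, nat_lit 46948] (nat_lit 1) [nat_lit 27268] false,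
   Spec.mk (nat_lit 46958) (nat_lit 0) [nat_lit 33836, nat_lit 42584, nat_lit 48416, nat_lit 46472, nat_lit 47444, nat_lit 46796, nat_lit 47012, nat_lit 46940, nat_lit 46964, nat_lit 46960] (nat_lit 1) [] false,
   Spec.mk (nat_lit 46960) (nat_lit 0) [nat_lit 33838, nat_lit 42586, nat_lit 48418, nat_lit 46474, nat_lit 47446, nat_lit 46798, nat_lit 47014, nat_lit 46942, nat_lit 46966, nat_lit 46958] (nat_lit 3) [nat_lit 27278] false,
   Spec.mk (nat_lit 46964) (nat_lit 0) [nat_lit 33842, nat_lit 42590, nat_lit 48422, nat_lit 46478, nat_lit 47450, nat_lit 46802, nat_lit 47018, nat_lit 46946, nat_lit 46958, nat_lit 46966] (nat_lit 1) [] false,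
   Spec.mk (nat_lit 46966) (nat_lit 0) [nat_lit 33844, nat_lit 42592, nat_lit 48424, nat_lit 46480, nat_lit 47452, nat_lit 46804, nat_lit 47020, nat_lit 46948, nat_lit 46960, nat_lit 46972, nat_lit 46964, nat_lit 46968] (nat_lit 1) [nat_lit 27284] false,
   Spec.mk (nat_lit 46968) (nat_lit 0) [nat_lit 33846, nat_lit 42594, nat_lit 48426, nat_lit 46482, nat_lit 47454, nat_lit 46806, nat_lit 47022, nat_lit 46950, nat_lit 46974, nat_lit 46966] (nat_lit 3) [nat_lit 27286] false,
   Spec.mk (nat_lit 46972) (nat_lit 0) [nat_lit 33850, nat_lit 42598, nat_lit 48430, nat_lit 46486, nat_lit 47458, nat_lit 46810, nat_lit 47026, nat_lit 46966, nat_lit 46974] (nat_lit 1) [nat_lit 27290] false,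
   Spec.mk (nat_lit 46974) (nat_lit 0) [nat_lit 33852, nat_lit 42600, nat_lit 48432, nat_lit 46488, nat_lit 47460, nat_lit 46812, nat_lit 47028, nat_lit 46968, nat_lit 46972] (nat_lit 1) [nat_lit 27292] false,
   Spec.mk (nat_lit 46988) (nat_lit 2) [nat_lit 33866, nat_lit 42614, nat_lit 48446, nat_lit 46502, nat_lit 47474, nat_lit 46826, nat_lit 47150, nat_lit 46934, nat_lit 46994] (nat_lit 0) [] false,
   Spec.mk (nat_lit 46994) (nat_lit 1) [nat_lit 33872, nat_lit 42620, nat_lit 48452, nat_lit 46508, nat_lit 47480, nat_lit 46832, nat_lit 47156, nat_lit 46940, nat_lit 47012, nat_lit 46988, nat_lit 47000, nat_lit 46996] (nat_lit 0) [] false,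
   Spec.mk (nat_lit 46996) (nat_lit 0) [nat_lit 33874, nat_lit 42622, nat_lit 48454, nat_lit 46510, nat_lit 47482, nat_lit 46834, nat_lit 47158, nat_lit 46942, nat_lit 47014, nat_lit 47002, nat_lit 46994] (nat_lit 0) [nat_lit 27314] false,
   Spec.mk (nat_lit 47000) (nat_lit 0) [nat_lit 33878, nat_lit 42626, nat_lit 48458, nat_lit 46514, nat_lit 47486, nat_lit 46838, nat_lit 47162, nat_lit 46946, nat_lit 47018, nat_lit 46994, nat_lit 47002] (nat_lit 2) [] false,
   Spec.mk (nat_lit 47002) (nat_lit 0) [nat_lit 33880, nat_lit 42628, nat_lit 48460, nat_lit 46516, nat_lit 47488, nat_lit 46840, nat_lit 47164, nat_lit 46948, nat_lit 47020, nat_lit 46996, nat_lit 47000, nat_lit 47004] (nat_lit 1) [nat_lit 27320] false,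
   Spec.mk (nat_lit 47004) (nat_lit 0) [nat_lit 33882, nat_lit 42630, nat_lit 48462, nat_lit 46518, nat_lit 47490, nat_lit 46842, nat_lit 47166, nat_lit 46950, nat_lit 47022, nat_lit 47002] (nat_lit 2) [nat_lit 27322] false,
   Spec.mk (nat_lit 47012) (nat_lit 1) [nat_lit 33890, nat_lit 42638, nat_lit 48470, nat_lit 46526, nat_lit 47498, nat_lit 46850, nat_lit 47174, nat_lit 46958, nat_lit 47066, nat_lit 46994, nat_lit 47018, nat_lit 47014] (nat_lit 0) [] false,
   Spec.mk (nat_lit 47014) (nat_lit 0) [nat_lit 33892, nat_lit 42640, nat_lit 48472, nat_lit 46528, nat_lit 47500, nat_lit 46852, nat_lit 47176, nat_lit 46960, nat_lit 47068, nat_lit 46996, nat_lit 47020, nat_lit 47012] (nat_lit 1) [nat_lit 27332] false,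
   Spec.mk (nat_lit 47018) (nat_lit 0) [nat_lit 33896, nat_lit 42644, nat_lit 48476, nat_lit 46532, nat_lit 47504, nat_lit 46856, nat_lit 47180, nat_lit 46964, nat_lit 47072, nat_lit 47000, nat_lit 47036, nat_lit 47012, nat_lit 47020] (nat_lit 0) [] false,
   Spec.mk (nat_lit 47020) (nat_lit 0) [nat_lit 33898, nat_lit 42646, nat_lit 48478, nat_lit 46534, nat_lit 47506, nat_lit 46858, nat_lit 47182, nat_lit 46966, nat_lit 47074, nat_lit 47002, nat_lit 47038, nat_lit 47014, nat_lit 47026, nat_lit 47018, nat_lit 47022] (nat_lit 0) [nat_lit 27338] false,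
   Spec.mk (nat_lit 47022) (nat_lit 0) [nat_lit 33900, nat_lit 42648, nat_lit 48480, nat_lit 46536, nat_lit 47508, nat_lit 46860, nat_lit 47184, nat_lit 46968, nat_lit 47076, nat_lit 47004, nat_lit 47040, nat_lit 47028, nat_lit 47020] (nat_lit 2) [nat_lit 27340] false,
   Spec.mk (nat_lit 47026) (nat_lit 0) [nat_lit 33904, nat_lit 42652, nat_lit 48484, nat_lit 46540, nat_lit 47512, nat_lit 46864, nat_lit 47188, nat_lit 46972, nat_lit 47080, nat_lit 47044, nat_lit 47020, nat_lit 47028] (nat_lit 1) [nat_lit 27344] false,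
   Spec.mk (nat_lit 47028) (nat_lit 0) [nat_lit 33906, nat_lit 42654, nat_lit 48486, nat_lit 46542, nat_lit 47514, nat_lit 46866, nat_lit 47190, nat_lit 46974, nat_lit 47082, nat_lit 47046, nat_lit 47022, nat_lit 47026] (nat_lit 1) [nat_lit 27346] false,
   Spec.mk (nat_lit 47036) (nat_lit 0) [nat_lit 33914, nat_lit 42662, nat_lit 48494, nat_lit 46550, nat_lit 47522, nat_lit 46874, nat_lit 47198, nat_lit 47090, nat_lit 47018, nat_lit 47038] (nat_lit 0) [] false,
   Spec.mk (nat_lit 47038) (nat_lit 0) [nat_lit 33916, nat_lit 42664, nat_lit 48496, nat_lit 46552, nat_lit 47524, nat_lit 46876, nat_lit 47200, nat_lit 47092, nat_lit 47020, nat_lit 47044, nat_lit 47036, nat_lit 47040] (nat_lit 1) [nat_lit 27356] false,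
   Spec.mk (nat_lit 47040) (nat_lit 0) [nat_lit 33918, nat_lit 42666, nat_lit 48498, nat_lit 46554, nat_lit 47526, nat_lit 46878, nat_lit 47202, nat_lit 47094, nat_lit 47022, nat_lit 47046, nat_lit 47038] (nat_lit 4) [nat_lit 27358] false,
   Spec.mk (nat_lit 47044) (nat_lit 0) [nat_lit 33922, nat_lit 42670, nat_lit 48502, nat_lit 46558, nat_lit 47530, nat_lit 46882, nat_lit 47206, nat_lit 47098, nat_lit 47026, nat_lit 47038, nat_lit 47046] (nat_lit 0) [nat_lit 27362] false,
   Spec.mk (nat_lit 47046) (nat_lit 0) [nat_lit 33924, nat_lit 42672, nat_lit 48504, nat_lit 46560, nat_lit 47532, nat_lit 46884, nat_lit 47208, nat_lit 47100, nat_lit 47028, nat_lit 47040, nat_lit 47052, nat_lit 47044] (nat_lit 1) [nat_lit 27364] false,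
   Spec.mk (nat_lit 47052) (nat_lit 0) [nat_lit 33930, nat_lit 42678, nat_lit 48510, nat_lit 46566, nat_lit 47538, nat_lit 46890, nat_lit 47214, nat_lit 47106, nat_lit 47046] (nat_lit 0) [nat_lit 27370] false,
   Spec.mk (nat_lit 47066) (nat_lit 1) [nat_lit 33944, nat_lit 42692, nat_lit 48524, nat_lit 46580, nat_lit 47552, nat_lit 47228, nat_lit 47012, nat_lit 47072, nat_lit 47068] (nat_lit 0) [] false,
   Spec.mk (nat_lit 47068) (nat_lit 0) [nat_lit 33946, nat_lit 42694, nat_lit 48526, nat_lit 46582, nat_lit 47554, nat_lit 47230, nat_lit 47014, nat_lit 47074, nat_lit 47066] (nat_lit 1) [nat_lit 27386] false,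
   Spec.mk (nat_lit 47072) (nat_lit 0) [nat_lit 33950, nat_lit 42698, nat_lit 48530, nat_lit 46586, nat_lit 47558, nat_lit 47234, nat_lit 47018, nat_lit 47090, nat_lit 47066, nat_lit 47074] (nat_lit 1) [] false,
   Spec.mk (nat_lit 47074) (nat_lit 0) [nat_lit 33952, nat_lit 42700, nat_lit 48532, nat_lit 46588, nat_lit 47560, nat_lit 47236, nat_lit 47020, nat_lit 47092, nat_lit 47068, nat_lit 47080, nat_lit 47072, nat_lit 47076] (nat_lit 1) [nat_lit 27392] false,
   Spec.mk (nat_lit 47076) (nat_lit 0) [nat_lit 33954, nat_lit 42702, nat_lit 48534, nat_lit 46590, nat_lit 47562, nat_lit 47238, nat_lit 47022, nat_lit 47094, nat_lit 47082, nat_lit 47074] (nat_lit 3) [nat_lit 27394] false,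
   Spec.mk (nat_lit 47080) (nat_lit 0) [nat_lit 33958, nat_lit 42706, nat_lit 48538, nat_lit 46594, nat_lit 47566, nat_lit 47242, nat_lit 47026, nat_lit 47098, nat_lit 47074, nat_lit 47082] (nat_lit 3) [nat_lit 27398] false,
   Spec.mk (nat_lit 47082) (nat_lit 0) [nat_lit 33960, nat_lit 42708, nat_lit 48540, nat_lit 46596, nat_lit 47568, nat_lit 47244, nat_lit 47028, nat_lit 47100, nat_lit 47076, nat_lit 47080] (nat_lit 3) [nat_lit 27400] false,
   Spec.mk (nat_lit 47090) (nat_lit 1) [nat_lit 33968, nat_lit 42716, nat_lit 48548, nat_lit 46604, nat_lit 47576, nat_lit 47252, nat_lit 47036, nat_lit 47072, nat_lit 47092] (nat_lit 0) [] false,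
   Spec.mk (nat_lit 47092) (nat_lit 0) [nat_lit 33970, nat_lit 42718, nat_lit 48550, nat_lit 46606, nat_lit 47578, nat_lit 47254, nat_lit 47038, nat_lit 47074, nat_lit 47098, nat_lit 47090, nat_lit 47094] (nat_lit 0) [nat_lit 27410] false,
   Spec.mk (nat_lit 47094) (nat_lit 0) [nat_lit 33972, nat_lit 42720, nat_lit 48552, nat_lit 46608, nat_lit 47580, nat_lit 47256, nat_lit 47040, nat_lit 47076, nat_lit 47100, nat_lit 47092] (nat_lit 3) [nat_lit 27412] false,
   Spec.mk (nat_lit 47098) (nat_lit 0) [nat_lit 33976, nat_lit 42724, nat_lit 48556, nat_lit 46612, nat_lit 47584, nat_lit 47260, nat_lit 47044, nat_lit 47080, nat_lit 47116, nat_lit 47092, nat_lit 47100] (nat_lit 0) [nat_lit 27416] false,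
   Spec.mk (nat_lit 47100) (nat_lit 0) [nat_lit 33978, nat_lit 42726, nat_lit 48558, nat_lit 46614, nat_lit 47586, nat_lit 47262, nat_lit 47046, nat_lit 47082, nat_lit 47118, nat_lit 47094, nat_lit 47106, nat_lit 47098] (nat_lit 1) [nat_lit 27418] false,
   Spec.mk (nat_lit 47106) (nat_lit 0) [nat_lit 33984, nat_lit 42732, nat_lit 48564, nat_lit 46620, nat_lit 47592, nat_lit 47268, nat_lit 47052, nat_lit 47124, nat_lit 47100] (nat_lit 1) [nat_lit 27424] false,
   Spec.mk (nat_lit 47116) (nat_lit 1) [nat_lit 33994, nat_lit 42742, nat_lit 48574, nat_lit 46630, nat_lit 47602, nat_lit 47278, nat_lit 47098, nat_lit 47118] (nat_lit 0) [nat_lit 27434] false,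
   Spec.mk (nat_lit 47118) (nat_lit 0) [nat_lit 33996, nat_lit 42744, nat_lit 48576, nat_lit 46632, nat_lit 47604, nat_lit 47280, nat_lit 47100, nat_lit 47124, nat_lit 47116] (nat_lit 1) [nat_lit 27436] false,
   Spec.mk (nat_lit 47124) (nat_lit 1) [nat_lit 34002, nat_lit 42750, nat_lit 48582, nat_lit 46638, nat_lit 47610, nat_lit 47286, nat_lit 47106, nat_lit 47118] (nat_lit 0) [nat_lit 27442] false,
   Spec.mk (nat_lit 47150) (nat_lit 2) [nat_lit 34028, nat_lit 42776, nat_lit 48608, nat_lit 47636, nat_lit 46988, nat_lit 47156] (nat_lit 0) [] false,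
   Spec.mk (nat_lit 47156) (nat_lit 1) [nat_lit 34034, nat_lit 42782, nat_lit 48614, nat_lit 47642, nat_lit 46994, nat_lit 47174, nat_lit 47150, nat_lit 47162, nat_lit 47158] (nat_lit 0) [] false,
   Spec.mk (nat_lit 47158) (nat_lit 0) [nat_lit 34036, nat_lit 42784, nat_lit 48616, nat_lit 47644, nat_lit 46996, nat_lit 47176, nat_lit 47164, nat_lit 47156] (nat_lit 0) [nat_lit 27476] false,
   Spec.mk (nat_lit 47162) (nat_lit 0) [nat_lit 34040, nat_lit 42788, nat_lit 48620, nat_lit 47648, nat_lit 47000, nat_lit 47180, nat_lit 47156, nat_lit 47164] (nat_lit 2) [] false,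
   Spec.mk (nat_lit 47164) (nat_lit 0) [nat_lit 34042, nat_lit 42790, nat_lit 48622, nat_lit 47650, nat_lit 47002, nat_lit 47182, nat_lit 47158, nat_lit 47162, nat_lit 47166] (nat_lit 1) [nat_lit 27482] false]

noncomputable def sp123 : List Spec :=
  [Spec.mk (nat_lit 47166) (nat_lit 0) [nat_lit 34044, nat_lit 42792, nat_lit 48624, nat_lit 47652, nat_lit 47004, nat_lit 47184, nat_lit 47164] (nat_lit 2) [nat_lit 27484] false,
   Spec.mk (nat_lit 47174) (nat_lit 0) [nat_lit 34052, nat_lit 42800, nat_lit 48632, nat_lit 47660, nat_lit 47012, nat_lit 47228, nat_lit 47156, nat_lit 47180, nat_lit 47176] (nat_lit 0) [] false,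
   Spec.mk (nat_lit 47176) (nat_lit 0) [nat_lit 34054, nat_lit 42802, nat_lit 48634, nat_lit 47662, nat_lit 47014, nat_lit 47230, nat_lit 47158, nat_lit 47182, nat_lit 47174] (nat_lit 2) [nat_lit 27494] false,
   Spec.mk (nat_lit 47180) (nat_lit 0) [nat_lit 34058, nat_lit 42806, nat_lit 48638, nat_lit 47666, nat_lit 47018, nat_lit 47234, nat_lit 47162, nat_lit 47198, nat_lit 47174, nat_lit 47182] (nat_lit 1) [] false,
   Spec.mk (nat_lit 47182) (nat_lit 0) [nat_lit 34060, nat_lit 42808, nat_lit 48640, nat_lit 47668, nat_lit 47020, nat_lit 47236, nat_lit 47164, nat_lit 47200, nat_lit 47176, nat_lit 47188, nat_lit 47180, nat_lit 47184] (nat_lit 1) [nat_lit 27500] false,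
   Spec.mk (nat_lit 47184) (nat_lit 0) [nat_lit 34062, nat_lit 42810, nat_lit 48642, nat_lit 47670, nat_lit 47022, nat_lit 47238, nat_lit 47166, nat_lit 47202, nat_lit 47190, nat_lit 47182] (nat_lit 3) [nat_lit 27502] false,
   Spec.mk (nat_lit 47188) (nat_lit 0) [nat_lit 34066, nat_lit 42814, nat_lit 48646, nat_lit 47674, nat_lit 47026, nat_lit 47242, nat_lit 47206, nat_lit 47182, nat_lit 47190] (nat_lit 2) [nat_lit 27506] false,
   Spec.mk (nat_lit 47190) (nat_lit 0) [nat_lit 34068, nat_lit 42816, nat_lit 48648, nat_lit 47676, nat_lit 47028, nat_lit 47244, nat_lit 47208, nat_lit 47184, nat_lit 47188] (nat_lit 2) [nat_lit 27508] false,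
   Spec.mk (nat_lit 47198) (nat_lit 0) [nat_lit 34076, nat_lit 42824, nat_lit 48656, nat_lit 47684, nat_lit 47036, nat_lit 47252, nat_lit 47180, nat_lit 47200] (nat_lit 2) [] false,
   Spec.mk (nat_lit 47200) (nat_lit 0) [nat_lit 34078, nat_lit 42826, nat_lit 48658, nat_lit 47686, nat_lit 47038, nat_lit 47254, nat_lit 47182, nat_lit 47206, nat_lit 47198, nat_lit 47202] (nat_lit 3) [nat_lit 27518] false,
   Spec.mk (nat_lit 47202) (nat_lit 0) [nat_lit 34080, nat_lit 42828, nat_lit 48660, nat_lit 47688, nat_lit 47040, nat_lit 47256, nat_lit 47184, nat_lit 47208, nat_lit 47200] (nat_lit 6) [nat_lit 27520] false,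
   Spec.mk (nat_lit 47206) (nat_lit 0) [nat_lit 34084, nat_lit 42832, nat_lit 48664, nat_lit 47692, nat_lit 47044, nat_lit 47260, nat_lit 47188, nat_lit 47200, nat_lit 47208] (nat_lit 2) [nat_lit 27524] false,
   Spec.mk (nat_lit 47208) (nat_lit 0) [nat_lit 34086, nat_lit 42834, nat_lit 48666, nat_lit 47694, nat_lit 47046, nat_lit 47262, nat_lit 47190, nat_lit 47202, nat_lit 47214, nat_lit 47206] (nat_lit 3) [nat_lit 27526] false,
   Spec.mk (nat_lit 47214) (nat_lit 0) [nat_lit 34092, nat_lit 42840, nat_lit 48672, nat_lit 47700, nat_lit 47052, nat_lit 47268, nat_lit 47208] (nat_lit 2) [nat_lit 27532] false,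
   Spec.mk (nat_lit 47228) (nat_lit 2) [nat_lit 34106, nat_lit 42854, nat_lit 48686, nat_lit 47714, nat_lit 47066, nat_lit 47174, nat_lit 47234, nat_lit 47230] (nat_lit 0) [] false,
   Spec.mk (nat_lit 47230) (nat_lit 0) [nat_lit 34108, nat_lit 42856, nat_lit 48688, nat_lit 47716, nat_lit 47068, nat_lit 47176, nat_lit 47236, nat_lit 47228] (nat_lit 0) [nat_lit 27548] false,
   Spec.mk (nat_lit 47234) (nat_lit 0) [nat_lit 34112, nat_lit 42860, nat_lit 48692, nat_lit 47720, nat_lit 47072, nat_lit 47180, nat_lit 47252, nat_lit 47228, nat_lit 47236] (nat_lit 0) [] false,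
   Spec.mk (nat_lit 47236) (nat_lit 0) [nat_lit 34114, nat_lit 42862, nat_lit 48694, nat_lit 47722, nat_lit 47074, nat_lit 47182, nat_lit 47254, nat_lit 47230, nat_lit 47242, nat_lit 47234, nat_lit 47238] (nat_lit 0) [nat_lit 27554] false,
   Spec.mk (nat_lit 47238) (nat_lit 0) [nat_lit 34116, nat_lit 42864, nat_lit 48696, nat_lit 47724, nat_lit 47076, nat_lit 47184, nat_lit 47256, nat_lit 47244, nat_lit 47236] (nat_lit 2) [nat_lit 27556] false,
   Spec.mk (nat_lit 47242) (nat_lit 0) [nat_lit 34120, nat_lit 42868, nat_lit 48700, nat_lit 47728, nat_lit 47080, nat_lit 47188, nat_lit 47260, nat_lit 47236, nat_lit 47244] (nat_lit 2) [nat_lit 27560] false,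
   Spec.mk (nat_lit 47244) (nat_lit 0) [nat_lit 34122, nat_lit 42870, nat_lit 48702, nat_lit 47730, nat_lit 47082, nat_lit 47190, nat_lit 47262, nat_lit 47238, nat_lit 47242] (nat_lit 2) [nat_lit 27562] false,
   Spec.mk (nat_lit 47252) (nat_lit 1) [nat_lit 34130, nat_lit 42878, nat_lit 48710, nat_lit 47738, nat_lit 47090, nat_lit 47198, nat_lit 47306, nat_lit 47234, nat_lit 47254] (nat_lit 0) [] false,
   Spec.mk (nat_lit 47254) (nat_lit 0) [nat_lit 34132, nat_lit 42880, nat_lit 48712, nat_lit 47740, nat_lit 47092, nat_lit 47200, nat_lit 47308, nat_lit 47236, nat_lit 47260, nat_lit 47252, nat_lit 47256] (nat_lit 0) [nat_lit 27572] false,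
   Spec.mk (nat_lit 47256) (nat_lit 0) [nat_lit 34134, nat_lit 42882, nat_lit 48714, nat_lit 47742, nat_lit 47094, nat_lit 47202, nat_lit 47310, nat_lit 47238, nat_lit 47262, nat_lit 47254] (nat_lit 3) [nat_lit 27574] false,
   Spec.mk (nat_lit 47260) (nat_lit 0) [nat_lit 34138, nat_lit 42886, nat_lit 48718, nat_lit 47746, nat_lit 47098, nat_lit 47206, nat_lit 47314, nat_lit 47242, nat_lit 47278, nat_lit 47254, nat_lit 47262] (nat_lit 0) [nat_lit 27578] false,
   Spec.mk (nat_lit 47262) (nat_lit 0) [nat_lit 34140, nat_lit 42888, nat_lit 48720, nat_lit 47748, nat_lit 47100, nat_lit 47208, nat_lit 47316, nat_lit 47244, nat_lit 47280, nat_lit 47256, nat_lit 47268, nat_lit 47260] (nat_lit 1) [nat_lit 27580] false,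
   Spec.mk (nat_lit 47268) (nat_lit 0) [nat_lit 34146, nat_lit 42894, nat_lit 48726, nat_lit 47754, nat_lit 47106, nat_lit 47214, nat_lit 47322, nat_lit 47286, nat_lit 47262] (nat_lit 1) [nat_lit 27586] false,
   Spec.mk (nat_lit 47278) (nat_lit 0) [nat_lit 34156, nat_lit 42904, nat_lit 48736, nat_lit 47764, nat_lit 47116, nat_lit 47332, nat_lit 47260, nat_lit 47280] (nat_lit 0) [nat_lit 27596] false,
   Spec.mk (nat_lit 47280) (nat_lit 0) [nat_lit 34158, nat_lit 42906, nat_lit 48738, nat_lit 47766, nat_lit 47118, nat_lit 47334, nat_lit 47262, nat_lit 47286, nat_lit 47278] (nat_lit 2) [nat_lit 27598] false,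
   Spec.mk (nat_lit 47286) (nat_lit 0) [nat_lit 34164, nat_lit 42912, nat_lit 48744, nat_lit 47772, nat_lit 47124, nat_lit 47340, nat_lit 47268, nat_lit 47280] (nat_lit 0) [nat_lit 27604] false,
   Spec.mk (nat_lit 47306) (nat_lit 2) [nat_lit 34184, nat_lit 42932, nat_lit 48764, nat_lit 47792, nat_lit 47252, nat_lit 47308] (nat_lit 0) [] false,
   Spec.mk (nat_lit 47308) (nat_lit 1) [nat_lit 34186, nat_lit 42934, nat_lit 48766, nat_lit 47794, nat_lit 47254, nat_lit 47314, nat_lit 47306, nat_lit 47310] (nat_lit 0) [nat_lit 27626] false,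
   Spec.mk (nat_lit 47310) (nat_lit 0) [nat_lit 34188, nat_lit 42936, nat_lit 48768, nat_lit 47796, nat_lit 47256, nat_lit 47316, nat_lit 47308] (nat_lit 2) [nat_lit 27628] false,
   Spec.mk (nat_lit 47314) (nat_lit 0) [nat_lit 34192, nat_lit 42940, nat_lit 48772, nat_lit 47800, nat_lit 47260, nat_lit 47332, nat_lit 47308, nat_lit 47316] (nat_lit 0) [nat_lit 27632] false,
   Spec.mk (nat_lit 47316) (nat_lit 0) [nat_lit 34194, nat_lit 42942, nat_lit 48774, nat_lit 47802, nat_lit 47262, nat_lit 47334, nat_lit 47310, nat_lit 47322, nat_lit 47314] (nat_lit 1) [nat_lit 27634] false,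
   Spec.mk (nat_lit 47322) (nat_lit 0) [nat_lit 34200, nat_lit 42948, nat_lit 48780, nat_lit 47808, nat_lit 47268, nat_lit 47340, nat_lit 47316] (nat_lit 2) [nat_lit 27640] false,
   Spec.mk (nat_lit 47332) (nat_lit 2) [nat_lit 34210, nat_lit 42958, nat_lit 48790, nat_lit 47818, nat_lit 47278, nat_lit 47314, nat_lit 47334] (nat_lit 0) [nat_lit 27650] false,
   Spec.mk (nat_lit 47334) (nat_lit 0) [nat_lit 34212, nat_lit 42960, nat_lit 48792, nat_lit 47820, nat_lit 47280, nat_lit 47316, nat_lit 47340, nat_lit 47332] (nat_lit 0) [nat_lit 27652] false,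
   Spec.mk (nat_lit 47340) (nat_lit 1) [nat_lit 34218, nat_lit 42966, nat_lit 48798, nat_lit 47826, nat_lit 47286, nat_lit 47322, nat_lit 47358, nat_lit 47334] (nat_lit 0) [nat_lit 27658] false,
   Spec.mk (nat_lit 47358) (nat_lit 2) [nat_lit 34236, nat_lit 42984, nat_lit 48816, nat_lit 47844, nat_lit 47340] (nat_lit 0) [nat_lit 27676] false,
   Spec.mk (nat_lit 47402) (nat_lit 2) [nat_lit 34280, nat_lit 43028, nat_lit 48860, nat_lit 46916, nat_lit 47420, nat_lit 47408] (nat_lit 0) [] false,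
   Spec.mk (nat_lit 47408) (nat_lit 0) [nat_lit 34286, nat_lit 43034, nat_lit 48866, nat_lit 46922, nat_lit 47426, nat_lit 47402, nat_lit 47410] (nat_lit 0) [] false,
   Spec.mk (nat_lit 47410) (nat_lit 0) [nat_lit 34288, nat_lit 43036, nat_lit 48868, nat_lit 46924, nat_lit 47428, nat_lit 47408] (nat_lit 0) [nat_lit 27728] false,
   Spec.mk (nat_lit 47420) (nat_lit 0) [nat_lit 34298, nat_lit 43046, nat_lit 48878, nat_lit 46934, nat_lit 47474, nat_lit 47402, nat_lit 47426] (nat_lit 0) [] false,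
   Spec.mk (nat_lit 47426) (nat_lit 0) [nat_lit 34304, nat_lit 43052, nat_lit 48884, nat_lit 46940, nat_lit 47480, nat_lit 47408, nat_lit 47444, nat_lit 47420, nat_lit 47432, nat_lit 47428] (nat_lit 0) [] false,
   Spec.mk (nat_lit 47428) (nat_lit 0) [nat_lit 34306, nat_lit 43054, nat_lit 48886, nat_lit 46942, nat_lit 47482, nat_lit 47410, nat_lit 47446, nat_lit 47434, nat_lit 47426] (nat_lit 1) [nat_lit 27746] false,
   Spec.mk (nat_lit 47432) (nat_lit 0) [nat_lit 34310, nat_lit 43058, nat_lit 48890, nat_lit 46946, nat_lit 47486, nat_lit 47450, nat_lit 47426, nat_lit 47434] (nat_lit 2) [] false,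
   Spec.mk (nat_lit 47434) (nat_lit 0) [nat_lit 34312, nat_lit 43060, nat_lit 48892, nat_lit 46948, nat_lit 47488, nat_lit 47452, nat_lit 47428, nat_lit 47432, nat_lit 47436] (nat_lit 1) [nat_lit 27752] false,
   Spec.mk (nat_lit 47436) (nat_lit 0) [nat_lit 34314, nat_lit 43062, nat_lit 48894, nat_lit 46950, nat_lit 47490, nat_lit 47454, nat_lit 47434] (nat_lit 2) [nat_lit 27754] false,
   Spec.mk (nat_lit 47444) (nat_lit 0) [nat_lit 34322, nat_lit 43070, nat_lit 48902, nat_lit 46958, nat_lit 47498, nat_lit 47426, nat_lit 47450, nat_lit 47446] (nat_lit 2) [] false,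
   Spec.mk (nat_lit 47446) (nat_lit 0) [nat_lit 34324, nat_lit 43072, nat_lit 48904, nat_lit 46960, nat_lit 47500, nat_lit 47428, nat_lit 47452, nat_lit 47444] (nat_lit 4) [nat_lit 27764] false,
   Spec.mk (nat_lit 47450) (nat_lit 0) [nat_lit 34328, nat_lit 43076, nat_lit 48908, nat_lit 46964, nat_lit 47504, nat_lit 47432, nat_lit 47444, nat_lit 47452] (nat_lit 2) [] false,
   Spec.mk (nat_lit 47452) (nat_lit 0) [nat_lit 34330, nat_lit 43078, nat_lit 48910, nat_lit 46966, nat_lit 47506, nat_lit 47434, nat_lit 47446, nat_lit 47458, nat_lit 47450, nat_lit 47454] (nat_lit 2) [nat_lit 27770] false,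
   Spec.mk (nat_lit 47454) (nat_lit 0) [nat_lit 34332, nat_lit 43080, nat_lit 48912, nat_lit 46968, nat_lit 47508, nat_lit 47436, nat_lit 47460, nat_lit 47452] (nat_lit 4) [nat_lit 27772] false,
   Spec.mk (nat_lit 47458) (nat_lit 0) [nat_lit 34336, nat_lit 43084, nat_lit 48916, nat_lit 46972, nat_lit 47512, nat_lit 47452, nat_lit 47460] (nat_lit 2) [nat_lit 27776] false,
   Spec.mk (nat_lit 47460) (nat_lit 0) [nat_lit 34338, nat_lit 43086, nat_lit 48918, nat_lit 46974, nat_lit 47514, nat_lit 47454, nat_lit 47458] (nat_lit 2) [nat_lit 27778] false,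
   Spec.mk (nat_lit 47474) (nat_lit 0) [nat_lit 34352, nat_lit 43100, nat_lit 48932, nat_lit 46988, nat_lit 47636, nat_lit 47420, nat_lit 47480] (nat_lit 0) [] false,
   Spec.mk (nat_lit 47480) (nat_lit 0) [nat_lit 34358, nat_lit 43106, nat_lit 48938, nat_lit 46994, nat_lit 47642, nat_lit 47426, nat_lit 47498, nat_lit 47474, nat_lit 47486, nat_lit 47482] (nat_lit 1) [] false,
   Spec.mk (nat_lit 47482) (nat_lit 0) [nat_lit 34360, nat_lit 43108, nat_lit 48940, nat_lit 46996, nat_lit 47644, nat_lit 47428, nat_lit 47500, nat_lit 47488, nat_lit 47480] (nat_lit 2) [nat_lit 27800] false,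
   Spec.mk (nat_lit 47486) (nat_lit 0) [nat_lit 34364, nat_lit 43112, nat_lit 48944, nat_lit 47000, nat_lit 47648, nat_lit 47432, nat_lit 47504, nat_lit 47480, nat_lit 47488] (nat_lit 4) [] false]

noncomputable def sp124 : List Spec :=
  [Spec.mk (nat_lit 47488) (nat_lit 0) [nat_lit 34366, nat_lit 43114, nat_lit 48946, nat_lit 47002, nat_lit 47650, nat_lit 47434, nat_lit 47506, nat_lit 47482, nat_lit 47486, nat_lit 47490] (nat_lit 3) [nat_lit 27806] false,
   Spec.mk (nat_lit 47490) (nat_lit 0) [nat_lit 34368, nat_lit 43116, nat_lit 48948, nat_lit 47004, nat_lit 47652, nat_lit 47436, nat_lit 47508, nat_lit 47488] (nat_lit 4) [nat_lit 27808] false,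
   Spec.mk (nat_lit 47498) (nat_lit 0) [nat_lit 34376, nat_lit 43124, nat_lit 48956, nat_lit 47012, nat_lit 47660, nat_lit 47444, nat_lit 47552, nat_lit 47480, nat_lit 47504, nat_lit 47500] (nat_lit 1) [] false,
   Spec.mk (nat_lit 47500) (nat_lit 0) [nat_lit 34378, nat_lit 43126, nat_lit 48958, nat_lit 47014, nat_lit 47662, nat_lit 47446, nat_lit 47554, nat_lit 47482, nat_lit 47506, nat_lit 47498] (nat_lit 3) [nat_lit 27818] false,
   Spec.mk (nat_lit 47504) (nat_lit 0) [nat_lit 34382, nat_lit 43130, nat_lit 48962, nat_lit 47018, nat_lit 47666, nat_lit 47450, nat_lit 47558, nat_lit 47486, nat_lit 47522, nat_lit 47498, nat_lit 47506] (nat_lit 2) [] false,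
   Spec.mk (nat_lit 47506) (nat_lit 0) [nat_lit 34384, nat_lit 43132, nat_lit 48964, nat_lit 47020, nat_lit 47668, nat_lit 47452, nat_lit 47560, nat_lit 47488, nat_lit 47524, nat_lit 47500, nat_lit 47512, nat_lit 47504, nat_lit 47508] (nat_lit 2) [nat_lit 27824] false,
   Spec.mk (nat_lit 47508) (nat_lit 0) [nat_lit 34386, nat_lit 43134, nat_lit 48966, nat_lit 47022, nat_lit 47670, nat_lit 47454, nat_lit 47562, nat_lit 47490, nat_lit 47526, nat_lit 47514, nat_lit 47506] (nat_lit 4) [nat_lit 27826] false,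
   Spec.mk (nat_lit 47512) (nat_lit 0) [nat_lit 34390, nat_lit 43138, nat_lit 48970, nat_lit 47026, nat_lit 47674, nat_lit 47458, nat_lit 47566, nat_lit 47530, nat_lit 47506, nat_lit 47514] (nat_lit 3) [nat_lit 27830] false,
   Spec.mk (nat_lit 47514) (nat_lit 0) [nat_lit 34392, nat_lit 43140, nat_lit 48972, nat_lit 47028, nat_lit 47676, nat_lit 47460, nat_lit 47568, nat_lit 47532, nat_lit 47508, nat_lit 47512] (nat_lit 3) [nat_lit 27832] false,
   Spec.mk (nat_lit 47522) (nat_lit 0) [nat_lit 34400, nat_lit 43148, nat_lit 48980, nat_lit 47036, nat_lit 47684, nat_lit 47576, nat_lit 47504, nat_lit 47524] (nat_lit 2) [] false,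
   Spec.mk (nat_lit 47524) (nat_lit 0) [nat_lit 34402, nat_lit 43150, nat_lit 48982, nat_lit 47038, nat_lit 47686, nat_lit 47578, nat_lit 47506, nat_lit 47530, nat_lit 47522, nat_lit 47526] (nat_lit 3) [nat_lit 27842] false,
   Spec.mk (nat_lit 47526) (nat_lit 0) [nat_lit 34404, nat_lit 43152, nat_lit 48984, nat_lit 47040, nat_lit 47688, nat_lit 47580, nat_lit 47508, nat_lit 47532, nat_lit 47524] (nat_lit 6) [nat_lit 27844] false,
   Spec.mk (nat_lit 47530) (nat_lit 0) [nat_lit 34408, nat_lit 43156, nat_lit 48988, nat_lit 47044, nat_lit 47692, nat_lit 47584, nat_lit 47512, nat_lit 47524, nat_lit 47532] (nat_lit 2) [nat_lit 27848] false,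
   Spec.mk (nat_lit 47532) (nat_lit 0) [nat_lit 34410, nat_lit 43158, nat_lit 48990, nat_lit 47046, nat_lit 47694, nat_lit 47586, nat_lit 47514, nat_lit 47526, nat_lit 47538, nat_lit 47530] (nat_lit 3) [nat_lit 27850] false,
   Spec.mk (nat_lit 47538) (nat_lit 0) [nat_lit 34416, nat_lit 43164, nat_lit 48996, nat_lit 47052, nat_lit 47700, nat_lit 47592, nat_lit 47532] (nat_lit 2) [nat_lit 27856] false,
   Spec.mk (nat_lit 47552) (nat_lit 0) [nat_lit 34430, nat_lit 43178, nat_lit 49010, nat_lit 47066, nat_lit 47714, nat_lit 47498, nat_lit 47558, nat_lit 47554] (nat_lit 2) [] false,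
   Spec.mk (nat_lit 47554) (nat_lit 0) [nat_lit 34432, nat_lit 43180, nat_lit 49012, nat_lit 47068, nat_lit 47716, nat_lit 47500, nat_lit 47560, nat_lit 47552] (nat_lit 4) [nat_lit 27872] false,
   Spec.mk (nat_lit 47558) (nat_lit 0) [nat_lit 34436, nat_lit 43184, nat_lit 49016, nat_lit 47072, nat_lit 47720, nat_lit 47504, nat_lit 47576, nat_lit 47552, nat_lit 47560] (nat_lit 4) [] false,
   Spec.mk (nat_lit 47560) (nat_lit 0) [nat_lit 34438, nat_lit 43186, nat_lit 49018, nat_lit 47074, nat_lit 47722, nat_lit 47506, nat_lit 47578, nat_lit 47554, nat_lit 47566, nat_lit 47558, nat_lit 47562] (nat_lit 4) [nat_lit 27878] false,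
   Spec.mk (nat_lit 47562) (nat_lit 0) [nat_lit 34440, nat_lit 43188, nat_lit 49020, nat_lit 47076, nat_lit 47724, nat_lit 47508, nat_lit 47580, nat_lit 47568, nat_lit 47560] (nat_lit 6) [nat_lit 27880] false,
   Spec.mk (nat_lit 47566) (nat_lit 0) [nat_lit 34444, nat_lit 43192, nat_lit 49024, nat_lit 47080, nat_lit 47728, nat_lit 47512, nat_lit 47584, nat_lit 47560, nat_lit 47568] (nat_lit 6) [nat_lit 27884] false,
   Spec.mk (nat_lit 47568) (nat_lit 0) [nat_lit 34446, nat_lit 43194, nat_lit 49026, nat_lit 47082, nat_lit 47730, nat_lit 47514, nat_lit 47586, nat_lit 47562, nat_lit 47566] (nat_lit 6) [nat_lit 27886] false,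
   Spec.mk (nat_lit 47576) (nat_lit 0) [nat_lit 34454, nat_lit 43202, nat_lit 49034, nat_lit 47090, nat_lit 47738, nat_lit 47522, nat_lit 47558, nat_lit 47578] (nat_lit 2) [] false,
   Spec.mk (nat_lit 47578) (nat_lit 0) [nat_lit 34456, nat_lit 43204, nat_lit 49036, nat_lit 47092, nat_lit 47740, nat_lit 47524, nat_lit 47560, nat_lit 47584, nat_lit 47576, nat_lit 47580] (nat_lit 3) [nat_lit 27896] false,
   Spec.mk (nat_lit 47580) (nat_lit 0) [nat_lit 34458, nat_lit 43206, nat_lit 49038, nat_lit 47094, nat_lit 47742, nat_lit 47526, nat_lit 47562, nat_lit 47586, nat_lit 47578] (nat_lit 6) [nat_lit 27898] false,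
   Spec.mk (nat_lit 47584) (nat_lit 0) [nat_lit 34462, nat_lit 43210, nat_lit 49042, nat_lit 47098, nat_lit 47746, nat_lit 47530, nat_lit 47566, nat_lit 47602, nat_lit 47578, nat_lit 47586] (nat_lit 3) [nat_lit 27902] false,
   Spec.mk (nat_lit 47586) (nat_lit 0) [nat_lit 34464, nat_lit 43212, nat_lit 49044, nat_lit 47100, nat_lit 47748, nat_lit 47532, nat_lit 47568, nat_lit 47604, nat_lit 47580, nat_lit 47592, nat_lit 47584] (nat_lit 4) [nat_lit 27904] false,
   Spec.mk (nat_lit 47592) (nat_lit 0) [nat_lit 34470, nat_lit 43218, nat_lit 49050, nat_lit 47106, nat_lit 47754, nat_lit 47538, nat_lit 47610, nat_lit 47586] (nat_lit 4) [nat_lit 27910] false,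
   Spec.mk (nat_lit 47602) (nat_lit 0) [nat_lit 34480, nat_lit 43228, nat_lit 49060, nat_lit 47116, nat_lit 47764, nat_lit 47584, nat_lit 47604] (nat_lit 2) [nat_lit 27920] false,
   Spec.mk (nat_lit 47604) (nat_lit 0) [nat_lit 34482, nat_lit 43230, nat_lit 49062, nat_lit 47118, nat_lit 47766, nat_lit 47586, nat_lit 47610, nat_lit 47602] (nat_lit 4) [nat_lit 27922] false,
   Spec.mk (nat_lit 47610) (nat_lit 0) [nat_lit 34488, nat_lit 43236, nat_lit 49068, nat_lit 47124, nat_lit 47772, nat_lit 47592, nat_lit 47604] (nat_lit 2) [nat_lit 27928] false,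
   Spec.mk (nat_lit 47636) (nat_lit 2) [nat_lit 34514, nat_lit 43262, nat_lit 49094, nat_lit 47150, nat_lit 47474, nat_lit 47642] (nat_lit 0) [] false,
   Spec.mk (nat_lit 47642) (nat_lit 1) [nat_lit 34520, nat_lit 43268, nat_lit 49100, nat_lit 47156, nat_lit 47480, nat_lit 47660, nat_lit 47636, nat_lit 47648, nat_lit 47644] (nat_lit 0) [] false,
   Spec.mk (nat_lit 47644) (nat_lit 0) [nat_lit 34522, nat_lit 43270, nat_lit 49102, nat_lit 47158, nat_lit 47482, nat_lit 47662, nat_lit 47650, nat_lit 47642] (nat_lit 0) [nat_lit 27962] false,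
   Spec.mk (nat_lit 47648) (nat_lit 0) [nat_lit 34526, nat_lit 43274, nat_lit 49106, nat_lit 47162, nat_lit 47486, nat_lit 47666, nat_lit 47642, nat_lit 47650] (nat_lit 2) [] false,
   Spec.mk (nat_lit 47650) (nat_lit 0) [nat_lit 34528, nat_lit 43276, nat_lit 49108, nat_lit 47164, nat_lit 47488, nat_lit 47668, nat_lit 47644, nat_lit 47648, nat_lit 47652] (nat_lit 1) [nat_lit 27968] false,
   Spec.mk (nat_lit 47652) (nat_lit 0) [nat_lit 34530, nat_lit 43278, nat_lit 49110, nat_lit 47166, nat_lit 47490, nat_lit 47670, nat_lit 47650] (nat_lit 2) [nat_lit 27970] false,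
   Spec.mk (nat_lit 47660) (nat_lit 0) [nat_lit 34538, nat_lit 43286, nat_lit 49118, nat_lit 47174, nat_lit 47498, nat_lit 47714, nat_lit 47642, nat_lit 47666, nat_lit 47662] (nat_lit 0) [] false,
   Spec.mk (nat_lit 47662) (nat_lit 0) [nat_lit 34540, nat_lit 43288, nat_lit 49120, nat_lit 47176, nat_lit 47500, nat_lit 47716, nat_lit 47644, nat_lit 47668, nat_lit 47660] (nat_lit 2) [nat_lit 27980] false,
   Spec.mk (nat_lit 47666) (nat_lit 0) [nat_lit 34544, nat_lit 43292, nat_lit 49124, nat_lit 47180, nat_lit 47504, nat_lit 47720, nat_lit 47648, nat_lit 47684, nat_lit 47660, nat_lit 47668] (nat_lit 1) [] false,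
   Spec.mk (nat_lit 47668) (nat_lit 0) [nat_lit 34546, nat_lit 43294, nat_lit 49126, nat_lit 47182, nat_lit 47506, nat_lit 47722, nat_lit 47650, nat_lit 47686, nat_lit 47662, nat_lit 47674, nat_lit 47666, nat_lit 47670] (nat_lit 1) [nat_lit 27986] false,
   Spec.mk (nat_lit 47670) (nat_lit 0) [nat_lit 34548, nat_lit 43296, nat_lit 49128, nat_lit 47184, nat_lit 47508, nat_lit 47724, nat_lit 47652, nat_lit 47688, nat_lit 47676, nat_lit 47668] (nat_lit 3) [nat_lit 27988] false,
   Spec.mk (nat_lit 47674) (nat_lit 0) [nat_lit 34552, nat_lit 43300, nat_lit 49132, nat_lit 47188, nat_lit 47512, nat_lit 47728, nat_lit 47692, nat_lit 47668, nat_lit 47676] (nat_lit 2) [nat_lit 27992] false,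
   Spec.mk (nat_lit 47676) (nat_lit 0) [nat_lit 34554, nat_lit 43302, nat_lit 49134, nat_lit 47190, nat_lit 47514, nat_lit 47730, nat_lit 47694, nat_lit 47670, nat_lit 47674] (nat_lit 2) [nat_lit 27994] false,
   Spec.mk (nat_lit 47684) (nat_lit 0) [nat_lit 34562, nat_lit 43310, nat_lit 49142, nat_lit 47198, nat_lit 47522, nat_lit 47738, nat_lit 47666, nat_lit 47686] (nat_lit 2) [] false,
   Spec.mk (nat_lit 47686) (nat_lit 0) [nat_lit 34564, nat_lit 43312, nat_lit 49144, nat_lit 47200, nat_lit 47524, nat_lit 47740, nat_lit 47668, nat_lit 47692, nat_lit 47684, nat_lit 47688] (nat_lit 3) [nat_lit 28004] false,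
   Spec.mk (nat_lit 47688) (nat_lit 0) [nat_lit 34566, nat_lit 43314, nat_lit 49146, nat_lit 47202, nat_lit 47526, nat_lit 47742, nat_lit 47670, nat_lit 47694, nat_lit 47686] (nat_lit 6) [nat_lit 28006] false,
   Spec.mk (nat_lit 47692) (nat_lit 0) [nat_lit 34570, nat_lit 43318, nat_lit 49150, nat_lit 47206, nat_lit 47530, nat_lit 47746, nat_lit 47674, nat_lit 47686, nat_lit 47694] (nat_lit 2) [nat_lit 28010] false,
   Spec.mk (nat_lit 47694) (nat_lit 0) [nat_lit 34572, nat_lit 43320, nat_lit 49152, nat_lit 47208, nat_lit 47532, nat_lit 47748, nat_lit 47676, nat_lit 47688, nat_lit 47700, nat_lit 47692] (nat_lit 3) [nat_lit 28012] false,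
   Spec.mk (nat_lit 47700) (nat_lit 0) [nat_lit 34578, nat_lit 43326, nat_lit 49158, nat_lit 47214, nat_lit 47538, nat_lit 47754, nat_lit 47694] (nat_lit 2) [nat_lit 28018] false,
   Spec.mk (nat_lit 47714) (nat_lit 1) [nat_lit 34592, nat_lit 43340, nat_lit 49172, nat_lit 47228, nat_lit 47552, nat_lit 47876, nat_lit 47660, nat_lit 47720, nat_lit 47716] (nat_lit 0) [] false,
   Spec.mk (nat_lit 47716) (nat_lit 0) [nat_lit 34594, nat_lit 43342, nat_lit 49174, nat_lit 47230, nat_lit 47554, nat_lit 47878, nat_lit 47662, nat_lit 47722, nat_lit 47714] (nat_lit 1) [nat_lit 28034] false,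
   Spec.mk (nat_lit 47720) (nat_lit 0) [nat_lit 34598, nat_lit 43346, nat_lit 49178, nat_lit 47234, nat_lit 47558, nat_lit 47882, nat_lit 47666, nat_lit 47738, nat_lit 47714, nat_lit 47722] (nat_lit 1) [] false,
   Spec.mk (nat_lit 47722) (nat_lit 0) [nat_lit 34600, nat_lit 43348, nat_lit 49180, nat_lit 47236, nat_lit 47560, nat_lit 47884, nat_lit 47668, nat_lit 47740, nat_lit 47716, nat_lit 47728, nat_lit 47720, nat_lit 47724] (nat_lit 1) [nat_lit 28040] false,
   Spec.mk (nat_lit 47724) (nat_lit 0) [nat_lit 34602, nat_lit 43350, nat_lit 49182, nat_lit 47238, nat_lit 47562, nat_lit 47886, nat_lit 47670, nat_lit 47742, nat_lit 47730, nat_lit 47722] (nat_lit 3) [nat_lit 28042] false,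
   Spec.mk (nat_lit 47728) (nat_lit 0) [nat_lit 34606, nat_lit 43354, nat_lit 49186, nat_lit 47242, nat_lit 47566, nat_lit 47890, nat_lit 47674, nat_lit 47746, nat_lit 47722, nat_lit 47730] (nat_lit 3) [nat_lit 28046] false,
   Spec.mk (nat_lit 47730) (nat_lit 0) [nat_lit 34608, nat_lit 43356, nat_lit 49188, nat_lit 47244, nat_lit 47568, nat_lit 47892, nat_lit 47676, nat_lit 47748, nat_lit 47724, nat_lit 47728] (nat_lit 3) [nat_lit 28048] false,
   Spec.mk (nat_lit 47738) (nat_lit 0) [nat_lit 34616, nat_lit 43364, nat_lit 49196, nat_lit 47252, nat_lit 47576, nat_lit 47900, nat_lit 47684, nat_lit 47792, nat_lit 47720, nat_lit 47740] (nat_lit 0) [] false,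
   Spec.mk (nat_lit 47740) (nat_lit 0) [nat_lit 34618, nat_lit 43366, nat_lit 49198, nat_lit 47254, nat_lit 47578, nat_lit 47902, nat_lit 47686, nat_lit 47794, nat_lit 47722, nat_lit 47746, nat_lit 47738, nat_lit 47742] (nat_lit 1) [nat_lit 28058] false,
   Spec.mk (nat_lit 47742) (nat_lit 0) [nat_lit 34620, nat_lit 43368, nat_lit 49200, nat_lit 47256, nat_lit 47580, nat_lit 47904, nat_lit 47688, nat_lit 47796, nat_lit 47724, nat_lit 47748, nat_lit 47740] (nat_lit 4) [nat_lit 28060] false]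

noncomputable def sp125 : List Spec :=
  [Spec.mk (nat_lit 47746) (nat_lit 0) [nat_lit 34624, nat_lit 43372, nat_lit 49204, nat_lit 47260, nat_lit 47584, nat_lit 47908, nat_lit 47692, nat_lit 47800, nat_lit 47728, nat_lit 47764, nat_lit 47740, nat_lit 47748] (nat_lit 1) [nat_lit 28064] false,
   Spec.mk (nat_lit 47748) (nat_lit 0) [nat_lit 34626, nat_lit 43374, nat_lit 49206, nat_lit 47262, nat_lit 47586, nat_lit 47910, nat_lit 47694, nat_lit 47802, nat_lit 47730, nat_lit 47766, nat_lit 47742, nat_lit 47754, nat_lit 47746] (nat_lit 2) [nat_lit 28066] false,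
   Spec.mk (nat_lit 47754) (nat_lit 0) [nat_lit 34632, nat_lit 43380, nat_lit 49212, nat_lit 47268, nat_lit 47592, nat_lit 47916, nat_lit 47700, nat_lit 47808, nat_lit 47772, nat_lit 47748] (nat_lit 2) [nat_lit 28072] false,
   Spec.mk (nat_lit 47764) (nat_lit 0) [nat_lit 34642, nat_lit 43390, nat_lit 49222, nat_lit 47278, nat_lit 47602, nat_lit 47926, nat_lit 47818, nat_lit 47746, nat_lit 47766] (nat_lit 1) [nat_lit 28082] false,
   Spec.mk (nat_lit 47766) (nat_lit 0) [nat_lit 34644, nat_lit 43392, nat_lit 49224, nat_lit 47280, nat_lit 47604, nat_lit 47928, nat_lit 47820, nat_lit 47748, nat_lit 47772, nat_lit 47764] (nat_lit 3) [nat_lit 28084] false,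
   Spec.mk (nat_lit 47772) (nat_lit 0) [nat_lit 34650, nat_lit 43398, nat_lit 49230, nat_lit 47286, nat_lit 47610, nat_lit 47934, nat_lit 47826, nat_lit 47754, nat_lit 47766] (nat_lit 1) [nat_lit 28090] false,
   Spec.mk (nat_lit 47792) (nat_lit 0) [nat_lit 34670, nat_lit 43418, nat_lit 49250, nat_lit 47306, nat_lit 47954, nat_lit 47738, nat_lit 47794] (nat_lit 0) [] false,
   Spec.mk (nat_lit 47794) (nat_lit 0) [nat_lit 34672, nat_lit 43420, nat_lit 49252, nat_lit 47308, nat_lit 47956, nat_lit 47740, nat_lit 47800, nat_lit 47792, nat_lit 47796] (nat_lit 1) [nat_lit 28112] false,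
   Spec.mk (nat_lit 47796) (nat_lit 0) [nat_lit 34674, nat_lit 43422, nat_lit 49254, nat_lit 47310, nat_lit 47958, nat_lit 47742, nat_lit 47802, nat_lit 47794] (nat_lit 4) [nat_lit 28114] false,
   Spec.mk (nat_lit 47800) (nat_lit 0) [nat_lit 34678, nat_lit 43426, nat_lit 49258, nat_lit 47314, nat_lit 47962, nat_lit 47746, nat_lit 47818, nat_lit 47794, nat_lit 47802] (nat_lit 2) [nat_lit 28118] false,
   Spec.mk (nat_lit 47802) (nat_lit 0) [nat_lit 34680, nat_lit 43428, nat_lit 49260, nat_lit 47316, nat_lit 47964, nat_lit 47748, nat_lit 47820, nat_lit 47796, nat_lit 47808, nat_lit 47800] (nat_lit 3) [nat_lit 28120] false,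
   Spec.mk (nat_lit 47808) (nat_lit 0) [nat_lit 34686, nat_lit 43434, nat_lit 49266, nat_lit 47322, nat_lit 47970, nat_lit 47754, nat_lit 47826, nat_lit 47802] (nat_lit 4) [nat_lit 28126] false,
   Spec.mk (nat_lit 47818) (nat_lit 0) [nat_lit 34696, nat_lit 43444, nat_lit 49276, nat_lit 47332, nat_lit 47980, nat_lit 47764, nat_lit 47800, nat_lit 47820] (nat_lit 0) [nat_lit 28136] false,
   Spec.mk (nat_lit 47820) (nat_lit 0) [nat_lit 34698, nat_lit 43446, nat_lit 49278, nat_lit 47334, nat_lit 47982, nat_lit 47766, nat_lit 47802, nat_lit 47826, nat_lit 47818] (nat_lit 2) [nat_lit 28138] false,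
   Spec.mk (nat_lit 47826) (nat_lit 0) [nat_lit 34704, nat_lit 43452, nat_lit 49284, nat_lit 47340, nat_lit 47988, nat_lit 47772, nat_lit 47808, nat_lit 47844, nat_lit 47820] (nat_lit 1) [nat_lit 28144] false,
   Spec.mk (nat_lit 47844) (nat_lit 0) [nat_lit 34722, nat_lit 43470, nat_lit 49302, nat_lit 47358, nat_lit 48006, nat_lit 47826] (nat_lit 0) [nat_lit 28162] false,
   Spec.mk (nat_lit 47876) (nat_lit 2) [nat_lit 34754, nat_lit 43502, nat_lit 49334, nat_lit 47714, nat_lit 47882, nat_lit 47878] (nat_lit 0) [] false,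
   Spec.mk (nat_lit 47878) (nat_lit 0) [nat_lit 34756, nat_lit 43504, nat_lit 49336, nat_lit 47716, nat_lit 47884, nat_lit 47876] (nat_lit 0) [nat_lit 28196] false,
   Spec.mk (nat_lit 47882) (nat_lit 0) [nat_lit 34760, nat_lit 43508, nat_lit 49340, nat_lit 47720, nat_lit 47900, nat_lit 47876, nat_lit 47884] (nat_lit 0) [] false,
   Spec.mk (nat_lit 47884) (nat_lit 0) [nat_lit 34762, nat_lit 43510, nat_lit 49342, nat_lit 47722, nat_lit 47902, nat_lit 47878, nat_lit 47890, nat_lit 47882, nat_lit 47886] (nat_lit 0) [nat_lit 28202] false,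
   Spec.mk (nat_lit 47886) (nat_lit 0) [nat_lit 34764, nat_lit 43512, nat_lit 49344, nat_lit 47724, nat_lit 47904, nat_lit 47892, nat_lit 47884] (nat_lit 2) [nat_lit 28204] false,
   Spec.mk (nat_lit 47890) (nat_lit 0) [nat_lit 34768, nat_lit 43516, nat_lit 49348, nat_lit 47728, nat_lit 47908, nat_lit 47884, nat_lit 47892] (nat_lit 2) [nat_lit 28208] false,
   Spec.mk (nat_lit 47892) (nat_lit 0) [nat_lit 34770, nat_lit 43518, nat_lit 49350, nat_lit 47730, nat_lit 47910, nat_lit 47886, nat_lit 47890] (nat_lit 2) [nat_lit 28210] false,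
   Spec.mk (nat_lit 47900) (nat_lit 0) [nat_lit 34778, nat_lit 43526, nat_lit 49358, nat_lit 47738, nat_lit 47954, nat_lit 47882, nat_lit 47902] (nat_lit 0) [] false,
   Spec.mk (nat_lit 47902) (nat_lit 0) [nat_lit 34780, nat_lit 43528, nat_lit 49360, nat_lit 47740, nat_lit 47956, nat_lit 47884, nat_lit 47908, nat_lit 47900, nat_lit 47904] (nat_lit 1) [nat_lit 28220] false,
   Spec.mk (nat_lit 47904) (nat_lit 0) [nat_lit 34782, nat_lit 43530, nat_lit 49362, nat_lit 47742, nat_lit 47958, nat_lit 47886, nat_lit 47910, nat_lit 47902] (nat_lit 4) [nat_lit 28222] false,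
   Spec.mk (nat_lit 47908) (nat_lit 0) [nat_lit 34786, nat_lit 43534, nat_lit 49366, nat_lit 47746, nat_lit 47962, nat_lit 47890, nat_lit 47926, nat_lit 47902, nat_lit 47910] (nat_lit 1) [nat_lit 28226] false,
   Spec.mk (nat_lit 47910) (nat_lit 0) [nat_lit 34788, nat_lit 43536, nat_lit 49368, nat_lit 47748, nat_lit 47964, nat_lit 47892, nat_lit 47928, nat_lit 47904, nat_lit 47916, nat_lit 47908] (nat_lit 2) [nat_lit 28228] false,
   Spec.mk (nat_lit 47916) (nat_lit 0) [nat_lit 34794, nat_lit 43542, nat_lit 49374, nat_lit 47754, nat_lit 47970, nat_lit 47934, nat_lit 47910] (nat_lit 2) [nat_lit 28234] false,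
   Spec.mk (nat_lit 47926) (nat_lit 0) [nat_lit 34804, nat_lit 43552, nat_lit 49384, nat_lit 47764, nat_lit 47980, nat_lit 47908, nat_lit 47928] (nat_lit 2) [nat_lit 28244] false,
   Spec.mk (nat_lit 47928) (nat_lit 0) [nat_lit 34806, nat_lit 43554, nat_lit 49386, nat_lit 47766, nat_lit 47982, nat_lit 47910, nat_lit 47934, nat_lit 47926] (nat_lit 4) [nat_lit 28246] false,
   Spec.mk (nat_lit 47934) (nat_lit 0) [nat_lit 34812, nat_lit 43560, nat_lit 49392, nat_lit 47772, nat_lit 47988, nat_lit 47916, nat_lit 47928] (nat_lit 2) [nat_lit 28252] false,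
   Spec.mk (nat_lit 47954) (nat_lit 2) [nat_lit 34832, nat_lit 43580, nat_lit 49412, nat_lit 47792, nat_lit 47900, nat_lit 47956] (nat_lit 0) [] false,
   Spec.mk (nat_lit 47956) (nat_lit 1) [nat_lit 34834, nat_lit 43582, nat_lit 49414, nat_lit 47794, nat_lit 47902, nat_lit 47962, nat_lit 47954, nat_lit 47958] (nat_lit 0) [nat_lit 28274] false,
   Spec.mk (nat_lit 47958) (nat_lit 0) [nat_lit 34836, nat_lit 43584, nat_lit 49416, nat_lit 47796, nat_lit 47904, nat_lit 47964, nat_lit 47956] (nat_lit 2) [nat_lit 28276] false,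
   Spec.mk (nat_lit 47962) (nat_lit 0) [nat_lit 34840, nat_lit 43588, nat_lit 49420, nat_lit 47800, nat_lit 47908, nat_lit 47980, nat_lit 47956, nat_lit 47964] (nat_lit 0) [nat_lit 28280] false,
   Spec.mk (nat_lit 47964) (nat_lit 0) [nat_lit 34842, nat_lit 43590, nat_lit 49422, nat_lit 47802, nat_lit 47910, nat_lit 47982, nat_lit 47958, nat_lit 47970, nat_lit 47962] (nat_lit 1) [nat_lit 28282] false,
   Spec.mk (nat_lit 47970) (nat_lit 0) [nat_lit 34848, nat_lit 43596, nat_lit 49428, nat_lit 47808, nat_lit 47916, nat_lit 47988, nat_lit 47964] (nat_lit 2) [nat_lit 28288] false,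
   Spec.mk (nat_lit 47980) (nat_lit 1) [nat_lit 34858, nat_lit 43606, nat_lit 49438, nat_lit 47818, nat_lit 47926, nat_lit 48034, nat_lit 47962, nat_lit 47982] (nat_lit 0) [nat_lit 28298] false,
   Spec.mk (nat_lit 47982) (nat_lit 0) [nat_lit 34860, nat_lit 43608, nat_lit 49440, nat_lit 47820, nat_lit 47928, nat_lit 48036, nat_lit 47964, nat_lit 47988, nat_lit 47980] (nat_lit 1) [nat_lit 28300] false,
   Spec.mk (nat_lit 47988) (nat_lit 0) [nat_lit 34866, nat_lit 43614, nat_lit 49446, nat_lit 47826, nat_lit 47934, nat_lit 48042, nat_lit 47970, nat_lit 48006, nat_lit 47982] (nat_lit 0) [nat_lit 28306] false,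
   Spec.mk (nat_lit 48006) (nat_lit 0) [nat_lit 34884, nat_lit 43632, nat_lit 49464, nat_lit 47844, nat_lit 48060, nat_lit 47988] (nat_lit 0) [nat_lit 28324] false,
   Spec.mk (nat_lit 48034) (nat_lit 2) [nat_lit 34912, nat_lit 43660, nat_lit 49492, nat_lit 47980, nat_lit 48036] (nat_lit 0) [nat_lit 28352] false,
   Spec.mk (nat_lit 48036) (nat_lit 0) [nat_lit 34914, nat_lit 43662, nat_lit 49494, nat_lit 47982, nat_lit 48042, nat_lit 48034] (nat_lit 0) [nat_lit 28354] false,
   Spec.mk (nat_lit 48042) (nat_lit 0) [nat_lit 34920, nat_lit 43668, nat_lit 49500, nat_lit 47988, nat_lit 48060, nat_lit 48036] (nat_lit 0) [nat_lit 28360] false,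
   Spec.mk (nat_lit 48060) (nat_lit 2) [nat_lit 34938, nat_lit 43686, nat_lit 49518, nat_lit 48006, nat_lit 48042] (nat_lit 0) [nat_lit 28378] false,
   Spec.mk (nat_lit 48140) (nat_lit 5) [nat_lit 35018, nat_lit 43766, nat_lit 52514, nat_lit 46682, nat_lit 48158] (nat_lit 0) [] false,
   Spec.mk (nat_lit 48158) (nat_lit 4) [nat_lit 35036, nat_lit 43784, nat_lit 52532, nat_lit 46700, nat_lit 48212, nat_lit 48140, nat_lit 48176, nat_lit 48164] (nat_lit 0) [] false,
   Spec.mk (nat_lit 48164) (nat_lit 3) [nat_lit 35042, nat_lit 43790, nat_lit 52538, nat_lit 46706, nat_lit 48218, nat_lit 48182, nat_lit 48158, nat_lit 48166] (nat_lit 0) [] false,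
   Spec.mk (nat_lit 48166) (nat_lit 3) [nat_lit 35044, nat_lit 43792, nat_lit 52540, nat_lit 46708, nat_lit 48220, nat_lit 48184, nat_lit 48164] (nat_lit 0) [nat_lit 28484] false,
   Spec.mk (nat_lit 48176) (nat_lit 1) [nat_lit 35054, nat_lit 43802, nat_lit 52550, nat_lit 46718, nat_lit 48230, nat_lit 48158, nat_lit 48182] (nat_lit 0) [] false,
   Spec.mk (nat_lit 48182) (nat_lit 2) [nat_lit 35060, nat_lit 43808, nat_lit 52556, nat_lit 46724, nat_lit 48236, nat_lit 48164, nat_lit 48176, nat_lit 48188, nat_lit 48184] (nat_lit 0) [] false,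
   Spec.mk (nat_lit 48184) (nat_lit 1) [nat_lit 35062, nat_lit 43810, nat_lit 52558, nat_lit 46726, nat_lit 48238, nat_lit 48166, nat_lit 48190, nat_lit 48182] (nat_lit 0) [nat_lit 28502] false,
   Spec.mk (nat_lit 48188) (nat_lit 1) [nat_lit 35066, nat_lit 43814, nat_lit 52562, nat_lit 46730, nat_lit 48242, nat_lit 48182, nat_lit 48190] (nat_lit 0) [] false,
   Spec.mk (nat_lit 48190) (nat_lit 2) [nat_lit 35068, nat_lit 43816, nat_lit 52564, nat_lit 46732, nat_lit 48244, nat_lit 48184, nat_lit 48188, nat_lit 48192] (nat_lit 0) [nat_lit 28508] false,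
   Spec.mk (nat_lit 48192) (nat_lit 1) [nat_lit 35070, nat_lit 43818, nat_lit 52566, nat_lit 46734, nat_lit 48246, nat_lit 48190] (nat_lit 0) [nat_lit 28510] false,
   Spec.mk (nat_lit 48212) (nat_lit 3) [nat_lit 35090, nat_lit 43838, nat_lit 52586, nat_lit 46754, nat_lit 48374, nat_lit 48158, nat_lit 48230, nat_lit 48218] (nat_lit 0) [] false,
   Spec.mk (nat_lit 48218) (nat_lit 1) [nat_lit 35096, nat_lit 43844, nat_lit 52592, nat_lit 46760, nat_lit 48380, nat_lit 48164, nat_lit 48236, nat_lit 48212, nat_lit 48220] (nat_lit 0) [] false,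
   Spec.mk (nat_lit 48220) (nat_lit 1) [nat_lit 35098, nat_lit 43846, nat_lit 52594, nat_lit 46762, nat_lit 48382, nat_lit 48166, nat_lit 48238, nat_lit 48218] (nat_lit 0) [nat_lit 28538] false,
   Spec.mk (nat_lit 48230) (nat_lit 2) [nat_lit 35108, nat_lit 43856, nat_lit 52604, nat_lit 46772, nat_lit 48392, nat_lit 48176, nat_lit 48284, nat_lit 48212, nat_lit 48236] (nat_lit 0) [] false]

noncomputable def sp126 : List Spec :=
  [Spec.mk (nat_lit 48236) (nat_lit 2) [nat_lit 35114, nat_lit 43862, nat_lit 52610, nat_lit 46778, nat_lit 48398, nat_lit 48182, nat_lit 48290, nat_lit 48218, nat_lit 48254, nat_lit 48230, nat_lit 48242, nat_lit 48238] (nat_lit 0) [] false,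
   Spec.mk (nat_lit 48238) (nat_lit 1) [nat_lit 35116, nat_lit 43864, nat_lit 52612, nat_lit 46780, nat_lit 48400, nat_lit 48184, nat_lit 48292, nat_lit 48220, nat_lit 48256, nat_lit 48244, nat_lit 48236] (nat_lit 0) [nat_lit 28556] false,
   Spec.mk (nat_lit 48242) (nat_lit 0) [nat_lit 35120, nat_lit 43868, nat_lit 52616, nat_lit 46784, nat_lit 48404, nat_lit 48188, nat_lit 48296, nat_lit 48260, nat_lit 48236, nat_lit 48244] (nat_lit 0) [] false,
   Spec.mk (nat_lit 48244) (nat_lit 1) [nat_lit 35122, nat_lit 43870, nat_lit 52618, nat_lit 46786, nat_lit 48406, nat_lit 48190, nat_lit 48298, nat_lit 48262, nat_lit 48238, nat_lit 48242, nat_lit 48246] (nat_lit 0) [nat_lit 28562] false,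
   Spec.mk (nat_lit 48246) (nat_lit 0) [nat_lit 35124, nat_lit 43872, nat_lit 52620, nat_lit 46788, nat_lit 48408, nat_lit 48192, nat_lit 48300, nat_lit 48264, nat_lit 48244] (nat_lit 0) [nat_lit 28564] false,
   Spec.mk (nat_lit 48254) (nat_lit 1) [nat_lit 35132, nat_lit 43880, nat_lit 52628, nat_lit 46796, nat_lit 48416, nat_lit 48308, nat_lit 48236, nat_lit 48260, nat_lit 48256] (nat_lit 0) [] false,
   Spec.mk (nat_lit 48256) (nat_lit 0) [nat_lit 35134, nat_lit 43882, nat_lit 52630, nat_lit 46798, nat_lit 48418, nat_lit 48310, nat_lit 48238, nat_lit 48262, nat_lit 48254] (nat_lit 1) [nat_lit 28574] false,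
   Spec.mk (nat_lit 48260) (nat_lit 1) [nat_lit 35138, nat_lit 43886, nat_lit 52634, nat_lit 46802, nat_lit 48422, nat_lit 48314, nat_lit 48242, nat_lit 48254, nat_lit 48262] (nat_lit 0) [] false,
   Spec.mk (nat_lit 48262) (nat_lit 1) [nat_lit 35140, nat_lit 43888, nat_lit 52636, nat_lit 46804, nat_lit 48424, nat_lit 48316, nat_lit 48244, nat_lit 48256, nat_lit 48268, nat_lit 48260, nat_lit 48264] (nat_lit 0) [nat_lit 28580] false,
   Spec.mk (nat_lit 48264) (nat_lit 0) [nat_lit 35142, nat_lit 43890, nat_lit 52638, nat_lit 46806, nat_lit 48426, nat_lit 48318, nat_lit 48246, nat_lit 48270, nat_lit 48262] (nat_lit 1) [nat_lit 28582] false,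
   Spec.mk (nat_lit 48268) (nat_lit 1) [nat_lit 35146, nat_lit 43894, nat_lit 52642, nat_lit 46810, nat_lit 48430, nat_lit 48322, nat_lit 48262, nat_lit 48270] (nat_lit 0) [nat_lit 28586] false,
   Spec.mk (nat_lit 48270) (nat_lit 1) [nat_lit 35148, nat_lit 43896, nat_lit 52644, nat_lit 46812, nat_lit 48432, nat_lit 48324, nat_lit 48264, nat_lit 48268] (nat_lit 0) [nat_lit 28588] false,
   Spec.mk (nat_lit 48284) (nat_lit 1) [nat_lit 35162, nat_lit 43910, nat_lit 52658, nat_lit 46826, nat_lit 48446, nat_lit 48230, nat_lit 48290] (nat_lit 0) [] false,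
   Spec.mk (nat_lit 48290) (nat_lit 0) [nat_lit 35168, nat_lit 43916, nat_lit 52664, nat_lit 46832, nat_lit 48452, nat_lit 48236, nat_lit 48308, nat_lit 48284, nat_lit 48296, nat_lit 48292] (nat_lit 0) [] false,
   Spec.mk (nat_lit 48292) (nat_lit 0) [nat_lit 35170, nat_lit 43918, nat_lit 52666, nat_lit 46834, nat_lit 48454, nat_lit 48238, nat_lit 48310, nat_lit 48298, nat_lit 48290] (nat_lit 1) [nat_lit 28610] false,
   Spec.mk (nat_lit 48296) (nat_lit 0) [nat_lit 35174, nat_lit 43922, nat_lit 52670, nat_lit 46838, nat_lit 48458, nat_lit 48242, nat_lit 48314, nat_lit 48290, nat_lit 48298] (nat_lit 3) [] false,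
   Spec.mk (nat_lit 48298) (nat_lit 0) [nat_lit 35176, nat_lit 43924, nat_lit 52672, nat_lit 46840, nat_lit 48460, nat_lit 48244, nat_lit 48316, nat_lit 48292, nat_lit 48296, nat_lit 48300] (nat_lit 2) [nat_lit 28616] false,
   Spec.mk (nat_lit 48300) (nat_lit 0) [nat_lit 35178, nat_lit 43926, nat_lit 52674, nat_lit 46842, nat_lit 48462, nat_lit 48246, nat_lit 48318, nat_lit 48298] (nat_lit 3) [nat_lit 28618] false,
   Spec.mk (nat_lit 48308) (nat_lit 1) [nat_lit 35186, nat_lit 43934, nat_lit 52682, nat_lit 46850, nat_lit 48470, nat_lit 48254, nat_lit 48290, nat_lit 48314, nat_lit 48310] (nat_lit 0) [] false,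
   Spec.mk (nat_lit 48310) (nat_lit 0) [nat_lit 35188, nat_lit 43936, nat_lit 52684, nat_lit 46852, nat_lit 48472, nat_lit 48256, nat_lit 48292, nat_lit 48316, nat_lit 48308] (nat_lit 1) [nat_lit 28628] false,
   Spec.mk (nat_lit 48314) (nat_lit 0) [nat_lit 35192, nat_lit 43940, nat_lit 52688, nat_lit 46856, nat_lit 48476, nat_lit 48260, nat_lit 48296, nat_lit 48332, nat_lit 48308, nat_lit 48316] (nat_lit 0) [] false,
   Spec.mk (nat_lit 48316) (nat_lit 0) [nat_lit 35194, nat_lit 43942, nat_lit 52690, nat_lit 46858, nat_lit 48478, nat_lit 48262, nat_lit 48298, nat_lit 48334, nat_lit 48310, nat_lit 48322, nat_lit 48314, nat_lit 48318] (nat_lit 0) [nat_lit 28634] false,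
   Spec.mk (nat_lit 48318) (nat_lit 0) [nat_lit 35196, nat_lit 43944, nat_lit 52692, nat_lit 46860, nat_lit 48480, nat_lit 48264, nat_lit 48300, nat_lit 48336, nat_lit 48324, nat_lit 48316] (nat_lit 2) [nat_lit 28636] false,
   Spec.mk (nat_lit 48322) (nat_lit 0) [nat_lit 35200, nat_lit 43948, nat_lit 52696, nat_lit 46864, nat_lit 48484, nat_lit 48268, nat_lit 48340, nat_lit 48316, nat_lit 48324] (nat_lit 1) [nat_lit 28640] false,
   Spec.mk (nat_lit 48324) (nat_lit 0) [nat_lit 35202, nat_lit 43950, nat_lit 52698, nat_lit 46866, nat_lit 48486, nat_lit 48270, nat_lit 48342, nat_lit 48318, nat_lit 48322] (nat_lit 1) [nat_lit 28642] false,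
   Spec.mk (nat_lit 48332) (nat_lit 1) [nat_lit 35210, nat_lit 43958, nat_lit 52706, nat_lit 46874, nat_lit 48494, nat_lit 48314, nat_lit 48334] (nat_lit 0) [] false,
   Spec.mk (nat_lit 48334) (nat_lit 0) [nat_lit 35212, nat_lit 43960, nat_lit 52708, nat_lit 46876, nat_lit 48496, nat_lit 48316, nat_lit 48340, nat_lit 48332, nat_lit 48336] (nat_lit 0) [nat_lit 28652] false,
   Spec.mk (nat_lit 48336) (nat_lit 0) [nat_lit 35214, nat_lit 43962, nat_lit 52710, nat_lit 46878, nat_lit 48498, nat_lit 48318, nat_lit 48342, nat_lit 48334] (nat_lit 3) [nat_lit 28654] false,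
   Spec.mk (nat_lit 48340) (nat_lit 1) [nat_lit 35218, nat_lit 43966, nat_lit 52714, nat_lit 46882, nat_lit 48502, nat_lit 48322, nat_lit 48334, nat_lit 48342] (nat_lit 0) [nat_lit 28658] false,
   Spec.mk (nat_lit 48342) (nat_lit 0) [nat_lit 35220, nat_lit 43968, nat_lit 52716, nat_lit 46884, nat_lit 48504, nat_lit 48324, nat_lit 48336, nat_lit 48348, nat_lit 48340] (nat_lit 0) [nat_lit 28660] false,
   Spec.mk (nat_lit 48348) (nat_lit 1) [nat_lit 35226, nat_lit 43974, nat_lit 52722, nat_lit 46890, nat_lit 48510, nat_lit 48342] (nat_lit 0) [nat_lit 28666] false,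
   Spec.mk (nat_lit 48374) (nat_lit 3) [nat_lit 35252, nat_lit 44000, nat_lit 52748, nat_lit 46916, nat_lit 48860, nat_lit 48212, nat_lit 48392, nat_lit 48380] (nat_lit 0) [] false,
   Spec.mk (nat_lit 48380) (nat_lit 1) [nat_lit 35258, nat_lit 44006, nat_lit 52754, nat_lit 46922, nat_lit 48866, nat_lit 48218, nat_lit 48398, nat_lit 48374, nat_lit 48382] (nat_lit 0) [] false,
   Spec.mk (nat_lit 48382) (nat_lit 1) [nat_lit 35260, nat_lit 44008, nat_lit 52756, nat_lit 46924, nat_lit 48868, nat_lit 48220, nat_lit 48400, nat_lit 48380] (nat_lit 0) [nat_lit 28700] false,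
   Spec.mk (nat_lit 48392) (nat_lit 1) [nat_lit 35270, nat_lit 44018, nat_lit 52766, nat_lit 46934, nat_lit 48878, nat_lit 48230, nat_lit 48446, nat_lit 48374, nat_lit 48398] (nat_lit 0) [] false,
   Spec.mk (nat_lit 48398) (nat_lit 1) [nat_lit 35276, nat_lit 44024, nat_lit 52772, nat_lit 46940, nat_lit 48884, nat_lit 48236, nat_lit 48452, nat_lit 48380, nat_lit 48416, nat_lit 48392, nat_lit 48404, nat_lit 48400] (nat_lit 0) [] false,
   Spec.mk (nat_lit 48400) (nat_lit 0) [nat_lit 35278, nat_lit 44026, nat_lit 52774, nat_lit 46942, nat_lit 48886, nat_lit 48238, nat_lit 48454, nat_lit 48382, nat_lit 48418, nat_lit 48406, nat_lit 48398] (nat_lit 0) [nat_lit 28718] false,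
   Spec.mk (nat_lit 48404) (nat_lit 0) [nat_lit 35282, nat_lit 44030, nat_lit 52778, nat_lit 46946, nat_lit 48890, nat_lit 48242, nat_lit 48458, nat_lit 48422, nat_lit 48398, nat_lit 48406] (nat_lit 1) [] false,
   Spec.mk (nat_lit 48406) (nat_lit 0) [nat_lit 35284, nat_lit 44032, nat_lit 52780, nat_lit 46948, nat_lit 48892, nat_lit 48244, nat_lit 48460, nat_lit 48424, nat_lit 48400, nat_lit 48404, nat_lit 48408] (nat_lit 0) [nat_lit 28724] false,
   Spec.mk (nat_lit 48408) (nat_lit 0) [nat_lit 35286, nat_lit 44034, nat_lit 52782, nat_lit 46950, nat_lit 48894, nat_lit 48246, nat_lit 48462, nat_lit 48426, nat_lit 48406] (nat_lit 1) [nat_lit 28726] false,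
   Spec.mk (nat_lit 48416) (nat_lit 0) [nat_lit 35294, nat_lit 44042, nat_lit 52790, nat_lit 46958, nat_lit 48902, nat_lit 48254, nat_lit 48470, nat_lit 48398, nat_lit 48422, nat_lit 48418] (nat_lit 1) [] false,
   Spec.mk (nat_lit 48418) (nat_lit 0) [nat_lit 35296, nat_lit 44044, nat_lit 52792, nat_lit 46960, nat_lit 48904, nat_lit 48256, nat_lit 48472, nat_lit 48400, nat_lit 48424, nat_lit 48416] (nat_lit 3) [nat_lit 28736] false,
   Spec.mk (nat_lit 48422) (nat_lit 0) [nat_lit 35300, nat_lit 44048, nat_lit 52796, nat_lit 46964, nat_lit 48908, nat_lit 48260, nat_lit 48476, nat_lit 48404, nat_lit 48416, nat_lit 48424] (nat_lit 1) [] false,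
   Spec.mk (nat_lit 48424) (nat_lit 0) [nat_lit 35302, nat_lit 44050, nat_lit 52798, nat_lit 46966, nat_lit 48910, nat_lit 48262, nat_lit 48478, nat_lit 48406, nat_lit 48418, nat_lit 48430, nat_lit 48422, nat_lit 48426] (nat_lit 1) [nat_lit 28742] false,
   Spec.mk (nat_lit 48426) (nat_lit 0) [nat_lit 35304, nat_lit 44052, nat_lit 52800, nat_lit 46968, nat_lit 48912, nat_lit 48264, nat_lit 48480, nat_lit 48408, nat_lit 48432, nat_lit 48424] (nat_lit 3) [nat_lit 28744] false,
   Spec.mk (nat_lit 48430) (nat_lit 0) [nat_lit 35308, nat_lit 44056, nat_lit 52804, nat_lit 46972, nat_lit 48916, nat_lit 48268, nat_lit 48484, nat_lit 48424, nat_lit 48432] (nat_lit 1) [nat_lit 28748] false,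
   Spec.mk (nat_lit 48432) (nat_lit 0) [nat_lit 35310, nat_lit 44058, nat_lit 52806, nat_lit 46974, nat_lit 48918, nat_lit 48270, nat_lit 48486, nat_lit 48426, nat_lit 48430] (nat_lit 1) [nat_lit 28750] false,
   Spec.mk (nat_lit 48446) (nat_lit 2) [nat_lit 35324, nat_lit 44072, nat_lit 52820, nat_lit 46988, nat_lit 48932, nat_lit 48284, nat_lit 48608, nat_lit 48392, nat_lit 48452] (nat_lit 0) [] false,
   Spec.mk (nat_lit 48452) (nat_lit 1) [nat_lit 35330, nat_lit 44078, nat_lit 52826, nat_lit 46994, nat_lit 48938, nat_lit 48290, nat_lit 48614, nat_lit 48398, nat_lit 48470, nat_lit 48446, nat_lit 48458, nat_lit 48454] (nat_lit 0) [] false,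
   Spec.mk (nat_lit 48454) (nat_lit 0) [nat_lit 35332, nat_lit 44080, nat_lit 52828, nat_lit 46996, nat_lit 48940, nat_lit 48292, nat_lit 48616, nat_lit 48400, nat_lit 48472, nat_lit 48460, nat_lit 48452] (nat_lit 0) [nat_lit 28772] false,
   Spec.mk (nat_lit 48458) (nat_lit 0) [nat_lit 35336, nat_lit 44084, nat_lit 52832, nat_lit 47000, nat_lit 48944, nat_lit 48296, nat_lit 48620, nat_lit 48404, nat_lit 48476, nat_lit 48452, nat_lit 48460] (nat_lit 2) [] false,
   Spec.mk (nat_lit 48460) (nat_lit 0) [nat_lit 35338, nat_lit 44086, nat_lit 52834, nat_lit 47002, nat_lit 48946, nat_lit 48298, nat_lit 48622, nat_lit 48406, nat_lit 48478, nat_lit 48454, nat_lit 48458, nat_lit 48462] (nat_lit 1) [nat_lit 28778] false,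
   Spec.mk (nat_lit 48462) (nat_lit 0) [nat_lit 35340, nat_lit 44088, nat_lit 52836, nat_lit 47004, nat_lit 48948, nat_lit 48300, nat_lit 48624, nat_lit 48408, nat_lit 48480, nat_lit 48460] (nat_lit 2) [nat_lit 28780] false,
   Spec.mk (nat_lit 48470) (nat_lit 1) [nat_lit 35348, nat_lit 44096, nat_lit 52844, nat_lit 47012, nat_lit 48956, nat_lit 48308, nat_lit 48632, nat_lit 48416, nat_lit 48524, nat_lit 48452, nat_lit 48476, nat_lit 48472] (nat_lit 0) [] false,
   Spec.mk (nat_lit 48472) (nat_lit 0) [nat_lit 35350, nat_lit 44098, nat_lit 52846, nat_lit 47014, nat_lit 48958, nat_lit 48310, nat_lit 48634, nat_lit 48418, nat_lit 48526, nat_lit 48454, nat_lit 48478, nat_lit 48470] (nat_lit 1) [nat_lit 28790] false,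
   Spec.mk (nat_lit 48476) (nat_lit 0) [nat_lit 35354, nat_lit 44102, nat_lit 52850, nat_lit 47018, nat_lit 48962, nat_lit 48314, nat_lit 48638, nat_lit 48422, nat_lit 48530, nat_lit 48458, nat_lit 48494, nat_lit 48470, nat_lit 48478] (nat_lit 0) [] false,
   Spec.mk (nat_lit 48478) (nat_lit 0) [nat_lit 35356, nat_lit 44104, nat_lit 52852, nat_lit 47020, nat_lit 48964, nat_lit 48316, nat_lit 48640, nat_lit 48424, nat_lit 48532, nat_lit 48460, nat_lit 48496, nat_lit 48472, nat_lit 48484, nat_lit 48476, nat_lit 48480] (nat_lit 0) [nat_lit 28796] false,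
   Spec.mk (nat_lit 48480) (nat_lit 0) [nat_lit 35358, nat_lit 44106, nat_lit 52854, nat_lit 47022, nat_lit 48966, nat_lit 48318, nat_lit 48642, nat_lit 48426, nat_lit 48534, nat_lit 48462, nat_lit 48498, nat_lit 48486, nat_lit 48478] (nat_lit 2) [nat_lit 28798] false,
   Spec.mk (nat_lit 48484) (nat_lit 0) [nat_lit 35362, nat_lit 44110, nat_lit 52858, nat_lit 47026, nat_lit 48970, nat_lit 48322, nat_lit 48646, nat_lit 48430, nat_lit 48538, nat_lit 48502, nat_lit 48478, nat_lit 48486] (nat_lit 1) [nat_lit 28802] false,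
   Spec.mk (nat_lit 48486) (nat_lit 0) [nat_lit 35364, nat_lit 44112, nat_lit 52860, nat_lit 47028, nat_lit 48972, nat_lit 48324, nat_lit 48648, nat_lit 48432, nat_lit 48540, nat_lit 48504, nat_lit 48480, nat_lit 48484] (nat_lit 1) [nat_lit 28804] false]

noncomputable def sp127 : List Spec :=
  [Spec.mk (nat_lit 48494) (nat_lit 0) [nat_lit 35372, nat_lit 44120, nat_lit 52868, nat_lit 47036, nat_lit 48980, nat_lit 48332, nat_lit 48656, nat_lit 48548, nat_lit 48476, nat_lit 48496] (nat_lit 0) [] false,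
   Spec.mk (nat_lit 48496) (nat_lit 0) [nat_lit 35374, nat_lit 44122, nat_lit 52870, nat_lit 47038, nat_lit 48982, nat_lit 48334, nat_lit 48658, nat_lit 48550, nat_lit 48478, nat_lit 48502, nat_lit 48494, nat_lit 48498] (nat_lit 1) [nat_lit 28814] false,
   Spec.mk (nat_lit 48498) (nat_lit 0) [nat_lit 35376, nat_lit 44124, nat_lit 52872, nat_lit 47040, nat_lit 48984, nat_lit 48336, nat_lit 48660, nat_lit 48552, nat_lit 48480, nat_lit 48504, nat_lit 48496] (nat_lit 4) [nat_lit 28816] false,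
   Spec.mk (nat_lit 48502) (nat_lit 0) [nat_lit 35380, nat_lit 44128, nat_lit 52876, nat_lit 47044, nat_lit 48988, nat_lit 48340, nat_lit 48664, nat_lit 48556, nat_lit 48484, nat_lit 48496, nat_lit 48504] (nat_lit 0) [nat_lit 28820] false,
   Spec.mk (nat_lit 48504) (nat_lit 0) [nat_lit 35382, nat_lit 44130, nat_lit 52878, nat_lit 47046, nat_lit 48990, nat_lit 48342, nat_lit 48666, nat_lit 48558, nat_lit 48486, nat_lit 48498, nat_lit 48510, nat_lit 48502] (nat_lit 1) [nat_lit 28822] false,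
   Spec.mk (nat_lit 48510) (nat_lit 0) [nat_lit 35388, nat_lit 44136, nat_lit 52884, nat_lit 47052, nat_lit 48996, nat_lit 48348, nat_lit 48672, nat_lit 48564, nat_lit 48504] (nat_lit 0) [nat_lit 28828] false,
   Spec.mk (nat_lit 48524) (nat_lit 1) [nat_lit 35402, nat_lit 44150, nat_lit 52898, nat_lit 47066, nat_lit 49010, nat_lit 48686, nat_lit 48470, nat_lit 48530, nat_lit 48526] (nat_lit 0) [] false,
   Spec.mk (nat_lit 48526) (nat_lit 0) [nat_lit 35404, nat_lit 44152, nat_lit 52900, nat_lit 47068, nat_lit 49012, nat_lit 48688, nat_lit 48472, nat_lit 48532, nat_lit 48524] (nat_lit 1) [nat_lit 28844] false,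
   Spec.mk (nat_lit 48530) (nat_lit 0) [nat_lit 35408, nat_lit 44156, nat_lit 52904, nat_lit 47072, nat_lit 49016, nat_lit 48692, nat_lit 48476, nat_lit 48548, nat_lit 48524, nat_lit 48532] (nat_lit 1) [] false,
   Spec.mk (nat_lit 48532) (nat_lit 0) [nat_lit 35410, nat_lit 44158, nat_lit 52906, nat_lit 47074, nat_lit 49018, nat_lit 48694, nat_lit 48478, nat_lit 48550, nat_lit 48526, nat_lit 48538, nat_lit 48530, nat_lit 48534] (nat_lit 1) [nat_lit 28850] false,
   Spec.mk (nat_lit 48534) (nat_lit 0) [nat_lit 35412, nat_lit 44160, nat_lit 52908, nat_lit 47076, nat_lit 49020, nat_lit 48696, nat_lit 48480, nat_lit 48552, nat_lit 48540, nat_lit 48532] (nat_lit 3) [nat_lit 28852] false,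
   Spec.mk (nat_lit 48538) (nat_lit 0) [nat_lit 35416, nat_lit 44164, nat_lit 52912, nat_lit 47080, nat_lit 49024, nat_lit 48700, nat_lit 48484, nat_lit 48556, nat_lit 48532, nat_lit 48540] (nat_lit 3) [nat_lit 28856] false,
   Spec.mk (nat_lit 48540) (nat_lit 0) [nat_lit 35418, nat_lit 44166, nat_lit 52914, nat_lit 47082, nat_lit 49026, nat_lit 48702, nat_lit 48486, nat_lit 48558, nat_lit 48534, nat_lit 48538] (nat_lit 3) [nat_lit 28858] false,
   Spec.mk (nat_lit 48548) (nat_lit 1) [nat_lit 35426, nat_lit 44174, nat_lit 52922, nat_lit 47090, nat_lit 49034, nat_lit 48710, nat_lit 48494, nat_lit 48530, nat_lit 48550] (nat_lit 0) [] false,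
   Spec.mk (nat_lit 48550) (nat_lit 0) [nat_lit 35428, nat_lit 44176, nat_lit 52924, nat_lit 47092, nat_lit 49036, nat_lit 48712, nat_lit 48496, nat_lit 48532, nat_lit 48556, nat_lit 48548, nat_lit 48552] (nat_lit 0) [nat_lit 28868] false,
   Spec.mk (nat_lit 48552) (nat_lit 0) [nat_lit 35430, nat_lit 44178, nat_lit 52926, nat_lit 47094, nat_lit 49038, nat_lit 48714, nat_lit 48498, nat_lit 48534, nat_lit 48558, nat_lit 48550] (nat_lit 3) [nat_lit 28870] false,
   Spec.mk (nat_lit 48556) (nat_lit 0) [nat_lit 35434, nat_lit 44182, nat_lit 52930, nat_lit 47098, nat_lit 49042, nat_lit 48718, nat_lit 48502, nat_lit 48538, nat_lit 48574, nat_lit 48550, nat_lit 48558] (nat_lit 0) [nat_lit 28874] false,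
   Spec.mk (nat_lit 48558) (nat_lit 0) [nat_lit 35436, nat_lit 44184, nat_lit 52932, nat_lit 47100, nat_lit 49044, nat_lit 48720, nat_lit 48504, nat_lit 48540, nat_lit 48576, nat_lit 48552, nat_lit 48564, nat_lit 48556] (nat_lit 1) [nat_lit 28876] false,
   Spec.mk (nat_lit 48564) (nat_lit 0) [nat_lit 35442, nat_lit 44190, nat_lit 52938, nat_lit 47106, nat_lit 49050, nat_lit 48726, nat_lit 48510, nat_lit 48582, nat_lit 48558] (nat_lit 1) [nat_lit 28882] false,
   Spec.mk (nat_lit 48574) (nat_lit 1) [nat_lit 35452, nat_lit 44200, nat_lit 52948, nat_lit 47116, nat_lit 49060, nat_lit 48736, nat_lit 48556, nat_lit 48576] (nat_lit 0) [nat_lit 28892] false,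
   Spec.mk (nat_lit 48576) (nat_lit 0) [nat_lit 35454, nat_lit 44202, nat_lit 52950, nat_lit 47118, nat_lit 49062, nat_lit 48738, nat_lit 48558, nat_lit 48582, nat_lit 48574] (nat_lit 1) [nat_lit 28894] false,
   Spec.mk (nat_lit 48582) (nat_lit 1) [nat_lit 35460, nat_lit 44208, nat_lit 52956, nat_lit 47124, nat_lit 49068, nat_lit 48744, nat_lit 48564, nat_lit 48576] (nat_lit 0) [nat_lit 28900] false,
   Spec.mk (nat_lit 48608) (nat_lit 1) [nat_lit 35486, nat_lit 44234, nat_lit 52982, nat_lit 47150, nat_lit 49094, nat_lit 48446, nat_lit 48614] (nat_lit 0) [] false,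
   Spec.mk (nat_lit 48614) (nat_lit 0) [nat_lit 35492, nat_lit 44240, nat_lit 52988, nat_lit 47156, nat_lit 49100, nat_lit 48452, nat_lit 48632, nat_lit 48608, nat_lit 48620, nat_lit 48616] (nat_lit 0) [] false,
   Spec.mk (nat_lit 48616) (nat_lit 0) [nat_lit 35494, nat_lit 44242, nat_lit 52990, nat_lit 47158, nat_lit 49102, nat_lit 48454, nat_lit 48634, nat_lit 48622, nat_lit 48614] (nat_lit 1) [nat_lit 28934] false,
   Spec.mk (nat_lit 48620) (nat_lit 0) [nat_lit 35498, nat_lit 44246, nat_lit 52994, nat_lit 47162, nat_lit 49106, nat_lit 48458, nat_lit 48638, nat_lit 48614, nat_lit 48622] (nat_lit 3) [] false,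
   Spec.mk (nat_lit 48622) (nat_lit 0) [nat_lit 35500, nat_lit 44248, nat_lit 52996, nat_lit 47164, nat_lit 49108, nat_lit 48460, nat_lit 48640, nat_lit 48616, nat_lit 48620, nat_lit 48624] (nat_lit 2) [nat_lit 28940] false,
   Spec.mk (nat_lit 48624) (nat_lit 0) [nat_lit 35502, nat_lit 44250, nat_lit 52998, nat_lit 47166, nat_lit 49110, nat_lit 48462, nat_lit 48642, nat_lit 48622] (nat_lit 3) [nat_lit 28942] false,
   Spec.mk (nat_lit 48632) (nat_lit 0) [nat_lit 35510, nat_lit 44258, nat_lit 53006, nat_lit 47174, nat_lit 49118, nat_lit 48470, nat_lit 48686, nat_lit 48614, nat_lit 48638, nat_lit 48634] (nat_lit 1) [] false,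
   Spec.mk (nat_lit 48634) (nat_lit 0) [nat_lit 35512, nat_lit 44260, nat_lit 53008, nat_lit 47176, nat_lit 49120, nat_lit 48472, nat_lit 48688, nat_lit 48616, nat_lit 48640, nat_lit 48632] (nat_lit 3) [nat_lit 28952] false,
   Spec.mk (nat_lit 48638) (nat_lit 0) [nat_lit 35516, nat_lit 44264, nat_lit 53012, nat_lit 47180, nat_lit 49124, nat_lit 48476, nat_lit 48692, nat_lit 48620, nat_lit 48656, nat_lit 48632, nat_lit 48640] (nat_lit 2) [] false,
   Spec.mk (nat_lit 48640) (nat_lit 0) [nat_lit 35518, nat_lit 44266, nat_lit 53014, nat_lit 47182, nat_lit 49126, nat_lit 48478, nat_lit 48694, nat_lit 48622, nat_lit 48658, nat_lit 48634, nat_lit 48646, nat_lit 48638, nat_lit 48642] (nat_lit 2) [nat_lit 28958] false,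
   Spec.mk (nat_lit 48642) (nat_lit 0) [nat_lit 35520, nat_lit 44268, nat_lit 53016, nat_lit 47184, nat_lit 49128, nat_lit 48480, nat_lit 48696, nat_lit 48624, nat_lit 48660, nat_lit 48648, nat_lit 48640] (nat_lit 4) [nat_lit 28960] false,
   Spec.mk (nat_lit 48646) (nat_lit 0) [nat_lit 35524, nat_lit 44272, nat_lit 53020, nat_lit 47188, nat_lit 49132, nat_lit 48484, nat_lit 48700, nat_lit 48664, nat_lit 48640, nat_lit 48648] (nat_lit 3) [nat_lit 28964] false,
   Spec.mk (nat_lit 48648) (nat_lit 0) [nat_lit 35526, nat_lit 44274, nat_lit 53022, nat_lit 47190, nat_lit 49134, nat_lit 48486, nat_lit 48702, nat_lit 48666, nat_lit 48642, nat_lit 48646] (nat_lit 3) [nat_lit 28966] false,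
   Spec.mk (nat_lit 48656) (nat_lit 0) [nat_lit 35534, nat_lit 44282, nat_lit 53030, nat_lit 47198, nat_lit 49142, nat_lit 48494, nat_lit 48710, nat_lit 48638, nat_lit 48658] (nat_lit 3) [] false,
   Spec.mk (nat_lit 48658) (nat_lit 0) [nat_lit 35536, nat_lit 44284, nat_lit 53032, nat_lit 47200, nat_lit 49144, nat_lit 48496, nat_lit 48712, nat_lit 48640, nat_lit 48664, nat_lit 48656, nat_lit 48660] (nat_lit 4) [nat_lit 28976] false,
   Spec.mk (nat_lit 48660) (nat_lit 0) [nat_lit 35538, nat_lit 44286, nat_lit 53034, nat_lit 47202, nat_lit 49146, nat_lit 48498, nat_lit 48714, nat_lit 48642, nat_lit 48666, nat_lit 48658] (nat_lit 7) [nat_lit 28978] false,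
   Spec.mk (nat_lit 48664) (nat_lit 0) [nat_lit 35542, nat_lit 44290, nat_lit 53038, nat_lit 47206, nat_lit 49150, nat_lit 48502, nat_lit 48718, nat_lit 48646, nat_lit 48658, nat_lit 48666] (nat_lit 3) [nat_lit 28982] false,
   Spec.mk (nat_lit 48666) (nat_lit 0) [nat_lit 35544, nat_lit 44292, nat_lit 53040, nat_lit 47208, nat_lit 49152, nat_lit 48504, nat_lit 48720, nat_lit 48648, nat_lit 48660, nat_lit 48672, nat_lit 48664] (nat_lit 4) [nat_lit 28984] false,
   Spec.mk (nat_lit 48672) (nat_lit 0) [nat_lit 35550, nat_lit 44298, nat_lit 53046, nat_lit 47214, nat_lit 49158, nat_lit 48510, nat_lit 48726, nat_lit 48666] (nat_lit 3) [nat_lit 28990] false,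
   Spec.mk (nat_lit 48686) (nat_lit 1) [nat_lit 35564, nat_lit 44312, nat_lit 53060, nat_lit 47228, nat_lit 49172, nat_lit 48524, nat_lit 48632, nat_lit 48692, nat_lit 48688] (nat_lit 0) [] false,
   Spec.mk (nat_lit 48688) (nat_lit 0) [nat_lit 35566, nat_lit 44314, nat_lit 53062, nat_lit 47230, nat_lit 49174, nat_lit 48526, nat_lit 48634, nat_lit 48694, nat_lit 48686] (nat_lit 1) [nat_lit 29006] false,
   Spec.mk (nat_lit 48692) (nat_lit 0) [nat_lit 35570, nat_lit 44318, nat_lit 53066, nat_lit 47234, nat_lit 49178, nat_lit 48530, nat_lit 48638, nat_lit 48710, nat_lit 48686, nat_lit 48694] (nat_lit 1) [] false,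
   Spec.mk (nat_lit 48694) (nat_lit 0) [nat_lit 35572, nat_lit 44320, nat_lit 53068, nat_lit 47236, nat_lit 49180, nat_lit 48532, nat_lit 48640, nat_lit 48712, nat_lit 48688, nat_lit 48700, nat_lit 48692, nat_lit 48696] (nat_lit 1) [nat_lit 29012] false,
   Spec.mk (nat_lit 48696) (nat_lit 0) [nat_lit 35574, nat_lit 44322, nat_lit 53070, nat_lit 47238, nat_lit 49182, nat_lit 48534, nat_lit 48642, nat_lit 48714, nat_lit 48702, nat_lit 48694] (nat_lit 3) [nat_lit 29014] false,
   Spec.mk (nat_lit 48700) (nat_lit 0) [nat_lit 35578, nat_lit 44326, nat_lit 53074, nat_lit 47242, nat_lit 49186, nat_lit 48538, nat_lit 48646, nat_lit 48718, nat_lit 48694, nat_lit 48702] (nat_lit 3) [nat_lit 29018] false,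
   Spec.mk (nat_lit 48702) (nat_lit 0) [nat_lit 35580, nat_lit 44328, nat_lit 53076, nat_lit 47244, nat_lit 49188, nat_lit 48540, nat_lit 48648, nat_lit 48720, nat_lit 48696, nat_lit 48700] (nat_lit 3) [nat_lit 29020] false,
   Spec.mk (nat_lit 48710) (nat_lit 0) [nat_lit 35588, nat_lit 44336, nat_lit 53084, nat_lit 47252, nat_lit 49196, nat_lit 48548, nat_lit 48656, nat_lit 48764, nat_lit 48692, nat_lit 48712] (nat_lit 0) [] false,
   Spec.mk (nat_lit 48712) (nat_lit 0) [nat_lit 35590, nat_lit 44338, nat_lit 53086, nat_lit 47254, nat_lit 49198, nat_lit 48550, nat_lit 48658, nat_lit 48766, nat_lit 48694, nat_lit 48718, nat_lit 48710, nat_lit 48714] (nat_lit 1) [nat_lit 29030] false,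
   Spec.mk (nat_lit 48714) (nat_lit 0) [nat_lit 35592, nat_lit 44340, nat_lit 53088, nat_lit 47256, nat_lit 49200, nat_lit 48552, nat_lit 48660, nat_lit 48768, nat_lit 48696, nat_lit 48720, nat_lit 48712] (nat_lit 4) [nat_lit 29032] false,
   Spec.mk (nat_lit 48718) (nat_lit 0) [nat_lit 35596, nat_lit 44344, nat_lit 53092, nat_lit 47260, nat_lit 49204, nat_lit 48556, nat_lit 48664, nat_lit 48772, nat_lit 48700, nat_lit 48736, nat_lit 48712, nat_lit 48720] (nat_lit 1) [nat_lit 29036] false,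
   Spec.mk (nat_lit 48720) (nat_lit 0) [nat_lit 35598, nat_lit 44346, nat_lit 53094, nat_lit 47262, nat_lit 49206, nat_lit 48558, nat_lit 48666, nat_lit 48774, nat_lit 48702, nat_lit 48738, nat_lit 48714, nat_lit 48726, nat_lit 48718] (nat_lit 2) [nat_lit 29038] false,
   Spec.mk (nat_lit 48726) (nat_lit 0) [nat_lit 35604, nat_lit 44352, nat_lit 53100, nat_lit 47268, nat_lit 49212, nat_lit 48564, nat_lit 48672, nat_lit 48780, nat_lit 48744, nat_lit 48720] (nat_lit 2) [nat_lit 29044] false,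
   Spec.mk (nat_lit 48736) (nat_lit 0) [nat_lit 35614, nat_lit 44362, nat_lit 53110, nat_lit 47278, nat_lit 49222, nat_lit 48574, nat_lit 48790, nat_lit 48718, nat_lit 48738] (nat_lit 1) [nat_lit 29054] false,
   Spec.mk (nat_lit 48738) (nat_lit 0) [nat_lit 35616, nat_lit 44364, nat_lit 53112, nat_lit 47280, nat_lit 49224, nat_lit 48576, nat_lit 48792, nat_lit 48720, nat_lit 48744, nat_lit 48736] (nat_lit 3) [nat_lit 29056] false,
   Spec.mk (nat_lit 48744) (nat_lit 0) [nat_lit 35622, nat_lit 44370, nat_lit 53118, nat_lit 47286, nat_lit 49230, nat_lit 48582, nat_lit 48798, nat_lit 48726, nat_lit 48738] (nat_lit 1) [nat_lit 29062] false,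
   Spec.mk (nat_lit 48764) (nat_lit 1) [nat_lit 35642, nat_lit 44390, nat_lit 53138, nat_lit 47306, nat_lit 49250, nat_lit 48710, nat_lit 48766] (nat_lit 0) [] false,
   Spec.mk (nat_lit 48766) (nat_lit 0) [nat_lit 35644, nat_lit 44392, nat_lit 53140, nat_lit 47308, nat_lit 49252, nat_lit 48712, nat_lit 48772, nat_lit 48764, nat_lit 48768] (nat_lit 0) [nat_lit 29084] false,
   Spec.mk (nat_lit 48768) (nat_lit 0) [nat_lit 35646, nat_lit 44394, nat_lit 53142, nat_lit 47310, nat_lit 49254, nat_lit 48714, nat_lit 48774, nat_lit 48766] (nat_lit 3) [nat_lit 29086] false]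

noncomputable def sp128 : List Spec :=
  [Spec.mk (nat_lit 48772) (nat_lit 0) [nat_lit 35650, nat_lit 44398, nat_lit 53146, nat_lit 47314, nat_lit 49258, nat_lit 48718, nat_lit 48790, nat_lit 48766, nat_lit 48774] (nat_lit 1) [nat_lit 29090] false,
   Spec.mk (nat_lit 48774) (nat_lit 0) [nat_lit 35652, nat_lit 44400, nat_lit 53148, nat_lit 47316, nat_lit 49260, nat_lit 48720, nat_lit 48792, nat_lit 48768, nat_lit 48780, nat_lit 48772] (nat_lit 2) [nat_lit 29092] false,
   Spec.mk (nat_lit 48780) (nat_lit 0) [nat_lit 35658, nat_lit 44406, nat_lit 53154, nat_lit 47322, nat_lit 49266, nat_lit 48726, nat_lit 48798, nat_lit 48774] (nat_lit 3) [nat_lit 29098] false,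
   Spec.mk (nat_lit 48790) (nat_lit 1) [nat_lit 35668, nat_lit 44416, nat_lit 53164, nat_lit 47332, nat_lit 49276, nat_lit 48736, nat_lit 48772, nat_lit 48792] (nat_lit 0) [nat_lit 29108] false,
   Spec.mk (nat_lit 48792) (nat_lit 0) [nat_lit 35670, nat_lit 44418, nat_lit 53166, nat_lit 47334, nat_lit 49278, nat_lit 48738, nat_lit 48774, nat_lit 48798, nat_lit 48790] (nat_lit 1) [nat_lit 29110] false,
   Spec.mk (nat_lit 48798) (nat_lit 0) [nat_lit 35676, nat_lit 44424, nat_lit 53172, nat_lit 47340, nat_lit 49284, nat_lit 48744, nat_lit 48780, nat_lit 48816, nat_lit 48792] (nat_lit 0) [nat_lit 29116] false,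
   Spec.mk (nat_lit 48816) (nat_lit 1) [nat_lit 35694, nat_lit 44442, nat_lit 53190, nat_lit 47358, nat_lit 49302, nat_lit 48798] (nat_lit 0) [nat_lit 29134] false,
   Spec.mk (nat_lit 48860) (nat_lit 4) [nat_lit 35738, nat_lit 44486, nat_lit 53234, nat_lit 47402, nat_lit 50318, nat_lit 48374, nat_lit 48878, nat_lit 48866] (nat_lit 0) [] false,
   Spec.mk (nat_lit 48866) (nat_lit 2) [nat_lit 35744, nat_lit 44492, nat_lit 53240, nat_lit 47408, nat_lit 50324, nat_lit 48380, nat_lit 48884, nat_lit 48860, nat_lit 48868] (nat_lit 0) [] false,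
   Spec.mk (nat_lit 48868) (nat_lit 2) [nat_lit 35746, nat_lit 44494, nat_lit 53242, nat_lit 47410, nat_lit 50326, nat_lit 48382, nat_lit 48886, nat_lit 48866] (nat_lit 0) [nat_lit 29186] false,
   Spec.mk (nat_lit 48878) (nat_lit 2) [nat_lit 35756, nat_lit 44504, nat_lit 53252, nat_lit 47420, nat_lit 50336, nat_lit 48392, nat_lit 48932, nat_lit 48860, nat_lit 48884] (nat_lit 0) [] false,
   Spec.mk (nat_lit 48884) (nat_lit 2) [nat_lit 35762, nat_lit 44510, nat_lit 53258, nat_lit 47426, nat_lit 50342, nat_lit 48398, nat_lit 48938, nat_lit 48866, nat_lit 48902, nat_lit 48878, nat_lit 48890, nat_lit 48886] (nat_lit 0) [] false,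
   Spec.mk (nat_lit 48886) (nat_lit 1) [nat_lit 35764, nat_lit 44512, nat_lit 53260, nat_lit 47428, nat_lit 50344, nat_lit 48400, nat_lit 48940, nat_lit 48868, nat_lit 48904, nat_lit 48892, nat_lit 48884] (nat_lit 0) [nat_lit 29204] false,
   Spec.mk (nat_lit 48890) (nat_lit 0) [nat_lit 35768, nat_lit 44516, nat_lit 53264, nat_lit 47432, nat_lit 50348, nat_lit 48404, nat_lit 48944, nat_lit 48908, nat_lit 48884, nat_lit 48892] (nat_lit 0) [] false,
   Spec.mk (nat_lit 48892) (nat_lit 1) [nat_lit 35770, nat_lit 44518, nat_lit 53266, nat_lit 47434, nat_lit 50350, nat_lit 48406, nat_lit 48946, nat_lit 48910, nat_lit 48886, nat_lit 48890, nat_lit 48894] (nat_lit 0) [nat_lit 29210] false,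
   Spec.mk (nat_lit 48894) (nat_lit 0) [nat_lit 35772, nat_lit 44520, nat_lit 53268, nat_lit 47436, nat_lit 50352, nat_lit 48408, nat_lit 48948, nat_lit 48912, nat_lit 48892] (nat_lit 0) [nat_lit 29212] false,
   Spec.mk (nat_lit 48902) (nat_lit 0) [nat_lit 35780, nat_lit 44528, nat_lit 53276, nat_lit 47444, nat_lit 50360, nat_lit 48416, nat_lit 48956, nat_lit 48884, nat_lit 48908, nat_lit 48904] (nat_lit 0) [] false,
   Spec.mk (nat_lit 48904) (nat_lit 0) [nat_lit 35782, nat_lit 44530, nat_lit 53278, nat_lit 47446, nat_lit 50362, nat_lit 48418, nat_lit 48958, nat_lit 48886, nat_lit 48910, nat_lit 48902] (nat_lit 2) [nat_lit 29222] false,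
   Spec.mk (nat_lit 48908) (nat_lit 0) [nat_lit 35786, nat_lit 44534, nat_lit 53282, nat_lit 47450, nat_lit 50366, nat_lit 48422, nat_lit 48962, nat_lit 48890, nat_lit 48902, nat_lit 48910] (nat_lit 0) [] false,
   Spec.mk (nat_lit 48910) (nat_lit 0) [nat_lit 35788, nat_lit 44536, nat_lit 53284, nat_lit 47452, nat_lit 50368, nat_lit 48424, nat_lit 48964, nat_lit 48892, nat_lit 48904, nat_lit 48916, nat_lit 48908, nat_lit 48912] (nat_lit 0) [nat_lit 29228] false,
   Spec.mk (nat_lit 48912) (nat_lit 0) [nat_lit 35790, nat_lit 44538, nat_lit 53286, nat_lit 47454, nat_lit 50370, nat_lit 48426, nat_lit 48966, nat_lit 48894, nat_lit 48918, nat_lit 48910] (nat_lit 2) [nat_lit 29230] false,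
   Spec.mk (nat_lit 48916) (nat_lit 0) [nat_lit 35794, nat_lit 44542, nat_lit 53290, nat_lit 47458, nat_lit 50374, nat_lit 48430, nat_lit 48970, nat_lit 48910, nat_lit 48918] (nat_lit 0) [nat_lit 29234] false,
   Spec.mk (nat_lit 48918) (nat_lit 0) [nat_lit 35796, nat_lit 44544, nat_lit 53292, nat_lit 47460, nat_lit 50376, nat_lit 48432, nat_lit 48972, nat_lit 48912, nat_lit 48916] (nat_lit 0) [nat_lit 29236] false,
   Spec.mk (nat_lit 48932) (nat_lit 2) [nat_lit 35810, nat_lit 44558, nat_lit 53306, nat_lit 47474, nat_lit 50390, nat_lit 48446, nat_lit 49094, nat_lit 48878, nat_lit 48938] (nat_lit 0) [] false,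
   Spec.mk (nat_lit 48938) (nat_lit 1) [nat_lit 35816, nat_lit 44564, nat_lit 53312, nat_lit 47480, nat_lit 50396, nat_lit 48452, nat_lit 49100, nat_lit 48884, nat_lit 48956, nat_lit 48932, nat_lit 48944, nat_lit 48940] (nat_lit 0) [] false,
   Spec.mk (nat_lit 48940) (nat_lit 0) [nat_lit 35818, nat_lit 44566, nat_lit 53314, nat_lit 47482, nat_lit 50398, nat_lit 48454, nat_lit 49102, nat_lit 48886, nat_lit 48958, nat_lit 48946, nat_lit 48938] (nat_lit 0) [nat_lit 29258] false,
   Spec.mk (nat_lit 48944) (nat_lit 0) [nat_lit 35822, nat_lit 44570, nat_lit 53318, nat_lit 47486, nat_lit 50402, nat_lit 48458, nat_lit 49106, nat_lit 48890, nat_lit 48962, nat_lit 48938, nat_lit 48946] (nat_lit 2) [] false,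
   Spec.mk (nat_lit 48946) (nat_lit 0) [nat_lit 35824, nat_lit 44572, nat_lit 53320, nat_lit 47488, nat_lit 50404, nat_lit 48460, nat_lit 49108, nat_lit 48892, nat_lit 48964, nat_lit 48940, nat_lit 48944, nat_lit 48948] (nat_lit 1) [nat_lit 29264] false,
   Spec.mk (nat_lit 48948) (nat_lit 0) [nat_lit 35826, nat_lit 44574, nat_lit 53322, nat_lit 47490, nat_lit 50406, nat_lit 48462, nat_lit 49110, nat_lit 48894, nat_lit 48966, nat_lit 48946] (nat_lit 2) [nat_lit 29266] false,
   Spec.mk (nat_lit 48956) (nat_lit 1) [nat_lit 35834, nat_lit 44582, nat_lit 53330, nat_lit 47498, nat_lit 50414, nat_lit 48470, nat_lit 49118, nat_lit 48902, nat_lit 49010, nat_lit 48938, nat_lit 48962, nat_lit 48958] (nat_lit 0) [] false,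
   Spec.mk (nat_lit 48958) (nat_lit 0) [nat_lit 35836, nat_lit 44584, nat_lit 53332, nat_lit 47500, nat_lit 50416, nat_lit 48472, nat_lit 49120, nat_lit 48904, nat_lit 49012, nat_lit 48940, nat_lit 48964, nat_lit 48956] (nat_lit 1) [nat_lit 29276] false,
   Spec.mk (nat_lit 48962) (nat_lit 0) [nat_lit 35840, nat_lit 44588, nat_lit 53336, nat_lit 47504, nat_lit 50420, nat_lit 48476, nat_lit 49124, nat_lit 48908, nat_lit 49016, nat_lit 48944, nat_lit 48980, nat_lit 48956, nat_lit 48964] (nat_lit 0) [] false,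
   Spec.mk (nat_lit 48964) (nat_lit 0) [nat_lit 35842, nat_lit 44590, nat_lit 53338, nat_lit 47506, nat_lit 50422, nat_lit 48478, nat_lit 49126, nat_lit 48910, nat_lit 49018, nat_lit 48946, nat_lit 48982, nat_lit 48958, nat_lit 48970, nat_lit 48962, nat_lit 48966] (nat_lit 0) [nat_lit 29282] false,
   Spec.mk (nat_lit 48966) (nat_lit 0) [nat_lit 35844, nat_lit 44592, nat_lit 53340, nat_lit 47508, nat_lit 50424, nat_lit 48480, nat_lit 49128, nat_lit 48912, nat_lit 49020, nat_lit 48948, nat_lit 48984, nat_lit 48972, nat_lit 48964] (nat_lit 2) [nat_lit 29284] false,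
   Spec.mk (nat_lit 48970) (nat_lit 0) [nat_lit 35848, nat_lit 44596, nat_lit 53344, nat_lit 47512, nat_lit 50428, nat_lit 48484, nat_lit 49132, nat_lit 48916, nat_lit 49024, nat_lit 48988, nat_lit 48964, nat_lit 48972] (nat_lit 1) [nat_lit 29288] false,
   Spec.mk (nat_lit 48972) (nat_lit 0) [nat_lit 35850, nat_lit 44598, nat_lit 53346, nat_lit 47514, nat_lit 50430, nat_lit 48486, nat_lit 49134, nat_lit 48918, nat_lit 49026, nat_lit 48990, nat_lit 48966, nat_lit 48970] (nat_lit 1) [nat_lit 29290] false,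
   Spec.mk (nat_lit 48980) (nat_lit 0) [nat_lit 35858, nat_lit 44606, nat_lit 53354, nat_lit 47522, nat_lit 50438, nat_lit 48494, nat_lit 49142, nat_lit 49034, nat_lit 48962, nat_lit 48982] (nat_lit 0) [] false,
   Spec.mk (nat_lit 48982) (nat_lit 0) [nat_lit 35860, nat_lit 44608, nat_lit 53356, nat_lit 47524, nat_lit 50440, nat_lit 48496, nat_lit 49144, nat_lit 49036, nat_lit 48964, nat_lit 48988, nat_lit 48980, nat_lit 48984] (nat_lit 1) [nat_lit 29300] false,
   Spec.mk (nat_lit 48984) (nat_lit 0) [nat_lit 35862, nat_lit 44610, nat_lit 53358, nat_lit 47526, nat_lit 50442, nat_lit 48498, nat_lit 49146, nat_lit 49038, nat_lit 48966, nat_lit 48990, nat_lit 48982] (nat_lit 4) [nat_lit 29302] false,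
   Spec.mk (nat_lit 48988) (nat_lit 0) [nat_lit 35866, nat_lit 44614, nat_lit 53362, nat_lit 47530, nat_lit 50446, nat_lit 48502, nat_lit 49150, nat_lit 49042, nat_lit 48970, nat_lit 48982, nat_lit 48990] (nat_lit 0) [nat_lit 29306] false,
   Spec.mk (nat_lit 48990) (nat_lit 0) [nat_lit 35868, nat_lit 44616, nat_lit 53364, nat_lit 47532, nat_lit 50448, nat_lit 48504, nat_lit 49152, nat_lit 49044, nat_lit 48972, nat_lit 48984, nat_lit 48996, nat_lit 48988] (nat_lit 1) [nat_lit 29308] false,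
   Spec.mk (nat_lit 48996) (nat_lit 0) [nat_lit 35874, nat_lit 44622, nat_lit 53370, nat_lit 47538, nat_lit 50454, nat_lit 48510, nat_lit 49158, nat_lit 49050, nat_lit 48990] (nat_lit 0) [nat_lit 29314] false,
   Spec.mk (nat_lit 49010) (nat_lit 0) [nat_lit 35888, nat_lit 44636, nat_lit 53384, nat_lit 47552, nat_lit 50468, nat_lit 48524, nat_lit 49172, nat_lit 48956, nat_lit 49016, nat_lit 49012] (nat_lit 0) [] false,
   Spec.mk (nat_lit 49012) (nat_lit 0) [nat_lit 35890, nat_lit 44638, nat_lit 53386, nat_lit 47554, nat_lit 50470, nat_lit 48526, nat_lit 49174, nat_lit 48958, nat_lit 49018, nat_lit 49010] (nat_lit 2) [nat_lit 29330] false,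
   Spec.mk (nat_lit 49016) (nat_lit 0) [nat_lit 35894, nat_lit 44642, nat_lit 53390, nat_lit 47558, nat_lit 50474, nat_lit 48530, nat_lit 49178, nat_lit 48962, nat_lit 49034, nat_lit 49010, nat_lit 49018] (nat_lit 2) [] false,
   Spec.mk (nat_lit 49018) (nat_lit 0) [nat_lit 35896, nat_lit 44644, nat_lit 53392, nat_lit 47560, nat_lit 50476, nat_lit 48532, nat_lit 49180, nat_lit 48964, nat_lit 49036, nat_lit 49012, nat_lit 49024, nat_lit 49016, nat_lit 49020] (nat_lit 2) [nat_lit 29336] false,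
   Spec.mk (nat_lit 49020) (nat_lit 0) [nat_lit 35898, nat_lit 44646, nat_lit 53394, nat_lit 47562, nat_lit 50478, nat_lit 48534, nat_lit 49182, nat_lit 48966, nat_lit 49038, nat_lit 49026, nat_lit 49018] (nat_lit 4) [nat_lit 29338] false,
   Spec.mk (nat_lit 49024) (nat_lit 0) [nat_lit 35902, nat_lit 44650, nat_lit 53398, nat_lit 47566, nat_lit 50482, nat_lit 48538, nat_lit 49186, nat_lit 48970, nat_lit 49042, nat_lit 49018, nat_lit 49026] (nat_lit 4) [nat_lit 29342] false,
   Spec.mk (nat_lit 49026) (nat_lit 0) [nat_lit 35904, nat_lit 44652, nat_lit 53400, nat_lit 47568, nat_lit 50484, nat_lit 48540, nat_lit 49188, nat_lit 48972, nat_lit 49044, nat_lit 49020, nat_lit 49024] (nat_lit 4) [nat_lit 29344] false,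
   Spec.mk (nat_lit 49034) (nat_lit 0) [nat_lit 35912, nat_lit 44660, nat_lit 53408, nat_lit 47576, nat_lit 50492, nat_lit 48548, nat_lit 49196, nat_lit 48980, nat_lit 49016, nat_lit 49036] (nat_lit 0) [] false,
   Spec.mk (nat_lit 49036) (nat_lit 0) [nat_lit 35914, nat_lit 44662, nat_lit 53410, nat_lit 47578, nat_lit 50494, nat_lit 48550, nat_lit 49198, nat_lit 48982, nat_lit 49018, nat_lit 49042, nat_lit 49034, nat_lit 49038] (nat_lit 1) [nat_lit 29354] false,
   Spec.mk (nat_lit 49038) (nat_lit 0) [nat_lit 35916, nat_lit 44664, nat_lit 53412, nat_lit 47580, nat_lit 50496, nat_lit 48552, nat_lit 49200, nat_lit 48984, nat_lit 49020, nat_lit 49044, nat_lit 49036] (nat_lit 4) [nat_lit 29356] false,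
   Spec.mk (nat_lit 49042) (nat_lit 0) [nat_lit 35920, nat_lit 44668, nat_lit 53416, nat_lit 47584, nat_lit 50500, nat_lit 48556, nat_lit 49204, nat_lit 48988, nat_lit 49024, nat_lit 49060, nat_lit 49036, nat_lit 49044] (nat_lit 1) [nat_lit 29360] false,
   Spec.mk (nat_lit 49044) (nat_lit 0) [nat_lit 35922, nat_lit 44670, nat_lit 53418, nat_lit 47586, nat_lit 50502, nat_lit 48558, nat_lit 49206, nat_lit 48990, nat_lit 49026, nat_lit 49062, nat_lit 49038, nat_lit 49050, nat_lit 49042] (nat_lit 2) [nat_lit 29362] false,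
   Spec.mk (nat_lit 49050) (nat_lit 0) [nat_lit 35928, nat_lit 44676, nat_lit 53424, nat_lit 47592, nat_lit 50508, nat_lit 48564, nat_lit 49212, nat_lit 48996, nat_lit 49068, nat_lit 49044] (nat_lit 2) [nat_lit 29368] false,
   Spec.mk (nat_lit 49060) (nat_lit 0) [nat_lit 35938, nat_lit 44686, nat_lit 53434, nat_lit 47602, nat_lit 50518, nat_lit 48574, nat_lit 49222, nat_lit 49042, nat_lit 49062] (nat_lit 0) [nat_lit 29378] false,
   Spec.mk (nat_lit 49062) (nat_lit 0) [nat_lit 35940, nat_lit 44688, nat_lit 53436, nat_lit 47604, nat_lit 50520, nat_lit 48576, nat_lit 49224, nat_lit 49044, nat_lit 49068, nat_lit 49060] (nat_lit 2) [nat_lit 29380] false,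
   Spec.mk (nat_lit 49068) (nat_lit 0) [nat_lit 35946, nat_lit 44694, nat_lit 53442, nat_lit 47610, nat_lit 50526, nat_lit 48582, nat_lit 49230, nat_lit 49050, nat_lit 49062] (nat_lit 0) [nat_lit 29386] false,
   Spec.mk (nat_lit 49094) (nat_lit 3) [nat_lit 35972, nat_lit 44720, nat_lit 53468, nat_lit 47636, nat_lit 50552, nat_lit 48608, nat_lit 49580, nat_lit 48932, nat_lit 49100] (nat_lit 0) [] false,
   Spec.mk (nat_lit 49100) (nat_lit 2) [nat_lit 35978, nat_lit 44726, nat_lit 53474, nat_lit 47642, nat_lit 50558, nat_lit 48614, nat_lit 49586, nat_lit 48938, nat_lit 49118, nat_lit 49094, nat_lit 49106, nat_lit 49102] (nat_lit 0) [] false]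

noncomputable def sp129 : List Spec :=
  [Spec.mk (nat_lit 49102) (nat_lit 1) [nat_lit 35980, nat_lit 44728, nat_lit 53476, nat_lit 47644, nat_lit 50560, nat_lit 48616, nat_lit 49588, nat_lit 48940, nat_lit 49120, nat_lit 49108, nat_lit 49100] (nat_lit 0) [nat_lit 29420] false,
   Spec.mk (nat_lit 49106) (nat_lit 0) [nat_lit 35984, nat_lit 44732, nat_lit 53480, nat_lit 47648, nat_lit 50564, nat_lit 48620, nat_lit 49592, nat_lit 48944, nat_lit 49124, nat_lit 49100, nat_lit 49108] (nat_lit 1) [] false,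
   Spec.mk (nat_lit 49108) (nat_lit 0) [nat_lit 35986, nat_lit 44734, nat_lit 53482, nat_lit 47650, nat_lit 50566, nat_lit 48622, nat_lit 49594, nat_lit 48946, nat_lit 49126, nat_lit 49102, nat_lit 49106, nat_lit 49110] (nat_lit 0) [nat_lit 29426] false,
   Spec.mk (nat_lit 49110) (nat_lit 0) [nat_lit 35988, nat_lit 44736, nat_lit 53484, nat_lit 47652, nat_lit 50568, nat_lit 48624, nat_lit 49596, nat_lit 48948, nat_lit 49128, nat_lit 49108] (nat_lit 1) [nat_lit 29428] false,
   Spec.mk (nat_lit 49118) (nat_lit 1) [nat_lit 35996, nat_lit 44744, nat_lit 53492, nat_lit 47660, nat_lit 50576, nat_lit 48632, nat_lit 49604, nat_lit 48956, nat_lit 49172, nat_lit 49100, nat_lit 49124, nat_lit 49120] (nat_lit 0) [] false,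
   Spec.mk (nat_lit 49120) (nat_lit 0) [nat_lit 35998, nat_lit 44746, nat_lit 53494, nat_lit 47662, nat_lit 50578, nat_lit 48634, nat_lit 49606, nat_lit 48958, nat_lit 49174, nat_lit 49102, nat_lit 49126, nat_lit 49118] (nat_lit 1) [nat_lit 29438] false,
   Spec.mk (nat_lit 49124) (nat_lit 0) [nat_lit 36002, nat_lit 44750, nat_lit 53498, nat_lit 47666, nat_lit 50582, nat_lit 48638, nat_lit 49610, nat_lit 48962, nat_lit 49178, nat_lit 49106, nat_lit 49142, nat_lit 49118, nat_lit 49126] (nat_lit 0) [] false,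
   Spec.mk (nat_lit 49126) (nat_lit 0) [nat_lit 36004, nat_lit 44752, nat_lit 53500, nat_lit 47668, nat_lit 50584, nat_lit 48640, nat_lit 49612, nat_lit 48964, nat_lit 49180, nat_lit 49108, nat_lit 49144, nat_lit 49120, nat_lit 49132, nat_lit 49124, nat_lit 49128] (nat_lit 0) [nat_lit 29444] false,
   Spec.mk (nat_lit 49128) (nat_lit 0) [nat_lit 36006, nat_lit 44754, nat_lit 53502, nat_lit 47670, nat_lit 50586, nat_lit 48642, nat_lit 49614, nat_lit 48966, nat_lit 49182, nat_lit 49110, nat_lit 49146, nat_lit 49134, nat_lit 49126] (nat_lit 2) [nat_lit 29446] false,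
   Spec.mk (nat_lit 49132) (nat_lit 0) [nat_lit 36010, nat_lit 44758, nat_lit 53506, nat_lit 47674, nat_lit 50590, nat_lit 48646, nat_lit 49618, nat_lit 48970, nat_lit 49186, nat_lit 49150, nat_lit 49126, nat_lit 49134] (nat_lit 1) [nat_lit 29450] false,
   Spec.mk (nat_lit 49134) (nat_lit 0) [nat_lit 36012, nat_lit 44760, nat_lit 53508, nat_lit 47676, nat_lit 50592, nat_lit 48648, nat_lit 49620, nat_lit 48972, nat_lit 49188, nat_lit 49152, nat_lit 49128, nat_lit 49132] (nat_lit 1) [nat_lit 29452] false,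
   Spec.mk (nat_lit 49142) (nat_lit 0) [nat_lit 36020, nat_lit 44768, nat_lit 53516, nat_lit 47684, nat_lit 50600, nat_lit 48656, nat_lit 49628, nat_lit 48980, nat_lit 49196, nat_lit 49124, nat_lit 49144] (nat_lit 1) [] false,
   Spec.mk (nat_lit 49144) (nat_lit 0) [nat_lit 36022, nat_lit 44770, nat_lit 53518, nat_lit 47686, nat_lit 50602, nat_lit 48658, nat_lit 49630, nat_lit 48982, nat_lit 49198, nat_lit 49126, nat_lit 49150, nat_lit 49142, nat_lit 49146] (nat_lit 2) [nat_lit 29462] false,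
   Spec.mk (nat_lit 49146) (nat_lit 0) [nat_lit 36024, nat_lit 44772, nat_lit 53520, nat_lit 47688, nat_lit 50604, nat_lit 48660, nat_lit 49632, nat_lit 48984, nat_lit 49200, nat_lit 49128, nat_lit 49152, nat_lit 49144] (nat_lit 5) [nat_lit 29464] false,
   Spec.mk (nat_lit 49150) (nat_lit 0) [nat_lit 36028, nat_lit 44776, nat_lit 53524, nat_lit 47692, nat_lit 50608, nat_lit 48664, nat_lit 49636, nat_lit 48988, nat_lit 49204, nat_lit 49132, nat_lit 49144, nat_lit 49152] (nat_lit 1) [nat_lit 29468] false,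
   Spec.mk (nat_lit 49152) (nat_lit 0) [nat_lit 36030, nat_lit 44778, nat_lit 53526, nat_lit 47694, nat_lit 50610, nat_lit 48666, nat_lit 49638, nat_lit 48990, nat_lit 49206, nat_lit 49134, nat_lit 49146, nat_lit 49158, nat_lit 49150] (nat_lit 2) [nat_lit 29470] false,
   Spec.mk (nat_lit 49158) (nat_lit 0) [nat_lit 36036, nat_lit 44784, nat_lit 53532, nat_lit 47700, nat_lit 50616, nat_lit 48672, nat_lit 49644, nat_lit 48996, nat_lit 49212, nat_lit 49152] (nat_lit 1) [nat_lit 29476] false,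
   Spec.mk (nat_lit 49172) (nat_lit 2) [nat_lit 36050, nat_lit 44798, nat_lit 53546, nat_lit 47714, nat_lit 50630, nat_lit 48686, nat_lit 49658, nat_lit 49010, nat_lit 49334, nat_lit 49118, nat_lit 49178, nat_lit 49174] (nat_lit 0) [] false,
   Spec.mk (nat_lit 49174) (nat_lit 0) [nat_lit 36052, nat_lit 44800, nat_lit 53548, nat_lit 47716, nat_lit 50632, nat_lit 48688, nat_lit 49660, nat_lit 49012, nat_lit 49336, nat_lit 49120, nat_lit 49180, nat_lit 49172] (nat_lit 0) [nat_lit 29492] false,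
   Spec.mk (nat_lit 49178) (nat_lit 0) [nat_lit 36056, nat_lit 44804, nat_lit 53552, nat_lit 47720, nat_lit 50636, nat_lit 48692, nat_lit 49664, nat_lit 49016, nat_lit 49340, nat_lit 49124, nat_lit 49196, nat_lit 49172, nat_lit 49180] (nat_lit 0) [] false,
   Spec.mk (nat_lit 49180) (nat_lit 0) [nat_lit 36058, nat_lit 44806, nat_lit 53554, nat_lit 47722, nat_lit 50638, nat_lit 48694, nat_lit 49666, nat_lit 49018, nat_lit 49342, nat_lit 49126, nat_lit 49198, nat_lit 49174, nat_lit 49186, nat_lit 49178, nat_lit 49182] (nat_lit 0) [nat_lit 29498] false,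
   Spec.mk (nat_lit 49182) (nat_lit 0) [nat_lit 36060, nat_lit 44808, nat_lit 53556, nat_lit 47724, nat_lit 50640, nat_lit 48696, nat_lit 49668, nat_lit 49020, nat_lit 49344, nat_lit 49128, nat_lit 49200, nat_lit 49188, nat_lit 49180] (nat_lit 2) [nat_lit 29500] false,
   Spec.mk (nat_lit 49186) (nat_lit 0) [nat_lit 36064, nat_lit 44812, nat_lit 53560, nat_lit 47728, nat_lit 50644, nat_lit 48700, nat_lit 49672, nat_lit 49024, nat_lit 49348, nat_lit 49132, nat_lit 49204, nat_lit 49180, nat_lit 49188] (nat_lit 2) [nat_lit 29504] false,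
   Spec.mk (nat_lit 49188) (nat_lit 0) [nat_lit 36066, nat_lit 44814, nat_lit 53562, nat_lit 47730, nat_lit 50646, nat_lit 48702, nat_lit 49674, nat_lit 49026, nat_lit 49350, nat_lit 49134, nat_lit 49206, nat_lit 49182, nat_lit 49186] (nat_lit 2) [nat_lit 29506] false,
   Spec.mk (nat_lit 49196) (nat_lit 1) [nat_lit 36074, nat_lit 44822, nat_lit 53570, nat_lit 47738, nat_lit 50654, nat_lit 48710, nat_lit 49682, nat_lit 49034, nat_lit 49358, nat_lit 49142, nat_lit 49250, nat_lit 49178, nat_lit 49198] (nat_lit 0) [] false,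
   Spec.mk (nat_lit 49198) (nat_lit 0) [nat_lit 36076, nat_lit 44824, nat_lit 53572, nat_lit 47740, nat_lit 50656, nat_lit 48712, nat_lit 49684, nat_lit 49036, nat_lit 49360, nat_lit 49144, nat_lit 49252, nat_lit 49180, nat_lit 49204, nat_lit 49196, nat_lit 49200] (nat_lit 0) [nat_lit 29516] false,
   Spec.mk (nat_lit 49200) (nat_lit 0) [nat_lit 36078, nat_lit 44826, nat_lit 53574, nat_lit 47742, nat_lit 50658, nat_lit 48714, nat_lit 49686, nat_lit 49038, nat_lit 49362, nat_lit 49146, nat_lit 49254, nat_lit 49182, nat_lit 49206, nat_lit 49198] (nat_lit 3) [nat_lit 29518] false,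
   Spec.mk (nat_lit 49204) (nat_lit 0) [nat_lit 36082, nat_lit 44830, nat_lit 53578, nat_lit 47746, nat_lit 50662, nat_lit 48718, nat_lit 49690, nat_lit 49042, nat_lit 49366, nat_lit 49150, nat_lit 49258, nat_lit 49186, nat_lit 49222, nat_lit 49198, nat_lit 49206] (nat_lit 0) [nat_lit 29522] false,
   Spec.mk (nat_lit 49206) (nat_lit 0) [nat_lit 36084, nat_lit 44832, nat_lit 53580, nat_lit 47748, nat_lit 50664, nat_lit 48720, nat_lit 49692, nat_lit 49044, nat_lit 49368, nat_lit 49152, nat_lit 49260, nat_lit 49188, nat_lit 49224, nat_lit 49200, nat_lit 49212, nat_lit 49204] (nat_lit 1) [nat_lit 29524] false,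
   Spec.mk (nat_lit 49212) (nat_lit 0) [nat_lit 36090, nat_lit 44838, nat_lit 53586, nat_lit 47754, nat_lit 50670, nat_lit 48726, nat_lit 49698, nat_lit 49050, nat_lit 49374, nat_lit 49158, nat_lit 49266, nat_lit 49230, nat_lit 49206] (nat_lit 1) [nat_lit 29530] false,
   Spec.mk (nat_lit 49222) (nat_lit 0) [nat_lit 36100, nat_lit 44848, nat_lit 53596, nat_lit 47764, nat_lit 50680, nat_lit 48736, nat_lit 49708, nat_lit 49060, nat_lit 49384, nat_lit 49276, nat_lit 49204, nat_lit 49224] (nat_lit 0) [nat_lit 29540] false,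
   Spec.mk (nat_lit 49224) (nat_lit 0) [nat_lit 36102, nat_lit 44850, nat_lit 53598, nat_lit 47766, nat_lit 50682, nat_lit 48738, nat_lit 49710, nat_lit 49062, nat_lit 49386, nat_lit 49278, nat_lit 49206, nat_lit 49230, nat_lit 49222] (nat_lit 2) [nat_lit 29542] false,
   Spec.mk (nat_lit 49230) (nat_lit 0) [nat_lit 36108, nat_lit 44856, nat_lit 53604, nat_lit 47772, nat_lit 50688, nat_lit 48744, nat_lit 49716, nat_lit 49068, nat_lit 49392, nat_lit 49284, nat_lit 49212, nat_lit 49224] (nat_lit 0) [nat_lit 29548] false,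
   Spec.mk (nat_lit 49250) (nat_lit 1) [nat_lit 36128, nat_lit 44876, nat_lit 53624, nat_lit 47792, nat_lit 50708, nat_lit 48764, nat_lit 49736, nat_lit 49412, nat_lit 49196, nat_lit 49252] (nat_lit 0) [] false,
   Spec.mk (nat_lit 49252) (nat_lit 0) [nat_lit 36130, nat_lit 44878, nat_lit 53626, nat_lit 47794, nat_lit 50710, nat_lit 48766, nat_lit 49738, nat_lit 49414, nat_lit 49198, nat_lit 49258, nat_lit 49250, nat_lit 49254] (nat_lit 0) [nat_lit 29570] false,
   Spec.mk (nat_lit 49254) (nat_lit 0) [nat_lit 36132, nat_lit 44880, nat_lit 53628, nat_lit 47796, nat_lit 50712, nat_lit 48768, nat_lit 49740, nat_lit 49416, nat_lit 49200, nat_lit 49260, nat_lit 49252] (nat_lit 3) [nat_lit 29572] false,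
   Spec.mk (nat_lit 49258) (nat_lit 0) [nat_lit 36136, nat_lit 44884, nat_lit 53632, nat_lit 47800, nat_lit 50716, nat_lit 48772, nat_lit 49744, nat_lit 49420, nat_lit 49204, nat_lit 49276, nat_lit 49252, nat_lit 49260] (nat_lit 1) [nat_lit 29576] false,
   Spec.mk (nat_lit 49260) (nat_lit 0) [nat_lit 36138, nat_lit 44886, nat_lit 53634, nat_lit 47802, nat_lit 50718, nat_lit 48774, nat_lit 49746, nat_lit 49422, nat_lit 49206, nat_lit 49278, nat_lit 49254, nat_lit 49266, nat_lit 49258] (nat_lit 2) [nat_lit 29578] false,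
   Spec.mk (nat_lit 49266) (nat_lit 0) [nat_lit 36144, nat_lit 44892, nat_lit 53640, nat_lit 47808, nat_lit 50724, nat_lit 48780, nat_lit 49752, nat_lit 49428, nat_lit 49212, nat_lit 49284, nat_lit 49260] (nat_lit 3) [nat_lit 29584] false,
   Spec.mk (nat_lit 49276) (nat_lit 1) [nat_lit 36154, nat_lit 44902, nat_lit 53650, nat_lit 47818, nat_lit 50734, nat_lit 48790, nat_lit 49762, nat_lit 49438, nat_lit 49222, nat_lit 49258, nat_lit 49278] (nat_lit 0) [nat_lit 29594] false,
   Spec.mk (nat_lit 49278) (nat_lit 0) [nat_lit 36156, nat_lit 44904, nat_lit 53652, nat_lit 47820, nat_lit 50736, nat_lit 48792, nat_lit 49764, nat_lit 49440, nat_lit 49224, nat_lit 49260, nat_lit 49284, nat_lit 49276] (nat_lit 1) [nat_lit 29596] false,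
   Spec.mk (nat_lit 49284) (nat_lit 0) [nat_lit 36162, nat_lit 44910, nat_lit 53658, nat_lit 47826, nat_lit 50742, nat_lit 48798, nat_lit 49770, nat_lit 49446, nat_lit 49230, nat_lit 49266, nat_lit 49302, nat_lit 49278] (nat_lit 0) [nat_lit 29602] false,
   Spec.mk (nat_lit 49302) (nat_lit 1) [nat_lit 36180, nat_lit 44928, nat_lit 53676, nat_lit 47844, nat_lit 50760, nat_lit 48816, nat_lit 49788, nat_lit 49464, nat_lit 49284] (nat_lit 0) [nat_lit 29620] false,
   Spec.mk (nat_lit 49334) (nat_lit 2) [nat_lit 36212, nat_lit 44960, nat_lit 53708, nat_lit 47876, nat_lit 50792, nat_lit 49820, nat_lit 49172, nat_lit 49340, nat_lit 49336] (nat_lit 0) [] false,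
   Spec.mk (nat_lit 49336) (nat_lit 0) [nat_lit 36214, nat_lit 44962, nat_lit 53710, nat_lit 47878, nat_lit 50794, nat_lit 49822, nat_lit 49174, nat_lit 49342, nat_lit 49334] (nat_lit 0) [nat_lit 29654] false,
   Spec.mk (nat_lit 49340) (nat_lit 0) [nat_lit 36218, nat_lit 44966, nat_lit 53714, nat_lit 47882, nat_lit 50798, nat_lit 49826, nat_lit 49178, nat_lit 49358, nat_lit 49334, nat_lit 49342] (nat_lit 0) [] false,
   Spec.mk (nat_lit 49342) (nat_lit 0) [nat_lit 36220, nat_lit 44968, nat_lit 53716, nat_lit 47884, nat_lit 50800, nat_lit 49828, nat_lit 49180, nat_lit 49360, nat_lit 49336, nat_lit 49348, nat_lit 49340, nat_lit 49344] (nat_lit 0) [nat_lit 29660] false,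
   Spec.mk (nat_lit 49344) (nat_lit 0) [nat_lit 36222, nat_lit 44970, nat_lit 53718, nat_lit 47886, nat_lit 50802, nat_lit 49830, nat_lit 49182, nat_lit 49362, nat_lit 49350, nat_lit 49342] (nat_lit 2) [nat_lit 29662] false,
   Spec.mk (nat_lit 49348) (nat_lit 0) [nat_lit 36226, nat_lit 44974, nat_lit 53722, nat_lit 47890, nat_lit 50806, nat_lit 49834, nat_lit 49186, nat_lit 49366, nat_lit 49342, nat_lit 49350] (nat_lit 2) [nat_lit 29666] false,
   Spec.mk (nat_lit 49350) (nat_lit 0) [nat_lit 36228, nat_lit 44976, nat_lit 53724, nat_lit 47892, nat_lit 50808, nat_lit 49836, nat_lit 49188, nat_lit 49368, nat_lit 49344, nat_lit 49348] (nat_lit 2) [nat_lit 29668] false,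
   Spec.mk (nat_lit 49358) (nat_lit 0) [nat_lit 36236, nat_lit 44984, nat_lit 53732, nat_lit 47900, nat_lit 50816, nat_lit 49844, nat_lit 49196, nat_lit 49412, nat_lit 49340, nat_lit 49360] (nat_lit 0) [] false,
   Spec.mk (nat_lit 49360) (nat_lit 0) [nat_lit 36238, nat_lit 44986, nat_lit 53734, nat_lit 47902, nat_lit 50818, nat_lit 49846, nat_lit 49198, nat_lit 49414, nat_lit 49342, nat_lit 49366, nat_lit 49358, nat_lit 49362] (nat_lit 1) [nat_lit 29678] false,
   Spec.mk (nat_lit 49362) (nat_lit 0) [nat_lit 36240, nat_lit 44988, nat_lit 53736, nat_lit 47904, nat_lit 50820, nat_lit 49848, nat_lit 49200, nat_lit 49416, nat_lit 49344, nat_lit 49368, nat_lit 49360] (nat_lit 4) [nat_lit 29680] false,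
   Spec.mk (nat_lit 49366) (nat_lit 0) [nat_lit 36244, nat_lit 44992, nat_lit 53740, nat_lit 47908, nat_lit 50824, nat_lit 49852, nat_lit 49204, nat_lit 49420, nat_lit 49348, nat_lit 49384, nat_lit 49360, nat_lit 49368] (nat_lit 1) [nat_lit 29684] false,
   Spec.mk (nat_lit 49368) (nat_lit 0) [nat_lit 36246, nat_lit 44994, nat_lit 53742, nat_lit 47910, nat_lit 50826, nat_lit 49854, nat_lit 49206, nat_lit 49422, nat_lit 49350, nat_lit 49386, nat_lit 49362, nat_lit 49374, nat_lit 49366] (nat_lit 2) [nat_lit 29686] false,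
   Spec.mk (nat_lit 49374) (nat_lit 0) [nat_lit 36252, nat_lit 45000, nat_lit 53748, nat_lit 47916, nat_lit 50832, nat_lit 49860, nat_lit 49212, nat_lit 49428, nat_lit 49392, nat_lit 49368] (nat_lit 2) [nat_lit 29692] false,
   Spec.mk (nat_lit 49384) (nat_lit 0) [nat_lit 36262, nat_lit 45010, nat_lit 53758, nat_lit 47926, nat_lit 50842, nat_lit 49870, nat_lit 49222, nat_lit 49438, nat_lit 49366, nat_lit 49386] (nat_lit 2) [nat_lit 29702] false,
   Spec.mk (nat_lit 49386) (nat_lit 0) [nat_lit 36264, nat_lit 45012, nat_lit 53760, nat_lit 47928, nat_lit 50844, nat_lit 49872, nat_lit 49224, nat_lit 49440, nat_lit 49368, nat_lit 49392, nat_lit 49384] (nat_lit 4) [nat_lit 29704] false,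
   Spec.mk (nat_lit 49392) (nat_lit 0) [nat_lit 36270, nat_lit 45018, nat_lit 53766, nat_lit 47934, nat_lit 50850, nat_lit 49878, nat_lit 49230, nat_lit 49446, nat_lit 49374, nat_lit 49386] (nat_lit 2) [nat_lit 29710] false,
   Spec.mk (nat_lit 49412) (nat_lit 2) [nat_lit 36290, nat_lit 45038, nat_lit 53786, nat_lit 47954, nat_lit 50870, nat_lit 49898, nat_lit 49250, nat_lit 49358, nat_lit 49414] (nat_lit 0) [] false]

noncomputable def sp130 : List Spec :=
  [Spec.mk (nat_lit 49414) (nat_lit 1) [nat_lit 36292, nat_lit 45040, nat_lit 53788, nat_lit 47956, nat_lit 50872, nat_lit 49900, nat_lit 49252, nat_lit 49360, nat_lit 49420, nat_lit 49412, nat_lit 49416] (nat_lit 0) [nat_lit 29732] false,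
   Spec.mk (nat_lit 49416) (nat_lit 0) [nat_lit 36294, nat_lit 45042, nat_lit 53790, nat_lit 47958, nat_lit 50874, nat_lit 49902, nat_lit 49254, nat_lit 49362, nat_lit 49422, nat_lit 49414] (nat_lit 2) [nat_lit 29734] false,
   Spec.mk (nat_lit 49420) (nat_lit 0) [nat_lit 36298, nat_lit 45046, nat_lit 53794, nat_lit 47962, nat_lit 50878, nat_lit 49906, nat_lit 49258, nat_lit 49366, nat_lit 49438, nat_lit 49414, nat_lit 49422] (nat_lit 0) [nat_lit 29738] false,
   Spec.mk (nat_lit 49422) (nat_lit 0) [nat_lit 36300, nat_lit 45048, nat_lit 53796, nat_lit 47964, nat_lit 50880, nat_lit 49908, nat_lit 49260, nat_lit 49368, nat_lit 49440, nat_lit 49416, nat_lit 49428, nat_lit 49420] (nat_lit 1) [nat_lit 29740] false,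
   Spec.mk (nat_lit 49428) (nat_lit 0) [nat_lit 36306, nat_lit 45054, nat_lit 53802, nat_lit 47970, nat_lit 50886, nat_lit 49914, nat_lit 49266, nat_lit 49374, nat_lit 49446, nat_lit 49422] (nat_lit 2) [nat_lit 29746] false,
   Spec.mk (nat_lit 49438) (nat_lit 1) [nat_lit 36316, nat_lit 45064, nat_lit 53812, nat_lit 47980, nat_lit 50896, nat_lit 49924, nat_lit 49276, nat_lit 49384, nat_lit 49492, nat_lit 49420, nat_lit 49440] (nat_lit 0) [nat_lit 29756] false,
   Spec.mk (nat_lit 49440) (nat_lit 0) [nat_lit 36318, nat_lit 45066, nat_lit 53814, nat_lit 47982, nat_lit 50898, nat_lit 49926, nat_lit 49278, nat_lit 49386, nat_lit 49494, nat_lit 49422, nat_lit 49446, nat_lit 49438] (nat_lit 1) [nat_lit 29758] false,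
   Spec.mk (nat_lit 49446) (nat_lit 0) [nat_lit 36324, nat_lit 45072, nat_lit 53820, nat_lit 47988, nat_lit 50904, nat_lit 49932, nat_lit 49284, nat_lit 49392, nat_lit 49500, nat_lit 49428, nat_lit 49464, nat_lit 49440] (nat_lit 0) [nat_lit 29764] false,
   Spec.mk (nat_lit 49464) (nat_lit 0) [nat_lit 36342, nat_lit 45090, nat_lit 53838, nat_lit 48006, nat_lit 50922, nat_lit 49950, nat_lit 49302, nat_lit 49518, nat_lit 49446] (nat_lit 0) [nat_lit 29782] false,
   Spec.mk (nat_lit 49492) (nat_lit 2) [nat_lit 36370, nat_lit 45118, nat_lit 53866, nat_lit 48034, nat_lit 50950, nat_lit 49978, nat_lit 49438, nat_lit 49494] (nat_lit 0) [nat_lit 29810] false,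
   Spec.mk (nat_lit 49494) (nat_lit 0) [nat_lit 36372, nat_lit 45120, nat_lit 53868, nat_lit 48036, nat_lit 50952, nat_lit 49980, nat_lit 49440, nat_lit 49500, nat_lit 49492] (nat_lit 0) [nat_lit 29812] false,
   Spec.mk (nat_lit 49500) (nat_lit 0) [nat_lit 36378, nat_lit 45126, nat_lit 53874, nat_lit 48042, nat_lit 50958, nat_lit 49986, nat_lit 49446, nat_lit 49518, nat_lit 49494] (nat_lit 0) [nat_lit 29818] false,
   Spec.mk (nat_lit 49518) (nat_lit 2) [nat_lit 36396, nat_lit 45144, nat_lit 53892, nat_lit 48060, nat_lit 50976, nat_lit 50004, nat_lit 49464, nat_lit 49500] (nat_lit 0) [nat_lit 29836] false,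
   Spec.mk (nat_lit 49580) (nat_lit 3) [nat_lit 36458, nat_lit 45206, nat_lit 53954, nat_lit 51038, nat_lit 49094, nat_lit 49586] (nat_lit 0) [] false,
   Spec.mk (nat_lit 49586) (nat_lit 2) [nat_lit 36464, nat_lit 45212, nat_lit 53960, nat_lit 51044, nat_lit 49100, nat_lit 49604, nat_lit 49580, nat_lit 49592, nat_lit 49588] (nat_lit 0) [] false,
   Spec.mk (nat_lit 49588) (nat_lit 1) [nat_lit 36466, nat_lit 45214, nat_lit 53962, nat_lit 51046, nat_lit 49102, nat_lit 49606, nat_lit 49594, nat_lit 49586] (nat_lit 0) [nat_lit 29906] false,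
   Spec.mk (nat_lit 49592) (nat_lit 0) [nat_lit 36470, nat_lit 45218, nat_lit 53966, nat_lit 51050, nat_lit 49106, nat_lit 49610, nat_lit 49586, nat_lit 49594] (nat_lit 1) [] false,
   Spec.mk (nat_lit 49594) (nat_lit 0) [nat_lit 36472, nat_lit 45220, nat_lit 53968, nat_lit 51052, nat_lit 49108, nat_lit 49612, nat_lit 49588, nat_lit 49592, nat_lit 49596] (nat_lit 0) [nat_lit 29912] false,
   Spec.mk (nat_lit 49596) (nat_lit 0) [nat_lit 36474, nat_lit 45222, nat_lit 53970, nat_lit 51054, nat_lit 49110, nat_lit 49614, nat_lit 49594] (nat_lit 1) [nat_lit 29914] false,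
   Spec.mk (nat_lit 49604) (nat_lit 1) [nat_lit 36482, nat_lit 45230, nat_lit 53978, nat_lit 51062, nat_lit 49118, nat_lit 49658, nat_lit 49586, nat_lit 49610, nat_lit 49606] (nat_lit 0) [] false,
   Spec.mk (nat_lit 49606) (nat_lit 0) [nat_lit 36484, nat_lit 45232, nat_lit 53980, nat_lit 51064, nat_lit 49120, nat_lit 49660, nat_lit 49588, nat_lit 49612, nat_lit 49604] (nat_lit 1) [nat_lit 29924] false,
   Spec.mk (nat_lit 49610) (nat_lit 0) [nat_lit 36488, nat_lit 45236, nat_lit 53984, nat_lit 51068, nat_lit 49124, nat_lit 49664, nat_lit 49592, nat_lit 49628, nat_lit 49604, nat_lit 49612] (nat_lit 0) [] false,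
   Spec.mk (nat_lit 49612) (nat_lit 0) [nat_lit 36490, nat_lit 45238, nat_lit 53986, nat_lit 51070, nat_lit 49126, nat_lit 49666, nat_lit 49594, nat_lit 49630, nat_lit 49606, nat_lit 49618, nat_lit 49610, nat_lit 49614] (nat_lit 0) [nat_lit 29930] false,
   Spec.mk (nat_lit 49614) (nat_lit 0) [nat_lit 36492, nat_lit 45240, nat_lit 53988, nat_lit 51072, nat_lit 49128, nat_lit 49668, nat_lit 49596, nat_lit 49632, nat_lit 49620, nat_lit 49612] (nat_lit 2) [nat_lit 29932] false,
   Spec.mk (nat_lit 49618) (nat_lit 0) [nat_lit 36496, nat_lit 45244, nat_lit 53992, nat_lit 51076, nat_lit 49132, nat_lit 49672, nat_lit 49636, nat_lit 49612, nat_lit 49620] (nat_lit 1) [nat_lit 29936] false,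
   Spec.mk (nat_lit 49620) (nat_lit 0) [nat_lit 36498, nat_lit 45246, nat_lit 53994, nat_lit 51078, nat_lit 49134, nat_lit 49674, nat_lit 49638, nat_lit 49614, nat_lit 49618] (nat_lit 1) [nat_lit 29938] false,
   Spec.mk (nat_lit 49628) (nat_lit 0) [nat_lit 36506, nat_lit 45254, nat_lit 54002, nat_lit 51086, nat_lit 49142, nat_lit 49682, nat_lit 49610, nat_lit 49630] (nat_lit 1) [] false,
   Spec.mk (nat_lit 49630) (nat_lit 0) [nat_lit 36508, nat_lit 45256, nat_lit 54004, nat_lit 51088, nat_lit 49144, nat_lit 49684, nat_lit 49612, nat_lit 49636, nat_lit 49628, nat_lit 49632] (nat_lit 2) [nat_lit 29948] false,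
   Spec.mk (nat_lit 49632) (nat_lit 0) [nat_lit 36510, nat_lit 45258, nat_lit 54006, nat_lit 51090, nat_lit 49146, nat_lit 49686, nat_lit 49614, nat_lit 49638, nat_lit 49630] (nat_lit 5) [nat_lit 29950] false,
   Spec.mk (nat_lit 49636) (nat_lit 0) [nat_lit 36514, nat_lit 45262, nat_lit 54010, nat_lit 51094, nat_lit 49150, nat_lit 49690, nat_lit 49618, nat_lit 49630, nat_lit 49638] (nat_lit 1) [nat_lit 29954] false,
   Spec.mk (nat_lit 49638) (nat_lit 0) [nat_lit 36516, nat_lit 45264, nat_lit 54012, nat_lit 51096, nat_lit 49152, nat_lit 49692, nat_lit 49620, nat_lit 49632, nat_lit 49644, nat_lit 49636] (nat_lit 2) [nat_lit 29956] false,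
   Spec.mk (nat_lit 49644) (nat_lit 0) [nat_lit 36522, nat_lit 45270, nat_lit 54018, nat_lit 51102, nat_lit 49158, nat_lit 49698, nat_lit 49638] (nat_lit 1) [nat_lit 29962] false,
   Spec.mk (nat_lit 49658) (nat_lit 1) [nat_lit 36536, nat_lit 45284, nat_lit 54032, nat_lit 51116, nat_lit 49172, nat_lit 49820, nat_lit 49604, nat_lit 49664, nat_lit 49660] (nat_lit 0) [] false,
   Spec.mk (nat_lit 49660) (nat_lit 0) [nat_lit 36538, nat_lit 45286, nat_lit 54034, nat_lit 51118, nat_lit 49174, nat_lit 49822, nat_lit 49606, nat_lit 49666, nat_lit 49658] (nat_lit 1) [nat_lit 29978] false,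
   Spec.mk (nat_lit 49664) (nat_lit 0) [nat_lit 36542, nat_lit 45290, nat_lit 54038, nat_lit 51122, nat_lit 49178, nat_lit 49826, nat_lit 49610, nat_lit 49682, nat_lit 49658, nat_lit 49666] (nat_lit 1) [] false,
   Spec.mk (nat_lit 49666) (nat_lit 0) [nat_lit 36544, nat_lit 45292, nat_lit 54040, nat_lit 51124, nat_lit 49180, nat_lit 49828, nat_lit 49612, nat_lit 49684, nat_lit 49660, nat_lit 49672, nat_lit 49664, nat_lit 49668] (nat_lit 1) [nat_lit 29984] false,
   Spec.mk (nat_lit 49668) (nat_lit 0) [nat_lit 36546, nat_lit 45294, nat_lit 54042, nat_lit 51126, nat_lit 49182, nat_lit 49830, nat_lit 49614, nat_lit 49686, nat_lit 49674, nat_lit 49666] (nat_lit 3) [nat_lit 29986] false,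
   Spec.mk (nat_lit 49672) (nat_lit 0) [nat_lit 36550, nat_lit 45298, nat_lit 54046, nat_lit 51130, nat_lit 49186, nat_lit 49834, nat_lit 49618, nat_lit 49690, nat_lit 49666, nat_lit 49674] (nat_lit 3) [nat_lit 29990] false,
   Spec.mk (nat_lit 49674) (nat_lit 0) [nat_lit 36552, nat_lit 45300, nat_lit 54048, nat_lit 51132, nat_lit 49188, nat_lit 49836, nat_lit 49620, nat_lit 49692, nat_lit 49668, nat_lit 49672] (nat_lit 3) [nat_lit 29992] false,
   Spec.mk (nat_lit 49682) (nat_lit 0) [nat_lit 36560, nat_lit 45308, nat_lit 54056, nat_lit 51140, nat_lit 49196, nat_lit 49844, nat_lit 49628, nat_lit 49736, nat_lit 49664, nat_lit 49684] (nat_lit 0) [] false,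
   Spec.mk (nat_lit 49684) (nat_lit 0) [nat_lit 36562, nat_lit 45310, nat_lit 54058, nat_lit 51142, nat_lit 49198, nat_lit 49846, nat_lit 49630, nat_lit 49738, nat_lit 49666, nat_lit 49690, nat_lit 49682, nat_lit 49686] (nat_lit 1) [nat_lit 30002] false,
   Spec.mk (nat_lit 49686) (nat_lit 0) [nat_lit 36564, nat_lit 45312, nat_lit 54060, nat_lit 51144, nat_lit 49200, nat_lit 49848, nat_lit 49632, nat_lit 49740, nat_lit 49668, nat_lit 49692, nat_lit 49684] (nat_lit 4) [nat_lit 30004] false,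
   Spec.mk (nat_lit 49690) (nat_lit 0) [nat_lit 36568, nat_lit 45316, nat_lit 54064, nat_lit 51148, nat_lit 49204, nat_lit 49852, nat_lit 49636, nat_lit 49744, nat_lit 49672, nat_lit 49708, nat_lit 49684, nat_lit 49692] (nat_lit 1) [nat_lit 30008] false,
   Spec.mk (nat_lit 49692) (nat_lit 0) [nat_lit 36570, nat_lit 45318, nat_lit 54066, nat_lit 51150, nat_lit 49206, nat_lit 49854, nat_lit 49638, nat_lit 49746, nat_lit 49674, nat_lit 49710, nat_lit 49686, nat_lit 49698, nat_lit 49690] (nat_lit 2) [nat_lit 30010] false,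
   Spec.mk (nat_lit 49698) (nat_lit 0) [nat_lit 36576, nat_lit 45324, nat_lit 54072, nat_lit 51156, nat_lit 49212, nat_lit 49860, nat_lit 49644, nat_lit 49752, nat_lit 49716, nat_lit 49692] (nat_lit 2) [nat_lit 30016] false,
   Spec.mk (nat_lit 49708) (nat_lit 0) [nat_lit 36586, nat_lit 45334, nat_lit 54082, nat_lit 51166, nat_lit 49222, nat_lit 49870, nat_lit 49762, nat_lit 49690, nat_lit 49710] (nat_lit 1) [nat_lit 30026] false,
   Spec.mk (nat_lit 49710) (nat_lit 0) [nat_lit 36588, nat_lit 45336, nat_lit 54084, nat_lit 51168, nat_lit 49224, nat_lit 49872, nat_lit 49764, nat_lit 49692, nat_lit 49716, nat_lit 49708] (nat_lit 3) [nat_lit 30028] false,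
   Spec.mk (nat_lit 49716) (nat_lit 0) [nat_lit 36594, nat_lit 45342, nat_lit 54090, nat_lit 51174, nat_lit 49230, nat_lit 49878, nat_lit 49770, nat_lit 49698, nat_lit 49710] (nat_lit 1) [nat_lit 30034] false,
   Spec.mk (nat_lit 49736) (nat_lit 0) [nat_lit 36614, nat_lit 45362, nat_lit 54110, nat_lit 51194, nat_lit 49250, nat_lit 49898, nat_lit 49682, nat_lit 49738] (nat_lit 1) [] false,
   Spec.mk (nat_lit 49738) (nat_lit 0) [nat_lit 36616, nat_lit 45364, nat_lit 54112, nat_lit 51196, nat_lit 49252, nat_lit 49900, nat_lit 49684, nat_lit 49744, nat_lit 49736, nat_lit 49740] (nat_lit 2) [nat_lit 30056] false,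
   Spec.mk (nat_lit 49740) (nat_lit 0) [nat_lit 36618, nat_lit 45366, nat_lit 54114, nat_lit 51198, nat_lit 49254, nat_lit 49902, nat_lit 49686, nat_lit 49746, nat_lit 49738] (nat_lit 5) [nat_lit 30058] false,
   Spec.mk (nat_lit 49744) (nat_lit 0) [nat_lit 36622, nat_lit 45370, nat_lit 54118, nat_lit 51202, nat_lit 49258, nat_lit 49906, nat_lit 49690, nat_lit 49762, nat_lit 49738, nat_lit 49746] (nat_lit 3) [nat_lit 30062] false,
   Spec.mk (nat_lit 49746) (nat_lit 0) [nat_lit 36624, nat_lit 45372, nat_lit 54120, nat_lit 51204, nat_lit 49260, nat_lit 49908, nat_lit 49692, nat_lit 49764, nat_lit 49740, nat_lit 49752, nat_lit 49744] (nat_lit 4) [nat_lit 30064] false,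
   Spec.mk (nat_lit 49752) (nat_lit 0) [nat_lit 36630, nat_lit 45378, nat_lit 54126, nat_lit 51210, nat_lit 49266, nat_lit 49914, nat_lit 49698, nat_lit 49770, nat_lit 49746] (nat_lit 5) [nat_lit 30070] false,
   Spec.mk (nat_lit 49762) (nat_lit 0) [nat_lit 36640, nat_lit 45388, nat_lit 54136, nat_lit 51220, nat_lit 49276, nat_lit 49924, nat_lit 49708, nat_lit 49744, nat_lit 49764] (nat_lit 1) [nat_lit 30080] false,
   Spec.mk (nat_lit 49764) (nat_lit 0) [nat_lit 36642, nat_lit 45390, nat_lit 54138, nat_lit 51222, nat_lit 49278, nat_lit 49926, nat_lit 49710, nat_lit 49746, nat_lit 49770, nat_lit 49762] (nat_lit 3) [nat_lit 30082] false,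
   Spec.mk (nat_lit 49770) (nat_lit 0) [nat_lit 36648, nat_lit 45396, nat_lit 54144, nat_lit 51228, nat_lit 49284, nat_lit 49932, nat_lit 49716, nat_lit 49752, nat_lit 49788, nat_lit 49764] (nat_lit 2) [nat_lit 30088] false,
   Spec.mk (nat_lit 49788) (nat_lit 0) [nat_lit 36666, nat_lit 45414, nat_lit 54162, nat_lit 51246, nat_lit 49302, nat_lit 49950, nat_lit 49770] (nat_lit 1) [nat_lit 30106] false,
   Spec.mk (nat_lit 49820) (nat_lit 3) [nat_lit 36698, nat_lit 45446, nat_lit 54194, nat_lit 51278, nat_lit 49334, nat_lit 49658, nat_lit 49826, nat_lit 49822] (nat_lit 0) [] false,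
   Spec.mk (nat_lit 49822) (nat_lit 1) [nat_lit 36700, nat_lit 45448, nat_lit 54196, nat_lit 51280, nat_lit 49336, nat_lit 49660, nat_lit 49828, nat_lit 49820] (nat_lit 0) [nat_lit 30140] false]

noncomputable def sp131 : List Spec :=
  [Spec.mk (nat_lit 49826) (nat_lit 1) [nat_lit 36704, nat_lit 45452, nat_lit 54200, nat_lit 51284, nat_lit 49340, nat_lit 49664, nat_lit 49844, nat_lit 49820, nat_lit 49828] (nat_lit 0) [] false,
   Spec.mk (nat_lit 49828) (nat_lit 1) [nat_lit 36706, nat_lit 45454, nat_lit 54202, nat_lit 51286, nat_lit 49342, nat_lit 49666, nat_lit 49846, nat_lit 49822, nat_lit 49834, nat_lit 49826, nat_lit 49830] (nat_lit 0) [nat_lit 30146] false,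
   Spec.mk (nat_lit 49830) (nat_lit 0) [nat_lit 36708, nat_lit 45456, nat_lit 54204, nat_lit 51288, nat_lit 49344, nat_lit 49668, nat_lit 49848, nat_lit 49836, nat_lit 49828] (nat_lit 1) [nat_lit 30148] false,
   Spec.mk (nat_lit 49834) (nat_lit 0) [nat_lit 36712, nat_lit 45460, nat_lit 54208, nat_lit 51292, nat_lit 49348, nat_lit 49672, nat_lit 49852, nat_lit 49828, nat_lit 49836] (nat_lit 1) [nat_lit 30152] false,
   Spec.mk (nat_lit 49836) (nat_lit 0) [nat_lit 36714, nat_lit 45462, nat_lit 54210, nat_lit 51294, nat_lit 49350, nat_lit 49674, nat_lit 49854, nat_lit 49830, nat_lit 49834] (nat_lit 1) [nat_lit 30154] false,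
   Spec.mk (nat_lit 49844) (nat_lit 1) [nat_lit 36722, nat_lit 45470, nat_lit 54218, nat_lit 51302, nat_lit 49358, nat_lit 49682, nat_lit 49898, nat_lit 49826, nat_lit 49846] (nat_lit 0) [] false,
   Spec.mk (nat_lit 49846) (nat_lit 0) [nat_lit 36724, nat_lit 45472, nat_lit 54220, nat_lit 51304, nat_lit 49360, nat_lit 49684, nat_lit 49900, nat_lit 49828, nat_lit 49852, nat_lit 49844, nat_lit 49848] (nat_lit 0) [nat_lit 30164] false,
   Spec.mk (nat_lit 49848) (nat_lit 0) [nat_lit 36726, nat_lit 45474, nat_lit 54222, nat_lit 51306, nat_lit 49362, nat_lit 49686, nat_lit 49902, nat_lit 49830, nat_lit 49854, nat_lit 49846] (nat_lit 3) [nat_lit 30166] false,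
   Spec.mk (nat_lit 49852) (nat_lit 0) [nat_lit 36730, nat_lit 45478, nat_lit 54226, nat_lit 51310, nat_lit 49366, nat_lit 49690, nat_lit 49906, nat_lit 49834, nat_lit 49870, nat_lit 49846, nat_lit 49854] (nat_lit 0) [nat_lit 30170] false,
   Spec.mk (nat_lit 49854) (nat_lit 0) [nat_lit 36732, nat_lit 45480, nat_lit 54228, nat_lit 51312, nat_lit 49368, nat_lit 49692, nat_lit 49908, nat_lit 49836, nat_lit 49872, nat_lit 49848, nat_lit 49860, nat_lit 49852] (nat_lit 1) [nat_lit 30172] false,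
   Spec.mk (nat_lit 49860) (nat_lit 0) [nat_lit 36738, nat_lit 45486, nat_lit 54234, nat_lit 51318, nat_lit 49374, nat_lit 49698, nat_lit 49914, nat_lit 49878, nat_lit 49854] (nat_lit 1) [nat_lit 30178] false,
   Spec.mk (nat_lit 49870) (nat_lit 0) [nat_lit 36748, nat_lit 45496, nat_lit 54244, nat_lit 51328, nat_lit 49384, nat_lit 49708, nat_lit 49924, nat_lit 49852, nat_lit 49872] (nat_lit 1) [nat_lit 30188] false,
   Spec.mk (nat_lit 49872) (nat_lit 0) [nat_lit 36750, nat_lit 45498, nat_lit 54246, nat_lit 51330, nat_lit 49386, nat_lit 49710, nat_lit 49926, nat_lit 49854, nat_lit 49878, nat_lit 49870] (nat_lit 3) [nat_lit 30190] false,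
   Spec.mk (nat_lit 49878) (nat_lit 0) [nat_lit 36756, nat_lit 45504, nat_lit 54252, nat_lit 51336, nat_lit 49392, nat_lit 49716, nat_lit 49932, nat_lit 49860, nat_lit 49872] (nat_lit 1) [nat_lit 30196] false,
   Spec.mk (nat_lit 49898) (nat_lit 2) [nat_lit 36776, nat_lit 45524, nat_lit 54272, nat_lit 51356, nat_lit 49412, nat_lit 49736, nat_lit 50060, nat_lit 49844, nat_lit 49900] (nat_lit 0) [] false,
   Spec.mk (nat_lit 49900) (nat_lit 1) [nat_lit 36778, nat_lit 45526, nat_lit 54274, nat_lit 51358, nat_lit 49414, nat_lit 49738, nat_lit 50062, nat_lit 49846, nat_lit 49906, nat_lit 49898, nat_lit 49902] (nat_lit 0) [nat_lit 30218] false,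
   Spec.mk (nat_lit 49902) (nat_lit 0) [nat_lit 36780, nat_lit 45528, nat_lit 54276, nat_lit 51360, nat_lit 49416, nat_lit 49740, nat_lit 50064, nat_lit 49848, nat_lit 49908, nat_lit 49900] (nat_lit 2) [nat_lit 30220] false,
   Spec.mk (nat_lit 49906) (nat_lit 0) [nat_lit 36784, nat_lit 45532, nat_lit 54280, nat_lit 51364, nat_lit 49420, nat_lit 49744, nat_lit 50068, nat_lit 49852, nat_lit 49924, nat_lit 49900, nat_lit 49908] (nat_lit 0) [nat_lit 30224] false,
   Spec.mk (nat_lit 49908) (nat_lit 0) [nat_lit 36786, nat_lit 45534, nat_lit 54282, nat_lit 51366, nat_lit 49422, nat_lit 49746, nat_lit 50070, nat_lit 49854, nat_lit 49926, nat_lit 49902, nat_lit 49914, nat_lit 49906] (nat_lit 1) [nat_lit 30226] false,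
   Spec.mk (nat_lit 49914) (nat_lit 0) [nat_lit 36792, nat_lit 45540, nat_lit 54288, nat_lit 51372, nat_lit 49428, nat_lit 49752, nat_lit 50076, nat_lit 49860, nat_lit 49932, nat_lit 49908] (nat_lit 2) [nat_lit 30232] false,
   Spec.mk (nat_lit 49924) (nat_lit 1) [nat_lit 36802, nat_lit 45550, nat_lit 54298, nat_lit 51382, nat_lit 49438, nat_lit 49762, nat_lit 50086, nat_lit 49870, nat_lit 49978, nat_lit 49906, nat_lit 49926] (nat_lit 0) [nat_lit 30242] false,
   Spec.mk (nat_lit 49926) (nat_lit 0) [nat_lit 36804, nat_lit 45552, nat_lit 54300, nat_lit 51384, nat_lit 49440, nat_lit 49764, nat_lit 50088, nat_lit 49872, nat_lit 49980, nat_lit 49908, nat_lit 49932, nat_lit 49924] (nat_lit 1) [nat_lit 30244] false,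
   Spec.mk (nat_lit 49932) (nat_lit 0) [nat_lit 36810, nat_lit 45558, nat_lit 54306, nat_lit 51390, nat_lit 49446, nat_lit 49770, nat_lit 50094, nat_lit 49878, nat_lit 49986, nat_lit 49914, nat_lit 49950, nat_lit 49926] (nat_lit 0) [nat_lit 30250] false,
   Spec.mk (nat_lit 49950) (nat_lit 0) [nat_lit 36828, nat_lit 45576, nat_lit 54324, nat_lit 51408, nat_lit 49464, nat_lit 49788, nat_lit 50112, nat_lit 50004, nat_lit 49932] (nat_lit 0) [nat_lit 30268] false,
   Spec.mk (nat_lit 49978) (nat_lit 1) [nat_lit 36856, nat_lit 45604, nat_lit 54352, nat_lit 51436, nat_lit 49492, nat_lit 50140, nat_lit 49924, nat_lit 49980] (nat_lit 0) [nat_lit 30296] false,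
   Spec.mk (nat_lit 49980) (nat_lit 0) [nat_lit 36858, nat_lit 45606, nat_lit 54354, nat_lit 51438, nat_lit 49494, nat_lit 50142, nat_lit 49926, nat_lit 49986, nat_lit 49978] (nat_lit 1) [nat_lit 30298] false,
   Spec.mk (nat_lit 49986) (nat_lit 0) [nat_lit 36864, nat_lit 45612, nat_lit 54360, nat_lit 51444, nat_lit 49500, nat_lit 50148, nat_lit 49932, nat_lit 50004, nat_lit 49980] (nat_lit 1) [nat_lit 30304] false,
   Spec.mk (nat_lit 50004) (nat_lit 1) [nat_lit 36882, nat_lit 45630, nat_lit 54378, nat_lit 51462, nat_lit 49518, nat_lit 50166, nat_lit 49950, nat_lit 49986] (nat_lit 0) [nat_lit 30322] false,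
   Spec.mk (nat_lit 50060) (nat_lit 3) [nat_lit 36938, nat_lit 45686, nat_lit 54434, nat_lit 51518, nat_lit 49898, nat_lit 50062] (nat_lit 0) [] false,
   Spec.mk (nat_lit 50062) (nat_lit 2) [nat_lit 36940, nat_lit 45688, nat_lit 54436, nat_lit 51520, nat_lit 49900, nat_lit 50068, nat_lit 50060, nat_lit 50064] (nat_lit 0) [nat_lit 30380] false,
   Spec.mk (nat_lit 50064) (nat_lit 0) [nat_lit 36942, nat_lit 45690, nat_lit 54438, nat_lit 51522, nat_lit 49902, nat_lit 50070, nat_lit 50062] (nat_lit 1) [nat_lit 30382] false,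
   Spec.mk (nat_lit 50068) (nat_lit 1) [nat_lit 36946, nat_lit 45694, nat_lit 54442, nat_lit 51526, nat_lit 49906, nat_lit 50086, nat_lit 50062, nat_lit 50070] (nat_lit 0) [nat_lit 30386] false,
   Spec.mk (nat_lit 50070) (nat_lit 0) [nat_lit 36948, nat_lit 45696, nat_lit 54444, nat_lit 51528, nat_lit 49908, nat_lit 50088, nat_lit 50064, nat_lit 50076, nat_lit 50068] (nat_lit 0) [nat_lit 30388] false,
   Spec.mk (nat_lit 50076) (nat_lit 0) [nat_lit 36954, nat_lit 45702, nat_lit 54450, nat_lit 51534, nat_lit 49914, nat_lit 50094, nat_lit 50070] (nat_lit 1) [nat_lit 30394] false,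
   Spec.mk (nat_lit 50086) (nat_lit 1) [nat_lit 36964, nat_lit 45712, nat_lit 54460, nat_lit 51544, nat_lit 49924, nat_lit 50140, nat_lit 50068, nat_lit 50088] (nat_lit 0) [nat_lit 30404] false,
   Spec.mk (nat_lit 50088) (nat_lit 0) [nat_lit 36966, nat_lit 45714, nat_lit 54462, nat_lit 51546, nat_lit 49926, nat_lit 50142, nat_lit 50070, nat_lit 50094, nat_lit 50086] (nat_lit 1) [nat_lit 30406] false,
   Spec.mk (nat_lit 50094) (nat_lit 0) [nat_lit 36972, nat_lit 45720, nat_lit 54468, nat_lit 51552, nat_lit 49932, nat_lit 50148, nat_lit 50076, nat_lit 50112, nat_lit 50088] (nat_lit 0) [nat_lit 30412] false,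
   Spec.mk (nat_lit 50112) (nat_lit 0) [nat_lit 36990, nat_lit 45738, nat_lit 54486, nat_lit 51570, nat_lit 49950, nat_lit 50166, nat_lit 50094] (nat_lit 1) [nat_lit 30430] false,
   Spec.mk (nat_lit 50140) (nat_lit 3) [nat_lit 37018, nat_lit 45766, nat_lit 54514, nat_lit 51598, nat_lit 49978, nat_lit 50086, nat_lit 50142] (nat_lit 0) [nat_lit 30458] false,
   Spec.mk (nat_lit 50142) (nat_lit 1) [nat_lit 37020, nat_lit 45768, nat_lit 54516, nat_lit 51600, nat_lit 49980, nat_lit 50088, nat_lit 50148, nat_lit 50140] (nat_lit 0) [nat_lit 30460] false,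
   Spec.mk (nat_lit 50148) (nat_lit 1) [nat_lit 37026, nat_lit 45774, nat_lit 54522, nat_lit 51606, nat_lit 49986, nat_lit 50094, nat_lit 50166, nat_lit 50142] (nat_lit 0) [nat_lit 30466] false,
   Spec.mk (nat_lit 50166) (nat_lit 2) [nat_lit 37044, nat_lit 45792, nat_lit 54540, nat_lit 51624, nat_lit 50004, nat_lit 50112, nat_lit 50220, nat_lit 50148] (nat_lit 0) [nat_lit 30484] false,
   Spec.mk (nat_lit 50220) (nat_lit 3) [nat_lit 37098, nat_lit 45846, nat_lit 54594, nat_lit 51678, nat_lit 50166] (nat_lit 0) [nat_lit 30538] false,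
   Spec.mk (nat_lit 50318) (nat_lit 4) [nat_lit 37196, nat_lit 54692, nat_lit 48860, nat_lit 50336, nat_lit 50324] (nat_lit 0) [] false,
   Spec.mk (nat_lit 50324) (nat_lit 2) [nat_lit 37202, nat_lit 54698, nat_lit 48866, nat_lit 50342, nat_lit 50318, nat_lit 50326] (nat_lit 0) [] false,
   Spec.mk (nat_lit 50326) (nat_lit 2) [nat_lit 37204, nat_lit 54700, nat_lit 48868, nat_lit 50344, nat_lit 50324] (nat_lit 0) [nat_lit 30644] false,
   Spec.mk (nat_lit 50336) (nat_lit 2) [nat_lit 37214, nat_lit 54710, nat_lit 48878, nat_lit 50390, nat_lit 50318, nat_lit 50342] (nat_lit 0) [] false,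
   Spec.mk (nat_lit 50342) (nat_lit 2) [nat_lit 37220, nat_lit 54716, nat_lit 48884, nat_lit 50396, nat_lit 50324, nat_lit 50360, nat_lit 50336, nat_lit 50348, nat_lit 50344] (nat_lit 0) [] false,
   Spec.mk (nat_lit 50344) (nat_lit 1) [nat_lit 37222, nat_lit 54718, nat_lit 48886, nat_lit 50398, nat_lit 50326, nat_lit 50362, nat_lit 50350, nat_lit 50342] (nat_lit 0) [nat_lit 30662] false,
   Spec.mk (nat_lit 50348) (nat_lit 0) [nat_lit 37226, nat_lit 54722, nat_lit 48890, nat_lit 50402, nat_lit 50366, nat_lit 50342, nat_lit 50350] (nat_lit 0) [] false,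
   Spec.mk (nat_lit 50350) (nat_lit 1) [nat_lit 37228, nat_lit 54724, nat_lit 48892, nat_lit 50404, nat_lit 50368, nat_lit 50344, nat_lit 50348, nat_lit 50352] (nat_lit 0) [nat_lit 30668] false,
   Spec.mk (nat_lit 50352) (nat_lit 0) [nat_lit 37230, nat_lit 54726, nat_lit 48894, nat_lit 50406, nat_lit 50370, nat_lit 50350] (nat_lit 0) [nat_lit 30670] false,
   Spec.mk (nat_lit 50360) (nat_lit 0) [nat_lit 37238, nat_lit 54734, nat_lit 48902, nat_lit 50414, nat_lit 50342, nat_lit 50366, nat_lit 50362] (nat_lit 0) [] false,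
   Spec.mk (nat_lit 50362) (nat_lit 0) [nat_lit 37240, nat_lit 54736, nat_lit 48904, nat_lit 50416, nat_lit 50344, nat_lit 50368, nat_lit 50360] (nat_lit 2) [nat_lit 30680] false,
   Spec.mk (nat_lit 50366) (nat_lit 0) [nat_lit 37244, nat_lit 54740, nat_lit 48908, nat_lit 50420, nat_lit 50348, nat_lit 50360, nat_lit 50368] (nat_lit 0) [] false,
   Spec.mk (nat_lit 50368) (nat_lit 0) [nat_lit 37246, nat_lit 54742, nat_lit 48910, nat_lit 50422, nat_lit 50350, nat_lit 50362, nat_lit 50374, nat_lit 50366, nat_lit 50370] (nat_lit 0) [nat_lit 30686] false,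
   Spec.mk (nat_lit 50370) (nat_lit 0) [nat_lit 37248, nat_lit 54744, nat_lit 48912, nat_lit 50424, nat_lit 50352, nat_lit 50376, nat_lit 50368] (nat_lit 2) [nat_lit 30688] false,
   Spec.mk (nat_lit 50374) (nat_lit 0) [nat_lit 37252, nat_lit 54748, nat_lit 48916, nat_lit 50428, nat_lit 50368, nat_lit 50376] (nat_lit 0) [nat_lit 30692] false,
   Spec.mk (nat_lit 50376) (nat_lit 0) [nat_lit 37254, nat_lit 54750, nat_lit 48918, nat_lit 50430, nat_lit 50370, nat_lit 50374] (nat_lit 0) [nat_lit 30694] false,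
   Spec.mk (nat_lit 50390) (nat_lit 2) [nat_lit 37268, nat_lit 54764, nat_lit 48932, nat_lit 50552, nat_lit 50336, nat_lit 50396] (nat_lit 0) [] false]

noncomputable def sp132 : List Spec :=
  [Spec.mk (nat_lit 50396) (nat_lit 1) [nat_lit 37274, nat_lit 54770, nat_lit 48938, nat_lit 50558, nat_lit 50342, nat_lit 50414, nat_lit 50390, nat_lit 50402, nat_lit 50398] (nat_lit 0) [] false,
   Spec.mk (nat_lit 50398) (nat_lit 0) [nat_lit 37276, nat_lit 54772, nat_lit 48940, nat_lit 50560, nat_lit 50344, nat_lit 50416, nat_lit 50404, nat_lit 50396] (nat_lit 0) [nat_lit 30716] false,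
   Spec.mk (nat_lit 50402) (nat_lit 0) [nat_lit 37280, nat_lit 54776, nat_lit 48944, nat_lit 50564, nat_lit 50348, nat_lit 50420, nat_lit 50396, nat_lit 50404] (nat_lit 2) [] false,
   Spec.mk (nat_lit 50404) (nat_lit 0) [nat_lit 37282, nat_lit 54778, nat_lit 48946, nat_lit 50566, nat_lit 50350, nat_lit 50422, nat_lit 50398, nat_lit 50402, nat_lit 50406] (nat_lit 1) [nat_lit 30722] false,
   Spec.mk (nat_lit 50406) (nat_lit 0) [nat_lit 37284, nat_lit 54780, nat_lit 48948, nat_lit 50568, nat_lit 50352, nat_lit 50424, nat_lit 50404] (nat_lit 2) [nat_lit 30724] false,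
   Spec.mk (nat_lit 50414) (nat_lit 1) [nat_lit 37292, nat_lit 54788, nat_lit 48956, nat_lit 50576, nat_lit 50360, nat_lit 50468, nat_lit 50396, nat_lit 50420, nat_lit 50416] (nat_lit 0) [] false,
   Spec.mk (nat_lit 50416) (nat_lit 0) [nat_lit 37294, nat_lit 54790, nat_lit 48958, nat_lit 50578, nat_lit 50362, nat_lit 50470, nat_lit 50398, nat_lit 50422, nat_lit 50414] (nat_lit 1) [nat_lit 30734] false,
   Spec.mk (nat_lit 50420) (nat_lit 0) [nat_lit 37298, nat_lit 54794, nat_lit 48962, nat_lit 50582, nat_lit 50366, nat_lit 50474, nat_lit 50402, nat_lit 50438, nat_lit 50414, nat_lit 50422] (nat_lit 0) [] false,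
   Spec.mk (nat_lit 50422) (nat_lit 0) [nat_lit 37300, nat_lit 54796, nat_lit 48964, nat_lit 50584, nat_lit 50368, nat_lit 50476, nat_lit 50404, nat_lit 50440, nat_lit 50416, nat_lit 50428, nat_lit 50420, nat_lit 50424] (nat_lit 0) [nat_lit 30740] false,
   Spec.mk (nat_lit 50424) (nat_lit 0) [nat_lit 37302, nat_lit 54798, nat_lit 48966, nat_lit 50586, nat_lit 50370, nat_lit 50478, nat_lit 50406, nat_lit 50442, nat_lit 50430, nat_lit 50422] (nat_lit 2) [nat_lit 30742] false,
   Spec.mk (nat_lit 50428) (nat_lit 0) [nat_lit 37306, nat_lit 54802, nat_lit 48970, nat_lit 50590, nat_lit 50374, nat_lit 50482, nat_lit 50446, nat_lit 50422, nat_lit 50430] (nat_lit 1) [nat_lit 30746] false,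
   Spec.mk (nat_lit 50430) (nat_lit 0) [nat_lit 37308, nat_lit 54804, nat_lit 48972, nat_lit 50592, nat_lit 50376, nat_lit 50484, nat_lit 50448, nat_lit 50424, nat_lit 50428] (nat_lit 1) [nat_lit 30748] false,
   Spec.mk (nat_lit 50438) (nat_lit 0) [nat_lit 37316, nat_lit 54812, nat_lit 48980, nat_lit 50600, nat_lit 50492, nat_lit 50420, nat_lit 50440] (nat_lit 0) [] false,
   Spec.mk (nat_lit 50440) (nat_lit 0) [nat_lit 37318, nat_lit 54814, nat_lit 48982, nat_lit 50602, nat_lit 50494, nat_lit 50422, nat_lit 50446, nat_lit 50438, nat_lit 50442] (nat_lit 1) [nat_lit 30758] false,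
   Spec.mk (nat_lit 50442) (nat_lit 0) [nat_lit 37320, nat_lit 54816, nat_lit 48984, nat_lit 50604, nat_lit 50496, nat_lit 50424, nat_lit 50448, nat_lit 50440] (nat_lit 4) [nat_lit 30760] false,
   Spec.mk (nat_lit 50446) (nat_lit 0) [nat_lit 37324, nat_lit 54820, nat_lit 48988, nat_lit 50608, nat_lit 50500, nat_lit 50428, nat_lit 50440, nat_lit 50448] (nat_lit 0) [nat_lit 30764] false,
   Spec.mk (nat_lit 50448) (nat_lit 0) [nat_lit 37326, nat_lit 54822, nat_lit 48990, nat_lit 50610, nat_lit 50502, nat_lit 50430, nat_lit 50442, nat_lit 50454, nat_lit 50446] (nat_lit 1) [nat_lit 30766] false,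
   Spec.mk (nat_lit 50454) (nat_lit 0) [nat_lit 37332, nat_lit 54828, nat_lit 48996, nat_lit 50616, nat_lit 50508, nat_lit 50448] (nat_lit 0) [nat_lit 30772] false,
   Spec.mk (nat_lit 50468) (nat_lit 0) [nat_lit 37346, nat_lit 54842, nat_lit 49010, nat_lit 50630, nat_lit 50414, nat_lit 50474, nat_lit 50470] (nat_lit 0) [] false,
   Spec.mk (nat_lit 50470) (nat_lit 0) [nat_lit 37348, nat_lit 54844, nat_lit 49012, nat_lit 50632, nat_lit 50416, nat_lit 50476, nat_lit 50468] (nat_lit 2) [nat_lit 30788] false,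
   Spec.mk (nat_lit 50474) (nat_lit 0) [nat_lit 37352, nat_lit 54848, nat_lit 49016, nat_lit 50636, nat_lit 50420, nat_lit 50492, nat_lit 50468, nat_lit 50476] (nat_lit 2) [] false,
   Spec.mk (nat_lit 50476) (nat_lit 0) [nat_lit 37354, nat_lit 54850, nat_lit 49018, nat_lit 50638, nat_lit 50422, nat_lit 50494, nat_lit 50470, nat_lit 50482, nat_lit 50474, nat_lit 50478] (nat_lit 2) [nat_lit 30794] false,
   Spec.mk (nat_lit 50478) (nat_lit 0) [nat_lit 37356, nat_lit 54852, nat_lit 49020, nat_lit 50640, nat_lit 50424, nat_lit 50496, nat_lit 50484, nat_lit 50476] (nat_lit 4) [nat_lit 30796] false,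
   Spec.mk (nat_lit 50482) (nat_lit 0) [nat_lit 37360, nat_lit 54856, nat_lit 49024, nat_lit 50644, nat_lit 50428, nat_lit 50500, nat_lit 50476, nat_lit 50484] (nat_lit 4) [nat_lit 30800] false,
   Spec.mk (nat_lit 50484) (nat_lit 0) [nat_lit 37362, nat_lit 54858, nat_lit 49026, nat_lit 50646, nat_lit 50430, nat_lit 50502, nat_lit 50478, nat_lit 50482] (nat_lit 4) [nat_lit 30802] false,
   Spec.mk (nat_lit 50492) (nat_lit 0) [nat_lit 37370, nat_lit 54866, nat_lit 49034, nat_lit 50654, nat_lit 50438, nat_lit 50474, nat_lit 50494] (nat_lit 0) [] false,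
   Spec.mk (nat_lit 50494) (nat_lit 0) [nat_lit 37372, nat_lit 54868, nat_lit 49036, nat_lit 50656, nat_lit 50440, nat_lit 50476, nat_lit 50500, nat_lit 50492, nat_lit 50496] (nat_lit 1) [nat_lit 30812] false,
   Spec.mk (nat_lit 50496) (nat_lit 0) [nat_lit 37374, nat_lit 54870, nat_lit 49038, nat_lit 50658, nat_lit 50442, nat_lit 50478, nat_lit 50502, nat_lit 50494] (nat_lit 4) [nat_lit 30814] false,
   Spec.mk (nat_lit 50500) (nat_lit 0) [nat_lit 37378, nat_lit 54874, nat_lit 49042, nat_lit 50662, nat_lit 50446, nat_lit 50482, nat_lit 50518, nat_lit 50494, nat_lit 50502] (nat_lit 1) [nat_lit 30818] false,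
   Spec.mk (nat_lit 50502) (nat_lit 0) [nat_lit 37380, nat_lit 54876, nat_lit 49044, nat_lit 50664, nat_lit 50448, nat_lit 50484, nat_lit 50520, nat_lit 50496, nat_lit 50508, nat_lit 50500] (nat_lit 2) [nat_lit 30820] false,
   Spec.mk (nat_lit 50508) (nat_lit 0) [nat_lit 37386, nat_lit 54882, nat_lit 49050, nat_lit 50670, nat_lit 50454, nat_lit 50526, nat_lit 50502] (nat_lit 2) [nat_lit 30826] false,
   Spec.mk (nat_lit 50518) (nat_lit 0) [nat_lit 37396, nat_lit 54892, nat_lit 49060, nat_lit 50680, nat_lit 50500, nat_lit 50520] (nat_lit 0) [nat_lit 30836] false,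
   Spec.mk (nat_lit 50520) (nat_lit 0) [nat_lit 37398, nat_lit 54894, nat_lit 49062, nat_lit 50682, nat_lit 50502, nat_lit 50526, nat_lit 50518] (nat_lit 2) [nat_lit 30838] false,
   Spec.mk (nat_lit 50526) (nat_lit 0) [nat_lit 37404, nat_lit 54900, nat_lit 49068, nat_lit 50688, nat_lit 50508, nat_lit 50520] (nat_lit 0) [nat_lit 30844] false,
   Spec.mk (nat_lit 50552) (nat_lit 2) [nat_lit 37430, nat_lit 54926, nat_lit 49094, nat_lit 51038, nat_lit 50390, nat_lit 50558] (nat_lit 0) [] false,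
   Spec.mk (nat_lit 50558) (nat_lit 1) [nat_lit 37436, nat_lit 54932, nat_lit 49100, nat_lit 51044, nat_lit 50396, nat_lit 50576, nat_lit 50552, nat_lit 50564, nat_lit 50560] (nat_lit 0) [] false,
   Spec.mk (nat_lit 50560) (nat_lit 0) [nat_lit 37438, nat_lit 54934, nat_lit 49102, nat_lit 51046, nat_lit 50398, nat_lit 50578, nat_lit 50566, nat_lit 50558] (nat_lit 0) [nat_lit 30878] false,
   Spec.mk (nat_lit 50564) (nat_lit 0) [nat_lit 37442, nat_lit 54938, nat_lit 49106, nat_lit 51050, nat_lit 50402, nat_lit 50582, nat_lit 50558, nat_lit 50566] (nat_lit 2) [] false,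
   Spec.mk (nat_lit 50566) (nat_lit 0) [nat_lit 37444, nat_lit 54940, nat_lit 49108, nat_lit 51052, nat_lit 50404, nat_lit 50584, nat_lit 50560, nat_lit 50564, nat_lit 50568] (nat_lit 1) [nat_lit 30884] false,
   Spec.mk (nat_lit 50568) (nat_lit 0) [nat_lit 37446, nat_lit 54942, nat_lit 49110, nat_lit 51054, nat_lit 50406, nat_lit 50586, nat_lit 50566] (nat_lit 2) [nat_lit 30886] false,
   Spec.mk (nat_lit 50576) (nat_lit 0) [nat_lit 37454, nat_lit 54950, nat_lit 49118, nat_lit 51062, nat_lit 50414, nat_lit 50630, nat_lit 50558, nat_lit 50582, nat_lit 50578] (nat_lit 0) [] false,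
   Spec.mk (nat_lit 50578) (nat_lit 0) [nat_lit 37456, nat_lit 54952, nat_lit 49120, nat_lit 51064, nat_lit 50416, nat_lit 50632, nat_lit 50560, nat_lit 50584, nat_lit 50576] (nat_lit 2) [nat_lit 30896] false,
   Spec.mk (nat_lit 50582) (nat_lit 0) [nat_lit 37460, nat_lit 54956, nat_lit 49124, nat_lit 51068, nat_lit 50420, nat_lit 50636, nat_lit 50564, nat_lit 50600, nat_lit 50576, nat_lit 50584] (nat_lit 1) [] false,
   Spec.mk (nat_lit 50584) (nat_lit 0) [nat_lit 37462, nat_lit 54958, nat_lit 49126, nat_lit 51070, nat_lit 50422, nat_lit 50638, nat_lit 50566, nat_lit 50602, nat_lit 50578, nat_lit 50590, nat_lit 50582, nat_lit 50586] (nat_lit 1) [nat_lit 30902] false,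
   Spec.mk (nat_lit 50586) (nat_lit 0) [nat_lit 37464, nat_lit 54960, nat_lit 49128, nat_lit 51072, nat_lit 50424, nat_lit 50640, nat_lit 50568, nat_lit 50604, nat_lit 50592, nat_lit 50584] (nat_lit 3) [nat_lit 30904] false,
   Spec.mk (nat_lit 50590) (nat_lit 0) [nat_lit 37468, nat_lit 54964, nat_lit 49132, nat_lit 51076, nat_lit 50428, nat_lit 50644, nat_lit 50608, nat_lit 50584, nat_lit 50592] (nat_lit 2) [nat_lit 30908] false,
   Spec.mk (nat_lit 50592) (nat_lit 0) [nat_lit 37470, nat_lit 54966, nat_lit 49134, nat_lit 51078, nat_lit 50430, nat_lit 50646, nat_lit 50610, nat_lit 50586, nat_lit 50590] (nat_lit 2) [nat_lit 30910] false,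
   Spec.mk (nat_lit 50600) (nat_lit 0) [nat_lit 37478, nat_lit 54974, nat_lit 49142, nat_lit 51086, nat_lit 50438, nat_lit 50654, nat_lit 50582, nat_lit 50602] (nat_lit 2) [] false,
   Spec.mk (nat_lit 50602) (nat_lit 0) [nat_lit 37480, nat_lit 54976, nat_lit 49144, nat_lit 51088, nat_lit 50440, nat_lit 50656, nat_lit 50584, nat_lit 50608, nat_lit 50600, nat_lit 50604] (nat_lit 3) [nat_lit 30920] false,
   Spec.mk (nat_lit 50604) (nat_lit 0) [nat_lit 37482, nat_lit 54978, nat_lit 49146, nat_lit 51090, nat_lit 50442, nat_lit 50658, nat_lit 50586, nat_lit 50610, nat_lit 50602] (nat_lit 6) [nat_lit 30922] false,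
   Spec.mk (nat_lit 50608) (nat_lit 0) [nat_lit 37486, nat_lit 54982, nat_lit 49150, nat_lit 51094, nat_lit 50446, nat_lit 50662, nat_lit 50590, nat_lit 50602, nat_lit 50610] (nat_lit 2) [nat_lit 30926] false,
   Spec.mk (nat_lit 50610) (nat_lit 0) [nat_lit 37488, nat_lit 54984, nat_lit 49152, nat_lit 51096, nat_lit 50448, nat_lit 50664, nat_lit 50592, nat_lit 50604, nat_lit 50616, nat_lit 50608] (nat_lit 3) [nat_lit 30928] false,
   Spec.mk (nat_lit 50616) (nat_lit 0) [nat_lit 37494, nat_lit 54990, nat_lit 49158, nat_lit 51102, nat_lit 50454, nat_lit 50670, nat_lit 50610] (nat_lit 2) [nat_lit 30934] false,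
   Spec.mk (nat_lit 50630) (nat_lit 1) [nat_lit 37508, nat_lit 55004, nat_lit 49172, nat_lit 51116, nat_lit 50468, nat_lit 50792, nat_lit 50576, nat_lit 50636, nat_lit 50632] (nat_lit 0) [] false,
   Spec.mk (nat_lit 50632) (nat_lit 0) [nat_lit 37510, nat_lit 55006, nat_lit 49174, nat_lit 51118, nat_lit 50470, nat_lit 50794, nat_lit 50578, nat_lit 50638, nat_lit 50630] (nat_lit 1) [nat_lit 30950] false,
   Spec.mk (nat_lit 50636) (nat_lit 0) [nat_lit 37514, nat_lit 55010, nat_lit 49178, nat_lit 51122, nat_lit 50474, nat_lit 50798, nat_lit 50582, nat_lit 50654, nat_lit 50630, nat_lit 50638] (nat_lit 1) [] false,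
   Spec.mk (nat_lit 50638) (nat_lit 0) [nat_lit 37516, nat_lit 55012, nat_lit 49180, nat_lit 51124, nat_lit 50476, nat_lit 50800, nat_lit 50584, nat_lit 50656, nat_lit 50632, nat_lit 50644, nat_lit 50636, nat_lit 50640] (nat_lit 1) [nat_lit 30956] false,
   Spec.mk (nat_lit 50640) (nat_lit 0) [nat_lit 37518, nat_lit 55014, nat_lit 49182, nat_lit 51126, nat_lit 50478, nat_lit 50802, nat_lit 50586, nat_lit 50658, nat_lit 50646, nat_lit 50638] (nat_lit 3) [nat_lit 30958] false,
   Spec.mk (nat_lit 50644) (nat_lit 0) [nat_lit 37522, nat_lit 55018, nat_lit 49186, nat_lit 51130, nat_lit 50482, nat_lit 50806, nat_lit 50590, nat_lit 50662, nat_lit 50638, nat_lit 50646] (nat_lit 3) [nat_lit 30962] false,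
   Spec.mk (nat_lit 50646) (nat_lit 0) [nat_lit 37524, nat_lit 55020, nat_lit 49188, nat_lit 51132, nat_lit 50484, nat_lit 50808, nat_lit 50592, nat_lit 50664, nat_lit 50640, nat_lit 50644] (nat_lit 3) [nat_lit 30964] false]

noncomputable def sp133 : List Spec :=
  [Spec.mk (nat_lit 50654) (nat_lit 0) [nat_lit 37532, nat_lit 55028, nat_lit 49196, nat_lit 51140, nat_lit 50492, nat_lit 50816, nat_lit 50600, nat_lit 50708, nat_lit 50636, nat_lit 50656] (nat_lit 0) [] false,
   Spec.mk (nat_lit 50656) (nat_lit 0) [nat_lit 37534, nat_lit 55030, nat_lit 49198, nat_lit 51142, nat_lit 50494, nat_lit 50818, nat_lit 50602, nat_lit 50710, nat_lit 50638, nat_lit 50662, nat_lit 50654, nat_lit 50658] (nat_lit 1) [nat_lit 30974] false,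
   Spec.mk (nat_lit 50658) (nat_lit 0) [nat_lit 37536, nat_lit 55032, nat_lit 49200, nat_lit 51144, nat_lit 50496, nat_lit 50820, nat_lit 50604, nat_lit 50712, nat_lit 50640, nat_lit 50664, nat_lit 50656] (nat_lit 4) [nat_lit 30976] false,
   Spec.mk (nat_lit 50662) (nat_lit 0) [nat_lit 37540, nat_lit 55036, nat_lit 49204, nat_lit 51148, nat_lit 50500, nat_lit 50824, nat_lit 50608, nat_lit 50716, nat_lit 50644, nat_lit 50680, nat_lit 50656, nat_lit 50664] (nat_lit 1) [nat_lit 30980] false,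
   Spec.mk (nat_lit 50664) (nat_lit 0) [nat_lit 37542, nat_lit 55038, nat_lit 49206, nat_lit 51150, nat_lit 50502, nat_lit 50826, nat_lit 50610, nat_lit 50718, nat_lit 50646, nat_lit 50682, nat_lit 50658, nat_lit 50670, nat_lit 50662] (nat_lit 2) [nat_lit 30982] false,
   Spec.mk (nat_lit 50670) (nat_lit 0) [nat_lit 37548, nat_lit 55044, nat_lit 49212, nat_lit 51156, nat_lit 50508, nat_lit 50832, nat_lit 50616, nat_lit 50724, nat_lit 50688, nat_lit 50664] (nat_lit 2) [nat_lit 30988] false,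
   Spec.mk (nat_lit 50680) (nat_lit 0) [nat_lit 37558, nat_lit 55054, nat_lit 49222, nat_lit 51166, nat_lit 50518, nat_lit 50842, nat_lit 50734, nat_lit 50662, nat_lit 50682] (nat_lit 1) [nat_lit 30998] false,
   Spec.mk (nat_lit 50682) (nat_lit 0) [nat_lit 37560, nat_lit 55056, nat_lit 49224, nat_lit 51168, nat_lit 50520, nat_lit 50844, nat_lit 50736, nat_lit 50664, nat_lit 50688, nat_lit 50680] (nat_lit 3) [nat_lit 31000] false,
   Spec.mk (nat_lit 50688) (nat_lit 0) [nat_lit 37566, nat_lit 55062, nat_lit 49230, nat_lit 51174, nat_lit 50526, nat_lit 50850, nat_lit 50742, nat_lit 50670, nat_lit 50682] (nat_lit 1) [nat_lit 31006] false,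
   Spec.mk (nat_lit 50708) (nat_lit 0) [nat_lit 37586, nat_lit 55082, nat_lit 49250, nat_lit 51194, nat_lit 50870, nat_lit 50654, nat_lit 50710] (nat_lit 0) [] false,
   Spec.mk (nat_lit 50710) (nat_lit 0) [nat_lit 37588, nat_lit 55084, nat_lit 49252, nat_lit 51196, nat_lit 50872, nat_lit 50656, nat_lit 50716, nat_lit 50708, nat_lit 50712] (nat_lit 1) [nat_lit 31028] false,
   Spec.mk (nat_lit 50712) (nat_lit 0) [nat_lit 37590, nat_lit 55086, nat_lit 49254, nat_lit 51198, nat_lit 50874, nat_lit 50658, nat_lit 50718, nat_lit 50710] (nat_lit 4) [nat_lit 31030] false,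
   Spec.mk (nat_lit 50716) (nat_lit 0) [nat_lit 37594, nat_lit 55090, nat_lit 49258, nat_lit 51202, nat_lit 50878, nat_lit 50662, nat_lit 50734, nat_lit 50710, nat_lit 50718] (nat_lit 2) [nat_lit 31034] false,
   Spec.mk (nat_lit 50718) (nat_lit 0) [nat_lit 37596, nat_lit 55092, nat_lit 49260, nat_lit 51204, nat_lit 50880, nat_lit 50664, nat_lit 50736, nat_lit 50712, nat_lit 50724, nat_lit 50716] (nat_lit 3) [nat_lit 31036] false,
   Spec.mk (nat_lit 50724) (nat_lit 0) [nat_lit 37602, nat_lit 55098, nat_lit 49266, nat_lit 51210, nat_lit 50886, nat_lit 50670, nat_lit 50742, nat_lit 50718] (nat_lit 4) [nat_lit 31042] false,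
   Spec.mk (nat_lit 50734) (nat_lit 0) [nat_lit 37612, nat_lit 55108, nat_lit 49276, nat_lit 51220, nat_lit 50896, nat_lit 50680, nat_lit 50716, nat_lit 50736] (nat_lit 0) [nat_lit 31052] false,
   Spec.mk (nat_lit 50736) (nat_lit 0) [nat_lit 37614, nat_lit 55110, nat_lit 49278, nat_lit 51222, nat_lit 50898, nat_lit 50682, nat_lit 50718, nat_lit 50742, nat_lit 50734] (nat_lit 2) [nat_lit 31054] false,
   Spec.mk (nat_lit 50742) (nat_lit 0) [nat_lit 37620, nat_lit 55116, nat_lit 49284, nat_lit 51228, nat_lit 50904, nat_lit 50688, nat_lit 50724, nat_lit 50760, nat_lit 50736] (nat_lit 1) [nat_lit 31060] false,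
   Spec.mk (nat_lit 50760) (nat_lit 0) [nat_lit 37638, nat_lit 55134, nat_lit 49302, nat_lit 51246, nat_lit 50922, nat_lit 50742] (nat_lit 0) [nat_lit 31078] false,
   Spec.mk (nat_lit 50792) (nat_lit 0) [nat_lit 37670, nat_lit 55166, nat_lit 49334, nat_lit 51278, nat_lit 50630, nat_lit 50798, nat_lit 50794] (nat_lit 0) [] false,
   Spec.mk (nat_lit 50794) (nat_lit 0) [nat_lit 37672, nat_lit 55168, nat_lit 49336, nat_lit 51280, nat_lit 50632, nat_lit 50800, nat_lit 50792] (nat_lit 2) [nat_lit 31112] false,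
   Spec.mk (nat_lit 50798) (nat_lit 0) [nat_lit 37676, nat_lit 55172, nat_lit 49340, nat_lit 51284, nat_lit 50636, nat_lit 50816, nat_lit 50792, nat_lit 50800] (nat_lit 2) [] false,
   Spec.mk (nat_lit 50800) (nat_lit 0) [nat_lit 37678, nat_lit 55174, nat_lit 49342, nat_lit 51286, nat_lit 50638, nat_lit 50818, nat_lit 50794, nat_lit 50806, nat_lit 50798, nat_lit 50802] (nat_lit 2) [nat_lit 31118] false,
   Spec.mk (nat_lit 50802) (nat_lit 0) [nat_lit 37680, nat_lit 55176, nat_lit 49344, nat_lit 51288, nat_lit 50640, nat_lit 50820, nat_lit 50808, nat_lit 50800] (nat_lit 4) [nat_lit 31120] false,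
   Spec.mk (nat_lit 50806) (nat_lit 0) [nat_lit 37684, nat_lit 55180, nat_lit 49348, nat_lit 51292, nat_lit 50644, nat_lit 50824, nat_lit 50800, nat_lit 50808] (nat_lit 4) [nat_lit 31124] false,
   Spec.mk (nat_lit 50808) (nat_lit 0) [nat_lit 37686, nat_lit 55182, nat_lit 49350, nat_lit 51294, nat_lit 50646, nat_lit 50826, nat_lit 50802, nat_lit 50806] (nat_lit 4) [nat_lit 31126] false,
   Spec.mk (nat_lit 50816) (nat_lit 0) [nat_lit 37694, nat_lit 55190, nat_lit 49358, nat_lit 51302, nat_lit 50654, nat_lit 50870, nat_lit 50798, nat_lit 50818] (nat_lit 2) [] false,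
   Spec.mk (nat_lit 50818) (nat_lit 0) [nat_lit 37696, nat_lit 55192, nat_lit 49360, nat_lit 51304, nat_lit 50656, nat_lit 50872, nat_lit 50800, nat_lit 50824, nat_lit 50816, nat_lit 50820] (nat_lit 3) [nat_lit 31136] false,
   Spec.mk (nat_lit 50820) (nat_lit 0) [nat_lit 37698, nat_lit 55194, nat_lit 49362, nat_lit 51306, nat_lit 50658, nat_lit 50874, nat_lit 50802, nat_lit 50826, nat_lit 50818] (nat_lit 6) [nat_lit 31138] false,
   Spec.mk (nat_lit 50824) (nat_lit 0) [nat_lit 37702, nat_lit 55198, nat_lit 49366, nat_lit 51310, nat_lit 50662, nat_lit 50878, nat_lit 50806, nat_lit 50842, nat_lit 50818, nat_lit 50826] (nat_lit 3) [nat_lit 31142] false,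
   Spec.mk (nat_lit 50826) (nat_lit 0) [nat_lit 37704, nat_lit 55200, nat_lit 49368, nat_lit 51312, nat_lit 50664, nat_lit 50880, nat_lit 50808, nat_lit 50844, nat_lit 50820, nat_lit 50832, nat_lit 50824] (nat_lit 4) [nat_lit 31144] false,
   Spec.mk (nat_lit 50832) (nat_lit 0) [nat_lit 37710, nat_lit 55206, nat_lit 49374, nat_lit 51318, nat_lit 50670, nat_lit 50886, nat_lit 50850, nat_lit 50826] (nat_lit 4) [nat_lit 31150] false,
   Spec.mk (nat_lit 50842) (nat_lit 0) [nat_lit 37720, nat_lit 55216, nat_lit 49384, nat_lit 51328, nat_lit 50680, nat_lit 50896, nat_lit 50824, nat_lit 50844] (nat_lit 4) [nat_lit 31160] false,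
   Spec.mk (nat_lit 50844) (nat_lit 0) [nat_lit 37722, nat_lit 55218, nat_lit 49386, nat_lit 51330, nat_lit 50682, nat_lit 50898, nat_lit 50826, nat_lit 50850, nat_lit 50842] (nat_lit 6) [nat_lit 31162] false,
   Spec.mk (nat_lit 50850) (nat_lit 0) [nat_lit 37728, nat_lit 55224, nat_lit 49392, nat_lit 51336, nat_lit 50688, nat_lit 50904, nat_lit 50832, nat_lit 50844] (nat_lit 4) [nat_lit 31168] false,
   Spec.mk (nat_lit 50870) (nat_lit 0) [nat_lit 37748, nat_lit 55244, nat_lit 49412, nat_lit 51356, nat_lit 50708, nat_lit 50816, nat_lit 50872] (nat_lit 0) [] false,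
   Spec.mk (nat_lit 50872) (nat_lit 0) [nat_lit 37750, nat_lit 55246, nat_lit 49414, nat_lit 51358, nat_lit 50710, nat_lit 50818, nat_lit 50878, nat_lit 50870, nat_lit 50874] (nat_lit 1) [nat_lit 31190] false,
   Spec.mk (nat_lit 50874) (nat_lit 0) [nat_lit 37752, nat_lit 55248, nat_lit 49416, nat_lit 51360, nat_lit 50712, nat_lit 50820, nat_lit 50880, nat_lit 50872] (nat_lit 4) [nat_lit 31192] false,
   Spec.mk (nat_lit 50878) (nat_lit 0) [nat_lit 37756, nat_lit 55252, nat_lit 49420, nat_lit 51364, nat_lit 50716, nat_lit 50824, nat_lit 50896, nat_lit 50872, nat_lit 50880] (nat_lit 2) [nat_lit 31196] false,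
   Spec.mk (nat_lit 50880) (nat_lit 0) [nat_lit 37758, nat_lit 55254, nat_lit 49422, nat_lit 51366, nat_lit 50718, nat_lit 50826, nat_lit 50898, nat_lit 50874, nat_lit 50886, nat_lit 50878] (nat_lit 3) [nat_lit 31198] false,
   Spec.mk (nat_lit 50886) (nat_lit 0) [nat_lit 37764, nat_lit 55260, nat_lit 49428, nat_lit 51372, nat_lit 50724, nat_lit 50832, nat_lit 50904, nat_lit 50880] (nat_lit 4) [nat_lit 31204] false,
   Spec.mk (nat_lit 50896) (nat_lit 0) [nat_lit 37774, nat_lit 55270, nat_lit 49438, nat_lit 51382, nat_lit 50734, nat_lit 50842, nat_lit 50950, nat_lit 50878, nat_lit 50898] (nat_lit 1) [nat_lit 31214] false,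
   Spec.mk (nat_lit 50898) (nat_lit 0) [nat_lit 37776, nat_lit 55272, nat_lit 49440, nat_lit 51384, nat_lit 50736, nat_lit 50844, nat_lit 50952, nat_lit 50880, nat_lit 50904, nat_lit 50896] (nat_lit 3) [nat_lit 31216] false,
   Spec.mk (nat_lit 50904) (nat_lit 0) [nat_lit 37782, nat_lit 55278, nat_lit 49446, nat_lit 51390, nat_lit 50742, nat_lit 50850, nat_lit 50958, nat_lit 50886, nat_lit 50922, nat_lit 50898] (nat_lit 2) [nat_lit 31222] false,
   Spec.mk (nat_lit 50922) (nat_lit 0) [nat_lit 37800, nat_lit 55296, nat_lit 49464, nat_lit 51408, nat_lit 50760, nat_lit 50976, nat_lit 50904] (nat_lit 2) [nat_lit 31240] false,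
   Spec.mk (nat_lit 50950) (nat_lit 0) [nat_lit 37828, nat_lit 55324, nat_lit 49492, nat_lit 51436, nat_lit 50896, nat_lit 50952] (nat_lit 0) [nat_lit 31268] false,
   Spec.mk (nat_lit 50952) (nat_lit 0) [nat_lit 37830, nat_lit 55326, nat_lit 49494, nat_lit 51438, nat_lit 50898, nat_lit 50958, nat_lit 50950] (nat_lit 2) [nat_lit 31270] false,
   Spec.mk (nat_lit 50958) (nat_lit 0) [nat_lit 37836, nat_lit 55332, nat_lit 49500, nat_lit 51444, nat_lit 50904, nat_lit 50976, nat_lit 50952] (nat_lit 2) [nat_lit 31276] false,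
   Spec.mk (nat_lit 50976) (nat_lit 0) [nat_lit 37854, nat_lit 55350, nat_lit 49518, nat_lit 51462, nat_lit 50922, nat_lit 50958] (nat_lit 0) [nat_lit 31294] false,
   Spec.mk (nat_lit 51038) (nat_lit 4) [nat_lit 37916, nat_lit 55412, nat_lit 49580, nat_lit 50552, nat_lit 51044] (nat_lit 0) [] false,
   Spec.mk (nat_lit 51044) (nat_lit 3) [nat_lit 37922, nat_lit 55418, nat_lit 49586, nat_lit 50558, nat_lit 51062, nat_lit 51038, nat_lit 51050, nat_lit 51046] (nat_lit 0) [] false,
   Spec.mk (nat_lit 51046) (nat_lit 2) [nat_lit 37924, nat_lit 55420, nat_lit 49588, nat_lit 50560, nat_lit 51064, nat_lit 51052, nat_lit 51044] (nat_lit 0) [nat_lit 31364] false,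
   Spec.mk (nat_lit 51050) (nat_lit 0) [nat_lit 37928, nat_lit 55424, nat_lit 49592, nat_lit 50564, nat_lit 51068, nat_lit 51044, nat_lit 51052] (nat_lit 0) [] false,
   Spec.mk (nat_lit 51052) (nat_lit 1) [nat_lit 37930, nat_lit 55426, nat_lit 49594, nat_lit 50566, nat_lit 51070, nat_lit 51046, nat_lit 51050, nat_lit 51054] (nat_lit 0) [nat_lit 31370] false,
   Spec.mk (nat_lit 51054) (nat_lit 0) [nat_lit 37932, nat_lit 55428, nat_lit 49596, nat_lit 50568, nat_lit 51072, nat_lit 51052] (nat_lit 0) [nat_lit 31372] false,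
   Spec.mk (nat_lit 51062) (nat_lit 2) [nat_lit 37940, nat_lit 55436, nat_lit 49604, nat_lit 50576, nat_lit 51116, nat_lit 51044, nat_lit 51068, nat_lit 51064] (nat_lit 0) [] false,
   Spec.mk (nat_lit 51064) (nat_lit 0) [nat_lit 37942, nat_lit 55438, nat_lit 49606, nat_lit 50578, nat_lit 51118, nat_lit 51046, nat_lit 51070, nat_lit 51062] (nat_lit 0) [nat_lit 31382] false,
   Spec.mk (nat_lit 51068) (nat_lit 1) [nat_lit 37946, nat_lit 55442, nat_lit 49610, nat_lit 50582, nat_lit 51122, nat_lit 51050, nat_lit 51086, nat_lit 51062, nat_lit 51070] (nat_lit 0) [] false,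
   Spec.mk (nat_lit 51070) (nat_lit 1) [nat_lit 37948, nat_lit 55444, nat_lit 49612, nat_lit 50584, nat_lit 51124, nat_lit 51052, nat_lit 51088, nat_lit 51064, nat_lit 51076, nat_lit 51068, nat_lit 51072] (nat_lit 0) [nat_lit 31388] false,
   Spec.mk (nat_lit 51072) (nat_lit 0) [nat_lit 37950, nat_lit 55446, nat_lit 49614, nat_lit 50586, nat_lit 51126, nat_lit 51054, nat_lit 51090, nat_lit 51078, nat_lit 51070] (nat_lit 1) [nat_lit 31390] false]

noncomputable def sp134 : List Spec :=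
  [Spec.mk (nat_lit 51076) (nat_lit 0) [nat_lit 37954, nat_lit 55450, nat_lit 49618, nat_lit 50590, nat_lit 51130, nat_lit 51094, nat_lit 51070, nat_lit 51078] (nat_lit 0) [nat_lit 31394] false,
   Spec.mk (nat_lit 51078) (nat_lit 0) [nat_lit 37956, nat_lit 55452, nat_lit 49620, nat_lit 50592, nat_lit 51132, nat_lit 51096, nat_lit 51072, nat_lit 51076] (nat_lit 0) [nat_lit 31396] false,
   Spec.mk (nat_lit 51086) (nat_lit 0) [nat_lit 37964, nat_lit 55460, nat_lit 49628, nat_lit 50600, nat_lit 51140, nat_lit 51068, nat_lit 51088] (nat_lit 0) [] false,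
   Spec.mk (nat_lit 51088) (nat_lit 0) [nat_lit 37966, nat_lit 55462, nat_lit 49630, nat_lit 50602, nat_lit 51142, nat_lit 51070, nat_lit 51094, nat_lit 51086, nat_lit 51090] (nat_lit 1) [nat_lit 31406] false,
   Spec.mk (nat_lit 51090) (nat_lit 0) [nat_lit 37968, nat_lit 55464, nat_lit 49632, nat_lit 50604, nat_lit 51144, nat_lit 51072, nat_lit 51096, nat_lit 51088] (nat_lit 4) [nat_lit 31408] false,
   Spec.mk (nat_lit 51094) (nat_lit 0) [nat_lit 37972, nat_lit 55468, nat_lit 49636, nat_lit 50608, nat_lit 51148, nat_lit 51076, nat_lit 51088, nat_lit 51096] (nat_lit 0) [nat_lit 31412] false,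
   Spec.mk (nat_lit 51096) (nat_lit 0) [nat_lit 37974, nat_lit 55470, nat_lit 49638, nat_lit 50610, nat_lit 51150, nat_lit 51078, nat_lit 51090, nat_lit 51102, nat_lit 51094] (nat_lit 1) [nat_lit 31414] false,
   Spec.mk (nat_lit 51102) (nat_lit 0) [nat_lit 37980, nat_lit 55476, nat_lit 49644, nat_lit 50616, nat_lit 51156, nat_lit 51096] (nat_lit 0) [nat_lit 31420] false,
   Spec.mk (nat_lit 51116) (nat_lit 2) [nat_lit 37994, nat_lit 55490, nat_lit 49658, nat_lit 50630, nat_lit 51278, nat_lit 51062, nat_lit 51122, nat_lit 51118] (nat_lit 0) [] false,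
   Spec.mk (nat_lit 51118) (nat_lit 0) [nat_lit 37996, nat_lit 55492, nat_lit 49660, nat_lit 50632, nat_lit 51280, nat_lit 51064, nat_lit 51124, nat_lit 51116] (nat_lit 0) [nat_lit 31436] false,
   Spec.mk (nat_lit 51122) (nat_lit 0) [nat_lit 38000, nat_lit 55496, nat_lit 49664, nat_lit 50636, nat_lit 51284, nat_lit 51068, nat_lit 51140, nat_lit 51116, nat_lit 51124] (nat_lit 0) [] false,
   Spec.mk (nat_lit 51124) (nat_lit 0) [nat_lit 38002, nat_lit 55498, nat_lit 49666, nat_lit 50638, nat_lit 51286, nat_lit 51070, nat_lit 51142, nat_lit 51118, nat_lit 51130, nat_lit 51122, nat_lit 51126] (nat_lit 0) [nat_lit 31442] false,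
   Spec.mk (nat_lit 51126) (nat_lit 0) [nat_lit 38004, nat_lit 55500, nat_lit 49668, nat_lit 50640, nat_lit 51288, nat_lit 51072, nat_lit 51144, nat_lit 51132, nat_lit 51124] (nat_lit 2) [nat_lit 31444] false,
   Spec.mk (nat_lit 51130) (nat_lit 0) [nat_lit 38008, nat_lit 55504, nat_lit 49672, nat_lit 50644, nat_lit 51292, nat_lit 51076, nat_lit 51148, nat_lit 51124, nat_lit 51132] (nat_lit 2) [nat_lit 31448] false,
   Spec.mk (nat_lit 51132) (nat_lit 0) [nat_lit 38010, nat_lit 55506, nat_lit 49674, nat_lit 50646, nat_lit 51294, nat_lit 51078, nat_lit 51150, nat_lit 51126, nat_lit 51130] (nat_lit 2) [nat_lit 31450] false,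
   Spec.mk (nat_lit 51140) (nat_lit 1) [nat_lit 38018, nat_lit 55514, nat_lit 49682, nat_lit 50654, nat_lit 51302, nat_lit 51086, nat_lit 51194, nat_lit 51122, nat_lit 51142] (nat_lit 0) [] false,
   Spec.mk (nat_lit 51142) (nat_lit 0) [nat_lit 38020, nat_lit 55516, nat_lit 49684, nat_lit 50656, nat_lit 51304, nat_lit 51088, nat_lit 51196, nat_lit 51124, nat_lit 51148, nat_lit 51140, nat_lit 51144] (nat_lit 0) [nat_lit 31460] false,
   Spec.mk (nat_lit 51144) (nat_lit 0) [nat_lit 38022, nat_lit 55518, nat_lit 49686, nat_lit 50658, nat_lit 51306, nat_lit 51090, nat_lit 51198, nat_lit 51126, nat_lit 51150, nat_lit 51142] (nat_lit 3) [nat_lit 31462] false,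
   Spec.mk (nat_lit 51148) (nat_lit 0) [nat_lit 38026, nat_lit 55522, nat_lit 49690, nat_lit 50662, nat_lit 51310, nat_lit 51094, nat_lit 51202, nat_lit 51130, nat_lit 51166, nat_lit 51142, nat_lit 51150] (nat_lit 0) [nat_lit 31466] false,
   Spec.mk (nat_lit 51150) (nat_lit 0) [nat_lit 38028, nat_lit 55524, nat_lit 49692, nat_lit 50664, nat_lit 51312, nat_lit 51096, nat_lit 51204, nat_lit 51132, nat_lit 51168, nat_lit 51144, nat_lit 51156, nat_lit 51148] (nat_lit 1) [nat_lit 31468] false,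
   Spec.mk (nat_lit 51156) (nat_lit 0) [nat_lit 38034, nat_lit 55530, nat_lit 49698, nat_lit 50670, nat_lit 51318, nat_lit 51102, nat_lit 51210, nat_lit 51174, nat_lit 51150] (nat_lit 1) [nat_lit 31474] false,
   Spec.mk (nat_lit 51166) (nat_lit 0) [nat_lit 38044, nat_lit 55540, nat_lit 49708, nat_lit 50680, nat_lit 51328, nat_lit 51220, nat_lit 51148, nat_lit 51168] (nat_lit 0) [nat_lit 31484] false,
   Spec.mk (nat_lit 51168) (nat_lit 0) [nat_lit 38046, nat_lit 55542, nat_lit 49710, nat_lit 50682, nat_lit 51330, nat_lit 51222, nat_lit 51150, nat_lit 51174, nat_lit 51166] (nat_lit 2) [nat_lit 31486] false,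
   Spec.mk (nat_lit 51174) (nat_lit 0) [nat_lit 38052, nat_lit 55548, nat_lit 49716, nat_lit 50688, nat_lit 51336, nat_lit 51228, nat_lit 51156, nat_lit 51168] (nat_lit 0) [nat_lit 31492] false,
   Spec.mk (nat_lit 51194) (nat_lit 0) [nat_lit 38072, nat_lit 55568, nat_lit 49736, nat_lit 50708, nat_lit 51356, nat_lit 51140, nat_lit 51196] (nat_lit 0) [] false,
   Spec.mk (nat_lit 51196) (nat_lit 0) [nat_lit 38074, nat_lit 55570, nat_lit 49738, nat_lit 50710, nat_lit 51358, nat_lit 51142, nat_lit 51202, nat_lit 51194, nat_lit 51198] (nat_lit 1) [nat_lit 31514] false,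
   Spec.mk (nat_lit 51198) (nat_lit 0) [nat_lit 38076, nat_lit 55572, nat_lit 49740, nat_lit 50712, nat_lit 51360, nat_lit 51144, nat_lit 51204, nat_lit 51196] (nat_lit 4) [nat_lit 31516] false,
   Spec.mk (nat_lit 51202) (nat_lit 0) [nat_lit 38080, nat_lit 55576, nat_lit 49744, nat_lit 50716, nat_lit 51364, nat_lit 51148, nat_lit 51220, nat_lit 51196, nat_lit 51204] (nat_lit 2) [nat_lit 31520] false,
   Spec.mk (nat_lit 51204) (nat_lit 0) [nat_lit 38082, nat_lit 55578, nat_lit 49746, nat_lit 50718, nat_lit 51366, nat_lit 51150, nat_lit 51222, nat_lit 51198, nat_lit 51210, nat_lit 51202] (nat_lit 3) [nat_lit 31522] false,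
   Spec.mk (nat_lit 51210) (nat_lit 0) [nat_lit 38088, nat_lit 55584, nat_lit 49752, nat_lit 50724, nat_lit 51372, nat_lit 51156, nat_lit 51228, nat_lit 51204] (nat_lit 4) [nat_lit 31528] false,
   Spec.mk (nat_lit 51220) (nat_lit 0) [nat_lit 38098, nat_lit 55594, nat_lit 49762, nat_lit 50734, nat_lit 51382, nat_lit 51166, nat_lit 51202, nat_lit 51222] (nat_lit 0) [nat_lit 31538] false,
   Spec.mk (nat_lit 51222) (nat_lit 0) [nat_lit 38100, nat_lit 55596, nat_lit 49764, nat_lit 50736, nat_lit 51384, nat_lit 51168, nat_lit 51204, nat_lit 51228, nat_lit 51220] (nat_lit 2) [nat_lit 31540] false,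
   Spec.mk (nat_lit 51228) (nat_lit 0) [nat_lit 38106, nat_lit 55602, nat_lit 49770, nat_lit 50742, nat_lit 51390, nat_lit 51174, nat_lit 51210, nat_lit 51246, nat_lit 51222] (nat_lit 1) [nat_lit 31546] false,
   Spec.mk (nat_lit 51246) (nat_lit 0) [nat_lit 38124, nat_lit 55620, nat_lit 49788, nat_lit 50760, nat_lit 51408, nat_lit 51228] (nat_lit 0) [nat_lit 31564] false,
   Spec.mk (nat_lit 51278) (nat_lit 3) [nat_lit 38156, nat_lit 55652, nat_lit 49820, nat_lit 50792, nat_lit 51764, nat_lit 51116, nat_lit 51284, nat_lit 51280] (nat_lit 0) [] false,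
   Spec.mk (nat_lit 51280) (nat_lit 1) [nat_lit 38158, nat_lit 55654, nat_lit 49822, nat_lit 50794, nat_lit 51766, nat_lit 51118, nat_lit 51286, nat_lit 51278] (nat_lit 0) [nat_lit 31598] false,
   Spec.mk (nat_lit 51284) (nat_lit 1) [nat_lit 38162, nat_lit 55658, nat_lit 49826, nat_lit 50798, nat_lit 51770, nat_lit 51122, nat_lit 51302, nat_lit 51278, nat_lit 51286] (nat_lit 0) [] false,
   Spec.mk (nat_lit 51286) (nat_lit 1) [nat_lit 38164, nat_lit 55660, nat_lit 49828, nat_lit 50800, nat_lit 51772, nat_lit 51124, nat_lit 51304, nat_lit 51280, nat_lit 51292, nat_lit 51284, nat_lit 51288] (nat_lit 0) [nat_lit 31604] false,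
   Spec.mk (nat_lit 51288) (nat_lit 0) [nat_lit 38166, nat_lit 55662, nat_lit 49830, nat_lit 50802, nat_lit 51774, nat_lit 51126, nat_lit 51306, nat_lit 51294, nat_lit 51286] (nat_lit 1) [nat_lit 31606] false,
   Spec.mk (nat_lit 51292) (nat_lit 0) [nat_lit 38170, nat_lit 55666, nat_lit 49834, nat_lit 50806, nat_lit 51778, nat_lit 51130, nat_lit 51310, nat_lit 51286, nat_lit 51294] (nat_lit 1) [nat_lit 31610] false,
   Spec.mk (nat_lit 51294) (nat_lit 0) [nat_lit 38172, nat_lit 55668, nat_lit 49836, nat_lit 50808, nat_lit 51780, nat_lit 51132, nat_lit 51312, nat_lit 51288, nat_lit 51292] (nat_lit 1) [nat_lit 31612] false,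
   Spec.mk (nat_lit 51302) (nat_lit 1) [nat_lit 38180, nat_lit 55676, nat_lit 49844, nat_lit 50816, nat_lit 51788, nat_lit 51140, nat_lit 51356, nat_lit 51284, nat_lit 51304] (nat_lit 0) [] false,
   Spec.mk (nat_lit 51304) (nat_lit 0) [nat_lit 38182, nat_lit 55678, nat_lit 49846, nat_lit 50818, nat_lit 51790, nat_lit 51142, nat_lit 51358, nat_lit 51286, nat_lit 51310, nat_lit 51302, nat_lit 51306] (nat_lit 0) [nat_lit 31622] false,
   Spec.mk (nat_lit 51306) (nat_lit 0) [nat_lit 38184, nat_lit 55680, nat_lit 49848, nat_lit 50820, nat_lit 51792, nat_lit 51144, nat_lit 51360, nat_lit 51288, nat_lit 51312, nat_lit 51304] (nat_lit 3) [nat_lit 31624] false,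
   Spec.mk (nat_lit 51310) (nat_lit 0) [nat_lit 38188, nat_lit 55684, nat_lit 49852, nat_lit 50824, nat_lit 51796, nat_lit 51148, nat_lit 51364, nat_lit 51292, nat_lit 51328, nat_lit 51304, nat_lit 51312] (nat_lit 0) [nat_lit 31628] false,
   Spec.mk (nat_lit 51312) (nat_lit 0) [nat_lit 38190, nat_lit 55686, nat_lit 49854, nat_lit 50826, nat_lit 51798, nat_lit 51150, nat_lit 51366, nat_lit 51294, nat_lit 51330, nat_lit 51306, nat_lit 51318, nat_lit 51310] (nat_lit 1) [nat_lit 31630] false,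
   Spec.mk (nat_lit 51318) (nat_lit 0) [nat_lit 38196, nat_lit 55692, nat_lit 49860, nat_lit 50832, nat_lit 51804, nat_lit 51156, nat_lit 51372, nat_lit 51336, nat_lit 51312] (nat_lit 1) [nat_lit 31636] false,
   Spec.mk (nat_lit 51328) (nat_lit 0) [nat_lit 38206, nat_lit 55702, nat_lit 49870, nat_lit 50842, nat_lit 51814, nat_lit 51166, nat_lit 51382, nat_lit 51310, nat_lit 51330] (nat_lit 1) [nat_lit 31646] false,
   Spec.mk (nat_lit 51330) (nat_lit 0) [nat_lit 38208, nat_lit 55704, nat_lit 49872, nat_lit 50844, nat_lit 51816, nat_lit 51168, nat_lit 51384, nat_lit 51312, nat_lit 51336, nat_lit 51328] (nat_lit 3) [nat_lit 31648] false,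
   Spec.mk (nat_lit 51336) (nat_lit 0) [nat_lit 38214, nat_lit 55710, nat_lit 49878, nat_lit 50850, nat_lit 51822, nat_lit 51174, nat_lit 51390, nat_lit 51318, nat_lit 51330] (nat_lit 1) [nat_lit 31654] false,
   Spec.mk (nat_lit 51356) (nat_lit 2) [nat_lit 38234, nat_lit 55730, nat_lit 49898, nat_lit 50870, nat_lit 51842, nat_lit 51194, nat_lit 51518, nat_lit 51302, nat_lit 51358] (nat_lit 0) [] false,
   Spec.mk (nat_lit 51358) (nat_lit 1) [nat_lit 38236, nat_lit 55732, nat_lit 49900, nat_lit 50872, nat_lit 51844, nat_lit 51196, nat_lit 51520, nat_lit 51304, nat_lit 51364, nat_lit 51356, nat_lit 51360] (nat_lit 0) [nat_lit 31676] false,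
   Spec.mk (nat_lit 51360) (nat_lit 0) [nat_lit 38238, nat_lit 55734, nat_lit 49902, nat_lit 50874, nat_lit 51846, nat_lit 51198, nat_lit 51522, nat_lit 51306, nat_lit 51366, nat_lit 51358] (nat_lit 2) [nat_lit 31678] false,
   Spec.mk (nat_lit 51364) (nat_lit 0) [nat_lit 38242, nat_lit 55738, nat_lit 49906, nat_lit 50878, nat_lit 51850, nat_lit 51202, nat_lit 51526, nat_lit 51310, nat_lit 51382, nat_lit 51358, nat_lit 51366] (nat_lit 0) [nat_lit 31682] false,
   Spec.mk (nat_lit 51366) (nat_lit 0) [nat_lit 38244, nat_lit 55740, nat_lit 49908, nat_lit 50880, nat_lit 51852, nat_lit 51204, nat_lit 51528, nat_lit 51312, nat_lit 51384, nat_lit 51360, nat_lit 51372, nat_lit 51364] (nat_lit 1) [nat_lit 31684] false,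
   Spec.mk (nat_lit 51372) (nat_lit 0) [nat_lit 38250, nat_lit 55746, nat_lit 49914, nat_lit 50886, nat_lit 51858, nat_lit 51210, nat_lit 51534, nat_lit 51318, nat_lit 51390, nat_lit 51366] (nat_lit 2) [nat_lit 31690] false,
   Spec.mk (nat_lit 51382) (nat_lit 1) [nat_lit 38260, nat_lit 55756, nat_lit 49924, nat_lit 50896, nat_lit 51868, nat_lit 51220, nat_lit 51544, nat_lit 51328, nat_lit 51436, nat_lit 51364, nat_lit 51384] (nat_lit 0) [nat_lit 31700] false,
   Spec.mk (nat_lit 51384) (nat_lit 0) [nat_lit 38262, nat_lit 55758, nat_lit 49926, nat_lit 50898, nat_lit 51870, nat_lit 51222, nat_lit 51546, nat_lit 51330, nat_lit 51438, nat_lit 51366, nat_lit 51390, nat_lit 51382] (nat_lit 1) [nat_lit 31702] false,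
   Spec.mk (nat_lit 51390) (nat_lit 0) [nat_lit 38268, nat_lit 55764, nat_lit 49932, nat_lit 50904, nat_lit 51876, nat_lit 51228, nat_lit 51552, nat_lit 51336, nat_lit 51444, nat_lit 51372, nat_lit 51408, nat_lit 51384] (nat_lit 0) [nat_lit 31708] false,
   Spec.mk (nat_lit 51408) (nat_lit 0) [nat_lit 38286, nat_lit 55782, nat_lit 49950, nat_lit 50922, nat_lit 51894, nat_lit 51246, nat_lit 51570, nat_lit 51462, nat_lit 51390] (nat_lit 0) [nat_lit 31726] false]

noncomputable def sp135 : List Spec :=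
  [Spec.mk (nat_lit 51436) (nat_lit 1) [nat_lit 38314, nat_lit 55810, nat_lit 49978, nat_lit 50950, nat_lit 51922, nat_lit 51598, nat_lit 51382, nat_lit 51438] (nat_lit 0) [nat_lit 31754] false,
   Spec.mk (nat_lit 51438) (nat_lit 0) [nat_lit 38316, nat_lit 55812, nat_lit 49980, nat_lit 50952, nat_lit 51924, nat_lit 51600, nat_lit 51384, nat_lit 51444, nat_lit 51436] (nat_lit 1) [nat_lit 31756] false,
   Spec.mk (nat_lit 51444) (nat_lit 0) [nat_lit 38322, nat_lit 55818, nat_lit 49986, nat_lit 50958, nat_lit 51930, nat_lit 51606, nat_lit 51390, nat_lit 51462, nat_lit 51438] (nat_lit 1) [nat_lit 31762] false,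
   Spec.mk (nat_lit 51462) (nat_lit 1) [nat_lit 38340, nat_lit 55836, nat_lit 50004, nat_lit 50976, nat_lit 51948, nat_lit 51624, nat_lit 51408, nat_lit 51444] (nat_lit 0) [nat_lit 31780] false,
   Spec.mk (nat_lit 51518) (nat_lit 2) [nat_lit 38396, nat_lit 55892, nat_lit 50060, nat_lit 52004, nat_lit 51356, nat_lit 51520] (nat_lit 0) [] false,
   Spec.mk (nat_lit 51520) (nat_lit 1) [nat_lit 38398, nat_lit 55894, nat_lit 50062, nat_lit 52006, nat_lit 51358, nat_lit 51526, nat_lit 51518, nat_lit 51522] (nat_lit 0) [nat_lit 31838] false,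
   Spec.mk (nat_lit 51522) (nat_lit 0) [nat_lit 38400, nat_lit 55896, nat_lit 50064, nat_lit 52008, nat_lit 51360, nat_lit 51528, nat_lit 51520] (nat_lit 2) [nat_lit 31840] false,
   Spec.mk (nat_lit 51526) (nat_lit 0) [nat_lit 38404, nat_lit 55900, nat_lit 50068, nat_lit 52012, nat_lit 51364, nat_lit 51544, nat_lit 51520, nat_lit 51528] (nat_lit 0) [nat_lit 31844] false,
   Spec.mk (nat_lit 51528) (nat_lit 0) [nat_lit 38406, nat_lit 55902, nat_lit 50070, nat_lit 52014, nat_lit 51366, nat_lit 51546, nat_lit 51522, nat_lit 51534, nat_lit 51526] (nat_lit 1) [nat_lit 31846] false,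
   Spec.mk (nat_lit 51534) (nat_lit 0) [nat_lit 38412, nat_lit 55908, nat_lit 50076, nat_lit 52020, nat_lit 51372, nat_lit 51552, nat_lit 51528] (nat_lit 2) [nat_lit 31852] false,
   Spec.mk (nat_lit 51544) (nat_lit 0) [nat_lit 38422, nat_lit 55918, nat_lit 50086, nat_lit 52030, nat_lit 51382, nat_lit 51598, nat_lit 51526, nat_lit 51546] (nat_lit 0) [nat_lit 31862] false,
   Spec.mk (nat_lit 51546) (nat_lit 0) [nat_lit 38424, nat_lit 55920, nat_lit 50088, nat_lit 52032, nat_lit 51384, nat_lit 51600, nat_lit 51528, nat_lit 51552, nat_lit 51544] (nat_lit 2) [nat_lit 31864] false,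
   Spec.mk (nat_lit 51552) (nat_lit 0) [nat_lit 38430, nat_lit 55926, nat_lit 50094, nat_lit 52038, nat_lit 51390, nat_lit 51606, nat_lit 51534, nat_lit 51570, nat_lit 51546] (nat_lit 1) [nat_lit 31870] false,
   Spec.mk (nat_lit 51570) (nat_lit 0) [nat_lit 38448, nat_lit 55944, nat_lit 50112, nat_lit 52056, nat_lit 51408, nat_lit 51624, nat_lit 51552] (nat_lit 2) [nat_lit 31888] false,
   Spec.mk (nat_lit 51598) (nat_lit 2) [nat_lit 38476, nat_lit 55972, nat_lit 50140, nat_lit 52084, nat_lit 51436, nat_lit 51544, nat_lit 51600] (nat_lit 0) [nat_lit 31916] false,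
   Spec.mk (nat_lit 51600) (nat_lit 0) [nat_lit 38478, nat_lit 55974, nat_lit 50142, nat_lit 52086, nat_lit 51438, nat_lit 51546, nat_lit 51606, nat_lit 51598] (nat_lit 0) [nat_lit 31918] false,
   Spec.mk (nat_lit 51606) (nat_lit 0) [nat_lit 38484, nat_lit 55980, nat_lit 50148, nat_lit 52092, nat_lit 51444, nat_lit 51552, nat_lit 51624, nat_lit 51600] (nat_lit 0) [nat_lit 31924] false,
   Spec.mk (nat_lit 51624) (nat_lit 1) [nat_lit 38502, nat_lit 55998, nat_lit 50166, nat_lit 52110, nat_lit 51462, nat_lit 51570, nat_lit 51678, nat_lit 51606] (nat_lit 0) [nat_lit 31942] false,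
   Spec.mk (nat_lit 51678) (nat_lit 2) [nat_lit 38556, nat_lit 56052, nat_lit 50220, nat_lit 52164, nat_lit 51624] (nat_lit 0) [nat_lit 31996] false,
   Spec.mk (nat_lit 51764) (nat_lit 4) [nat_lit 38642, nat_lit 56138, nat_lit 51278, nat_lit 51770, nat_lit 51766] (nat_lit 0) [] false,
   Spec.mk (nat_lit 51766) (nat_lit 2) [nat_lit 38644, nat_lit 56140, nat_lit 51280, nat_lit 51772, nat_lit 51764] (nat_lit 0) [nat_lit 32084] false,
   Spec.mk (nat_lit 51770) (nat_lit 2) [nat_lit 38648, nat_lit 56144, nat_lit 51284, nat_lit 51788, nat_lit 51764, nat_lit 51772] (nat_lit 0) [] false,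
   Spec.mk (nat_lit 51772) (nat_lit 2) [nat_lit 38650, nat_lit 56146, nat_lit 51286, nat_lit 51790, nat_lit 51766, nat_lit 51778, nat_lit 51770, nat_lit 51774] (nat_lit 0) [nat_lit 32090] false,
   Spec.mk (nat_lit 51774) (nat_lit 0) [nat_lit 38652, nat_lit 56148, nat_lit 51288, nat_lit 51792, nat_lit 51780, nat_lit 51772] (nat_lit 0) [nat_lit 32092] false,
   Spec.mk (nat_lit 51778) (nat_lit 0) [nat_lit 38656, nat_lit 56152, nat_lit 51292, nat_lit 51796, nat_lit 51772, nat_lit 51780] (nat_lit 0) [nat_lit 32096] false,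
   Spec.mk (nat_lit 51780) (nat_lit 0) [nat_lit 38658, nat_lit 56154, nat_lit 51294, nat_lit 51798, nat_lit 51774, nat_lit 51778] (nat_lit 0) [nat_lit 32098] false,
   Spec.mk (nat_lit 51788) (nat_lit 2) [nat_lit 38666, nat_lit 56162, nat_lit 51302, nat_lit 51842, nat_lit 51770, nat_lit 51790] (nat_lit 0) [] false,
   Spec.mk (nat_lit 51790) (nat_lit 1) [nat_lit 38668, nat_lit 56164, nat_lit 51304, nat_lit 51844, nat_lit 51772, nat_lit 51796, nat_lit 51788, nat_lit 51792] (nat_lit 0) [nat_lit 32108] false,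
   Spec.mk (nat_lit 51792) (nat_lit 0) [nat_lit 38670, nat_lit 56166, nat_lit 51306, nat_lit 51846, nat_lit 51774, nat_lit 51798, nat_lit 51790] (nat_lit 2) [nat_lit 32110] false,
   Spec.mk (nat_lit 51796) (nat_lit 1) [nat_lit 38674, nat_lit 56170, nat_lit 51310, nat_lit 51850, nat_lit 51778, nat_lit 51814, nat_lit 51790, nat_lit 51798] (nat_lit 0) [nat_lit 32114] false,
   Spec.mk (nat_lit 51798) (nat_lit 0) [nat_lit 38676, nat_lit 56172, nat_lit 51312, nat_lit 51852, nat_lit 51780, nat_lit 51816, nat_lit 51792, nat_lit 51804, nat_lit 51796] (nat_lit 0) [nat_lit 32116] false,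
   Spec.mk (nat_lit 51804) (nat_lit 0) [nat_lit 38682, nat_lit 56178, nat_lit 51318, nat_lit 51858, nat_lit 51822, nat_lit 51798] (nat_lit 0) [nat_lit 32122] false,
   Spec.mk (nat_lit 51814) (nat_lit 0) [nat_lit 38692, nat_lit 56188, nat_lit 51328, nat_lit 51868, nat_lit 51796, nat_lit 51816] (nat_lit 0) [nat_lit 32132] false,
   Spec.mk (nat_lit 51816) (nat_lit 0) [nat_lit 38694, nat_lit 56190, nat_lit 51330, nat_lit 51870, nat_lit 51798, nat_lit 51822, nat_lit 51814] (nat_lit 2) [nat_lit 32134] false,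
   Spec.mk (nat_lit 51822) (nat_lit 0) [nat_lit 38700, nat_lit 56196, nat_lit 51336, nat_lit 51876, nat_lit 51804, nat_lit 51816] (nat_lit 0) [nat_lit 32140] false,
   Spec.mk (nat_lit 51842) (nat_lit 2) [nat_lit 38720, nat_lit 56216, nat_lit 51356, nat_lit 52004, nat_lit 51788, nat_lit 51844] (nat_lit 0) [] false,
   Spec.mk (nat_lit 51844) (nat_lit 1) [nat_lit 38722, nat_lit 56218, nat_lit 51358, nat_lit 52006, nat_lit 51790, nat_lit 51850, nat_lit 51842, nat_lit 51846] (nat_lit 0) [nat_lit 32162] false,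
   Spec.mk (nat_lit 51846) (nat_lit 0) [nat_lit 38724, nat_lit 56220, nat_lit 51360, nat_lit 52008, nat_lit 51792, nat_lit 51852, nat_lit 51844] (nat_lit 2) [nat_lit 32164] false,
   Spec.mk (nat_lit 51850) (nat_lit 0) [nat_lit 38728, nat_lit 56224, nat_lit 51364, nat_lit 52012, nat_lit 51796, nat_lit 51868, nat_lit 51844, nat_lit 51852] (nat_lit 0) [nat_lit 32168] false,
   Spec.mk (nat_lit 51852) (nat_lit 0) [nat_lit 38730, nat_lit 56226, nat_lit 51366, nat_lit 52014, nat_lit 51798, nat_lit 51870, nat_lit 51846, nat_lit 51858, nat_lit 51850] (nat_lit 1) [nat_lit 32170] false,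
   Spec.mk (nat_lit 51858) (nat_lit 0) [nat_lit 38736, nat_lit 56232, nat_lit 51372, nat_lit 52020, nat_lit 51804, nat_lit 51876, nat_lit 51852] (nat_lit 2) [nat_lit 32176] false,
   Spec.mk (nat_lit 51868) (nat_lit 1) [nat_lit 38746, nat_lit 56242, nat_lit 51382, nat_lit 52030, nat_lit 51814, nat_lit 51922, nat_lit 51850, nat_lit 51870] (nat_lit 0) [nat_lit 32186] false,
   Spec.mk (nat_lit 51870) (nat_lit 0) [nat_lit 38748, nat_lit 56244, nat_lit 51384, nat_lit 52032, nat_lit 51816, nat_lit 51924, nat_lit 51852, nat_lit 51876, nat_lit 51868] (nat_lit 1) [nat_lit 32188] false,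
   Spec.mk (nat_lit 51876) (nat_lit 0) [nat_lit 38754, nat_lit 56250, nat_lit 51390, nat_lit 52038, nat_lit 51822, nat_lit 51930, nat_lit 51858, nat_lit 51894, nat_lit 51870] (nat_lit 0) [nat_lit 32194] false,
   Spec.mk (nat_lit 51894) (nat_lit 0) [nat_lit 38772, nat_lit 56268, nat_lit 51408, nat_lit 52056, nat_lit 51948, nat_lit 51876] (nat_lit 0) [nat_lit 32212] false,
   Spec.mk (nat_lit 51922) (nat_lit 0) [nat_lit 38800, nat_lit 56296, nat_lit 51436, nat_lit 52084, nat_lit 51868, nat_lit 51924] (nat_lit 0) [nat_lit 32240] false,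
   Spec.mk (nat_lit 51924) (nat_lit 0) [nat_lit 38802, nat_lit 56298, nat_lit 51438, nat_lit 52086, nat_lit 51870, nat_lit 51930, nat_lit 51922] (nat_lit 2) [nat_lit 32242] false,
   Spec.mk (nat_lit 51930) (nat_lit 0) [nat_lit 38808, nat_lit 56304, nat_lit 51444, nat_lit 52092, nat_lit 51876, nat_lit 51948, nat_lit 51924] (nat_lit 2) [nat_lit 32248] false,
   Spec.mk (nat_lit 51948) (nat_lit 0) [nat_lit 38826, nat_lit 56322, nat_lit 51462, nat_lit 52110, nat_lit 51894, nat_lit 51930] (nat_lit 0) [nat_lit 32266] false,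
   Spec.mk (nat_lit 52004) (nat_lit 4) [nat_lit 38882, nat_lit 56378, nat_lit 51518, nat_lit 51842, nat_lit 52006] (nat_lit 0) [] false,
   Spec.mk (nat_lit 52006) (nat_lit 3) [nat_lit 38884, nat_lit 56380, nat_lit 51520, nat_lit 51844, nat_lit 52012, nat_lit 52004, nat_lit 52008] (nat_lit 0) [nat_lit 32324] false,
   Spec.mk (nat_lit 52008) (nat_lit 0) [nat_lit 38886, nat_lit 56382, nat_lit 51522, nat_lit 51846, nat_lit 52014, nat_lit 52006] (nat_lit 0) [nat_lit 32326] false,
   Spec.mk (nat_lit 52012) (nat_lit 2) [nat_lit 38890, nat_lit 56386, nat_lit 51526, nat_lit 51850, nat_lit 52030, nat_lit 52006, nat_lit 52014] (nat_lit 0) [nat_lit 32330] false,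
   Spec.mk (nat_lit 52014) (nat_lit 1) [nat_lit 38892, nat_lit 56388, nat_lit 51528, nat_lit 51852, nat_lit 52032, nat_lit 52008, nat_lit 52020, nat_lit 52012] (nat_lit 0) [nat_lit 32332] false,
   Spec.mk (nat_lit 52020) (nat_lit 0) [nat_lit 38898, nat_lit 56394, nat_lit 51534, nat_lit 51858, nat_lit 52038, nat_lit 52014] (nat_lit 0) [nat_lit 32338] false,
   Spec.mk (nat_lit 52030) (nat_lit 2) [nat_lit 38908, nat_lit 56404, nat_lit 51544, nat_lit 51868, nat_lit 52084, nat_lit 52012, nat_lit 52032] (nat_lit 0) [nat_lit 32348] false,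
   Spec.mk (nat_lit 52032) (nat_lit 0) [nat_lit 38910, nat_lit 56406, nat_lit 51546, nat_lit 51870, nat_lit 52086, nat_lit 52014, nat_lit 52038, nat_lit 52030] (nat_lit 0) [nat_lit 32350] false,
   Spec.mk (nat_lit 52038) (nat_lit 1) [nat_lit 38916, nat_lit 56412, nat_lit 51552, nat_lit 51876, nat_lit 52092, nat_lit 52020, nat_lit 52056, nat_lit 52032] (nat_lit 0) [nat_lit 32356] false,
   Spec.mk (nat_lit 52056) (nat_lit 0) [nat_lit 38934, nat_lit 56430, nat_lit 51570, nat_lit 51894, nat_lit 52110, nat_lit 52038] (nat_lit 0) [nat_lit 32374] false,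
   Spec.mk (nat_lit 52084) (nat_lit 3) [nat_lit 38962, nat_lit 56458, nat_lit 51598, nat_lit 51922, nat_lit 52246, nat_lit 52030, nat_lit 52086] (nat_lit 0) [nat_lit 32402] false]

noncomputable def sp136 : List Spec :=
  [Spec.mk (nat_lit 52086) (nat_lit 1) [nat_lit 38964, nat_lit 56460, nat_lit 51600, nat_lit 51924, nat_lit 52248, nat_lit 52032, nat_lit 52092, nat_lit 52084] (nat_lit 0) [nat_lit 32404] false,
   Spec.mk (nat_lit 52092) (nat_lit 1) [nat_lit 38970, nat_lit 56466, nat_lit 51606, nat_lit 51930, nat_lit 52254, nat_lit 52038, nat_lit 52110, nat_lit 52086] (nat_lit 0) [nat_lit 32410] false,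
   Spec.mk (nat_lit 52110) (nat_lit 2) [nat_lit 38988, nat_lit 56484, nat_lit 51624, nat_lit 51948, nat_lit 52272, nat_lit 52056, nat_lit 52164, nat_lit 52092] (nat_lit 0) [nat_lit 32428] false,
   Spec.mk (nat_lit 52164) (nat_lit 2) [nat_lit 39042, nat_lit 56538, nat_lit 51678, nat_lit 52326, nat_lit 52110] (nat_lit 0) [nat_lit 32482] false,
   Spec.mk (nat_lit 52246) (nat_lit 4) [nat_lit 39124, nat_lit 56620, nat_lit 52084, nat_lit 52248] (nat_lit 0) [nat_lit 32564] false,
   Spec.mk (nat_lit 52248) (nat_lit 2) [nat_lit 39126, nat_lit 56622, nat_lit 52086, nat_lit 52254, nat_lit 52246] (nat_lit 0) [nat_lit 32566] false,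
   Spec.mk (nat_lit 52254) (nat_lit 2) [nat_lit 39132, nat_lit 56628, nat_lit 52092, nat_lit 52272, nat_lit 52248] (nat_lit 0) [nat_lit 32572] false,
   Spec.mk (nat_lit 52272) (nat_lit 2) [nat_lit 39150, nat_lit 56646, nat_lit 52110, nat_lit 52326, nat_lit 52254] (nat_lit 0) [nat_lit 32590] false,
   Spec.mk (nat_lit 52326) (nat_lit 4) [nat_lit 39204, nat_lit 56700, nat_lit 52164, nat_lit 52272] (nat_lit 0) [nat_lit 32644] false,
   Spec.mk (nat_lit 52514) (nat_lit 6) [nat_lit 48140, nat_lit 52532] (nat_lit 0) [] false,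
   Spec.mk (nat_lit 52532) (nat_lit 5) [nat_lit 48158, nat_lit 52586, nat_lit 52514, nat_lit 52550, nat_lit 52538] (nat_lit 0) [] false,
   Spec.mk (nat_lit 52538) (nat_lit 4) [nat_lit 48164, nat_lit 52592, nat_lit 52556, nat_lit 52532, nat_lit 52540] (nat_lit 0) [] false,
   Spec.mk (nat_lit 52540) (nat_lit 4) [nat_lit 48166, nat_lit 52594, nat_lit 52558, nat_lit 52538] (nat_lit 0) [nat_lit 32858] false,
   Spec.mk (nat_lit 52550) (nat_lit 2) [nat_lit 48176, nat_lit 52604, nat_lit 52532, nat_lit 52556] (nat_lit 0) [] false,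
   Spec.mk (nat_lit 52556) (nat_lit 3) [nat_lit 48182, nat_lit 52610, nat_lit 52538, nat_lit 52550, nat_lit 52562, nat_lit 52558] (nat_lit 0) [] false,
   Spec.mk (nat_lit 52558) (nat_lit 2) [nat_lit 48184, nat_lit 52612, nat_lit 52540, nat_lit 52564, nat_lit 52556] (nat_lit 0) [nat_lit 32876] false,
   Spec.mk (nat_lit 52562) (nat_lit 2) [nat_lit 48188, nat_lit 52616, nat_lit 52556, nat_lit 52564] (nat_lit 0) [] false,
   Spec.mk (nat_lit 52564) (nat_lit 3) [nat_lit 48190, nat_lit 52618, nat_lit 52558, nat_lit 52562, nat_lit 52566] (nat_lit 0) [nat_lit 32882] false,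
   Spec.mk (nat_lit 52566) (nat_lit 2) [nat_lit 48192, nat_lit 52620, nat_lit 52564] (nat_lit 0) [nat_lit 32884] false,
   Spec.mk (nat_lit 52586) (nat_lit 4) [nat_lit 48212, nat_lit 52748, nat_lit 52532, nat_lit 52604, nat_lit 52592] (nat_lit 0) [] false,
   Spec.mk (nat_lit 52592) (nat_lit 2) [nat_lit 48218, nat_lit 52754, nat_lit 52538, nat_lit 52610, nat_lit 52586, nat_lit 52594] (nat_lit 0) [] false,
   Spec.mk (nat_lit 52594) (nat_lit 2) [nat_lit 48220, nat_lit 52756, nat_lit 52540, nat_lit 52612, nat_lit 52592] (nat_lit 0) [nat_lit 32912] false,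
   Spec.mk (nat_lit 52604) (nat_lit 3) [nat_lit 48230, nat_lit 52766, nat_lit 52550, nat_lit 52658, nat_lit 52586, nat_lit 52610] (nat_lit 0) [] false,
   Spec.mk (nat_lit 52610) (nat_lit 3) [nat_lit 48236, nat_lit 52772, nat_lit 52556, nat_lit 52664, nat_lit 52592, nat_lit 52628, nat_lit 52604, nat_lit 52616, nat_lit 52612] (nat_lit 0) [] false,
   Spec.mk (nat_lit 52612) (nat_lit 2) [nat_lit 48238, nat_lit 52774, nat_lit 52558, nat_lit 52666, nat_lit 52594, nat_lit 52630, nat_lit 52618, nat_lit 52610] (nat_lit 0) [nat_lit 32930] false,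
   Spec.mk (nat_lit 52616) (nat_lit 1) [nat_lit 48242, nat_lit 52778, nat_lit 52562, nat_lit 52670, nat_lit 52634, nat_lit 52610, nat_lit 52618] (nat_lit 0) [] false,
   Spec.mk (nat_lit 52618) (nat_lit 2) [nat_lit 48244, nat_lit 52780, nat_lit 52564, nat_lit 52672, nat_lit 52636, nat_lit 52612, nat_lit 52616, nat_lit 52620] (nat_lit 0) [nat_lit 32936] false,
   Spec.mk (nat_lit 52620) (nat_lit 1) [nat_lit 48246, nat_lit 52782, nat_lit 52566, nat_lit 52674, nat_lit 52638, nat_lit 52618] (nat_lit 0) [nat_lit 32938] false,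
   Spec.mk (nat_lit 52628) (nat_lit 2) [nat_lit 48254, nat_lit 52790, nat_lit 52682, nat_lit 52610, nat_lit 52634, nat_lit 52630] (nat_lit 0) [] false,
   Spec.mk (nat_lit 52630) (nat_lit 0) [nat_lit 48256, nat_lit 52792, nat_lit 52684, nat_lit 52612, nat_lit 52636, nat_lit 52628] (nat_lit 0) [nat_lit 32948] false,
   Spec.mk (nat_lit 52634) (nat_lit 2) [nat_lit 48260, nat_lit 52796, nat_lit 52688, nat_lit 52616, nat_lit 52628, nat_lit 52636] (nat_lit 0) [] false,
   Spec.mk (nat_lit 52636) (nat_lit 2) [nat_lit 48262, nat_lit 52798, nat_lit 52690, nat_lit 52618, nat_lit 52630, nat_lit 52642, nat_lit 52634, nat_lit 52638] (nat_lit 0) [nat_lit 32954] false,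
   Spec.mk (nat_lit 52638) (nat_lit 0) [nat_lit 48264, nat_lit 52800, nat_lit 52692, nat_lit 52620, nat_lit 52644, nat_lit 52636] (nat_lit 0) [nat_lit 32956] false,
   Spec.mk (nat_lit 52642) (nat_lit 2) [nat_lit 48268, nat_lit 52804, nat_lit 52696, nat_lit 52636, nat_lit 52644] (nat_lit 0) [nat_lit 32960] false,
   Spec.mk (nat_lit 52644) (nat_lit 2) [nat_lit 48270, nat_lit 52806, nat_lit 52698, nat_lit 52638, nat_lit 52642] (nat_lit 0) [nat_lit 32962] false,
   Spec.mk (nat_lit 52658) (nat_lit 2) [nat_lit 48284, nat_lit 52820, nat_lit 52604, nat_lit 52664] (nat_lit 0) [] false,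
   Spec.mk (nat_lit 52664) (nat_lit 1) [nat_lit 48290, nat_lit 52826, nat_lit 52610, nat_lit 52682, nat_lit 52658, nat_lit 52670, nat_lit 52666] (nat_lit 0) [] false,
   Spec.mk (nat_lit 52666) (nat_lit 0) [nat_lit 48292, nat_lit 52828, nat_lit 52612, nat_lit 52684, nat_lit 52672, nat_lit 52664] (nat_lit 0) [nat_lit 32984] false,
   Spec.mk (nat_lit 52670) (nat_lit 0) [nat_lit 48296, nat_lit 52832, nat_lit 52616, nat_lit 52688, nat_lit 52664, nat_lit 52672] (nat_lit 2) [] false,
   Spec.mk (nat_lit 52672) (nat_lit 0) [nat_lit 48298, nat_lit 52834, nat_lit 52618, nat_lit 52690, nat_lit 52666, nat_lit 52670, nat_lit 52674] (nat_lit 1) [nat_lit 32990] false,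
   Spec.mk (nat_lit 52674) (nat_lit 0) [nat_lit 48300, nat_lit 52836, nat_lit 52620, nat_lit 52692, nat_lit 52672] (nat_lit 2) [nat_lit 32992] false,
   Spec.mk (nat_lit 52682) (nat_lit 2) [nat_lit 48308, nat_lit 52844, nat_lit 52628, nat_lit 52664, nat_lit 52688, nat_lit 52684] (nat_lit 0) [] false,
   Spec.mk (nat_lit 52684) (nat_lit 0) [nat_lit 48310, nat_lit 52846, nat_lit 52630, nat_lit 52666, nat_lit 52690, nat_lit 52682] (nat_lit 0) [nat_lit 33002] false,
   Spec.mk (nat_lit 52688) (nat_lit 1) [nat_lit 48314, nat_lit 52850, nat_lit 52634, nat_lit 52670, nat_lit 52706, nat_lit 52682, nat_lit 52690] (nat_lit 0) [] false,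
   Spec.mk (nat_lit 52690) (nat_lit 1) [nat_lit 48316, nat_lit 52852, nat_lit 52636, nat_lit 52672, nat_lit 52708, nat_lit 52684, nat_lit 52696, nat_lit 52688, nat_lit 52692] (nat_lit 0) [nat_lit 33008] false,
   Spec.mk (nat_lit 52692) (nat_lit 0) [nat_lit 48318, nat_lit 52854, nat_lit 52638, nat_lit 52674, nat_lit 52710, nat_lit 52698, nat_lit 52690] (nat_lit 1) [nat_lit 33010] false,
   Spec.mk (nat_lit 52696) (nat_lit 0) [nat_lit 48322, nat_lit 52858, nat_lit 52642, nat_lit 52714, nat_lit 52690, nat_lit 52698] (nat_lit 0) [nat_lit 33014] false,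
   Spec.mk (nat_lit 52698) (nat_lit 0) [nat_lit 48324, nat_lit 52860, nat_lit 52644, nat_lit 52716, nat_lit 52692, nat_lit 52696] (nat_lit 0) [nat_lit 33016] false,
   Spec.mk (nat_lit 52706) (nat_lit 2) [nat_lit 48332, nat_lit 52868, nat_lit 52688, nat_lit 52708] (nat_lit 0) [] false,
   Spec.mk (nat_lit 52708) (nat_lit 1) [nat_lit 48334, nat_lit 52870, nat_lit 52690, nat_lit 52714, nat_lit 52706, nat_lit 52710] (nat_lit 0) [nat_lit 33026] false,
   Spec.mk (nat_lit 52710) (nat_lit 0) [nat_lit 48336, nat_lit 52872, nat_lit 52692, nat_lit 52716, nat_lit 52708] (nat_lit 2) [nat_lit 33028] false,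
   Spec.mk (nat_lit 52714) (nat_lit 2) [nat_lit 48340, nat_lit 52876, nat_lit 52696, nat_lit 52708, nat_lit 52716] (nat_lit 0) [nat_lit 33032] false,
   Spec.mk (nat_lit 52716) (nat_lit 1) [nat_lit 48342, nat_lit 52878, nat_lit 52698, nat_lit 52710, nat_lit 52722, nat_lit 52714] (nat_lit 0) [nat_lit 33034] false,
   Spec.mk (nat_lit 52722) (nat_lit 2) [nat_lit 48348, nat_lit 52884, nat_lit 52716] (nat_lit 0) [nat_lit 33040] false,
   Spec.mk (nat_lit 52748) (nat_lit 4) [nat_lit 48374, nat_lit 53234, nat_lit 52586, nat_lit 52766, nat_lit 52754] (nat_lit 0) [] false,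
   Spec.mk (nat_lit 52754) (nat_lit 2) [nat_lit 48380, nat_lit 53240, nat_lit 52592, nat_lit 52772, nat_lit 52748, nat_lit 52756] (nat_lit 0) [] false,
   Spec.mk (nat_lit 52756) (nat_lit 2) [nat_lit 48382, nat_lit 53242, nat_lit 52594, nat_lit 52774, nat_lit 52754] (nat_lit 0) [nat_lit 33074] false,
   Spec.mk (nat_lit 52766) (nat_lit 2) [nat_lit 48392, nat_lit 53252, nat_lit 52604, nat_lit 52820, nat_lit 52748, nat_lit 52772] (nat_lit 0) [] false,
   Spec.mk (nat_lit 52772) (nat_lit 2) [nat_lit 48398, nat_lit 53258, nat_lit 52610, nat_lit 52826, nat_lit 52754, nat_lit 52790, nat_lit 52766, nat_lit 52778, nat_lit 52774] (nat_lit 0) [] false,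
   Spec.mk (nat_lit 52774) (nat_lit 1) [nat_lit 48400, nat_lit 53260, nat_lit 52612, nat_lit 52828, nat_lit 52756, nat_lit 52792, nat_lit 52780, nat_lit 52772] (nat_lit 0) [nat_lit 33092] false]

noncomputable def sp137 : List Spec :=
  [Spec.mk (nat_lit 52778) (nat_lit 0) [nat_lit 48404, nat_lit 53264, nat_lit 52616, nat_lit 52832, nat_lit 52796, nat_lit 52772, nat_lit 52780] (nat_lit 0) [] false,
   Spec.mk (nat_lit 52780) (nat_lit 1) [nat_lit 48406, nat_lit 53266, nat_lit 52618, nat_lit 52834, nat_lit 52798, nat_lit 52774, nat_lit 52778, nat_lit 52782] (nat_lit 0) [nat_lit 33098] false,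
   Spec.mk (nat_lit 52782) (nat_lit 0) [nat_lit 48408, nat_lit 53268, nat_lit 52620, nat_lit 52836, nat_lit 52800, nat_lit 52780] (nat_lit 0) [nat_lit 33100] false,
   Spec.mk (nat_lit 52790) (nat_lit 0) [nat_lit 48416, nat_lit 53276, nat_lit 52628, nat_lit 52844, nat_lit 52772, nat_lit 52796, nat_lit 52792] (nat_lit 0) [] false,
   Spec.mk (nat_lit 52792) (nat_lit 0) [nat_lit 48418, nat_lit 53278, nat_lit 52630, nat_lit 52846, nat_lit 52774, nat_lit 52798, nat_lit 52790] (nat_lit 2) [nat_lit 33110] false,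
   Spec.mk (nat_lit 52796) (nat_lit 0) [nat_lit 48422, nat_lit 53282, nat_lit 52634, nat_lit 52850, nat_lit 52778, nat_lit 52790, nat_lit 52798] (nat_lit 0) [] false,
   Spec.mk (nat_lit 52798) (nat_lit 0) [nat_lit 48424, nat_lit 53284, nat_lit 52636, nat_lit 52852, nat_lit 52780, nat_lit 52792, nat_lit 52804, nat_lit 52796, nat_lit 52800] (nat_lit 0) [nat_lit 33116] false,
   Spec.mk (nat_lit 52800) (nat_lit 0) [nat_lit 48426, nat_lit 53286, nat_lit 52638, nat_lit 52854, nat_lit 52782, nat_lit 52806, nat_lit 52798] (nat_lit 2) [nat_lit 33118] false,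
   Spec.mk (nat_lit 52804) (nat_lit 0) [nat_lit 48430, nat_lit 53290, nat_lit 52642, nat_lit 52858, nat_lit 52798, nat_lit 52806] (nat_lit 0) [nat_lit 33122] false,
   Spec.mk (nat_lit 52806) (nat_lit 0) [nat_lit 48432, nat_lit 53292, nat_lit 52644, nat_lit 52860, nat_lit 52800, nat_lit 52804] (nat_lit 0) [nat_lit 33124] false,
   Spec.mk (nat_lit 52820) (nat_lit 3) [nat_lit 48446, nat_lit 53306, nat_lit 52658, nat_lit 52982, nat_lit 52766, nat_lit 52826] (nat_lit 0) [] false,
   Spec.mk (nat_lit 52826) (nat_lit 2) [nat_lit 48452, nat_lit 53312, nat_lit 52664, nat_lit 52988, nat_lit 52772, nat_lit 52844, nat_lit 52820, nat_lit 52832, nat_lit 52828] (nat_lit 0) [] false,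
   Spec.mk (nat_lit 52828) (nat_lit 1) [nat_lit 48454, nat_lit 53314, nat_lit 52666, nat_lit 52990, nat_lit 52774, nat_lit 52846, nat_lit 52834, nat_lit 52826] (nat_lit 0) [nat_lit 33146] false,
   Spec.mk (nat_lit 52832) (nat_lit 0) [nat_lit 48458, nat_lit 53318, nat_lit 52670, nat_lit 52994, nat_lit 52778, nat_lit 52850, nat_lit 52826, nat_lit 52834] (nat_lit 1) [] false,
   Spec.mk (nat_lit 52834) (nat_lit 0) [nat_lit 48460, nat_lit 53320, nat_lit 52672, nat_lit 52996, nat_lit 52780, nat_lit 52852, nat_lit 52828, nat_lit 52832, nat_lit 52836] (nat_lit 0) [nat_lit 33152] false,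
   Spec.mk (nat_lit 52836) (nat_lit 0) [nat_lit 48462, nat_lit 53322, nat_lit 52674, nat_lit 52998, nat_lit 52782, nat_lit 52854, nat_lit 52834] (nat_lit 1) [nat_lit 33154] false,
   Spec.mk (nat_lit 52844) (nat_lit 2) [nat_lit 48470, nat_lit 53330, nat_lit 52682, nat_lit 53006, nat_lit 52790, nat_lit 52898, nat_lit 52826, nat_lit 52850, nat_lit 52846] (nat_lit 0) [] false,
   Spec.mk (nat_lit 52846) (nat_lit 0) [nat_lit 48472, nat_lit 53332, nat_lit 52684, nat_lit 53008, nat_lit 52792, nat_lit 52900, nat_lit 52828, nat_lit 52852, nat_lit 52844] (nat_lit 0) [nat_lit 33164] false,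
   Spec.mk (nat_lit 52850) (nat_lit 1) [nat_lit 48476, nat_lit 53336, nat_lit 52688, nat_lit 53012, nat_lit 52796, nat_lit 52904, nat_lit 52832, nat_lit 52868, nat_lit 52844, nat_lit 52852] (nat_lit 0) [] false,
   Spec.mk (nat_lit 52852) (nat_lit 1) [nat_lit 48478, nat_lit 53338, nat_lit 52690, nat_lit 53014, nat_lit 52798, nat_lit 52906, nat_lit 52834, nat_lit 52870, nat_lit 52846, nat_lit 52858, nat_lit 52850, nat_lit 52854] (nat_lit 0) [nat_lit 33170] false,
   Spec.mk (nat_lit 52854) (nat_lit 0) [nat_lit 48480, nat_lit 53340, nat_lit 52692, nat_lit 53016, nat_lit 52800, nat_lit 52908, nat_lit 52836, nat_lit 52872, nat_lit 52860, nat_lit 52852] (nat_lit 1) [nat_lit 33172] false,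
   Spec.mk (nat_lit 52858) (nat_lit 0) [nat_lit 48484, nat_lit 53344, nat_lit 52696, nat_lit 53020, nat_lit 52804, nat_lit 52912, nat_lit 52876, nat_lit 52852, nat_lit 52860] (nat_lit 0) [nat_lit 33176] false,
   Spec.mk (nat_lit 52860) (nat_lit 0) [nat_lit 48486, nat_lit 53346, nat_lit 52698, nat_lit 53022, nat_lit 52806, nat_lit 52914, nat_lit 52878, nat_lit 52854, nat_lit 52858] (nat_lit 0) [nat_lit 33178] false,
   Spec.mk (nat_lit 52868) (nat_lit 1) [nat_lit 48494, nat_lit 53354, nat_lit 52706, nat_lit 53030, nat_lit 52922, nat_lit 52850, nat_lit 52870] (nat_lit 0) [] false,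
   Spec.mk (nat_lit 52870) (nat_lit 0) [nat_lit 48496, nat_lit 53356, nat_lit 52708, nat_lit 53032, nat_lit 52924, nat_lit 52852, nat_lit 52876, nat_lit 52868, nat_lit 52872] (nat_lit 0) [nat_lit 33188] false,
   Spec.mk (nat_lit 52872) (nat_lit 0) [nat_lit 48498, nat_lit 53358, nat_lit 52710, nat_lit 53034, nat_lit 52926, nat_lit 52854, nat_lit 52878, nat_lit 52870] (nat_lit 3) [nat_lit 33190] false,
   Spec.mk (nat_lit 52876) (nat_lit 1) [nat_lit 48502, nat_lit 53362, nat_lit 52714, nat_lit 53038, nat_lit 52930, nat_lit 52858, nat_lit 52870, nat_lit 52878] (nat_lit 0) [nat_lit 33194] false,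
   Spec.mk (nat_lit 52878) (nat_lit 0) [nat_lit 48504, nat_lit 53364, nat_lit 52716, nat_lit 53040, nat_lit 52932, nat_lit 52860, nat_lit 52872, nat_lit 52884, nat_lit 52876] (nat_lit 0) [nat_lit 33196] false,
   Spec.mk (nat_lit 52884) (nat_lit 1) [nat_lit 48510, nat_lit 53370, nat_lit 52722, nat_lit 53046, nat_lit 52938, nat_lit 52878] (nat_lit 0) [nat_lit 33202] false,
   Spec.mk (nat_lit 52898) (nat_lit 2) [nat_lit 48524, nat_lit 53384, nat_lit 53060, nat_lit 52844, nat_lit 52904, nat_lit 52900] (nat_lit 0) [] false,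
   Spec.mk (nat_lit 52900) (nat_lit 0) [nat_lit 48526, nat_lit 53386, nat_lit 53062, nat_lit 52846, nat_lit 52906, nat_lit 52898] (nat_lit 0) [nat_lit 33218] false,
   Spec.mk (nat_lit 52904) (nat_lit 0) [nat_lit 48530, nat_lit 53390, nat_lit 53066, nat_lit 52850, nat_lit 52922, nat_lit 52898, nat_lit 52906] (nat_lit 0) [] false,
   Spec.mk (nat_lit 52906) (nat_lit 0) [nat_lit 48532, nat_lit 53392, nat_lit 53068, nat_lit 52852, nat_lit 52924, nat_lit 52900, nat_lit 52912, nat_lit 52904, nat_lit 52908] (nat_lit 0) [nat_lit 33224] false,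
   Spec.mk (nat_lit 52908) (nat_lit 0) [nat_lit 48534, nat_lit 53394, nat_lit 53070, nat_lit 52854, nat_lit 52926, nat_lit 52914, nat_lit 52906] (nat_lit 2) [nat_lit 33226] false,
   Spec.mk (nat_lit 52912) (nat_lit 0) [nat_lit 48538, nat_lit 53398, nat_lit 53074, nat_lit 52858, nat_lit 52930, nat_lit 52906, nat_lit 52914] (nat_lit 2) [nat_lit 33230] false,
   Spec.mk (nat_lit 52914) (nat_lit 0) [nat_lit 48540, nat_lit 53400, nat_lit 53076, nat_lit 52860, nat_lit 52932, nat_lit 52908, nat_lit 52912] (nat_lit 2) [nat_lit 33232] false,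
   Spec.mk (nat_lit 52922) (nat_lit 2) [nat_lit 48548, nat_lit 53408, nat_lit 53084, nat_lit 52868, nat_lit 52904, nat_lit 52924] (nat_lit 0) [] false,
   Spec.mk (nat_lit 52924) (nat_lit 1) [nat_lit 48550, nat_lit 53410, nat_lit 53086, nat_lit 52870, nat_lit 52906, nat_lit 52930, nat_lit 52922, nat_lit 52926] (nat_lit 0) [nat_lit 33242] false,
   Spec.mk (nat_lit 52926) (nat_lit 0) [nat_lit 48552, nat_lit 53412, nat_lit 53088, nat_lit 52872, nat_lit 52908, nat_lit 52932, nat_lit 52924] (nat_lit 2) [nat_lit 33244] false,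
   Spec.mk (nat_lit 52930) (nat_lit 1) [nat_lit 48556, nat_lit 53416, nat_lit 53092, nat_lit 52876, nat_lit 52912, nat_lit 52948, nat_lit 52924, nat_lit 52932] (nat_lit 0) [nat_lit 33248] false,
   Spec.mk (nat_lit 52932) (nat_lit 0) [nat_lit 48558, nat_lit 53418, nat_lit 53094, nat_lit 52878, nat_lit 52914, nat_lit 52950, nat_lit 52926, nat_lit 52938, nat_lit 52930] (nat_lit 0) [nat_lit 33250] false,
   Spec.mk (nat_lit 52938) (nat_lit 0) [nat_lit 48564, nat_lit 53424, nat_lit 53100, nat_lit 52884, nat_lit 52956, nat_lit 52932] (nat_lit 0) [nat_lit 33256] false,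
   Spec.mk (nat_lit 52948) (nat_lit 2) [nat_lit 48574, nat_lit 53434, nat_lit 53110, nat_lit 52930, nat_lit 52950] (nat_lit 0) [nat_lit 33266] false,
   Spec.mk (nat_lit 52950) (nat_lit 0) [nat_lit 48576, nat_lit 53436, nat_lit 53112, nat_lit 52932, nat_lit 52956, nat_lit 52948] (nat_lit 0) [nat_lit 33268] false,
   Spec.mk (nat_lit 52956) (nat_lit 2) [nat_lit 48582, nat_lit 53442, nat_lit 53118, nat_lit 52938, nat_lit 52950] (nat_lit 0) [nat_lit 33274] false,
   Spec.mk (nat_lit 52982) (nat_lit 2) [nat_lit 48608, nat_lit 53468, nat_lit 52820, nat_lit 52988] (nat_lit 0) [] false,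
   Spec.mk (nat_lit 52988) (nat_lit 1) [nat_lit 48614, nat_lit 53474, nat_lit 52826, nat_lit 53006, nat_lit 52982, nat_lit 52994, nat_lit 52990] (nat_lit 0) [] false,
   Spec.mk (nat_lit 52990) (nat_lit 0) [nat_lit 48616, nat_lit 53476, nat_lit 52828, nat_lit 53008, nat_lit 52996, nat_lit 52988] (nat_lit 0) [nat_lit 33308] false,
   Spec.mk (nat_lit 52994) (nat_lit 0) [nat_lit 48620, nat_lit 53480, nat_lit 52832, nat_lit 53012, nat_lit 52988, nat_lit 52996] (nat_lit 2) [] false,
   Spec.mk (nat_lit 52996) (nat_lit 0) [nat_lit 48622, nat_lit 53482, nat_lit 52834, nat_lit 53014, nat_lit 52990, nat_lit 52994, nat_lit 52998] (nat_lit 1) [nat_lit 33314] false,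
   Spec.mk (nat_lit 52998) (nat_lit 0) [nat_lit 48624, nat_lit 53484, nat_lit 52836, nat_lit 53016, nat_lit 52996] (nat_lit 2) [nat_lit 33316] false,
   Spec.mk (nat_lit 53006) (nat_lit 0) [nat_lit 48632, nat_lit 53492, nat_lit 52844, nat_lit 53060, nat_lit 52988, nat_lit 53012, nat_lit 53008] (nat_lit 0) [] false,
   Spec.mk (nat_lit 53008) (nat_lit 0) [nat_lit 48634, nat_lit 53494, nat_lit 52846, nat_lit 53062, nat_lit 52990, nat_lit 53014, nat_lit 53006] (nat_lit 2) [nat_lit 33326] false,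
   Spec.mk (nat_lit 53012) (nat_lit 0) [nat_lit 48638, nat_lit 53498, nat_lit 52850, nat_lit 53066, nat_lit 52994, nat_lit 53030, nat_lit 53006, nat_lit 53014] (nat_lit 1) [] false,
   Spec.mk (nat_lit 53014) (nat_lit 0) [nat_lit 48640, nat_lit 53500, nat_lit 52852, nat_lit 53068, nat_lit 52996, nat_lit 53032, nat_lit 53008, nat_lit 53020, nat_lit 53012, nat_lit 53016] (nat_lit 1) [nat_lit 33332] false,
   Spec.mk (nat_lit 53016) (nat_lit 0) [nat_lit 48642, nat_lit 53502, nat_lit 52854, nat_lit 53070, nat_lit 52998, nat_lit 53034, nat_lit 53022, nat_lit 53014] (nat_lit 3) [nat_lit 33334] false,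
   Spec.mk (nat_lit 53020) (nat_lit 0) [nat_lit 48646, nat_lit 53506, nat_lit 52858, nat_lit 53074, nat_lit 53038, nat_lit 53014, nat_lit 53022] (nat_lit 2) [nat_lit 33338] false,
   Spec.mk (nat_lit 53022) (nat_lit 0) [nat_lit 48648, nat_lit 53508, nat_lit 52860, nat_lit 53076, nat_lit 53040, nat_lit 53016, nat_lit 53020] (nat_lit 2) [nat_lit 33340] false,
   Spec.mk (nat_lit 53030) (nat_lit 0) [nat_lit 48656, nat_lit 53516, nat_lit 52868, nat_lit 53084, nat_lit 53012, nat_lit 53032] (nat_lit 2) [] false,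
   Spec.mk (nat_lit 53032) (nat_lit 0) [nat_lit 48658, nat_lit 53518, nat_lit 52870, nat_lit 53086, nat_lit 53014, nat_lit 53038, nat_lit 53030, nat_lit 53034] (nat_lit 3) [nat_lit 33350] false]

noncomputable def sp138 : List Spec :=
  [Spec.mk (nat_lit 53034) (nat_lit 0) [nat_lit 48660, nat_lit 53520, nat_lit 52872, nat_lit 53088, nat_lit 53016, nat_lit 53040, nat_lit 53032] (nat_lit 6) [nat_lit 33352] false,
   Spec.mk (nat_lit 53038) (nat_lit 0) [nat_lit 48664, nat_lit 53524, nat_lit 52876, nat_lit 53092, nat_lit 53020, nat_lit 53032, nat_lit 53040] (nat_lit 2) [nat_lit 33356] false,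
   Spec.mk (nat_lit 53040) (nat_lit 0) [nat_lit 48666, nat_lit 53526, nat_lit 52878, nat_lit 53094, nat_lit 53022, nat_lit 53034, nat_lit 53046, nat_lit 53038] (nat_lit 3) [nat_lit 33358] false,
   Spec.mk (nat_lit 53046) (nat_lit 0) [nat_lit 48672, nat_lit 53532, nat_lit 52884, nat_lit 53100, nat_lit 53040] (nat_lit 2) [nat_lit 33364] false,
   Spec.mk (nat_lit 53060) (nat_lit 2) [nat_lit 48686, nat_lit 53546, nat_lit 52898, nat_lit 53006, nat_lit 53066, nat_lit 53062] (nat_lit 0) [] false,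
   Spec.mk (nat_lit 53062) (nat_lit 0) [nat_lit 48688, nat_lit 53548, nat_lit 52900, nat_lit 53008, nat_lit 53068, nat_lit 53060] (nat_lit 0) [nat_lit 33380] false,
   Spec.mk (nat_lit 53066) (nat_lit 0) [nat_lit 48692, nat_lit 53552, nat_lit 52904, nat_lit 53012, nat_lit 53084, nat_lit 53060, nat_lit 53068] (nat_lit 0) [] false,
   Spec.mk (nat_lit 53068) (nat_lit 0) [nat_lit 48694, nat_lit 53554, nat_lit 52906, nat_lit 53014, nat_lit 53086, nat_lit 53062, nat_lit 53074, nat_lit 53066, nat_lit 53070] (nat_lit 0) [nat_lit 33386] false,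
   Spec.mk (nat_lit 53070) (nat_lit 0) [nat_lit 48696, nat_lit 53556, nat_lit 52908, nat_lit 53016, nat_lit 53088, nat_lit 53076, nat_lit 53068] (nat_lit 2) [nat_lit 33388] false,
   Spec.mk (nat_lit 53074) (nat_lit 0) [nat_lit 48700, nat_lit 53560, nat_lit 52912, nat_lit 53020, nat_lit 53092, nat_lit 53068, nat_lit 53076] (nat_lit 2) [nat_lit 33392] false,
   Spec.mk (nat_lit 53076) (nat_lit 0) [nat_lit 48702, nat_lit 53562, nat_lit 52914, nat_lit 53022, nat_lit 53094, nat_lit 53070, nat_lit 53074] (nat_lit 2) [nat_lit 33394] false,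
   Spec.mk (nat_lit 53084) (nat_lit 1) [nat_lit 48710, nat_lit 53570, nat_lit 52922, nat_lit 53030, nat_lit 53138, nat_lit 53066, nat_lit 53086] (nat_lit 0) [] false,
   Spec.mk (nat_lit 53086) (nat_lit 0) [nat_lit 48712, nat_lit 53572, nat_lit 52924, nat_lit 53032, nat_lit 53140, nat_lit 53068, nat_lit 53092, nat_lit 53084, nat_lit 53088] (nat_lit 0) [nat_lit 33404] false,
   Spec.mk (nat_lit 53088) (nat_lit 0) [nat_lit 48714, nat_lit 53574, nat_lit 52926, nat_lit 53034, nat_lit 53142, nat_lit 53070, nat_lit 53094, nat_lit 53086] (nat_lit 3) [nat_lit 33406] false,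
   Spec.mk (nat_lit 53092) (nat_lit 0) [nat_lit 48718, nat_lit 53578, nat_lit 52930, nat_lit 53038, nat_lit 53146, nat_lit 53074, nat_lit 53110, nat_lit 53086, nat_lit 53094] (nat_lit 0) [nat_lit 33410] false,
   Spec.mk (nat_lit 53094) (nat_lit 0) [nat_lit 48720, nat_lit 53580, nat_lit 52932, nat_lit 53040, nat_lit 53148, nat_lit 53076, nat_lit 53112, nat_lit 53088, nat_lit 53100, nat_lit 53092] (nat_lit 1) [nat_lit 33412] false,
   Spec.mk (nat_lit 53100) (nat_lit 0) [nat_lit 48726, nat_lit 53586, nat_lit 52938, nat_lit 53046, nat_lit 53154, nat_lit 53118, nat_lit 53094] (nat_lit 1) [nat_lit 33418] false,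
   Spec.mk (nat_lit 53110) (nat_lit 0) [nat_lit 48736, nat_lit 53596, nat_lit 52948, nat_lit 53164, nat_lit 53092, nat_lit 53112] (nat_lit 0) [nat_lit 33428] false,
   Spec.mk (nat_lit 53112) (nat_lit 0) [nat_lit 48738, nat_lit 53598, nat_lit 52950, nat_lit 53166, nat_lit 53094, nat_lit 53118, nat_lit 53110] (nat_lit 2) [nat_lit 33430] false,
   Spec.mk (nat_lit 53118) (nat_lit 0) [nat_lit 48744, nat_lit 53604, nat_lit 52956, nat_lit 53172, nat_lit 53100, nat_lit 53112] (nat_lit 0) [nat_lit 33436] false,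
   Spec.mk (nat_lit 53138) (nat_lit 2) [nat_lit 48764, nat_lit 53624, nat_lit 53084, nat_lit 53140] (nat_lit 0) [] false,
   Spec.mk (nat_lit 53140) (nat_lit 1) [nat_lit 48766, nat_lit 53626, nat_lit 53086, nat_lit 53146, nat_lit 53138, nat_lit 53142] (nat_lit 0) [nat_lit 33458] false,
   Spec.mk (nat_lit 53142) (nat_lit 0) [nat_lit 48768, nat_lit 53628, nat_lit 53088, nat_lit 53148, nat_lit 53140] (nat_lit 2) [nat_lit 33460] false,
   Spec.mk (nat_lit 53146) (nat_lit 0) [nat_lit 48772, nat_lit 53632, nat_lit 53092, nat_lit 53164, nat_lit 53140, nat_lit 53148] (nat_lit 0) [nat_lit 33464] false,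
   Spec.mk (nat_lit 53148) (nat_lit 0) [nat_lit 48774, nat_lit 53634, nat_lit 53094, nat_lit 53166, nat_lit 53142, nat_lit 53154, nat_lit 53146] (nat_lit 1) [nat_lit 33466] false,
   Spec.mk (nat_lit 53154) (nat_lit 0) [nat_lit 48780, nat_lit 53640, nat_lit 53100, nat_lit 53172, nat_lit 53148] (nat_lit 2) [nat_lit 33472] false,
   Spec.mk (nat_lit 53164) (nat_lit 2) [nat_lit 48790, nat_lit 53650, nat_lit 53110, nat_lit 53146, nat_lit 53166] (nat_lit 0) [nat_lit 33482] false,
   Spec.mk (nat_lit 53166) (nat_lit 0) [nat_lit 48792, nat_lit 53652, nat_lit 53112, nat_lit 53148, nat_lit 53172, nat_lit 53164] (nat_lit 0) [nat_lit 33484] false,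
   Spec.mk (nat_lit 53172) (nat_lit 1) [nat_lit 48798, nat_lit 53658, nat_lit 53118, nat_lit 53154, nat_lit 53190, nat_lit 53166] (nat_lit 0) [nat_lit 33490] false,
   Spec.mk (nat_lit 53190) (nat_lit 2) [nat_lit 48816, nat_lit 53676, nat_lit 53172] (nat_lit 0) [nat_lit 33508] false,
   Spec.mk (nat_lit 53234) (nat_lit 4) [nat_lit 48860, nat_lit 54692, nat_lit 52748, nat_lit 53252, nat_lit 53240] (nat_lit 0) [] false,
   Spec.mk (nat_lit 53240) (nat_lit 2) [nat_lit 48866, nat_lit 54698, nat_lit 52754, nat_lit 53258, nat_lit 53234, nat_lit 53242] (nat_lit 0) [] false,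
   Spec.mk (nat_lit 53242) (nat_lit 2) [nat_lit 48868, nat_lit 54700, nat_lit 52756, nat_lit 53260, nat_lit 53240] (nat_lit 0) [nat_lit 33560] false,
   Spec.mk (nat_lit 53252) (nat_lit 2) [nat_lit 48878, nat_lit 54710, nat_lit 52766, nat_lit 53306, nat_lit 53234, nat_lit 53258] (nat_lit 0) [] false,
   Spec.mk (nat_lit 53258) (nat_lit 2) [nat_lit 48884, nat_lit 54716, nat_lit 52772, nat_lit 53312, nat_lit 53240, nat_lit 53276, nat_lit 53252, nat_lit 53264, nat_lit 53260] (nat_lit 0) [] false,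
   Spec.mk (nat_lit 53260) (nat_lit 1) [nat_lit 48886, nat_lit 54718, nat_lit 52774, nat_lit 53314, nat_lit 53242, nat_lit 53278, nat_lit 53266, nat_lit 53258] (nat_lit 0) [nat_lit 33578] false,
   Spec.mk (nat_lit 53264) (nat_lit 0) [nat_lit 48890, nat_lit 54722, nat_lit 52778, nat_lit 53318, nat_lit 53282, nat_lit 53258, nat_lit 53266] (nat_lit 0) [] false,
   Spec.mk (nat_lit 53266) (nat_lit 1) [nat_lit 48892, nat_lit 54724, nat_lit 52780, nat_lit 53320, nat_lit 53284, nat_lit 53260, nat_lit 53264, nat_lit 53268] (nat_lit 0) [nat_lit 33584] false,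
   Spec.mk (nat_lit 53268) (nat_lit 0) [nat_lit 48894, nat_lit 54726, nat_lit 52782, nat_lit 53322, nat_lit 53286, nat_lit 53266] (nat_lit 0) [nat_lit 33586] false,
   Spec.mk (nat_lit 53276) (nat_lit 0) [nat_lit 48902, nat_lit 54734, nat_lit 52790, nat_lit 53330, nat_lit 53258, nat_lit 53282, nat_lit 53278] (nat_lit 0) [] false,
   Spec.mk (nat_lit 53278) (nat_lit 0) [nat_lit 48904, nat_lit 54736, nat_lit 52792, nat_lit 53332, nat_lit 53260, nat_lit 53284, nat_lit 53276] (nat_lit 2) [nat_lit 33596] false,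
   Spec.mk (nat_lit 53282) (nat_lit 0) [nat_lit 48908, nat_lit 54740, nat_lit 52796, nat_lit 53336, nat_lit 53264, nat_lit 53276, nat_lit 53284] (nat_lit 0) [] false,
   Spec.mk (nat_lit 53284) (nat_lit 0) [nat_lit 48910, nat_lit 54742, nat_lit 52798, nat_lit 53338, nat_lit 53266, nat_lit 53278, nat_lit 53290, nat_lit 53282, nat_lit 53286] (nat_lit 0) [nat_lit 33602] false,
   Spec.mk (nat_lit 53286) (nat_lit 0) [nat_lit 48912, nat_lit 54744, nat_lit 52800, nat_lit 53340, nat_lit 53268, nat_lit 53292, nat_lit 53284] (nat_lit 2) [nat_lit 33604] false,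
   Spec.mk (nat_lit 53290) (nat_lit 0) [nat_lit 48916, nat_lit 54748, nat_lit 52804, nat_lit 53344, nat_lit 53284, nat_lit 53292] (nat_lit 0) [nat_lit 33608] false,
   Spec.mk (nat_lit 53292) (nat_lit 0) [nat_lit 48918, nat_lit 54750, nat_lit 52806, nat_lit 53346, nat_lit 53286, nat_lit 53290] (nat_lit 0) [nat_lit 33610] false,
   Spec.mk (nat_lit 53306) (nat_lit 2) [nat_lit 48932, nat_lit 54764, nat_lit 52820, nat_lit 53468, nat_lit 53252, nat_lit 53312] (nat_lit 0) [] false,
   Spec.mk (nat_lit 53312) (nat_lit 1) [nat_lit 48938, nat_lit 54770, nat_lit 52826, nat_lit 53474, nat_lit 53258, nat_lit 53330, nat_lit 53306, nat_lit 53318, nat_lit 53314] (nat_lit 0) [] false,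
   Spec.mk (nat_lit 53314) (nat_lit 0) [nat_lit 48940, nat_lit 54772, nat_lit 52828, nat_lit 53476, nat_lit 53260, nat_lit 53332, nat_lit 53320, nat_lit 53312] (nat_lit 0) [nat_lit 33632] false,
   Spec.mk (nat_lit 53318) (nat_lit 0) [nat_lit 48944, nat_lit 54776, nat_lit 52832, nat_lit 53480, nat_lit 53264, nat_lit 53336, nat_lit 53312, nat_lit 53320] (nat_lit 2) [] false,
   Spec.mk (nat_lit 53320) (nat_lit 0) [nat_lit 48946, nat_lit 54778, nat_lit 52834, nat_lit 53482, nat_lit 53266, nat_lit 53338, nat_lit 53314, nat_lit 53318, nat_lit 53322] (nat_lit 1) [nat_lit 33638] false,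
   Spec.mk (nat_lit 53322) (nat_lit 0) [nat_lit 48948, nat_lit 54780, nat_lit 52836, nat_lit 53484, nat_lit 53268, nat_lit 53340, nat_lit 53320] (nat_lit 2) [nat_lit 33640] false,
   Spec.mk (nat_lit 53330) (nat_lit 1) [nat_lit 48956, nat_lit 54788, nat_lit 52844, nat_lit 53492, nat_lit 53276, nat_lit 53384, nat_lit 53312, nat_lit 53336, nat_lit 53332] (nat_lit 0) [] false,
   Spec.mk (nat_lit 53332) (nat_lit 0) [nat_lit 48958, nat_lit 54790, nat_lit 52846, nat_lit 53494, nat_lit 53278, nat_lit 53386, nat_lit 53314, nat_lit 53338, nat_lit 53330] (nat_lit 1) [nat_lit 33650] false,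
   Spec.mk (nat_lit 53336) (nat_lit 0) [nat_lit 48962, nat_lit 54794, nat_lit 52850, nat_lit 53498, nat_lit 53282, nat_lit 53390, nat_lit 53318, nat_lit 53354, nat_lit 53330, nat_lit 53338] (nat_lit 0) [] false,
   Spec.mk (nat_lit 53338) (nat_lit 0) [nat_lit 48964, nat_lit 54796, nat_lit 52852, nat_lit 53500, nat_lit 53284, nat_lit 53392, nat_lit 53320, nat_lit 53356, nat_lit 53332, nat_lit 53344, nat_lit 53336, nat_lit 53340] (nat_lit 0) [nat_lit 33656] false,
   Spec.mk (nat_lit 53340) (nat_lit 0) [nat_lit 48966, nat_lit 54798, nat_lit 52854, nat_lit 53502, nat_lit 53286, nat_lit 53394, nat_lit 53322, nat_lit 53358, nat_lit 53346, nat_lit 53338] (nat_lit 2) [nat_lit 33658] false,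
   Spec.mk (nat_lit 53344) (nat_lit 0) [nat_lit 48970, nat_lit 54802, nat_lit 52858, nat_lit 53506, nat_lit 53290, nat_lit 53398, nat_lit 53362, nat_lit 53338, nat_lit 53346] (nat_lit 1) [nat_lit 33662] false,
   Spec.mk (nat_lit 53346) (nat_lit 0) [nat_lit 48972, nat_lit 54804, nat_lit 52860, nat_lit 53508, nat_lit 53292, nat_lit 53400, nat_lit 53364, nat_lit 53340, nat_lit 53344] (nat_lit 1) [nat_lit 33664] false,
   Spec.mk (nat_lit 53354) (nat_lit 0) [nat_lit 48980, nat_lit 54812, nat_lit 52868, nat_lit 53516, nat_lit 53408, nat_lit 53336, nat_lit 53356] (nat_lit 0) [] false]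

noncomputable def sp139 : List Spec :=
  [Spec.mk (nat_lit 53356) (nat_lit 0) [nat_lit 48982, nat_lit 54814, nat_lit 52870, nat_lit 53518, nat_lit 53410, nat_lit 53338, nat_lit 53362, nat_lit 53354, nat_lit 53358] (nat_lit 1) [nat_lit 33674] false,
   Spec.mk (nat_lit 53358) (nat_lit 0) [nat_lit 48984, nat_lit 54816, nat_lit 52872, nat_lit 53520, nat_lit 53412, nat_lit 53340, nat_lit 53364, nat_lit 53356] (nat_lit 4) [nat_lit 33676] false,
   Spec.mk (nat_lit 53362) (nat_lit 0) [nat_lit 48988, nat_lit 54820, nat_lit 52876, nat_lit 53524, nat_lit 53416, nat_lit 53344, nat_lit 53356, nat_lit 53364] (nat_lit 0) [nat_lit 33680] false,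
   Spec.mk (nat_lit 53364) (nat_lit 0) [nat_lit 48990, nat_lit 54822, nat_lit 52878, nat_lit 53526, nat_lit 53418, nat_lit 53346, nat_lit 53358, nat_lit 53370, nat_lit 53362] (nat_lit 1) [nat_lit 33682] false,
   Spec.mk (nat_lit 53370) (nat_lit 0) [nat_lit 48996, nat_lit 54828, nat_lit 52884, nat_lit 53532, nat_lit 53424, nat_lit 53364] (nat_lit 0) [nat_lit 33688] false,
   Spec.mk (nat_lit 53384) (nat_lit 0) [nat_lit 49010, nat_lit 54842, nat_lit 52898, nat_lit 53546, nat_lit 53330, nat_lit 53390, nat_lit 53386] (nat_lit 0) [] false,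
   Spec.mk (nat_lit 53386) (nat_lit 0) [nat_lit 49012, nat_lit 54844, nat_lit 52900, nat_lit 53548, nat_lit 53332, nat_lit 53392, nat_lit 53384] (nat_lit 2) [nat_lit 33704] false,
   Spec.mk (nat_lit 53390) (nat_lit 0) [nat_lit 49016, nat_lit 54848, nat_lit 52904, nat_lit 53552, nat_lit 53336, nat_lit 53408, nat_lit 53384, nat_lit 53392] (nat_lit 2) [] false,
   Spec.mk (nat_lit 53392) (nat_lit 0) [nat_lit 49018, nat_lit 54850, nat_lit 52906, nat_lit 53554, nat_lit 53338, nat_lit 53410, nat_lit 53386, nat_lit 53398, nat_lit 53390, nat_lit 53394] (nat_lit 2) [nat_lit 33710] false,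
   Spec.mk (nat_lit 53394) (nat_lit 0) [nat_lit 49020, nat_lit 54852, nat_lit 52908, nat_lit 53556, nat_lit 53340, nat_lit 53412, nat_lit 53400, nat_lit 53392] (nat_lit 4) [nat_lit 33712] false,
   Spec.mk (nat_lit 53398) (nat_lit 0) [nat_lit 49024, nat_lit 54856, nat_lit 52912, nat_lit 53560, nat_lit 53344, nat_lit 53416, nat_lit 53392, nat_lit 53400] (nat_lit 4) [nat_lit 33716] false,
   Spec.mk (nat_lit 53400) (nat_lit 0) [nat_lit 49026, nat_lit 54858, nat_lit 52914, nat_lit 53562, nat_lit 53346, nat_lit 53418, nat_lit 53394, nat_lit 53398] (nat_lit 4) [nat_lit 33718] false,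
   Spec.mk (nat_lit 53408) (nat_lit 0) [nat_lit 49034, nat_lit 54866, nat_lit 52922, nat_lit 53570, nat_lit 53354, nat_lit 53390, nat_lit 53410] (nat_lit 0) [] false,
   Spec.mk (nat_lit 53410) (nat_lit 0) [nat_lit 49036, nat_lit 54868, nat_lit 52924, nat_lit 53572, nat_lit 53356, nat_lit 53392, nat_lit 53416, nat_lit 53408, nat_lit 53412] (nat_lit 1) [nat_lit 33728] false,
   Spec.mk (nat_lit 53412) (nat_lit 0) [nat_lit 49038, nat_lit 54870, nat_lit 52926, nat_lit 53574, nat_lit 53358, nat_lit 53394, nat_lit 53418, nat_lit 53410] (nat_lit 4) [nat_lit 33730] false,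
   Spec.mk (nat_lit 53416) (nat_lit 0) [nat_lit 49042, nat_lit 54874, nat_lit 52930, nat_lit 53578, nat_lit 53362, nat_lit 53398, nat_lit 53434, nat_lit 53410, nat_lit 53418] (nat_lit 1) [nat_lit 33734] false,
   Spec.mk (nat_lit 53418) (nat_lit 0) [nat_lit 49044, nat_lit 54876, nat_lit 52932, nat_lit 53580, nat_lit 53364, nat_lit 53400, nat_lit 53436, nat_lit 53412, nat_lit 53424, nat_lit 53416] (nat_lit 2) [nat_lit 33736] false,
   Spec.mk (nat_lit 53424) (nat_lit 0) [nat_lit 49050, nat_lit 54882, nat_lit 52938, nat_lit 53586, nat_lit 53370, nat_lit 53442, nat_lit 53418] (nat_lit 2) [nat_lit 33742] false,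
   Spec.mk (nat_lit 53434) (nat_lit 0) [nat_lit 49060, nat_lit 54892, nat_lit 52948, nat_lit 53596, nat_lit 53416, nat_lit 53436] (nat_lit 0) [nat_lit 33752] false,
   Spec.mk (nat_lit 53436) (nat_lit 0) [nat_lit 49062, nat_lit 54894, nat_lit 52950, nat_lit 53598, nat_lit 53418, nat_lit 53442, nat_lit 53434] (nat_lit 2) [nat_lit 33754] false,
   Spec.mk (nat_lit 53442) (nat_lit 0) [nat_lit 49068, nat_lit 54900, nat_lit 52956, nat_lit 53604, nat_lit 53424, nat_lit 53436] (nat_lit 0) [nat_lit 33760] false,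
   Spec.mk (nat_lit 53468) (nat_lit 3) [nat_lit 49094, nat_lit 54926, nat_lit 52982, nat_lit 53954, nat_lit 53306, nat_lit 53474] (nat_lit 0) [] false,
   Spec.mk (nat_lit 53474) (nat_lit 2) [nat_lit 49100, nat_lit 54932, nat_lit 52988, nat_lit 53960, nat_lit 53312, nat_lit 53492, nat_lit 53468, nat_lit 53480, nat_lit 53476] (nat_lit 0) [] false,
   Spec.mk (nat_lit 53476) (nat_lit 1) [nat_lit 49102, nat_lit 54934, nat_lit 52990, nat_lit 53962, nat_lit 53314, nat_lit 53494, nat_lit 53482, nat_lit 53474] (nat_lit 0) [nat_lit 33794] false,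
   Spec.mk (nat_lit 53480) (nat_lit 0) [nat_lit 49106, nat_lit 54938, nat_lit 52994, nat_lit 53966, nat_lit 53318, nat_lit 53498, nat_lit 53474, nat_lit 53482] (nat_lit 1) [] false,
   Spec.mk (nat_lit 53482) (nat_lit 0) [nat_lit 49108, nat_lit 54940, nat_lit 52996, nat_lit 53968, nat_lit 53320, nat_lit 53500, nat_lit 53476, nat_lit 53480, nat_lit 53484] (nat_lit 0) [nat_lit 33800] false,
   Spec.mk (nat_lit 53484) (nat_lit 0) [nat_lit 49110, nat_lit 54942, nat_lit 52998, nat_lit 53970, nat_lit 53322, nat_lit 53502, nat_lit 53482] (nat_lit 1) [nat_lit 33802] false,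
   Spec.mk (nat_lit 53492) (nat_lit 1) [nat_lit 49118, nat_lit 54950, nat_lit 53006, nat_lit 53978, nat_lit 53330, nat_lit 53546, nat_lit 53474, nat_lit 53498, nat_lit 53494] (nat_lit 0) [] false,
   Spec.mk (nat_lit 53494) (nat_lit 0) [nat_lit 49120, nat_lit 54952, nat_lit 53008, nat_lit 53980, nat_lit 53332, nat_lit 53548, nat_lit 53476, nat_lit 53500, nat_lit 53492] (nat_lit 1) [nat_lit 33812] false,
   Spec.mk (nat_lit 53498) (nat_lit 0) [nat_lit 49124, nat_lit 54956, nat_lit 53012, nat_lit 53984, nat_lit 53336, nat_lit 53552, nat_lit 53480, nat_lit 53516, nat_lit 53492, nat_lit 53500] (nat_lit 0) [] false,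
   Spec.mk (nat_lit 53500) (nat_lit 0) [nat_lit 49126, nat_lit 54958, nat_lit 53014, nat_lit 53986, nat_lit 53338, nat_lit 53554, nat_lit 53482, nat_lit 53518, nat_lit 53494, nat_lit 53506, nat_lit 53498, nat_lit 53502] (nat_lit 0) [nat_lit 33818] false,
   Spec.mk (nat_lit 53502) (nat_lit 0) [nat_lit 49128, nat_lit 54960, nat_lit 53016, nat_lit 53988, nat_lit 53340, nat_lit 53556, nat_lit 53484, nat_lit 53520, nat_lit 53508, nat_lit 53500] (nat_lit 2) [nat_lit 33820] false,
   Spec.mk (nat_lit 53506) (nat_lit 0) [nat_lit 49132, nat_lit 54964, nat_lit 53020, nat_lit 53992, nat_lit 53344, nat_lit 53560, nat_lit 53524, nat_lit 53500, nat_lit 53508] (nat_lit 1) [nat_lit 33824] false,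
   Spec.mk (nat_lit 53508) (nat_lit 0) [nat_lit 49134, nat_lit 54966, nat_lit 53022, nat_lit 53994, nat_lit 53346, nat_lit 53562, nat_lit 53526, nat_lit 53502, nat_lit 53506] (nat_lit 1) [nat_lit 33826] false,
   Spec.mk (nat_lit 53516) (nat_lit 0) [nat_lit 49142, nat_lit 54974, nat_lit 53030, nat_lit 54002, nat_lit 53354, nat_lit 53570, nat_lit 53498, nat_lit 53518] (nat_lit 1) [] false,
   Spec.mk (nat_lit 53518) (nat_lit 0) [nat_lit 49144, nat_lit 54976, nat_lit 53032, nat_lit 54004, nat_lit 53356, nat_lit 53572, nat_lit 53500, nat_lit 53524, nat_lit 53516, nat_lit 53520] (nat_lit 2) [nat_lit 33836] false,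
   Spec.mk (nat_lit 53520) (nat_lit 0) [nat_lit 49146, nat_lit 54978, nat_lit 53034, nat_lit 54006, nat_lit 53358, nat_lit 53574, nat_lit 53502, nat_lit 53526, nat_lit 53518] (nat_lit 5) [nat_lit 33838] false,
   Spec.mk (nat_lit 53524) (nat_lit 0) [nat_lit 49150, nat_lit 54982, nat_lit 53038, nat_lit 54010, nat_lit 53362, nat_lit 53578, nat_lit 53506, nat_lit 53518, nat_lit 53526] (nat_lit 1) [nat_lit 33842] false,
   Spec.mk (nat_lit 53526) (nat_lit 0) [nat_lit 49152, nat_lit 54984, nat_lit 53040, nat_lit 54012, nat_lit 53364, nat_lit 53580, nat_lit 53508, nat_lit 53520, nat_lit 53532, nat_lit 53524] (nat_lit 2) [nat_lit 33844] false,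
   Spec.mk (nat_lit 53532) (nat_lit 0) [nat_lit 49158, nat_lit 54990, nat_lit 53046, nat_lit 54018, nat_lit 53370, nat_lit 53586, nat_lit 53526] (nat_lit 1) [nat_lit 33850] false,
   Spec.mk (nat_lit 53546) (nat_lit 2) [nat_lit 49172, nat_lit 55004, nat_lit 53060, nat_lit 54032, nat_lit 53384, nat_lit 53708, nat_lit 53492, nat_lit 53552, nat_lit 53548] (nat_lit 0) [] false,
   Spec.mk (nat_lit 53548) (nat_lit 0) [nat_lit 49174, nat_lit 55006, nat_lit 53062, nat_lit 54034, nat_lit 53386, nat_lit 53710, nat_lit 53494, nat_lit 53554, nat_lit 53546] (nat_lit 0) [nat_lit 33866] false,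
   Spec.mk (nat_lit 53552) (nat_lit 0) [nat_lit 49178, nat_lit 55010, nat_lit 53066, nat_lit 54038, nat_lit 53390, nat_lit 53714, nat_lit 53498, nat_lit 53570, nat_lit 53546, nat_lit 53554] (nat_lit 0) [] false,
   Spec.mk (nat_lit 53554) (nat_lit 0) [nat_lit 49180, nat_lit 55012, nat_lit 53068, nat_lit 54040, nat_lit 53392, nat_lit 53716, nat_lit 53500, nat_lit 53572, nat_lit 53548, nat_lit 53560, nat_lit 53552, nat_lit 53556] (nat_lit 0) [nat_lit 33872] false,
   Spec.mk (nat_lit 53556) (nat_lit 0) [nat_lit 49182, nat_lit 55014, nat_lit 53070, nat_lit 54042, nat_lit 53394, nat_lit 53718, nat_lit 53502, nat_lit 53574, nat_lit 53562, nat_lit 53554] (nat_lit 2) [nat_lit 33874] false,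
   Spec.mk (nat_lit 53560) (nat_lit 0) [nat_lit 49186, nat_lit 55018, nat_lit 53074, nat_lit 54046, nat_lit 53398, nat_lit 53722, nat_lit 53506, nat_lit 53578, nat_lit 53554, nat_lit 53562] (nat_lit 2) [nat_lit 33878] false,
   Spec.mk (nat_lit 53562) (nat_lit 0) [nat_lit 49188, nat_lit 55020, nat_lit 53076, nat_lit 54048, nat_lit 53400, nat_lit 53724, nat_lit 53508, nat_lit 53580, nat_lit 53556, nat_lit 53560] (nat_lit 2) [nat_lit 33880] false,
   Spec.mk (nat_lit 53570) (nat_lit 1) [nat_lit 49196, nat_lit 55028, nat_lit 53084, nat_lit 54056, nat_lit 53408, nat_lit 53732, nat_lit 53516, nat_lit 53624, nat_lit 53552, nat_lit 53572] (nat_lit 0) [] false,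
   Spec.mk (nat_lit 53572) (nat_lit 0) [nat_lit 49198, nat_lit 55030, nat_lit 53086, nat_lit 54058, nat_lit 53410, nat_lit 53734, nat_lit 53518, nat_lit 53626, nat_lit 53554, nat_lit 53578, nat_lit 53570, nat_lit 53574] (nat_lit 0) [nat_lit 33890] false,
   Spec.mk (nat_lit 53574) (nat_lit 0) [nat_lit 49200, nat_lit 55032, nat_lit 53088, nat_lit 54060, nat_lit 53412, nat_lit 53736, nat_lit 53520, nat_lit 53628, nat_lit 53556, nat_lit 53580, nat_lit 53572] (nat_lit 3) [nat_lit 33892] false,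
   Spec.mk (nat_lit 53578) (nat_lit 0) [nat_lit 49204, nat_lit 55036, nat_lit 53092, nat_lit 54064, nat_lit 53416, nat_lit 53740, nat_lit 53524, nat_lit 53632, nat_lit 53560, nat_lit 53596, nat_lit 53572, nat_lit 53580] (nat_lit 0) [nat_lit 33896] false,
   Spec.mk (nat_lit 53580) (nat_lit 0) [nat_lit 49206, nat_lit 55038, nat_lit 53094, nat_lit 54066, nat_lit 53418, nat_lit 53742, nat_lit 53526, nat_lit 53634, nat_lit 53562, nat_lit 53598, nat_lit 53574, nat_lit 53586, nat_lit 53578] (nat_lit 1) [nat_lit 33898] false,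
   Spec.mk (nat_lit 53586) (nat_lit 0) [nat_lit 49212, nat_lit 55044, nat_lit 53100, nat_lit 54072, nat_lit 53424, nat_lit 53748, nat_lit 53532, nat_lit 53640, nat_lit 53604, nat_lit 53580] (nat_lit 1) [nat_lit 33904] false,
   Spec.mk (nat_lit 53596) (nat_lit 0) [nat_lit 49222, nat_lit 55054, nat_lit 53110, nat_lit 54082, nat_lit 53434, nat_lit 53758, nat_lit 53650, nat_lit 53578, nat_lit 53598] (nat_lit 0) [nat_lit 33914] false,
   Spec.mk (nat_lit 53598) (nat_lit 0) [nat_lit 49224, nat_lit 55056, nat_lit 53112, nat_lit 54084, nat_lit 53436, nat_lit 53760, nat_lit 53652, nat_lit 53580, nat_lit 53604, nat_lit 53596] (nat_lit 2) [nat_lit 33916] false,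
   Spec.mk (nat_lit 53604) (nat_lit 0) [nat_lit 49230, nat_lit 55062, nat_lit 53118, nat_lit 54090, nat_lit 53442, nat_lit 53766, nat_lit 53658, nat_lit 53586, nat_lit 53598] (nat_lit 0) [nat_lit 33922] false,
   Spec.mk (nat_lit 53624) (nat_lit 1) [nat_lit 49250, nat_lit 55082, nat_lit 53138, nat_lit 54110, nat_lit 53786, nat_lit 53570, nat_lit 53626] (nat_lit 0) [] false,
   Spec.mk (nat_lit 53626) (nat_lit 0) [nat_lit 49252, nat_lit 55084, nat_lit 53140, nat_lit 54112, nat_lit 53788, nat_lit 53572, nat_lit 53632, nat_lit 53624, nat_lit 53628] (nat_lit 0) [nat_lit 33944] false,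
   Spec.mk (nat_lit 53628) (nat_lit 0) [nat_lit 49254, nat_lit 55086, nat_lit 53142, nat_lit 54114, nat_lit 53790, nat_lit 53574, nat_lit 53634, nat_lit 53626] (nat_lit 3) [nat_lit 33946] false,
   Spec.mk (nat_lit 53632) (nat_lit 0) [nat_lit 49258, nat_lit 55090, nat_lit 53146, nat_lit 54118, nat_lit 53794, nat_lit 53578, nat_lit 53650, nat_lit 53626, nat_lit 53634] (nat_lit 1) [nat_lit 33950] false]

noncomputable def sp140 : List Spec :=
  [Spec.mk (nat_lit 53634) (nat_lit 0) [nat_lit 49260, nat_lit 55092, nat_lit 53148, nat_lit 54120, nat_lit 53796, nat_lit 53580, nat_lit 53652, nat_lit 53628, nat_lit 53640, nat_lit 53632] (nat_lit 2) [nat_lit 33952] false,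
   Spec.mk (nat_lit 53640) (nat_lit 0) [nat_lit 49266, nat_lit 55098, nat_lit 53154, nat_lit 54126, nat_lit 53802, nat_lit 53586, nat_lit 53658, nat_lit 53634] (nat_lit 3) [nat_lit 33958] false,
   Spec.mk (nat_lit 53650) (nat_lit 1) [nat_lit 49276, nat_lit 55108, nat_lit 53164, nat_lit 54136, nat_lit 53812, nat_lit 53596, nat_lit 53632, nat_lit 53652] (nat_lit 0) [nat_lit 33968] false,
   Spec.mk (nat_lit 53652) (nat_lit 0) [nat_lit 49278, nat_lit 55110, nat_lit 53166, nat_lit 54138, nat_lit 53814, nat_lit 53598, nat_lit 53634, nat_lit 53658, nat_lit 53650] (nat_lit 1) [nat_lit 33970] false,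
   Spec.mk (nat_lit 53658) (nat_lit 0) [nat_lit 49284, nat_lit 55116, nat_lit 53172, nat_lit 54144, nat_lit 53820, nat_lit 53604, nat_lit 53640, nat_lit 53676, nat_lit 53652] (nat_lit 0) [nat_lit 33976] false,
   Spec.mk (nat_lit 53676) (nat_lit 1) [nat_lit 49302, nat_lit 55134, nat_lit 53190, nat_lit 54162, nat_lit 53838, nat_lit 53658] (nat_lit 0) [nat_lit 33994] false,
   Spec.mk (nat_lit 53708) (nat_lit 2) [nat_lit 49334, nat_lit 55166, nat_lit 54194, nat_lit 53546, nat_lit 53714, nat_lit 53710] (nat_lit 0) [] false,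
   Spec.mk (nat_lit 53710) (nat_lit 0) [nat_lit 49336, nat_lit 55168, nat_lit 54196, nat_lit 53548, nat_lit 53716, nat_lit 53708] (nat_lit 0) [nat_lit 34028] false,
   Spec.mk (nat_lit 53714) (nat_lit 0) [nat_lit 49340, nat_lit 55172, nat_lit 54200, nat_lit 53552, nat_lit 53732, nat_lit 53708, nat_lit 53716] (nat_lit 0) [] false,
   Spec.mk (nat_lit 53716) (nat_lit 0) [nat_lit 49342, nat_lit 55174, nat_lit 54202, nat_lit 53554, nat_lit 53734, nat_lit 53710, nat_lit 53722, nat_lit 53714, nat_lit 53718] (nat_lit 0) [nat_lit 34034] false,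
   Spec.mk (nat_lit 53718) (nat_lit 0) [nat_lit 49344, nat_lit 55176, nat_lit 54204, nat_lit 53556, nat_lit 53736, nat_lit 53724, nat_lit 53716] (nat_lit 2) [nat_lit 34036] false,
   Spec.mk (nat_lit 53722) (nat_lit 0) [nat_lit 49348, nat_lit 55180, nat_lit 54208, nat_lit 53560, nat_lit 53740, nat_lit 53716, nat_lit 53724] (nat_lit 2) [nat_lit 34040] false,
   Spec.mk (nat_lit 53724) (nat_lit 0) [nat_lit 49350, nat_lit 55182, nat_lit 54210, nat_lit 53562, nat_lit 53742, nat_lit 53718, nat_lit 53722] (nat_lit 2) [nat_lit 34042] false,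
   Spec.mk (nat_lit 53732) (nat_lit 0) [nat_lit 49358, nat_lit 55190, nat_lit 54218, nat_lit 53570, nat_lit 53786, nat_lit 53714, nat_lit 53734] (nat_lit 0) [] false,
   Spec.mk (nat_lit 53734) (nat_lit 0) [nat_lit 49360, nat_lit 55192, nat_lit 54220, nat_lit 53572, nat_lit 53788, nat_lit 53716, nat_lit 53740, nat_lit 53732, nat_lit 53736] (nat_lit 1) [nat_lit 34052] false,
   Spec.mk (nat_lit 53736) (nat_lit 0) [nat_lit 49362, nat_lit 55194, nat_lit 54222, nat_lit 53574, nat_lit 53790, nat_lit 53718, nat_lit 53742, nat_lit 53734] (nat_lit 4) [nat_lit 34054] false,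
   Spec.mk (nat_lit 53740) (nat_lit 0) [nat_lit 49366, nat_lit 55198, nat_lit 54226, nat_lit 53578, nat_lit 53794, nat_lit 53722, nat_lit 53758, nat_lit 53734, nat_lit 53742] (nat_lit 1) [nat_lit 34058] false,
   Spec.mk (nat_lit 53742) (nat_lit 0) [nat_lit 49368, nat_lit 55200, nat_lit 54228, nat_lit 53580, nat_lit 53796, nat_lit 53724, nat_lit 53760, nat_lit 53736, nat_lit 53748, nat_lit 53740] (nat_lit 2) [nat_lit 34060] false,
   Spec.mk (nat_lit 53748) (nat_lit 0) [nat_lit 49374, nat_lit 55206, nat_lit 54234, nat_lit 53586, nat_lit 53802, nat_lit 53766, nat_lit 53742] (nat_lit 2) [nat_lit 34066] false,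
   Spec.mk (nat_lit 53758) (nat_lit 0) [nat_lit 49384, nat_lit 55216, nat_lit 54244, nat_lit 53596, nat_lit 53812, nat_lit 53740, nat_lit 53760] (nat_lit 2) [nat_lit 34076] false,
   Spec.mk (nat_lit 53760) (nat_lit 0) [nat_lit 49386, nat_lit 55218, nat_lit 54246, nat_lit 53598, nat_lit 53814, nat_lit 53742, nat_lit 53766, nat_lit 53758] (nat_lit 4) [nat_lit 34078] false,
   Spec.mk (nat_lit 53766) (nat_lit 0) [nat_lit 49392, nat_lit 55224, nat_lit 54252, nat_lit 53604, nat_lit 53820, nat_lit 53748, nat_lit 53760] (nat_lit 2) [nat_lit 34084] false,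
   Spec.mk (nat_lit 53786) (nat_lit 2) [nat_lit 49412, nat_lit 55244, nat_lit 54272, nat_lit 53624, nat_lit 53732, nat_lit 53788] (nat_lit 0) [] false,
   Spec.mk (nat_lit 53788) (nat_lit 1) [nat_lit 49414, nat_lit 55246, nat_lit 54274, nat_lit 53626, nat_lit 53734, nat_lit 53794, nat_lit 53786, nat_lit 53790] (nat_lit 0) [nat_lit 34106] false,
   Spec.mk (nat_lit 53790) (nat_lit 0) [nat_lit 49416, nat_lit 55248, nat_lit 54276, nat_lit 53628, nat_lit 53736, nat_lit 53796, nat_lit 53788] (nat_lit 2) [nat_lit 34108] false,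
   Spec.mk (nat_lit 53794) (nat_lit 0) [nat_lit 49420, nat_lit 55252, nat_lit 54280, nat_lit 53632, nat_lit 53740, nat_lit 53812, nat_lit 53788, nat_lit 53796] (nat_lit 0) [nat_lit 34112] false,
   Spec.mk (nat_lit 53796) (nat_lit 0) [nat_lit 49422, nat_lit 55254, nat_lit 54282, nat_lit 53634, nat_lit 53742, nat_lit 53814, nat_lit 53790, nat_lit 53802, nat_lit 53794] (nat_lit 1) [nat_lit 34114] false,
   Spec.mk (nat_lit 53802) (nat_lit 0) [nat_lit 49428, nat_lit 55260, nat_lit 54288, nat_lit 53640, nat_lit 53748, nat_lit 53820, nat_lit 53796] (nat_lit 2) [nat_lit 34120] false,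
   Spec.mk (nat_lit 53812) (nat_lit 1) [nat_lit 49438, nat_lit 55270, nat_lit 54298, nat_lit 53650, nat_lit 53758, nat_lit 53866, nat_lit 53794, nat_lit 53814] (nat_lit 0) [nat_lit 34130] false,
   Spec.mk (nat_lit 53814) (nat_lit 0) [nat_lit 49440, nat_lit 55272, nat_lit 54300, nat_lit 53652, nat_lit 53760, nat_lit 53868, nat_lit 53796, nat_lit 53820, nat_lit 53812] (nat_lit 1) [nat_lit 34132] false,
   Spec.mk (nat_lit 53820) (nat_lit 0) [nat_lit 49446, nat_lit 55278, nat_lit 54306, nat_lit 53658, nat_lit 53766, nat_lit 53874, nat_lit 53802, nat_lit 53838, nat_lit 53814] (nat_lit 0) [nat_lit 34138] false,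
   Spec.mk (nat_lit 53838) (nat_lit 0) [nat_lit 49464, nat_lit 55296, nat_lit 54324, nat_lit 53676, nat_lit 53892, nat_lit 53820] (nat_lit 0) [nat_lit 34156] false,
   Spec.mk (nat_lit 53866) (nat_lit 2) [nat_lit 49492, nat_lit 55324, nat_lit 54352, nat_lit 53812, nat_lit 53868] (nat_lit 0) [nat_lit 34184] false,
   Spec.mk (nat_lit 53868) (nat_lit 0) [nat_lit 49494, nat_lit 55326, nat_lit 54354, nat_lit 53814, nat_lit 53874, nat_lit 53866] (nat_lit 0) [nat_lit 34186] false,
   Spec.mk (nat_lit 53874) (nat_lit 0) [nat_lit 49500, nat_lit 55332, nat_lit 54360, nat_lit 53820, nat_lit 53892, nat_lit 53868] (nat_lit 0) [nat_lit 34192] false,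
   Spec.mk (nat_lit 53892) (nat_lit 2) [nat_lit 49518, nat_lit 55350, nat_lit 54378, nat_lit 53838, nat_lit 53874] (nat_lit 0) [nat_lit 34210] false,
   Spec.mk (nat_lit 53954) (nat_lit 2) [nat_lit 49580, nat_lit 55412, nat_lit 53468, nat_lit 53960] (nat_lit 0) [] false,
   Spec.mk (nat_lit 53960) (nat_lit 1) [nat_lit 49586, nat_lit 55418, nat_lit 53474, nat_lit 53978, nat_lit 53954, nat_lit 53966, nat_lit 53962] (nat_lit 0) [] false,
   Spec.mk (nat_lit 53962) (nat_lit 0) [nat_lit 49588, nat_lit 55420, nat_lit 53476, nat_lit 53980, nat_lit 53968, nat_lit 53960] (nat_lit 0) [nat_lit 34280] false,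
   Spec.mk (nat_lit 53966) (nat_lit 0) [nat_lit 49592, nat_lit 55424, nat_lit 53480, nat_lit 53984, nat_lit 53960, nat_lit 53968] (nat_lit 2) [] false,
   Spec.mk (nat_lit 53968) (nat_lit 0) [nat_lit 49594, nat_lit 55426, nat_lit 53482, nat_lit 53986, nat_lit 53962, nat_lit 53966, nat_lit 53970] (nat_lit 1) [nat_lit 34286] false,
   Spec.mk (nat_lit 53970) (nat_lit 0) [nat_lit 49596, nat_lit 55428, nat_lit 53484, nat_lit 53988, nat_lit 53968] (nat_lit 2) [nat_lit 34288] false,
   Spec.mk (nat_lit 53978) (nat_lit 0) [nat_lit 49604, nat_lit 55436, nat_lit 53492, nat_lit 54032, nat_lit 53960, nat_lit 53984, nat_lit 53980] (nat_lit 0) [] false,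
   Spec.mk (nat_lit 53980) (nat_lit 0) [nat_lit 49606, nat_lit 55438, nat_lit 53494, nat_lit 54034, nat_lit 53962, nat_lit 53986, nat_lit 53978] (nat_lit 2) [nat_lit 34298] false,
   Spec.mk (nat_lit 53984) (nat_lit 0) [nat_lit 49610, nat_lit 55442, nat_lit 53498, nat_lit 54038, nat_lit 53966, nat_lit 54002, nat_lit 53978, nat_lit 53986] (nat_lit 1) [] false,
   Spec.mk (nat_lit 53986) (nat_lit 0) [nat_lit 49612, nat_lit 55444, nat_lit 53500, nat_lit 54040, nat_lit 53968, nat_lit 54004, nat_lit 53980, nat_lit 53992, nat_lit 53984, nat_lit 53988] (nat_lit 1) [nat_lit 34304] false,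
   Spec.mk (nat_lit 53988) (nat_lit 0) [nat_lit 49614, nat_lit 55446, nat_lit 53502, nat_lit 54042, nat_lit 53970, nat_lit 54006, nat_lit 53994, nat_lit 53986] (nat_lit 3) [nat_lit 34306] false,
   Spec.mk (nat_lit 53992) (nat_lit 0) [nat_lit 49618, nat_lit 55450, nat_lit 53506, nat_lit 54046, nat_lit 54010, nat_lit 53986, nat_lit 53994] (nat_lit 2) [nat_lit 34310] false,
   Spec.mk (nat_lit 53994) (nat_lit 0) [nat_lit 49620, nat_lit 55452, nat_lit 53508, nat_lit 54048, nat_lit 54012, nat_lit 53988, nat_lit 53992] (nat_lit 2) [nat_lit 34312] false,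
   Spec.mk (nat_lit 54002) (nat_lit 0) [nat_lit 49628, nat_lit 55460, nat_lit 53516, nat_lit 54056, nat_lit 53984, nat_lit 54004] (nat_lit 2) [] false,
   Spec.mk (nat_lit 54004) (nat_lit 0) [nat_lit 49630, nat_lit 55462, nat_lit 53518, nat_lit 54058, nat_lit 53986, nat_lit 54010, nat_lit 54002, nat_lit 54006] (nat_lit 3) [nat_lit 34322] false,
   Spec.mk (nat_lit 54006) (nat_lit 0) [nat_lit 49632, nat_lit 55464, nat_lit 53520, nat_lit 54060, nat_lit 53988, nat_lit 54012, nat_lit 54004] (nat_lit 6) [nat_lit 34324] false,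
   Spec.mk (nat_lit 54010) (nat_lit 0) [nat_lit 49636, nat_lit 55468, nat_lit 53524, nat_lit 54064, nat_lit 53992, nat_lit 54004, nat_lit 54012] (nat_lit 2) [nat_lit 34328] false,
   Spec.mk (nat_lit 54012) (nat_lit 0) [nat_lit 49638, nat_lit 55470, nat_lit 53526, nat_lit 54066, nat_lit 53994, nat_lit 54006, nat_lit 54018, nat_lit 54010] (nat_lit 3) [nat_lit 34330] false,
   Spec.mk (nat_lit 54018) (nat_lit 0) [nat_lit 49644, nat_lit 55476, nat_lit 53532, nat_lit 54072, nat_lit 54012] (nat_lit 2) [nat_lit 34336] false,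
   Spec.mk (nat_lit 54032) (nat_lit 0) [nat_lit 49658, nat_lit 55490, nat_lit 53546, nat_lit 54194, nat_lit 53978, nat_lit 54038, nat_lit 54034] (nat_lit 0) [] false,
   Spec.mk (nat_lit 54034) (nat_lit 0) [nat_lit 49660, nat_lit 55492, nat_lit 53548, nat_lit 54196, nat_lit 53980, nat_lit 54040, nat_lit 54032] (nat_lit 2) [nat_lit 34352] false,
   Spec.mk (nat_lit 54038) (nat_lit 0) [nat_lit 49664, nat_lit 55496, nat_lit 53552, nat_lit 54200, nat_lit 53984, nat_lit 54056, nat_lit 54032, nat_lit 54040] (nat_lit 2) [] false,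
   Spec.mk (nat_lit 54040) (nat_lit 0) [nat_lit 49666, nat_lit 55498, nat_lit 53554, nat_lit 54202, nat_lit 53986, nat_lit 54058, nat_lit 54034, nat_lit 54046, nat_lit 54038, nat_lit 54042] (nat_lit 2) [nat_lit 34358] false,
   Spec.mk (nat_lit 54042) (nat_lit 0) [nat_lit 49668, nat_lit 55500, nat_lit 53556, nat_lit 54204, nat_lit 53988, nat_lit 54060, nat_lit 54048, nat_lit 54040] (nat_lit 4) [nat_lit 34360] false]

noncomputable def sp141 : List Spec :=
  [Spec.mk (nat_lit 54046) (nat_lit 0) [nat_lit 49672, nat_lit 55504, nat_lit 53560, nat_lit 54208, nat_lit 53992, nat_lit 54064, nat_lit 54040, nat_lit 54048] (nat_lit 4) [nat_lit 34364] false,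
   Spec.mk (nat_lit 54048) (nat_lit 0) [nat_lit 49674, nat_lit 55506, nat_lit 53562, nat_lit 54210, nat_lit 53994, nat_lit 54066, nat_lit 54042, nat_lit 54046] (nat_lit 4) [nat_lit 34366] false,
   Spec.mk (nat_lit 54056) (nat_lit 0) [nat_lit 49682, nat_lit 55514, nat_lit 53570, nat_lit 54218, nat_lit 54002, nat_lit 54110, nat_lit 54038, nat_lit 54058] (nat_lit 1) [] false,
   Spec.mk (nat_lit 54058) (nat_lit 0) [nat_lit 49684, nat_lit 55516, nat_lit 53572, nat_lit 54220, nat_lit 54004, nat_lit 54112, nat_lit 54040, nat_lit 54064, nat_lit 54056, nat_lit 54060] (nat_lit 2) [nat_lit 34376] false,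
   Spec.mk (nat_lit 54060) (nat_lit 0) [nat_lit 49686, nat_lit 55518, nat_lit 53574, nat_lit 54222, nat_lit 54006, nat_lit 54114, nat_lit 54042, nat_lit 54066, nat_lit 54058] (nat_lit 5) [nat_lit 34378] false,
   Spec.mk (nat_lit 54064) (nat_lit 0) [nat_lit 49690, nat_lit 55522, nat_lit 53578, nat_lit 54226, nat_lit 54010, nat_lit 54118, nat_lit 54046, nat_lit 54082, nat_lit 54058, nat_lit 54066] (nat_lit 2) [nat_lit 34382] false,
   Spec.mk (nat_lit 54066) (nat_lit 0) [nat_lit 49692, nat_lit 55524, nat_lit 53580, nat_lit 54228, nat_lit 54012, nat_lit 54120, nat_lit 54048, nat_lit 54084, nat_lit 54060, nat_lit 54072, nat_lit 54064] (nat_lit 3) [nat_lit 34384] false,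
   Spec.mk (nat_lit 54072) (nat_lit 0) [nat_lit 49698, nat_lit 55530, nat_lit 53586, nat_lit 54234, nat_lit 54018, nat_lit 54126, nat_lit 54090, nat_lit 54066] (nat_lit 3) [nat_lit 34390] false,
   Spec.mk (nat_lit 54082) (nat_lit 0) [nat_lit 49708, nat_lit 55540, nat_lit 53596, nat_lit 54244, nat_lit 54136, nat_lit 54064, nat_lit 54084] (nat_lit 2) [nat_lit 34400] false,
   Spec.mk (nat_lit 54084) (nat_lit 0) [nat_lit 49710, nat_lit 55542, nat_lit 53598, nat_lit 54246, nat_lit 54138, nat_lit 54066, nat_lit 54090, nat_lit 54082] (nat_lit 4) [nat_lit 34402] false,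
   Spec.mk (nat_lit 54090) (nat_lit 0) [nat_lit 49716, nat_lit 55548, nat_lit 53604, nat_lit 54252, nat_lit 54144, nat_lit 54072, nat_lit 54084] (nat_lit 2) [nat_lit 34408] false,
   Spec.mk (nat_lit 54110) (nat_lit 0) [nat_lit 49736, nat_lit 55568, nat_lit 53624, nat_lit 54272, nat_lit 54056, nat_lit 54112] (nat_lit 2) [] false,
   Spec.mk (nat_lit 54112) (nat_lit 0) [nat_lit 49738, nat_lit 55570, nat_lit 53626, nat_lit 54274, nat_lit 54058, nat_lit 54118, nat_lit 54110, nat_lit 54114] (nat_lit 3) [nat_lit 34430] false,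
   Spec.mk (nat_lit 54114) (nat_lit 0) [nat_lit 49740, nat_lit 55572, nat_lit 53628, nat_lit 54276, nat_lit 54060, nat_lit 54120, nat_lit 54112] (nat_lit 6) [nat_lit 34432] false,
   Spec.mk (nat_lit 54118) (nat_lit 0) [nat_lit 49744, nat_lit 55576, nat_lit 53632, nat_lit 54280, nat_lit 54064, nat_lit 54136, nat_lit 54112, nat_lit 54120] (nat_lit 4) [nat_lit 34436] false,
   Spec.mk (nat_lit 54120) (nat_lit 0) [nat_lit 49746, nat_lit 55578, nat_lit 53634, nat_lit 54282, nat_lit 54066, nat_lit 54138, nat_lit 54114, nat_lit 54126, nat_lit 54118] (nat_lit 5) [nat_lit 34438] false,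
   Spec.mk (nat_lit 54126) (nat_lit 0) [nat_lit 49752, nat_lit 55584, nat_lit 53640, nat_lit 54288, nat_lit 54072, nat_lit 54144, nat_lit 54120] (nat_lit 6) [nat_lit 34444] false,
   Spec.mk (nat_lit 54136) (nat_lit 0) [nat_lit 49762, nat_lit 55594, nat_lit 53650, nat_lit 54298, nat_lit 54082, nat_lit 54118, nat_lit 54138] (nat_lit 2) [nat_lit 34454] false,
   Spec.mk (nat_lit 54138) (nat_lit 0) [nat_lit 49764, nat_lit 55596, nat_lit 53652, nat_lit 54300, nat_lit 54084, nat_lit 54120, nat_lit 54144, nat_lit 54136] (nat_lit 4) [nat_lit 34456] false,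
   Spec.mk (nat_lit 54144) (nat_lit 0) [nat_lit 49770, nat_lit 55602, nat_lit 53658, nat_lit 54306, nat_lit 54090, nat_lit 54126, nat_lit 54162, nat_lit 54138] (nat_lit 3) [nat_lit 34462] false,
   Spec.mk (nat_lit 54162) (nat_lit 0) [nat_lit 49788, nat_lit 55620, nat_lit 53676, nat_lit 54324, nat_lit 54144] (nat_lit 2) [nat_lit 34480] false,
   Spec.mk (nat_lit 54194) (nat_lit 2) [nat_lit 49820, nat_lit 55652, nat_lit 53708, nat_lit 54032, nat_lit 54200, nat_lit 54196] (nat_lit 0) [] false,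
   Spec.mk (nat_lit 54196) (nat_lit 0) [nat_lit 49822, nat_lit 55654, nat_lit 53710, nat_lit 54034, nat_lit 54202, nat_lit 54194] (nat_lit 0) [nat_lit 34514] false,
   Spec.mk (nat_lit 54200) (nat_lit 0) [nat_lit 49826, nat_lit 55658, nat_lit 53714, nat_lit 54038, nat_lit 54218, nat_lit 54194, nat_lit 54202] (nat_lit 0) [] false,
   Spec.mk (nat_lit 54202) (nat_lit 0) [nat_lit 49828, nat_lit 55660, nat_lit 53716, nat_lit 54040, nat_lit 54220, nat_lit 54196, nat_lit 54208, nat_lit 54200, nat_lit 54204] (nat_lit 0) [nat_lit 34520] false,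
   Spec.mk (nat_lit 54204) (nat_lit 0) [nat_lit 49830, nat_lit 55662, nat_lit 53718, nat_lit 54042, nat_lit 54222, nat_lit 54210, nat_lit 54202] (nat_lit 2) [nat_lit 34522] false,
   Spec.mk (nat_lit 54208) (nat_lit 0) [nat_lit 49834, nat_lit 55666, nat_lit 53722, nat_lit 54046, nat_lit 54226, nat_lit 54202, nat_lit 54210] (nat_lit 2) [nat_lit 34526] false,
   Spec.mk (nat_lit 54210) (nat_lit 0) [nat_lit 49836, nat_lit 55668, nat_lit 53724, nat_lit 54048, nat_lit 54228, nat_lit 54204, nat_lit 54208] (nat_lit 2) [nat_lit 34528] false,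
   Spec.mk (nat_lit 54218) (nat_lit 0) [nat_lit 49844, nat_lit 55676, nat_lit 53732, nat_lit 54056, nat_lit 54272, nat_lit 54200, nat_lit 54220] (nat_lit 0) [] false,
   Spec.mk (nat_lit 54220) (nat_lit 0) [nat_lit 49846, nat_lit 55678, nat_lit 53734, nat_lit 54058, nat_lit 54274, nat_lit 54202, nat_lit 54226, nat_lit 54218, nat_lit 54222] (nat_lit 1) [nat_lit 34538] false,
   Spec.mk (nat_lit 54222) (nat_lit 0) [nat_lit 49848, nat_lit 55680, nat_lit 53736, nat_lit 54060, nat_lit 54276, nat_lit 54204, nat_lit 54228, nat_lit 54220] (nat_lit 4) [nat_lit 34540] false,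
   Spec.mk (nat_lit 54226) (nat_lit 0) [nat_lit 49852, nat_lit 55684, nat_lit 53740, nat_lit 54064, nat_lit 54280, nat_lit 54208, nat_lit 54244, nat_lit 54220, nat_lit 54228] (nat_lit 1) [nat_lit 34544] false,
   Spec.mk (nat_lit 54228) (nat_lit 0) [nat_lit 49854, nat_lit 55686, nat_lit 53742, nat_lit 54066, nat_lit 54282, nat_lit 54210, nat_lit 54246, nat_lit 54222, nat_lit 54234, nat_lit 54226] (nat_lit 2) [nat_lit 34546] false,
   Spec.mk (nat_lit 54234) (nat_lit 0) [nat_lit 49860, nat_lit 55692, nat_lit 53748, nat_lit 54072, nat_lit 54288, nat_lit 54252, nat_lit 54228] (nat_lit 2) [nat_lit 34552] false,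
   Spec.mk (nat_lit 54244) (nat_lit 0) [nat_lit 49870, nat_lit 55702, nat_lit 53758, nat_lit 54082, nat_lit 54298, nat_lit 54226, nat_lit 54246] (nat_lit 2) [nat_lit 34562] false,
   Spec.mk (nat_lit 54246) (nat_lit 0) [nat_lit 49872, nat_lit 55704, nat_lit 53760, nat_lit 54084, nat_lit 54300, nat_lit 54228, nat_lit 54252, nat_lit 54244] (nat_lit 4) [nat_lit 34564] false,
   Spec.mk (nat_lit 54252) (nat_lit 0) [nat_lit 49878, nat_lit 55710, nat_lit 53766, nat_lit 54090, nat_lit 54306, nat_lit 54234, nat_lit 54246] (nat_lit 2) [nat_lit 34570] false,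
   Spec.mk (nat_lit 54272) (nat_lit 1) [nat_lit 49898, nat_lit 55730, nat_lit 53786, nat_lit 54110, nat_lit 54434, nat_lit 54218, nat_lit 54274] (nat_lit 0) [] false,
   Spec.mk (nat_lit 54274) (nat_lit 0) [nat_lit 49900, nat_lit 55732, nat_lit 53788, nat_lit 54112, nat_lit 54436, nat_lit 54220, nat_lit 54280, nat_lit 54272, nat_lit 54276] (nat_lit 0) [nat_lit 34592] false,
   Spec.mk (nat_lit 54276) (nat_lit 0) [nat_lit 49902, nat_lit 55734, nat_lit 53790, nat_lit 54114, nat_lit 54438, nat_lit 54222, nat_lit 54282, nat_lit 54274] (nat_lit 3) [nat_lit 34594] false,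
   Spec.mk (nat_lit 54280) (nat_lit 0) [nat_lit 49906, nat_lit 55738, nat_lit 53794, nat_lit 54118, nat_lit 54442, nat_lit 54226, nat_lit 54298, nat_lit 54274, nat_lit 54282] (nat_lit 1) [nat_lit 34598] false,
   Spec.mk (nat_lit 54282) (nat_lit 0) [nat_lit 49908, nat_lit 55740, nat_lit 53796, nat_lit 54120, nat_lit 54444, nat_lit 54228, nat_lit 54300, nat_lit 54276, nat_lit 54288, nat_lit 54280] (nat_lit 2) [nat_lit 34600] false,
   Spec.mk (nat_lit 54288) (nat_lit 0) [nat_lit 49914, nat_lit 55746, nat_lit 53802, nat_lit 54126, nat_lit 54450, nat_lit 54234, nat_lit 54306, nat_lit 54282] (nat_lit 3) [nat_lit 34606] false,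
   Spec.mk (nat_lit 54298) (nat_lit 0) [nat_lit 49924, nat_lit 55756, nat_lit 53812, nat_lit 54136, nat_lit 54460, nat_lit 54244, nat_lit 54352, nat_lit 54280, nat_lit 54300] (nat_lit 0) [nat_lit 34616] false,
   Spec.mk (nat_lit 54300) (nat_lit 0) [nat_lit 49926, nat_lit 55758, nat_lit 53814, nat_lit 54138, nat_lit 54462, nat_lit 54246, nat_lit 54354, nat_lit 54282, nat_lit 54306, nat_lit 54298] (nat_lit 2) [nat_lit 34618] false,
   Spec.mk (nat_lit 54306) (nat_lit 0) [nat_lit 49932, nat_lit 55764, nat_lit 53820, nat_lit 54144, nat_lit 54468, nat_lit 54252, nat_lit 54360, nat_lit 54288, nat_lit 54324, nat_lit 54300] (nat_lit 1) [nat_lit 34624] false,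
   Spec.mk (nat_lit 54324) (nat_lit 0) [nat_lit 49950, nat_lit 55782, nat_lit 53838, nat_lit 54162, nat_lit 54486, nat_lit 54378, nat_lit 54306] (nat_lit 1) [nat_lit 34642] false,
   Spec.mk (nat_lit 54352) (nat_lit 0) [nat_lit 49978, nat_lit 55810, nat_lit 53866, nat_lit 54514, nat_lit 54298, nat_lit 54354] (nat_lit 0) [nat_lit 34670] false,
   Spec.mk (nat_lit 54354) (nat_lit 0) [nat_lit 49980, nat_lit 55812, nat_lit 53868, nat_lit 54516, nat_lit 54300, nat_lit 54360, nat_lit 54352] (nat_lit 2) [nat_lit 34672] false,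
   Spec.mk (nat_lit 54360) (nat_lit 0) [nat_lit 49986, nat_lit 55818, nat_lit 53874, nat_lit 54522, nat_lit 54306, nat_lit 54378, nat_lit 54354] (nat_lit 2) [nat_lit 34678] false,
   Spec.mk (nat_lit 54378) (nat_lit 0) [nat_lit 50004, nat_lit 55836, nat_lit 53892, nat_lit 54540, nat_lit 54324, nat_lit 54360] (nat_lit 0) [nat_lit 34696] false,
   Spec.mk (nat_lit 54434) (nat_lit 2) [nat_lit 50060, nat_lit 55892, nat_lit 54272, nat_lit 54436] (nat_lit 0) [] false,
   Spec.mk (nat_lit 54436) (nat_lit 1) [nat_lit 50062, nat_lit 55894, nat_lit 54274, nat_lit 54442, nat_lit 54434, nat_lit 54438] (nat_lit 0) [nat_lit 34754] false,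
   Spec.mk (nat_lit 54438) (nat_lit 0) [nat_lit 50064, nat_lit 55896, nat_lit 54276, nat_lit 54444, nat_lit 54436] (nat_lit 2) [nat_lit 34756] false,
   Spec.mk (nat_lit 54442) (nat_lit 0) [nat_lit 50068, nat_lit 55900, nat_lit 54280, nat_lit 54460, nat_lit 54436, nat_lit 54444] (nat_lit 0) [nat_lit 34760] false,
   Spec.mk (nat_lit 54444) (nat_lit 0) [nat_lit 50070, nat_lit 55902, nat_lit 54282, nat_lit 54462, nat_lit 54438, nat_lit 54450, nat_lit 54442] (nat_lit 1) [nat_lit 34762] false,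
   Spec.mk (nat_lit 54450) (nat_lit 0) [nat_lit 50076, nat_lit 55908, nat_lit 54288, nat_lit 54468, nat_lit 54444] (nat_lit 2) [nat_lit 34768] false,
   Spec.mk (nat_lit 54460) (nat_lit 0) [nat_lit 50086, nat_lit 55918, nat_lit 54298, nat_lit 54514, nat_lit 54442, nat_lit 54462] (nat_lit 0) [nat_lit 34778] false,
   Spec.mk (nat_lit 54462) (nat_lit 0) [nat_lit 50088, nat_lit 55920, nat_lit 54300, nat_lit 54516, nat_lit 54444, nat_lit 54468, nat_lit 54460] (nat_lit 2) [nat_lit 34780] false,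
   Spec.mk (nat_lit 54468) (nat_lit 0) [nat_lit 50094, nat_lit 55926, nat_lit 54306, nat_lit 54522, nat_lit 54450, nat_lit 54486, nat_lit 54462] (nat_lit 1) [nat_lit 34786] false]

noncomputable def sp142 : List Spec :=
  [Spec.mk (nat_lit 54486) (nat_lit 0) [nat_lit 50112, nat_lit 55944, nat_lit 54324, nat_lit 54540, nat_lit 54468] (nat_lit 2) [nat_lit 34804] false,
   Spec.mk (nat_lit 54514) (nat_lit 2) [nat_lit 50140, nat_lit 55972, nat_lit 54352, nat_lit 54460, nat_lit 54516] (nat_lit 0) [nat_lit 34832] false,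
   Spec.mk (nat_lit 54516) (nat_lit 0) [nat_lit 50142, nat_lit 55974, nat_lit 54354, nat_lit 54462, nat_lit 54522, nat_lit 54514] (nat_lit 0) [nat_lit 34834] false,
   Spec.mk (nat_lit 54522) (nat_lit 0) [nat_lit 50148, nat_lit 55980, nat_lit 54360, nat_lit 54468, nat_lit 54540, nat_lit 54516] (nat_lit 0) [nat_lit 34840] false,
   Spec.mk (nat_lit 54540) (nat_lit 1) [nat_lit 50166, nat_lit 55998, nat_lit 54378, nat_lit 54486, nat_lit 54594, nat_lit 54522] (nat_lit 0) [nat_lit 34858] false,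
   Spec.mk (nat_lit 54594) (nat_lit 2) [nat_lit 50220, nat_lit 56052, nat_lit 54540] (nat_lit 0) [nat_lit 34912] false,
   Spec.mk (nat_lit 54692) (nat_lit 6) [nat_lit 50318, nat_lit 53234, nat_lit 54710, nat_lit 54698] (nat_lit 0) [] false,
   Spec.mk (nat_lit 54698) (nat_lit 4) [nat_lit 50324, nat_lit 53240, nat_lit 54716, nat_lit 54692, nat_lit 54700] (nat_lit 0) [] false,
   Spec.mk (nat_lit 54700) (nat_lit 4) [nat_lit 50326, nat_lit 53242, nat_lit 54718, nat_lit 54698] (nat_lit 0) [nat_lit 35018] false,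
   Spec.mk (nat_lit 54710) (nat_lit 4) [nat_lit 50336, nat_lit 53252, nat_lit 54764, nat_lit 54692, nat_lit 54716] (nat_lit 0) [] false,
   Spec.mk (nat_lit 54716) (nat_lit 4) [nat_lit 50342, nat_lit 53258, nat_lit 54770, nat_lit 54698, nat_lit 54734, nat_lit 54710, nat_lit 54722, nat_lit 54718] (nat_lit 0) [] false,
   Spec.mk (nat_lit 54718) (nat_lit 3) [nat_lit 50344, nat_lit 53260, nat_lit 54772, nat_lit 54700, nat_lit 54736, nat_lit 54724, nat_lit 54716] (nat_lit 0) [nat_lit 35036] false,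
   Spec.mk (nat_lit 54722) (nat_lit 2) [nat_lit 50348, nat_lit 53264, nat_lit 54776, nat_lit 54740, nat_lit 54716, nat_lit 54724] (nat_lit 0) [] false,
   Spec.mk (nat_lit 54724) (nat_lit 3) [nat_lit 50350, nat_lit 53266, nat_lit 54778, nat_lit 54742, nat_lit 54718, nat_lit 54722, nat_lit 54726] (nat_lit 0) [nat_lit 35042] false,
   Spec.mk (nat_lit 54726) (nat_lit 2) [nat_lit 50352, nat_lit 53268, nat_lit 54780, nat_lit 54744, nat_lit 54724] (nat_lit 0) [nat_lit 35044] false,
   Spec.mk (nat_lit 54734) (nat_lit 2) [nat_lit 50360, nat_lit 53276, nat_lit 54788, nat_lit 54716, nat_lit 54740, nat_lit 54736] (nat_lit 0) [] false,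
   Spec.mk (nat_lit 54736) (nat_lit 0) [nat_lit 50362, nat_lit 53278, nat_lit 54790, nat_lit 54718, nat_lit 54742, nat_lit 54734] (nat_lit 0) [nat_lit 35054] false,
   Spec.mk (nat_lit 54740) (nat_lit 2) [nat_lit 50366, nat_lit 53282, nat_lit 54794, nat_lit 54722, nat_lit 54734, nat_lit 54742] (nat_lit 0) [] false,
   Spec.mk (nat_lit 54742) (nat_lit 2) [nat_lit 50368, nat_lit 53284, nat_lit 54796, nat_lit 54724, nat_lit 54736, nat_lit 54748, nat_lit 54740, nat_lit 54744] (nat_lit 0) [nat_lit 35060] false,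
   Spec.mk (nat_lit 54744) (nat_lit 0) [nat_lit 50370, nat_lit 53286, nat_lit 54798, nat_lit 54726, nat_lit 54750, nat_lit 54742] (nat_lit 0) [nat_lit 35062] false,
   Spec.mk (nat_lit 54748) (nat_lit 2) [nat_lit 50374, nat_lit 53290, nat_lit 54802, nat_lit 54742, nat_lit 54750] (nat_lit 0) [nat_lit 35066] false,
   Spec.mk (nat_lit 54750) (nat_lit 2) [nat_lit 50376, nat_lit 53292, nat_lit 54804, nat_lit 54744, nat_lit 54748] (nat_lit 0) [nat_lit 35068] false,
   Spec.mk (nat_lit 54764) (nat_lit 4) [nat_lit 50390, nat_lit 53306, nat_lit 54926, nat_lit 54710, nat_lit 54770] (nat_lit 0) [] false,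
   Spec.mk (nat_lit 54770) (nat_lit 3) [nat_lit 50396, nat_lit 53312, nat_lit 54932, nat_lit 54716, nat_lit 54788, nat_lit 54764, nat_lit 54776, nat_lit 54772] (nat_lit 0) [] false,
   Spec.mk (nat_lit 54772) (nat_lit 2) [nat_lit 50398, nat_lit 53314, nat_lit 54934, nat_lit 54718, nat_lit 54790, nat_lit 54778, nat_lit 54770] (nat_lit 0) [nat_lit 35090] false,
   Spec.mk (nat_lit 54776) (nat_lit 0) [nat_lit 50402, nat_lit 53318, nat_lit 54938, nat_lit 54722, nat_lit 54794, nat_lit 54770, nat_lit 54778] (nat_lit 0) [] false,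
   Spec.mk (nat_lit 54778) (nat_lit 1) [nat_lit 50404, nat_lit 53320, nat_lit 54940, nat_lit 54724, nat_lit 54796, nat_lit 54772, nat_lit 54776, nat_lit 54780] (nat_lit 0) [nat_lit 35096] false,
   Spec.mk (nat_lit 54780) (nat_lit 0) [nat_lit 50406, nat_lit 53322, nat_lit 54942, nat_lit 54726, nat_lit 54798, nat_lit 54778] (nat_lit 0) [nat_lit 35098] false,
   Spec.mk (nat_lit 54788) (nat_lit 3) [nat_lit 50414, nat_lit 53330, nat_lit 54950, nat_lit 54734, nat_lit 54842, nat_lit 54770, nat_lit 54794, nat_lit 54790] (nat_lit 0) [] false,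
   Spec.mk (nat_lit 54790) (nat_lit 1) [nat_lit 50416, nat_lit 53332, nat_lit 54952, nat_lit 54736, nat_lit 54844, nat_lit 54772, nat_lit 54796, nat_lit 54788] (nat_lit 0) [nat_lit 35108] false,
   Spec.mk (nat_lit 54794) (nat_lit 2) [nat_lit 50420, nat_lit 53336, nat_lit 54956, nat_lit 54740, nat_lit 54848, nat_lit 54776, nat_lit 54812, nat_lit 54788, nat_lit 54796] (nat_lit 0) [] false,
   Spec.mk (nat_lit 54796) (nat_lit 2) [nat_lit 50422, nat_lit 53338, nat_lit 54958, nat_lit 54742, nat_lit 54850, nat_lit 54778, nat_lit 54814, nat_lit 54790, nat_lit 54802, nat_lit 54794, nat_lit 54798] (nat_lit 0) [nat_lit 35114] false,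
   Spec.mk (nat_lit 54798) (nat_lit 0) [nat_lit 50424, nat_lit 53340, nat_lit 54960, nat_lit 54744, nat_lit 54852, nat_lit 54780, nat_lit 54816, nat_lit 54804, nat_lit 54796] (nat_lit 0) [nat_lit 35116] false,
   Spec.mk (nat_lit 54802) (nat_lit 1) [nat_lit 50428, nat_lit 53344, nat_lit 54964, nat_lit 54748, nat_lit 54856, nat_lit 54820, nat_lit 54796, nat_lit 54804] (nat_lit 0) [nat_lit 35120] false,
   Spec.mk (nat_lit 54804) (nat_lit 1) [nat_lit 50430, nat_lit 53346, nat_lit 54966, nat_lit 54750, nat_lit 54858, nat_lit 54822, nat_lit 54798, nat_lit 54802] (nat_lit 0) [nat_lit 35122] false,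
   Spec.mk (nat_lit 54812) (nat_lit 2) [nat_lit 50438, nat_lit 53354, nat_lit 54974, nat_lit 54866, nat_lit 54794, nat_lit 54814] (nat_lit 0) [] false,
   Spec.mk (nat_lit 54814) (nat_lit 1) [nat_lit 50440, nat_lit 53356, nat_lit 54976, nat_lit 54868, nat_lit 54796, nat_lit 54820, nat_lit 54812, nat_lit 54816] (nat_lit 0) [nat_lit 35132] false,
   Spec.mk (nat_lit 54816) (nat_lit 0) [nat_lit 50442, nat_lit 53358, nat_lit 54978, nat_lit 54870, nat_lit 54798, nat_lit 54822, nat_lit 54814] (nat_lit 2) [nat_lit 35134] false,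
   Spec.mk (nat_lit 54820) (nat_lit 2) [nat_lit 50446, nat_lit 53362, nat_lit 54982, nat_lit 54874, nat_lit 54802, nat_lit 54814, nat_lit 54822] (nat_lit 0) [nat_lit 35138] false,
   Spec.mk (nat_lit 54822) (nat_lit 1) [nat_lit 50448, nat_lit 53364, nat_lit 54984, nat_lit 54876, nat_lit 54804, nat_lit 54816, nat_lit 54828, nat_lit 54820] (nat_lit 0) [nat_lit 35140] false,
   Spec.mk (nat_lit 54828) (nat_lit 2) [nat_lit 50454, nat_lit 53370, nat_lit 54990, nat_lit 54882, nat_lit 54822] (nat_lit 0) [nat_lit 35146] false,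
   Spec.mk (nat_lit 54842) (nat_lit 2) [nat_lit 50468, nat_lit 53384, nat_lit 55004, nat_lit 54788, nat_lit 54848, nat_lit 54844] (nat_lit 0) [] false,
   Spec.mk (nat_lit 54844) (nat_lit 0) [nat_lit 50470, nat_lit 53386, nat_lit 55006, nat_lit 54790, nat_lit 54850, nat_lit 54842] (nat_lit 0) [nat_lit 35162] false,
   Spec.mk (nat_lit 54848) (nat_lit 0) [nat_lit 50474, nat_lit 53390, nat_lit 55010, nat_lit 54794, nat_lit 54866, nat_lit 54842, nat_lit 54850] (nat_lit 0) [] false,
   Spec.mk (nat_lit 54850) (nat_lit 0) [nat_lit 50476, nat_lit 53392, nat_lit 55012, nat_lit 54796, nat_lit 54868, nat_lit 54844, nat_lit 54856, nat_lit 54848, nat_lit 54852] (nat_lit 0) [nat_lit 35168] false,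
   Spec.mk (nat_lit 54852) (nat_lit 0) [nat_lit 50478, nat_lit 53394, nat_lit 55014, nat_lit 54798, nat_lit 54870, nat_lit 54858, nat_lit 54850] (nat_lit 2) [nat_lit 35170] false,
   Spec.mk (nat_lit 54856) (nat_lit 0) [nat_lit 50482, nat_lit 53398, nat_lit 55018, nat_lit 54802, nat_lit 54874, nat_lit 54850, nat_lit 54858] (nat_lit 2) [nat_lit 35174] false,
   Spec.mk (nat_lit 54858) (nat_lit 0) [nat_lit 50484, nat_lit 53400, nat_lit 55020, nat_lit 54804, nat_lit 54876, nat_lit 54852, nat_lit 54856] (nat_lit 2) [nat_lit 35176] false,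
   Spec.mk (nat_lit 54866) (nat_lit 2) [nat_lit 50492, nat_lit 53408, nat_lit 55028, nat_lit 54812, nat_lit 54848, nat_lit 54868] (nat_lit 0) [] false,
   Spec.mk (nat_lit 54868) (nat_lit 1) [nat_lit 50494, nat_lit 53410, nat_lit 55030, nat_lit 54814, nat_lit 54850, nat_lit 54874, nat_lit 54866, nat_lit 54870] (nat_lit 0) [nat_lit 35186] false,
   Spec.mk (nat_lit 54870) (nat_lit 0) [nat_lit 50496, nat_lit 53412, nat_lit 55032, nat_lit 54816, nat_lit 54852, nat_lit 54876, nat_lit 54868] (nat_lit 2) [nat_lit 35188] false,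
   Spec.mk (nat_lit 54874) (nat_lit 1) [nat_lit 50500, nat_lit 53416, nat_lit 55036, nat_lit 54820, nat_lit 54856, nat_lit 54892, nat_lit 54868, nat_lit 54876] (nat_lit 0) [nat_lit 35192] false,
   Spec.mk (nat_lit 54876) (nat_lit 0) [nat_lit 50502, nat_lit 53418, nat_lit 55038, nat_lit 54822, nat_lit 54858, nat_lit 54894, nat_lit 54870, nat_lit 54882, nat_lit 54874] (nat_lit 0) [nat_lit 35194] false,
   Spec.mk (nat_lit 54882) (nat_lit 0) [nat_lit 50508, nat_lit 53424, nat_lit 55044, nat_lit 54828, nat_lit 54900, nat_lit 54876] (nat_lit 0) [nat_lit 35200] false,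
   Spec.mk (nat_lit 54892) (nat_lit 2) [nat_lit 50518, nat_lit 53434, nat_lit 55054, nat_lit 54874, nat_lit 54894] (nat_lit 0) [nat_lit 35210] false,
   Spec.mk (nat_lit 54894) (nat_lit 0) [nat_lit 50520, nat_lit 53436, nat_lit 55056, nat_lit 54876, nat_lit 54900, nat_lit 54892] (nat_lit 0) [nat_lit 35212] false,
   Spec.mk (nat_lit 54900) (nat_lit 2) [nat_lit 50526, nat_lit 53442, nat_lit 55062, nat_lit 54882, nat_lit 54894] (nat_lit 0) [nat_lit 35218] false,
   Spec.mk (nat_lit 54926) (nat_lit 4) [nat_lit 50552, nat_lit 53468, nat_lit 55412, nat_lit 54764, nat_lit 54932] (nat_lit 0) [] false,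
   Spec.mk (nat_lit 54932) (nat_lit 3) [nat_lit 50558, nat_lit 53474, nat_lit 55418, nat_lit 54770, nat_lit 54950, nat_lit 54926, nat_lit 54938, nat_lit 54934] (nat_lit 0) [] false,
   Spec.mk (nat_lit 54934) (nat_lit 2) [nat_lit 50560, nat_lit 53476, nat_lit 55420, nat_lit 54772, nat_lit 54952, nat_lit 54940, nat_lit 54932] (nat_lit 0) [nat_lit 35252] false]

noncomputable def sp143 : List Spec :=
  [Spec.mk (nat_lit 54938) (nat_lit 0) [nat_lit 50564, nat_lit 53480, nat_lit 55424, nat_lit 54776, nat_lit 54956, nat_lit 54932, nat_lit 54940] (nat_lit 0) [] false,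
   Spec.mk (nat_lit 54940) (nat_lit 1) [nat_lit 50566, nat_lit 53482, nat_lit 55426, nat_lit 54778, nat_lit 54958, nat_lit 54934, nat_lit 54938, nat_lit 54942] (nat_lit 0) [nat_lit 35258] false,
   Spec.mk (nat_lit 54942) (nat_lit 0) [nat_lit 50568, nat_lit 53484, nat_lit 55428, nat_lit 54780, nat_lit 54960, nat_lit 54940] (nat_lit 0) [nat_lit 35260] false,
   Spec.mk (nat_lit 54950) (nat_lit 2) [nat_lit 50576, nat_lit 53492, nat_lit 55436, nat_lit 54788, nat_lit 55004, nat_lit 54932, nat_lit 54956, nat_lit 54952] (nat_lit 0) [] false,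
   Spec.mk (nat_lit 54952) (nat_lit 0) [nat_lit 50578, nat_lit 53494, nat_lit 55438, nat_lit 54790, nat_lit 55006, nat_lit 54934, nat_lit 54958, nat_lit 54950] (nat_lit 0) [nat_lit 35270] false,
   Spec.mk (nat_lit 54956) (nat_lit 1) [nat_lit 50582, nat_lit 53498, nat_lit 55442, nat_lit 54794, nat_lit 55010, nat_lit 54938, nat_lit 54974, nat_lit 54950, nat_lit 54958] (nat_lit 0) [] false,
   Spec.mk (nat_lit 54958) (nat_lit 1) [nat_lit 50584, nat_lit 53500, nat_lit 55444, nat_lit 54796, nat_lit 55012, nat_lit 54940, nat_lit 54976, nat_lit 54952, nat_lit 54964, nat_lit 54956, nat_lit 54960] (nat_lit 0) [nat_lit 35276] false,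
   Spec.mk (nat_lit 54960) (nat_lit 0) [nat_lit 50586, nat_lit 53502, nat_lit 55446, nat_lit 54798, nat_lit 55014, nat_lit 54942, nat_lit 54978, nat_lit 54966, nat_lit 54958] (nat_lit 1) [nat_lit 35278] false,
   Spec.mk (nat_lit 54964) (nat_lit 0) [nat_lit 50590, nat_lit 53506, nat_lit 55450, nat_lit 54802, nat_lit 55018, nat_lit 54982, nat_lit 54958, nat_lit 54966] (nat_lit 0) [nat_lit 35282] false,
   Spec.mk (nat_lit 54966) (nat_lit 0) [nat_lit 50592, nat_lit 53508, nat_lit 55452, nat_lit 54804, nat_lit 55020, nat_lit 54984, nat_lit 54960, nat_lit 54964] (nat_lit 0) [nat_lit 35284] false,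
   Spec.mk (nat_lit 54974) (nat_lit 0) [nat_lit 50600, nat_lit 53516, nat_lit 55460, nat_lit 54812, nat_lit 55028, nat_lit 54956, nat_lit 54976] (nat_lit 0) [] false,
   Spec.mk (nat_lit 54976) (nat_lit 0) [nat_lit 50602, nat_lit 53518, nat_lit 55462, nat_lit 54814, nat_lit 55030, nat_lit 54958, nat_lit 54982, nat_lit 54974, nat_lit 54978] (nat_lit 1) [nat_lit 35294] false,
   Spec.mk (nat_lit 54978) (nat_lit 0) [nat_lit 50604, nat_lit 53520, nat_lit 55464, nat_lit 54816, nat_lit 55032, nat_lit 54960, nat_lit 54984, nat_lit 54976] (nat_lit 4) [nat_lit 35296] false,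
   Spec.mk (nat_lit 54982) (nat_lit 0) [nat_lit 50608, nat_lit 53524, nat_lit 55468, nat_lit 54820, nat_lit 55036, nat_lit 54964, nat_lit 54976, nat_lit 54984] (nat_lit 0) [nat_lit 35300] false,
   Spec.mk (nat_lit 54984) (nat_lit 0) [nat_lit 50610, nat_lit 53526, nat_lit 55470, nat_lit 54822, nat_lit 55038, nat_lit 54966, nat_lit 54978, nat_lit 54990, nat_lit 54982] (nat_lit 1) [nat_lit 35302] false,
   Spec.mk (nat_lit 54990) (nat_lit 0) [nat_lit 50616, nat_lit 53532, nat_lit 55476, nat_lit 54828, nat_lit 55044, nat_lit 54984] (nat_lit 0) [nat_lit 35308] false,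
   Spec.mk (nat_lit 55004) (nat_lit 3) [nat_lit 50630, nat_lit 53546, nat_lit 55490, nat_lit 54842, nat_lit 55166, nat_lit 54950, nat_lit 55010, nat_lit 55006] (nat_lit 0) [] false,
   Spec.mk (nat_lit 55006) (nat_lit 1) [nat_lit 50632, nat_lit 53548, nat_lit 55492, nat_lit 54844, nat_lit 55168, nat_lit 54952, nat_lit 55012, nat_lit 55004] (nat_lit 0) [nat_lit 35324] false,
   Spec.mk (nat_lit 55010) (nat_lit 1) [nat_lit 50636, nat_lit 53552, nat_lit 55496, nat_lit 54848, nat_lit 55172, nat_lit 54956, nat_lit 55028, nat_lit 55004, nat_lit 55012] (nat_lit 0) [] false,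
   Spec.mk (nat_lit 55012) (nat_lit 1) [nat_lit 50638, nat_lit 53554, nat_lit 55498, nat_lit 54850, nat_lit 55174, nat_lit 54958, nat_lit 55030, nat_lit 55006, nat_lit 55018, nat_lit 55010, nat_lit 55014] (nat_lit 0) [nat_lit 35330] false,
   Spec.mk (nat_lit 55014) (nat_lit 0) [nat_lit 50640, nat_lit 53556, nat_lit 55500, nat_lit 54852, nat_lit 55176, nat_lit 54960, nat_lit 55032, nat_lit 55020, nat_lit 55012] (nat_lit 1) [nat_lit 35332] false,
   Spec.mk (nat_lit 55018) (nat_lit 0) [nat_lit 50644, nat_lit 53560, nat_lit 55504, nat_lit 54856, nat_lit 55180, nat_lit 54964, nat_lit 55036, nat_lit 55012, nat_lit 55020] (nat_lit 1) [nat_lit 35336] false,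
   Spec.mk (nat_lit 55020) (nat_lit 0) [nat_lit 50646, nat_lit 53562, nat_lit 55506, nat_lit 54858, nat_lit 55182, nat_lit 54966, nat_lit 55038, nat_lit 55014, nat_lit 55018] (nat_lit 1) [nat_lit 35338] false,
   Spec.mk (nat_lit 55028) (nat_lit 2) [nat_lit 50654, nat_lit 53570, nat_lit 55514, nat_lit 54866, nat_lit 55190, nat_lit 54974, nat_lit 55082, nat_lit 55010, nat_lit 55030] (nat_lit 0) [] false,
   Spec.mk (nat_lit 55030) (nat_lit 1) [nat_lit 50656, nat_lit 53572, nat_lit 55516, nat_lit 54868, nat_lit 55192, nat_lit 54976, nat_lit 55084, nat_lit 55012, nat_lit 55036, nat_lit 55028, nat_lit 55032] (nat_lit 0) [nat_lit 35348] false,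
   Spec.mk (nat_lit 55032) (nat_lit 0) [nat_lit 50658, nat_lit 53574, nat_lit 55518, nat_lit 54870, nat_lit 55194, nat_lit 54978, nat_lit 55086, nat_lit 55014, nat_lit 55038, nat_lit 55030] (nat_lit 2) [nat_lit 35350] false,
   Spec.mk (nat_lit 55036) (nat_lit 1) [nat_lit 50662, nat_lit 53578, nat_lit 55522, nat_lit 54874, nat_lit 55198, nat_lit 54982, nat_lit 55090, nat_lit 55018, nat_lit 55054, nat_lit 55030, nat_lit 55038] (nat_lit 0) [nat_lit 35354] false,
   Spec.mk (nat_lit 55038) (nat_lit 0) [nat_lit 50664, nat_lit 53580, nat_lit 55524, nat_lit 54876, nat_lit 55200, nat_lit 54984, nat_lit 55092, nat_lit 55020, nat_lit 55056, nat_lit 55032, nat_lit 55044, nat_lit 55036] (nat_lit 0) [nat_lit 35356] false,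
   Spec.mk (nat_lit 55044) (nat_lit 0) [nat_lit 50670, nat_lit 53586, nat_lit 55530, nat_lit 54882, nat_lit 55206, nat_lit 54990, nat_lit 55098, nat_lit 55062, nat_lit 55038] (nat_lit 0) [nat_lit 35362] false,
   Spec.mk (nat_lit 55054) (nat_lit 1) [nat_lit 50680, nat_lit 53596, nat_lit 55540, nat_lit 54892, nat_lit 55216, nat_lit 55108, nat_lit 55036, nat_lit 55056] (nat_lit 0) [nat_lit 35372] false,
   Spec.mk (nat_lit 55056) (nat_lit 0) [nat_lit 50682, nat_lit 53598, nat_lit 55542, nat_lit 54894, nat_lit 55218, nat_lit 55110, nat_lit 55038, nat_lit 55062, nat_lit 55054] (nat_lit 1) [nat_lit 35374] false,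
   Spec.mk (nat_lit 55062) (nat_lit 1) [nat_lit 50688, nat_lit 53604, nat_lit 55548, nat_lit 54900, nat_lit 55224, nat_lit 55116, nat_lit 55044, nat_lit 55056] (nat_lit 0) [nat_lit 35380] false,
   Spec.mk (nat_lit 55082) (nat_lit 2) [nat_lit 50708, nat_lit 53624, nat_lit 55568, nat_lit 55244, nat_lit 55028, nat_lit 55084] (nat_lit 0) [] false,
   Spec.mk (nat_lit 55084) (nat_lit 1) [nat_lit 50710, nat_lit 53626, nat_lit 55570, nat_lit 55246, nat_lit 55030, nat_lit 55090, nat_lit 55082, nat_lit 55086] (nat_lit 0) [nat_lit 35402] false,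
   Spec.mk (nat_lit 55086) (nat_lit 0) [nat_lit 50712, nat_lit 53628, nat_lit 55572, nat_lit 55248, nat_lit 55032, nat_lit 55092, nat_lit 55084] (nat_lit 2) [nat_lit 35404] false,
   Spec.mk (nat_lit 55090) (nat_lit 0) [nat_lit 50716, nat_lit 53632, nat_lit 55576, nat_lit 55252, nat_lit 55036, nat_lit 55108, nat_lit 55084, nat_lit 55092] (nat_lit 0) [nat_lit 35408] false,
   Spec.mk (nat_lit 55092) (nat_lit 0) [nat_lit 50718, nat_lit 53634, nat_lit 55578, nat_lit 55254, nat_lit 55038, nat_lit 55110, nat_lit 55086, nat_lit 55098, nat_lit 55090] (nat_lit 1) [nat_lit 35410] false,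
   Spec.mk (nat_lit 55098) (nat_lit 0) [nat_lit 50724, nat_lit 53640, nat_lit 55584, nat_lit 55260, nat_lit 55044, nat_lit 55116, nat_lit 55092] (nat_lit 2) [nat_lit 35416] false,
   Spec.mk (nat_lit 55108) (nat_lit 2) [nat_lit 50734, nat_lit 53650, nat_lit 55594, nat_lit 55270, nat_lit 55054, nat_lit 55090, nat_lit 55110] (nat_lit 0) [nat_lit 35426] false,
   Spec.mk (nat_lit 55110) (nat_lit 0) [nat_lit 50736, nat_lit 53652, nat_lit 55596, nat_lit 55272, nat_lit 55056, nat_lit 55092, nat_lit 55116, nat_lit 55108] (nat_lit 0) [nat_lit 35428] false,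
   Spec.mk (nat_lit 55116) (nat_lit 1) [nat_lit 50742, nat_lit 53658, nat_lit 55602, nat_lit 55278, nat_lit 55062, nat_lit 55098, nat_lit 55134, nat_lit 55110] (nat_lit 0) [nat_lit 35434] false,
   Spec.mk (nat_lit 55134) (nat_lit 2) [nat_lit 50760, nat_lit 53676, nat_lit 55620, nat_lit 55296, nat_lit 55116] (nat_lit 0) [nat_lit 35452] false,
   Spec.mk (nat_lit 55166) (nat_lit 2) [nat_lit 50792, nat_lit 53708, nat_lit 55652, nat_lit 55004, nat_lit 55172, nat_lit 55168] (nat_lit 0) [] false,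
   Spec.mk (nat_lit 55168) (nat_lit 0) [nat_lit 50794, nat_lit 53710, nat_lit 55654, nat_lit 55006, nat_lit 55174, nat_lit 55166] (nat_lit 0) [nat_lit 35486] false,
   Spec.mk (nat_lit 55172) (nat_lit 0) [nat_lit 50798, nat_lit 53714, nat_lit 55658, nat_lit 55010, nat_lit 55190, nat_lit 55166, nat_lit 55174] (nat_lit 0) [] false,
   Spec.mk (nat_lit 55174) (nat_lit 0) [nat_lit 50800, nat_lit 53716, nat_lit 55660, nat_lit 55012, nat_lit 55192, nat_lit 55168, nat_lit 55180, nat_lit 55172, nat_lit 55176] (nat_lit 0) [nat_lit 35492] false,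
   Spec.mk (nat_lit 55176) (nat_lit 0) [nat_lit 50802, nat_lit 53718, nat_lit 55662, nat_lit 55014, nat_lit 55194, nat_lit 55182, nat_lit 55174] (nat_lit 2) [nat_lit 35494] false,
   Spec.mk (nat_lit 55180) (nat_lit 0) [nat_lit 50806, nat_lit 53722, nat_lit 55666, nat_lit 55018, nat_lit 55198, nat_lit 55174, nat_lit 55182] (nat_lit 2) [nat_lit 35498] false,
   Spec.mk (nat_lit 55182) (nat_lit 0) [nat_lit 50808, nat_lit 53724, nat_lit 55668, nat_lit 55020, nat_lit 55200, nat_lit 55176, nat_lit 55180] (nat_lit 2) [nat_lit 35500] false,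
   Spec.mk (nat_lit 55190) (nat_lit 0) [nat_lit 50816, nat_lit 53732, nat_lit 55676, nat_lit 55028, nat_lit 55244, nat_lit 55172, nat_lit 55192] (nat_lit 0) [] false,
   Spec.mk (nat_lit 55192) (nat_lit 0) [nat_lit 50818, nat_lit 53734, nat_lit 55678, nat_lit 55030, nat_lit 55246, nat_lit 55174, nat_lit 55198, nat_lit 55190, nat_lit 55194] (nat_lit 1) [nat_lit 35510] false,
   Spec.mk (nat_lit 55194) (nat_lit 0) [nat_lit 50820, nat_lit 53736, nat_lit 55680, nat_lit 55032, nat_lit 55248, nat_lit 55176, nat_lit 55200, nat_lit 55192] (nat_lit 4) [nat_lit 35512] false,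
   Spec.mk (nat_lit 55198) (nat_lit 0) [nat_lit 50824, nat_lit 53740, nat_lit 55684, nat_lit 55036, nat_lit 55252, nat_lit 55180, nat_lit 55216, nat_lit 55192, nat_lit 55200] (nat_lit 1) [nat_lit 35516] false,
   Spec.mk (nat_lit 55200) (nat_lit 0) [nat_lit 50826, nat_lit 53742, nat_lit 55686, nat_lit 55038, nat_lit 55254, nat_lit 55182, nat_lit 55218, nat_lit 55194, nat_lit 55206, nat_lit 55198] (nat_lit 2) [nat_lit 35518] false,
   Spec.mk (nat_lit 55206) (nat_lit 0) [nat_lit 50832, nat_lit 53748, nat_lit 55692, nat_lit 55044, nat_lit 55260, nat_lit 55224, nat_lit 55200] (nat_lit 2) [nat_lit 35524] false,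
   Spec.mk (nat_lit 55216) (nat_lit 0) [nat_lit 50842, nat_lit 53758, nat_lit 55702, nat_lit 55054, nat_lit 55270, nat_lit 55198, nat_lit 55218] (nat_lit 2) [nat_lit 35534] false,
   Spec.mk (nat_lit 55218) (nat_lit 0) [nat_lit 50844, nat_lit 53760, nat_lit 55704, nat_lit 55056, nat_lit 55272, nat_lit 55200, nat_lit 55224, nat_lit 55216] (nat_lit 4) [nat_lit 35536] false,
   Spec.mk (nat_lit 55224) (nat_lit 0) [nat_lit 50850, nat_lit 53766, nat_lit 55710, nat_lit 55062, nat_lit 55278, nat_lit 55206, nat_lit 55218] (nat_lit 2) [nat_lit 35542] false,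
   Spec.mk (nat_lit 55244) (nat_lit 2) [nat_lit 50870, nat_lit 53786, nat_lit 55730, nat_lit 55082, nat_lit 55190, nat_lit 55246] (nat_lit 0) [] false,
   Spec.mk (nat_lit 55246) (nat_lit 1) [nat_lit 50872, nat_lit 53788, nat_lit 55732, nat_lit 55084, nat_lit 55192, nat_lit 55252, nat_lit 55244, nat_lit 55248] (nat_lit 0) [nat_lit 35564] false]

noncomputable def sp144 : List Spec :=
  [Spec.mk (nat_lit 55248) (nat_lit 0) [nat_lit 50874, nat_lit 53790, nat_lit 55734, nat_lit 55086, nat_lit 55194, nat_lit 55254, nat_lit 55246] (nat_lit 2) [nat_lit 35566] false,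
   Spec.mk (nat_lit 55252) (nat_lit 0) [nat_lit 50878, nat_lit 53794, nat_lit 55738, nat_lit 55090, nat_lit 55198, nat_lit 55270, nat_lit 55246, nat_lit 55254] (nat_lit 0) [nat_lit 35570] false,
   Spec.mk (nat_lit 55254) (nat_lit 0) [nat_lit 50880, nat_lit 53796, nat_lit 55740, nat_lit 55092, nat_lit 55200, nat_lit 55272, nat_lit 55248, nat_lit 55260, nat_lit 55252] (nat_lit 1) [nat_lit 35572] false,
   Spec.mk (nat_lit 55260) (nat_lit 0) [nat_lit 50886, nat_lit 53802, nat_lit 55746, nat_lit 55098, nat_lit 55206, nat_lit 55278, nat_lit 55254] (nat_lit 2) [nat_lit 35578] false,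
   Spec.mk (nat_lit 55270) (nat_lit 1) [nat_lit 50896, nat_lit 53812, nat_lit 55756, nat_lit 55108, nat_lit 55216, nat_lit 55324, nat_lit 55252, nat_lit 55272] (nat_lit 0) [nat_lit 35588] false,
   Spec.mk (nat_lit 55272) (nat_lit 0) [nat_lit 50898, nat_lit 53814, nat_lit 55758, nat_lit 55110, nat_lit 55218, nat_lit 55326, nat_lit 55254, nat_lit 55278, nat_lit 55270] (nat_lit 1) [nat_lit 35590] false,
   Spec.mk (nat_lit 55278) (nat_lit 0) [nat_lit 50904, nat_lit 53820, nat_lit 55764, nat_lit 55116, nat_lit 55224, nat_lit 55332, nat_lit 55260, nat_lit 55296, nat_lit 55272] (nat_lit 0) [nat_lit 35596] false,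
   Spec.mk (nat_lit 55296) (nat_lit 0) [nat_lit 50922, nat_lit 53838, nat_lit 55782, nat_lit 55134, nat_lit 55350, nat_lit 55278] (nat_lit 0) [nat_lit 35614] false,
   Spec.mk (nat_lit 55324) (nat_lit 2) [nat_lit 50950, nat_lit 53866, nat_lit 55810, nat_lit 55270, nat_lit 55326] (nat_lit 0) [nat_lit 35642] false,
   Spec.mk (nat_lit 55326) (nat_lit 0) [nat_lit 50952, nat_lit 53868, nat_lit 55812, nat_lit 55272, nat_lit 55332, nat_lit 55324] (nat_lit 0) [nat_lit 35644] false,
   Spec.mk (nat_lit 55332) (nat_lit 0) [nat_lit 50958, nat_lit 53874, nat_lit 55818, nat_lit 55278, nat_lit 55350, nat_lit 55326] (nat_lit 0) [nat_lit 35650] false,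
   Spec.mk (nat_lit 55350) (nat_lit 2) [nat_lit 50976, nat_lit 53892, nat_lit 55836, nat_lit 55296, nat_lit 55332] (nat_lit 0) [nat_lit 35668] false,
   Spec.mk (nat_lit 55412) (nat_lit 5) [nat_lit 51038, nat_lit 53954, nat_lit 56870, nat_lit 54926, nat_lit 55418] (nat_lit 0) [] false,
   Spec.mk (nat_lit 55418) (nat_lit 4) [nat_lit 51044, nat_lit 53960, nat_lit 56876, nat_lit 54932, nat_lit 55436, nat_lit 55412, nat_lit 55424, nat_lit 55420] (nat_lit 0) [] false,
   Spec.mk (nat_lit 55420) (nat_lit 3) [nat_lit 51046, nat_lit 53962, nat_lit 56878, nat_lit 54934, nat_lit 55438, nat_lit 55426, nat_lit 55418] (nat_lit 0) [nat_lit 35738] false,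
   Spec.mk (nat_lit 55424) (nat_lit 1) [nat_lit 51050, nat_lit 53966, nat_lit 56882, nat_lit 54938, nat_lit 55442, nat_lit 55418, nat_lit 55426] (nat_lit 0) [] false,
   Spec.mk (nat_lit 55426) (nat_lit 2) [nat_lit 51052, nat_lit 53968, nat_lit 56884, nat_lit 54940, nat_lit 55444, nat_lit 55420, nat_lit 55424, nat_lit 55428] (nat_lit 0) [nat_lit 35744] false,
   Spec.mk (nat_lit 55428) (nat_lit 1) [nat_lit 51054, nat_lit 53970, nat_lit 56886, nat_lit 54942, nat_lit 55446, nat_lit 55426] (nat_lit 0) [nat_lit 35746] false,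
   Spec.mk (nat_lit 55436) (nat_lit 3) [nat_lit 51062, nat_lit 53978, nat_lit 56894, nat_lit 54950, nat_lit 55490, nat_lit 55418, nat_lit 55442, nat_lit 55438] (nat_lit 0) [] false,
   Spec.mk (nat_lit 55438) (nat_lit 1) [nat_lit 51064, nat_lit 53980, nat_lit 56896, nat_lit 54952, nat_lit 55492, nat_lit 55420, nat_lit 55444, nat_lit 55436] (nat_lit 0) [nat_lit 35756] false,
   Spec.mk (nat_lit 55442) (nat_lit 2) [nat_lit 51068, nat_lit 53984, nat_lit 56900, nat_lit 54956, nat_lit 55496, nat_lit 55424, nat_lit 55460, nat_lit 55436, nat_lit 55444] (nat_lit 0) [] false,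
   Spec.mk (nat_lit 55444) (nat_lit 2) [nat_lit 51070, nat_lit 53986, nat_lit 56902, nat_lit 54958, nat_lit 55498, nat_lit 55426, nat_lit 55462, nat_lit 55438, nat_lit 55450, nat_lit 55442, nat_lit 55446] (nat_lit 0) [nat_lit 35762] false,
   Spec.mk (nat_lit 55446) (nat_lit 0) [nat_lit 51072, nat_lit 53988, nat_lit 56904, nat_lit 54960, nat_lit 55500, nat_lit 55428, nat_lit 55464, nat_lit 55452, nat_lit 55444] (nat_lit 0) [nat_lit 35764] false,
   Spec.mk (nat_lit 55450) (nat_lit 1) [nat_lit 51076, nat_lit 53992, nat_lit 56908, nat_lit 54964, nat_lit 55504, nat_lit 55468, nat_lit 55444, nat_lit 55452] (nat_lit 0) [nat_lit 35768] false,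
   Spec.mk (nat_lit 55452) (nat_lit 1) [nat_lit 51078, nat_lit 53994, nat_lit 56910, nat_lit 54966, nat_lit 55506, nat_lit 55470, nat_lit 55446, nat_lit 55450] (nat_lit 0) [nat_lit 35770] false,
   Spec.mk (nat_lit 55460) (nat_lit 1) [nat_lit 51086, nat_lit 54002, nat_lit 56918, nat_lit 54974, nat_lit 55514, nat_lit 55442, nat_lit 55462] (nat_lit 0) [] false,
   Spec.mk (nat_lit 55462) (nat_lit 0) [nat_lit 51088, nat_lit 54004, nat_lit 56920, nat_lit 54976, nat_lit 55516, nat_lit 55444, nat_lit 55468, nat_lit 55460, nat_lit 55464] (nat_lit 0) [nat_lit 35780] false,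
   Spec.mk (nat_lit 55464) (nat_lit 0) [nat_lit 51090, nat_lit 54006, nat_lit 56922, nat_lit 54978, nat_lit 55518, nat_lit 55446, nat_lit 55470, nat_lit 55462] (nat_lit 3) [nat_lit 35782] false,
   Spec.mk (nat_lit 55468) (nat_lit 1) [nat_lit 51094, nat_lit 54010, nat_lit 56926, nat_lit 54982, nat_lit 55522, nat_lit 55450, nat_lit 55462, nat_lit 55470] (nat_lit 0) [nat_lit 35786] false,
   Spec.mk (nat_lit 55470) (nat_lit 0) [nat_lit 51096, nat_lit 54012, nat_lit 56928, nat_lit 54984, nat_lit 55524, nat_lit 55452, nat_lit 55464, nat_lit 55476, nat_lit 55468] (nat_lit 0) [nat_lit 35788] false,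
   Spec.mk (nat_lit 55476) (nat_lit 1) [nat_lit 51102, nat_lit 54018, nat_lit 56934, nat_lit 54990, nat_lit 55530, nat_lit 55470] (nat_lit 0) [nat_lit 35794] false,
   Spec.mk (nat_lit 55490) (nat_lit 3) [nat_lit 51116, nat_lit 54032, nat_lit 56948, nat_lit 55004, nat_lit 55652, nat_lit 55436, nat_lit 55496, nat_lit 55492] (nat_lit 0) [] false,
   Spec.mk (nat_lit 55492) (nat_lit 1) [nat_lit 51118, nat_lit 54034, nat_lit 56950, nat_lit 55006, nat_lit 55654, nat_lit 55438, nat_lit 55498, nat_lit 55490] (nat_lit 0) [nat_lit 35810] false,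
   Spec.mk (nat_lit 55496) (nat_lit 1) [nat_lit 51122, nat_lit 54038, nat_lit 56954, nat_lit 55010, nat_lit 55658, nat_lit 55442, nat_lit 55514, nat_lit 55490, nat_lit 55498] (nat_lit 0) [] false,
   Spec.mk (nat_lit 55498) (nat_lit 1) [nat_lit 51124, nat_lit 54040, nat_lit 56956, nat_lit 55012, nat_lit 55660, nat_lit 55444, nat_lit 55516, nat_lit 55492, nat_lit 55504, nat_lit 55496, nat_lit 55500] (nat_lit 0) [nat_lit 35816] false,
   Spec.mk (nat_lit 55500) (nat_lit 0) [nat_lit 51126, nat_lit 54042, nat_lit 56958, nat_lit 55014, nat_lit 55662, nat_lit 55446, nat_lit 55518, nat_lit 55506, nat_lit 55498] (nat_lit 1) [nat_lit 35818] false,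
   Spec.mk (nat_lit 55504) (nat_lit 0) [nat_lit 51130, nat_lit 54046, nat_lit 56962, nat_lit 55018, nat_lit 55666, nat_lit 55450, nat_lit 55522, nat_lit 55498, nat_lit 55506] (nat_lit 1) [nat_lit 35822] false,
   Spec.mk (nat_lit 55506) (nat_lit 0) [nat_lit 51132, nat_lit 54048, nat_lit 56964, nat_lit 55020, nat_lit 55668, nat_lit 55452, nat_lit 55524, nat_lit 55500, nat_lit 55504] (nat_lit 1) [nat_lit 35824] false,
   Spec.mk (nat_lit 55514) (nat_lit 2) [nat_lit 51140, nat_lit 54056, nat_lit 56972, nat_lit 55028, nat_lit 55676, nat_lit 55460, nat_lit 55568, nat_lit 55496, nat_lit 55516] (nat_lit 0) [] false,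
   Spec.mk (nat_lit 55516) (nat_lit 1) [nat_lit 51142, nat_lit 54058, nat_lit 56974, nat_lit 55030, nat_lit 55678, nat_lit 55462, nat_lit 55570, nat_lit 55498, nat_lit 55522, nat_lit 55514, nat_lit 55518] (nat_lit 0) [nat_lit 35834] false,
   Spec.mk (nat_lit 55518) (nat_lit 0) [nat_lit 51144, nat_lit 54060, nat_lit 56976, nat_lit 55032, nat_lit 55680, nat_lit 55464, nat_lit 55572, nat_lit 55500, nat_lit 55524, nat_lit 55516] (nat_lit 2) [nat_lit 35836] false,
   Spec.mk (nat_lit 55522) (nat_lit 1) [nat_lit 51148, nat_lit 54064, nat_lit 56980, nat_lit 55036, nat_lit 55684, nat_lit 55468, nat_lit 55576, nat_lit 55504, nat_lit 55540, nat_lit 55516, nat_lit 55524] (nat_lit 0) [nat_lit 35840] false,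
   Spec.mk (nat_lit 55524) (nat_lit 0) [nat_lit 51150, nat_lit 54066, nat_lit 56982, nat_lit 55038, nat_lit 55686, nat_lit 55470, nat_lit 55578, nat_lit 55506, nat_lit 55542, nat_lit 55518, nat_lit 55530, nat_lit 55522] (nat_lit 0) [nat_lit 35842] false,
   Spec.mk (nat_lit 55530) (nat_lit 0) [nat_lit 51156, nat_lit 54072, nat_lit 56988, nat_lit 55044, nat_lit 55692, nat_lit 55476, nat_lit 55584, nat_lit 55548, nat_lit 55524] (nat_lit 0) [nat_lit 35848] false,
   Spec.mk (nat_lit 55540) (nat_lit 1) [nat_lit 51166, nat_lit 54082, nat_lit 56998, nat_lit 55054, nat_lit 55702, nat_lit 55594, nat_lit 55522, nat_lit 55542] (nat_lit 0) [nat_lit 35858] false,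
   Spec.mk (nat_lit 55542) (nat_lit 0) [nat_lit 51168, nat_lit 54084, nat_lit 57000, nat_lit 55056, nat_lit 55704, nat_lit 55596, nat_lit 55524, nat_lit 55548, nat_lit 55540] (nat_lit 1) [nat_lit 35860] false,
   Spec.mk (nat_lit 55548) (nat_lit 1) [nat_lit 51174, nat_lit 54090, nat_lit 57006, nat_lit 55062, nat_lit 55710, nat_lit 55602, nat_lit 55530, nat_lit 55542] (nat_lit 0) [nat_lit 35866] false,
   Spec.mk (nat_lit 55568) (nat_lit 1) [nat_lit 51194, nat_lit 54110, nat_lit 57026, nat_lit 55082, nat_lit 55730, nat_lit 55514, nat_lit 55570] (nat_lit 0) [] false,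
   Spec.mk (nat_lit 55570) (nat_lit 0) [nat_lit 51196, nat_lit 54112, nat_lit 57028, nat_lit 55084, nat_lit 55732, nat_lit 55516, nat_lit 55576, nat_lit 55568, nat_lit 55572] (nat_lit 0) [nat_lit 35888] false,
   Spec.mk (nat_lit 55572) (nat_lit 0) [nat_lit 51198, nat_lit 54114, nat_lit 57030, nat_lit 55086, nat_lit 55734, nat_lit 55518, nat_lit 55578, nat_lit 55570] (nat_lit 3) [nat_lit 35890] false,
   Spec.mk (nat_lit 55576) (nat_lit 0) [nat_lit 51202, nat_lit 54118, nat_lit 57034, nat_lit 55090, nat_lit 55738, nat_lit 55522, nat_lit 55594, nat_lit 55570, nat_lit 55578] (nat_lit 1) [nat_lit 35894] false,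
   Spec.mk (nat_lit 55578) (nat_lit 0) [nat_lit 51204, nat_lit 54120, nat_lit 57036, nat_lit 55092, nat_lit 55740, nat_lit 55524, nat_lit 55596, nat_lit 55572, nat_lit 55584, nat_lit 55576] (nat_lit 2) [nat_lit 35896] false,
   Spec.mk (nat_lit 55584) (nat_lit 0) [nat_lit 51210, nat_lit 54126, nat_lit 57042, nat_lit 55098, nat_lit 55746, nat_lit 55530, nat_lit 55602, nat_lit 55578] (nat_lit 3) [nat_lit 35902] false,
   Spec.mk (nat_lit 55594) (nat_lit 1) [nat_lit 51220, nat_lit 54136, nat_lit 57052, nat_lit 55108, nat_lit 55756, nat_lit 55540, nat_lit 55576, nat_lit 55596] (nat_lit 0) [nat_lit 35912] false,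
   Spec.mk (nat_lit 55596) (nat_lit 0) [nat_lit 51222, nat_lit 54138, nat_lit 57054, nat_lit 55110, nat_lit 55758, nat_lit 55542, nat_lit 55578, nat_lit 55602, nat_lit 55594] (nat_lit 1) [nat_lit 35914] false,
   Spec.mk (nat_lit 55602) (nat_lit 0) [nat_lit 51228, nat_lit 54144, nat_lit 57060, nat_lit 55116, nat_lit 55764, nat_lit 55548, nat_lit 55584, nat_lit 55620, nat_lit 55596] (nat_lit 0) [nat_lit 35920] false,
   Spec.mk (nat_lit 55620) (nat_lit 1) [nat_lit 51246, nat_lit 54162, nat_lit 57078, nat_lit 55134, nat_lit 55782, nat_lit 55602] (nat_lit 0) [nat_lit 35938] false,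
   Spec.mk (nat_lit 55652) (nat_lit 4) [nat_lit 51278, nat_lit 54194, nat_lit 57110, nat_lit 55166, nat_lit 56138, nat_lit 55490, nat_lit 55658, nat_lit 55654] (nat_lit 0) [] false,
   Spec.mk (nat_lit 55654) (nat_lit 2) [nat_lit 51280, nat_lit 54196, nat_lit 57112, nat_lit 55168, nat_lit 56140, nat_lit 55492, nat_lit 55660, nat_lit 55652] (nat_lit 0) [nat_lit 35972] false,
   Spec.mk (nat_lit 55658) (nat_lit 2) [nat_lit 51284, nat_lit 54200, nat_lit 57116, nat_lit 55172, nat_lit 56144, nat_lit 55496, nat_lit 55676, nat_lit 55652, nat_lit 55660] (nat_lit 0) [] false]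

noncomputable def sp145 : List Spec :=
  [Spec.mk (nat_lit 55660) (nat_lit 2) [nat_lit 51286, nat_lit 54202, nat_lit 57118, nat_lit 55174, nat_lit 56146, nat_lit 55498, nat_lit 55678, nat_lit 55654, nat_lit 55666, nat_lit 55658, nat_lit 55662] (nat_lit 0) [nat_lit 35978] false,
   Spec.mk (nat_lit 55662) (nat_lit 0) [nat_lit 51288, nat_lit 54204, nat_lit 57120, nat_lit 55176, nat_lit 56148, nat_lit 55500, nat_lit 55680, nat_lit 55668, nat_lit 55660] (nat_lit 0) [nat_lit 35980] false,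
   Spec.mk (nat_lit 55666) (nat_lit 0) [nat_lit 51292, nat_lit 54208, nat_lit 57124, nat_lit 55180, nat_lit 56152, nat_lit 55504, nat_lit 55684, nat_lit 55660, nat_lit 55668] (nat_lit 0) [nat_lit 35984] false,
   Spec.mk (nat_lit 55668) (nat_lit 0) [nat_lit 51294, nat_lit 54210, nat_lit 57126, nat_lit 55182, nat_lit 56154, nat_lit 55506, nat_lit 55686, nat_lit 55662, nat_lit 55666] (nat_lit 0) [nat_lit 35986] false,
   Spec.mk (nat_lit 55676) (nat_lit 2) [nat_lit 51302, nat_lit 54218, nat_lit 57134, nat_lit 55190, nat_lit 56162, nat_lit 55514, nat_lit 55730, nat_lit 55658, nat_lit 55678] (nat_lit 0) [] false,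
   Spec.mk (nat_lit 55678) (nat_lit 1) [nat_lit 51304, nat_lit 54220, nat_lit 57136, nat_lit 55192, nat_lit 56164, nat_lit 55516, nat_lit 55732, nat_lit 55660, nat_lit 55684, nat_lit 55676, nat_lit 55680] (nat_lit 0) [nat_lit 35996] false,
   Spec.mk (nat_lit 55680) (nat_lit 0) [nat_lit 51306, nat_lit 54222, nat_lit 57138, nat_lit 55194, nat_lit 56166, nat_lit 55518, nat_lit 55734, nat_lit 55662, nat_lit 55686, nat_lit 55678] (nat_lit 2) [nat_lit 35998] false,
   Spec.mk (nat_lit 55684) (nat_lit 1) [nat_lit 51310, nat_lit 54226, nat_lit 57142, nat_lit 55198, nat_lit 56170, nat_lit 55522, nat_lit 55738, nat_lit 55666, nat_lit 55702, nat_lit 55678, nat_lit 55686] (nat_lit 0) [nat_lit 36002] false,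
   Spec.mk (nat_lit 55686) (nat_lit 0) [nat_lit 51312, nat_lit 54228, nat_lit 57144, nat_lit 55200, nat_lit 56172, nat_lit 55524, nat_lit 55740, nat_lit 55668, nat_lit 55704, nat_lit 55680, nat_lit 55692, nat_lit 55684] (nat_lit 0) [nat_lit 36004] false,
   Spec.mk (nat_lit 55692) (nat_lit 0) [nat_lit 51318, nat_lit 54234, nat_lit 57150, nat_lit 55206, nat_lit 56178, nat_lit 55530, nat_lit 55746, nat_lit 55710, nat_lit 55686] (nat_lit 0) [nat_lit 36010] false,
   Spec.mk (nat_lit 55702) (nat_lit 0) [nat_lit 51328, nat_lit 54244, nat_lit 57160, nat_lit 55216, nat_lit 56188, nat_lit 55540, nat_lit 55756, nat_lit 55684, nat_lit 55704] (nat_lit 0) [nat_lit 36020] false,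
   Spec.mk (nat_lit 55704) (nat_lit 0) [nat_lit 51330, nat_lit 54246, nat_lit 57162, nat_lit 55218, nat_lit 56190, nat_lit 55542, nat_lit 55758, nat_lit 55686, nat_lit 55710, nat_lit 55702] (nat_lit 2) [nat_lit 36022] false,
   Spec.mk (nat_lit 55710) (nat_lit 0) [nat_lit 51336, nat_lit 54252, nat_lit 57168, nat_lit 55224, nat_lit 56196, nat_lit 55548, nat_lit 55764, nat_lit 55692, nat_lit 55704] (nat_lit 0) [nat_lit 36028] false,
   Spec.mk (nat_lit 55730) (nat_lit 3) [nat_lit 51356, nat_lit 54272, nat_lit 57188, nat_lit 55244, nat_lit 56216, nat_lit 55568, nat_lit 55892, nat_lit 55676, nat_lit 55732] (nat_lit 0) [] false,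
   Spec.mk (nat_lit 55732) (nat_lit 2) [nat_lit 51358, nat_lit 54274, nat_lit 57190, nat_lit 55246, nat_lit 56218, nat_lit 55570, nat_lit 55894, nat_lit 55678, nat_lit 55738, nat_lit 55730, nat_lit 55734] (nat_lit 0) [nat_lit 36050] false,
   Spec.mk (nat_lit 55734) (nat_lit 0) [nat_lit 51360, nat_lit 54276, nat_lit 57192, nat_lit 55248, nat_lit 56220, nat_lit 55572, nat_lit 55896, nat_lit 55680, nat_lit 55740, nat_lit 55732] (nat_lit 1) [nat_lit 36052] false,
   Spec.mk (nat_lit 55738) (nat_lit 1) [nat_lit 51364, nat_lit 54280, nat_lit 57196, nat_lit 55252, nat_lit 56224, nat_lit 55576, nat_lit 55900, nat_lit 55684, nat_lit 55756, nat_lit 55732, nat_lit 55740] (nat_lit 0) [nat_lit 36056] false,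
   Spec.mk (nat_lit 55740) (nat_lit 0) [nat_lit 51366, nat_lit 54282, nat_lit 57198, nat_lit 55254, nat_lit 56226, nat_lit 55578, nat_lit 55902, nat_lit 55686, nat_lit 55758, nat_lit 55734, nat_lit 55746, nat_lit 55738] (nat_lit 0) [nat_lit 36058] false,
   Spec.mk (nat_lit 55746) (nat_lit 0) [nat_lit 51372, nat_lit 54288, nat_lit 57204, nat_lit 55260, nat_lit 56232, nat_lit 55584, nat_lit 55908, nat_lit 55692, nat_lit 55764, nat_lit 55740] (nat_lit 1) [nat_lit 36064] false,
   Spec.mk (nat_lit 55756) (nat_lit 2) [nat_lit 51382, nat_lit 54298, nat_lit 57214, nat_lit 55270, nat_lit 56242, nat_lit 55594, nat_lit 55918, nat_lit 55702, nat_lit 55810, nat_lit 55738, nat_lit 55758] (nat_lit 0) [nat_lit 36074] false,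
   Spec.mk (nat_lit 55758) (nat_lit 0) [nat_lit 51384, nat_lit 54300, nat_lit 57216, nat_lit 55272, nat_lit 56244, nat_lit 55596, nat_lit 55920, nat_lit 55704, nat_lit 55812, nat_lit 55740, nat_lit 55764, nat_lit 55756] (nat_lit 0) [nat_lit 36076] false,
   Spec.mk (nat_lit 55764) (nat_lit 1) [nat_lit 51390, nat_lit 54306, nat_lit 57222, nat_lit 55278, nat_lit 56250, nat_lit 55602, nat_lit 55926, nat_lit 55710, nat_lit 55818, nat_lit 55746, nat_lit 55782, nat_lit 55758] (nat_lit 0) [nat_lit 36082] false,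
   Spec.mk (nat_lit 55782) (nat_lit 1) [nat_lit 51408, nat_lit 54324, nat_lit 57240, nat_lit 55296, nat_lit 56268, nat_lit 55620, nat_lit 55944, nat_lit 55836, nat_lit 55764] (nat_lit 0) [nat_lit 36100] false,
   Spec.mk (nat_lit 55810) (nat_lit 2) [nat_lit 51436, nat_lit 54352, nat_lit 57268, nat_lit 55324, nat_lit 56296, nat_lit 55972, nat_lit 55756, nat_lit 55812] (nat_lit 0) [nat_lit 36128] false,
   Spec.mk (nat_lit 55812) (nat_lit 0) [nat_lit 51438, nat_lit 54354, nat_lit 57270, nat_lit 55326, nat_lit 56298, nat_lit 55974, nat_lit 55758, nat_lit 55818, nat_lit 55810] (nat_lit 0) [nat_lit 36130] false,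
   Spec.mk (nat_lit 55818) (nat_lit 0) [nat_lit 51444, nat_lit 54360, nat_lit 57276, nat_lit 55332, nat_lit 56304, nat_lit 55980, nat_lit 55764, nat_lit 55836, nat_lit 55812] (nat_lit 0) [nat_lit 36136] false,
   Spec.mk (nat_lit 55836) (nat_lit 2) [nat_lit 51462, nat_lit 54378, nat_lit 57294, nat_lit 55350, nat_lit 56322, nat_lit 55998, nat_lit 55782, nat_lit 55818] (nat_lit 0) [nat_lit 36154] false,
   Spec.mk (nat_lit 55892) (nat_lit 3) [nat_lit 51518, nat_lit 54434, nat_lit 57350, nat_lit 56378, nat_lit 55730, nat_lit 55894] (nat_lit 0) [] false,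
   Spec.mk (nat_lit 55894) (nat_lit 2) [nat_lit 51520, nat_lit 54436, nat_lit 57352, nat_lit 56380, nat_lit 55732, nat_lit 55900, nat_lit 55892, nat_lit 55896] (nat_lit 0) [nat_lit 36212] false,
   Spec.mk (nat_lit 55896) (nat_lit 0) [nat_lit 51522, nat_lit 54438, nat_lit 57354, nat_lit 56382, nat_lit 55734, nat_lit 55902, nat_lit 55894] (nat_lit 1) [nat_lit 36214] false,
   Spec.mk (nat_lit 55900) (nat_lit 1) [nat_lit 51526, nat_lit 54442, nat_lit 57358, nat_lit 56386, nat_lit 55738, nat_lit 55918, nat_lit 55894, nat_lit 55902] (nat_lit 0) [nat_lit 36218] false,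
   Spec.mk (nat_lit 55902) (nat_lit 0) [nat_lit 51528, nat_lit 54444, nat_lit 57360, nat_lit 56388, nat_lit 55740, nat_lit 55920, nat_lit 55896, nat_lit 55908, nat_lit 55900] (nat_lit 0) [nat_lit 36220] false,
   Spec.mk (nat_lit 55908) (nat_lit 0) [nat_lit 51534, nat_lit 54450, nat_lit 57366, nat_lit 56394, nat_lit 55746, nat_lit 55926, nat_lit 55902] (nat_lit 1) [nat_lit 36226] false,
   Spec.mk (nat_lit 55918) (nat_lit 1) [nat_lit 51544, nat_lit 54460, nat_lit 57376, nat_lit 56404, nat_lit 55756, nat_lit 55972, nat_lit 55900, nat_lit 55920] (nat_lit 0) [nat_lit 36236] false,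
   Spec.mk (nat_lit 55920) (nat_lit 0) [nat_lit 51546, nat_lit 54462, nat_lit 57378, nat_lit 56406, nat_lit 55758, nat_lit 55974, nat_lit 55902, nat_lit 55926, nat_lit 55918] (nat_lit 1) [nat_lit 36238] false,
   Spec.mk (nat_lit 55926) (nat_lit 0) [nat_lit 51552, nat_lit 54468, nat_lit 57384, nat_lit 56412, nat_lit 55764, nat_lit 55980, nat_lit 55908, nat_lit 55944, nat_lit 55920] (nat_lit 0) [nat_lit 36244] false,
   Spec.mk (nat_lit 55944) (nat_lit 0) [nat_lit 51570, nat_lit 54486, nat_lit 57402, nat_lit 56430, nat_lit 55782, nat_lit 55998, nat_lit 55926] (nat_lit 1) [nat_lit 36262] false,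
   Spec.mk (nat_lit 55972) (nat_lit 3) [nat_lit 51598, nat_lit 54514, nat_lit 57430, nat_lit 56458, nat_lit 55810, nat_lit 55918, nat_lit 55974] (nat_lit 0) [nat_lit 36290] false,
   Spec.mk (nat_lit 55974) (nat_lit 1) [nat_lit 51600, nat_lit 54516, nat_lit 57432, nat_lit 56460, nat_lit 55812, nat_lit 55920, nat_lit 55980, nat_lit 55972] (nat_lit 0) [nat_lit 36292] false,
   Spec.mk (nat_lit 55980) (nat_lit 1) [nat_lit 51606, nat_lit 54522, nat_lit 57438, nat_lit 56466, nat_lit 55818, nat_lit 55926, nat_lit 55998, nat_lit 55974] (nat_lit 0) [nat_lit 36298] false,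
   Spec.mk (nat_lit 55998) (nat_lit 2) [nat_lit 51624, nat_lit 54540, nat_lit 57456, nat_lit 56484, nat_lit 55836, nat_lit 55944, nat_lit 56052, nat_lit 55980] (nat_lit 0) [nat_lit 36316] false,
   Spec.mk (nat_lit 56052) (nat_lit 3) [nat_lit 51678, nat_lit 54594, nat_lit 57510, nat_lit 56538, nat_lit 55998] (nat_lit 0) [nat_lit 36370] false,
   Spec.mk (nat_lit 56138) (nat_lit 4) [nat_lit 51764, nat_lit 57596, nat_lit 55652, nat_lit 56144, nat_lit 56140] (nat_lit 0) [] false,
   Spec.mk (nat_lit 56140) (nat_lit 2) [nat_lit 51766, nat_lit 57598, nat_lit 55654, nat_lit 56146, nat_lit 56138] (nat_lit 0) [nat_lit 36458] false,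
   Spec.mk (nat_lit 56144) (nat_lit 2) [nat_lit 51770, nat_lit 57602, nat_lit 55658, nat_lit 56162, nat_lit 56138, nat_lit 56146] (nat_lit 0) [] false,
   Spec.mk (nat_lit 56146) (nat_lit 2) [nat_lit 51772, nat_lit 57604, nat_lit 55660, nat_lit 56164, nat_lit 56140, nat_lit 56152, nat_lit 56144, nat_lit 56148] (nat_lit 0) [nat_lit 36464] false,
   Spec.mk (nat_lit 56148) (nat_lit 0) [nat_lit 51774, nat_lit 57606, nat_lit 55662, nat_lit 56166, nat_lit 56154, nat_lit 56146] (nat_lit 0) [nat_lit 36466] false,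
   Spec.mk (nat_lit 56152) (nat_lit 0) [nat_lit 51778, nat_lit 57610, nat_lit 55666, nat_lit 56170, nat_lit 56146, nat_lit 56154] (nat_lit 0) [nat_lit 36470] false,
   Spec.mk (nat_lit 56154) (nat_lit 0) [nat_lit 51780, nat_lit 57612, nat_lit 55668, nat_lit 56172, nat_lit 56148, nat_lit 56152] (nat_lit 0) [nat_lit 36472] false,
   Spec.mk (nat_lit 56162) (nat_lit 2) [nat_lit 51788, nat_lit 57620, nat_lit 55676, nat_lit 56216, nat_lit 56144, nat_lit 56164] (nat_lit 0) [] false,
   Spec.mk (nat_lit 56164) (nat_lit 1) [nat_lit 51790, nat_lit 57622, nat_lit 55678, nat_lit 56218, nat_lit 56146, nat_lit 56170, nat_lit 56162, nat_lit 56166] (nat_lit 0) [nat_lit 36482] false,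
   Spec.mk (nat_lit 56166) (nat_lit 0) [nat_lit 51792, nat_lit 57624, nat_lit 55680, nat_lit 56220, nat_lit 56148, nat_lit 56172, nat_lit 56164] (nat_lit 2) [nat_lit 36484] false,
   Spec.mk (nat_lit 56170) (nat_lit 1) [nat_lit 51796, nat_lit 57628, nat_lit 55684, nat_lit 56224, nat_lit 56152, nat_lit 56188, nat_lit 56164, nat_lit 56172] (nat_lit 0) [nat_lit 36488] false,
   Spec.mk (nat_lit 56172) (nat_lit 0) [nat_lit 51798, nat_lit 57630, nat_lit 55686, nat_lit 56226, nat_lit 56154, nat_lit 56190, nat_lit 56166, nat_lit 56178, nat_lit 56170] (nat_lit 0) [nat_lit 36490] false,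
   Spec.mk (nat_lit 56178) (nat_lit 0) [nat_lit 51804, nat_lit 57636, nat_lit 55692, nat_lit 56232, nat_lit 56196, nat_lit 56172] (nat_lit 0) [nat_lit 36496] false,
   Spec.mk (nat_lit 56188) (nat_lit 0) [nat_lit 51814, nat_lit 57646, nat_lit 55702, nat_lit 56242, nat_lit 56170, nat_lit 56190] (nat_lit 0) [nat_lit 36506] false,
   Spec.mk (nat_lit 56190) (nat_lit 0) [nat_lit 51816, nat_lit 57648, nat_lit 55704, nat_lit 56244, nat_lit 56172, nat_lit 56196, nat_lit 56188] (nat_lit 2) [nat_lit 36508] false,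
   Spec.mk (nat_lit 56196) (nat_lit 0) [nat_lit 51822, nat_lit 57654, nat_lit 55710, nat_lit 56250, nat_lit 56178, nat_lit 56190] (nat_lit 0) [nat_lit 36514] false,
   Spec.mk (nat_lit 56216) (nat_lit 2) [nat_lit 51842, nat_lit 57674, nat_lit 55730, nat_lit 56378, nat_lit 56162, nat_lit 56218] (nat_lit 0) [] false,
   Spec.mk (nat_lit 56218) (nat_lit 1) [nat_lit 51844, nat_lit 57676, nat_lit 55732, nat_lit 56380, nat_lit 56164, nat_lit 56224, nat_lit 56216, nat_lit 56220] (nat_lit 0) [nat_lit 36536] false]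

noncomputable def sp146 : List Spec :=
  [Spec.mk (nat_lit 56220) (nat_lit 0) [nat_lit 51846, nat_lit 57678, nat_lit 55734, nat_lit 56382, nat_lit 56166, nat_lit 56226, nat_lit 56218] (nat_lit 2) [nat_lit 36538] false,
   Spec.mk (nat_lit 56224) (nat_lit 0) [nat_lit 51850, nat_lit 57682, nat_lit 55738, nat_lit 56386, nat_lit 56170, nat_lit 56242, nat_lit 56218, nat_lit 56226] (nat_lit 0) [nat_lit 36542] false,
   Spec.mk (nat_lit 56226) (nat_lit 0) [nat_lit 51852, nat_lit 57684, nat_lit 55740, nat_lit 56388, nat_lit 56172, nat_lit 56244, nat_lit 56220, nat_lit 56232, nat_lit 56224] (nat_lit 1) [nat_lit 36544] false,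
   Spec.mk (nat_lit 56232) (nat_lit 0) [nat_lit 51858, nat_lit 57690, nat_lit 55746, nat_lit 56394, nat_lit 56178, nat_lit 56250, nat_lit 56226] (nat_lit 2) [nat_lit 36550] false,
   Spec.mk (nat_lit 56242) (nat_lit 1) [nat_lit 51868, nat_lit 57700, nat_lit 55756, nat_lit 56404, nat_lit 56188, nat_lit 56296, nat_lit 56224, nat_lit 56244] (nat_lit 0) [nat_lit 36560] false,
   Spec.mk (nat_lit 56244) (nat_lit 0) [nat_lit 51870, nat_lit 57702, nat_lit 55758, nat_lit 56406, nat_lit 56190, nat_lit 56298, nat_lit 56226, nat_lit 56250, nat_lit 56242] (nat_lit 1) [nat_lit 36562] false,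
   Spec.mk (nat_lit 56250) (nat_lit 0) [nat_lit 51876, nat_lit 57708, nat_lit 55764, nat_lit 56412, nat_lit 56196, nat_lit 56304, nat_lit 56232, nat_lit 56268, nat_lit 56244] (nat_lit 0) [nat_lit 36568] false,
   Spec.mk (nat_lit 56268) (nat_lit 0) [nat_lit 51894, nat_lit 57726, nat_lit 55782, nat_lit 56430, nat_lit 56322, nat_lit 56250] (nat_lit 0) [nat_lit 36586] false,
   Spec.mk (nat_lit 56296) (nat_lit 0) [nat_lit 51922, nat_lit 57754, nat_lit 55810, nat_lit 56458, nat_lit 56242, nat_lit 56298] (nat_lit 0) [nat_lit 36614] false,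
   Spec.mk (nat_lit 56298) (nat_lit 0) [nat_lit 51924, nat_lit 57756, nat_lit 55812, nat_lit 56460, nat_lit 56244, nat_lit 56304, nat_lit 56296] (nat_lit 2) [nat_lit 36616] false,
   Spec.mk (nat_lit 56304) (nat_lit 0) [nat_lit 51930, nat_lit 57762, nat_lit 55818, nat_lit 56466, nat_lit 56250, nat_lit 56322, nat_lit 56298] (nat_lit 2) [nat_lit 36622] false,
   Spec.mk (nat_lit 56322) (nat_lit 0) [nat_lit 51948, nat_lit 57780, nat_lit 55836, nat_lit 56484, nat_lit 56268, nat_lit 56304] (nat_lit 0) [nat_lit 36640] false,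
   Spec.mk (nat_lit 56378) (nat_lit 4) [nat_lit 52004, nat_lit 57836, nat_lit 55892, nat_lit 56216, nat_lit 56380] (nat_lit 0) [] false,
   Spec.mk (nat_lit 56380) (nat_lit 3) [nat_lit 52006, nat_lit 57838, nat_lit 55894, nat_lit 56218, nat_lit 56386, nat_lit 56378, nat_lit 56382] (nat_lit 0) [nat_lit 36698] false,
   Spec.mk (nat_lit 56382) (nat_lit 0) [nat_lit 52008, nat_lit 57840, nat_lit 55896, nat_lit 56220, nat_lit 56388, nat_lit 56380] (nat_lit 0) [nat_lit 36700] false,
   Spec.mk (nat_lit 56386) (nat_lit 2) [nat_lit 52012, nat_lit 57844, nat_lit 55900, nat_lit 56224, nat_lit 56404, nat_lit 56380, nat_lit 56388] (nat_lit 0) [nat_lit 36704] false,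
   Spec.mk (nat_lit 56388) (nat_lit 1) [nat_lit 52014, nat_lit 57846, nat_lit 55902, nat_lit 56226, nat_lit 56406, nat_lit 56382, nat_lit 56394, nat_lit 56386] (nat_lit 0) [nat_lit 36706] false,
   Spec.mk (nat_lit 56394) (nat_lit 0) [nat_lit 52020, nat_lit 57852, nat_lit 55908, nat_lit 56232, nat_lit 56412, nat_lit 56388] (nat_lit 0) [nat_lit 36712] false,
   Spec.mk (nat_lit 56404) (nat_lit 2) [nat_lit 52030, nat_lit 57862, nat_lit 55918, nat_lit 56242, nat_lit 56458, nat_lit 56386, nat_lit 56406] (nat_lit 0) [nat_lit 36722] false,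
   Spec.mk (nat_lit 56406) (nat_lit 0) [nat_lit 52032, nat_lit 57864, nat_lit 55920, nat_lit 56244, nat_lit 56460, nat_lit 56388, nat_lit 56412, nat_lit 56404] (nat_lit 0) [nat_lit 36724] false,
   Spec.mk (nat_lit 56412) (nat_lit 1) [nat_lit 52038, nat_lit 57870, nat_lit 55926, nat_lit 56250, nat_lit 56466, nat_lit 56394, nat_lit 56430, nat_lit 56406] (nat_lit 0) [nat_lit 36730] false,
   Spec.mk (nat_lit 56430) (nat_lit 0) [nat_lit 52056, nat_lit 57888, nat_lit 55944, nat_lit 56268, nat_lit 56484, nat_lit 56412] (nat_lit 0) [nat_lit 36748] false,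
   Spec.mk (nat_lit 56458) (nat_lit 3) [nat_lit 52084, nat_lit 57916, nat_lit 55972, nat_lit 56296, nat_lit 56620, nat_lit 56404, nat_lit 56460] (nat_lit 0) [nat_lit 36776] false,
   Spec.mk (nat_lit 56460) (nat_lit 1) [nat_lit 52086, nat_lit 57918, nat_lit 55974, nat_lit 56298, nat_lit 56622, nat_lit 56406, nat_lit 56466, nat_lit 56458] (nat_lit 0) [nat_lit 36778] false,
   Spec.mk (nat_lit 56466) (nat_lit 1) [nat_lit 52092, nat_lit 57924, nat_lit 55980, nat_lit 56304, nat_lit 56628, nat_lit 56412, nat_lit 56484, nat_lit 56460] (nat_lit 0) [nat_lit 36784] false,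
   Spec.mk (nat_lit 56484) (nat_lit 2) [nat_lit 52110, nat_lit 57942, nat_lit 55998, nat_lit 56322, nat_lit 56646, nat_lit 56430, nat_lit 56538, nat_lit 56466] (nat_lit 0) [nat_lit 36802] false,
   Spec.mk (nat_lit 56538) (nat_lit 2) [nat_lit 52164, nat_lit 57996, nat_lit 56052, nat_lit 56700, nat_lit 56484] (nat_lit 0) [nat_lit 36856] false,
   Spec.mk (nat_lit 56620) (nat_lit 4) [nat_lit 52246, nat_lit 58078, nat_lit 56458, nat_lit 56622] (nat_lit 0) [nat_lit 36938] false,
   Spec.mk (nat_lit 56622) (nat_lit 2) [nat_lit 52248, nat_lit 58080, nat_lit 56460, nat_lit 56628, nat_lit 56620] (nat_lit 0) [nat_lit 36940] false,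
   Spec.mk (nat_lit 56628) (nat_lit 2) [nat_lit 52254, nat_lit 58086, nat_lit 56466, nat_lit 56646, nat_lit 56622] (nat_lit 0) [nat_lit 36946] false,
   Spec.mk (nat_lit 56646) (nat_lit 2) [nat_lit 52272, nat_lit 58104, nat_lit 56484, nat_lit 56700, nat_lit 56628] (nat_lit 0) [nat_lit 36964] false,
   Spec.mk (nat_lit 56700) (nat_lit 4) [nat_lit 52326, nat_lit 58158, nat_lit 56538, nat_lit 56646] (nat_lit 0) [nat_lit 37018] false,
   Spec.mk (nat_lit 56870) (nat_lit 6) [nat_lit 55412, nat_lit 56876] (nat_lit 0) [] false,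
   Spec.mk (nat_lit 56876) (nat_lit 5) [nat_lit 55418, nat_lit 56894, nat_lit 56870, nat_lit 56882, nat_lit 56878] (nat_lit 0) [] false,
   Spec.mk (nat_lit 56878) (nat_lit 4) [nat_lit 55420, nat_lit 56896, nat_lit 56884, nat_lit 56876] (nat_lit 0) [nat_lit 37196] false,
   Spec.mk (nat_lit 56882) (nat_lit 2) [nat_lit 55424, nat_lit 56900, nat_lit 56876, nat_lit 56884] (nat_lit 0) [] false,
   Spec.mk (nat_lit 56884) (nat_lit 3) [nat_lit 55426, nat_lit 56902, nat_lit 56878, nat_lit 56882, nat_lit 56886] (nat_lit 0) [nat_lit 37202] false,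
   Spec.mk (nat_lit 56886) (nat_lit 2) [nat_lit 55428, nat_lit 56904, nat_lit 56884] (nat_lit 0) [nat_lit 37204] false,
   Spec.mk (nat_lit 56894) (nat_lit 4) [nat_lit 55436, nat_lit 56948, nat_lit 56876, nat_lit 56900, nat_lit 56896] (nat_lit 0) [] false,
   Spec.mk (nat_lit 56896) (nat_lit 2) [nat_lit 55438, nat_lit 56950, nat_lit 56878, nat_lit 56902, nat_lit 56894] (nat_lit 0) [nat_lit 37214] false,
   Spec.mk (nat_lit 56900) (nat_lit 3) [nat_lit 55442, nat_lit 56954, nat_lit 56882, nat_lit 56918, nat_lit 56894, nat_lit 56902] (nat_lit 0) [] false,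
   Spec.mk (nat_lit 56902) (nat_lit 3) [nat_lit 55444, nat_lit 56956, nat_lit 56884, nat_lit 56920, nat_lit 56896, nat_lit 56908, nat_lit 56900, nat_lit 56904] (nat_lit 0) [nat_lit 37220] false,
   Spec.mk (nat_lit 56904) (nat_lit 1) [nat_lit 55446, nat_lit 56958, nat_lit 56886, nat_lit 56922, nat_lit 56910, nat_lit 56902] (nat_lit 0) [nat_lit 37222] false,
   Spec.mk (nat_lit 56908) (nat_lit 2) [nat_lit 55450, nat_lit 56962, nat_lit 56926, nat_lit 56902, nat_lit 56910] (nat_lit 0) [nat_lit 37226] false,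
   Spec.mk (nat_lit 56910) (nat_lit 2) [nat_lit 55452, nat_lit 56964, nat_lit 56928, nat_lit 56904, nat_lit 56908] (nat_lit 0) [nat_lit 37228] false,
   Spec.mk (nat_lit 56918) (nat_lit 2) [nat_lit 55460, nat_lit 56972, nat_lit 56900, nat_lit 56920] (nat_lit 0) [] false,
   Spec.mk (nat_lit 56920) (nat_lit 1) [nat_lit 55462, nat_lit 56974, nat_lit 56902, nat_lit 56926, nat_lit 56918, nat_lit 56922] (nat_lit 0) [nat_lit 37238] false,
   Spec.mk (nat_lit 56922) (nat_lit 0) [nat_lit 55464, nat_lit 56976, nat_lit 56904, nat_lit 56928, nat_lit 56920] (nat_lit 2) [nat_lit 37240] false,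
   Spec.mk (nat_lit 56926) (nat_lit 2) [nat_lit 55468, nat_lit 56980, nat_lit 56908, nat_lit 56920, nat_lit 56928] (nat_lit 0) [nat_lit 37244] false,
   Spec.mk (nat_lit 56928) (nat_lit 1) [nat_lit 55470, nat_lit 56982, nat_lit 56910, nat_lit 56922, nat_lit 56934, nat_lit 56926] (nat_lit 0) [nat_lit 37246] false,
   Spec.mk (nat_lit 56934) (nat_lit 2) [nat_lit 55476, nat_lit 56988, nat_lit 56928] (nat_lit 0) [nat_lit 37252] false,
   Spec.mk (nat_lit 56948) (nat_lit 4) [nat_lit 55490, nat_lit 57110, nat_lit 56894, nat_lit 56954, nat_lit 56950] (nat_lit 0) [] false,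
   Spec.mk (nat_lit 56950) (nat_lit 2) [nat_lit 55492, nat_lit 57112, nat_lit 56896, nat_lit 56956, nat_lit 56948] (nat_lit 0) [nat_lit 37268] false,
   Spec.mk (nat_lit 56954) (nat_lit 2) [nat_lit 55496, nat_lit 57116, nat_lit 56900, nat_lit 56972, nat_lit 56948, nat_lit 56956] (nat_lit 0) [] false,
   Spec.mk (nat_lit 56956) (nat_lit 2) [nat_lit 55498, nat_lit 57118, nat_lit 56902, nat_lit 56974, nat_lit 56950, nat_lit 56962, nat_lit 56954, nat_lit 56958] (nat_lit 0) [nat_lit 37274] false,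
   Spec.mk (nat_lit 56958) (nat_lit 0) [nat_lit 55500, nat_lit 57120, nat_lit 56904, nat_lit 56976, nat_lit 56964, nat_lit 56956] (nat_lit 0) [nat_lit 37276] false,
   Spec.mk (nat_lit 56962) (nat_lit 0) [nat_lit 55504, nat_lit 57124, nat_lit 56908, nat_lit 56980, nat_lit 56956, nat_lit 56964] (nat_lit 0) [nat_lit 37280] false,
   Spec.mk (nat_lit 56964) (nat_lit 0) [nat_lit 55506, nat_lit 57126, nat_lit 56910, nat_lit 56982, nat_lit 56958, nat_lit 56962] (nat_lit 0) [nat_lit 37282] false,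
   Spec.mk (nat_lit 56972) (nat_lit 3) [nat_lit 55514, nat_lit 57134, nat_lit 56918, nat_lit 57026, nat_lit 56954, nat_lit 56974] (nat_lit 0) [] false,
   Spec.mk (nat_lit 56974) (nat_lit 2) [nat_lit 55516, nat_lit 57136, nat_lit 56920, nat_lit 57028, nat_lit 56956, nat_lit 56980, nat_lit 56972, nat_lit 56976] (nat_lit 0) [nat_lit 37292] false]

noncomputable def sp147 : List Spec :=
  [Spec.mk (nat_lit 56976) (nat_lit 0) [nat_lit 55518, nat_lit 57138, nat_lit 56922, nat_lit 57030, nat_lit 56958, nat_lit 56982, nat_lit 56974] (nat_lit 1) [nat_lit 37294] false,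
   Spec.mk (nat_lit 56980) (nat_lit 2) [nat_lit 55522, nat_lit 57142, nat_lit 56926, nat_lit 57034, nat_lit 56962, nat_lit 56998, nat_lit 56974, nat_lit 56982] (nat_lit 0) [nat_lit 37298] false,
   Spec.mk (nat_lit 56982) (nat_lit 1) [nat_lit 55524, nat_lit 57144, nat_lit 56928, nat_lit 57036, nat_lit 56964, nat_lit 57000, nat_lit 56976, nat_lit 56988, nat_lit 56980] (nat_lit 0) [nat_lit 37300] false,
   Spec.mk (nat_lit 56988) (nat_lit 1) [nat_lit 55530, nat_lit 57150, nat_lit 56934, nat_lit 57042, nat_lit 57006, nat_lit 56982] (nat_lit 0) [nat_lit 37306] false,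
   Spec.mk (nat_lit 56998) (nat_lit 2) [nat_lit 55540, nat_lit 57160, nat_lit 57052, nat_lit 56980, nat_lit 57000] (nat_lit 0) [nat_lit 37316] false,
   Spec.mk (nat_lit 57000) (nat_lit 0) [nat_lit 55542, nat_lit 57162, nat_lit 57054, nat_lit 56982, nat_lit 57006, nat_lit 56998] (nat_lit 0) [nat_lit 37318] false,
   Spec.mk (nat_lit 57006) (nat_lit 2) [nat_lit 55548, nat_lit 57168, nat_lit 57060, nat_lit 56988, nat_lit 57000] (nat_lit 0) [nat_lit 37324] false,
   Spec.mk (nat_lit 57026) (nat_lit 2) [nat_lit 55568, nat_lit 57188, nat_lit 56972, nat_lit 57028] (nat_lit 0) [] false,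
   Spec.mk (nat_lit 57028) (nat_lit 1) [nat_lit 55570, nat_lit 57190, nat_lit 56974, nat_lit 57034, nat_lit 57026, nat_lit 57030] (nat_lit 0) [nat_lit 37346] false,
   Spec.mk (nat_lit 57030) (nat_lit 0) [nat_lit 55572, nat_lit 57192, nat_lit 56976, nat_lit 57036, nat_lit 57028] (nat_lit 2) [nat_lit 37348] false,
   Spec.mk (nat_lit 57034) (nat_lit 0) [nat_lit 55576, nat_lit 57196, nat_lit 56980, nat_lit 57052, nat_lit 57028, nat_lit 57036] (nat_lit 0) [nat_lit 37352] false,
   Spec.mk (nat_lit 57036) (nat_lit 0) [nat_lit 55578, nat_lit 57198, nat_lit 56982, nat_lit 57054, nat_lit 57030, nat_lit 57042, nat_lit 57034] (nat_lit 1) [nat_lit 37354] false,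
   Spec.mk (nat_lit 57042) (nat_lit 0) [nat_lit 55584, nat_lit 57204, nat_lit 56988, nat_lit 57060, nat_lit 57036] (nat_lit 2) [nat_lit 37360] false,
   Spec.mk (nat_lit 57052) (nat_lit 2) [nat_lit 55594, nat_lit 57214, nat_lit 56998, nat_lit 57034, nat_lit 57054] (nat_lit 0) [nat_lit 37370] false,
   Spec.mk (nat_lit 57054) (nat_lit 0) [nat_lit 55596, nat_lit 57216, nat_lit 57000, nat_lit 57036, nat_lit 57060, nat_lit 57052] (nat_lit 0) [nat_lit 37372] false,
   Spec.mk (nat_lit 57060) (nat_lit 1) [nat_lit 55602, nat_lit 57222, nat_lit 57006, nat_lit 57042, nat_lit 57078, nat_lit 57054] (nat_lit 0) [nat_lit 37378] false,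
   Spec.mk (nat_lit 57078) (nat_lit 2) [nat_lit 55620, nat_lit 57240, nat_lit 57060] (nat_lit 0) [nat_lit 37396] false,
   Spec.mk (nat_lit 57110) (nat_lit 4) [nat_lit 55652, nat_lit 57596, nat_lit 56948, nat_lit 57116, nat_lit 57112] (nat_lit 0) [] false,
   Spec.mk (nat_lit 57112) (nat_lit 2) [nat_lit 55654, nat_lit 57598, nat_lit 56950, nat_lit 57118, nat_lit 57110] (nat_lit 0) [nat_lit 37430] false,
   Spec.mk (nat_lit 57116) (nat_lit 2) [nat_lit 55658, nat_lit 57602, nat_lit 56954, nat_lit 57134, nat_lit 57110, nat_lit 57118] (nat_lit 0) [] false,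
   Spec.mk (nat_lit 57118) (nat_lit 2) [nat_lit 55660, nat_lit 57604, nat_lit 56956, nat_lit 57136, nat_lit 57112, nat_lit 57124, nat_lit 57116, nat_lit 57120] (nat_lit 0) [nat_lit 37436] false,
   Spec.mk (nat_lit 57120) (nat_lit 0) [nat_lit 55662, nat_lit 57606, nat_lit 56958, nat_lit 57138, nat_lit 57126, nat_lit 57118] (nat_lit 0) [nat_lit 37438] false,
   Spec.mk (nat_lit 57124) (nat_lit 0) [nat_lit 55666, nat_lit 57610, nat_lit 56962, nat_lit 57142, nat_lit 57118, nat_lit 57126] (nat_lit 0) [nat_lit 37442] false,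
   Spec.mk (nat_lit 57126) (nat_lit 0) [nat_lit 55668, nat_lit 57612, nat_lit 56964, nat_lit 57144, nat_lit 57120, nat_lit 57124] (nat_lit 0) [nat_lit 37444] false,
   Spec.mk (nat_lit 57134) (nat_lit 2) [nat_lit 55676, nat_lit 57620, nat_lit 56972, nat_lit 57188, nat_lit 57116, nat_lit 57136] (nat_lit 0) [] false,
   Spec.mk (nat_lit 57136) (nat_lit 1) [nat_lit 55678, nat_lit 57622, nat_lit 56974, nat_lit 57190, nat_lit 57118, nat_lit 57142, nat_lit 57134, nat_lit 57138] (nat_lit 0) [nat_lit 37454] false,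
   Spec.mk (nat_lit 57138) (nat_lit 0) [nat_lit 55680, nat_lit 57624, nat_lit 56976, nat_lit 57192, nat_lit 57120, nat_lit 57144, nat_lit 57136] (nat_lit 2) [nat_lit 37456] false,
   Spec.mk (nat_lit 57142) (nat_lit 1) [nat_lit 55684, nat_lit 57628, nat_lit 56980, nat_lit 57196, nat_lit 57124, nat_lit 57160, nat_lit 57136, nat_lit 57144] (nat_lit 0) [nat_lit 37460] false,
   Spec.mk (nat_lit 57144) (nat_lit 0) [nat_lit 55686, nat_lit 57630, nat_lit 56982, nat_lit 57198, nat_lit 57126, nat_lit 57162, nat_lit 57138, nat_lit 57150, nat_lit 57142] (nat_lit 0) [nat_lit 37462] false,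
   Spec.mk (nat_lit 57150) (nat_lit 0) [nat_lit 55692, nat_lit 57636, nat_lit 56988, nat_lit 57204, nat_lit 57168, nat_lit 57144] (nat_lit 0) [nat_lit 37468] false,
   Spec.mk (nat_lit 57160) (nat_lit 0) [nat_lit 55702, nat_lit 57646, nat_lit 56998, nat_lit 57214, nat_lit 57142, nat_lit 57162] (nat_lit 0) [nat_lit 37478] false,
   Spec.mk (nat_lit 57162) (nat_lit 0) [nat_lit 55704, nat_lit 57648, nat_lit 57000, nat_lit 57216, nat_lit 57144, nat_lit 57168, nat_lit 57160] (nat_lit 2) [nat_lit 37480] false,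
   Spec.mk (nat_lit 57168) (nat_lit 0) [nat_lit 55710, nat_lit 57654, nat_lit 57006, nat_lit 57222, nat_lit 57150, nat_lit 57162] (nat_lit 0) [nat_lit 37486] false,
   Spec.mk (nat_lit 57188) (nat_lit 3) [nat_lit 55730, nat_lit 57674, nat_lit 57026, nat_lit 57350, nat_lit 57134, nat_lit 57190] (nat_lit 0) [] false,
   Spec.mk (nat_lit 57190) (nat_lit 2) [nat_lit 55732, nat_lit 57676, nat_lit 57028, nat_lit 57352, nat_lit 57136, nat_lit 57196, nat_lit 57188, nat_lit 57192] (nat_lit 0) [nat_lit 37508] false,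
   Spec.mk (nat_lit 57192) (nat_lit 0) [nat_lit 55734, nat_lit 57678, nat_lit 57030, nat_lit 57354, nat_lit 57138, nat_lit 57198, nat_lit 57190] (nat_lit 1) [nat_lit 37510] false,
   Spec.mk (nat_lit 57196) (nat_lit 1) [nat_lit 55738, nat_lit 57682, nat_lit 57034, nat_lit 57358, nat_lit 57142, nat_lit 57214, nat_lit 57190, nat_lit 57198] (nat_lit 0) [nat_lit 37514] false,
   Spec.mk (nat_lit 57198) (nat_lit 0) [nat_lit 55740, nat_lit 57684, nat_lit 57036, nat_lit 57360, nat_lit 57144, nat_lit 57216, nat_lit 57192, nat_lit 57204, nat_lit 57196] (nat_lit 0) [nat_lit 37516] false,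
   Spec.mk (nat_lit 57204) (nat_lit 0) [nat_lit 55746, nat_lit 57690, nat_lit 57042, nat_lit 57366, nat_lit 57150, nat_lit 57222, nat_lit 57198] (nat_lit 1) [nat_lit 37522] false,
   Spec.mk (nat_lit 57214) (nat_lit 2) [nat_lit 55756, nat_lit 57700, nat_lit 57052, nat_lit 57376, nat_lit 57160, nat_lit 57268, nat_lit 57196, nat_lit 57216] (nat_lit 0) [nat_lit 37532] false,
   Spec.mk (nat_lit 57216) (nat_lit 0) [nat_lit 55758, nat_lit 57702, nat_lit 57054, nat_lit 57378, nat_lit 57162, nat_lit 57270, nat_lit 57198, nat_lit 57222, nat_lit 57214] (nat_lit 0) [nat_lit 37534] false,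
   Spec.mk (nat_lit 57222) (nat_lit 1) [nat_lit 55764, nat_lit 57708, nat_lit 57060, nat_lit 57384, nat_lit 57168, nat_lit 57276, nat_lit 57204, nat_lit 57240, nat_lit 57216] (nat_lit 0) [nat_lit 37540] false,
   Spec.mk (nat_lit 57240) (nat_lit 1) [nat_lit 55782, nat_lit 57726, nat_lit 57078, nat_lit 57402, nat_lit 57294, nat_lit 57222] (nat_lit 0) [nat_lit 37558] false,
   Spec.mk (nat_lit 57268) (nat_lit 2) [nat_lit 55810, nat_lit 57754, nat_lit 57430, nat_lit 57214, nat_lit 57270] (nat_lit 0) [nat_lit 37586] false,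
   Spec.mk (nat_lit 57270) (nat_lit 0) [nat_lit 55812, nat_lit 57756, nat_lit 57432, nat_lit 57216, nat_lit 57276, nat_lit 57268] (nat_lit 0) [nat_lit 37588] false,
   Spec.mk (nat_lit 57276) (nat_lit 0) [nat_lit 55818, nat_lit 57762, nat_lit 57438, nat_lit 57222, nat_lit 57294, nat_lit 57270] (nat_lit 0) [nat_lit 37594] false,
   Spec.mk (nat_lit 57294) (nat_lit 2) [nat_lit 55836, nat_lit 57780, nat_lit 57456, nat_lit 57240, nat_lit 57276] (nat_lit 0) [nat_lit 37612] false,
   Spec.mk (nat_lit 57350) (nat_lit 2) [nat_lit 55892, nat_lit 57836, nat_lit 57188, nat_lit 57352] (nat_lit 0) [] false,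
   Spec.mk (nat_lit 57352) (nat_lit 1) [nat_lit 55894, nat_lit 57838, nat_lit 57190, nat_lit 57358, nat_lit 57350, nat_lit 57354] (nat_lit 0) [nat_lit 37670] false,
   Spec.mk (nat_lit 57354) (nat_lit 0) [nat_lit 55896, nat_lit 57840, nat_lit 57192, nat_lit 57360, nat_lit 57352] (nat_lit 2) [nat_lit 37672] false,
   Spec.mk (nat_lit 57358) (nat_lit 0) [nat_lit 55900, nat_lit 57844, nat_lit 57196, nat_lit 57376, nat_lit 57352, nat_lit 57360] (nat_lit 0) [nat_lit 37676] false,
   Spec.mk (nat_lit 57360) (nat_lit 0) [nat_lit 55902, nat_lit 57846, nat_lit 57198, nat_lit 57378, nat_lit 57354, nat_lit 57366, nat_lit 57358] (nat_lit 1) [nat_lit 37678] false,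
   Spec.mk (nat_lit 57366) (nat_lit 0) [nat_lit 55908, nat_lit 57852, nat_lit 57204, nat_lit 57384, nat_lit 57360] (nat_lit 2) [nat_lit 37684] false,
   Spec.mk (nat_lit 57376) (nat_lit 0) [nat_lit 55918, nat_lit 57862, nat_lit 57214, nat_lit 57430, nat_lit 57358, nat_lit 57378] (nat_lit 0) [nat_lit 37694] false,
   Spec.mk (nat_lit 57378) (nat_lit 0) [nat_lit 55920, nat_lit 57864, nat_lit 57216, nat_lit 57432, nat_lit 57360, nat_lit 57384, nat_lit 57376] (nat_lit 2) [nat_lit 37696] false,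
   Spec.mk (nat_lit 57384) (nat_lit 0) [nat_lit 55926, nat_lit 57870, nat_lit 57222, nat_lit 57438, nat_lit 57366, nat_lit 57402, nat_lit 57378] (nat_lit 1) [nat_lit 37702] false,
   Spec.mk (nat_lit 57402) (nat_lit 0) [nat_lit 55944, nat_lit 57888, nat_lit 57240, nat_lit 57456, nat_lit 57384] (nat_lit 2) [nat_lit 37720] false,
   Spec.mk (nat_lit 57430) (nat_lit 2) [nat_lit 55972, nat_lit 57916, nat_lit 57268, nat_lit 57376, nat_lit 57432] (nat_lit 0) [nat_lit 37748] false,
   Spec.mk (nat_lit 57432) (nat_lit 0) [nat_lit 55974, nat_lit 57918, nat_lit 57270, nat_lit 57378, nat_lit 57438, nat_lit 57430] (nat_lit 0) [nat_lit 37750] false,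
   Spec.mk (nat_lit 57438) (nat_lit 0) [nat_lit 55980, nat_lit 57924, nat_lit 57276, nat_lit 57384, nat_lit 57456, nat_lit 57432] (nat_lit 0) [nat_lit 37756] false]

noncomputable def sp148 : List Spec :=
  [Spec.mk (nat_lit 57456) (nat_lit 1) [nat_lit 55998, nat_lit 57942, nat_lit 57294, nat_lit 57402, nat_lit 57510, nat_lit 57438] (nat_lit 0) [nat_lit 37774] false,
   Spec.mk (nat_lit 57510) (nat_lit 2) [nat_lit 56052, nat_lit 57996, nat_lit 57456] (nat_lit 0) [nat_lit 37828] false,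
   Spec.mk (nat_lit 57596) (nat_lit 6) [nat_lit 56138, nat_lit 57110, nat_lit 57602, nat_lit 57598] (nat_lit 0) [] false,
   Spec.mk (nat_lit 57598) (nat_lit 4) [nat_lit 56140, nat_lit 57112, nat_lit 57604, nat_lit 57596] (nat_lit 0) [nat_lit 37916] false,
   Spec.mk (nat_lit 57602) (nat_lit 4) [nat_lit 56144, nat_lit 57116, nat_lit 57620, nat_lit 57596, nat_lit 57604] (nat_lit 0) [] false,
   Spec.mk (nat_lit 57604) (nat_lit 4) [nat_lit 56146, nat_lit 57118, nat_lit 57622, nat_lit 57598, nat_lit 57610, nat_lit 57602, nat_lit 57606] (nat_lit 0) [nat_lit 37922] false,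
   Spec.mk (nat_lit 57606) (nat_lit 2) [nat_lit 56148, nat_lit 57120, nat_lit 57624, nat_lit 57612, nat_lit 57604] (nat_lit 0) [nat_lit 37924] false,
   Spec.mk (nat_lit 57610) (nat_lit 2) [nat_lit 56152, nat_lit 57124, nat_lit 57628, nat_lit 57604, nat_lit 57612] (nat_lit 0) [nat_lit 37928] false,
   Spec.mk (nat_lit 57612) (nat_lit 2) [nat_lit 56154, nat_lit 57126, nat_lit 57630, nat_lit 57606, nat_lit 57610] (nat_lit 0) [nat_lit 37930] false,
   Spec.mk (nat_lit 57620) (nat_lit 4) [nat_lit 56162, nat_lit 57134, nat_lit 57674, nat_lit 57602, nat_lit 57622] (nat_lit 0) [] false,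
   Spec.mk (nat_lit 57622) (nat_lit 3) [nat_lit 56164, nat_lit 57136, nat_lit 57676, nat_lit 57604, nat_lit 57628, nat_lit 57620, nat_lit 57624] (nat_lit 0) [nat_lit 37940] false,
   Spec.mk (nat_lit 57624) (nat_lit 0) [nat_lit 56166, nat_lit 57138, nat_lit 57678, nat_lit 57606, nat_lit 57630, nat_lit 57622] (nat_lit 0) [nat_lit 37942] false,
   Spec.mk (nat_lit 57628) (nat_lit 3) [nat_lit 56170, nat_lit 57142, nat_lit 57682, nat_lit 57610, nat_lit 57646, nat_lit 57622, nat_lit 57630] (nat_lit 0) [nat_lit 37946] false,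
   Spec.mk (nat_lit 57630) (nat_lit 2) [nat_lit 56172, nat_lit 57144, nat_lit 57684, nat_lit 57612, nat_lit 57648, nat_lit 57624, nat_lit 57636, nat_lit 57628] (nat_lit 0) [nat_lit 37948] false,
   Spec.mk (nat_lit 57636) (nat_lit 2) [nat_lit 56178, nat_lit 57150, nat_lit 57690, nat_lit 57654, nat_lit 57630] (nat_lit 0) [nat_lit 37954] false,
   Spec.mk (nat_lit 57646) (nat_lit 2) [nat_lit 56188, nat_lit 57160, nat_lit 57700, nat_lit 57628, nat_lit 57648] (nat_lit 0) [nat_lit 37964] false,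
   Spec.mk (nat_lit 57648) (nat_lit 0) [nat_lit 56190, nat_lit 57162, nat_lit 57702, nat_lit 57630, nat_lit 57654, nat_lit 57646] (nat_lit 0) [nat_lit 37966] false,
   Spec.mk (nat_lit 57654) (nat_lit 2) [nat_lit 56196, nat_lit 57168, nat_lit 57708, nat_lit 57636, nat_lit 57648] (nat_lit 0) [nat_lit 37972] false,
   Spec.mk (nat_lit 57674) (nat_lit 4) [nat_lit 56216, nat_lit 57188, nat_lit 57836, nat_lit 57620, nat_lit 57676] (nat_lit 0) [] false,
   Spec.mk (nat_lit 57676) (nat_lit 3) [nat_lit 56218, nat_lit 57190, nat_lit 57838, nat_lit 57622, nat_lit 57682, nat_lit 57674, nat_lit 57678] (nat_lit 0) [nat_lit 37994] false,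
   Spec.mk (nat_lit 57678) (nat_lit 0) [nat_lit 56220, nat_lit 57192, nat_lit 57840, nat_lit 57624, nat_lit 57684, nat_lit 57676] (nat_lit 0) [nat_lit 37996] false,
   Spec.mk (nat_lit 57682) (nat_lit 2) [nat_lit 56224, nat_lit 57196, nat_lit 57844, nat_lit 57628, nat_lit 57700, nat_lit 57676, nat_lit 57684] (nat_lit 0) [nat_lit 38000] false,
   Spec.mk (nat_lit 57684) (nat_lit 1) [nat_lit 56226, nat_lit 57198, nat_lit 57846, nat_lit 57630, nat_lit 57702, nat_lit 57678, nat_lit 57690, nat_lit 57682] (nat_lit 0) [nat_lit 38002] false,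
   Spec.mk (nat_lit 57690) (nat_lit 0) [nat_lit 56232, nat_lit 57204, nat_lit 57852, nat_lit 57636, nat_lit 57708, nat_lit 57684] (nat_lit 0) [nat_lit 38008] false,
   Spec.mk (nat_lit 57700) (nat_lit 3) [nat_lit 56242, nat_lit 57214, nat_lit 57862, nat_lit 57646, nat_lit 57754, nat_lit 57682, nat_lit 57702] (nat_lit 0) [nat_lit 38018] false,
   Spec.mk (nat_lit 57702) (nat_lit 1) [nat_lit 56244, nat_lit 57216, nat_lit 57864, nat_lit 57648, nat_lit 57756, nat_lit 57684, nat_lit 57708, nat_lit 57700] (nat_lit 0) [nat_lit 38020] false,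
   Spec.mk (nat_lit 57708) (nat_lit 2) [nat_lit 56250, nat_lit 57222, nat_lit 57870, nat_lit 57654, nat_lit 57762, nat_lit 57690, nat_lit 57726, nat_lit 57702] (nat_lit 0) [nat_lit 38026] false,
   Spec.mk (nat_lit 57726) (nat_lit 2) [nat_lit 56268, nat_lit 57240, nat_lit 57888, nat_lit 57780, nat_lit 57708] (nat_lit 0) [nat_lit 38044] false,
   Spec.mk (nat_lit 57754) (nat_lit 2) [nat_lit 56296, nat_lit 57268, nat_lit 57916, nat_lit 57700, nat_lit 57756] (nat_lit 0) [nat_lit 38072] false,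
   Spec.mk (nat_lit 57756) (nat_lit 0) [nat_lit 56298, nat_lit 57270, nat_lit 57918, nat_lit 57702, nat_lit 57762, nat_lit 57754] (nat_lit 0) [nat_lit 38074] false,
   Spec.mk (nat_lit 57762) (nat_lit 0) [nat_lit 56304, nat_lit 57276, nat_lit 57924, nat_lit 57708, nat_lit 57780, nat_lit 57756] (nat_lit 0) [nat_lit 38080] false,
   Spec.mk (nat_lit 57780) (nat_lit 2) [nat_lit 56322, nat_lit 57294, nat_lit 57942, nat_lit 57726, nat_lit 57762] (nat_lit 0) [nat_lit 38098] false,
   Spec.mk (nat_lit 57836) (nat_lit 5) [nat_lit 56378, nat_lit 57350, nat_lit 58322, nat_lit 57674, nat_lit 57838] (nat_lit 0) [] false,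
   Spec.mk (nat_lit 57838) (nat_lit 4) [nat_lit 56380, nat_lit 57352, nat_lit 58324, nat_lit 57676, nat_lit 57844, nat_lit 57836, nat_lit 57840] (nat_lit 0) [nat_lit 38156] false,
   Spec.mk (nat_lit 57840) (nat_lit 1) [nat_lit 56382, nat_lit 57354, nat_lit 58326, nat_lit 57678, nat_lit 57846, nat_lit 57838] (nat_lit 0) [nat_lit 38158] false,
   Spec.mk (nat_lit 57844) (nat_lit 3) [nat_lit 56386, nat_lit 57358, nat_lit 58330, nat_lit 57682, nat_lit 57862, nat_lit 57838, nat_lit 57846] (nat_lit 0) [nat_lit 38162] false,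
   Spec.mk (nat_lit 57846) (nat_lit 2) [nat_lit 56388, nat_lit 57360, nat_lit 58332, nat_lit 57684, nat_lit 57864, nat_lit 57840, nat_lit 57852, nat_lit 57844] (nat_lit 0) [nat_lit 38164] false,
   Spec.mk (nat_lit 57852) (nat_lit 1) [nat_lit 56394, nat_lit 57366, nat_lit 58338, nat_lit 57690, nat_lit 57870, nat_lit 57846] (nat_lit 0) [nat_lit 38170] false,
   Spec.mk (nat_lit 57862) (nat_lit 3) [nat_lit 56404, nat_lit 57376, nat_lit 58348, nat_lit 57700, nat_lit 57916, nat_lit 57844, nat_lit 57864] (nat_lit 0) [nat_lit 38180] false,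
   Spec.mk (nat_lit 57864) (nat_lit 1) [nat_lit 56406, nat_lit 57378, nat_lit 58350, nat_lit 57702, nat_lit 57918, nat_lit 57846, nat_lit 57870, nat_lit 57862] (nat_lit 0) [nat_lit 38182] false,
   Spec.mk (nat_lit 57870) (nat_lit 2) [nat_lit 56412, nat_lit 57384, nat_lit 58356, nat_lit 57708, nat_lit 57924, nat_lit 57852, nat_lit 57888, nat_lit 57864] (nat_lit 0) [nat_lit 38188] false,
   Spec.mk (nat_lit 57888) (nat_lit 1) [nat_lit 56430, nat_lit 57402, nat_lit 58374, nat_lit 57726, nat_lit 57942, nat_lit 57870] (nat_lit 0) [nat_lit 38206] false,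
   Spec.mk (nat_lit 57916) (nat_lit 4) [nat_lit 56458, nat_lit 57430, nat_lit 58402, nat_lit 57754, nat_lit 58078, nat_lit 57862, nat_lit 57918] (nat_lit 0) [nat_lit 38234] false,
   Spec.mk (nat_lit 57918) (nat_lit 2) [nat_lit 56460, nat_lit 57432, nat_lit 58404, nat_lit 57756, nat_lit 58080, nat_lit 57864, nat_lit 57924, nat_lit 57916] (nat_lit 0) [nat_lit 38236] false,
   Spec.mk (nat_lit 57924) (nat_lit 2) [nat_lit 56466, nat_lit 57438, nat_lit 58410, nat_lit 57762, nat_lit 58086, nat_lit 57870, nat_lit 57942, nat_lit 57918] (nat_lit 0) [nat_lit 38242] false,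
   Spec.mk (nat_lit 57942) (nat_lit 3) [nat_lit 56484, nat_lit 57456, nat_lit 58428, nat_lit 57780, nat_lit 58104, nat_lit 57888, nat_lit 57996, nat_lit 57924] (nat_lit 0) [nat_lit 38260] false,
   Spec.mk (nat_lit 57996) (nat_lit 3) [nat_lit 56538, nat_lit 57510, nat_lit 58482, nat_lit 58158, nat_lit 57942] (nat_lit 0) [nat_lit 38314] false,
   Spec.mk (nat_lit 58078) (nat_lit 4) [nat_lit 56620, nat_lit 58564, nat_lit 57916, nat_lit 58080] (nat_lit 0) [nat_lit 38396] false,
   Spec.mk (nat_lit 58080) (nat_lit 2) [nat_lit 56622, nat_lit 58566, nat_lit 57918, nat_lit 58086, nat_lit 58078] (nat_lit 0) [nat_lit 38398] false,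
   Spec.mk (nat_lit 58086) (nat_lit 2) [nat_lit 56628, nat_lit 58572, nat_lit 57924, nat_lit 58104, nat_lit 58080] (nat_lit 0) [nat_lit 38404] false,
   Spec.mk (nat_lit 58104) (nat_lit 2) [nat_lit 56646, nat_lit 58590, nat_lit 57942, nat_lit 58158, nat_lit 58086] (nat_lit 0) [nat_lit 38422] false,
   Spec.mk (nat_lit 58158) (nat_lit 4) [nat_lit 56700, nat_lit 58644, nat_lit 57996, nat_lit 58104] (nat_lit 0) [nat_lit 38476] false,
   Spec.mk (nat_lit 58322) (nat_lit 6) [nat_lit 57836, nat_lit 58324] (nat_lit 0) [] false,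
   Spec.mk (nat_lit 58324) (nat_lit 5) [nat_lit 57838, nat_lit 58330, nat_lit 58322, nat_lit 58326] (nat_lit 0) [nat_lit 38642] false,
   Spec.mk (nat_lit 58326) (nat_lit 2) [nat_lit 57840, nat_lit 58332, nat_lit 58324] (nat_lit 0) [nat_lit 38644] false,
   Spec.mk (nat_lit 58330) (nat_lit 4) [nat_lit 57844, nat_lit 58348, nat_lit 58324, nat_lit 58332] (nat_lit 0) [nat_lit 38648] false,
   Spec.mk (nat_lit 58332) (nat_lit 3) [nat_lit 57846, nat_lit 58350, nat_lit 58326, nat_lit 58338, nat_lit 58330] (nat_lit 0) [nat_lit 38650] false,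
   Spec.mk (nat_lit 58338) (nat_lit 2) [nat_lit 57852, nat_lit 58356, nat_lit 58332] (nat_lit 0) [nat_lit 38656] false,
   Spec.mk (nat_lit 58348) (nat_lit 4) [nat_lit 57862, nat_lit 58402, nat_lit 58330, nat_lit 58350] (nat_lit 0) [nat_lit 38666] false,
   Spec.mk (nat_lit 58350) (nat_lit 2) [nat_lit 57864, nat_lit 58404, nat_lit 58332, nat_lit 58356, nat_lit 58348] (nat_lit 0) [nat_lit 38668] false]

noncomputable def sp149 : List Spec :=
  [Spec.mk (nat_lit 58356) (nat_lit 3) [nat_lit 57870, nat_lit 58410, nat_lit 58338, nat_lit 58374, nat_lit 58350] (nat_lit 0) [nat_lit 38674] false,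
   Spec.mk (nat_lit 58374) (nat_lit 2) [nat_lit 57888, nat_lit 58428, nat_lit 58356] (nat_lit 0) [nat_lit 38692] false,
   Spec.mk (nat_lit 58402) (nat_lit 4) [nat_lit 57916, nat_lit 58564, nat_lit 58348, nat_lit 58404] (nat_lit 0) [nat_lit 38720] false,
   Spec.mk (nat_lit 58404) (nat_lit 2) [nat_lit 57918, nat_lit 58566, nat_lit 58350, nat_lit 58410, nat_lit 58402] (nat_lit 0) [nat_lit 38722] false,
   Spec.mk (nat_lit 58410) (nat_lit 2) [nat_lit 57924, nat_lit 58572, nat_lit 58356, nat_lit 58428, nat_lit 58404] (nat_lit 0) [nat_lit 38728] false,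
   Spec.mk (nat_lit 58428) (nat_lit 3) [nat_lit 57942, nat_lit 58590, nat_lit 58374, nat_lit 58482, nat_lit 58410] (nat_lit 0) [nat_lit 38746] false,
   Spec.mk (nat_lit 58482) (nat_lit 2) [nat_lit 57996, nat_lit 58644, nat_lit 58428] (nat_lit 0) [nat_lit 38800] false,
   Spec.mk (nat_lit 58564) (nat_lit 6) [nat_lit 58078, nat_lit 58402, nat_lit 58566] (nat_lit 0) [nat_lit 38882] false,
   Spec.mk (nat_lit 58566) (nat_lit 4) [nat_lit 58080, nat_lit 58404, nat_lit 58572, nat_lit 58564] (nat_lit 0) [nat_lit 38884] false,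
   Spec.mk (nat_lit 58572) (nat_lit 4) [nat_lit 58086, nat_lit 58410, nat_lit 58590, nat_lit 58566] (nat_lit 0) [nat_lit 38890] false,
   Spec.mk (nat_lit 58590) (nat_lit 4) [nat_lit 58104, nat_lit 58428, nat_lit 58644, nat_lit 58572] (nat_lit 0) [nat_lit 38908] false,
   Spec.mk (nat_lit 58644) (nat_lit 5) [nat_lit 58158, nat_lit 58482, nat_lit 58806, nat_lit 58590] (nat_lit 0) [nat_lit 38962] false,
   Spec.mk (nat_lit 58806) (nat_lit 6) [nat_lit 58644] (nat_lit 0) [nat_lit 39124] false]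

noncomputable def specs : List (List Spec) :=
    sp0 :: sp1 :: sp2 :: sp3 :: sp4 :: sp5 :: sp6 :: sp7 :: sp8 :: sp9 :: sp10 :: sp11 :: sp12 ::
    sp13 :: sp14 :: sp15 :: sp16 :: sp17 :: sp18 :: sp19 :: sp20 :: sp21 :: sp22 :: sp23 :: sp24 ::
    sp25 :: sp26 :: sp27 :: sp28 :: sp29 :: sp30 :: sp31 :: sp32 :: sp33 :: sp34 :: sp35 :: sp36 ::
    sp37 :: sp38 :: sp39 :: sp40 :: sp41 :: sp42 :: sp43 :: sp44 :: sp45 :: sp46 :: sp47 :: sp48 ::
    sp49 :: sp50 :: sp51 :: sp52 :: sp53 :: sp54 :: sp55 :: sp56 :: sp57 :: sp58 :: sp59 :: sp60 ::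
    sp61 :: sp62 :: sp63 :: sp64 :: sp65 :: sp66 :: sp67 :: sp68 :: sp69 :: sp70 :: sp71 :: sp72 ::
    sp73 :: sp74 :: sp75 :: sp76 :: sp77 :: sp78 :: sp79 :: sp80 :: sp81 :: sp82 :: sp83 :: sp84 ::
    sp85 :: sp86 :: sp87 :: sp88 :: sp89 :: sp90 :: sp91 :: sp92 :: sp93 :: sp94 :: sp95 :: sp96 ::
    sp97 :: sp98 :: sp99 :: sp100 :: sp101 :: sp102 :: sp103 :: sp104 :: sp105 :: sp106 :: sp107 ::
    sp108 :: sp109 :: sp110 :: sp111 :: sp112 :: sp113 :: sp114 :: sp115 :: sp116 :: sp117 :: sp118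
    :: sp119 :: sp120 :: sp121 :: sp122 :: sp123 :: sp124 :: sp125 :: sp126 :: sp127 :: sp128 ::
    sp129 :: sp130 :: sp131 :: sp132 :: sp133 :: sp134 :: sp135 :: sp136 :: sp137 :: sp138 :: sp139
    :: sp140 :: sp141 :: sp142 :: sp143 :: sp144 :: sp145 :: sp146 :: sp147 :: sp148 :: sp149 :: []

noncomputable def step (e : Nat → Nat) (C ap an : Nat) (k :
    Nat → Nat → Nat → Nat → Nat → Nat → Nat → Nat → Nat → Nat → Nat → Nat → Nat → Nat → Nat → Nat →
    Nat → Nat → Nat → Nat → Nat → Nat → Nat → Nat → Nat → Nat → Nat → Nat → Nat → Nat → Nat → Nat →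
    Nat → Nat → Nat → Nat → Nat → Nat → Nat → Nat → Nat → Nat → Nat → Nat → Nat → Nat → Nat → Nat →
    Nat → Nat → Nat → Nat → Nat → Nat → Nat → Nat → Nat → Nat → Nat → Nat → Nat → Nat → Nat → Nat →
    Nat → Nat → Nat → Nat → Nat → Nat → Nat → Nat → Nat → Nat → Nat → Nat → Nat → Nat → Nat → Nat →
    Nat → Nat → Nat → Nat → Nat → Nat → Nat → Nat → Nat → Nat → Nat → Nat → Nat → Nat → Nat → Nat →
    Nat → Nat → Nat → Nat → Nat → Nat → Nat → Nat → Nat → Nat → Nat → Nat → Nat → Nat → Nat → Nat →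
    Nat → Nat → Nat → Nat → Nat → Nat → Nat → Nat → Nat → Nat → Nat → Nat → Nat → Nat → Nat → Nat →
    Nat → Nat → Nat → Nat → Nat → Nat → Nat → Nat → Nat → Nat → Nat → Nat → Nat → Nat → Nat → Nat →
    Nat → Nat → Nat → Nat → Nat → Nat → Nat → Nat → Nat → Nat → Nat → Nat → Nat → Nat → Nat → Nat →
    Nat → Nat → Nat → Nat → Nat → Nat → Nat → Nat → Nat → Nat → Nat → Nat → Nat → Nat → Nat → Nat →
    Nat → Nat → Nat → Nat → Nat → Nat → Nat → Nat → Nat → Nat → Nat → Nat → Nat → Nat → Nat → Nat →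
    Nat → Nat → Nat → Nat → Nat → Nat → Nat → Nat → Nat → Nat → Nat → Nat → Nat → Nat → Nat → Nat →
    Nat → Nat → Nat → Nat → Nat → Nat → Nat → Nat → Nat → Nat → Nat → Nat → Nat → Nat → Nat → Nat →
    Nat → Nat → Nat → Nat → Nat → Nat → Nat → Nat → Nat → Nat → Nat → Nat → Nat → Nat → Nat → Nat →
    Nat → Nat → Nat → Nat → Nat → Nat → Nat → Nat → Nat → Nat → Nat → Nat → Nat → Nat → Nat → Nat →
    Nat → Nat → Nat → Nat → Nat → Nat → Nat → Nat → Nat → Nat → Nat → Nat → Nat → Nat → Nat → Nat →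
    Nat → Nat → Nat → Nat → Nat → Nat → Nat → Nat → Nat → Nat → Nat → Nat → Nat → Nat → Nat → Nat →
    Nat → Nat → Nat → Nat → Nat → Nat → Nat → Nat → Nat → Nat → Nat → Nat → Nat → Nat → Nat → Nat →
    Nat → Nat → Nat → Nat → Nat → Nat → Nat → Nat → Nat → Nat → Nat → Nat → Nat → Nat → Nat → Nat →
    Nat → Nat → Nat → Nat → Nat → Nat → Nat → Nat → Nat → Nat → Nat → Nat → Nat → Nat → Nat → Nat →
    Nat → Nat → Nat → Nat → Nat → Nat → Nat → Nat → Nat → Nat → Nat → Nat → Nat → Nat → Nat → Nat →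
    Nat → Nat → Nat → Nat → Nat → Nat → Nat → Nat → Nat → Nat → Nat → Nat → Nat → Nat → Nat → Nat →
    Nat → Nat → Nat → Nat → Nat → Nat → Nat → Nat → Nat → Nat → Nat → Nat → Nat → Nat → Nat → Nat →
    Nat → Nat → Nat → Nat → Nat → Nat → Nat → Nat → Nat → Nat → Nat → Nat → Nat → Nat → Nat → Nat →
    Nat → Nat → Nat → Nat → Nat → Nat → Nat → Nat → Nat → Nat → Nat → Nat → Nat → Nat → Nat → Nat →
    Nat → Nat → Nat → Nat → Nat → Nat → Nat → Nat → Nat → Nat → Nat → Nat → Nat → Nat → Nat → Nat →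
    Nat → Nat → Nat → Nat → Nat → Nat → Nat → Nat → Nat → Nat → Nat → Nat → Nat → Nat → Nat → Nat →
    Nat → Nat → Nat → Nat → Nat → Nat → Nat → Nat → Nat → Nat → Nat → Nat → Nat → Nat → Nat → Nat →
    Nat → Nat → Nat → Nat → Nat → Nat → Nat → Nat → Nat → Nat → Nat → Nat → Nat → Nat → Nat → Nat →
    Nat → Nat → Nat → Nat → Nat → Nat → Nat → Nat → Nat → Nat → Nat → Nat → Nat → Nat → Nat → Nat →
    Nat → Nat → Nat → Nat → Nat → Nat → Nat → Nat → Nat → Nat → Nat → Nat → Nat → Nat → Nat → Nat →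
    Nat → Nat → Nat → Nat → Nat → Nat → Nat → Nat → Nat → Nat → Nat → Nat → Nat → Nat → Nat → Nat →
    Nat → Nat → Nat → Nat → Nat → Nat → Nat → Nat → Nat → Nat → Nat → Nat → Nat → Nat → Nat → Nat →
    Nat → Nat → Nat → Nat → Nat → Nat → Nat → Nat → Nat → Nat → Nat → Nat → Nat → Nat → Nat → Nat →
    Nat → Nat → Nat → Nat → Nat → Nat → Nat → Nat → Nat → Nat → Nat → Nat → Nat → Nat → Nat → Nat →
    Nat → Nat → Nat → Nat → Nat → Nat → Nat → Nat → Nat → Nat → Nat → Nat → Nat → Nat → Nat → Nat →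
    Nat → Nat → Nat → Nat → Nat → Nat → Nat → Nat → Nat → Nat → Nat → Nat → Nat → Nat → Nat → Nat →
    Nat → Nat → Nat → Nat → Nat → Nat → Nat → Nat → Nat → Nat → Nat → Nat → Nat → Nat → Nat → Nat →
    Nat → Nat → Nat → Nat → Nat → Nat → Nat → Nat → Nat → Nat → Nat → Nat → Nat → Nat → Nat → Nat →
    Nat → Nat → Nat → Nat → Nat → Nat → Nat → Nat → Nat → Nat → Nat → Nat → Nat → Nat → Nat → Nat →
    Nat → Nat → Nat → Nat → Nat → Nat → Nat → Nat → Nat → Nat → Nat → Nat → Nat → Nat → Nat → Nat →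
    Nat → Nat → Nat → Nat → Nat → Nat → Nat → Nat → Nat → Nat → Nat → Nat → Nat → Nat → Nat → Nat →
    Nat → Nat → Nat → Nat → Nat → Nat → Nat → Nat → Nat → Nat → Nat → Nat → Nat → Nat → Nat → Nat →
    Nat → Nat → Nat → Nat → Nat → Nat → Nat → Nat → Nat → Nat → Nat → Nat → Nat → Nat → Nat → Nat →
    Nat → Nat → Nat → Nat → Nat → Nat → Nat → Nat → Nat → Nat → Nat → Nat → Nat → Nat → Nat → Nat →
    Nat → Nat → Nat → Nat → Nat → Nat → Nat → Nat → Nat → Nat → Nat → Nat → Nat → Nat → Nat → Nat →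
    Nat → Nat → Nat → Nat → Nat → Nat → Nat → Nat → Nat → Nat → Nat → Nat → Nat → Nat → Nat → Nat →
    Nat → Nat → Nat → Nat → Nat → Nat → Nat → Nat → Nat → Nat → Nat → Nat → Nat → Nat → Nat → Nat →
    Nat → Nat → Nat → Nat → Nat → Nat → Nat → Nat → Nat → Nat → Nat → Nat → Nat → Nat → Nat → Nat →
    Nat → Nat → Nat → Nat → Nat → Nat → Nat → Nat → Nat → Nat → Nat → Nat → Nat → Nat → Nat → Nat →
    Nat → Nat → Nat → Nat → Nat → Nat → Nat → Nat → Nat → Nat → Nat → Nat → Nat → Nat → Nat → Nat →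
    Nat → Nat → Nat → Nat → Nat → Nat → Nat → Nat → Nat → Nat → Nat → Nat → Nat → Nat → Nat → Nat →
    Nat → Nat → Nat → Nat → Nat → Nat → Nat → Nat → Nat → Nat → Nat → Nat → Nat → Nat → Nat → Nat →
    Nat → Nat → Nat → Nat → Nat → Nat → Nat → Nat → Nat → Nat → Nat → Nat → Nat → Nat → Nat → Nat →
    Nat → Nat → Nat → Nat → Nat → Nat → Nat → Nat → Nat → Nat → Nat → Nat → Nat → Nat → Nat → Nat →
    Nat → Nat → Nat → Nat → Nat → Nat → Nat → Nat → Nat → Nat → Nat → Nat → Nat → Nat → Nat → Nat →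
    Nat → Nat → Nat → Nat → Nat → Nat → Nat → Nat → Nat → Nat → Nat → Nat → Nat → Nat → Nat → Nat →
    Nat → Nat → Nat → Nat → Nat → Nat → Nat → Nat → Nat → Nat → Nat → Nat → Nat → Nat → Nat → Nat →
    Nat → Nat → Nat → Nat → Nat → Nat → Nat → Nat → Nat → Nat → Nat → Nat → Nat → Nat → Nat → Nat →
    Nat → Nat → Nat → Nat → Nat → Nat → Nat → Nat → Nat → Nat → Nat → Nat → Nat → Nat → Nat → Nat →
    Nat → Nat → Nat → Nat → Nat → Nat → Nat → Nat → Nat → Nat → Nat → Nat → Nat → Nat → Nat → Nat →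
    Nat → Nat → Nat → Nat → Nat → Nat → Nat → Nat → Nat → Nat → Nat → Nat → Nat → Nat → Nat → Nat →
    Nat → Nat → Nat → Nat → Nat → Nat → Nat → Nat → Nat → Nat → Nat → Nat → Nat → Nat → Nat → Nat →
    Nat → Nat → Nat → Nat → Nat → Nat → Nat → Nat → Nat → Nat → Nat → Nat → Nat → Nat → Nat → Nat →
    Nat → Nat → Nat → Nat → Nat → Nat → Nat → Nat → Nat → Nat → Nat → Nat → Nat → Nat → Nat → Nat →
    Nat → Nat → Nat → Nat → Nat → Nat → Nat → Nat → Nat → Nat → Nat → Nat → Nat → Nat → Nat → Nat →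
    Nat → Nat → Nat → Nat → Nat → Nat → Nat → Nat → Nat → Nat → Nat → Nat → Nat → Nat → Nat → Nat →
    Nat → Nat → Nat → Nat → Nat → Nat → Nat → Nat → Nat → Nat → Nat → Nat → Nat → Nat → Nat → Nat →
    Nat → Nat → Nat → Nat → Nat → Nat → Nat → Nat → Nat → Nat → Nat → Nat → Nat → Nat → Nat → Nat →
    Nat → Nat → Nat → Nat → Nat → Nat → Nat → Nat → Nat → Nat → Nat → Nat → Nat → Nat → Nat → Nat →
    Nat → Nat → Nat → Nat → Nat → Nat → Nat → Nat → Nat → Nat → Nat → Nat → Nat → Nat → Nat → Nat →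
    Nat → Nat → Nat → Nat → Nat → Nat → Nat → Nat → Nat → Nat → Nat → Nat → Nat → Nat → Nat → Nat →
    Nat → Nat → Nat → Nat → Nat → Nat → Nat → Nat → Nat → Nat → Nat → Nat → Nat → Nat → Nat → Nat →
    Nat → Nat → Nat → Nat → Nat → Nat → Nat → Nat → Nat → Nat → Nat → Nat → Nat → Nat → Nat → Nat →
    Nat → Nat → Nat → Nat → Nat → Nat → Nat → Nat → Nat → Nat → Nat → Nat → Nat → Nat → Nat → Nat →
    Nat → Nat → Nat → Nat → Nat → Nat → Nat → Nat → Nat → Nat → Nat → Nat → Nat → Nat → Nat → Nat →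
    Nat → Nat → Nat → Nat → Nat → Nat → Nat → Nat → Nat → Nat → Nat → Nat → Nat → Nat → Nat → Nat →
    Nat → Nat → Nat → Nat → Nat → Nat → Nat → Nat → Nat → Nat → Nat → Nat → Nat → Nat → Nat → Nat →
    Nat → Nat → Nat → Nat → Nat → Nat → Nat → Nat → Nat → Nat → Nat → Nat → Nat → Nat → Nat → Nat →
    Nat → Nat → Nat → Nat → Nat → Nat → Nat → Nat → Nat → Nat → Nat → Nat → Nat → Nat → Nat → Nat →
    Nat → Nat → Nat → Nat → Nat → Nat → Nat → Nat → Nat → Nat → Nat → Nat → Nat → Nat → Nat → Nat →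
    Nat → Nat → Nat → Nat → Nat → Nat → Nat → Nat → Nat → Nat → Nat → Nat → Nat → Nat → Nat → Nat →
    Nat → Nat → Nat → Nat → Nat → Nat → Nat → Nat → Nat → Nat → Nat → Nat → Nat → Nat → Nat → Nat →
    Nat → Nat → Nat → Nat → Nat → Nat → Nat → Nat → Nat → Nat → Nat → Nat → Nat → Nat → Nat → Nat →
    Nat → Nat → Nat → Nat → Nat → Nat → Nat → Nat → Nat → Nat → Nat → Nat → Nat → Nat → Nat → Nat →
    Nat → Nat → Nat → Nat → Nat → Nat → Nat → Nat → Nat → Nat → Nat → Nat → Nat → Nat → Nat → Nat →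
    Nat → Nat → Nat → Nat → Nat → Nat → Nat → Nat → Nat → Nat → Nat → Nat → Nat → Nat → Nat → Nat →
    Nat → Nat → Nat → Nat → Nat → Nat → Nat → Nat → Nat → Nat → Nat → Nat → Nat → Nat → Nat → Nat →
    Nat → Nat → Nat → Nat → Nat → Nat → Nat → Nat → Nat → Nat → Nat → Nat → Nat → Nat → Nat → Nat →
    Nat → Nat → Nat → Nat → Nat → Nat → Nat → Nat → Nat → Nat → Nat → Nat → Nat → Nat → Nat → Nat →
    Nat → Nat → Nat → Nat → Nat → Nat → Nat → Nat → Nat → Nat → Nat → Nat → Nat → Nat → Nat → Nat →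
    Nat → Nat → Nat → Nat → Nat → Nat → Nat → Nat → Nat → Nat → Nat → Nat → Nat → Nat → Nat → Nat →
    Nat → Nat → Nat → Nat → Nat → Nat → Nat → Nat → Nat → Nat → Nat → Nat → Nat → Nat → Nat → Nat →
    Nat → Nat → Nat → Nat → Nat → Nat → Nat → Nat → Nat → Nat → Nat → Nat → Nat → Nat → Nat → Nat →
    Nat → Nat → Nat → Nat → Nat → Nat → Nat → Nat → Nat → Nat → Nat → Nat → Nat → Nat → Nat → Nat →
    Nat → Nat → Nat → Nat → Nat → Nat → Nat → Nat → Nat → Nat → Nat → Nat → Nat → Nat → Nat → Nat →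
    Nat → Nat → Nat → Nat → Nat → Nat → Nat → Nat → Nat → Nat → Nat → Nat → Nat → Nat → Nat → Nat →
    Nat → Nat → Nat → Nat → Nat → Nat → Nat → Nat → Nat → Nat → Nat → Nat → Nat → Nat → Nat → Nat →
    Nat → Nat → Nat → Nat → Nat → Nat → Nat → Nat → Nat → Nat → Nat → Nat → Nat → Nat → Nat → Nat →
    Nat → Nat → Nat → Nat → Nat → Nat → Nat → Nat → Nat → Nat → Nat → Nat → Nat → Nat → Nat → Nat →
    Nat → Nat → Nat → Nat → Nat → Nat → Nat → Nat → Nat → Nat → Nat → Nat → Nat → Nat → Nat → Nat →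
    Nat → Nat → Nat → Nat → Nat → Nat → Nat → Nat → Nat → Nat → Nat → Nat → Nat → Nat → Nat → Nat →
    Nat → Nat → Nat → Nat → Nat → Nat → Nat → Nat → Nat → Nat → Nat → Nat → Nat → Nat → Nat → Nat →
    Nat → Nat → Nat → Nat → Nat → Nat → Nat → Nat → Nat → Nat → Nat → Nat → Nat → Nat → Nat → Nat →
    Nat → Nat → Nat → Nat → Nat → Nat → Nat → Nat → Nat → Nat → Nat → Nat → Nat → Nat → Nat → Nat →
    Nat → Nat → Nat → Nat → Nat → Nat → Nat → Nat → Nat → Nat → Nat → Nat → Nat → Nat → Nat → Nat →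
    Nat → Nat → Nat → Nat → Nat → Nat → Nat → Nat → Nat → Nat → Nat → Nat → Nat → Nat → Nat → Nat →
    Nat → Nat → Nat → Nat → Nat → Nat → Nat → Nat → Nat → Nat → Nat → Nat → Nat → Nat → Nat → Nat →
    Nat → Nat → Nat → Nat → Nat → Nat → Nat → Nat → Nat → Nat → Nat → Nat → Nat → Nat → Nat → Nat →
    Nat → Nat → Nat → Nat → Nat → Nat → Nat → Nat → Nat → Nat → Nat → Nat → Nat → Nat → Nat → Nat →
    Nat → Nat → Nat → Nat → Nat → Nat → Nat → Nat → Nat → Nat → Nat → Nat → Nat → Nat → Nat → Nat →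
    Nat → Nat → Nat → Nat → Nat → Nat → Nat → Nat → Nat → Nat → Nat → Nat → Nat → Nat → Nat → Nat →
    Nat → Nat → Nat → Nat → Nat → Nat → Nat → Nat → Nat → Nat → Nat → Nat → Nat → Nat → Nat → Nat →
    Nat → Nat → Nat → Nat → Nat → Nat → Nat → Nat → Nat → Nat → Nat → Nat → Nat → Nat → Nat → Nat →
    Nat → Nat → Nat → Nat → Nat → Nat → Nat → Nat → Nat → Nat → Nat → Nat → Nat → Nat → Nat → Nat →
    Nat → Nat → Nat → Nat → Nat → Nat → Nat → Nat → Nat → Nat → Nat → Nat → Nat → Nat → Nat → Nat →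
    Nat → Nat → Nat → Nat → Nat → Nat → Nat → Nat → Nat → Nat → Nat → Nat → Nat → Nat → Nat → Nat →
    Nat → Nat → Nat → Nat → Nat → Nat → Nat → Nat → Nat → Nat → Nat → Nat → Nat → Nat → Nat → Nat →
    Nat → Nat → Nat → Nat → Nat → Nat → Nat → Nat → Nat → Nat → Nat → Nat → Nat → Nat → Nat → Nat →
    Nat → Nat → Nat → Nat → Nat → Nat → Nat → Nat → Nat → Nat → Nat → Nat → Nat → Nat → Nat → Nat →
    Nat → Nat → Nat → Nat → Nat → Nat → Nat → Nat → Nat → Nat → Nat → Nat → Nat → Nat → Nat → Nat →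
    Nat → Nat → Nat → Nat → Nat → Nat → Nat → Nat → Nat → Nat → Nat → Nat → Nat → Nat → Nat → Nat →
    Nat → Nat → Nat → Nat → Nat → Nat → Nat → Nat → Nat → Nat → Nat → Nat → Nat → Nat → Nat → Nat →
    Nat → Nat → Nat → Nat → Nat → Nat → Nat → Nat → Nat → Nat → Nat → Nat → Nat → Nat → Nat → Nat →
    Nat → Nat → Nat → Nat → Nat → Nat → Nat → Nat → Nat → Nat → Nat → Nat → Nat → Nat → Nat → Nat →
    Nat → Nat → Nat → Nat → Nat → Nat → Nat → Nat → Nat → Nat → Nat → Nat → Nat → Nat → Nat → Nat →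
    Nat → Nat → Nat → Nat → Nat → Nat → Nat → Nat → Nat → Nat → Nat → Nat → Nat → Nat → Nat → Nat →
    Nat → Nat → Nat → Nat → Nat → Nat → Nat → Nat → Nat → Nat → Nat → Nat → Nat → Nat → Nat → Nat →
    Nat → Nat → Nat → Nat → Nat → Nat → Nat → Nat → Nat → Nat → Nat → Nat → Nat → Nat → Nat → Nat →
    Nat → Nat → Nat → Nat → Nat → Nat → Nat → Nat → Nat → Nat → Nat → Nat → Nat → Nat → Nat → Nat →
    Nat → Nat → Nat → Nat → Nat → Nat → Nat → Nat → Nat → Nat → Nat → Nat → Nat → Nat → Nat → Nat →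
    Nat → Nat → Nat → Nat → Nat → Nat → Nat → Nat → Nat → Nat → Nat → Nat → Nat → Nat → Nat → Nat →
    Nat → Nat → Nat → Nat → Nat → Nat → Nat → Nat → Nat → Nat → Nat → Nat → Nat → Nat → Nat → Nat →
    Nat → Nat → Nat → Nat → Nat → Nat → Nat → Nat → Nat → Nat → Nat → Nat → Nat → Nat → Nat → Nat →
    Nat → Nat → Nat → Nat → Nat → Nat → Nat → Nat → Nat → Nat → Nat → Nat → Nat → Nat → Nat → Nat →
    Nat → Nat → Nat → Nat → Nat → Nat → Nat → Nat → Nat → Nat → Nat → Nat → Nat → Nat → Nat → Nat →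
    Nat → Nat → Nat → Nat → Nat → Nat → Nat → Nat → Nat → Nat → Nat → Nat → Nat → Nat → Nat → Nat →
    Nat → Nat → Nat → Nat → Nat → Nat → Nat → Nat → Nat → Nat → Nat → Nat → Nat → Nat → Nat → Nat →
    Nat → Nat → Nat → Nat → Nat → Nat → Nat → Nat → Nat → Nat → Nat → Nat → Nat → Nat → Nat → Nat →
    Nat → Nat → Nat → Nat → Nat → Nat → Nat → Nat → Nat → Nat → Nat → Nat → Nat → Nat → Nat → Nat →
    Nat → Nat → Nat → Nat → Nat → Nat → Nat → Nat → Nat → Nat → Nat → Nat → Nat → Nat → Nat → Nat →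
    Nat → Nat → Nat → Nat → Nat → Nat → Nat → Nat → Nat → Nat → Nat → Nat → Nat → Nat → Nat → Nat →
    Nat → Nat → Nat → Nat → Nat → Nat → Nat → Nat → Nat → Nat → Nat → Nat → Nat → Nat → Nat → Nat →
    Nat → Nat → Nat → Nat → Nat → Nat → Nat → Nat → Nat → Nat → Nat → Nat → Nat → Nat → Nat → Nat →
    Nat → Nat → Nat → Nat → Nat → Nat → Nat → Nat → Nat → Nat → Nat → Nat → Nat → Nat → Nat → Nat →
    Nat → Nat → Nat → Nat → Nat → Nat → Nat → Nat → Nat → Nat → Nat → Nat → Nat → Nat → Nat → Nat →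
    Nat → Nat → Nat → Nat → Nat → Nat → Nat → Nat → Nat → Nat → Nat → Nat → Nat → Nat → Nat → Nat →
    Nat → Nat → Nat → Nat → Nat → Nat → Nat → Nat → Nat → Nat → Nat → Nat → Nat → Nat → Nat → Nat →
    Nat → Nat → Nat → Nat → Nat → Nat → Nat → Nat → Nat → Nat → Nat → Nat → Nat → Nat → Nat → Nat →
    Nat → Nat → Nat → Nat → Nat → Nat → Nat → Nat → Nat → Nat → Nat → Nat → Nat → Nat → Nat → Nat →
    Nat → Nat → Nat → Nat → Nat → Nat → Nat → Nat → Nat → Nat → Nat → Nat → Nat → Nat → Nat → Nat →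
    Nat → Nat → Nat → Nat → Nat → Nat → Nat → Nat → Nat → Nat → Nat → Nat → Nat → Nat → Nat → Nat →
    Nat → Nat → Nat → Nat → Nat → Nat → Nat → Nat → Nat → Nat → Nat → Nat → Nat → Nat → Nat → Nat →
    Nat → Nat → Nat → Nat → Nat → Nat → Nat → Nat → Nat → Nat → Nat → Nat → Nat → Nat → Nat → Nat →
    Nat → Nat → Nat → Nat → Nat → Nat → Nat → Nat → Nat → Nat → Nat → Nat → Nat → Nat → Nat → Nat →
    Nat → Nat → Nat → Nat → Nat → Nat → Nat → Nat → Nat → Nat → Nat → Nat → Nat → Nat → Nat → Nat →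
    Nat → Nat → Nat → Nat → Nat → Nat → Nat → Nat → Nat → Nat → Nat → Nat → Nat → Nat → Nat → Nat →
    Nat → Nat → Nat → Nat → Nat → Nat → Nat → Nat → Nat → Nat → Nat → Nat → Nat → Nat → Nat → Nat →
    Nat → Nat → Nat → Nat → Nat → Nat → Nat → Nat → Nat → Nat → Nat → Nat → Nat → Nat → Nat → Nat →
    Nat → Nat → Nat → Nat → Nat → Nat → Nat → Nat → Nat → Nat → Nat → Nat → Nat → Nat → Nat → Nat →
    Nat → Nat → Nat → Nat → Nat → Nat → Nat → Nat → Nat → Nat → Nat → Nat → Nat → Nat → Nat → Nat →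
    Nat → Nat → Nat → Nat → Nat → Nat → Nat → Nat → Nat → Nat → Nat → Nat → Nat → Nat → Nat → Nat →
    Nat → Nat → Nat → Nat → Nat → Nat → Nat → Nat → Nat → Nat → Nat → Nat → Nat → Nat → Nat → Nat →
    Nat → Nat → Nat → Nat → Nat → Nat → Nat → Nat → Nat → Nat → Nat → Nat → Nat → Nat → Nat → Nat →
    Nat → Nat → Nat → Nat → Nat → Nat → Nat → Nat → Nat → Nat → Nat → Nat → Nat → Nat → Nat → Nat →
    Nat → Nat → Nat → Nat → Nat → Nat → Nat → Nat → Nat → Nat → Nat → Nat → Nat → Nat → Nat → Nat →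
    Nat → Nat → Nat → Nat → Nat → Nat → Nat → Nat → Nat → Nat → Nat → Nat → Nat → Nat → Nat → Nat →
    Nat → Nat → Nat → Nat → Nat → Nat → Nat → Nat → Nat → Nat → Nat → Nat → Nat → Nat → Nat → Nat →
    Nat → Nat → Nat → Nat → Nat → Nat → Nat → Nat → Nat → Nat → Nat → Nat → Nat → Nat → Nat → Nat →
    Nat → Nat → Nat → Nat → Nat → Nat → Nat → Nat → Nat → Nat → Nat → Nat → Nat → Nat → Nat → Nat →
    Nat → Nat → Nat → Nat → Nat → Nat → Nat → Nat → Nat → Nat → Nat → Nat → Nat → Nat → Nat → Nat →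
    Nat → Nat → Nat → Nat → Nat → Nat → Nat → Nat → Nat → Nat → Nat → Nat → Nat → Nat → Nat → Nat →
    Nat → Nat → Nat → Nat → Nat → Nat → Nat → Nat → Nat → Nat → Nat → Nat → Nat → Nat → Nat → Nat →
    Nat → Nat → Nat → Nat → Nat → Nat → Nat → Nat → Nat → Nat → Nat → Nat → Nat → Nat → Nat → Nat →
    Nat → Nat → Nat → Nat → Nat → Nat → Nat → Nat → Nat → Nat → Nat → Nat → Nat → Nat → Nat → Nat →
    Nat → Nat → Nat → Nat → Nat → Nat → Nat → Nat → Nat → Nat → Nat → Nat → Nat → Nat → Nat → Nat →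
    Nat → Nat → Nat → Nat → Nat → Nat → Nat → Nat → Nat → Nat → Nat → Nat → Nat → Nat → Nat → Nat →
    Nat → Nat → Nat → Nat → Nat → Nat → Nat → Nat → Nat → Nat → Nat → Nat → Nat → Nat → Nat → Nat →
    Nat → Nat → Nat → Nat → Nat → Nat → Nat → Nat → Nat → Nat → Nat → Nat → Nat → Nat → Nat → Nat →
    Nat → Nat → Nat → Nat → Nat → Nat → Nat → Nat → Nat → Nat → Nat → Nat → Nat → Nat → Nat → Nat →
    Nat → Nat → Nat → Nat → Nat → Nat → Nat → Nat → Nat → Nat → Nat → Nat → Nat → Nat → Nat → Nat →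
    Nat → Nat → Nat → Nat → Nat → Nat → Nat → Nat → Nat → Nat → Nat → Nat → Nat → Nat → Nat → Nat →
    Nat → Nat → Nat → Nat → Nat → Nat → Nat → Nat → Nat → Nat → Nat → Nat → Nat → Nat → Nat → Nat →
    Nat → Nat → Nat → Nat → Nat → Nat → Nat → Nat → Nat → Nat → Nat → Nat → Nat → Nat → Nat → Nat →
    Nat → Nat → Nat → Nat → Nat → Nat → Nat → Nat → Nat → Nat → Nat → Nat → Nat → Nat → Nat → Nat →
    Nat → Nat → Nat → Nat → Nat → Nat → Nat → Nat → Nat → Nat → Nat → Nat → Nat → Nat → Nat → Nat →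
    Nat → Nat → Nat → Nat → Nat → Nat → Nat → Nat → Nat → Nat → Nat → Nat → Nat → Nat → Nat → Nat →
    Nat → Nat → Nat → Nat → Nat → Nat → Nat → Nat → Nat → Nat → Nat → Nat → Nat → Nat → Nat → Nat →
    Nat → Nat → Nat → Nat → Nat → Nat → Nat → Nat → Nat → Nat → Nat → Nat → Nat → Nat → Nat → Nat →
    Nat → Nat → Nat → Nat → Nat → Nat → Nat → Nat → Nat → Nat → Nat → Nat → Nat → Nat → Nat → Nat →
    Nat → Nat → Nat → Nat → Nat → Nat → Nat → Nat → Nat → Nat → Nat → Nat → Nat → Nat → Nat → Nat →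
    Nat → Nat → Nat → Nat → Nat → Nat → Nat → Nat → Nat → Nat → Nat → Nat → Nat → Nat → Nat → Nat →
    Nat → Nat → Nat → Nat → Nat → Nat → Nat → Nat → Nat → Nat → Nat → Nat → Nat → Nat → Nat → Nat →
    Nat → Nat → Nat → Nat → Nat → Nat → Nat → Nat → Nat → Nat → Nat → Nat → Nat → Nat → Nat → Nat →
    Nat → Nat → Nat → Nat → Nat → Nat → Nat → Nat → Nat → Nat → Nat → Nat → Nat → Nat → Nat → Nat →
    Nat → Nat → Nat → Nat → Nat → Nat → Nat → Nat → Nat → Nat → Nat → Nat → Nat → Nat → Nat → Nat →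
    Nat → Nat → Nat → Nat → Nat → Nat → Nat → Nat → Nat → Nat → Nat → Nat → Nat → Nat → Nat → Nat →
    Nat → Nat → Nat → Nat → Nat → Nat → Nat → Nat → Nat → Nat → Nat → Nat → Nat → Nat → Nat → Nat →
    Nat → Nat → Nat → Nat → Nat → Nat → Nat → Nat → Nat → Nat → Nat → Nat → Nat → Nat → Nat → Nat →
    Nat → Nat → Nat → Nat → Nat → Nat → Nat → Nat → Nat → Nat → Nat → Nat → Nat → Nat → Nat → Nat →
    Nat → Nat → Nat → Nat → Nat → Nat → Nat → Nat → Nat → Nat → Nat → Nat → Nat → Nat → Nat → Nat →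
    Nat → Nat → Nat → Nat → Nat → Nat → Nat → Nat → Nat → Nat → Nat → Nat → Nat → Nat → Nat → Nat →
    Nat → Nat → Nat → Nat → Nat → Nat → Nat → Nat → Nat → Nat → Nat → Nat → Nat → Nat → Nat → Nat →
    Nat → Nat → Nat → Nat → Nat → Nat → Nat → Nat → Nat → Nat → Nat → Nat → Nat → Nat → Nat → Nat →
    Nat → Nat → Nat → Nat → Nat → Nat → Nat → Nat → Nat → Nat → Nat → Nat → Nat → Nat → Nat → Nat →
    Nat → Nat → Nat → Nat → Nat → Nat → Nat → Nat → Nat → Nat → Nat → Nat → Nat → Nat → Nat → Nat →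
    Nat → Nat → Nat → Nat → Nat → Nat → Nat → Nat → Nat → Nat → Nat → Nat → Nat → Nat → Nat → Nat →
    Nat → Nat → Nat → Nat → Nat → Nat → Nat → Nat → Nat → Nat → Nat → Nat → Nat → Nat → Nat → Nat →
    Nat → Nat → Nat → Nat → Nat → Nat → Nat → Nat → Nat → Nat → Nat → Nat → Nat → Nat → Nat → Nat →
    Nat → Nat → Nat → Nat → Nat → Nat → Nat → Nat → Nat → Nat → Nat → Nat → Nat → Nat → Nat → Nat →
    Nat → Nat → Nat → Nat → Nat → Nat → Nat → Nat → Nat → Nat → Nat → Nat → Nat → Nat → Nat → Nat →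
    Nat → Nat → Nat → Nat → Nat → Nat → Nat → Nat → Nat → Nat → Nat → Nat → Nat → Nat → Nat → Nat →
    Nat → Nat → Nat → Nat → Nat → Nat → Nat → Nat → Nat → Nat → Nat → Nat → Nat → Nat → Nat → Nat →
    Nat → Nat → Nat → Nat → Nat → Nat → Nat → Nat → Nat → Nat → Nat → Nat → Nat → Nat → Nat → Nat →
    Nat → Nat → Nat → Nat → Nat → Nat → Nat → Nat → Nat → Nat → Nat → Nat → Nat → Nat → Nat → Nat →
    Nat → Nat → Nat → Nat → Nat → Nat → Nat → Nat → Nat → Nat → Nat → Nat → Nat → Nat → Nat → Nat →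
    Nat → Nat → Nat → Nat → Nat → Nat → Nat → Nat → Nat → Nat → Nat → Nat → Nat → Nat → Nat → Nat →
    Nat → Nat → Nat → Nat → Nat → Nat → Nat → Nat → Nat → Nat → Nat → Nat → Nat → Nat → Nat → Nat →
    Nat → Nat → Nat → Nat → Nat → Nat → Nat → Nat → Nat → Nat → Nat → Nat → Nat → Nat → Nat → Nat →
    Nat → Nat → Nat → Nat → Nat → Nat → Nat → Nat → Nat → Nat → Nat → Nat → Nat → Nat → Nat → Nat →
    Nat → Nat → Nat → Nat → Nat → Nat → Nat → Nat → Nat → Nat → Nat → Nat → Nat → Nat → Nat → Nat →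
    Nat → Nat → Nat → Nat → Nat → Nat → Nat → Nat → Nat → Nat → Nat → Nat → Nat → Nat → Nat → Nat →
    Nat → Nat → Nat → Nat → Nat → Nat → Nat → Nat → Nat → Nat → Nat → Nat → Nat → Nat → Nat → Nat →
    Nat → Nat → Nat → Nat → Nat → Nat → Nat → Nat → Nat → Nat → Nat → Nat → Nat → Nat → Nat → Nat →
    Nat → Nat → Nat → Nat → Nat → Nat → Nat → Nat → Nat → Nat → Nat → Nat → Nat → Nat → Nat → Nat →
    Nat → Nat → Nat → Nat → Nat → Nat → Nat → Nat → Nat → Nat → Nat → Nat → Nat → Nat → Nat → Nat →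
    Nat → Nat → Nat → Nat → Nat → Nat → Nat → Nat → Nat → Nat → Nat → Nat → Nat → Nat → Nat → Nat →
    Nat → Nat → Nat → Nat → Nat → Nat → Nat → Nat → Nat → Nat → Nat → Nat → Nat → Nat → Nat → Nat →
    Nat → Nat → Nat → Nat → Nat → Nat → Nat → Nat → Nat → Nat → Nat → Nat → Nat → Nat → Nat → Nat →
    Nat → Nat → Nat → Nat → Nat → Nat → Nat → Nat → Nat → Nat → Nat → Nat → Nat → Nat → Nat → Nat →
    Nat → Nat → Nat → Nat → Nat → Nat → Nat → Nat → Nat → Nat → Nat → Nat → Nat → Nat → Nat → Nat →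
    Nat → Nat → Nat → Nat → Nat → Nat → Nat → Nat → Nat → Nat → Nat → Nat → Nat → Nat → Nat → Nat →
    Nat → Nat → Nat → Nat → Nat → Nat → Nat → Nat → Nat → Nat → Nat → Nat → Nat → Nat → Nat → Nat →
    Nat → Nat → Nat → Nat → Nat → Nat → Nat → Nat → Nat → Nat → Nat → Nat → Nat → Nat → Nat → Nat →
    Nat → Nat → Nat → Nat → Nat → Nat → Nat → Nat → Nat → Nat → Nat → Nat → Nat → Nat → Nat → Nat →
    Nat → Nat → Nat → Nat → Nat → Nat → Nat → Nat → Nat → Nat → Nat → Nat → Nat → Nat → Nat → Nat →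
    Nat → Nat → Nat → Nat → Nat → Nat → Nat → Nat → Nat → Nat → Nat → Nat → Nat → Nat → Nat → Nat →
    Nat → Nat → Nat → Nat → Nat → Nat → Nat → Nat → Nat → Nat → Nat → Nat → Nat → Nat → Nat → Nat →
    Nat → Nat → Nat → Nat → Nat → Nat → Nat → Nat → Nat → Nat → Nat → Nat → Nat → Nat → Nat → Nat →
    Nat → Nat → Nat → Nat → Nat → Nat → Nat → Nat → Nat → Nat → Nat → Nat → Nat → Nat → Nat → Nat →
    Nat → Nat → Nat → Nat → Nat → Nat → Nat → Nat → Nat → Nat → Nat → Nat → Nat → Nat → Nat → Nat →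
    Nat → Nat → Nat → Nat → Nat → Nat → Nat → Nat → Nat → Nat → Nat → Nat → Nat → Nat → Nat → Nat →
    Nat → Nat → Nat → Nat → Nat → Nat → Nat → Nat → Nat → Nat → Nat → Nat → Nat → Nat → Nat → Nat →
    Nat → Nat → Nat → Nat → Nat → Nat → Nat → Nat → Nat → Nat → Nat → Nat → Nat → Nat → Nat → Nat →
    Nat → Nat → Nat → Nat → Nat → Nat → Nat → Nat → Nat → Nat → Nat → Nat → Nat → Nat → Nat → Nat →
    Nat → Nat → Nat → Nat → Nat → Nat → Nat → Nat → Nat → Nat → Nat → Nat → Nat → Nat → Nat → Nat →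
    Nat → Nat → Nat → Nat → Nat → Nat → Nat → Nat → Nat → Nat → Nat → Nat → Nat → Nat → Nat → Nat →
    Nat → Nat → Nat → Nat → Nat → Nat → Nat → Nat → Nat → Nat → Nat → Nat → Nat → Nat → Nat → Nat →
    Nat → Nat → Nat → Nat → Nat → Nat → Nat → Nat → Nat → Nat → Nat → Nat → Nat → Nat → Nat → Nat →
    Nat → Nat → Nat → Nat → Nat → Nat → Nat → Nat → Nat → Nat → Nat → Nat → Nat → Nat → Nat → Nat →
    Nat → Nat → Nat → Nat → Nat → Nat → Nat → Nat → Nat → Nat → Nat → Nat → Nat → Nat → Nat → Nat →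
    Nat → Nat → Nat → Nat → Nat → Nat → Nat → Nat → Nat → Nat → Nat → Nat → Nat → Nat → Nat → Nat →
    Nat → Nat → Nat → Nat → Nat → Nat → Nat → Nat → Nat → Nat → Nat → Nat → Nat → Nat → Nat → Nat →
    Nat → Nat → Nat → Nat → Nat → Nat → Nat → Nat → Nat → Nat → Nat → Nat → Nat → Nat → Nat → Nat →
    Nat → Nat → Nat → Nat → Nat → Nat → Nat → Nat → Nat → Nat → Nat → Nat → Nat → Nat → Nat → Nat →
    Nat → Nat → Nat → Nat → Nat → Nat → Nat → Nat → Nat → Nat → Nat → Nat → Nat → Nat → Nat → Nat →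
    Nat → Nat → Nat → Nat → Nat → Nat → Nat → Nat → Nat → Nat → Nat → Nat → Nat → Nat → Nat → Nat →
    Nat → Nat → Nat → Nat → Nat → Nat → Nat → Nat → Nat → Nat → Nat → Nat → Nat → Nat → Nat → Nat →
    Nat → Nat → Nat → Nat → Nat → Nat → Nat → Nat → Nat → Nat → Nat → Nat → Nat → Nat → Nat → Nat →
    Nat → Nat → Nat → Nat → Nat → Nat → Nat → Nat → Nat → Nat → Nat → Nat → Nat → Nat → Nat → Nat →
    Nat → Nat → Nat → Nat → Nat → Nat → Nat → Nat → Nat → Nat → Nat → Nat → Nat → Nat → Nat → Nat →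
    Nat → Nat → Nat → Nat → Nat → Nat → Nat → Nat → Nat → Nat → Nat → Nat → Nat → Nat → Nat → Nat →
    Nat → Nat → Nat → Nat → Nat → Nat → Nat → Nat → Nat → Nat → Nat → Nat → Nat → Nat → Nat → Nat →
    Nat → Nat → Nat → Nat → Nat → Nat → Nat → Nat → Nat → Nat → Nat → Nat → Nat → Nat → Nat → Nat →
    Nat → Nat → Nat → Nat → Nat → Nat → Nat → Nat → Nat → Nat → Nat → Nat → Nat → Nat → Nat → Nat →
    Nat → Nat → Nat → Nat → Nat → Nat → Nat → Nat → Nat → Nat → Nat → Nat → Nat → Nat → Nat → Nat →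
    Nat → Nat → Nat → Nat → Nat → Nat → Nat → Nat → Nat → Nat → Nat → Nat → Nat → Nat → Nat → Nat →
    Nat → Nat → Nat → Nat → Nat → Nat → Nat → Nat → Nat → Nat → Nat → Nat → Nat → Nat → Nat → Nat →
    Nat → Nat → Nat → Nat → Nat → Nat → Nat → Nat → Nat → Nat → Nat → Nat → Nat → Nat → Nat → Nat →
    Nat → Nat → Nat → Nat → Nat → Nat → Nat → Nat → Nat → Nat → Nat → Nat → Nat → Nat → Nat → Nat →
    Nat → Nat → Nat → Nat → Nat → Nat → Nat → Nat → Nat → Nat → Nat → Nat → Nat → Nat → Nat → Nat →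
    Nat → Nat → Nat → Nat → Nat → Nat → Nat → Nat → Nat → Nat → Nat → Nat → Nat → Nat → Nat → Nat →
    Nat → Nat → Nat → Nat → Nat → Nat → Nat → Nat → Nat → Nat → Nat → Nat → Nat → Nat → Nat → Nat →
    Nat → Nat → Nat → Nat → Nat → Nat → Nat → Nat → Nat → Nat → Nat → Nat → Nat → Nat → Nat → Nat →
    Nat → Nat → Nat → Nat → Nat → Nat → Nat → Nat → Nat → Nat → Nat → Nat → Nat → Nat → Nat → Nat →
    Nat → Nat → Nat → Nat → Nat → Nat → Nat → Nat → Nat → Nat → Nat → Nat → Nat → Nat → Nat → Nat →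
    Nat → Nat → Nat → Nat → Nat → Nat → Nat → Nat → Nat → Nat → Nat → Nat → Nat → Nat → Nat → Nat →
    Nat → Nat → Nat → Nat → Nat → Nat → Nat → Nat → Nat → Nat → Nat → Nat → Nat → Nat → Nat → Nat →
    Nat → Nat → Nat → Nat → Nat → Nat → Nat → Nat → Nat → Nat → Nat → Nat → Nat → Nat → Nat → Nat →
    Nat → Nat → Nat → Nat → Nat → Nat → Nat → Nat → Nat → Nat → Nat → Nat → Nat → Nat → Nat → Nat →
    Nat → Nat → Nat → Nat → Nat → Nat → Nat → Nat → Nat → Nat → Nat → Nat → Nat → Nat → Nat → Nat →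
    Nat → Nat → Nat → Nat → Nat → Nat → Nat → Nat → Nat → Nat → Nat → Nat → Nat → Nat → Nat → Nat →
    Nat → Nat → Nat → Nat → Nat → Nat → Nat → Nat → Nat → Nat → Nat → Nat → Nat → Nat → Nat → Nat →
    Nat → Nat → Nat → Nat → Nat → Nat → Nat → Nat → Nat → Nat → Nat → Nat → Nat → Nat → Nat → Nat →
    Nat → Nat → Nat → Nat → Nat → Nat → Nat → Nat → Nat → Nat → Nat → Nat → Nat → Nat → Nat → Nat →
    Nat → Nat → Nat → Nat → Nat → Nat → Nat → Nat → Nat → Nat → Nat → Nat → Nat → Nat → Nat → Nat →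
    Nat → Nat → Nat → Nat → Nat → Nat → Nat → Nat → Nat → Nat → Nat → Nat → Nat → Nat → Nat → Nat →
    Nat → Nat → Nat → Nat → Nat → Nat → Nat → Nat → Nat → Nat → Nat → Nat → Nat → Nat → Nat → Nat →
    Nat → Nat → Nat → Nat → Nat → Nat → Nat → Nat → Nat → Nat → Nat → Nat → Nat → Nat → Nat → Nat →
    Nat → Nat → Nat → Nat → Nat → Nat → Nat → Nat → Nat → Nat → Nat → Nat → Nat → Nat → Nat → Nat →
    Nat → Nat → Nat → Nat → Nat → Nat → Nat → Nat → Nat → Nat → Nat → Nat → Nat → Nat → Nat → Nat →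
    Nat → Nat → Nat → Nat → Nat → Nat → Nat → Nat → Nat → Nat → Nat → Nat → Nat → Nat → Nat → Nat →
    Nat → Nat → Nat → Nat → Nat → Nat → Nat → Nat → Nat → Nat → Nat → Nat → Nat → Nat → Nat → Nat →
    Nat → Nat → Nat → Nat → Nat → Nat → Nat → Nat → Nat → Nat → Nat → Nat → Nat → Nat → Nat → Nat →
    Nat → Nat → Nat → Nat → Nat → Nat → Nat → Nat → Nat → Nat → Nat → Nat → Nat → Nat → Nat → Nat →
    Nat → Nat → Nat → Nat → Nat → Nat → Nat → Nat → Nat → Nat → Nat → Nat → Nat → Nat → Nat → Nat →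
    Nat → Nat → Nat → Nat → Nat → Nat → Nat → Nat → Nat → Nat → Nat → Nat → Nat → Nat → Nat → Nat →
    Nat → Nat → Nat → Nat → Nat → Nat → Nat → Nat → Nat → Nat → Nat → Nat → Nat → Nat → Nat → Nat →
    Nat → Nat → Nat → Nat → Nat → Nat → Nat → Nat → Nat → Nat → Nat → Nat → Nat → Nat → Nat → Nat →
    Nat → Nat → Nat → Nat → Nat → Nat → Nat → Nat → Nat → Nat → Nat → Nat → Nat → Nat → Nat → Nat →
    Nat → Nat → Nat → Nat → Nat → Nat → Nat → Nat → Nat → Nat → Nat → Nat → Nat → Nat → Nat → Nat →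
    Nat → Nat → Nat → Nat → Nat → Nat → Nat → Nat → Nat → Nat → Nat → Nat → Nat → Nat → Nat → Nat →
    Nat → Nat → Nat → Nat → Nat → Nat → Nat → Nat → Nat → Nat → Nat → Nat → Nat → Nat → Nat → Nat →
    Nat → Nat → Nat → Nat → Nat → Nat → Nat → Nat → Nat → Nat → Nat → Nat → Nat → Nat → Nat → Nat →
    Nat → Nat → Nat → Nat → Nat → Nat → Nat → Nat → Nat → Nat → Nat → Nat → Nat → Nat → Nat → Nat →
    Nat → Nat → Nat → Nat → Nat → Nat → Nat → Nat → Nat → Nat → Nat → Nat → Nat → Nat → Nat → Nat →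
    Nat → Nat → Nat → Nat → Nat → Nat → Nat → Nat → Nat → Nat → Nat → Nat → Nat → Nat → Nat → Nat →
    Nat → Nat → Nat → Nat → Nat → Nat → Nat → Nat → Nat → Nat → Nat → Nat → Nat → Nat → Nat → Nat →
    Nat → Nat → Nat → Nat → Nat → Nat → Nat → Nat → Nat → Nat → Nat → Nat → Nat → Nat → Nat → Nat →
    Nat → Nat → Nat → Nat → Nat → Nat → Nat → Nat → Nat → Nat → Nat → Nat → Nat → Nat → Nat → Nat →
    Nat → Nat → Nat → Nat → Nat → Nat → Nat → Nat → Nat → Nat → Nat → Nat → Nat → Nat → Nat → Nat →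
    Nat → Nat → Nat → Nat → Nat → Nat → Nat → Nat → Nat → Nat → Nat → Nat → Nat → Nat → Nat → Nat →
    Nat → Nat → Nat → Nat → Nat → Nat → Nat → Nat → Nat → Nat → Nat → Nat → Nat → Nat → Nat → Nat →
    Nat → Nat → Nat → Nat → Nat → Nat → Nat → Nat → Nat → Nat → Nat → Nat → Nat → Nat → Nat → Nat →
    Nat → Nat → Nat → Nat → Nat → Nat → Nat → Nat → Nat → Nat → Nat → Nat → Nat → Nat → Nat → Nat →
    Nat → Nat → Nat → Nat → Nat → Nat → Nat → Nat → Nat → Nat → Nat → Nat → Nat → Nat → Nat → Nat →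
    Nat → Nat → Nat → Nat → Nat → Nat → Nat → Nat → Nat → Nat → Nat → Nat → Nat → Nat → Nat → Nat →
    Nat → Nat → Nat → Nat → Nat → Nat → Nat → Nat → Nat → Nat → Nat → Nat → Nat → Nat → Nat → Nat →
    Nat → Nat → Nat → Nat → Nat → Nat → Nat → Nat → Nat → Nat → Nat → Nat → Nat → Nat → Nat → Nat →
    Nat → Nat → Nat → Nat → Nat → Nat → Nat → Nat → Nat → Nat → Nat → Nat → Nat → Nat → Nat → Nat →
    Nat → Nat → Nat → Nat → Nat → Nat → Nat → Nat → Nat → Nat → Nat → Nat → Nat → Nat → Nat → Nat →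
    Nat → Nat → Nat → Nat → Nat → Nat → Nat → Nat → Nat → Nat → Nat → Nat → Nat → Nat → Nat → Nat →
    Nat → Nat → Nat → Nat → Nat → Nat → Nat → Nat → Nat → Nat → Nat → Nat → Nat → Nat → Nat → Nat →
    Nat → Nat → Nat → Nat → Nat → Nat → Nat → Nat → Nat → Nat → Nat → Nat → Nat → Nat → Nat → Nat →
    Nat → Nat → Nat → Nat → Nat → Nat → Nat → Nat → Nat → Nat → Nat → Nat → Nat → Nat → Nat → Nat →
    Nat → Nat → Nat → Nat → Nat → Nat → Nat → Nat → Nat → Nat → Nat → Nat → Nat → Nat → Nat → Nat →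
    Nat → Nat → Nat → Nat → Nat → Nat → Nat → Nat → Nat → Nat → Nat → Nat → Nat → Nat → Nat → Nat →
    Nat → Nat → Nat → Nat → Nat → Nat → Nat → Nat → Nat → Nat → Nat → Nat → Nat → Nat → Nat → Nat →
    Nat → Nat → Nat → Nat → Nat → Nat → Nat → Nat → Nat → Nat → Nat → Nat → Nat → Nat → Nat → Nat →
    Nat → Nat → Nat → Nat → Nat → Nat → Nat → Nat → Nat → Nat → Nat → Nat → Nat → Nat → Nat → Nat →
    Nat → Nat → Nat → Nat → Nat → Nat → Nat → Nat → Nat → Nat → Nat → Nat → Nat → Nat → Nat → Nat →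
    Nat → Nat → Nat → Nat → Nat → Nat → Nat → Nat → Nat → Nat → Nat → Nat → Nat → Nat → Nat → Nat →
    Nat → Nat → Nat → Nat → Nat → Nat → Nat → Nat → Nat → Nat → Nat → Nat → Nat → Nat → Nat → Nat →
    Nat → Nat → Nat → Nat → Nat → Nat → Nat → Nat → Nat → Nat → Nat → Nat → Nat → Nat → Nat → Nat →
    Nat → Nat → Nat → Nat → Nat → Nat → Nat → Nat → Nat → Nat → Nat → Nat → Nat → Nat → Nat → Nat →
    Nat → Nat → Nat → Nat → Nat → Nat → Nat → Nat → Nat → Nat → Nat → Nat → Nat → Nat → Nat → Nat →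
    Nat → Nat → Nat → Nat → Nat → Nat → Nat → Nat → Nat → Nat → Nat → Nat → Nat → Nat → Nat → Nat →
    Nat → Nat → Nat → Nat → Nat → Nat → Nat → Nat → Nat → Nat → Nat → Nat → Nat → Nat → Nat → Nat →
    Nat → Nat → Nat → Nat → Nat → Nat → Nat → Nat → Nat → Nat → Nat → Nat → Nat → Nat → Nat → Nat →
    Nat → Nat → Nat → Nat → Nat → Nat → Nat → Nat → Nat → Nat → Nat → Nat → Nat → Nat → Nat → Nat →
    Nat → Nat → Nat → Nat → Nat → Nat → Nat → Nat → Nat → Nat → Nat → Nat → Nat → Nat → Nat → Nat →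
    Nat → Nat → Nat → Nat → Nat → Nat → Nat → Nat → Nat → Nat → Nat → Nat → Nat → Nat → Nat → Nat →
    Nat → Nat → Nat → Nat → Nat → Nat → Nat → Nat → Nat → Nat → Nat → Nat → Nat → Nat → Nat → Nat →
    Nat → Nat → Nat → Nat → Nat → Nat → Nat → Nat → Nat → Nat → Nat → Nat → Nat → Nat → Nat → Nat →
    Nat → Nat → Nat → Nat → Nat → Nat → Nat → Nat → Nat → Nat → Nat → Nat → Nat → Nat → Nat → Nat →
    Nat → Nat → Nat → Nat → Nat → Nat → Nat → Nat → Nat → Nat → Nat → Nat → Nat → Nat → Nat → Nat →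
    Nat → Nat → Nat → Nat → Nat → Nat → Nat → Nat → Nat → Nat → Nat → Nat → Nat → Nat → Nat → Nat →
    Nat → Nat → Nat → Nat → Nat → Nat → Nat → Nat → Nat → Nat → Nat → Nat → Nat → Nat → Nat → Nat →
    Nat → Nat → Nat → Nat → Nat → Nat → Nat → Nat → Nat → Nat → Nat → Nat → Nat → Nat → Nat → Nat →
    Nat → Nat → Nat → Nat → Nat → Nat → Nat → Nat → Nat → Nat → Nat → Nat → Nat → Nat → Nat → Nat →
    Nat → Nat → Nat → Nat → Nat → Nat → Nat → Nat → Nat → Nat → Nat → Nat → Nat → Nat → Nat → Nat →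
    Nat → Nat → Nat → Nat → Nat → Nat → Nat → Nat → Nat → Nat → Nat → Nat → Nat → Nat → Nat → Nat →
    Nat → Nat → Nat → Nat → Nat → Nat → Nat → Nat → Nat → Nat → Nat → Nat → Nat → Nat → Nat → Nat →
    Nat → Nat → Nat → Nat → Nat → Nat → Nat → Nat → Nat → Nat → Nat → Nat → Nat → Nat → Nat → Nat →
    Nat → Nat → Nat → Nat → Nat → Nat → Nat → Nat → Nat → Nat → Nat → Nat → Nat → Nat → Nat → Nat →
    Nat → Nat → Nat → Nat → Nat → Nat → Nat → Nat → Nat → Nat → Nat → Nat → Nat → Nat → Nat → Nat →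
    Nat → Nat → Nat → Nat → Nat → Nat → Nat → Nat → Nat → Nat → Nat → Nat → Nat → Nat → Nat → Nat →
    Nat → Nat → Nat → Nat → Nat → Nat → Nat → Nat → Nat → Nat → Nat → Nat → Nat → Nat → Nat → Nat →
    Nat → Nat → Nat → Nat → Nat → Nat → Nat → Nat → Nat → Nat → Nat → Nat → Nat → Nat → Nat → Nat →
    Nat → Nat → Nat → Nat → Nat → Nat → Nat → Nat → Nat → Nat → Nat → Nat → Nat → Nat → Nat → Nat →
    Nat → Nat → Nat → Nat → Nat → Nat → Nat → Nat → Nat → Nat → Nat → Nat → Nat → Nat → Nat → Nat →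
    Nat → Nat → Nat → Nat → Nat → Nat → Nat → Nat → Nat → Nat → Nat → Nat → Nat → Nat → Nat → Nat →
    Nat → Nat → Nat → Nat → Nat → Nat → Nat → Nat → Nat → Nat → Nat → Nat → Nat → Nat → Nat → Nat →
    Nat → Nat → Nat → Nat → Nat → Nat → Nat → Nat → Nat → Nat → Nat → Nat → Nat → Nat → Nat → Nat →
    Nat → Nat → Nat → Nat → Nat → Nat → Nat → Nat → Nat → Nat → Nat → Nat → Nat → Nat → Nat → Nat →
    Nat → Nat → Nat → Nat → Nat → Nat → Nat → Nat → Nat → Nat → Nat → Nat → Nat → Nat → Nat → Nat →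
    Nat → Nat → Nat → Nat → Nat → Nat → Nat → Nat → Nat → Nat → Nat → Nat → Nat → Nat → Nat → Nat →
    Nat → Nat → Nat → Nat → Nat → Nat → Nat → Nat → Nat → Nat → Nat → Nat → Nat → Nat → Nat → Nat →
    Nat → Nat → Nat → Nat → Nat → Nat → Nat → Nat → Nat → Nat → Nat → Nat → Nat → Nat → Nat → Nat →
    Nat → Nat → Nat → Nat → Nat → Nat → Nat → Nat → Nat → Nat → Nat → Nat → Nat → Nat → Nat → Nat →
    Nat → Nat → Nat → Nat → Nat → Nat → Nat → Nat → Nat → Nat → Nat → Nat → Nat → Nat → Nat → Nat →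
    Nat → Nat → Nat → Nat → Nat → Nat → Nat → Nat → Nat → Nat → Nat → Nat → Nat → Nat → Nat → Nat →
    Nat → Nat → Nat → Nat → Nat → Nat → Nat → Nat → Nat → Nat → Nat → Nat → Nat → Nat → Nat → Nat →
    Nat → Nat → Nat → Nat → Nat → Nat → Nat → Nat → Nat → Nat → Nat → Nat → Nat → Nat → Nat → Nat →
    Nat → Nat → Nat → Nat → Nat → Nat → Nat → Nat → Nat → Nat → Nat → Nat → Nat → Nat → Nat → Nat →
    Nat → Nat → Nat → Nat → Nat → Nat → Nat → Nat → Nat → Nat → Nat → Nat → Nat → Nat → Nat → Nat →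
    Nat → Nat → Nat → Nat → Nat → Nat → Nat → Nat → Nat → Nat → Nat → Nat → Nat → Nat → Nat → Nat →
    Nat → Nat → Nat → Nat → Nat → Nat → Nat → Nat → Nat → Nat → Nat → Nat → Nat → Nat → Nat → Nat →
    Nat → Nat → Nat → Nat → Nat → Nat → Nat → Nat → Nat → Nat → Nat → Nat → Nat → Nat → Nat → Nat →
    Nat → Nat → Nat → Nat → Nat → Nat → Nat → Nat → Nat → Nat → Nat → Nat → Nat → Nat → Nat → Nat →
    Nat → Nat → Nat → Nat → Nat → Nat → Nat → Nat → Nat → Nat → Nat → Nat → Nat → Nat → Nat → Nat →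
    Nat → Nat → Nat → Nat → Nat → Nat → Nat → Nat → Nat → Nat → Nat → Nat → Nat → Nat → Nat → Nat →
    Nat → Nat → Nat → Nat → Nat → Nat → Nat → Nat → Nat → Nat → Nat → Nat → Nat → Nat → Nat → Nat →
    Nat → Nat → Nat → Nat → Nat → Nat → Nat → Nat → Nat → Nat → Nat → Nat → Nat → Nat → Nat → Nat →
    Nat → Nat → Nat → Nat → Nat → Nat → Nat → Nat → Nat → Nat → Nat → Nat → Nat → Nat → Nat → Nat →
    Nat → Nat → Nat → Nat → Nat → Nat → Nat → Nat → Nat → Nat → Nat → Nat → Nat → Nat → Nat → Nat →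
    Nat → Nat → Nat → Nat → Nat → Nat → Nat → Nat → Nat → Nat → Nat → Nat → Nat → Nat → Nat → Nat →
    Nat → Nat → Nat → Nat → Nat → Nat → Nat → Nat → Nat → Nat → Nat → Nat → Nat → Nat → Nat → Nat →
    Nat → Nat → Nat → Nat → Nat → Nat → Nat → Nat → Nat → Nat → Nat → Nat → Nat → Nat → Nat → Nat →
    Nat → Nat → Nat → Nat → Nat → Nat → Nat → Nat → Nat → Nat → Nat → Nat → Nat → Nat → Nat → Nat →
    Nat → Nat → Nat → Nat → Nat → Nat → Nat → Nat → Nat → Nat → Nat → Nat → Nat → Nat → Nat → Nat →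
    Nat → Nat → Nat → Nat → Nat → Nat → Nat → Nat → Nat → Nat → Nat → Nat → Nat → Nat → Nat → Nat →
    Nat → Nat → Nat → Nat → Nat → Nat → Nat → Nat → Nat → Nat → Nat → Nat → Nat → Nat → Nat → Nat →
    Nat → Nat → Nat → Nat → Nat → Nat → Nat → Nat → Nat → Nat → Nat → Nat → Nat → Nat → Nat → Nat →
    Nat → Nat → Nat → Nat → Nat → Nat → Nat → Nat → Nat → Nat → Nat → Nat → Nat → Nat → Nat → Nat →
    Nat → Nat → Nat → Nat → Nat → Nat → Nat → Nat → Nat → Nat → Nat → Nat → Nat → Nat → Nat → Nat →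
    Nat → Nat → Nat → Nat → Nat → Nat → Nat → Nat → Nat → Nat → Nat → Nat → Nat → Nat → Nat → Nat →
    Nat → Nat → Nat → Nat → Nat → Nat → Nat → Nat → Nat → Nat → Nat → Nat → Nat → Nat → Nat → Nat →
    Nat → Nat → Nat → Nat → Nat → Nat → Nat → Nat → Nat → Nat → Nat → Nat → Nat → Nat → Nat → Nat →
    Nat → Nat → Nat → Nat → Nat → Nat → Nat → Nat → Nat → Nat → Nat → Nat → Nat → Nat → Nat → Nat →
    Nat → Nat → Nat → Nat → Nat → Nat → Nat → Nat → Nat → Nat → Nat → Nat → Nat → Nat → Nat → Nat →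
    Nat → Nat → Nat → Nat → Nat → Nat → Nat → Nat → Nat → Nat → Nat → Nat → Nat → Nat → Nat → Nat →
    Nat → Nat → Nat → Nat → Nat → Nat → Nat → Nat → Nat → Nat → Nat → Nat → Nat → Nat → Nat → Nat →
    Nat → Nat → Nat → Nat → Nat → Nat → Nat → Nat → Nat → Nat → Nat → Nat → Nat → Nat → Nat → Nat →
    Nat → Nat → Nat → Nat → Nat → Nat → Nat → Nat → Nat → Nat → Nat → Nat → Nat → Nat → Nat → Nat →
    Nat → Nat → Nat → Nat → Nat → Nat → Nat → Nat → Nat → Nat → Nat → Nat → Nat → Nat → Nat → Nat →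
    Nat → Nat → Nat → Nat → Nat → Nat → Nat → Nat → Nat → Nat → Nat → Nat → Nat → Nat → Nat → Nat →
    Nat → Nat → Nat → Nat → Nat → Nat → Nat → Nat → Nat → Nat → Nat → Nat → Nat → Nat → Nat → Nat →
    Nat → Nat → Nat → Nat → Nat → Nat → Nat → Nat → Nat → Nat → Nat → Nat → Nat → Nat → Nat → Nat →
    Nat → Nat → Nat → Nat → Nat → Nat → Nat → Nat → Nat → Nat → Nat → Nat → Nat → Nat → Nat → Nat →
    Nat → Nat → Nat → Nat → Nat → Nat → Nat → Nat → Nat → Nat → Nat → Nat → Nat → Nat → Nat → Nat →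
    Nat → Nat → Nat → Nat → Nat → Nat → Nat → Nat → Nat → Nat → Nat → Nat → Nat → Nat → Nat → Nat →
    Nat → Nat → Nat → Nat → Nat → Nat → Nat → Nat → Nat → Nat → Nat → Nat → Nat → Nat → Nat → Nat →
    Nat → Nat → Nat → Nat → Nat → Nat → Nat → Nat → Nat → Nat → Nat → Nat → Nat → Nat → Nat → Nat →
    Nat → Nat → Nat → Nat → Nat → Nat → Nat → Nat → Nat → Nat → Nat → Nat → Nat → Nat → Nat → Nat →
    Nat → Nat → Nat → Nat → Nat → Nat → Nat → Nat → Nat → Nat → Nat → Nat → Nat → Nat → Nat → Nat →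
    Nat → Nat → Nat → Nat → Nat → Nat → Nat → Nat → Nat → Nat → Nat → Nat → Nat → Nat → Nat → Nat →
    Nat → Nat → Nat → Nat → Nat → Nat → Nat → Nat → Nat → Nat → Nat → Nat → Nat → Nat → Nat → Nat →
    Nat → Nat → Nat → Nat → Nat → Nat → Nat → Nat → Nat → Nat → Nat → Nat → Nat → Nat → Nat → Nat →
    Nat → Nat → Nat → Nat → Nat → Nat → Nat → Nat → Nat → Nat → Nat → Nat → Nat → Nat → Nat → Nat →
    Nat → Nat → Nat → Nat → Nat → Nat → Nat → Nat → Nat → Nat → Nat → Nat → Nat → Nat → Nat → Nat →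
    Nat → Nat → Nat → Nat → Nat → Nat → Nat → Nat → Nat → Nat → Nat → Nat → Nat → Nat → Nat → Nat →
    Nat → Nat → Nat → Nat → Nat → Nat → Nat → Nat → Nat → Nat → Nat → Nat → Nat → Nat → Nat → Nat →
    Nat → Nat → Nat → Nat → Nat → Nat → Nat → Nat → Nat → Nat → Nat → Nat → Nat → Nat → Nat → Nat →
    Nat → Nat → Nat → Nat → Nat → Nat → Nat → Nat → Nat → Nat → Nat → Nat → Nat → Nat → Nat → Nat →
    Nat → Nat → Nat → Nat → Nat → Nat → Nat → Nat → Nat → Nat → Nat → Nat → Nat → Nat → Nat → Nat →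
    Nat → Nat → Nat → Nat → Nat → Nat → Nat → Nat → Nat → Nat → Nat → Nat → Nat → Nat → Nat → Nat →
    Nat → Nat → Nat → Nat → Nat → Nat → Nat → Nat → Nat → Nat → Nat → Nat → Nat → Nat → Nat → Nat →
    Nat → Nat → Nat → Nat → Nat → Nat → Nat → Nat → Nat → Nat → Nat → Nat → Nat → Nat → Nat → Nat →
    Nat → Nat → Nat → Nat → Nat → Nat → Nat → Nat → Nat → Nat → Nat → Nat → Nat → Nat → Nat → Nat →
    Nat → Nat → Nat → Nat → Nat → Nat → Nat → Nat → Nat → Nat → Nat → Nat → Nat → Nat → Nat → Nat →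
    Nat → Nat → Nat → Nat → Nat → Nat → Nat → Nat → Nat → Nat → Nat → Nat → Nat → Nat → Nat → Nat →
    Nat → Nat → Nat → Nat → Nat → Nat → Nat → Nat → Nat → Nat → Nat → Nat → Nat → Nat → Nat → Nat →
    Nat → Nat → Nat → Nat → Nat → Nat → Nat → Nat → Nat → Nat → Nat → Nat → Nat → Nat → Nat → Nat →
    Nat → Nat → Nat → Nat → Nat → Nat → Nat → Nat → Nat → Nat → Nat → Nat → Nat → Nat → Nat → Nat →
    Nat → Nat → Nat → Nat → Nat → Nat → Nat → Nat → Nat → Nat → Nat → Nat → Nat → Nat → Nat → Nat →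
    Nat → Nat → Nat → Nat → Nat → Nat → Nat → Nat → Nat → Nat → Nat → Nat → Nat → Nat → Nat → Nat →
    Nat → Nat → Nat → Nat → Nat → Nat → Nat → Nat → Nat → Nat → Nat → Nat → Nat → Nat → Nat → Nat →
    Nat → Nat → Nat → Nat → Nat → Nat → Nat → Nat → Nat → Nat → Nat → Nat → Nat → Nat → Nat → Nat →
    Nat → Nat → Nat → Nat → Nat → Nat → Nat → Nat → Nat → Nat → Nat → Nat → Nat → Nat → Nat → Nat →
    Nat → Nat → Nat → Nat → Nat → Nat → Nat → Nat → Nat → Nat → Nat → Nat → Nat → Nat → Nat → Nat →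
    Nat → Nat → Nat → Nat → Nat → Nat → Nat → Nat → Nat → Nat → Nat → Nat → Nat → Nat → Nat → Nat →
    Nat → Nat → Nat → Nat → Nat → Nat → Nat → Nat → Nat → Nat → Nat → Nat → Nat → Nat → Nat → Nat →
    Nat → Nat → Nat → Nat → Nat → Nat → Nat → Nat → Nat → Nat → Nat → Nat → Nat → Nat → Nat → Nat →
    Nat → Nat → Nat → Nat → Nat → Nat → Nat → Nat → Nat → Nat → Nat → Nat → Nat → Nat → Nat → Nat →
    Nat → Nat → Nat → Nat → Nat → Nat → Nat → Nat → Nat → Nat → Nat → Nat → Nat → Nat → Nat → Nat →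
    Nat → Nat → Nat → Nat → Nat → Nat → Nat → Nat → Nat → Nat → Nat → Nat → Nat → Nat → Nat → Nat →
    Nat → Nat → Nat → Nat → Nat → Nat → Nat → Nat → Nat → Nat → Nat → Nat → Nat → Nat → Nat → Nat →
    Nat → Nat → Nat → Nat → Nat → Nat → Nat → Nat → Nat → Nat → Nat → Nat → Nat → Nat → Nat → Nat →
    Nat → Nat → Nat → Nat → Nat → Nat → Nat → Nat → Nat → Nat → Nat → Nat → Nat → Nat → Nat → Nat →
    Nat → Nat → Nat → Nat → Nat → Nat → Nat → Nat → Nat → Nat → Nat → Nat → Nat → Nat → Nat → Nat →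
    Nat → Nat → Nat → Nat → Nat → Nat → Nat → Nat → Nat → Nat → Nat → Nat → Nat → Nat → Nat → Nat →
    Nat → Nat → Nat → Nat → Nat → Nat → Nat → Nat → Nat → Nat → Nat → Nat → Nat → Nat → Nat → Nat →
    Nat → Nat → Nat → Nat → Nat → Nat → Nat → Nat → Nat → Nat → Nat → Nat → Nat → Nat → Nat → Nat →
    Nat → Nat → Nat → Nat → Nat → Nat → Nat → Nat → Nat → Nat → Nat → Nat → Nat → Nat → Nat → Nat →
    Nat → Nat → Nat → Nat → Nat → Nat → Nat → Nat → Nat → Nat → Nat → Nat → Nat → Nat → Nat → Nat →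
    Nat → Nat → Nat → Nat → Nat → Nat → Nat → Nat → Nat → Nat → Nat → Nat → Nat → Nat → Nat → Nat →
    Nat → Nat → Nat → Nat → Nat → Nat → Nat → Nat → Nat → Nat → Nat → Nat → Nat → Nat → Nat → Nat →
    Nat → Nat → Nat → Nat → Nat → Nat → Nat → Nat → Nat → Nat → Nat → Nat → Nat → Nat → Nat → Nat →
    Nat → Nat → Nat → Nat → Nat → Nat → Nat → Nat → Nat → Nat → Nat → Nat → Nat → Nat → Nat → Nat →
    Nat → Nat → Nat → Nat → Nat → Nat → Nat → Nat → Nat → Nat → Nat → Nat → Nat → Nat → Nat → Nat →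
    Nat → Nat → Nat → Nat → Nat → Nat → Nat → Nat → Nat → Nat → Nat → Nat → Nat → Nat → Nat → Nat →
    Nat → Nat → Nat → Nat → Nat → Nat → Nat → Nat → Nat → Nat → Nat → Nat → Nat → Nat → Nat → Nat →
    Nat → Nat → Nat → Nat → Nat → Nat → Nat → Nat → Nat → Nat → Nat → Nat → Nat → Nat → Nat → Nat →
    Nat → Nat → Nat → Nat → Nat → Nat → Nat → Nat → Nat → Nat → Nat → Nat → Nat → Nat → Nat → Nat →
    Nat → Nat → Nat → Nat → Nat → Nat → Nat → Nat → Nat → Nat → Nat → Nat → Nat → Nat → Nat → Nat →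
    Nat → Nat → Nat → Nat → Nat → Nat → Nat → Nat → Nat → Nat → Nat → Nat → Nat → Nat → Nat → Nat →
    Nat → Nat → Nat → Nat → Nat → Nat → Nat → Nat → Nat → Nat → Nat → Nat → Nat → Nat → Nat → Nat →
    Nat → Nat → Nat → Nat → Nat → Nat → Nat → Nat → Nat → Nat → Nat → Nat → Nat → Nat → Nat → Nat →
    Nat → Nat → Nat → Nat → Nat → Nat → Nat → Nat → Nat → Nat → Nat → Nat → Nat → Nat → Nat → Nat →
    Nat → Nat → Nat → Nat → Nat → Nat → Nat → Nat → Nat → Nat → Nat → Nat → Nat → Nat → Nat → Nat →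
    Nat → Nat → Nat → Nat → Nat → Nat → Nat → Nat → Nat → Nat → Nat → Nat → Nat → Nat → Nat → Nat →
    Nat → Nat → Nat → Nat → Nat → Nat → Nat → Nat → Nat → Nat → Nat → Nat → Nat → Nat → Nat → Nat →
    Nat → Nat → Nat → Nat → Nat → Nat → Nat → Nat → Nat → Nat → Nat → Nat → Nat → Nat → Nat → Nat →
    Nat → Nat → Nat → Nat → Nat → Nat → Nat → Nat → Nat → Nat → Nat → Nat → Nat → Nat → Nat → Nat →
    Nat → Nat → Nat → Nat → Nat → Nat → Nat → Nat → Nat → Nat → Nat → Nat → Nat → Nat → Nat → Nat →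
    Nat → Nat → Nat → Nat → Nat → Nat → Nat → Nat → Nat → Nat → Nat → Nat → Nat → Nat → Nat → Nat →
    Nat → Nat → Nat → Nat → Nat → Nat → Nat → Nat → Nat → Nat → Nat → Nat → Nat → Nat → Nat → Nat →
    Nat → Nat → Nat → Nat → Nat → Nat → Nat → Nat → Nat → Nat → Nat → Nat → Nat → Nat → Nat → Nat →
    Nat → Nat → Nat → Nat → Nat → Nat → Nat → Nat → Nat → Nat → Nat → Nat → Nat → Nat → Nat → Nat →
    Nat → Nat → Nat → Nat → Nat → Nat → Nat → Nat → Nat → Nat → Nat → Nat → Nat → Nat → Nat → Nat →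
    Nat → Nat → Nat → Nat → Nat → Nat → Nat → Nat → Nat → Nat → Nat → Nat → Nat → Nat → Nat → Nat →
    Nat → Nat → Nat → Nat → Nat → Nat → Nat → Nat → Nat → Nat → Nat → Nat → Nat → Nat → Nat → Nat →
    Nat → Nat → Nat → Nat → Nat → Nat → Nat → Nat → Nat → Nat → Nat → Nat → Nat → Nat → Nat → Nat →
    Nat → Nat → Nat → Nat → Nat → Nat → Nat → Nat → Nat → Nat → Nat → Nat → Nat → Nat → Nat → Nat →
    Nat → Nat → Nat → Nat → Nat → Nat → Nat → Nat → Nat → Nat → Nat → Nat → Nat → Nat → Nat → Nat →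
    Nat → Nat → Nat → Nat → Nat → Nat → Nat → Nat → Nat → Nat → Nat → Nat → Nat → Nat → Nat → Nat →
    Nat → Nat → Nat → Nat → Nat → Nat → Nat → Nat → Nat → Nat → Nat → Nat → Nat → Nat → Nat → Nat →
    Nat → Nat → Nat → Nat → Nat → Nat → Nat → Nat → Nat → Nat → Nat → Nat → Nat → Nat → Nat → Nat →
    Nat → Nat → Nat → Nat → Nat → Nat → Nat → Nat → Nat → Nat → Nat → Nat → Nat → Nat → Nat → Nat →
    Nat → Nat → Nat → Nat → Nat → Nat → Nat → Nat → Nat → Nat → Nat → Nat → Nat → Nat → Nat → Nat →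
    Nat → Nat → Nat → Nat → Nat → Nat → Nat → Nat → Nat → Nat → Nat → Nat → Nat → Nat → Nat → Nat →
    Nat → Nat → Nat → Nat → Nat → Nat → Nat → Nat → Nat → Nat → Nat → Nat → Nat → Nat → Nat → Nat →
    Nat → Nat → Nat → Nat → Nat → Nat → Nat → Nat → Nat → Nat → Nat → Nat → Nat → Nat → Nat → Nat →
    Nat → Nat → Nat → Nat → Nat → Nat → Nat → Nat → Nat → Nat → Nat → Nat → Nat → Nat → Nat → Nat →
    Nat → Nat → Nat → Nat → Nat → Nat → Nat → Nat → Nat → Nat → Nat → Nat → Nat → Nat → Nat → Nat →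
    Nat → Nat → Nat → Nat → Nat → Nat → Nat → Nat → Nat → Nat → Nat → Nat → Nat → Nat → Nat → Nat →
    Nat → Nat → Nat → Nat → Nat → Nat → Nat → Nat → Nat → Nat → Nat → Nat → Nat → Nat → Nat → Nat →
    Nat → Nat → Nat → Nat → Nat → Nat → Nat → Nat → Nat → Nat → Nat → Nat → Nat → Nat → Nat → Nat →
    Nat → Nat → Nat → Nat → Nat → Nat → Nat → Nat → Nat → Nat → Nat → Nat → Nat → Nat → Nat → Nat →
    Nat → Nat → Nat → Nat → Nat → Nat → Nat → Nat → Nat → Nat → Nat → Nat → Nat → Nat → Nat → Nat →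
    Nat → Nat → Nat → Nat → Nat → Nat → Nat → Nat → Nat → Nat → Nat → Nat → Nat → Nat → Nat → Nat →
    Nat → Nat → Nat → Nat → Nat → Nat → Nat → Nat → Nat → Nat → Nat → Nat → Nat → Nat → Nat → Nat →
    Nat → Nat → Nat → Nat → Nat → Nat → Nat → Nat → Nat → Nat → Nat → Nat → Nat → Nat → Nat → Nat →
    Nat → Nat → Nat → Nat → Nat → Nat → Nat → Nat → Nat → Nat → Nat → Nat → Nat → Nat → Nat → Nat →
    Nat → Nat → Nat → Nat → Nat → Nat → Nat → Nat → Nat → Nat → Nat → Nat → Nat → Nat → Nat → Nat →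
    Nat → Nat → Nat → Nat → Nat → Nat → Nat → Nat → Nat → Nat → Nat → Nat → Nat → Nat → Nat → Nat →
    Nat → Nat → Nat → Nat → Nat → Nat → Nat → Nat → Nat → Nat → Nat → Nat → Nat → Nat → Nat → Nat →
    Nat → Nat → Nat → Nat → Nat → Nat → Nat → Nat → Nat → Nat → Nat → Nat → Nat → Nat → Nat → Nat →
    Nat → Nat → Nat → Nat → Nat → Nat → Nat → Nat → Nat → Nat → Nat → Nat → Nat → Nat → Nat → Nat →
    Nat → Nat → Nat → Nat → Nat → Nat → Nat → Nat → Nat → Nat → Nat → Nat → Nat → Nat → Nat → Nat →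
    Nat → Nat → Nat → Nat → Nat → Nat → Nat → Nat → Nat → Nat → Nat → Nat → Nat → Nat → Nat → Nat →
    Nat → Nat → Nat → Nat → Nat → Nat → Nat → Nat → Nat → Nat → Nat → Nat → Nat → Nat → Nat → Nat →
    Nat → Nat → Nat → Nat → Nat → Nat → Nat → Nat → Nat → Nat → Nat → Nat → Nat → Nat → Nat → Nat →
    Nat → Nat → Nat → Nat → Nat → Nat → Nat → Nat → Nat → Nat → Nat → Nat → Nat → Nat → Nat → Nat →
    Nat → Nat → Nat → Nat → Nat → Nat → Nat → Nat → Nat → Nat → Nat → Nat → Nat → Nat → Nat → Nat →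
    Nat → Nat → Nat → Nat → Nat → Nat → Nat → Nat → Nat → Nat → Nat → Nat → Nat → Nat → Nat → Nat →
    Nat → Nat → Nat → Nat → Nat → Nat → Nat → Nat → Nat → Nat → Nat → Nat → Nat → Nat → Nat → Nat →
    Nat → Nat → Nat → Nat → Nat → Nat → Nat → Nat → Nat → Nat → Nat → Nat → Nat → Nat → Nat → Nat →
    Nat → Nat → Nat → Nat → Nat → Nat → Nat → Nat → Nat → Nat → Nat → Nat → Nat → Nat → Nat → Nat →
    Nat → Nat → Nat → Nat → Nat → Nat → Nat → Nat → Nat → Nat → Nat → Nat → Nat → Nat → Nat → Nat →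
    Nat → Nat → Nat → Nat → Nat → Nat → Nat → Nat → Nat → Nat → Nat → Nat → Nat → Nat → Nat → Nat →
    Nat → Nat → Nat → Nat → Nat → Nat → Nat → Nat → Nat → Nat → Nat → Nat → Nat → Nat → Nat → Nat →
    Nat → Nat → Nat → Nat → Nat → Nat → Nat → Nat → Nat → Nat → Nat → Nat → Nat → Nat → Nat → Nat →
    Nat → Nat → Nat → Nat → Nat → Nat → Nat → Nat → Nat → Nat → Nat → Nat → Nat → Nat → Nat → Nat →
    Nat → Nat → Nat → Nat → Nat → Nat → Nat → Nat → Nat → Nat → Nat → Nat → Nat → Nat → Nat → Nat →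
    Nat → Nat → Nat → Nat → Nat → Nat → Nat → Nat → Nat → Nat → Nat → Nat → Nat → Nat → Nat → Nat →
    Nat → Nat → Nat → Nat → Nat → Nat → Nat → Nat → Nat → Nat → Nat → Nat → Nat → Nat → Nat → Nat →
    Nat → Nat → Nat → Nat → Nat → Nat → Nat → Nat → Nat → Nat → Nat → Nat → Nat → Nat → Nat → Nat →
    Nat → Nat → Nat → Nat → Nat → Nat → Nat → Nat → Nat → Nat → Nat → Nat → Nat → Nat → Nat → Nat →
    Nat → Nat → Nat → Nat → Nat → Nat → Nat → Nat → Nat → Nat → Nat → Nat → Nat → Nat → Nat → Nat →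
    Nat → Nat → Nat → Nat → Nat → Nat → Nat → Nat → Nat → Nat → Nat → Nat → Nat → Nat → Nat → Nat →
    Nat → Nat → Nat → Nat → Nat → Nat → Nat → Nat → Nat → Nat → Nat → Nat → Nat → Nat → Nat → Nat →
    Nat → Nat → Nat → Nat → Nat → Nat → Nat → Nat → Nat → Nat → Nat → Nat → Nat → Nat → Nat → Nat →
    Nat → Nat → Nat → Nat → Nat → Nat → Nat → Nat → Nat → Nat → Nat → Nat → Nat → Nat → Nat → Nat →
    Nat → Nat → Nat → Nat → Nat → Nat → Nat → Nat → Nat → Nat → Nat → Nat → Nat → Nat → Nat → Nat →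
    Nat → Nat → Nat → Nat → Nat → Nat → Nat → Nat → Nat → Nat → Nat → Nat → Nat → Nat → Nat → Nat →
    Nat → Nat → Nat → Nat → Nat → Nat → Nat → Nat → Nat → Nat → Nat → Nat → Nat → Nat → Nat → Nat →
    Nat → Nat → Nat → Nat → Nat → Nat → Nat → Nat → Nat → Nat → Nat → Nat → Nat → Nat → Nat → Nat →
    Nat → Nat → Nat → Nat → Nat → Nat → Nat → Nat → Nat → Nat → Nat → Nat → Nat → Nat → Nat → Nat →
    Nat → Nat → Nat → Nat → Nat → Nat → Nat → Nat → Nat → Nat → Nat → Nat → Nat → Nat → Nat → Nat →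
    Nat → Nat → Nat → Nat → Nat → Nat → Nat → Nat → Nat → Nat → Nat → Nat → Nat → Nat → Nat → Nat →
    Nat → Nat → Nat → Nat → Nat → Nat → Nat → Nat → Nat → Nat → Nat → Nat → Nat → Nat → Nat → Nat →
    Nat → Nat → Nat → Nat → Nat → Nat → Nat → Nat → Nat → Nat → Nat → Nat → Nat → Nat → Nat → Nat →
    Nat → Nat → Nat → Nat → Nat → Nat → Nat → Nat → Nat → Nat → Nat → Nat → Nat → Nat → Nat → Nat →
    Nat → Nat → Nat → Nat → Nat → Nat → Nat → Nat → Nat → Nat → Nat → Nat → Nat → Nat → Nat → Nat →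
    Nat → Nat → Nat → Nat → Nat → Nat → Nat → Nat → Nat → Nat → Nat → Nat → Nat → Nat → Nat → Nat →
    Nat → Nat → Nat → Nat → Nat → Nat → Nat → Nat → Nat → Nat → Nat → Nat → Nat → Nat → Nat → Nat →
    Nat → Nat → Nat → Nat → Nat → Nat → Nat → Nat → Nat → Nat → Nat → Nat → Nat → Nat → Nat → Nat →
    Nat → Nat → Nat → Nat → Nat → Nat → Nat → Nat → Nat → Nat → Nat → Nat → Nat → Nat → Nat → Nat →
    Nat → Nat → Nat → Nat → Nat → Nat → Nat → Nat → Nat → Nat → Nat → Nat → Nat → Nat → Nat → Nat →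
    Nat → Nat → Nat → Nat → Nat → Nat → Nat → Nat → Nat → Nat → Nat → Nat → Nat → Nat → Nat → Nat →
    Nat → Nat → Nat → Nat → Nat → Nat → Nat → Nat → Nat → Nat → Nat → Nat → Nat → Nat → Nat → Nat →
    Nat → Nat → Nat → Nat → Nat → Nat → Nat → Nat → Nat → Nat → Nat → Nat → Nat → Nat → Nat → Nat →
    Nat → Nat → Nat → Nat → Nat → Nat → Nat → Nat → Nat → Nat → Nat → Nat → Nat → Nat → Nat → Nat →
    Nat → Nat → Nat → Nat → Nat → Nat → Nat → Nat → Nat → Nat → Nat → Nat → Nat → Nat → Nat → Nat →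
    Nat → Nat → Nat → Nat → Nat → Nat → Nat → Nat → Nat → Nat → Nat → Nat → Nat → Nat → Nat → Nat →
    Nat → Nat → Nat → Nat → Nat → Nat → Nat → Nat → Nat → Nat → Nat → Nat → Nat → Nat → Nat → Nat →
    Nat → Nat → Nat → Nat → Nat → Nat → Nat → Nat → Nat → Bool)
  (
    x242 x404 x458 x476 x482 x484 x566 x620 x638 x644 x646 x674 x692 x698 x700 x710 x716 x718 x722
    x724 x726 x890 x944 x962 x968 x970 x1052 x1106 x1124 x1130 x1132 x1160 x1178 x1184 x1186 x1196
    x1202 x1204 x1208 x1210 x1212 x1268 x1286 x1292 x1294 x1322 x1340 x1346 x1348 x1358 x1364 x1366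
    x1370 x1372 x1374 x1394 x1400 x1402 x1412 x1418 x1420 x1424 x1426 x1428 x1436 x1438 x1442 x1444
    x1446 x1450 x1452 x1538 x1592 x1610 x1616 x1618 x1646 x1664 x1670 x1672 x1682 x1688 x1690 x1694
    x1696 x1698 x1754 x1772 x1778 x1780 x1808 x1826 x1832 x1834 x1844 x1850 x1852 x1856 x1858 x1860
    x1880 x1886 x1888 x1898 x1904 x1906 x1910 x1912 x1914 x1922 x1924 x1928 x1930 x1932 x1936 x1938
    x1970 x1988 x1994 x1996 x2006 x2012 x2014 x2018 x2020 x2022 x2042 x2048 x2050 x2060 x2066 x2068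
    x2072 x2074 x2076 x2084 x2086 x2090 x2092 x2094 x2098 x2100 x2114 x2120 x2122 x2126 x2128 x2130
    x2138 x2140 x2144 x2146 x2148 x2152 x2154 x2162 x2164 x2166 x2170 x2172 x2178 x2348 x2402 x2420
    x2426 x2428 x2510 x2564 x2582 x2588 x2590 x2618 x2636 x2642 x2644 x2654 x2660 x2662 x2666 x2668
    x2670 x2726 x2744 x2750 x2752 x2780 x2798 x2804 x2806 x2816 x2822 x2824 x2828 x2830 x2832 x2852
    x2858 x2860 x2870 x2876 x2878 x2882 x2884 x2886 x2894 x2896 x2900 x2902 x2904 x2908 x2910 x2996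
    x3050 x3068 x3074 x3076 x3104 x3122 x3128 x3130 x3140 x3146 x3148 x3152 x3154 x3156 x3212 x3230
    x3236 x3238 x3266 x3284 x3290 x3292 x3302 x3308 x3310 x3314 x3316 x3318 x3338 x3344 x3346 x3356
    x3362 x3364 x3368 x3370 x3372 x3380 x3382 x3386 x3388 x3390 x3394 x3396 x3428 x3446 x3452 x3454
    x3464 x3470 x3472 x3476 x3478 x3480 x3500 x3506 x3508 x3518 x3524 x3526 x3530 x3532 x3534 x3542
    x3544 x3548 x3550 x3552 x3556 x3558 x3572 x3578 x3580 x3584 x3586 x3588 x3596 x3598 x3602 x3604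
    x3606 x3610 x3612 x3620 x3622 x3624 x3628 x3630 x3636 x3698 x3716 x3722 x3724 x3752 x3770 x3776
    x3778 x3788 x3794 x3796 x3800 x3802 x3804 x3824 x3830 x3832 x3842 x3848 x3850 x3854 x3856 x3858
    x3866 x3868 x3872 x3874 x3876 x3880 x3882 x3914 x3932 x3938 x3940 x3950 x3956 x3958 x3962 x3964
    x3966 x3986 x3992 x3994 x4004 x4010 x4012 x4016 x4018 x4020 x4028 x4030 x4034 x4036 x4038 x4042
    x4044 x4058 x4064 x4066 x4070 x4072 x4074 x4082 x4084 x4088 x4090 x4092 x4096 x4098 x4106 x4108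
    x4110 x4114 x4116 x4122 x4148 x4154 x4156 x4166 x4172 x4174 x4178 x4180 x4182 x4190 x4192 x4196
    x4198 x4200 x4204 x4206 x4220 x4226 x4228 x4232 x4234 x4236 x4244 x4246 x4250 x4252 x4254 x4258
    x4260 x4268 x4270 x4272 x4276 x4278 x4284 x4298 x4300 x4304 x4306 x4308 x4312 x4314 x4322 x4324
    x4326 x4330 x4332 x4338 x4348 x4350 x4356 x4454 x4508 x4526 x4532 x4534 x4562 x4580 x4586 x4588
    x4598 x4604 x4606 x4610 x4612 x4614 x4670 x4688 x4694 x4696 x4724 x4742 x4748 x4750 x4760 x4766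
    x4768 x4772 x4774 x4776 x4796 x4802 x4804 x4814 x4820 x4822 x4826 x4828 x4830 x4838 x4840 x4844
    x4846 x4848 x4852 x4854 x4886 x4904 x4910 x4912 x4922 x4928 x4930 x4934 x4936 x4938 x4958 x4964
    x4966 x4976 x4982 x4984 x4988 x4990 x4992 x5000 x5002 x5006 x5008 x5010 x5014 x5016 x5030 x5036
    x5038 x5042 x5044 x5046 x5054 x5056 x5060 x5062 x5064 x5068 x5070 x5078 x5080 x5082 x5086 x5088
    x5094 x5156 x5174 x5180 x5182 x5210 x5228 x5234 x5236 x5246 x5252 x5254 x5258 x5260 x5262 x5282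
    x5288 x5290 x5300 x5306 x5308 x5312 x5314 x5316 x5324 x5326 x5330 x5332 x5334 x5338 x5340 x5372
    x5390 x5396 x5398 x5408 x5414 x5416 x5420 x5422 x5424 x5444 x5450 x5452 x5462 x5468 x5470 x5474
    x5476 x5478 x5486 x5488 x5492 x5494 x5496 x5500 x5502 x5516 x5522 x5524 x5528 x5530 x5532 x5540
    x5542 x5546 x5548 x5550 x5554 x5556 x5564 x5566 x5568 x5572 x5574 x5580 x5606 x5612 x5614 x5624
    x5630 x5632 x5636 x5638 x5640 x5648 x5650 x5654 x5656 x5658 x5662 x5664 x5678 x5684 x5686 x5690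
    x5692 x5694 x5702 x5704 x5708 x5710 x5712 x5716 x5718 x5726 x5728 x5730 x5734 x5736 x5742 x5756
    x5758 x5762 x5764 x5766 x5770 x5772 x5780 x5782 x5784 x5788 x5790 x5796 x5806 x5808 x5814 x5858
    x5876 x5882 x5884 x5894 x5900 x5902 x5906 x5908 x5910 x5930 x5936 x5938 x5948 x5954 x5956 x5960
    x5962 x5964 x5972 x5974 x5978 x5980 x5982 x5986 x5988 x6002 x6008 x6010 x6014 x6016 x6018 x6026
    x6028 x6032 x6034 x6036 x6040 x6042 x6050 x6052 x6054 x6058 x6060 x6066 x6092 x6098 x6100 x6110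
    x6116 x6118 x6122 x6124 x6126 x6134 x6136 x6140 x6142 x6144 x6148 x6150 x6164 x6170 x6172 x6176
    x6178 x6180 x6188 x6190 x6194 x6196 x6198 x6202 x6204 x6212 x6214 x6216 x6220 x6222 x6228 x6242
    x6244 x6248 x6250 x6252 x6256 x6258 x6266 x6268 x6270 x6274 x6276 x6282 x6292 x6294 x6300 x6326
    x6332 x6334 x6338 x6340 x6342 x6350 x6352 x6356 x6358 x6360 x6364 x6366 x6374 x6376 x6378 x6382
    x6384 x6390 x6404 x6406 x6410 x6412 x6414 x6418 x6420 x6428 x6430 x6432 x6436 x6438 x6444 x6454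
    x6456 x6462 x6482 x6484 x6486 x6490 x6492 x6498 x6508 x6510 x6516 x6534 x6722 x6776 x6794 x6800
    x6802 x6884 x6938 x6956 x6962 x6964 x6992 x7010 x7016 x7018 x7028 x7034 x7036 x7040 x7042 x7044
    x7100 x7118 x7124 x7126 x7154 x7172 x7178 x7180 x7190 x7196 x7198 x7202 x7204 x7206 x7226 x7232
    x7234 x7244 x7250 x7252 x7256 x7258 x7260 x7268 x7270 x7274 x7276 x7278 x7282 x7284 x7370 x7424
    x7442 x7448 x7450 x7478 x7496 x7502 x7504 x7514 x7520 x7522 x7526 x7528 x7530 x7586 x7604 x7610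
    x7612 x7640 x7658 x7664 x7666 x7676 x7682 x7684 x7688 x7690 x7692 x7712 x7718 x7720 x7730 x7736
    x7738 x7742 x7744 x7746 x7754 x7756 x7760 x7762 x7764 x7768 x7770 x7802 x7820 x7826 x7828 x7838
    x7844 x7846 x7850 x7852 x7854 x7874 x7880 x7882 x7892 x7898 x7900 x7904 x7906 x7908 x7916 x7918
    x7922 x7924 x7926 x7930 x7932 x7946 x7952 x7954 x7958 x7960 x7962 x7970 x7972 x7976 x7978 x7980
    x7984 x7986 x7994 x7996 x7998 x8002 x8004 x8010 x8072 x8090 x8096 x8098 x8126 x8144 x8150 x8152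
    x8162 x8168 x8170 x8174 x8176 x8178 x8198 x8204 x8206 x8216 x8222 x8224 x8228 x8230 x8232 x8240
    x8242 x8246 x8248 x8250 x8254 x8256 x8288 x8306 x8312 x8314 x8324 x8330 x8332 x8336 x8338 x8340
    x8360 x8366 x8368 x8378 x8384 x8386 x8390 x8392 x8394 x8402 x8404 x8408 x8410 x8412 x8416 x8418
    x8432 x8438 x8440 x8444 x8446 x8448 x8456 x8458 x8462 x8464 x8466 x8470 x8472 x8480 x8482 x8484
    x8488 x8490 x8496 x8522 x8528 x8530 x8540 x8546 x8548 x8552 x8554 x8556 x8564 x8566 x8570 x8572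
    x8574 x8578 x8580 x8594 x8600 x8602 x8606 x8608 x8610 x8618 x8620 x8624 x8626 x8628 x8632 x8634
    x8642 x8644 x8646 x8650 x8652 x8658 x8672 x8674 x8678 x8680 x8682 x8686 x8688 x8696 x8698 x8700
    x8704 x8706 x8712 x8722 x8724 x8730 x8828 x8882 x8900 x8906 x8908 x8936 x8954 x8960 x8962 x8972
    x8978 x8980 x8984 x8986 x8988 x9044 x9062 x9068 x9070 x9098 x9116 x9122 x9124 x9134 x9140 x9142
    x9146 x9148 x9150 x9170 x9176 x9178 x9188 x9194 x9196 x9200 x9202 x9204 x9212 x9214 x9218 x9220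
    x9222 x9226 x9228 x9260 x9278 x9284 x9286 x9296 x9302 x9304 x9308 x9310 x9312 x9332 x9338 x9340
    x9350 x9356 x9358 x9362 x9364 x9366 x9374 x9376 x9380 x9382 x9384 x9388 x9390 x9404 x9410 x9412
    x9416 x9418 x9420 x9428 x9430 x9434 x9436 x9438 x9442 x9444 x9452 x9454 x9456 x9460 x9462 x9468
    x9530 x9548 x9554 x9556 x9584 x9602 x9608 x9610 x9620 x9626 x9628 x9632 x9634 x9636 x9656 x9662
    x9664 x9674 x9680 x9682 x9686 x9688 x9690 x9698 x9700 x9704 x9706 x9708 x9712 x9714 x9746 x9764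
    x9770 x9772 x9782 x9788 x9790 x9794 x9796 x9798 x9818 x9824 x9826 x9836 x9842 x9844 x9848 x9850
    x9852 x9860 x9862 x9866 x9868 x9870 x9874 x9876 x9890 x9896 x9898 x9902 x9904 x9906 x9914 x9916
    x9920 x9922 x9924 x9928 x9930 x9938 x9940 x9942 x9946 x9948 x9954 x9980 x9986 x9988 x9998
    x10004 x10006 x10010 x10012 x10014 x10022 x10024 x10028 x10030 x10032 x10036 x10038 x10052
    x10058 x10060 x10064 x10066 x10068 x10076 x10078 x10082 x10084 x10086 x10090 x10092 x10100
    x10102 x10104 x10108 x10110 x10116 x10130 x10132 x10136 x10138 x10140 x10144 x10146 x10154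
    x10156 x10158 x10162 x10164 x10170 x10180 x10182 x10188 x10232 x10250 x10256 x10258 x10268
    x10274 x10276 x10280 x10282 x10284 x10304 x10310 x10312 x10322 x10328 x10330 x10334 x10336
    x10338 x10346 x10348 x10352 x10354 x10356 x10360 x10362 x10376 x10382 x10384 x10388 x10390
    x10392 x10400 x10402 x10406 x10408 x10410 x10414 x10416 x10424 x10426 x10428 x10432 x10434
    x10440 x10466 x10472 x10474 x10484 x10490 x10492 x10496 x10498 x10500 x10508 x10510 x10514
    x10516 x10518 x10522 x10524 x10538 x10544 x10546 x10550 x10552 x10554 x10562 x10564 x10568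
    x10570 x10572 x10576 x10578 x10586 x10588 x10590 x10594 x10596 x10602 x10616 x10618 x10622
    x10624 x10626 x10630 x10632 x10640 x10642 x10644 x10648 x10650 x10656 x10666 x10668 x10674
    x10700 x10706 x10708 x10712 x10714 x10716 x10724 x10726 x10730 x10732 x10734 x10738 x10740
    x10748 x10750 x10752 x10756 x10758 x10764 x10778 x10780 x10784 x10786 x10788 x10792 x10794
    x10802 x10804 x10806 x10810 x10812 x10818 x10828 x10830 x10836 x10856 x10858 x10860 x10864
    x10866 x10872 x10882 x10884 x10890 x10908 x10988 x11006 x11012 x11014 x11042 x11060 x11066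
    x11068 x11078 x11084 x11086 x11090 x11092 x11094 x11114 x11120 x11122 x11132 x11138 x11140
    x11144 x11146 x11148 x11156 x11158 x11162 x11164 x11166 x11170 x11172 x11204 x11222 x11228
    x11230 x11240 x11246 x11248 x11252 x11254 x11256 x11276 x11282 x11284 x11294 x11300 x11302
    x11306 x11308 x11310 x11318 x11320 x11324 x11326 x11328 x11332 x11334 x11348 x11354 x11356
    x11360 x11362 x11364 x11372 x11374 x11378 x11380 x11382 x11386 x11388 x11396 x11398 x11400
    x11404 x11406 x11412 x11438 x11444 x11446 x11456 x11462 x11464 x11468 x11470 x11472 x11480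
    x11482 x11486 x11488 x11490 x11494 x11496 x11510 x11516 x11518 x11522 x11524 x11526 x11534
    x11536 x11540 x11542 x11544 x11548 x11550 x11558 x11560 x11562 x11566 x11568 x11574 x11588
    x11590 x11594 x11596 x11598 x11602 x11604 x11612 x11614 x11616 x11620 x11622 x11628 x11638
    x11640 x11646 x11690 x11708 x11714 x11716 x11726 x11732 x11734 x11738 x11740 x11742 x11762
    x11768 x11770 x11780 x11786 x11788 x11792 x11794 x11796 x11804 x11806 x11810 x11812 x11814
    x11818 x11820 x11834 x11840 x11842 x11846 x11848 x11850 x11858 x11860 x11864 x11866 x11868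
    x11872 x11874 x11882 x11884 x11886 x11890 x11892 x11898 x11924 x11930 x11932 x11942 x11948
    x11950 x11954 x11956 x11958 x11966 x11968 x11972 x11974 x11976 x11980 x11982 x11996 x12002
    x12004 x12008 x12010 x12012 x12020 x12022 x12026 x12028 x12030 x12034 x12036 x12044 x12046
    x12048 x12052 x12054 x12060 x12074 x12076 x12080 x12082 x12084 x12088 x12090 x12098 x12100
    x12102 x12106 x12108 x12114 x12124 x12126 x12132 x12158 x12164 x12166 x12170 x12172 x12174
    x12182 x12184 x12188 x12190 x12192 x12196 x12198 x12206 x12208 x12210 x12214 x12216 x12222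
    x12236 x12238 x12242 x12244 x12246 x12250 x12252 x12260 x12262 x12264 x12268 x12270 x12276
    x12286 x12288 x12294 x12314 x12316 x12318 x12322 x12324 x12330 x12340 x12342 x12348 x12366
    x12410 x12416 x12418 x12428 x12434 x12436 x12440 x12442 x12444 x12452 x12454 x12458 x12460
    x12462 x12466 x12468 x12482 x12488 x12490 x12494 x12496 x12498 x12506 x12508 x12512 x12514
    x12516 x12520 x12522 x12530 x12532 x12534 x12538 x12540 x12546 x12560 x12562 x12566 x12568
    x12570 x12574 x12576 x12584 x12586 x12588 x12592 x12594 x12600 x12610 x12612 x12618 x12644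
    x12650 x12652 x12656 x12658 x12660 x12668 x12670 x12674 x12676 x12678 x12682 x12684 x12692
    x12694 x12696 x12700 x12702 x12708 x12722 x12724 x12728 x12730 x12732 x12736 x12738 x12746
    x12748 x12750 x12754 x12756 x12762 x12772 x12774 x12780 x12800 x12802 x12804 x12808 x12810
    x12816 x12826 x12828 x12834 x12852 x12884 x12886 x12890 x12892 x12894 x12898 x12900 x12908
    x12910 x12912 x12916 x12918 x12924 x12934 x12936 x12942 x12962 x12964 x12966 x12970 x12972
    x12978 x12988 x12990 x12996 x13014 x13042 x13044 x13050 x13068 x13202 x13256 x13274 x13280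
    x13282 x13310 x13328 x13334 x13336 x13346 x13352 x13354 x13358 x13360 x13362 x13418 x13436
    x13442 x13444 x13472 x13490 x13496 x13498 x13508 x13514 x13516 x13520 x13522 x13524 x13544
    x13550 x13552 x13562 x13568 x13570 x13574 x13576 x13578 x13586 x13588 x13592 x13594 x13596
    x13600 x13602 x13634 x13652 x13658 x13660 x13670 x13676 x13678 x13682 x13684 x13686 x13706
    x13712 x13714 x13724 x13730 x13732 x13736 x13738 x13740 x13748 x13750 x13754 x13756 x13758
    x13762 x13764 x13778 x13784 x13786 x13790 x13792 x13794 x13802 x13804 x13808 x13810 x13812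
    x13816 x13818 x13826 x13828 x13830 x13834 x13836 x13842 x13904 x13922 x13928 x13930 x13958
    x13976 x13982 x13984 x13994 x14000 x14002 x14006 x14008 x14010 x14030 x14036 x14038 x14048
    x14054 x14056 x14060 x14062 x14064 x14072 x14074 x14078 x14080 x14082 x14086 x14088 x14120
    x14138 x14144 x14146 x14156 x14162 x14164 x14168 x14170 x14172 x14192 x14198 x14200 x14210
    x14216 x14218 x14222 x14224 x14226 x14234 x14236 x14240 x14242 x14244 x14248 x14250 x14264
    x14270 x14272 x14276 x14278 x14280 x14288 x14290 x14294 x14296 x14298 x14302 x14304 x14312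
    x14314 x14316 x14320 x14322 x14328 x14354 x14360 x14362 x14372 x14378 x14380 x14384 x14386
    x14388 x14396 x14398 x14402 x14404 x14406 x14410 x14412 x14426 x14432 x14434 x14438 x14440
    x14442 x14450 x14452 x14456 x14458 x14460 x14464 x14466 x14474 x14476 x14478 x14482 x14484
    x14490 x14504 x14506 x14510 x14512 x14514 x14518 x14520 x14528 x14530 x14532 x14536 x14538
    x14544 x14554 x14556 x14562 x14606 x14624 x14630 x14632 x14642 x14648 x14650 x14654 x14656
    x14658 x14678 x14684 x14686 x14696 x14702 x14704 x14708 x14710 x14712 x14720 x14722 x14726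
    x14728 x14730 x14734 x14736 x14750 x14756 x14758 x14762 x14764 x14766 x14774 x14776 x14780
    x14782 x14784 x14788 x14790 x14798 x14800 x14802 x14806 x14808 x14814 x14840 x14846 x14848
    x14858 x14864 x14866 x14870 x14872 x14874 x14882 x14884 x14888 x14890 x14892 x14896 x14898
    x14912 x14918 x14920 x14924 x14926 x14928 x14936 x14938 x14942 x14944 x14946 x14950 x14952
    x14960 x14962 x14964 x14968 x14970 x14976 x14990 x14992 x14996 x14998 x15000 x15004 x15006
    x15014 x15016 x15018 x15022 x15024 x15030 x15040 x15042 x15048 x15074 x15080 x15082 x15086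
    x15088 x15090 x15098 x15100 x15104 x15106 x15108 x15112 x15114 x15122 x15124 x15126 x15130
    x15132 x15138 x15152 x15154 x15158 x15160 x15162 x15166 x15168 x15176 x15178 x15180 x15184
    x15186 x15192 x15202 x15204 x15210 x15230 x15232 x15234 x15238 x15240 x15246 x15256 x15258
    x15264 x15282 x15362 x15380 x15386 x15388 x15416 x15434 x15440 x15442 x15452 x15458 x15460
    x15464 x15466 x15468 x15488 x15494 x15496 x15506 x15512 x15514 x15518 x15520 x15522 x15530
    x15532 x15536 x15538 x15540 x15544 x15546 x15578 x15596 x15602 x15604 x15614 x15620 x15622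
    x15626 x15628 x15630 x15650 x15656 x15658 x15668 x15674 x15676 x15680 x15682 x15684 x15692
    x15694 x15698 x15700 x15702 x15706 x15708 x15722 x15728 x15730 x15734 x15736 x15738 x15746
    x15748 x15752 x15754 x15756 x15760 x15762 x15770 x15772 x15774 x15778 x15780 x15786 x15812
    x15818 x15820 x15830 x15836 x15838 x15842 x15844 x15846 x15854 x15856 x15860 x15862 x15864
    x15868 x15870 x15884 x15890 x15892 x15896 x15898 x15900 x15908 x15910 x15914 x15916 x15918
    x15922 x15924 x15932 x15934 x15936 x15940 x15942 x15948 x15962 x15964 x15968 x15970 x15972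
    x15976 x15978 x15986 x15988 x15990 x15994 x15996 x16002 x16012 x16014 x16020 x16064 x16082
    x16088 x16090 x16100 x16106 x16108 x16112 x16114 x16116 x16136 x16142 x16144 x16154 x16160
    x16162 x16166 x16168 x16170 x16178 x16180 x16184 x16186 x16188 x16192 x16194 x16208 x16214
    x16216 x16220 x16222 x16224 x16232 x16234 x16238 x16240 x16242 x16246 x16248 x16256 x16258
    x16260 x16264 x16266 x16272 x16298 x16304 x16306 x16316 x16322 x16324 x16328 x16330 x16332
    x16340 x16342 x16346 x16348 x16350 x16354 x16356 x16370 x16376 x16378 x16382 x16384 x16386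
    x16394 x16396 x16400 x16402 x16404 x16408 x16410 x16418 x16420 x16422 x16426 x16428 x16434
    x16448 x16450 x16454 x16456 x16458 x16462 x16464 x16472 x16474 x16476 x16480 x16482 x16488
    x16498 x16500 x16506 x16532 x16538 x16540 x16544 x16546 x16548 x16556 x16558 x16562 x16564
    x16566 x16570 x16572 x16580 x16582 x16584 x16588 x16590 x16596 x16610 x16612 x16616 x16618
    x16620 x16624 x16626 x16634 x16636 x16638 x16642 x16644 x16650 x16660 x16662 x16668 x16688
    x16690 x16692 x16696 x16698 x16704 x16714 x16716 x16722 x16740 x16784 x16790 x16792 x16802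
    x16808 x16810 x16814 x16816 x16818 x16826 x16828 x16832 x16834 x16836 x16840 x16842 x16856
    x16862 x16864 x16868 x16870 x16872 x16880 x16882 x16886 x16888 x16890 x16894 x16896 x16904
    x16906 x16908 x16912 x16914 x16920 x16934 x16936 x16940 x16942 x16944 x16948 x16950 x16958
    x16960 x16962 x16966 x16968 x16974 x16984 x16986 x16992 x17018 x17024 x17026 x17030 x17032
    x17034 x17042 x17044 x17048 x17050 x17052 x17056 x17058 x17066 x17068 x17070 x17074 x17076
    x17082 x17096 x17098 x17102 x17104 x17106 x17110 x17112 x17120 x17122 x17124 x17128 x17130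
    x17136 x17146 x17148 x17154 x17174 x17176 x17178 x17182 x17184 x17190 x17200 x17202 x17208
    x17226 x17258 x17260 x17264 x17266 x17268 x17272 x17274 x17282 x17284 x17286 x17290 x17292
    x17298 x17308 x17310 x17316 x17336 x17338 x17340 x17344 x17346 x17352 x17362 x17364 x17370
    x17388 x17416 x17418 x17424 x17442 x17522 x17540 x17546 x17548 x17558 x17564 x17566 x17570
    x17572 x17574 x17594 x17600 x17602 x17612 x17618 x17620 x17624 x17626 x17628 x17636 x17638
    x17642 x17644 x17646 x17650 x17652 x17666 x17672 x17674 x17678 x17680 x17682 x17690 x17692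
    x17696 x17698 x17700 x17704 x17706 x17714 x17716 x17718 x17722 x17724 x17730 x17756 x17762
    x17764 x17774 x17780 x17782 x17786 x17788 x17790 x17798 x17800 x17804 x17806 x17808 x17812
    x17814 x17828 x17834 x17836 x17840 x17842 x17844 x17852 x17854 x17858 x17860 x17862 x17866
    x17868 x17876 x17878 x17880 x17884 x17886 x17892 x17906 x17908 x17912 x17914 x17916 x17920
    x17922 x17930 x17932 x17934 x17938 x17940 x17946 x17956 x17958 x17964 x17990 x17996 x17998
    x18002 x18004 x18006 x18014 x18016 x18020 x18022 x18024 x18028 x18030 x18038 x18040 x18042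
    x18046 x18048 x18054 x18068 x18070 x18074 x18076 x18078 x18082 x18084 x18092 x18094 x18096
    x18100 x18102 x18108 x18118 x18120 x18126 x18146 x18148 x18150 x18154 x18156 x18162 x18172
    x18174 x18180 x18198 x18242 x18248 x18250 x18260 x18266 x18268 x18272 x18274 x18276 x18284
    x18286 x18290 x18292 x18294 x18298 x18300 x18314 x18320 x18322 x18326 x18328 x18330 x18338
    x18340 x18344 x18346 x18348 x18352 x18354 x18362 x18364 x18366 x18370 x18372 x18378 x18392
    x18394 x18398 x18400 x18402 x18406 x18408 x18416 x18418 x18420 x18424 x18426 x18432 x18442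
    x18444 x18450 x18476 x18482 x18484 x18488 x18490 x18492 x18500 x18502 x18506 x18508 x18510
    x18514 x18516 x18524 x18526 x18528 x18532 x18534 x18540 x18554 x18556 x18560 x18562 x18564
    x18568 x18570 x18578 x18580 x18582 x18586 x18588 x18594 x18604 x18606 x18612 x18632 x18634
    x18636 x18640 x18642 x18648 x18658 x18660 x18666 x18684 x18716 x18718 x18722 x18724 x18726
    x18730 x18732 x18740 x18742 x18744 x18748 x18750 x18756 x18766 x18768 x18774 x18794 x18796
    x18798 x18802 x18804 x18810 x18820 x18822 x18828 x18846 x18874 x18876 x18882 x18900 x18962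
    x18968 x18970 x18974 x18976 x18978 x18986 x18988 x18992 x18994 x18996 x19000 x19002 x19010
    x19012 x19014 x19018 x19020 x19026 x19040 x19042 x19046 x19048 x19050 x19054 x19056 x19064
    x19066 x19068 x19072 x19074 x19080 x19090 x19092 x19098 x19118 x19120 x19122 x19126 x19128
    x19134 x19144 x19146 x19152 x19170 x19202 x19204 x19208 x19210 x19212 x19216 x19218 x19226
    x19228 x19230 x19234 x19236 x19242 x19252 x19254 x19260 x19280 x19282 x19284 x19288 x19290
    x19296 x19306 x19308 x19314 x19332 x19360 x19362 x19368 x19386 x19442 x19444 x19446 x19450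
    x19452 x19458 x19468 x19470 x19476 x19494 x19522 x19524 x19530 x19548 x19602 x19844 x19898
    x19916 x19922 x19924 x20006 x20060 x20078 x20084 x20086 x20114 x20132 x20138 x20140 x20150
    x20156 x20158 x20162 x20164 x20166 x20222 x20240 x20246 x20248 x20276 x20294 x20300 x20302
    x20312 x20318 x20320 x20324 x20326 x20328 x20348 x20354 x20356 x20366 x20372 x20374 x20378
    x20380 x20382 x20390 x20392 x20396 x20398 x20400 x20404 x20406 x20492 x20546 x20564 x20570
    x20572 x20600 x20618 x20624 x20626 x20636 x20642 x20644 x20648 x20650 x20652 x20708 x20726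
    x20732 x20734 x20762 x20780 x20786 x20788 x20798 x20804 x20806 x20810 x20812 x20814 x20834
    x20840 x20842 x20852 x20858 x20860 x20864 x20866 x20868 x20876 x20878 x20882 x20884 x20886
    x20890 x20892 x20924 x20942 x20948 x20950 x20960 x20966 x20968 x20972 x20974 x20976 x20996
    x21002 x21004 x21014 x21020 x21022 x21026 x21028 x21030 x21038 x21040 x21044 x21046 x21048
    x21052 x21054 x21068 x21074 x21076 x21080 x21082 x21084 x21092 x21094 x21098 x21100 x21102
    x21106 x21108 x21116 x21118 x21120 x21124 x21126 x21132 x21194 x21212 x21218 x21220 x21248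
    x21266 x21272 x21274 x21284 x21290 x21292 x21296 x21298 x21300 x21320 x21326 x21328 x21338
    x21344 x21346 x21350 x21352 x21354 x21362 x21364 x21368 x21370 x21372 x21376 x21378 x21410
    x21428 x21434 x21436 x21446 x21452 x21454 x21458 x21460 x21462 x21482 x21488 x21490 x21500
    x21506 x21508 x21512 x21514 x21516 x21524 x21526 x21530 x21532 x21534 x21538 x21540 x21554
    x21560 x21562 x21566 x21568 x21570 x21578 x21580 x21584 x21586 x21588 x21592 x21594 x21602
    x21604 x21606 x21610 x21612 x21618 x21644 x21650 x21652 x21662 x21668 x21670 x21674 x21676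
    x21678 x21686 x21688 x21692 x21694 x21696 x21700 x21702 x21716 x21722 x21724 x21728 x21730
    x21732 x21740 x21742 x21746 x21748 x21750 x21754 x21756 x21764 x21766 x21768 x21772 x21774
    x21780 x21794 x21796 x21800 x21802 x21804 x21808 x21810 x21818 x21820 x21822 x21826 x21828
    x21834 x21844 x21846 x21852 x21950 x22004 x22022 x22028 x22030 x22058 x22076 x22082 x22084
    x22094 x22100 x22102 x22106 x22108 x22110 x22166 x22184 x22190 x22192 x22220 x22238 x22244
    x22246 x22256 x22262 x22264 x22268 x22270 x22272 x22292 x22298 x22300 x22310 x22316 x22318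
    x22322 x22324 x22326 x22334 x22336 x22340 x22342 x22344 x22348 x22350 x22382 x22400 x22406
    x22408 x22418 x22424 x22426 x22430 x22432 x22434 x22454 x22460 x22462 x22472 x22478 x22480
    x22484 x22486 x22488 x22496 x22498 x22502 x22504 x22506 x22510 x22512 x22526 x22532 x22534
    x22538 x22540 x22542 x22550 x22552 x22556 x22558 x22560 x22564 x22566 x22574 x22576 x22578
    x22582 x22584 x22590 x22652 x22670 x22676 x22678 x22706 x22724 x22730 x22732 x22742 x22748
    x22750 x22754 x22756 x22758 x22778 x22784 x22786 x22796 x22802 x22804 x22808 x22810 x22812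
    x22820 x22822 x22826 x22828 x22830 x22834 x22836 x22868 x22886 x22892 x22894 x22904 x22910
    x22912 x22916 x22918 x22920 x22940 x22946 x22948 x22958 x22964 x22966 x22970 x22972 x22974
    x22982 x22984 x22988 x22990 x22992 x22996 x22998 x23012 x23018 x23020 x23024 x23026 x23028
    x23036 x23038 x23042 x23044 x23046 x23050 x23052 x23060 x23062 x23064 x23068 x23070 x23076
    x23102 x23108 x23110 x23120 x23126 x23128 x23132 x23134 x23136 x23144 x23146 x23150 x23152
    x23154 x23158 x23160 x23174 x23180 x23182 x23186 x23188 x23190 x23198 x23200 x23204 x23206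
    x23208 x23212 x23214 x23222 x23224 x23226 x23230 x23232 x23238 x23252 x23254 x23258 x23260
    x23262 x23266 x23268 x23276 x23278 x23280 x23284 x23286 x23292 x23302 x23304 x23310 x23354
    x23372 x23378 x23380 x23390 x23396 x23398 x23402 x23404 x23406 x23426 x23432 x23434 x23444
    x23450 x23452 x23456 x23458 x23460 x23468 x23470 x23474 x23476 x23478 x23482 x23484 x23498
    x23504 x23506 x23510 x23512 x23514 x23522 x23524 x23528 x23530 x23532 x23536 x23538 x23546
    x23548 x23550 x23554 x23556 x23562 x23588 x23594 x23596 x23606 x23612 x23614 x23618 x23620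
    x23622 x23630 x23632 x23636 x23638 x23640 x23644 x23646 x23660 x23666 x23668 x23672 x23674
    x23676 x23684 x23686 x23690 x23692 x23694 x23698 x23700 x23708 x23710 x23712 x23716 x23718
    x23724 x23738 x23740 x23744 x23746 x23748 x23752 x23754 x23762 x23764 x23766 x23770 x23772
    x23778 x23788 x23790 x23796 x23822 x23828 x23830 x23834 x23836 x23838 x23846 x23848 x23852
    x23854 x23856 x23860 x23862 x23870 x23872 x23874 x23878 x23880 x23886 x23900 x23902 x23906
    x23908 x23910 x23914 x23916 x23924 x23926 x23928 x23932 x23934 x23940 x23950 x23952 x23958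
    x23978 x23980 x23982 x23986 x23988 x23994 x24004 x24006 x24012 x24030 x24110 x24128 x24134
    x24136 x24164 x24182 x24188 x24190 x24200 x24206 x24208 x24212 x24214 x24216 x24236 x24242
    x24244 x24254 x24260 x24262 x24266 x24268 x24270 x24278 x24280 x24284 x24286 x24288 x24292
    x24294 x24326 x24344 x24350 x24352 x24362 x24368 x24370 x24374 x24376 x24378 x24398 x24404
    x24406 x24416 x24422 x24424 x24428 x24430 x24432 x24440 x24442 x24446 x24448 x24450 x24454
    x24456 x24470 x24476 x24478 x24482 x24484 x24486 x24494 x24496 x24500 x24502 x24504 x24508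
    x24510 x24518 x24520 x24522 x24526 x24528 x24534 x24560 x24566 x24568 x24578 x24584 x24586
    x24590 x24592 x24594 x24602 x24604 x24608 x24610 x24612 x24616 x24618 x24632 x24638 x24640
    x24644 x24646 x24648 x24656 x24658 x24662 x24664 x24666 x24670 x24672 x24680 x24682 x24684
    x24688 x24690 x24696 x24710 x24712 x24716 x24718 x24720 x24724 x24726 x24734 x24736 x24738
    x24742 x24744 x24750 x24760 x24762 x24768 x24812 x24830 x24836 x24838 x24848 x24854 x24856
    x24860 x24862 x24864 x24884 x24890 x24892 x24902 x24908 x24910 x24914 x24916 x24918 x24926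
    x24928 x24932 x24934 x24936 x24940 x24942 x24956 x24962 x24964 x24968 x24970 x24972 x24980
    x24982 x24986 x24988 x24990 x24994 x24996 x25004 x25006 x25008 x25012 x25014 x25020 x25046
    x25052 x25054 x25064 x25070 x25072 x25076 x25078 x25080 x25088 x25090 x25094 x25096 x25098
    x25102 x25104 x25118 x25124 x25126 x25130 x25132 x25134 x25142 x25144 x25148 x25150 x25152
    x25156 x25158 x25166 x25168 x25170 x25174 x25176 x25182 x25196 x25198 x25202 x25204 x25206
    x25210 x25212 x25220 x25222 x25224 x25228 x25230 x25236 x25246 x25248 x25254 x25280 x25286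
    x25288 x25292 x25294 x25296 x25304 x25306 x25310 x25312 x25314 x25318 x25320 x25328 x25330
    x25332 x25336 x25338 x25344 x25358 x25360 x25364 x25366 x25368 x25372 x25374 x25382 x25384
    x25386 x25390 x25392 x25398 x25408 x25410 x25416 x25436 x25438 x25440 x25444 x25446 x25452
    x25462 x25464 x25470 x25488 x25532 x25538 x25540 x25550 x25556 x25558 x25562 x25564 x25566
    x25574 x25576 x25580 x25582 x25584 x25588 x25590 x25604 x25610 x25612 x25616 x25618 x25620
    x25628 x25630 x25634 x25636 x25638 x25642 x25644 x25652 x25654 x25656 x25660 x25662 x25668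
    x25682 x25684 x25688 x25690 x25692 x25696 x25698 x25706 x25708 x25710 x25714 x25716 x25722
    x25732 x25734 x25740 x25766 x25772 x25774 x25778 x25780 x25782 x25790 x25792 x25796 x25798
    x25800 x25804 x25806 x25814 x25816 x25818 x25822 x25824 x25830 x25844 x25846 x25850 x25852
    x25854 x25858 x25860 x25868 x25870 x25872 x25876 x25878 x25884 x25894 x25896 x25902 x25922
    x25924 x25926 x25930 x25932 x25938 x25948 x25950 x25956 x25974 x26006 x26008 x26012 x26014
    x26016 x26020 x26022 x26030 x26032 x26034 x26038 x26040 x26046 x26056 x26058 x26064 x26084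
    x26086 x26088 x26092 x26094 x26100 x26110 x26112 x26118 x26136 x26164 x26166 x26172 x26190
    x26324 x26378 x26396 x26402 x26404 x26432 x26450 x26456 x26458 x26468 x26474 x26476 x26480
    x26482 x26484 x26540 x26558 x26564 x26566 x26594 x26612 x26618 x26620 x26630 x26636 x26638
    x26642 x26644 x26646 x26666 x26672 x26674 x26684 x26690 x26692 x26696 x26698 x26700 x26708
    x26710 x26714 x26716 x26718 x26722 x26724 x26756 x26774 x26780 x26782 x26792 x26798 x26800
    x26804 x26806 x26808 x26828 x26834 x26836 x26846 x26852 x26854 x26858 x26860 x26862 x26870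
    x26872 x26876 x26878 x26880 x26884 x26886 x26900 x26906 x26908 x26912 x26914 x26916 x26924
    x26926 x26930 x26932 x26934 x26938 x26940 x26948 x26950 x26952 x26956 x26958 x26964 x27026
    x27044 x27050 x27052 x27080 x27098 x27104 x27106 x27116 x27122 x27124 x27128 x27130 x27132
    x27152 x27158 x27160 x27170 x27176 x27178 x27182 x27184 x27186 x27194 x27196 x27200 x27202
    x27204 x27208 x27210 x27242 x27260 x27266 x27268 x27278 x27284 x27286 x27290 x27292 x27294
    x27314 x27320 x27322 x27332 x27338 x27340 x27344 x27346 x27348 x27356 x27358 x27362 x27364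
    x27366 x27370 x27372 x27386 x27392 x27394 x27398 x27400 x27402 x27410 x27412 x27416 x27418
    x27420 x27424 x27426 x27434 x27436 x27438 x27442 x27444 x27450 x27476 x27482 x27484 x27494
    x27500 x27502 x27506 x27508 x27510 x27518 x27520 x27524 x27526 x27528 x27532 x27534 x27548
    x27554 x27556 x27560 x27562 x27564 x27572 x27574 x27578 x27580 x27582 x27586 x27588 x27596
    x27598 x27600 x27604 x27606 x27612 x27626 x27628 x27632 x27634 x27636 x27640 x27642 x27650
    x27652 x27654 x27658 x27660 x27666 x27676 x27678 x27684 x27728 x27746 x27752 x27754 x27764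
    x27770 x27772 x27776 x27778 x27780 x27800 x27806 x27808 x27818 x27824 x27826 x27830 x27832
    x27834 x27842 x27844 x27848 x27850 x27852 x27856 x27858 x27872 x27878 x27880 x27884 x27886
    x27888 x27896 x27898 x27902 x27904 x27906 x27910 x27912 x27920 x27922 x27924 x27928 x27930
    x27936 x27962 x27968 x27970 x27980 x27986 x27988 x27992 x27994 x27996 x28004 x28006 x28010
    x28012 x28014 x28018 x28020 x28034 x28040 x28042 x28046 x28048 x28050 x28058 x28060 x28064
    x28066 x28068 x28072 x28074 x28082 x28084 x28086 x28090 x28092 x28098 x28112 x28114 x28118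
    x28120 x28122 x28126 x28128 x28136 x28138 x28140 x28144 x28146 x28152 x28162 x28164 x28170
    x28196 x28202 x28204 x28208 x28210 x28212 x28220 x28222 x28226 x28228 x28230 x28234 x28236
    x28244 x28246 x28248 x28252 x28254 x28260 x28274 x28276 x28280 x28282 x28284 x28288 x28290
    x28298 x28300 x28302 x28306 x28308 x28314 x28324 x28326 x28332 x28352 x28354 x28356 x28360
    x28362 x28368 x28378 x28380 x28386 x28404 x28484 x28502 x28508 x28510 x28538 x28556 x28562
    x28564 x28574 x28580 x28582 x28586 x28588 x28590 x28610 x28616 x28618 x28628 x28634 x28636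
    x28640 x28642 x28644 x28652 x28654 x28658 x28660 x28662 x28666 x28668 x28700 x28718 x28724
    x28726 x28736 x28742 x28744 x28748 x28750 x28752 x28772 x28778 x28780 x28790 x28796 x28798
    x28802 x28804 x28806 x28814 x28816 x28820 x28822 x28824 x28828 x28830 x28844 x28850 x28852
    x28856 x28858 x28860 x28868 x28870 x28874 x28876 x28878 x28882 x28884 x28892 x28894 x28896
    x28900 x28902 x28908 x28934 x28940 x28942 x28952 x28958 x28960 x28964 x28966 x28968 x28976
    x28978 x28982 x28984 x28986 x28990 x28992 x29006 x29012 x29014 x29018 x29020 x29022 x29030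
    x29032 x29036 x29038 x29040 x29044 x29046 x29054 x29056 x29058 x29062 x29064 x29070 x29084
    x29086 x29090 x29092 x29094 x29098 x29100 x29108 x29110 x29112 x29116 x29118 x29124 x29134
    x29136 x29142 x29186 x29204 x29210 x29212 x29222 x29228 x29230 x29234 x29236 x29238 x29258
    x29264 x29266 x29276 x29282 x29284 x29288 x29290 x29292 x29300 x29302 x29306 x29308 x29310
    x29314 x29316 x29330 x29336 x29338 x29342 x29344 x29346 x29354 x29356 x29360 x29362 x29364
    x29368 x29370 x29378 x29380 x29382 x29386 x29388 x29394 x29420 x29426 x29428 x29438 x29444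
    x29446 x29450 x29452 x29454 x29462 x29464 x29468 x29470 x29472 x29476 x29478 x29492 x29498
    x29500 x29504 x29506 x29508 x29516 x29518 x29522 x29524 x29526 x29530 x29532 x29540 x29542
    x29544 x29548 x29550 x29556 x29570 x29572 x29576 x29578 x29580 x29584 x29586 x29594 x29596
    x29598 x29602 x29604 x29610 x29620 x29622 x29628 x29654 x29660 x29662 x29666 x29668 x29670
    x29678 x29680 x29684 x29686 x29688 x29692 x29694 x29702 x29704 x29706 x29710 x29712 x29718
    x29732 x29734 x29738 x29740 x29742 x29746 x29748 x29756 x29758 x29760 x29764 x29766 x29772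
    x29782 x29784 x29790 x29810 x29812 x29814 x29818 x29820 x29826 x29836 x29838 x29844 x29862
    x29906 x29912 x29914 x29924 x29930 x29932 x29936 x29938 x29940 x29948 x29950 x29954 x29956
    x29958 x29962 x29964 x29978 x29984 x29986 x29990 x29992 x29994 x30002 x30004 x30008 x30010
    x30012 x30016 x30018 x30026 x30028 x30030 x30034 x30036 x30042 x30056 x30058 x30062 x30064
    x30066 x30070 x30072 x30080 x30082 x30084 x30088 x30090 x30096 x30106 x30108 x30114 x30140
    x30146 x30148 x30152 x30154 x30156 x30164 x30166 x30170 x30172 x30174 x30178 x30180 x30188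
    x30190 x30192 x30196 x30198 x30204 x30218 x30220 x30224 x30226 x30228 x30232 x30234 x30242
    x30244 x30246 x30250 x30252 x30258 x30268 x30270 x30276 x30296 x30298 x30300 x30304 x30306
    x30312 x30322 x30324 x30330 x30348 x30380 x30382 x30386 x30388 x30390 x30394 x30396 x30404
    x30406 x30408 x30412 x30414 x30420 x30430 x30432 x30438 x30458 x30460 x30462 x30466 x30468
    x30474 x30484 x30486 x30492 x30510 x30538 x30540 x30546 x30564 x30644 x30662 x30668 x30670
    x30680 x30686 x30688 x30692 x30694 x30696 x30716 x30722 x30724 x30734 x30740 x30742 x30746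
    x30748 x30750 x30758 x30760 x30764 x30766 x30768 x30772 x30774 x30788 x30794 x30796 x30800
    x30802 x30804 x30812 x30814 x30818 x30820 x30822 x30826 x30828 x30836 x30838 x30840 x30844
    x30846 x30852 x30878 x30884 x30886 x30896 x30902 x30904 x30908 x30910 x30912 x30920 x30922
    x30926 x30928 x30930 x30934 x30936 x30950 x30956 x30958 x30962 x30964 x30966 x30974 x30976
    x30980 x30982 x30984 x30988 x30990 x30998 x31000 x31002 x31006 x31008 x31014 x31028 x31030
    x31034 x31036 x31038 x31042 x31044 x31052 x31054 x31056 x31060 x31062 x31068 x31078 x31080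
    x31086 x31112 x31118 x31120 x31124 x31126 x31128 x31136 x31138 x31142 x31144 x31146 x31150
    x31152 x31160 x31162 x31164 x31168 x31170 x31176 x31190 x31192 x31196 x31198 x31200 x31204
    x31206 x31214 x31216 x31218 x31222 x31224 x31230 x31240 x31242 x31248 x31268 x31270 x31272
    x31276 x31278 x31284 x31294 x31296 x31302 x31320 x31364 x31370 x31372 x31382 x31388 x31390
    x31394 x31396 x31398 x31406 x31408 x31412 x31414 x31416 x31420 x31422 x31436 x31442 x31444
    x31448 x31450 x31452 x31460 x31462 x31466 x31468 x31470 x31474 x31476 x31484 x31486 x31488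
    x31492 x31494 x31500 x31514 x31516 x31520 x31522 x31524 x31528 x31530 x31538 x31540 x31542
    x31546 x31548 x31554 x31564 x31566 x31572 x31598 x31604 x31606 x31610 x31612 x31614 x31622
    x31624 x31628 x31630 x31632 x31636 x31638 x31646 x31648 x31650 x31654 x31656 x31662 x31676
    x31678 x31682 x31684 x31686 x31690 x31692 x31700 x31702 x31704 x31708 x31710 x31716 x31726
    x31728 x31734 x31754 x31756 x31758 x31762 x31764 x31770 x31780 x31782 x31788 x31806 x31838
    x31840 x31844 x31846 x31848 x31852 x31854 x31862 x31864 x31866 x31870 x31872 x31878 x31888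
    x31890 x31896 x31916 x31918 x31920 x31924 x31926 x31932 x31942 x31944 x31950 x31968 x31996
    x31998 x32004 x32022 x32084 x32090 x32092 x32096 x32098 x32100 x32108 x32110 x32114 x32116
    x32118 x32122 x32124 x32132 x32134 x32136 x32140 x32142 x32148 x32162 x32164 x32168 x32170
    x32172 x32176 x32178 x32186 x32188 x32190 x32194 x32196 x32202 x32212 x32214 x32220 x32240
    x32242 x32244 x32248 x32250 x32256 x32266 x32268 x32274 x32292 x32324 x32326 x32330 x32332
    x32334 x32338 x32340 x32348 x32350 x32352 x32356 x32358 x32364 x32374 x32376 x32382 x32402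
    x32404 x32406 x32410 x32412 x32418 x32428 x32430 x32436 x32454 x32482 x32484 x32490 x32508
    x32564 x32566 x32568 x32572 x32574 x32580 x32590 x32592 x32598 x32616 x32644 x32646 x32652
    x32670 x32724 x32858 x32876 x32882 x32884 x32912 x32930 x32936 x32938 x32948 x32954 x32956
    x32960 x32962 x32964 x32984 x32990 x32992 x33002 x33008 x33010 x33014 x33016 x33018 x33026
    x33028 x33032 x33034 x33036 x33040 x33042 x33074 x33092 x33098 x33100 x33110 x33116 x33118
    x33122 x33124 x33126 x33146 x33152 x33154 x33164 x33170 x33172 x33176 x33178 x33180 x33188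
    x33190 x33194 x33196 x33198 x33202 x33204 x33218 x33224 x33226 x33230 x33232 x33234 x33242
    x33244 x33248 x33250 x33252 x33256 x33258 x33266 x33268 x33270 x33274 x33276 x33282 x33308
    x33314 x33316 x33326 x33332 x33334 x33338 x33340 x33342 x33350 x33352 x33356 x33358 x33360
    x33364 x33366 x33380 x33386 x33388 x33392 x33394 x33396 x33404 x33406 x33410 x33412 x33414
    x33418 x33420 x33428 x33430 x33432 x33436 x33438 x33444 x33458 x33460 x33464 x33466 x33468
    x33472 x33474 x33482 x33484 x33486 x33490 x33492 x33498 x33508 x33510 x33516 x33560 x33578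
    x33584 x33586 x33596 x33602 x33604 x33608 x33610 x33612 x33632 x33638 x33640 x33650 x33656
    x33658 x33662 x33664 x33666 x33674 x33676 x33680 x33682 x33684 x33688 x33690 x33704 x33710
    x33712 x33716 x33718 x33720 x33728 x33730 x33734 x33736 x33738 x33742 x33744 x33752 x33754
    x33756 x33760 x33762 x33768 x33794 x33800 x33802 x33812 x33818 x33820 x33824 x33826 x33828
    x33836 x33838 x33842 x33844 x33846 x33850 x33852 x33866 x33872 x33874 x33878 x33880 x33882
    x33890 x33892 x33896 x33898 x33900 x33904 x33906 x33914 x33916 x33918 x33922 x33924 x33930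
    x33944 x33946 x33950 x33952 x33954 x33958 x33960 x33968 x33970 x33972 x33976 x33978 x33984
    x33994 x33996 x34002 x34028 x34034 x34036 x34040 x34042 x34044 x34052 x34054 x34058 x34060
    x34062 x34066 x34068 x34076 x34078 x34080 x34084 x34086 x34092 x34106 x34108 x34112 x34114
    x34116 x34120 x34122 x34130 x34132 x34134 x34138 x34140 x34146 x34156 x34158 x34164 x34184
    x34186 x34188 x34192 x34194 x34200 x34210 x34212 x34218 x34236 x34280 x34286 x34288 x34298
    x34304 x34306 x34310 x34312 x34314 x34322 x34324 x34328 x34330 x34332 x34336 x34338 x34352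
    x34358 x34360 x34364 x34366 x34368 x34376 x34378 x34382 x34384 x34386 x34390 x34392 x34400
    x34402 x34404 x34408 x34410 x34416 x34430 x34432 x34436 x34438 x34440 x34444 x34446 x34454
    x34456 x34458 x34462 x34464 x34470 x34480 x34482 x34488 x34514 x34520 x34522 x34526 x34528
    x34530 x34538 x34540 x34544 x34546 x34548 x34552 x34554 x34562 x34564 x34566 x34570 x34572
    x34578 x34592 x34594 x34598 x34600 x34602 x34606 x34608 x34616 x34618 x34620 x34624 x34626
    x34632 x34642 x34644 x34650 x34670 x34672 x34674 x34678 x34680 x34686 x34696 x34698 x34704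
    x34722 x34754 x34756 x34760 x34762 x34764 x34768 x34770 x34778 x34780 x34782 x34786 x34788
    x34794 x34804 x34806 x34812 x34832 x34834 x34836 x34840 x34842 x34848 x34858 x34860 x34866
    x34884 x34912 x34914 x34920 x34938 x35018 x35036 x35042 x35044 x35054 x35060 x35062 x35066
    x35068 x35070 x35090 x35096 x35098 x35108 x35114 x35116 x35120 x35122 x35124 x35132 x35134
    x35138 x35140 x35142 x35146 x35148 x35162 x35168 x35170 x35174 x35176 x35178 x35186 x35188
    x35192 x35194 x35196 x35200 x35202 x35210 x35212 x35214 x35218 x35220 x35226 x35252 x35258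
    x35260 x35270 x35276 x35278 x35282 x35284 x35286 x35294 x35296 x35300 x35302 x35304 x35308
    x35310 x35324 x35330 x35332 x35336 x35338 x35340 x35348 x35350 x35354 x35356 x35358 x35362
    x35364 x35372 x35374 x35376 x35380 x35382 x35388 x35402 x35404 x35408 x35410 x35412 x35416
    x35418 x35426 x35428 x35430 x35434 x35436 x35442 x35452 x35454 x35460 x35486 x35492 x35494
    x35498 x35500 x35502 x35510 x35512 x35516 x35518 x35520 x35524 x35526 x35534 x35536 x35538
    x35542 x35544 x35550 x35564 x35566 x35570 x35572 x35574 x35578 x35580 x35588 x35590 x35592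
    x35596 x35598 x35604 x35614 x35616 x35622 x35642 x35644 x35646 x35650 x35652 x35658 x35668
    x35670 x35676 x35694 x35738 x35744 x35746 x35756 x35762 x35764 x35768 x35770 x35772 x35780
    x35782 x35786 x35788 x35790 x35794 x35796 x35810 x35816 x35818 x35822 x35824 x35826 x35834
    x35836 x35840 x35842 x35844 x35848 x35850 x35858 x35860 x35862 x35866 x35868 x35874 x35888
    x35890 x35894 x35896 x35898 x35902 x35904 x35912 x35914 x35916 x35920 x35922 x35928 x35938
    x35940 x35946 x35972 x35978 x35980 x35984 x35986 x35988 x35996 x35998 x36002 x36004 x36006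
    x36010 x36012 x36020 x36022 x36024 x36028 x36030 x36036 x36050 x36052 x36056 x36058 x36060
    x36064 x36066 x36074 x36076 x36078 x36082 x36084 x36090 x36100 x36102 x36108 x36128 x36130
    x36132 x36136 x36138 x36144 x36154 x36156 x36162 x36180 x36212 x36214 x36218 x36220 x36222
    x36226 x36228 x36236 x36238 x36240 x36244 x36246 x36252 x36262 x36264 x36270 x36290 x36292
    x36294 x36298 x36300 x36306 x36316 x36318 x36324 x36342 x36370 x36372 x36378 x36396 x36458
    x36464 x36466 x36470 x36472 x36474 x36482 x36484 x36488 x36490 x36492 x36496 x36498 x36506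
    x36508 x36510 x36514 x36516 x36522 x36536 x36538 x36542 x36544 x36546 x36550 x36552 x36560
    x36562 x36564 x36568 x36570 x36576 x36586 x36588 x36594 x36614 x36616 x36618 x36622 x36624
    x36630 x36640 x36642 x36648 x36666 x36698 x36700 x36704 x36706 x36708 x36712 x36714 x36722
    x36724 x36726 x36730 x36732 x36738 x36748 x36750 x36756 x36776 x36778 x36780 x36784 x36786
    x36792 x36802 x36804 x36810 x36828 x36856 x36858 x36864 x36882 x36938 x36940 x36942 x36946
    x36948 x36954 x36964 x36966 x36972 x36990 x37018 x37020 x37026 x37044 x37098 x37196 x37202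
    x37204 x37214 x37220 x37222 x37226 x37228 x37230 x37238 x37240 x37244 x37246 x37248 x37252
    x37254 x37268 x37274 x37276 x37280 x37282 x37284 x37292 x37294 x37298 x37300 x37302 x37306
    x37308 x37316 x37318 x37320 x37324 x37326 x37332 x37346 x37348 x37352 x37354 x37356 x37360
    x37362 x37370 x37372 x37374 x37378 x37380 x37386 x37396 x37398 x37404 x37430 x37436 x37438
    x37442 x37444 x37446 x37454 x37456 x37460 x37462 x37464 x37468 x37470 x37478 x37480 x37482
    x37486 x37488 x37494 x37508 x37510 x37514 x37516 x37518 x37522 x37524 x37532 x37534 x37536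
    x37540 x37542 x37548 x37558 x37560 x37566 x37586 x37588 x37590 x37594 x37596 x37602 x37612
    x37614 x37620 x37638 x37670 x37672 x37676 x37678 x37680 x37684 x37686 x37694 x37696 x37698
    x37702 x37704 x37710 x37720 x37722 x37728 x37748 x37750 x37752 x37756 x37758 x37764 x37774
    x37776 x37782 x37800 x37828 x37830 x37836 x37854 x37916 x37922 x37924 x37928 x37930 x37932
    x37940 x37942 x37946 x37948 x37950 x37954 x37956 x37964 x37966 x37968 x37972 x37974 x37980
    x37994 x37996 x38000 x38002 x38004 x38008 x38010 x38018 x38020 x38022 x38026 x38028 x38034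
    x38044 x38046 x38052 x38072 x38074 x38076 x38080 x38082 x38088 x38098 x38100 x38106 x38124
    x38156 x38158 x38162 x38164 x38166 x38170 x38172 x38180 x38182 x38184 x38188 x38190 x38196
    x38206 x38208 x38214 x38234 x38236 x38238 x38242 x38244 x38250 x38260 x38262 x38268 x38286
    x38314 x38316 x38322 x38340 x38396 x38398 x38400 x38404 x38406 x38412 x38422 x38424 x38430
    x38448 x38476 x38478 x38484 x38502 x38556 x38642 x38644 x38648 x38650 x38652 x38656 x38658
    x38666 x38668 x38670 x38674 x38676 x38682 x38692 x38694 x38700 x38720 x38722 x38724 x38728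
    x38730 x38736 x38746 x38748 x38754 x38772 x38800 x38802 x38808 x38826 x38882 x38884 x38886
    x38890 x38892 x38898 x38908 x38910 x38916 x38934 x38962 x38964 x38970 x38988 x39042 x39124
    x39126 x39132 x39150 x39204 x39446 x39500 x39518 x39524 x39526 x39554 x39572 x39578 x39580
    x39590 x39596 x39598 x39602 x39604 x39606 x39662 x39680 x39686 x39688 x39716 x39734 x39740
    x39742 x39752 x39758 x39760 x39764 x39766 x39768 x39788 x39794 x39796 x39806 x39812 x39814
    x39818 x39820 x39822 x39830 x39832 x39836 x39838 x39840 x39844 x39846 x39878 x39896 x39902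
    x39904 x39914 x39920 x39922 x39926 x39928 x39930 x39950 x39956 x39958 x39968 x39974 x39976
    x39980 x39982 x39984 x39992 x39994 x39998 x40000 x40002 x40006 x40008 x40022 x40028 x40030
    x40034 x40036 x40038 x40046 x40048 x40052 x40054 x40056 x40060 x40062 x40070 x40072 x40074
    x40078 x40080 x40086 x40148 x40166 x40172 x40174 x40202 x40220 x40226 x40228 x40238 x40244
    x40246 x40250 x40252 x40254 x40274 x40280 x40282 x40292 x40298 x40300 x40304 x40306 x40308
    x40316 x40318 x40322 x40324 x40326 x40330 x40332 x40364 x40382 x40388 x40390 x40400 x40406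
    x40408 x40412 x40414 x40416 x40436 x40442 x40444 x40454 x40460 x40462 x40466 x40468 x40470
    x40478 x40480 x40484 x40486 x40488 x40492 x40494 x40508 x40514 x40516 x40520 x40522 x40524
    x40532 x40534 x40538 x40540 x40542 x40546 x40548 x40556 x40558 x40560 x40564 x40566 x40572
    x40598 x40604 x40606 x40616 x40622 x40624 x40628 x40630 x40632 x40640 x40642 x40646 x40648
    x40650 x40654 x40656 x40670 x40676 x40678 x40682 x40684 x40686 x40694 x40696 x40700 x40702
    x40704 x40708 x40710 x40718 x40720 x40722 x40726 x40728 x40734 x40748 x40750 x40754 x40756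
    x40758 x40762 x40764 x40772 x40774 x40776 x40780 x40782 x40788 x40798 x40800 x40806 x40850
    x40868 x40874 x40876 x40886 x40892 x40894 x40898 x40900 x40902 x40922 x40928 x40930 x40940
    x40946 x40948 x40952 x40954 x40956 x40964 x40966 x40970 x40972 x40974 x40978 x40980 x40994
    x41000 x41002 x41006 x41008 x41010 x41018 x41020 x41024 x41026 x41028 x41032 x41034 x41042
    x41044 x41046 x41050 x41052 x41058 x41084 x41090 x41092 x41102 x41108 x41110 x41114 x41116
    x41118 x41126 x41128 x41132 x41134 x41136 x41140 x41142 x41156 x41162 x41164 x41168 x41170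
    x41172 x41180 x41182 x41186 x41188 x41190 x41194 x41196 x41204 x41206 x41208 x41212 x41214
    x41220 x41234 x41236 x41240 x41242 x41244 x41248 x41250 x41258 x41260 x41262 x41266 x41268
    x41274 x41284 x41286 x41292 x41318 x41324 x41326 x41330 x41332 x41334 x41342 x41344 x41348
    x41350 x41352 x41356 x41358 x41366 x41368 x41370 x41374 x41376 x41382 x41396 x41398 x41402
    x41404 x41406 x41410 x41412 x41420 x41422 x41424 x41428 x41430 x41436 x41446 x41448 x41454
    x41474 x41476 x41478 x41482 x41484 x41490 x41500 x41502 x41508 x41526 x41606 x41624 x41630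
    x41632 x41660 x41678 x41684 x41686 x41696 x41702 x41704 x41708 x41710 x41712 x41732 x41738
    x41740 x41750 x41756 x41758 x41762 x41764 x41766 x41774 x41776 x41780 x41782 x41784 x41788
    x41790 x41822 x41840 x41846 x41848 x41858 x41864 x41866 x41870 x41872 x41874 x41894 x41900
    x41902 x41912 x41918 x41920 x41924 x41926 x41928 x41936 x41938 x41942 x41944 x41946 x41950
    x41952 x41966 x41972 x41974 x41978 x41980 x41982 x41990 x41992 x41996 x41998 x42000 x42004
    x42006 x42014 x42016 x42018 x42022 x42024 x42030 x42056 x42062 x42064 x42074 x42080 x42082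
    x42086 x42088 x42090 x42098 x42100 x42104 x42106 x42108 x42112 x42114 x42128 x42134 x42136
    x42140 x42142 x42144 x42152 x42154 x42158 x42160 x42162 x42166 x42168 x42176 x42178 x42180
    x42184 x42186 x42192 x42206 x42208 x42212 x42214 x42216 x42220 x42222 x42230 x42232 x42234
    x42238 x42240 x42246 x42256 x42258 x42264 x42308 x42326 x42332 x42334 x42344 x42350 x42352
    x42356 x42358 x42360 x42380 x42386 x42388 x42398 x42404 x42406 x42410 x42412 x42414 x42422
    x42424 x42428 x42430 x42432 x42436 x42438 x42452 x42458 x42460 x42464 x42466 x42468 x42476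
    x42478 x42482 x42484 x42486 x42490 x42492 x42500 x42502 x42504 x42508 x42510 x42516 x42542
    x42548 x42550 x42560 x42566 x42568 x42572 x42574 x42576 x42584 x42586 x42590 x42592 x42594
    x42598 x42600 x42614 x42620 x42622 x42626 x42628 x42630 x42638 x42640 x42644 x42646 x42648
    x42652 x42654 x42662 x42664 x42666 x42670 x42672 x42678 x42692 x42694 x42698 x42700 x42702
    x42706 x42708 x42716 x42718 x42720 x42724 x42726 x42732 x42742 x42744 x42750 x42776 x42782
    x42784 x42788 x42790 x42792 x42800 x42802 x42806 x42808 x42810 x42814 x42816 x42824 x42826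
    x42828 x42832 x42834 x42840 x42854 x42856 x42860 x42862 x42864 x42868 x42870 x42878 x42880
    x42882 x42886 x42888 x42894 x42904 x42906 x42912 x42932 x42934 x42936 x42940 x42942 x42948
    x42958 x42960 x42966 x42984 x43028 x43034 x43036 x43046 x43052 x43054 x43058 x43060 x43062
    x43070 x43072 x43076 x43078 x43080 x43084 x43086 x43100 x43106 x43108 x43112 x43114 x43116
    x43124 x43126 x43130 x43132 x43134 x43138 x43140 x43148 x43150 x43152 x43156 x43158 x43164
    x43178 x43180 x43184 x43186 x43188 x43192 x43194 x43202 x43204 x43206 x43210 x43212 x43218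
    x43228 x43230 x43236 x43262 x43268 x43270 x43274 x43276 x43278 x43286 x43288 x43292 x43294
    x43296 x43300 x43302 x43310 x43312 x43314 x43318 x43320 x43326 x43340 x43342 x43346 x43348
    x43350 x43354 x43356 x43364 x43366 x43368 x43372 x43374 x43380 x43390 x43392 x43398 x43418
    x43420 x43422 x43426 x43428 x43434 x43444 x43446 x43452 x43470 x43502 x43504 x43508 x43510
    x43512 x43516 x43518 x43526 x43528 x43530 x43534 x43536 x43542 x43552 x43554 x43560 x43580
    x43582 x43584 x43588 x43590 x43596 x43606 x43608 x43614 x43632 x43660 x43662 x43668 x43686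
    x43766 x43784 x43790 x43792 x43802 x43808 x43810 x43814 x43816 x43818 x43838 x43844 x43846
    x43856 x43862 x43864 x43868 x43870 x43872 x43880 x43882 x43886 x43888 x43890 x43894 x43896
    x43910 x43916 x43918 x43922 x43924 x43926 x43934 x43936 x43940 x43942 x43944 x43948 x43950
    x43958 x43960 x43962 x43966 x43968 x43974 x44000 x44006 x44008 x44018 x44024 x44026 x44030
    x44032 x44034 x44042 x44044 x44048 x44050 x44052 x44056 x44058 x44072 x44078 x44080 x44084
    x44086 x44088 x44096 x44098 x44102 x44104 x44106 x44110 x44112 x44120 x44122 x44124 x44128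
    x44130 x44136 x44150 x44152 x44156 x44158 x44160 x44164 x44166 x44174 x44176 x44178 x44182
    x44184 x44190 x44200 x44202 x44208 x44234 x44240 x44242 x44246 x44248 x44250 x44258 x44260
    x44264 x44266 x44268 x44272 x44274 x44282 x44284 x44286 x44290 x44292 x44298 x44312 x44314
    x44318 x44320 x44322 x44326 x44328 x44336 x44338 x44340 x44344 x44346 x44352 x44362 x44364
    x44370 x44390 x44392 x44394 x44398 x44400 x44406 x44416 x44418 x44424 x44442 x44486 x44492
    x44494 x44504 x44510 x44512 x44516 x44518 x44520 x44528 x44530 x44534 x44536 x44538 x44542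
    x44544 x44558 x44564 x44566 x44570 x44572 x44574 x44582 x44584 x44588 x44590 x44592 x44596
    x44598 x44606 x44608 x44610 x44614 x44616 x44622 x44636 x44638 x44642 x44644 x44646 x44650
    x44652 x44660 x44662 x44664 x44668 x44670 x44676 x44686 x44688 x44694 x44720 x44726 x44728
    x44732 x44734 x44736 x44744 x44746 x44750 x44752 x44754 x44758 x44760 x44768 x44770 x44772
    x44776 x44778 x44784 x44798 x44800 x44804 x44806 x44808 x44812 x44814 x44822 x44824 x44826
    x44830 x44832 x44838 x44848 x44850 x44856 x44876 x44878 x44880 x44884 x44886 x44892 x44902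
    x44904 x44910 x44928 x44960 x44962 x44966 x44968 x44970 x44974 x44976 x44984 x44986 x44988
    x44992 x44994 x45000 x45010 x45012 x45018 x45038 x45040 x45042 x45046 x45048 x45054 x45064
    x45066 x45072 x45090 x45118 x45120 x45126 x45144 x45206 x45212 x45214 x45218 x45220 x45222
    x45230 x45232 x45236 x45238 x45240 x45244 x45246 x45254 x45256 x45258 x45262 x45264 x45270
    x45284 x45286 x45290 x45292 x45294 x45298 x45300 x45308 x45310 x45312 x45316 x45318 x45324
    x45334 x45336 x45342 x45362 x45364 x45366 x45370 x45372 x45378 x45388 x45390 x45396 x45414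
    x45446 x45448 x45452 x45454 x45456 x45460 x45462 x45470 x45472 x45474 x45478 x45480 x45486
    x45496 x45498 x45504 x45524 x45526 x45528 x45532 x45534 x45540 x45550 x45552 x45558 x45576
    x45604 x45606 x45612 x45630 x45686 x45688 x45690 x45694 x45696 x45702 x45712 x45714 x45720
    x45738 x45766 x45768 x45774 x45792 x45846 x45980 x45998 x46004 x46006 x46034 x46052 x46058
    x46060 x46070 x46076 x46078 x46082 x46084 x46086 x46106 x46112 x46114 x46124 x46130 x46132
    x46136 x46138 x46140 x46148 x46150 x46154 x46156 x46158 x46162 x46164 x46196 x46214 x46220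
    x46222 x46232 x46238 x46240 x46244 x46246 x46248 x46268 x46274 x46276 x46286 x46292 x46294
    x46298 x46300 x46302 x46310 x46312 x46316 x46318 x46320 x46324 x46326 x46340 x46346 x46348
    x46352 x46354 x46356 x46364 x46366 x46370 x46372 x46374 x46378 x46380 x46388 x46390 x46392
    x46396 x46398 x46404 x46430 x46436 x46438 x46448 x46454 x46456 x46460 x46462 x46464 x46472
    x46474 x46478 x46480 x46482 x46486 x46488 x46502 x46508 x46510 x46514 x46516 x46518 x46526
    x46528 x46532 x46534 x46536 x46540 x46542 x46550 x46552 x46554 x46558 x46560 x46566 x46580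
    x46582 x46586 x46588 x46590 x46594 x46596 x46604 x46606 x46608 x46612 x46614 x46620 x46630
    x46632 x46638 x46682 x46700 x46706 x46708 x46718 x46724 x46726 x46730 x46732 x46734 x46754
    x46760 x46762 x46772 x46778 x46780 x46784 x46786 x46788 x46796 x46798 x46802 x46804 x46806
    x46810 x46812 x46826 x46832 x46834 x46838 x46840 x46842 x46850 x46852 x46856 x46858 x46860
    x46864 x46866 x46874 x46876 x46878 x46882 x46884 x46890 x46916 x46922 x46924 x46934 x46940
    x46942 x46946 x46948 x46950 x46958 x46960 x46964 x46966 x46968 x46972 x46974 x46988 x46994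
    x46996 x47000 x47002 x47004 x47012 x47014 x47018 x47020 x47022 x47026 x47028 x47036 x47038
    x47040 x47044 x47046 x47052 x47066 x47068 x47072 x47074 x47076 x47080 x47082 x47090 x47092
    x47094 x47098 x47100 x47106 x47116 x47118 x47124 x47150 x47156 x47158 x47162 x47164 x47166
    x47174 x47176 x47180 x47182 x47184 x47188 x47190 x47198 x47200 x47202 x47206 x47208 x47214
    x47228 x47230 x47234 x47236 x47238 x47242 x47244 x47252 x47254 x47256 x47260 x47262 x47268
    x47278 x47280 x47286 x47306 x47308 x47310 x47314 x47316 x47322 x47332 x47334 x47340 x47358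
    x47402 x47408 x47410 x47420 x47426 x47428 x47432 x47434 x47436 x47444 x47446 x47450 x47452
    x47454 x47458 x47460 x47474 x47480 x47482 x47486 x47488 x47490 x47498 x47500 x47504 x47506
    x47508 x47512 x47514 x47522 x47524 x47526 x47530 x47532 x47538 x47552 x47554 x47558 x47560
    x47562 x47566 x47568 x47576 x47578 x47580 x47584 x47586 x47592 x47602 x47604 x47610 x47636
    x47642 x47644 x47648 x47650 x47652 x47660 x47662 x47666 x47668 x47670 x47674 x47676 x47684
    x47686 x47688 x47692 x47694 x47700 x47714 x47716 x47720 x47722 x47724 x47728 x47730 x47738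
    x47740 x47742 x47746 x47748 x47754 x47764 x47766 x47772 x47792 x47794 x47796 x47800 x47802
    x47808 x47818 x47820 x47826 x47844 x47876 x47878 x47882 x47884 x47886 x47890 x47892 x47900
    x47902 x47904 x47908 x47910 x47916 x47926 x47928 x47934 x47954 x47956 x47958 x47962 x47964
    x47970 x47980 x47982 x47988 x48006 x48034 x48036 x48042 x48060 x48140 x48158 x48164 x48166
    x48176 x48182 x48184 x48188 x48190 x48192 x48212 x48218 x48220 x48230 x48236 x48238 x48242
    x48244 x48246 x48254 x48256 x48260 x48262 x48264 x48268 x48270 x48284 x48290 x48292 x48296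
    x48298 x48300 x48308 x48310 x48314 x48316 x48318 x48322 x48324 x48332 x48334 x48336 x48340
    x48342 x48348 x48374 x48380 x48382 x48392 x48398 x48400 x48404 x48406 x48408 x48416 x48418
    x48422 x48424 x48426 x48430 x48432 x48446 x48452 x48454 x48458 x48460 x48462 x48470 x48472
    x48476 x48478 x48480 x48484 x48486 x48494 x48496 x48498 x48502 x48504 x48510 x48524 x48526
    x48530 x48532 x48534 x48538 x48540 x48548 x48550 x48552 x48556 x48558 x48564 x48574 x48576
    x48582 x48608 x48614 x48616 x48620 x48622 x48624 x48632 x48634 x48638 x48640 x48642 x48646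
    x48648 x48656 x48658 x48660 x48664 x48666 x48672 x48686 x48688 x48692 x48694 x48696 x48700
    x48702 x48710 x48712 x48714 x48718 x48720 x48726 x48736 x48738 x48744 x48764 x48766 x48768
    x48772 x48774 x48780 x48790 x48792 x48798 x48816 x48860 x48866 x48868 x48878 x48884 x48886
    x48890 x48892 x48894 x48902 x48904 x48908 x48910 x48912 x48916 x48918 x48932 x48938 x48940
    x48944 x48946 x48948 x48956 x48958 x48962 x48964 x48966 x48970 x48972 x48980 x48982 x48984
    x48988 x48990 x48996 x49010 x49012 x49016 x49018 x49020 x49024 x49026 x49034 x49036 x49038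
    x49042 x49044 x49050 x49060 x49062 x49068 x49094 x49100 x49102 x49106 x49108 x49110 x49118
    x49120 x49124 x49126 x49128 x49132 x49134 x49142 x49144 x49146 x49150 x49152 x49158 x49172
    x49174 x49178 x49180 x49182 x49186 x49188 x49196 x49198 x49200 x49204 x49206 x49212 x49222
    x49224 x49230 x49250 x49252 x49254 x49258 x49260 x49266 x49276 x49278 x49284 x49302 x49334
    x49336 x49340 x49342 x49344 x49348 x49350 x49358 x49360 x49362 x49366 x49368 x49374 x49384
    x49386 x49392 x49412 x49414 x49416 x49420 x49422 x49428 x49438 x49440 x49446 x49464 x49492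
    x49494 x49500 x49518 x49580 x49586 x49588 x49592 x49594 x49596 x49604 x49606 x49610 x49612
    x49614 x49618 x49620 x49628 x49630 x49632 x49636 x49638 x49644 x49658 x49660 x49664 x49666
    x49668 x49672 x49674 x49682 x49684 x49686 x49690 x49692 x49698 x49708 x49710 x49716 x49736
    x49738 x49740 x49744 x49746 x49752 x49762 x49764 x49770 x49788 x49820 x49822 x49826 x49828
    x49830 x49834 x49836 x49844 x49846 x49848 x49852 x49854 x49860 x49870 x49872 x49878 x49898
    x49900 x49902 x49906 x49908 x49914 x49924 x49926 x49932 x49950 x49978 x49980 x49986 x50004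
    x50060 x50062 x50064 x50068 x50070 x50076 x50086 x50088 x50094 x50112 x50140 x50142 x50148
    x50166 x50220 x50318 x50324 x50326 x50336 x50342 x50344 x50348 x50350 x50352 x50360 x50362
    x50366 x50368 x50370 x50374 x50376 x50390 x50396 x50398 x50402 x50404 x50406 x50414 x50416
    x50420 x50422 x50424 x50428 x50430 x50438 x50440 x50442 x50446 x50448 x50454 x50468 x50470
    x50474 x50476 x50478 x50482 x50484 x50492 x50494 x50496 x50500 x50502 x50508 x50518 x50520
    x50526 x50552 x50558 x50560 x50564 x50566 x50568 x50576 x50578 x50582 x50584 x50586 x50590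
    x50592 x50600 x50602 x50604 x50608 x50610 x50616 x50630 x50632 x50636 x50638 x50640 x50644
    x50646 x50654 x50656 x50658 x50662 x50664 x50670 x50680 x50682 x50688 x50708 x50710 x50712
    x50716 x50718 x50724 x50734 x50736 x50742 x50760 x50792 x50794 x50798 x50800 x50802 x50806
    x50808 x50816 x50818 x50820 x50824 x50826 x50832 x50842 x50844 x50850 x50870 x50872 x50874
    x50878 x50880 x50886 x50896 x50898 x50904 x50922 x50950 x50952 x50958 x50976 x51038 x51044
    x51046 x51050 x51052 x51054 x51062 x51064 x51068 x51070 x51072 x51076 x51078 x51086 x51088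
    x51090 x51094 x51096 x51102 x51116 x51118 x51122 x51124 x51126 x51130 x51132 x51140 x51142
    x51144 x51148 x51150 x51156 x51166 x51168 x51174 x51194 x51196 x51198 x51202 x51204 x51210
    x51220 x51222 x51228 x51246 x51278 x51280 x51284 x51286 x51288 x51292 x51294 x51302 x51304
    x51306 x51310 x51312 x51318 x51328 x51330 x51336 x51356 x51358 x51360 x51364 x51366 x51372
    x51382 x51384 x51390 x51408 x51436 x51438 x51444 x51462 x51518 x51520 x51522 x51526 x51528
    x51534 x51544 x51546 x51552 x51570 x51598 x51600 x51606 x51624 x51678 x51764 x51766 x51770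
    x51772 x51774 x51778 x51780 x51788 x51790 x51792 x51796 x51798 x51804 x51814 x51816 x51822
    x51842 x51844 x51846 x51850 x51852 x51858 x51868 x51870 x51876 x51894 x51922 x51924 x51930
    x51948 x52004 x52006 x52008 x52012 x52014 x52020 x52030 x52032 x52038 x52056 x52084 x52086
    x52092 x52110 x52164 x52246 x52248 x52254 x52272 x52326 x52514 x52532 x52538 x52540 x52550
    x52556 x52558 x52562 x52564 x52566 x52586 x52592 x52594 x52604 x52610 x52612 x52616 x52618
    x52620 x52628 x52630 x52634 x52636 x52638 x52642 x52644 x52658 x52664 x52666 x52670 x52672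
    x52674 x52682 x52684 x52688 x52690 x52692 x52696 x52698 x52706 x52708 x52710 x52714 x52716
    x52722 x52748 x52754 x52756 x52766 x52772 x52774 x52778 x52780 x52782 x52790 x52792 x52796
    x52798 x52800 x52804 x52806 x52820 x52826 x52828 x52832 x52834 x52836 x52844 x52846 x52850
    x52852 x52854 x52858 x52860 x52868 x52870 x52872 x52876 x52878 x52884 x52898 x52900 x52904
    x52906 x52908 x52912 x52914 x52922 x52924 x52926 x52930 x52932 x52938 x52948 x52950 x52956
    x52982 x52988 x52990 x52994 x52996 x52998 x53006 x53008 x53012 x53014 x53016 x53020 x53022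
    x53030 x53032 x53034 x53038 x53040 x53046 x53060 x53062 x53066 x53068 x53070 x53074 x53076
    x53084 x53086 x53088 x53092 x53094 x53100 x53110 x53112 x53118 x53138 x53140 x53142 x53146
    x53148 x53154 x53164 x53166 x53172 x53190 x53234 x53240 x53242 x53252 x53258 x53260 x53264
    x53266 x53268 x53276 x53278 x53282 x53284 x53286 x53290 x53292 x53306 x53312 x53314 x53318
    x53320 x53322 x53330 x53332 x53336 x53338 x53340 x53344 x53346 x53354 x53356 x53358 x53362
    x53364 x53370 x53384 x53386 x53390 x53392 x53394 x53398 x53400 x53408 x53410 x53412 x53416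
    x53418 x53424 x53434 x53436 x53442 x53468 x53474 x53476 x53480 x53482 x53484 x53492 x53494
    x53498 x53500 x53502 x53506 x53508 x53516 x53518 x53520 x53524 x53526 x53532 x53546 x53548
    x53552 x53554 x53556 x53560 x53562 x53570 x53572 x53574 x53578 x53580 x53586 x53596 x53598
    x53604 x53624 x53626 x53628 x53632 x53634 x53640 x53650 x53652 x53658 x53676 x53708 x53710
    x53714 x53716 x53718 x53722 x53724 x53732 x53734 x53736 x53740 x53742 x53748 x53758 x53760
    x53766 x53786 x53788 x53790 x53794 x53796 x53802 x53812 x53814 x53820 x53838 x53866 x53868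
    x53874 x53892 x53954 x53960 x53962 x53966 x53968 x53970 x53978 x53980 x53984 x53986 x53988
    x53992 x53994 x54002 x54004 x54006 x54010 x54012 x54018 x54032 x54034 x54038 x54040 x54042
    x54046 x54048 x54056 x54058 x54060 x54064 x54066 x54072 x54082 x54084 x54090 x54110 x54112
    x54114 x54118 x54120 x54126 x54136 x54138 x54144 x54162 x54194 x54196 x54200 x54202 x54204
    x54208 x54210 x54218 x54220 x54222 x54226 x54228 x54234 x54244 x54246 x54252 x54272 x54274
    x54276 x54280 x54282 x54288 x54298 x54300 x54306 x54324 x54352 x54354 x54360 x54378 x54434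
    x54436 x54438 x54442 x54444 x54450 x54460 x54462 x54468 x54486 x54514 x54516 x54522 x54540
    x54594 x54692 x54698 x54700 x54710 x54716 x54718 x54722 x54724 x54726 x54734 x54736 x54740
    x54742 x54744 x54748 x54750 x54764 x54770 x54772 x54776 x54778 x54780 x54788 x54790 x54794
    x54796 x54798 x54802 x54804 x54812 x54814 x54816 x54820 x54822 x54828 x54842 x54844 x54848
    x54850 x54852 x54856 x54858 x54866 x54868 x54870 x54874 x54876 x54882 x54892 x54894 x54900
    x54926 x54932 x54934 x54938 x54940 x54942 x54950 x54952 x54956 x54958 x54960 x54964 x54966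
    x54974 x54976 x54978 x54982 x54984 x54990 x55004 x55006 x55010 x55012 x55014 x55018 x55020
    x55028 x55030 x55032 x55036 x55038 x55044 x55054 x55056 x55062 x55082 x55084 x55086 x55090
    x55092 x55098 x55108 x55110 x55116 x55134 x55166 x55168 x55172 x55174 x55176 x55180 x55182
    x55190 x55192 x55194 x55198 x55200 x55206 x55216 x55218 x55224 x55244 x55246 x55248 x55252
    x55254 x55260 x55270 x55272 x55278 x55296 x55324 x55326 x55332 x55350 x55412 x55418 x55420
    x55424 x55426 x55428 x55436 x55438 x55442 x55444 x55446 x55450 x55452 x55460 x55462 x55464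
    x55468 x55470 x55476 x55490 x55492 x55496 x55498 x55500 x55504 x55506 x55514 x55516 x55518
    x55522 x55524 x55530 x55540 x55542 x55548 x55568 x55570 x55572 x55576 x55578 x55584 x55594
    x55596 x55602 x55620 x55652 x55654 x55658 x55660 x55662 x55666 x55668 x55676 x55678 x55680
    x55684 x55686 x55692 x55702 x55704 x55710 x55730 x55732 x55734 x55738 x55740 x55746 x55756
    x55758 x55764 x55782 x55810 x55812 x55818 x55836 x55892 x55894 x55896 x55900 x55902 x55908
    x55918 x55920 x55926 x55944 x55972 x55974 x55980 x55998 x56052 x56138 x56140 x56144 x56146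
    x56148 x56152 x56154 x56162 x56164 x56166 x56170 x56172 x56178 x56188 x56190 x56196 x56216
    x56218 x56220 x56224 x56226 x56232 x56242 x56244 x56250 x56268 x56296 x56298 x56304 x56322
    x56378 x56380 x56382 x56386 x56388 x56394 x56404 x56406 x56412 x56430 x56458 x56460 x56466
    x56484 x56538 x56620 x56622 x56628 x56646 x56700 x56870 x56876 x56878 x56882 x56884 x56886
    x56894 x56896 x56900 x56902 x56904 x56908 x56910 x56918 x56920 x56922 x56926 x56928 x56934
    x56948 x56950 x56954 x56956 x56958 x56962 x56964 x56972 x56974 x56976 x56980 x56982 x56988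
    x56998 x57000 x57006 x57026 x57028 x57030 x57034 x57036 x57042 x57052 x57054 x57060 x57078
    x57110 x57112 x57116 x57118 x57120 x57124 x57126 x57134 x57136 x57138 x57142 x57144 x57150
    x57160 x57162 x57168 x57188 x57190 x57192 x57196 x57198 x57204 x57214 x57216 x57222 x57240
    x57268 x57270 x57276 x57294 x57350 x57352 x57354 x57358 x57360 x57366 x57376 x57378 x57384
    x57402 x57430 x57432 x57438 x57456 x57510 x57596 x57598 x57602 x57604 x57606 x57610 x57612
    x57620 x57622 x57624 x57628 x57630 x57636 x57646 x57648 x57654 x57674 x57676 x57678 x57682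
    x57684 x57690 x57700 x57702 x57708 x57726 x57754 x57756 x57762 x57780 x57836 x57838 x57840
    x57844 x57846 x57852 x57862 x57864 x57870 x57888 x57916 x57918 x57924 x57942 x57996 x58078
    x58080 x58086 x58104 x58158 x58322 x58324 x58326 x58330 x58332 x58338 x58348 x58350 x58356
    x58374 x58402 x58404 x58410 x58428 x58482 x58564 x58566 x58572 x58590 x58644 x58806 : Nat) : Bool :=
  k
    (Nat.sub (Nat.sub (Nat.add (Nat.add (Nat.add C (Nat.mul x242 (nat_lit 6))) x404) (Nat.mul (e (nat_lit 242)) ap)) x19924) (Nat.mul (e (nat_lit 242)) an))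
    (Nat.sub (Nat.sub (Nat.add (Nat.add (Nat.add (Nat.add (Nat.add (Nat.add C (Nat.mul x404 (nat_lit 5))) x890) x242) x566) x458) (Nat.mul (e (nat_lit 404)) ap)) x20086) (Nat.mul (e (nat_lit 404)) an))
    (Nat.sub (Nat.sub (Nat.add (Nat.add (Nat.add (Nat.add (Nat.add (Nat.add C (Nat.mul x458 (nat_lit 4))) x944) x620) x404) x476) (Nat.mul (e (nat_lit 458)) ap)) x20140) (Nat.mul (e (nat_lit 458)) an))
    (Nat.sub (Nat.sub (Nat.add (Nat.add (Nat.add (Nat.add (Nat.add (Nat.add C (Nat.mul x476 (nat_lit 4))) x962) x638) x458) x482) (Nat.mul (e (nat_lit 476)) ap)) x20158) (Nat.mul (e (nat_lit 476)) an))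
    (Nat.sub (Nat.sub (Nat.add (Nat.add (Nat.add (Nat.add (Nat.add (Nat.add C (Nat.mul x482 (nat_lit 4))) x968) x644) x476) x484) (Nat.mul (e (nat_lit 482)) ap)) x20164) (Nat.mul (e (nat_lit 482)) an))
    (Nat.sub (Nat.sub (Nat.add (Nat.add (Nat.add (Nat.add (Nat.add C (Nat.mul x484 (nat_lit 6))) x970) x646) x482) (Nat.mul (e (nat_lit 484)) ap)) x20166) (Nat.mul (e (nat_lit 484)) an))
    (Nat.sub (Nat.sub (Nat.add (Nat.add (Nat.add (Nat.add (Nat.add C (Nat.mul x566 (nat_lit 2))) x1052) x404) x620) (Nat.mul (e (nat_lit 566)) ap)) x20248) (Nat.mul (e (nat_lit 566)) an))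
    (Nat.sub (Nat.sub (Nat.add (Nat.add (Nat.add (Nat.add (Nat.add (Nat.add (Nat.add C (Nat.mul x620 (nat_lit 3))) x1106) x458) x566) x674) x638) (Nat.mul (e (nat_lit 620)) ap)) x20302) (Nat.mul (e (nat_lit 620)) an))
    (Nat.sub (Nat.sub (Nat.add (Nat.add (Nat.add (Nat.add (Nat.add (Nat.add (Nat.add C (Nat.mul x638 (nat_lit 2))) x1124) x476) x692) x620) x644) (Nat.mul (e (nat_lit 638)) ap)) x20320) (Nat.mul (e (nat_lit 638)) an))
    (Nat.sub (Nat.sub (Nat.add (Nat.add (Nat.add (Nat.add (Nat.add (Nat.add (Nat.add C (Nat.mul x644 (nat_lit 2))) x1130) x482) x698) x638) x646) (Nat.mul (e (nat_lit 644)) ap)) x20326) (Nat.mul (e (nat_lit 644)) an))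
    (Nat.sub (Nat.add (Nat.add (Nat.add (Nat.add (Nat.add C (Nat.mul x646 (nat_lit 4))) x1132) x484) x700) x644) x20328)
    (Nat.sub (Nat.sub (Nat.add (Nat.add (Nat.add (Nat.add (Nat.add C (Nat.mul x674 (nat_lit 2))) x1160) x620) x692) (Nat.mul (e (nat_lit 674)) ap)) x20356) (Nat.mul (e (nat_lit 674)) an))
    (Nat.sub (Nat.sub (Nat.add (Nat.add (Nat.add (Nat.add (Nat.add (Nat.add (Nat.add C (Nat.mul x692 (nat_lit 3))) x1178) x638) x674) x710) x698) (Nat.mul (e (nat_lit 692)) ap)) x20374) (Nat.mul (e (nat_lit 692)) an))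
    (Nat.sub (Nat.add (Nat.add (Nat.add (Nat.add (Nat.add (Nat.add C (Nat.mul x698 (nat_lit 2))) x1184) x644) x716) x692) x700) x20380)
    (Nat.sub (Nat.add (Nat.add (Nat.add (Nat.add (Nat.add C (Nat.mul x700 (nat_lit 4))) x1186) x646) x718) x698) x20382)
    (Nat.sub (Nat.add (Nat.add (Nat.add (Nat.add C (Nat.mul x710 (nat_lit 2))) x1196) x692) x716) x20392)
    (Nat.sub (Nat.add (Nat.add (Nat.add (Nat.add (Nat.add (Nat.add C (Nat.mul x716 (nat_lit 3))) x1202) x698) x710) x722) x718) x20398)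
    (Nat.sub (Nat.add (Nat.add (Nat.add (Nat.add (Nat.add C (Nat.mul x718 (nat_lit 4))) x1204) x700) x724) x716) x20400)
    (Nat.sub (Nat.add (Nat.add (Nat.add (Nat.add C (Nat.mul x722 (nat_lit 2))) x1208) x716) x724) x20404)
    (Nat.sub (Nat.add (Nat.add (Nat.add (Nat.add (Nat.add C (Nat.mul x724 (nat_lit 5))) x1210) x718) x722) x726) x20406)
    (Nat.add (Nat.add (Nat.add C (Nat.mul x726 (nat_lit 6))) x1212) x724)
    (Nat.sub (Nat.add (Nat.add (Nat.add (Nat.add (Nat.add C (Nat.mul x890 (nat_lit 4))) x2348) x404) x1052) x944) x20572)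
    (Nat.sub (Nat.sub (Nat.add (Nat.add (Nat.add (Nat.add (Nat.add (Nat.add (Nat.add C (Nat.mul x944 (nat_lit 2))) x2402) x458) x1106) x890) x962) (Nat.mul (e (nat_lit 944)) ap)) x20626) (Nat.mul (e (nat_lit 944)) an))
    (Nat.sub (Nat.sub (Nat.add (Nat.add (Nat.add (Nat.add (Nat.add (Nat.add (Nat.add C (Nat.mul x962 (nat_lit 2))) x2420) x476) x1124) x944) x968) (Nat.mul (e (nat_lit 962)) ap)) x20644) (Nat.mul (e (nat_lit 962)) an))
    (Nat.sub (Nat.sub (Nat.add (Nat.add (Nat.add (Nat.add (Nat.add (Nat.add (Nat.add C (Nat.mul x968 (nat_lit 2))) x2426) x482) x1130) x962) x970) (Nat.mul (e (nat_lit 968)) ap)) x20650) (Nat.mul (e (nat_lit 968)) an))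
    (Nat.sub (Nat.add (Nat.add (Nat.add (Nat.add (Nat.add C (Nat.mul x970 (nat_lit 4))) x2428) x484) x1132) x968) x20652)
    (Nat.sub (Nat.add (Nat.add (Nat.add (Nat.add (Nat.add (Nat.add C (Nat.mul x1052 (nat_lit 3))) x2510) x566) x1538) x890) x1106) x20734)
    (Nat.sub (Nat.sub (Nat.add (Nat.add (Nat.add (Nat.add (Nat.add (Nat.add (Nat.add (Nat.add (Nat.add (Nat.add C (Nat.mul x1106 (nat_lit 3))) x2564) x620) x1592) x944) x1268) x1052) x1160) x1124) (Nat.mul (e (nat_lit 1106)) ap)) x20788) (Nat.mul (e (nat_lit 1106)) an))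
    (Nat.sub (Nat.sub (Nat.add (Nat.add (Nat.add (Nat.add (Nat.add (Nat.add (Nat.add (Nat.add (Nat.add (Nat.add C (Nat.mul x1124 (nat_lit 2))) x2582) x638) x1610) x962) x1286) x1178) x1106) x1130) (Nat.mul (e (nat_lit 1124)) ap)) x20806) (Nat.mul (e (nat_lit 1124)) an))
    (Nat.sub (Nat.sub (Nat.add (Nat.add (Nat.add (Nat.add (Nat.add (Nat.add (Nat.add (Nat.add (Nat.add (Nat.add C (Nat.mul x1130 (nat_lit 2))) x2588) x644) x1616) x968) x1292) x1184) x1124) x1132) (Nat.mul (e (nat_lit 1130)) ap)) x20812) (Nat.mul (e (nat_lit 1130)) an))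
    (Nat.sub (Nat.sub (Nat.add (Nat.add (Nat.add (Nat.add (Nat.add (Nat.add (Nat.add (Nat.add (Nat.add C (Nat.mul x1132 (nat_lit 4))) x2590) x646) x1618) x970) x1294) x1186) x1130) (Nat.mul (e (nat_lit 1132)) ap)) x20814) (Nat.mul (e (nat_lit 1132)) an))
    (Nat.sub (Nat.sub (Nat.add (Nat.add (Nat.add (Nat.add (Nat.add (Nat.add (Nat.add (Nat.add C x1160) x2618) x674) x1646) x1322) x1106) x1178) (Nat.mul (e (nat_lit 1160)) ap)) x20842) (Nat.mul (e (nat_lit 1160)) an))
    (Nat.sub (Nat.sub (Nat.add (Nat.add (Nat.add (Nat.add (Nat.add (Nat.add (Nat.add (Nat.add (Nat.add (Nat.add C (Nat.mul x1178 (nat_lit 2))) x2636) x692) x1664) x1340) x1124) x1160) x1196) x1184) (Nat.mul (e (nat_lit 1178)) ap)) x20860) (Nat.mul (e (nat_lit 1178)) an))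
    (Nat.sub (Nat.sub (Nat.add (Nat.add (Nat.add (Nat.add (Nat.add (Nat.add (Nat.add (Nat.add (Nat.add (Nat.add C x1184) x2642) x698) x1670) x1346) x1130) x1202) x1178) x1186) (Nat.mul (e (nat_lit 1184)) ap)) x20866) (Nat.mul (e (nat_lit 1184)) an))
    (Nat.sub (Nat.sub (Nat.add (Nat.add (Nat.add (Nat.add (Nat.add (Nat.add (Nat.add (Nat.add (Nat.add C (Nat.mul x1186 (nat_lit 3))) x2644) x700) x1672) x1348) x1132) x1204) x1184) (Nat.mul (e (nat_lit 1186)) ap)) x20868) (Nat.mul (e (nat_lit 1186)) an))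
    (Nat.sub (Nat.sub (Nat.add (Nat.add (Nat.add (Nat.add (Nat.add (Nat.add (Nat.add (Nat.add C x1196) x2654) x710) x1682) x1358) x1178) x1202) (Nat.mul (e (nat_lit 1196)) ap)) x20878) (Nat.mul (e (nat_lit 1196)) an))
    (Nat.sub (Nat.sub (Nat.add (Nat.add (Nat.add (Nat.add (Nat.add (Nat.add (Nat.add (Nat.add (Nat.add (Nat.add C (Nat.mul x1202 (nat_lit 2))) x2660) x716) x1688) x1364) x1184) x1196) x1208) x1204) (Nat.mul (e (nat_lit 1202)) ap)) x20884) (Nat.mul (e (nat_lit 1202)) an))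
    (Nat.sub (Nat.sub (Nat.add (Nat.add (Nat.add (Nat.add (Nat.add (Nat.add (Nat.add (Nat.add (Nat.add C (Nat.mul x1204 (nat_lit 3))) x2662) x718) x1690) x1366) x1186) x1210) x1202) (Nat.mul (e (nat_lit 1204)) ap)) x20886) (Nat.mul (e (nat_lit 1204)) an))
    (Nat.sub (Nat.sub (Nat.add (Nat.add (Nat.add (Nat.add (Nat.add (Nat.add (Nat.add (Nat.add C x1208) x2666) x722) x1694) x1370) x1202) x1210) (Nat.mul (e (nat_lit 1208)) ap)) x20890) (Nat.mul (e (nat_lit 1208)) an))
    (Nat.sub (Nat.sub (Nat.add (Nat.add (Nat.add (Nat.add (Nat.add (Nat.add (Nat.add (Nat.add (Nat.add C (Nat.mul x1210 (nat_lit 4))) x2668) x724) x1696) x1372) x1204) x1208) x1212) (Nat.mul (e (nat_lit 1210)) ap)) x20892) (Nat.mul (e (nat_lit 1210)) an))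
    (Nat.add (Nat.add (Nat.add (Nat.add (Nat.add (Nat.add C (Nat.mul x1212 (nat_lit 5))) x2670) x726) x1698) x1374) x1210)
    (Nat.sub (Nat.sub (Nat.add (Nat.add (Nat.add (Nat.add (Nat.add (Nat.add (Nat.add C (Nat.mul x1268 (nat_lit 2))) x2726) x1754) x1106) x1322) x1286) (Nat.mul (e (nat_lit 1268)) ap)) x20950) (Nat.mul (e (nat_lit 1268)) an))
    (Nat.sub (Nat.sub (Nat.add (Nat.add (Nat.add (Nat.add (Nat.add (Nat.add (Nat.add C x2744) x1772) x1124) x1340) x1268) x1292) (Nat.mul (e (nat_lit 1286)) ap)) x20968) (Nat.mul (e (nat_lit 1286)) an))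
    (Nat.sub (Nat.sub (Nat.add (Nat.add (Nat.add (Nat.add (Nat.add (Nat.add (Nat.add C x2750) x1778) x1130) x1346) x1286) x1294) (Nat.mul (e (nat_lit 1292)) ap)) x20974) (Nat.mul (e (nat_lit 1292)) an))
    (Nat.sub (Nat.sub (Nat.add (Nat.add (Nat.add (Nat.add (Nat.add (Nat.add (Nat.add C (Nat.mul x1294 (nat_lit 2))) x2752) x1780) x1132) x1348) x1292) (Nat.mul (e (nat_lit 1294)) ap)) x20976) (Nat.mul (e (nat_lit 1294)) an))
    (Nat.sub (Nat.sub (Nat.add (Nat.add (Nat.add (Nat.add (Nat.add (Nat.add (Nat.add C (Nat.mul x1322 (nat_lit 2))) x2780) x1808) x1160) x1268) x1340) (Nat.mul (e (nat_lit 1322)) ap)) x21004) (Nat.mul (e (nat_lit 1322)) an))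
    (Nat.sub (Nat.sub (Nat.add (Nat.add (Nat.add (Nat.add (Nat.add (Nat.add (Nat.add (Nat.add (Nat.add (Nat.add C (Nat.mul x1340 (nat_lit 2))) x2798) x1826) x1178) x1286) x1394) x1322) x1358) x1346) (Nat.mul (e (nat_lit 1340)) ap)) x21022) (Nat.mul (e (nat_lit 1340)) an))
    (Nat.sub (Nat.sub (Nat.add (Nat.add (Nat.add (Nat.add (Nat.add (Nat.add (Nat.add (Nat.add (Nat.add (Nat.add C x1346) x2804) x1832) x1184) x1292) x1400) x1364) x1340) x1348) (Nat.mul (e (nat_lit 1346)) ap)) x21028) (Nat.mul (e (nat_lit 1346)) an))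
    (Nat.sub (Nat.sub (Nat.add (Nat.add (Nat.add (Nat.add (Nat.add (Nat.add (Nat.add (Nat.add (Nat.add C (Nat.mul x1348 (nat_lit 3))) x2806) x1834) x1186) x1294) x1402) x1366) x1346) (Nat.mul (e (nat_lit 1348)) ap)) x21030) (Nat.mul (e (nat_lit 1348)) an))
    (Nat.sub (Nat.sub (Nat.add (Nat.add (Nat.add (Nat.add (Nat.add (Nat.add (Nat.add C x2816) x1844) x1196) x1412) x1340) x1364) (Nat.mul (e (nat_lit 1358)) ap)) x21040) (Nat.mul (e (nat_lit 1358)) an))
    (Nat.sub (Nat.sub (Nat.add (Nat.add (Nat.add (Nat.add (Nat.add (Nat.add (Nat.add (Nat.add (Nat.add (Nat.add C x1364) x2822) x1850) x1202) x1418) x1346) x1358) x1370) x1366) (Nat.mul (e (nat_lit 1364)) ap)) x21046) (Nat.mul (e (nat_lit 1364)) an))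
    (Nat.sub (Nat.sub (Nat.add (Nat.add (Nat.add (Nat.add (Nat.add (Nat.add (Nat.add (Nat.add (Nat.add C (Nat.mul x1366 (nat_lit 2))) x2824) x1852) x1204) x1420) x1348) x1372) x1364) (Nat.mul (e (nat_lit 1366)) ap)) x21048) (Nat.mul (e (nat_lit 1366)) an))
    (Nat.sub (Nat.sub (Nat.add (Nat.add (Nat.add (Nat.add (Nat.add (Nat.add (Nat.add C x2828) x1856) x1208) x1424) x1364) x1372) (Nat.mul (e (nat_lit 1370)) ap)) x21052) (Nat.mul (e (nat_lit 1370)) an))
    (Nat.sub (Nat.add (Nat.add (Nat.add (Nat.add (Nat.add (Nat.add (Nat.add (Nat.add C (Nat.mul x1372 (nat_lit 3))) x2830) x1858) x1210) x1426) x1366) x1370) x1374) x21054)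
    (Nat.add (Nat.add (Nat.add (Nat.add (Nat.add (Nat.add C (Nat.mul x1374 (nat_lit 4))) x2832) x1860) x1212) x1428) x1372)
    (Nat.sub (Nat.sub (Nat.add (Nat.add (Nat.add (Nat.add (Nat.add (Nat.add (Nat.add C (Nat.mul x1394 (nat_lit 2))) x2852) x1880) x1340) x1412) x1400) (Nat.mul (e (nat_lit 1394)) ap)) x21076) (Nat.mul (e (nat_lit 1394)) an))
    (Nat.sub (Nat.sub (Nat.add (Nat.add (Nat.add (Nat.add (Nat.add (Nat.add (Nat.add C x2858) x1886) x1346) x1418) x1394) x1402) (Nat.mul (e (nat_lit 1400)) ap)) x21082) (Nat.mul (e (nat_lit 1400)) an))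
    (Nat.sub (Nat.sub (Nat.add (Nat.add (Nat.add (Nat.add (Nat.add (Nat.add (Nat.add C (Nat.mul x1402 (nat_lit 2))) x2860) x1888) x1348) x1420) x1400) (Nat.mul (e (nat_lit 1402)) ap)) x21084) (Nat.mul (e (nat_lit 1402)) an))
    (Nat.sub (Nat.sub (Nat.add (Nat.add (Nat.add (Nat.add (Nat.add (Nat.add (Nat.add C (Nat.mul x1412 (nat_lit 2))) x2870) x1898) x1358) x1394) x1418) (Nat.mul (e (nat_lit 1412)) ap)) x21094) (Nat.mul (e (nat_lit 1412)) an))
    (Nat.sub (Nat.sub (Nat.add (Nat.add (Nat.add (Nat.add (Nat.add (Nat.add (Nat.add (Nat.add (Nat.add (Nat.add C (Nat.mul x1418 (nat_lit 2))) x2876) x1904) x1364) x1400) x1436) x1412) x1424) x1420) (Nat.mul (e (nat_lit 1418)) ap)) x21100) (Nat.mul (e (nat_lit 1418)) an))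
    (Nat.sub (Nat.add (Nat.add (Nat.add (Nat.add (Nat.add (Nat.add (Nat.add (Nat.add C (Nat.mul x1420 (nat_lit 3))) x2878) x1906) x1366) x1402) x1438) x1426) x1418) x21102)
    (Nat.sub (Nat.sub (Nat.add (Nat.add (Nat.add (Nat.add (Nat.add (Nat.add (Nat.add C x2882) x1910) x1370) x1442) x1418) x1426) (Nat.mul (e (nat_lit 1424)) ap)) x21106) (Nat.mul (e (nat_lit 1424)) an))
    (Nat.sub (Nat.add (Nat.add (Nat.add (Nat.add (Nat.add (Nat.add (Nat.add (Nat.add C (Nat.mul x1426 (nat_lit 3))) x2884) x1912) x1372) x1444) x1420) x1424) x1428) x21108)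
    (Nat.add (Nat.add (Nat.add (Nat.add (Nat.add (Nat.add C (Nat.mul x1428 (nat_lit 4))) x2886) x1914) x1374) x1446) x1426)
    (Nat.sub (Nat.sub (Nat.add (Nat.add (Nat.add (Nat.add (Nat.add (Nat.add (Nat.add C (Nat.mul x1436 (nat_lit 2))) x2894) x1922) x1418) x1442) x1438) (Nat.mul (e (nat_lit 1436)) ap)) x21118) (Nat.mul (e (nat_lit 1436)) an))
    (Nat.sub (Nat.add (Nat.add (Nat.add (Nat.add (Nat.add (Nat.add C (Nat.mul x1438 (nat_lit 2))) x2896) x1924) x1420) x1444) x1436) x21120)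
    (Nat.sub (Nat.add (Nat.add (Nat.add (Nat.add (Nat.add (Nat.add C (Nat.mul x1442 (nat_lit 2))) x2900) x1928) x1424) x1436) x1444) x21124)
    (Nat.sub (Nat.add (Nat.add (Nat.add (Nat.add (Nat.add (Nat.add (Nat.add (Nat.add C (Nat.mul x1444 (nat_lit 4))) x2902) x1930) x1426) x1438) x1450) x1442) x1446) x21126)
    (Nat.add (Nat.add (Nat.add (Nat.add (Nat.add (Nat.add C (Nat.mul x1446 (nat_lit 4))) x2904) x1932) x1428) x1452) x1444)
    (Nat.sub (Nat.add (Nat.add (Nat.add (Nat.add (Nat.add C (Nat.mul x1450 (nat_lit 4))) x2908) x1936) x1444) x1452) x21132)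
    (Nat.add (Nat.add (Nat.add (Nat.add (Nat.add C (Nat.mul x1452 (nat_lit 6))) x2910) x1938) x1446) x1450)
    (Nat.sub (Nat.add (Nat.add (Nat.add (Nat.add C (Nat.mul x1538 (nat_lit 2))) x2996) x1052) x1592) x21220)
    (Nat.sub (Nat.add (Nat.add (Nat.add (Nat.add (Nat.add (Nat.add (Nat.add C x1592) x3050) x1106) x1754) x1538) x1646) x1610) x21274)
    (Nat.sub (Nat.sub (Nat.add (Nat.add (Nat.add (Nat.add (Nat.add (Nat.add (Nat.add C x3068) x1124) x1772) x1664) x1592) x1616) (Nat.mul (e (nat_lit 1610)) ap)) x21292) (Nat.mul (e (nat_lit 1610)) an))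
    (Nat.sub (Nat.sub (Nat.add (Nat.add (Nat.add (Nat.add (Nat.add (Nat.add (Nat.add C x3074) x1130) x1778) x1670) x1610) x1618) (Nat.mul (e (nat_lit 1616)) ap)) x21298) (Nat.mul (e (nat_lit 1616)) an))
    (Nat.sub (Nat.add (Nat.add (Nat.add (Nat.add (Nat.add (Nat.add C (Nat.mul x1618 (nat_lit 2))) x3076) x1132) x1780) x1672) x1616) x21300)
    (Nat.sub (Nat.sub (Nat.sub (Nat.add (Nat.add (Nat.add (Nat.add (Nat.add (Nat.add C x3104) x1160) x1808) x1592) x1664) (Nat.mul (e (nat_lit 1646)) ap)) (Nat.mul x1646 (nat_lit 2))) x21328) (Nat.mul (e (nat_lit 1646)) an))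
    (Nat.sub (Nat.sub (Nat.sub (Nat.add (Nat.add (Nat.add (Nat.add (Nat.add (Nat.add (Nat.add (Nat.add C x3122) x1178) x1826) x1610) x1646) x1682) x1670) (Nat.mul (e (nat_lit 1664)) ap)) x1664) x21346) (Nat.mul (e (nat_lit 1664)) an))
    (Nat.sub (Nat.sub (Nat.sub (Nat.add (Nat.add (Nat.add (Nat.add (Nat.add (Nat.add (Nat.add (Nat.add C x3128) x1184) x1832) x1616) x1688) x1664) x1672) (Nat.mul (e (nat_lit 1670)) ap)) (Nat.mul x1670 (nat_lit 2))) x21352) (Nat.mul (e (nat_lit 1670)) an))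
    (Nat.sub (Nat.add (Nat.add (Nat.add (Nat.add (Nat.add (Nat.add C x3130) x1186) x1834) x1618) x1690) x1670) x21354)
    (Nat.sub (Nat.sub (Nat.sub (Nat.add (Nat.add (Nat.add (Nat.add (Nat.add (Nat.add C x3140) x1196) x1844) x1664) x1688) (Nat.mul (e (nat_lit 1682)) ap)) (Nat.mul x1682 (nat_lit 2))) x21364) (Nat.mul (e (nat_lit 1682)) an))
    (Nat.sub (Nat.sub (Nat.sub (Nat.add (Nat.add (Nat.add (Nat.add (Nat.add (Nat.add (Nat.add (Nat.add C x3146) x1202) x1850) x1670) x1682) x1694) x1690) (Nat.mul (e (nat_lit 1688)) ap)) x1688) x21370) (Nat.mul (e (nat_lit 1688)) an))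
    (Nat.sub (Nat.add (Nat.add (Nat.add (Nat.add (Nat.add (Nat.add C x3148) x1204) x1852) x1672) x1696) x1688) x21372)
    (Nat.sub (Nat.sub (Nat.sub (Nat.add (Nat.add (Nat.add (Nat.add (Nat.add (Nat.add C x3152) x1208) x1856) x1688) x1696) (Nat.mul (e (nat_lit 1694)) ap)) (Nat.mul x1694 (nat_lit 2))) x21376) (Nat.mul (e (nat_lit 1694)) an))
    (Nat.sub (Nat.add (Nat.add (Nat.add (Nat.add (Nat.add (Nat.add (Nat.add C x1696) x3154) x1210) x1858) x1690) x1694) x1698) x21378)
    (Nat.add (Nat.add (Nat.add (Nat.add (Nat.add C (Nat.mul x1698 (nat_lit 2))) x3156) x1212) x1860) x1696)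
    (Nat.sub (Nat.add (Nat.add (Nat.add (Nat.add (Nat.add (Nat.add C (Nat.mul x1754 (nat_lit 2))) x3212) x1268) x1592) x1808) x1772) x21436)
    (Nat.sub (Nat.sub (Nat.add (Nat.add (Nat.add (Nat.add (Nat.add (Nat.add (Nat.add C x3230) x1286) x1610) x1826) x1754) x1778) (Nat.mul (e (nat_lit 1772)) ap)) x21454) (Nat.mul (e (nat_lit 1772)) an))
    (Nat.sub (Nat.sub (Nat.add (Nat.add (Nat.add (Nat.add (Nat.add (Nat.add (Nat.add C x3236) x1292) x1616) x1832) x1772) x1780) (Nat.mul (e (nat_lit 1778)) ap)) x21460) (Nat.mul (e (nat_lit 1778)) an))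
    (Nat.sub (Nat.add (Nat.add (Nat.add (Nat.add (Nat.add (Nat.add C (Nat.mul x1780 (nat_lit 2))) x3238) x1294) x1618) x1834) x1778) x21462)
    (Nat.sub (Nat.sub (Nat.add (Nat.add (Nat.add (Nat.add (Nat.add (Nat.add (Nat.add (Nat.add C x1808) x3266) x1322) x1646) x1970) x1754) x1826) (Nat.mul (e (nat_lit 1808)) ap)) x21490) (Nat.mul (e (nat_lit 1808)) an))
    (Nat.sub (Nat.sub (Nat.add (Nat.add (Nat.add (Nat.add (Nat.add (Nat.add (Nat.add (Nat.add (Nat.add (Nat.add (Nat.add C x1826) x3284) x1340) x1664) x1988) x1772) x1880) x1808) x1844) x1832) (Nat.mul (e (nat_lit 1826)) ap)) x21508) (Nat.mul (e (nat_lit 1826)) an))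
    (Nat.sub (Nat.sub (Nat.add (Nat.add (Nat.add (Nat.add (Nat.add (Nat.add (Nat.add (Nat.add (Nat.add (Nat.add C x3290) x1346) x1670) x1994) x1778) x1886) x1850) x1826) x1834) (Nat.mul (e (nat_lit 1832)) ap)) x21514) (Nat.mul (e (nat_lit 1832)) an))
    (Nat.sub (Nat.add (Nat.add (Nat.add (Nat.add (Nat.add (Nat.add (Nat.add (Nat.add (Nat.add C (Nat.mul x1834 (nat_lit 2))) x3292) x1348) x1672) x1996) x1780) x1888) x1852) x1832) x21516)
    (Nat.sub (Nat.sub (Nat.sub (Nat.add (Nat.add (Nat.add (Nat.add (Nat.add (Nat.add (Nat.add (Nat.add C x3302) x1358) x1682) x2006) x1898) x1826) x1850) (Nat.mul (e (nat_lit 1844)) ap)) x1844) x21526) (Nat.mul (e (nat_lit 1844)) an))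
    (Nat.sub (Nat.sub (Nat.add (Nat.add (Nat.add (Nat.add (Nat.add (Nat.add (Nat.add (Nat.add (Nat.add (Nat.add C x3308) x1364) x1688) x2012) x1904) x1832) x1844) x1856) x1852) (Nat.mul (e (nat_lit 1850)) ap)) x21532) (Nat.mul (e (nat_lit 1850)) an))
    (Nat.sub (Nat.add (Nat.add (Nat.add (Nat.add (Nat.add (Nat.add (Nat.add (Nat.add (Nat.add C x1852) x3310) x1366) x1690) x2014) x1906) x1834) x1858) x1850) x21534)
    (Nat.sub (Nat.sub (Nat.add (Nat.add (Nat.add (Nat.add (Nat.add (Nat.add (Nat.add C x3314) x1370) x1694) x2018) x1910) x1850) x1858) x1856) x21538)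
    (Nat.sub (Nat.add (Nat.add (Nat.add (Nat.add (Nat.add (Nat.add (Nat.add (Nat.add (Nat.add C (Nat.mul x1858 (nat_lit 2))) x3316) x1372) x1696) x2020) x1912) x1852) x1856) x1860) x21540)
    (Nat.add (Nat.add (Nat.add (Nat.add (Nat.add (Nat.add (Nat.add C (Nat.mul x1860 (nat_lit 3))) x3318) x1374) x1698) x2022) x1914) x1858)
    (Nat.sub (Nat.sub (Nat.add (Nat.add (Nat.add (Nat.add (Nat.add (Nat.add (Nat.add C x3338) x1394) x2042) x1826) x1898) x1886) (Nat.mul (e (nat_lit 1880)) ap)) x21562) (Nat.mul (e (nat_lit 1880)) an))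
    (Nat.sub (Nat.sub (Nat.sub (Nat.add (Nat.add (Nat.add (Nat.add (Nat.add (Nat.add (Nat.add (Nat.add C x3344) x1400) x2048) x1832) x1904) x1880) x1888) (Nat.mul (e (nat_lit 1886)) ap)) (Nat.mul x1886 (nat_lit 2))) x21568) (Nat.mul (e (nat_lit 1886)) an))
    (Nat.sub (Nat.add (Nat.add (Nat.add (Nat.add (Nat.add (Nat.add C x3346) x1402) x2050) x1834) x1906) x1886) x21570)
    (Nat.sub (Nat.sub (Nat.add (Nat.add (Nat.add (Nat.add (Nat.add (Nat.add (Nat.add C x3356) x1412) x2060) x1844) x1880) x1904) (Nat.mul (e (nat_lit 1898)) ap)) x21580) (Nat.mul (e (nat_lit 1898)) an))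
    (Nat.sub (Nat.add (Nat.add (Nat.add (Nat.add (Nat.add (Nat.add (Nat.add (Nat.add (Nat.add C x3362) x1418) x2066) x1850) x1886) x1922) x1898) x1910) x1906) x21586)
    (Nat.sub (Nat.add (Nat.add (Nat.add (Nat.add (Nat.add (Nat.add (Nat.add (Nat.add (Nat.add C x1906) x3364) x1420) x2068) x1852) x1888) x1924) x1912) x1904) x21588)
    (Nat.sub (Nat.sub (Nat.add (Nat.add (Nat.add (Nat.add (Nat.add (Nat.add (Nat.add C x3368) x1424) x2072) x1856) x1928) x1904) x1912) (Nat.mul x1910 (nat_lit 2))) x21592)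
    (Nat.sub (Nat.add (Nat.add (Nat.add (Nat.add (Nat.add (Nat.add (Nat.add (Nat.add (Nat.add C x1912) x3370) x1426) x2074) x1858) x1930) x1906) x1910) x1914) x21594)
    (Nat.add (Nat.add (Nat.add (Nat.add (Nat.add (Nat.add (Nat.add C (Nat.mul x1914 (nat_lit 2))) x3372) x1428) x2076) x1860) x1932) x1912)
    (Nat.sub (Nat.add (Nat.add (Nat.add (Nat.add (Nat.add (Nat.add C x3380) x1436) x2084) x1904) x1928) x1924) x21604)
    (Nat.sub (Nat.add (Nat.add (Nat.add (Nat.add (Nat.add (Nat.add C x3382) x1438) x2086) x1906) x1930) x1922) x21606)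
    (Nat.sub (Nat.add (Nat.add (Nat.add (Nat.add (Nat.add (Nat.add C x3386) x1442) x2090) x1910) x1922) x1930) x21610)
    (Nat.sub (Nat.add (Nat.add (Nat.add (Nat.add (Nat.add (Nat.add (Nat.add (Nat.add (Nat.add C (Nat.mul x1930 (nat_lit 2))) x3388) x1444) x2092) x1912) x1924) x1936) x1928) x1932) x21612)
    (Nat.add (Nat.add (Nat.add (Nat.add (Nat.add (Nat.add (Nat.add C (Nat.mul x1932 (nat_lit 2))) x3390) x1446) x2094) x1914) x1938) x1930)
    (Nat.sub (Nat.add (Nat.add (Nat.add (Nat.add (Nat.add (Nat.add C (Nat.mul x1936 (nat_lit 2))) x3394) x1450) x2098) x1930) x1938) x21618)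
    (Nat.add (Nat.add (Nat.add (Nat.add (Nat.add (Nat.add C (Nat.mul x1938 (nat_lit 4))) x3396) x1452) x2100) x1932) x1936)
    (Nat.sub (Nat.sub (Nat.add (Nat.add (Nat.add (Nat.add (Nat.add C (Nat.mul x1970 (nat_lit 2))) x3428) x1808) x1988) (Nat.mul (e (nat_lit 1970)) ap)) x21652) (Nat.mul (e (nat_lit 1970)) an))
    (Nat.sub (Nat.sub (Nat.add (Nat.add (Nat.add (Nat.add (Nat.add (Nat.add (Nat.add (Nat.add C x1988) x3446) x1826) x2042) x1970) x2006) x1994) (Nat.mul (e (nat_lit 1988)) ap)) x21670) (Nat.mul (e (nat_lit 1988)) an))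
    (Nat.sub (Nat.add (Nat.add (Nat.add (Nat.add (Nat.add (Nat.add C x3452) x1832) x2048) x2012) x1988) x1996) x21676)
    (Nat.sub (Nat.add (Nat.add (Nat.add (Nat.add (Nat.add (Nat.add C (Nat.mul x1996 (nat_lit 2))) x3454) x1834) x2050) x2014) x1994) x21678)
    (Nat.sub (Nat.sub (Nat.sub (Nat.add (Nat.add (Nat.add (Nat.add (Nat.add (Nat.add C x3464) x1844) x2060) x1988) x2012) (Nat.mul (e (nat_lit 2006)) ap)) (Nat.mul x2006 (nat_lit 2))) x21688) (Nat.mul (e (nat_lit 2006)) an))
    (Nat.sub (Nat.sub (Nat.add (Nat.add (Nat.add (Nat.add (Nat.add (Nat.add (Nat.add C x3470) x1850) x2066) x1994) x2006) x2018) x2014) x2012) x21694)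
    (Nat.sub (Nat.add (Nat.add (Nat.add (Nat.add (Nat.add (Nat.add C x3472) x1852) x2068) x1996) x2020) x2012) x21696)
    (Nat.sub (Nat.sub (Nat.add (Nat.add (Nat.add (Nat.add (Nat.add C x3476) x1856) x2072) x2012) x2020) (Nat.mul x2018 (nat_lit 2))) x21700)
    (Nat.sub (Nat.add (Nat.add (Nat.add (Nat.add (Nat.add (Nat.add (Nat.add C x2020) x3478) x1858) x2074) x2014) x2018) x2022) x21702)
    (Nat.add (Nat.add (Nat.add (Nat.add (Nat.add C (Nat.mul x2022 (nat_lit 2))) x3480) x1860) x2076) x2020)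
    (Nat.sub (Nat.sub (Nat.add (Nat.add (Nat.add (Nat.add (Nat.add (Nat.add (Nat.add C (Nat.mul x2042 (nat_lit 2))) x3500) x1880) x1988) x2060) x2048) (Nat.mul (e (nat_lit 2042)) ap)) x21724) (Nat.mul (e (nat_lit 2042)) an))
    (Nat.sub (Nat.add (Nat.add (Nat.add (Nat.add (Nat.add (Nat.add C x3506) x1886) x1994) x2066) x2042) x2050) x21730)
    (Nat.sub (Nat.add (Nat.add (Nat.add (Nat.add (Nat.add (Nat.add C (Nat.mul x2050 (nat_lit 2))) x3508) x1888) x1996) x2068) x2048) x21732)
    (Nat.sub (Nat.add (Nat.add (Nat.add (Nat.add (Nat.add (Nat.add (Nat.add C x2060) x3518) x1898) x2006) x2114) x2042) x2066) x21742)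
    (Nat.sub (Nat.add (Nat.add (Nat.add (Nat.add (Nat.add (Nat.add (Nat.add (Nat.add (Nat.add (Nat.add C x2066) x3524) x1904) x2012) x2120) x2048) x2084) x2060) x2072) x2068) x21748)
    (Nat.sub (Nat.add (Nat.add (Nat.add (Nat.add (Nat.add (Nat.add (Nat.add (Nat.add (Nat.add C (Nat.mul x2068 (nat_lit 2))) x3526) x1906) x2014) x2122) x2050) x2086) x2074) x2066) x21750)
    (Nat.sub (Nat.sub (Nat.add (Nat.add (Nat.add (Nat.add (Nat.add (Nat.add (Nat.add C x3530) x1910) x2018) x2126) x2090) x2066) x2074) x2072) x21754)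
    (Nat.sub (Nat.add (Nat.add (Nat.add (Nat.add (Nat.add (Nat.add (Nat.add (Nat.add (Nat.add C (Nat.mul x2074 (nat_lit 2))) x3532) x1912) x2020) x2128) x2092) x2068) x2072) x2076) x21756)
    (Nat.add (Nat.add (Nat.add (Nat.add (Nat.add (Nat.add (Nat.add C (Nat.mul x2076 (nat_lit 3))) x3534) x1914) x2022) x2130) x2094) x2074)
    (Nat.sub (Nat.add (Nat.add (Nat.add (Nat.add (Nat.add (Nat.add C x3542) x1922) x2138) x2066) x2090) x2086) x21766)
    (Nat.sub (Nat.add (Nat.add (Nat.add (Nat.add (Nat.add (Nat.add C x3544) x1924) x2140) x2068) x2092) x2084) x21768)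
    (Nat.sub (Nat.add (Nat.add (Nat.add (Nat.add (Nat.add (Nat.add C x3548) x1928) x2144) x2072) x2084) x2092) x21772)
    (Nat.sub (Nat.add (Nat.add (Nat.add (Nat.add (Nat.add (Nat.add (Nat.add (Nat.add (Nat.add C (Nat.mul x2092 (nat_lit 2))) x3550) x1930) x2146) x2074) x2086) x2098) x2090) x2094) x21774)
    (Nat.add (Nat.add (Nat.add (Nat.add (Nat.add (Nat.add (Nat.add C (Nat.mul x2094 (nat_lit 2))) x3552) x1932) x2148) x2076) x2100) x2092)
    (Nat.sub (Nat.add (Nat.add (Nat.add (Nat.add (Nat.add (Nat.add C (Nat.mul x2098 (nat_lit 2))) x3556) x1936) x2152) x2092) x2100) x21780)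
    (Nat.add (Nat.add (Nat.add (Nat.add (Nat.add (Nat.add C (Nat.mul x2100 (nat_lit 4))) x3558) x1938) x2154) x2094) x2098)
    (Nat.sub (Nat.add (Nat.add (Nat.add (Nat.add C (Nat.mul x2114 (nat_lit 2))) x3572) x2060) x2120) x21796)
    (Nat.sub (Nat.add (Nat.add (Nat.add (Nat.add (Nat.add (Nat.add (Nat.add C x2120) x3578) x2066) x2138) x2114) x2126) x2122) x21802)
    (Nat.sub (Nat.add (Nat.add (Nat.add (Nat.add (Nat.add (Nat.add C (Nat.mul x2122 (nat_lit 2))) x3580) x2068) x2140) x2128) x2120) x21804)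
    (Nat.sub (Nat.sub (Nat.add (Nat.add (Nat.add (Nat.add (Nat.add C x3584) x2072) x2144) x2120) x2128) (Nat.mul x2126 (nat_lit 2))) x21808)
    (Nat.sub (Nat.add (Nat.add (Nat.add (Nat.add (Nat.add (Nat.add (Nat.add C x2128) x3586) x2074) x2146) x2122) x2126) x2130) x21810)
    (Nat.add (Nat.add (Nat.add (Nat.add (Nat.add C (Nat.mul x2130 (nat_lit 2))) x3588) x2076) x2148) x2128)
    (Nat.sub (Nat.add (Nat.add (Nat.add (Nat.add (Nat.add (Nat.add C (Nat.mul x2138 (nat_lit 2))) x3596) x2084) x2120) x2144) x2140) x21820)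
    (Nat.sub (Nat.add (Nat.add (Nat.add (Nat.add (Nat.add (Nat.add C (Nat.mul x2140 (nat_lit 2))) x3598) x2086) x2122) x2146) x2138) x21822)
    (Nat.sub (Nat.add (Nat.add (Nat.add (Nat.add (Nat.add (Nat.add (Nat.add C x2144) x3602) x2090) x2126) x2162) x2138) x2146) x21826)
    (Nat.sub (Nat.add (Nat.add (Nat.add (Nat.add (Nat.add (Nat.add (Nat.add (Nat.add (Nat.add C (Nat.mul x2146 (nat_lit 3))) x3604) x2092) x2128) x2164) x2140) x2152) x2144) x2148) x21828)
    (Nat.add (Nat.add (Nat.add (Nat.add (Nat.add (Nat.add (Nat.add C (Nat.mul x2148 (nat_lit 3))) x3606) x2094) x2130) x2166) x2154) x2146)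
    (Nat.sub (Nat.add (Nat.add (Nat.add (Nat.add (Nat.add (Nat.add C (Nat.mul x2152 (nat_lit 2))) x3610) x2098) x2170) x2146) x2154) x21834)
    (Nat.add (Nat.add (Nat.add (Nat.add (Nat.add (Nat.add C (Nat.mul x2154 (nat_lit 4))) x3612) x2100) x2172) x2148) x2152)
    (Nat.sub (Nat.add (Nat.add (Nat.add (Nat.add C (Nat.mul x2162 (nat_lit 2))) x3620) x2144) x2164) x21844)
    (Nat.sub (Nat.add (Nat.add (Nat.add (Nat.add (Nat.add (Nat.add C (Nat.mul x2164 (nat_lit 3))) x3622) x2146) x2170) x2162) x2166) x21846)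
    (Nat.add (Nat.add (Nat.add (Nat.add (Nat.add C (Nat.mul x2166 (nat_lit 2))) x3624) x2148) x2172) x2164)
    (Nat.sub (Nat.add (Nat.add (Nat.add (Nat.add (Nat.add C (Nat.mul x2170 (nat_lit 4))) x3628) x2152) x2164) x2172) x21852)
    (Nat.add (Nat.add (Nat.add (Nat.add (Nat.add (Nat.add C (Nat.mul x2172 (nat_lit 5))) x3630) x2154) x2166) x2178) x2170)
    (Nat.add (Nat.add (Nat.add C (Nat.mul x2178 (nat_lit 6))) x3636) x2172)
    (Nat.sub (Nat.add (Nat.add (Nat.add (Nat.add (Nat.add C (Nat.mul x2348 (nat_lit 4))) x6722) x890) x2510) x2402) x22030)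
    (Nat.sub (Nat.add (Nat.add (Nat.add (Nat.add (Nat.add (Nat.add C (Nat.mul x2402 (nat_lit 2))) x6776) x944) x2564) x2348) x2420) x22084)
    (Nat.sub (Nat.sub (Nat.add (Nat.add (Nat.add (Nat.add (Nat.add (Nat.add (Nat.add C (Nat.mul x2420 (nat_lit 2))) x6794) x962) x2582) x2402) x2426) (Nat.mul (e (nat_lit 2420)) ap)) x22102) (Nat.mul (e (nat_lit 2420)) an))
    (Nat.sub (Nat.add (Nat.add (Nat.add (Nat.add (Nat.add (Nat.add C (Nat.mul x2426 (nat_lit 2))) x6800) x968) x2588) x2420) x2428) x22108)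
    (Nat.sub (Nat.add (Nat.add (Nat.add (Nat.add (Nat.add C (Nat.mul x2428 (nat_lit 4))) x6802) x970) x2590) x2426) x22110)
    (Nat.sub (Nat.add (Nat.add (Nat.add (Nat.add (Nat.add (Nat.add C (Nat.mul x2510 (nat_lit 2))) x6884) x1052) x2996) x2348) x2564) x22192)
    (Nat.sub (Nat.add (Nat.add (Nat.add (Nat.add (Nat.add (Nat.add (Nat.add (Nat.add (Nat.add C (Nat.mul x2564 (nat_lit 2))) x6938) x1106) x3050) x2402) x2726) x2510) x2618) x2582) x22246)
    (Nat.sub (Nat.sub (Nat.add (Nat.add (Nat.add (Nat.add (Nat.add (Nat.add (Nat.add (Nat.add (Nat.add (Nat.add C x2582) x6956) x1124) x3068) x2420) x2744) x2636) x2564) x2588) (Nat.mul (e (nat_lit 2582)) ap)) x22264) (Nat.mul (e (nat_lit 2582)) an))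
    (Nat.sub (Nat.sub (Nat.add (Nat.add (Nat.add (Nat.add (Nat.add (Nat.add (Nat.add (Nat.add (Nat.add (Nat.add C x2588) x6962) x1130) x3074) x2426) x2750) x2642) x2582) x2590) (Nat.mul (e (nat_lit 2588)) ap)) x22270) (Nat.mul (e (nat_lit 2588)) an))
    (Nat.sub (Nat.add (Nat.add (Nat.add (Nat.add (Nat.add (Nat.add (Nat.add (Nat.add C (Nat.mul x2590 (nat_lit 3))) x6964) x1132) x3076) x2428) x2752) x2644) x2588) x22272)
    (Nat.sub (Nat.add (Nat.add (Nat.add (Nat.add (Nat.add (Nat.add C x6992) x1160) x3104) x2780) x2564) x2636) x22300)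
    (Nat.sub (Nat.sub (Nat.add (Nat.add (Nat.add (Nat.add (Nat.add (Nat.add (Nat.add (Nat.add (Nat.add (Nat.add C x2636) x7010) x1178) x3122) x2798) x2582) x2618) x2654) x2642) (Nat.mul (e (nat_lit 2636)) ap)) x22318) (Nat.mul (e (nat_lit 2636)) an))
    (Nat.sub (Nat.sub (Nat.add (Nat.add (Nat.add (Nat.add (Nat.add (Nat.add (Nat.add (Nat.add (Nat.add C x7016) x1184) x3128) x2804) x2588) x2660) x2636) x2644) (Nat.mul (e (nat_lit 2642)) ap)) x22324) (Nat.mul (e (nat_lit 2642)) an))
    (Nat.sub (Nat.sub (Nat.add (Nat.add (Nat.add (Nat.add (Nat.add (Nat.add (Nat.add (Nat.add (Nat.add C (Nat.mul x2644 (nat_lit 2))) x7018) x1186) x3130) x2806) x2590) x2662) x2642) (Nat.mul (e (nat_lit 2644)) ap)) x22326) (Nat.mul (e (nat_lit 2644)) an))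
    (Nat.sub (Nat.sub (Nat.add (Nat.add (Nat.add (Nat.add (Nat.add (Nat.add (Nat.add C x7028) x1196) x3140) x2816) x2636) x2660) (Nat.mul (e (nat_lit 2654)) ap)) x22336) (Nat.mul (e (nat_lit 2654)) an))
    (Nat.sub (Nat.sub (Nat.add (Nat.add (Nat.add (Nat.add (Nat.add (Nat.add (Nat.add (Nat.add (Nat.add (Nat.add C x2660) x7034) x1202) x3146) x2822) x2642) x2654) x2666) x2662) (Nat.mul (e (nat_lit 2660)) ap)) x22342) (Nat.mul (e (nat_lit 2660)) an))
    (Nat.sub (Nat.sub (Nat.add (Nat.add (Nat.add (Nat.add (Nat.add (Nat.add (Nat.add (Nat.add (Nat.add C (Nat.mul x2662 (nat_lit 2))) x7036) x1204) x3148) x2824) x2644) x2668) x2660) (Nat.mul (e (nat_lit 2662)) ap)) x22344) (Nat.mul (e (nat_lit 2662)) an))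
    (Nat.sub (Nat.add (Nat.add (Nat.add (Nat.add (Nat.add (Nat.add C x7040) x1208) x3152) x2828) x2660) x2668) x22348)
    (Nat.sub (Nat.add (Nat.add (Nat.add (Nat.add (Nat.add (Nat.add (Nat.add (Nat.add C (Nat.mul x2668 (nat_lit 3))) x7042) x1210) x3154) x2830) x2662) x2666) x2670) x22350)
    (Nat.add (Nat.add (Nat.add (Nat.add (Nat.add (Nat.add C (Nat.mul x2670 (nat_lit 4))) x7044) x1212) x3156) x2832) x2668)
    (Nat.sub (Nat.add (Nat.add (Nat.add (Nat.add (Nat.add (Nat.add C x7100) x1268) x3212) x2564) x2780) x2744) x22408)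
    (Nat.sub (Nat.sub (Nat.sub (Nat.add (Nat.add (Nat.add (Nat.add (Nat.add (Nat.add (Nat.add (Nat.add C x7118) x1286) x3230) x2582) x2798) x2726) x2750) (Nat.mul (e (nat_lit 2744)) ap)) (Nat.mul x2744 (nat_lit 2))) x22426) (Nat.mul (e (nat_lit 2744)) an))
    (Nat.sub (Nat.sub (Nat.sub (Nat.add (Nat.add (Nat.add (Nat.add (Nat.add (Nat.add (Nat.add (Nat.add C x7124) x1292) x3236) x2588) x2804) x2744) x2752) (Nat.mul (e (nat_lit 2750)) ap)) (Nat.mul x2750 (nat_lit 2))) x22432) (Nat.mul (e (nat_lit 2750)) an))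
    (Nat.sub (Nat.add (Nat.add (Nat.add (Nat.add (Nat.add (Nat.add C x7126) x1294) x3238) x2590) x2806) x2750) x22434)
    (Nat.sub (Nat.add (Nat.add (Nat.add (Nat.add (Nat.add (Nat.add C x7154) x1322) x3266) x2618) x2726) x2798) x22462)
    (Nat.sub (Nat.sub (Nat.add (Nat.add (Nat.add (Nat.add (Nat.add (Nat.add (Nat.add (Nat.add (Nat.add (Nat.add C x7172) x1340) x3284) x2636) x2744) x2852) x2780) x2816) x2804) (Nat.mul (e (nat_lit 2798)) ap)) x22480) (Nat.mul (e (nat_lit 2798)) an))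
    (Nat.sub (Nat.sub (Nat.sub (Nat.add (Nat.add (Nat.add (Nat.add (Nat.add (Nat.add (Nat.add (Nat.add (Nat.add (Nat.add C x7178) x1346) x3290) x2642) x2750) x2858) x2822) x2798) x2806) (Nat.mul (e (nat_lit 2804)) ap)) x2804) x22486) (Nat.mul (e (nat_lit 2804)) an))
    (Nat.sub (Nat.sub (Nat.add (Nat.add (Nat.add (Nat.add (Nat.add (Nat.add (Nat.add (Nat.add (Nat.add (Nat.add C x2806) x7180) x1348) x3292) x2644) x2752) x2860) x2824) x2804) (Nat.mul (e (nat_lit 2806)) ap)) x22488) (Nat.mul (e (nat_lit 2806)) an))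
    (Nat.sub (Nat.sub (Nat.sub (Nat.add (Nat.add (Nat.add (Nat.add (Nat.add (Nat.add (Nat.add (Nat.add C x7190) x1358) x3302) x2654) x2870) x2798) x2822) (Nat.mul (e (nat_lit 2816)) ap)) (Nat.mul x2816 (nat_lit 2))) x22498) (Nat.mul (e (nat_lit 2816)) an))
    (Nat.sub (Nat.sub (Nat.sub (Nat.add (Nat.add (Nat.add (Nat.add (Nat.add (Nat.add (Nat.add (Nat.add (Nat.add (Nat.add C x7196) x1364) x3308) x2660) x2876) x2804) x2816) x2828) x2824) (Nat.mul (e (nat_lit 2822)) ap)) x2822) x22504) (Nat.mul (e (nat_lit 2822)) an))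
    (Nat.sub (Nat.sub (Nat.add (Nat.add (Nat.add (Nat.add (Nat.add (Nat.add (Nat.add (Nat.add (Nat.add C x7198) x1366) x3310) x2662) x2878) x2806) x2830) x2822) (Nat.mul (e (nat_lit 2824)) ap)) x22506) (Nat.mul (e (nat_lit 2824)) an))
    (Nat.sub (Nat.sub (Nat.sub (Nat.add (Nat.add (Nat.add (Nat.add (Nat.add (Nat.add (Nat.add (Nat.add C x7202) x1370) x3314) x2666) x2882) x2822) x2830) (Nat.mul (e (nat_lit 2828)) ap)) (Nat.mul x2828 (nat_lit 2))) x22510) (Nat.mul (e (nat_lit 2828)) an))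
    (Nat.sub (Nat.sub (Nat.add (Nat.add (Nat.add (Nat.add (Nat.add (Nat.add (Nat.add (Nat.add (Nat.add (Nat.add C x2830) x7204) x1372) x3316) x2668) x2884) x2824) x2828) x2832) (Nat.mul (e (nat_lit 2830)) ap)) x22512) (Nat.mul (e (nat_lit 2830)) an))
    (Nat.add (Nat.add (Nat.add (Nat.add (Nat.add (Nat.add (Nat.add C (Nat.mul x2832 (nat_lit 2))) x7206) x1374) x3318) x2670) x2886) x2830)
    (Nat.sub (Nat.sub (Nat.add (Nat.add (Nat.add (Nat.add (Nat.add (Nat.add (Nat.add C x7226) x1394) x3338) x2798) x2870) x2858) (Nat.mul (e (nat_lit 2852)) ap)) x22534) (Nat.mul (e (nat_lit 2852)) an))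
    (Nat.sub (Nat.sub (Nat.sub (Nat.add (Nat.add (Nat.add (Nat.add (Nat.add (Nat.add (Nat.add (Nat.add C x7232) x1400) x3344) x2804) x2876) x2852) x2860) (Nat.mul (e (nat_lit 2858)) ap)) (Nat.mul x2858 (nat_lit 2))) x22540) (Nat.mul (e (nat_lit 2858)) an))
    (Nat.sub (Nat.sub (Nat.add (Nat.add (Nat.add (Nat.add (Nat.add (Nat.add (Nat.add C x7234) x1402) x3346) x2806) x2878) x2858) (Nat.mul (e (nat_lit 2860)) ap)) x22542) (Nat.mul (e (nat_lit 2860)) an))
    (Nat.sub (Nat.sub (Nat.add (Nat.add (Nat.add (Nat.add (Nat.add (Nat.add (Nat.add C x7244) x1412) x3356) x2816) x2852) x2876) (Nat.mul (e (nat_lit 2870)) ap)) x22552) (Nat.mul (e (nat_lit 2870)) an))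
    (Nat.sub (Nat.sub (Nat.add (Nat.add (Nat.add (Nat.add (Nat.add (Nat.add (Nat.add (Nat.add (Nat.add (Nat.add C x7250) x1418) x3362) x2822) x2858) x2894) x2870) x2882) x2878) (Nat.mul (e (nat_lit 2876)) ap)) x22558) (Nat.mul (e (nat_lit 2876)) an))
    (Nat.sub (Nat.sub (Nat.add (Nat.add (Nat.add (Nat.add (Nat.add (Nat.add (Nat.add (Nat.add (Nat.add (Nat.add C x2878) x7252) x1420) x3364) x2824) x2860) x2896) x2884) x2876) (Nat.mul (e (nat_lit 2878)) ap)) x22560) (Nat.mul (e (nat_lit 2878)) an))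
    (Nat.sub (Nat.sub (Nat.add (Nat.add (Nat.add (Nat.add (Nat.add (Nat.add (Nat.add C x7256) x1424) x3368) x2828) x2900) x2876) x2884) (Nat.mul x2882 (nat_lit 2))) x22564)
    (Nat.sub (Nat.add (Nat.add (Nat.add (Nat.add (Nat.add (Nat.add (Nat.add (Nat.add (Nat.add C x2884) x7258) x1426) x3370) x2830) x2902) x2878) x2882) x2886) x22566)
    (Nat.add (Nat.add (Nat.add (Nat.add (Nat.add (Nat.add (Nat.add C (Nat.mul x2886 (nat_lit 2))) x7260) x1428) x3372) x2832) x2904) x2884)
    (Nat.sub (Nat.add (Nat.add (Nat.add (Nat.add (Nat.add (Nat.add C x7268) x1436) x3380) x2876) x2900) x2896) x22576)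
    (Nat.sub (Nat.add (Nat.add (Nat.add (Nat.add (Nat.add (Nat.add C x7270) x1438) x3382) x2878) x2902) x2894) x22578)
    (Nat.sub (Nat.add (Nat.add (Nat.add (Nat.add (Nat.add (Nat.add C x7274) x1442) x3386) x2882) x2894) x2902) x22582)
    (Nat.sub (Nat.add (Nat.add (Nat.add (Nat.add (Nat.add (Nat.add (Nat.add (Nat.add (Nat.add C (Nat.mul x2902 (nat_lit 2))) x7276) x1444) x3388) x2884) x2896) x2908) x2900) x2904) x22584)
    (Nat.add (Nat.add (Nat.add (Nat.add (Nat.add (Nat.add (Nat.add C (Nat.mul x2904 (nat_lit 2))) x7278) x1446) x3390) x2886) x2910) x2902)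
    (Nat.sub (Nat.add (Nat.add (Nat.add (Nat.add (Nat.add (Nat.add C (Nat.mul x2908 (nat_lit 2))) x7282) x1450) x3394) x2902) x2910) x22590)
    (Nat.add (Nat.add (Nat.add (Nat.add (Nat.add (Nat.add C (Nat.mul x2910 (nat_lit 4))) x7284) x1452) x3396) x2904) x2908)
    (Nat.sub (Nat.add (Nat.add (Nat.add (Nat.add (Nat.add (Nat.add C (Nat.mul x2996 (nat_lit 3))) x7370) x1538) x4454) x2510) x3050) x22678)
    (Nat.sub (Nat.add (Nat.add (Nat.add (Nat.add (Nat.add (Nat.add (Nat.add (Nat.add (Nat.add C (Nat.mul x3050 (nat_lit 2))) x7424) x1592) x4508) x2564) x3212) x2996) x3104) x3068) x22732)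
    (Nat.sub (Nat.add (Nat.add (Nat.add (Nat.add (Nat.add (Nat.add (Nat.add (Nat.add (Nat.add C x3068) x7442) x1610) x4526) x2582) x3230) x3122) x3050) x3074) x22750)
    (Nat.sub (Nat.add (Nat.add (Nat.add (Nat.add (Nat.add (Nat.add (Nat.add (Nat.add (Nat.add C x3074) x7448) x1616) x4532) x2588) x3236) x3128) x3068) x3076) x22756)
    (Nat.sub (Nat.add (Nat.add (Nat.add (Nat.add (Nat.add (Nat.add (Nat.add (Nat.add C (Nat.mul x3076 (nat_lit 3))) x7450) x1618) x4534) x2590) x3238) x3130) x3074) x22758)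
    (Nat.sub (Nat.sub (Nat.add (Nat.add (Nat.add (Nat.add (Nat.add (Nat.add (Nat.add C x7478) x1646) x4562) x2618) x3266) x3050) x3122) x3104) x22786)
    (Nat.sub (Nat.sub (Nat.add (Nat.add (Nat.add (Nat.add (Nat.add (Nat.add (Nat.add (Nat.add (Nat.add (Nat.add C x7496) x1664) x4580) x2636) x3284) x3068) x3104) x3140) x3128) (Nat.mul (e (nat_lit 3122)) ap)) x22804) (Nat.mul (e (nat_lit 3122)) an))
    (Nat.sub (Nat.sub (Nat.sub (Nat.add (Nat.add (Nat.add (Nat.add (Nat.add (Nat.add (Nat.add (Nat.add (Nat.add (Nat.add C x7502) x1670) x4586) x2642) x3290) x3074) x3146) x3122) x3130) (Nat.mul (e (nat_lit 3128)) ap)) x3128) x22810) (Nat.mul (e (nat_lit 3128)) an))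
    (Nat.sub (Nat.add (Nat.add (Nat.add (Nat.add (Nat.add (Nat.add (Nat.add (Nat.add (Nat.add C x3130) x7504) x1672) x4588) x2644) x3292) x3076) x3148) x3128) x22812)
    (Nat.sub (Nat.sub (Nat.sub (Nat.add (Nat.add (Nat.add (Nat.add (Nat.add (Nat.add (Nat.add (Nat.add C x7514) x1682) x4598) x2654) x3302) x3122) x3146) (Nat.mul (e (nat_lit 3140)) ap)) x3140) x22822) (Nat.mul (e (nat_lit 3140)) an))
    (Nat.sub (Nat.sub (Nat.add (Nat.add (Nat.add (Nat.add (Nat.add (Nat.add (Nat.add (Nat.add (Nat.add (Nat.add C x7520) x1688) x4604) x2660) x3308) x3128) x3140) x3152) x3148) (Nat.mul (e (nat_lit 3146)) ap)) x22828) (Nat.mul (e (nat_lit 3146)) an))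
    (Nat.sub (Nat.add (Nat.add (Nat.add (Nat.add (Nat.add (Nat.add (Nat.add (Nat.add (Nat.add C x3148) x7522) x1690) x4606) x2662) x3310) x3130) x3154) x3146) x22830)
    (Nat.sub (Nat.sub (Nat.add (Nat.add (Nat.add (Nat.add (Nat.add (Nat.add (Nat.add C x7526) x1694) x4610) x2666) x3314) x3146) x3154) x3152) x22834)
    (Nat.sub (Nat.add (Nat.add (Nat.add (Nat.add (Nat.add (Nat.add (Nat.add (Nat.add (Nat.add C (Nat.mul x3154 (nat_lit 2))) x7528) x1696) x4612) x2668) x3316) x3148) x3152) x3156) x22836)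
    (Nat.add (Nat.add (Nat.add (Nat.add (Nat.add (Nat.add (Nat.add C (Nat.mul x3156 (nat_lit 3))) x7530) x1698) x4614) x2670) x3318) x3154)
    (Nat.sub (Nat.add (Nat.add (Nat.add (Nat.add (Nat.add (Nat.add (Nat.add (Nat.add (Nat.add C (Nat.mul x3212 (nat_lit 2))) x7586) x1754) x4670) x2726) x3698) x3050) x3266) x3230) x22894)
    (Nat.sub (Nat.add (Nat.add (Nat.add (Nat.add (Nat.add (Nat.add (Nat.add (Nat.add (Nat.add C x7604) x1772) x4688) x2744) x3716) x3068) x3284) x3212) x3236) x22912)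
    (Nat.sub (Nat.add (Nat.add (Nat.add (Nat.add (Nat.add (Nat.add (Nat.add (Nat.add (Nat.add C x7610) x1778) x4694) x2750) x3722) x3074) x3290) x3230) x3238) x22918)
    (Nat.sub (Nat.add (Nat.add (Nat.add (Nat.add (Nat.add (Nat.add (Nat.add (Nat.add (Nat.add C (Nat.mul x3238 (nat_lit 2))) x7612) x1780) x4696) x2752) x3724) x3076) x3292) x3236) x22920)
    (Nat.sub (Nat.add (Nat.add (Nat.add (Nat.add (Nat.add (Nat.add (Nat.add (Nat.add (Nat.add (Nat.add C x3266) x7640) x1808) x4724) x2780) x3752) x3104) x3428) x3212) x3284) x22948)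
    (Nat.sub (Nat.sub (Nat.add (Nat.add (Nat.add (Nat.add (Nat.add (Nat.add (Nat.add (Nat.add (Nat.add (Nat.add (Nat.add (Nat.add (Nat.add (Nat.add C x3284) x7658) x1826) x4742) x2798) x3770) x3122) x3446) x3230) x3338) x3266) x3302) x3290) (Nat.mul (e (nat_lit 3284)) ap)) x22966) (Nat.mul (e (nat_lit 3284)) an))
    (Nat.sub (Nat.sub (Nat.add (Nat.add (Nat.add (Nat.add (Nat.add (Nat.add (Nat.add (Nat.add (Nat.add (Nat.add (Nat.add (Nat.add (Nat.add C x7664) x1832) x4748) x2804) x3776) x3128) x3452) x3236) x3344) x3308) x3284) x3292) (Nat.mul (e (nat_lit 3290)) ap)) x22972) (Nat.mul (e (nat_lit 3290)) an))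
    (Nat.sub (Nat.sub (Nat.add (Nat.add (Nat.add (Nat.add (Nat.add (Nat.add (Nat.add (Nat.add (Nat.add (Nat.add (Nat.add (Nat.add (Nat.add C (Nat.mul x3292 (nat_lit 2))) x7666) x1834) x4750) x2806) x3778) x3130) x3454) x3238) x3346) x3310) x3290) (Nat.mul (e (nat_lit 3292)) ap)) x22974) (Nat.mul (e (nat_lit 3292)) an))
    (Nat.sub (Nat.sub (Nat.sub (Nat.add (Nat.add (Nat.add (Nat.add (Nat.add (Nat.add (Nat.add (Nat.add (Nat.add (Nat.add (Nat.add C x7676) x1844) x4760) x2816) x3788) x3140) x3464) x3356) x3284) x3308) (Nat.mul (e (nat_lit 3302)) ap)) x3302) x22984) (Nat.mul (e (nat_lit 3302)) an))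
    (Nat.sub (Nat.sub (Nat.add (Nat.add (Nat.add (Nat.add (Nat.add (Nat.add (Nat.add (Nat.add (Nat.add (Nat.add (Nat.add (Nat.add (Nat.add C x7682) x1850) x4766) x2822) x3794) x3146) x3470) x3362) x3290) x3302) x3314) x3310) (Nat.mul (e (nat_lit 3308)) ap)) x22990) (Nat.mul (e (nat_lit 3308)) an))
    (Nat.sub (Nat.sub (Nat.add (Nat.add (Nat.add (Nat.add (Nat.add (Nat.add (Nat.add (Nat.add (Nat.add (Nat.add (Nat.add (Nat.add (Nat.add C x3310) x7684) x1852) x4768) x2824) x3796) x3148) x3472) x3364) x3292) x3316) x3308) (Nat.mul (e (nat_lit 3310)) ap)) x22992) (Nat.mul (e (nat_lit 3310)) an))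
    (Nat.sub (Nat.sub (Nat.sub (Nat.add (Nat.add (Nat.add (Nat.add (Nat.add (Nat.add (Nat.add (Nat.add (Nat.add (Nat.add (Nat.add C x7688) x1856) x4772) x2828) x3800) x3152) x3476) x3368) x3308) x3316) (Nat.mul (e (nat_lit 3314)) ap)) x3314) x22996) (Nat.mul (e (nat_lit 3314)) an))
    (Nat.sub (Nat.sub (Nat.add (Nat.add (Nat.add (Nat.add (Nat.add (Nat.add (Nat.add (Nat.add (Nat.add (Nat.add (Nat.add (Nat.add (Nat.add C (Nat.mul x3316 (nat_lit 2))) x7690) x1858) x4774) x2830) x3802) x3154) x3478) x3370) x3310) x3314) x3318) (Nat.mul (e (nat_lit 3316)) ap)) x22998) (Nat.mul (e (nat_lit 3316)) an))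
    (Nat.add (Nat.add (Nat.add (Nat.add (Nat.add (Nat.add (Nat.add (Nat.add (Nat.add (Nat.add C (Nat.mul x3318 (nat_lit 3))) x7692) x1860) x4776) x2832) x3804) x3156) x3480) x3372) x3316)
    (Nat.sub (Nat.sub (Nat.add (Nat.add (Nat.add (Nat.add (Nat.add (Nat.add (Nat.add (Nat.add (Nat.add (Nat.add C x7712) x1880) x4796) x2852) x3824) x3500) x3284) x3356) x3344) (Nat.mul (e (nat_lit 3338)) ap)) x23020) (Nat.mul (e (nat_lit 3338)) an))
    (Nat.sub (Nat.sub (Nat.sub (Nat.add (Nat.add (Nat.add (Nat.add (Nat.add (Nat.add (Nat.add (Nat.add (Nat.add (Nat.add (Nat.add C x7718) x1886) x4802) x2858) x3830) x3506) x3290) x3362) x3338) x3346) (Nat.mul (e (nat_lit 3344)) ap)) (Nat.mul x3344 (nat_lit 2))) x23026) (Nat.mul (e (nat_lit 3344)) an))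
    (Nat.sub (Nat.sub (Nat.add (Nat.add (Nat.add (Nat.add (Nat.add (Nat.add (Nat.add (Nat.add (Nat.add (Nat.add C x7720) x1888) x4804) x2860) x3832) x3508) x3292) x3364) x3344) (Nat.mul (e (nat_lit 3346)) ap)) x23028) (Nat.mul (e (nat_lit 3346)) an))
    (Nat.sub (Nat.sub (Nat.add (Nat.add (Nat.add (Nat.add (Nat.add (Nat.add (Nat.add (Nat.add (Nat.add (Nat.add C x7730) x1898) x4814) x2870) x3842) x3518) x3302) x3338) x3362) (Nat.mul (e (nat_lit 3356)) ap)) x23038) (Nat.mul (e (nat_lit 3356)) an))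
    (Nat.sub (Nat.sub (Nat.add (Nat.add (Nat.add (Nat.add (Nat.add (Nat.add (Nat.add (Nat.add (Nat.add (Nat.add (Nat.add (Nat.add (Nat.add C x7736) x1904) x4820) x2876) x3848) x3524) x3308) x3344) x3380) x3356) x3368) x3364) (Nat.mul (e (nat_lit 3362)) ap)) x23044) (Nat.mul (e (nat_lit 3362)) an))
    (Nat.sub (Nat.sub (Nat.add (Nat.add (Nat.add (Nat.add (Nat.add (Nat.add (Nat.add (Nat.add (Nat.add (Nat.add (Nat.add (Nat.add (Nat.add C x3364) x7738) x1906) x4822) x2878) x3850) x3526) x3310) x3346) x3382) x3370) x3362) (Nat.mul (e (nat_lit 3364)) ap)) x23046) (Nat.mul (e (nat_lit 3364)) an))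
    (Nat.sub (Nat.sub (Nat.sub (Nat.add (Nat.add (Nat.add (Nat.add (Nat.add (Nat.add (Nat.add (Nat.add (Nat.add (Nat.add (Nat.add C x7742) x1910) x4826) x2882) x3854) x3530) x3314) x3386) x3362) x3370) (Nat.mul (e (nat_lit 3368)) ap)) (Nat.mul x3368 (nat_lit 2))) x23050) (Nat.mul (e (nat_lit 3368)) an))
    (Nat.sub (Nat.sub (Nat.add (Nat.add (Nat.add (Nat.add (Nat.add (Nat.add (Nat.add (Nat.add (Nat.add (Nat.add (Nat.add (Nat.add (Nat.add C x3370) x7744) x1912) x4828) x2884) x3856) x3532) x3316) x3388) x3364) x3368) x3372) (Nat.mul (e (nat_lit 3370)) ap)) x23052) (Nat.mul (e (nat_lit 3370)) an))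
    (Nat.add (Nat.add (Nat.add (Nat.add (Nat.add (Nat.add (Nat.add (Nat.add (Nat.add (Nat.add C (Nat.mul x3372 (nat_lit 2))) x7746) x1914) x4830) x2886) x3858) x3534) x3318) x3390) x3370)
    (Nat.sub (Nat.sub (Nat.add (Nat.add (Nat.add (Nat.add (Nat.add (Nat.add (Nat.add (Nat.add (Nat.add (Nat.add C x7754) x1922) x4838) x2894) x3866) x3542) x3362) x3386) x3382) (Nat.mul (e (nat_lit 3380)) ap)) x23062) (Nat.mul (e (nat_lit 3380)) an))
    (Nat.sub (Nat.sub (Nat.add (Nat.add (Nat.add (Nat.add (Nat.add (Nat.add (Nat.add (Nat.add (Nat.add (Nat.add C x7756) x1924) x4840) x2896) x3868) x3544) x3364) x3388) x3380) (Nat.mul (e (nat_lit 3382)) ap)) x23064) (Nat.mul (e (nat_lit 3382)) an))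
    (Nat.sub (Nat.add (Nat.add (Nat.add (Nat.add (Nat.add (Nat.add (Nat.add (Nat.add (Nat.add C x7760) x1928) x4844) x2900) x3872) x3548) x3368) x3380) x3388) x23068)
    (Nat.sub (Nat.sub (Nat.add (Nat.add (Nat.add (Nat.add (Nat.add (Nat.add (Nat.add (Nat.add (Nat.add (Nat.add (Nat.add (Nat.add (Nat.add C (Nat.mul x3388 (nat_lit 2))) x7762) x1930) x4846) x2902) x3874) x3550) x3370) x3382) x3394) x3386) x3390) (Nat.mul (e (nat_lit 3388)) ap)) x23070) (Nat.mul (e (nat_lit 3388)) an))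
    (Nat.add (Nat.add (Nat.add (Nat.add (Nat.add (Nat.add (Nat.add (Nat.add (Nat.add (Nat.add C (Nat.mul x3390 (nat_lit 2))) x7764) x1932) x4848) x2904) x3876) x3552) x3372) x3396) x3388)
    (Nat.sub (Nat.add (Nat.add (Nat.add (Nat.add (Nat.add (Nat.add (Nat.add (Nat.add (Nat.add C (Nat.mul x3394 (nat_lit 2))) x7768) x1936) x4852) x2908) x3880) x3556) x3388) x3396) x23076)
    (Nat.add (Nat.add (Nat.add (Nat.add (Nat.add (Nat.add (Nat.add (Nat.add (Nat.add C (Nat.mul x3396 (nat_lit 4))) x7770) x1938) x4854) x2910) x3882) x3558) x3390) x3394)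
    (Nat.sub (Nat.add (Nat.add (Nat.add (Nat.add (Nat.add (Nat.add (Nat.add C x3428) x7802) x1970) x4886) x3914) x3266) x3446) x23110)
    (Nat.sub (Nat.sub (Nat.add (Nat.add (Nat.add (Nat.add (Nat.add (Nat.add (Nat.add (Nat.add (Nat.add (Nat.add C x7820) x1988) x4904) x3932) x3284) x3500) x3428) x3464) x3452) (Nat.mul (e (nat_lit 3446)) ap)) x23128) (Nat.mul (e (nat_lit 3446)) an))
    (Nat.sub (Nat.sub (Nat.sub (Nat.add (Nat.add (Nat.add (Nat.add (Nat.add (Nat.add (Nat.add (Nat.add (Nat.add (Nat.add C x7826) x1994) x4910) x3938) x3290) x3506) x3470) x3446) x3454) (Nat.mul (e (nat_lit 3452)) ap)) x3452) x23134) (Nat.mul (e (nat_lit 3452)) an))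
    (Nat.sub (Nat.sub (Nat.add (Nat.add (Nat.add (Nat.add (Nat.add (Nat.add (Nat.add (Nat.add (Nat.add (Nat.add C x3454) x7828) x1996) x4912) x3940) x3292) x3508) x3472) x3452) (Nat.mul (e (nat_lit 3454)) ap)) x23136) (Nat.mul (e (nat_lit 3454)) an))
    (Nat.sub (Nat.sub (Nat.sub (Nat.add (Nat.add (Nat.add (Nat.add (Nat.add (Nat.add (Nat.add (Nat.add (Nat.add C x7838) x2006) x4922) x3950) x3302) x3518) x3446) x3470) (Nat.mul (e (nat_lit 3464)) ap)) (Nat.mul x3464 (nat_lit 3))) x23146) (Nat.mul (e (nat_lit 3464)) an))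
    (Nat.sub (Nat.sub (Nat.sub (Nat.add (Nat.add (Nat.add (Nat.add (Nat.add (Nat.add (Nat.add (Nat.add (Nat.add (Nat.add (Nat.add C x7844) x2012) x4928) x3956) x3308) x3524) x3452) x3464) x3476) x3472) (Nat.mul (e (nat_lit 3470)) ap)) (Nat.mul x3470 (nat_lit 2))) x23152) (Nat.mul (e (nat_lit 3470)) an))
    (Nat.sub (Nat.sub (Nat.sub (Nat.add (Nat.add (Nat.add (Nat.add (Nat.add (Nat.add (Nat.add (Nat.add (Nat.add (Nat.add C x7846) x2014) x4930) x3958) x3310) x3526) x3454) x3478) x3470) (Nat.mul (e (nat_lit 3472)) ap)) x3472) x23154) (Nat.mul (e (nat_lit 3472)) an))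
    (Nat.sub (Nat.sub (Nat.sub (Nat.add (Nat.add (Nat.add (Nat.add (Nat.add (Nat.add (Nat.add (Nat.add (Nat.add C x7850) x2018) x4934) x3962) x3314) x3530) x3470) x3478) (Nat.mul (e (nat_lit 3476)) ap)) (Nat.mul x3476 (nat_lit 3))) x23158) (Nat.mul (e (nat_lit 3476)) an))
    (Nat.sub (Nat.sub (Nat.add (Nat.add (Nat.add (Nat.add (Nat.add (Nat.add (Nat.add (Nat.add (Nat.add (Nat.add C x7852) x2020) x4936) x3964) x3316) x3532) x3472) x3476) x3480) (Nat.mul (e (nat_lit 3478)) ap)) x23160) (Nat.mul (e (nat_lit 3478)) an))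
    (Nat.add (Nat.add (Nat.add (Nat.add (Nat.add (Nat.add (Nat.add (Nat.add C x3480) x7854) x2022) x4938) x3966) x3318) x3534) x3478)
    (Nat.sub (Nat.sub (Nat.add (Nat.add (Nat.add (Nat.add (Nat.add (Nat.add (Nat.add (Nat.add (Nat.add (Nat.add C x3500) x7874) x2042) x4958) x3986) x3338) x3446) x3518) x3506) (Nat.mul (e (nat_lit 3500)) ap)) x23182) (Nat.mul (e (nat_lit 3500)) an))
    (Nat.sub (Nat.sub (Nat.sub (Nat.add (Nat.add (Nat.add (Nat.add (Nat.add (Nat.add (Nat.add (Nat.add (Nat.add (Nat.add C x7880) x2048) x4964) x3992) x3344) x3452) x3524) x3500) x3508) (Nat.mul (e (nat_lit 3506)) ap)) x3506) x23188) (Nat.mul (e (nat_lit 3506)) an))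
    (Nat.sub (Nat.sub (Nat.add (Nat.add (Nat.add (Nat.add (Nat.add (Nat.add (Nat.add (Nat.add (Nat.add (Nat.add C x3508) x7882) x2050) x4966) x3994) x3346) x3454) x3526) x3506) (Nat.mul (e (nat_lit 3508)) ap)) x23190) (Nat.mul (e (nat_lit 3508)) an))
    (Nat.sub (Nat.sub (Nat.add (Nat.add (Nat.add (Nat.add (Nat.add (Nat.add (Nat.add (Nat.add (Nat.add (Nat.add C x7892) x2060) x4976) x4004) x3356) x3464) x3572) x3500) x3524) (Nat.mul (e (nat_lit 3518)) ap)) x23200) (Nat.mul (e (nat_lit 3518)) an))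
    (Nat.sub (Nat.sub (Nat.add (Nat.add (Nat.add (Nat.add (Nat.add (Nat.add (Nat.add (Nat.add (Nat.add (Nat.add (Nat.add (Nat.add (Nat.add C x7898) x2066) x4982) x4010) x3362) x3470) x3578) x3506) x3542) x3518) x3530) x3526) (Nat.mul (e (nat_lit 3524)) ap)) x23206) (Nat.mul (e (nat_lit 3524)) an))
    (Nat.sub (Nat.sub (Nat.add (Nat.add (Nat.add (Nat.add (Nat.add (Nat.add (Nat.add (Nat.add (Nat.add (Nat.add (Nat.add (Nat.add (Nat.add C x3526) x7900) x2068) x4984) x4012) x3364) x3472) x3580) x3508) x3544) x3532) x3524) (Nat.mul (e (nat_lit 3526)) ap)) x23208) (Nat.mul (e (nat_lit 3526)) an))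
    (Nat.sub (Nat.sub (Nat.sub (Nat.add (Nat.add (Nat.add (Nat.add (Nat.add (Nat.add (Nat.add (Nat.add (Nat.add (Nat.add (Nat.add C x7904) x2072) x4988) x4016) x3368) x3476) x3584) x3548) x3524) x3532) (Nat.mul (e (nat_lit 3530)) ap)) (Nat.mul x3530 (nat_lit 2))) x23212) (Nat.mul (e (nat_lit 3530)) an))
    (Nat.sub (Nat.sub (Nat.add (Nat.add (Nat.add (Nat.add (Nat.add (Nat.add (Nat.add (Nat.add (Nat.add (Nat.add (Nat.add (Nat.add (Nat.add C x3532) x7906) x2074) x4990) x4018) x3370) x3478) x3586) x3550) x3526) x3530) x3534) (Nat.mul (e (nat_lit 3532)) ap)) x23214) (Nat.mul (e (nat_lit 3532)) an))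
    (Nat.add (Nat.add (Nat.add (Nat.add (Nat.add (Nat.add (Nat.add (Nat.add (Nat.add (Nat.add C (Nat.mul x3534 (nat_lit 2))) x7908) x2076) x4992) x4020) x3372) x3480) x3588) x3552) x3532)
    (Nat.sub (Nat.sub (Nat.sub (Nat.add (Nat.add (Nat.add (Nat.add (Nat.add (Nat.add (Nat.add (Nat.add (Nat.add (Nat.add C x7916) x2084) x5000) x4028) x3380) x3596) x3524) x3548) x3544) (Nat.mul (e (nat_lit 3542)) ap)) x3542) x23224) (Nat.mul (e (nat_lit 3542)) an))
    (Nat.sub (Nat.sub (Nat.sub (Nat.add (Nat.add (Nat.add (Nat.add (Nat.add (Nat.add (Nat.add (Nat.add (Nat.add (Nat.add C x7918) x2086) x5002) x4030) x3382) x3598) x3526) x3550) x3542) (Nat.mul (e (nat_lit 3544)) ap)) x3544) x23226) (Nat.mul (e (nat_lit 3544)) an))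
    (Nat.sub (Nat.sub (Nat.sub (Nat.add (Nat.add (Nat.add (Nat.add (Nat.add (Nat.add (Nat.add (Nat.add (Nat.add (Nat.add C x7922) x2090) x5006) x4034) x3386) x3602) x3530) x3542) x3550) (Nat.mul (e (nat_lit 3548)) ap)) x3548) x23230) (Nat.mul (e (nat_lit 3548)) an))
    (Nat.sub (Nat.add (Nat.add (Nat.add (Nat.add (Nat.add (Nat.add (Nat.add (Nat.add (Nat.add (Nat.add (Nat.add (Nat.add C x3550) x7924) x2092) x5008) x4036) x3388) x3604) x3532) x3544) x3556) x3548) x3552) x23232)
    (Nat.add (Nat.add (Nat.add (Nat.add (Nat.add (Nat.add (Nat.add (Nat.add (Nat.add (Nat.add C x3552) x7926) x2094) x5010) x4038) x3390) x3606) x3534) x3558) x3550)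
    (Nat.sub (Nat.add (Nat.add (Nat.add (Nat.add (Nat.add (Nat.add (Nat.add (Nat.add (Nat.add C x3556) x7930) x2098) x5014) x4042) x3394) x3610) x3550) x3558) x23238)
    (Nat.add (Nat.add (Nat.add (Nat.add (Nat.add (Nat.add (Nat.add (Nat.add (Nat.add C (Nat.mul x3558 (nat_lit 3))) x7932) x2100) x5016) x4044) x3396) x3612) x3552) x3556)
    (Nat.sub (Nat.sub (Nat.add (Nat.add (Nat.add (Nat.add (Nat.add (Nat.add (Nat.add (Nat.add C x3572) x7946) x2114) x5030) x4058) x3518) x3578) (Nat.mul (e (nat_lit 3572)) ap)) x23254) (Nat.mul (e (nat_lit 3572)) an))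
    (Nat.sub (Nat.sub (Nat.add (Nat.add (Nat.add (Nat.add (Nat.add (Nat.add (Nat.add (Nat.add (Nat.add (Nat.add C x7952) x2120) x5036) x4064) x3524) x3596) x3572) x3584) x3580) (Nat.mul (e (nat_lit 3578)) ap)) x23260) (Nat.mul (e (nat_lit 3578)) an))
    (Nat.sub (Nat.sub (Nat.add (Nat.add (Nat.add (Nat.add (Nat.add (Nat.add (Nat.add (Nat.add (Nat.add (Nat.add C x3580) x7954) x2122) x5038) x4066) x3526) x3598) x3586) x3578) (Nat.mul (e (nat_lit 3580)) ap)) x23262) (Nat.mul (e (nat_lit 3580)) an))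
    (Nat.sub (Nat.sub (Nat.sub (Nat.add (Nat.add (Nat.add (Nat.add (Nat.add (Nat.add (Nat.add (Nat.add (Nat.add C x7958) x2126) x5042) x4070) x3530) x3602) x3578) x3586) (Nat.mul (e (nat_lit 3584)) ap)) (Nat.mul x3584 (nat_lit 3))) x23266) (Nat.mul (e (nat_lit 3584)) an))
    (Nat.sub (Nat.add (Nat.add (Nat.add (Nat.add (Nat.add (Nat.add (Nat.add (Nat.add (Nat.add C x7960) x2128) x5044) x4072) x3532) x3604) x3580) x3584) x3588) x23268)
    (Nat.add (Nat.add (Nat.add (Nat.add (Nat.add (Nat.add (Nat.add (Nat.add C x3588) x7962) x2130) x5046) x4074) x3534) x3606) x3586)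
    (Nat.sub (Nat.add (Nat.add (Nat.add (Nat.add (Nat.add (Nat.add (Nat.add (Nat.add (Nat.add C x3596) x7970) x2138) x5054) x4082) x3542) x3578) x3602) x3598) x23278)
    (Nat.sub (Nat.sub (Nat.add (Nat.add (Nat.add (Nat.add (Nat.add (Nat.add (Nat.add (Nat.add (Nat.add (Nat.add C x3598) x7972) x2140) x5056) x4084) x3544) x3580) x3604) x3596) (Nat.mul (e (nat_lit 3598)) ap)) x23280) (Nat.mul (e (nat_lit 3598)) an))
    (Nat.sub (Nat.add (Nat.add (Nat.add (Nat.add (Nat.add (Nat.add (Nat.add (Nat.add (Nat.add C x7976) x2144) x5060) x4088) x3548) x3584) x3620) x3596) x3604) x23284)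
    (Nat.sub (Nat.add (Nat.add (Nat.add (Nat.add (Nat.add (Nat.add (Nat.add (Nat.add (Nat.add (Nat.add (Nat.add (Nat.add C (Nat.mul x3604 (nat_lit 2))) x7978) x2146) x5062) x4090) x3550) x3586) x3622) x3598) x3610) x3602) x3606) x23286)
    (Nat.add (Nat.add (Nat.add (Nat.add (Nat.add (Nat.add (Nat.add (Nat.add (Nat.add (Nat.add C (Nat.mul x3606 (nat_lit 2))) x7980) x2148) x5064) x4092) x3552) x3588) x3624) x3612) x3604)
    (Nat.sub (Nat.add (Nat.add (Nat.add (Nat.add (Nat.add (Nat.add (Nat.add (Nat.add (Nat.add C x3610) x7984) x2152) x5068) x4096) x3556) x3628) x3604) x3612) x23292)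
    (Nat.add (Nat.add (Nat.add (Nat.add (Nat.add (Nat.add (Nat.add (Nat.add (Nat.add C (Nat.mul x3612 (nat_lit 3))) x7986) x2154) x5070) x4098) x3558) x3630) x3606) x3610)
    (Nat.sub (Nat.add (Nat.add (Nat.add (Nat.add (Nat.add (Nat.add (Nat.add C x3620) x7994) x2162) x5078) x4106) x3602) x3622) x23302)
    (Nat.sub (Nat.add (Nat.add (Nat.add (Nat.add (Nat.add (Nat.add (Nat.add (Nat.add (Nat.add C (Nat.mul x3622 (nat_lit 2))) x7996) x2164) x5080) x4108) x3604) x3628) x3620) x3624) x23304)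
    (Nat.add (Nat.add (Nat.add (Nat.add (Nat.add (Nat.add (Nat.add (Nat.add C x3624) x7998) x2166) x5082) x4110) x3606) x3630) x3622)
    (Nat.sub (Nat.add (Nat.add (Nat.add (Nat.add (Nat.add (Nat.add (Nat.add (Nat.add C (Nat.mul x3628 (nat_lit 3))) x8002) x2170) x5086) x4114) x3610) x3622) x3630) x23310)
    (Nat.add (Nat.add (Nat.add (Nat.add (Nat.add (Nat.add (Nat.add (Nat.add (Nat.add C (Nat.mul x3630 (nat_lit 4))) x8004) x2172) x5088) x4116) x3612) x3624) x3636) x3628)
    (Nat.add (Nat.add (Nat.add (Nat.add (Nat.add (Nat.add C (Nat.mul x3636 (nat_lit 5))) x8010) x2178) x5094) x4122) x3630)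
    (Nat.sub (Nat.add (Nat.add (Nat.add (Nat.add (Nat.add (Nat.add C (Nat.mul x3698 (nat_lit 2))) x8072) x5156) x3212) x3752) x3716) x23380)
    (Nat.sub (Nat.add (Nat.add (Nat.add (Nat.add (Nat.add (Nat.add C x8090) x5174) x3230) x3770) x3698) x3722) x23398)
    (Nat.sub (Nat.add (Nat.add (Nat.add (Nat.add (Nat.add (Nat.add C x8096) x5180) x3236) x3776) x3716) x3724) x23404)
    (Nat.sub (Nat.add (Nat.add (Nat.add (Nat.add (Nat.add (Nat.add C (Nat.mul x3724 (nat_lit 2))) x8098) x5182) x3238) x3778) x3722) x23406)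
    (Nat.sub (Nat.add (Nat.add (Nat.add (Nat.add (Nat.add (Nat.add C x8126) x5210) x3266) x3914) x3698) x3770) x23434)
    (Nat.sub (Nat.add (Nat.add (Nat.add (Nat.add (Nat.add (Nat.add (Nat.add (Nat.add (Nat.add C x8144) x5228) x3284) x3932) x3716) x3824) x3752) x3788) x3776) x23452)
    (Nat.sub (Nat.sub (Nat.sub (Nat.add (Nat.add (Nat.add (Nat.add (Nat.add (Nat.add (Nat.add (Nat.add (Nat.add (Nat.add C x8150) x5234) x3290) x3938) x3722) x3830) x3794) x3770) x3778) (Nat.mul (e (nat_lit 3776)) ap)) x3776) x23458) (Nat.mul (e (nat_lit 3776)) an))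
    (Nat.sub (Nat.add (Nat.add (Nat.add (Nat.add (Nat.add (Nat.add (Nat.add (Nat.add (Nat.add C x3778) x8152) x5236) x3292) x3940) x3724) x3832) x3796) x3776) x23460)
    (Nat.sub (Nat.sub (Nat.sub (Nat.add (Nat.add (Nat.add (Nat.add (Nat.add (Nat.add (Nat.add (Nat.add C x8162) x5246) x3302) x3950) x3842) x3770) x3794) (Nat.mul (e (nat_lit 3788)) ap)) (Nat.mul x3788 (nat_lit 2))) x23470) (Nat.mul (e (nat_lit 3788)) an))
    (Nat.sub (Nat.sub (Nat.sub (Nat.add (Nat.add (Nat.add (Nat.add (Nat.add (Nat.add (Nat.add (Nat.add (Nat.add (Nat.add C x8168) x5252) x3308) x3956) x3848) x3776) x3788) x3800) x3796) (Nat.mul (e (nat_lit 3794)) ap)) x3794) x23476) (Nat.mul (e (nat_lit 3794)) an))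
    (Nat.sub (Nat.sub (Nat.add (Nat.add (Nat.add (Nat.add (Nat.add (Nat.add (Nat.add (Nat.add (Nat.add C x8170) x5254) x3310) x3958) x3850) x3778) x3802) x3794) (Nat.mul (e (nat_lit 3796)) ap)) x23478) (Nat.mul (e (nat_lit 3796)) an))
    (Nat.sub (Nat.sub (Nat.sub (Nat.add (Nat.add (Nat.add (Nat.add (Nat.add (Nat.add (Nat.add (Nat.add C x8174) x5258) x3314) x3962) x3854) x3794) x3802) (Nat.mul (e (nat_lit 3800)) ap)) (Nat.mul x3800 (nat_lit 2))) x23482) (Nat.mul (e (nat_lit 3800)) an))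
    (Nat.sub (Nat.add (Nat.add (Nat.add (Nat.add (Nat.add (Nat.add (Nat.add (Nat.add (Nat.add C x3802) x8176) x5260) x3316) x3964) x3856) x3796) x3800) x3804) x23484)
    (Nat.add (Nat.add (Nat.add (Nat.add (Nat.add (Nat.add (Nat.add C (Nat.mul x3804 (nat_lit 2))) x8178) x5262) x3318) x3966) x3858) x3802)
    (Nat.sub (Nat.sub (Nat.sub (Nat.add (Nat.add (Nat.add (Nat.add (Nat.add (Nat.add (Nat.add (Nat.add C x8198) x5282) x3338) x3986) x3770) x3842) x3830) (Nat.mul (e (nat_lit 3824)) ap)) (Nat.mul x3824 (nat_lit 2))) x23506) (Nat.mul (e (nat_lit 3824)) an))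
    (Nat.sub (Nat.sub (Nat.sub (Nat.add (Nat.add (Nat.add (Nat.add (Nat.add (Nat.add (Nat.add (Nat.add (Nat.add C x8204) x5288) x3344) x3992) x3776) x3848) x3824) x3832) (Nat.mul (e (nat_lit 3830)) ap)) (Nat.mul x3830 (nat_lit 4))) x23512) (Nat.mul (e (nat_lit 3830)) an))
    (Nat.sub (Nat.sub (Nat.sub (Nat.add (Nat.add (Nat.add (Nat.add (Nat.add (Nat.add (Nat.add (Nat.add C x8206) x5290) x3346) x3994) x3778) x3850) x3830) (Nat.mul (e (nat_lit 3832)) ap)) (Nat.mul x3832 (nat_lit 2))) x23514) (Nat.mul (e (nat_lit 3832)) an))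
    (Nat.sub (Nat.sub (Nat.sub (Nat.add (Nat.add (Nat.add (Nat.add (Nat.add (Nat.add (Nat.add (Nat.add C x8216) x5300) x3356) x4004) x3788) x3824) x3848) (Nat.mul (e (nat_lit 3842)) ap)) (Nat.mul x3842 (nat_lit 2))) x23524) (Nat.mul (e (nat_lit 3842)) an))
    (Nat.sub (Nat.sub (Nat.sub (Nat.add (Nat.add (Nat.add (Nat.add (Nat.add (Nat.add (Nat.add (Nat.add (Nat.add (Nat.add (Nat.add C x8222) x5306) x3362) x4010) x3794) x3830) x3866) x3842) x3854) x3850) (Nat.mul (e (nat_lit 3848)) ap)) (Nat.mul x3848 (nat_lit 2))) x23530) (Nat.mul (e (nat_lit 3848)) an))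
    (Nat.sub (Nat.sub (Nat.sub (Nat.add (Nat.add (Nat.add (Nat.add (Nat.add (Nat.add (Nat.add (Nat.add (Nat.add (Nat.add C x8224) x5308) x3364) x4012) x3796) x3832) x3868) x3856) x3848) (Nat.mul (e (nat_lit 3850)) ap)) x3850) x23532) (Nat.mul (e (nat_lit 3850)) an))
    (Nat.sub (Nat.sub (Nat.sub (Nat.add (Nat.add (Nat.add (Nat.add (Nat.add (Nat.add (Nat.add (Nat.add (Nat.add C x8228) x5312) x3368) x4016) x3800) x3872) x3848) x3856) (Nat.mul (e (nat_lit 3854)) ap)) (Nat.mul x3854 (nat_lit 4))) x23536) (Nat.mul (e (nat_lit 3854)) an))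
    (Nat.sub (Nat.sub (Nat.add (Nat.add (Nat.add (Nat.add (Nat.add (Nat.add (Nat.add (Nat.add (Nat.add C x8230) x5314) x3370) x4018) x3802) x3874) x3850) x3854) x3858) x3856) x23538)
    (Nat.add (Nat.add (Nat.add (Nat.add (Nat.add (Nat.add (Nat.add C x8232) x5316) x3372) x4020) x3804) x3876) x3856)
    (Nat.sub (Nat.sub (Nat.sub (Nat.add (Nat.add (Nat.add (Nat.add (Nat.add (Nat.add (Nat.add (Nat.add C x8240) x5324) x3380) x4028) x3848) x3872) x3868) (Nat.mul (e (nat_lit 3866)) ap)) (Nat.mul x3866 (nat_lit 2))) x23548) (Nat.mul (e (nat_lit 3866)) an))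
    (Nat.sub (Nat.sub (Nat.sub (Nat.add (Nat.add (Nat.add (Nat.add (Nat.add (Nat.add (Nat.add (Nat.add C x8242) x5326) x3382) x4030) x3850) x3874) x3866) (Nat.mul (e (nat_lit 3868)) ap)) (Nat.mul x3868 (nat_lit 2))) x23550) (Nat.mul (e (nat_lit 3868)) an))
    (Nat.sub (Nat.sub (Nat.sub (Nat.add (Nat.add (Nat.add (Nat.add (Nat.add (Nat.add (Nat.add (Nat.add C x8246) x5330) x3386) x4034) x3854) x3866) x3874) (Nat.mul (e (nat_lit 3872)) ap)) (Nat.mul x3872 (nat_lit 2))) x23554) (Nat.mul (e (nat_lit 3872)) an))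
    (Nat.sub (Nat.add (Nat.add (Nat.add (Nat.add (Nat.add (Nat.add (Nat.add (Nat.add (Nat.add C x8248) x5332) x3388) x4036) x3856) x3868) x3880) x3872) x3876) x23556)
    (Nat.add (Nat.add (Nat.add (Nat.add (Nat.add (Nat.add (Nat.add C x8250) x5334) x3390) x4038) x3858) x3882) x3874)
    (Nat.sub (Nat.add (Nat.add (Nat.add (Nat.add (Nat.add (Nat.add C x8254) x5338) x3394) x4042) x3874) x3882) x23562)
    (Nat.add (Nat.add (Nat.add (Nat.add (Nat.add (Nat.add (Nat.add C (Nat.mul x3882 (nat_lit 2))) x8256) x5340) x3396) x4044) x3876) x3880)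
    (Nat.sub (Nat.add (Nat.add (Nat.add (Nat.add (Nat.add (Nat.add C (Nat.mul x3914 (nat_lit 2))) x8288) x5372) x3428) x3752) x3932) x23596)
    (Nat.sub (Nat.add (Nat.add (Nat.add (Nat.add (Nat.add (Nat.add (Nat.add (Nat.add (Nat.add C x3932) x8306) x5390) x3446) x3770) x3986) x3914) x3950) x3938) x23614)
    (Nat.sub (Nat.sub (Nat.add (Nat.add (Nat.add (Nat.add (Nat.add (Nat.add (Nat.add (Nat.add (Nat.add C x8312) x5396) x3452) x3776) x3992) x3956) x3932) x3940) (Nat.mul (e (nat_lit 3938)) ap)) x23620) (Nat.mul (e (nat_lit 3938)) an))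
    (Nat.sub (Nat.sub (Nat.add (Nat.add (Nat.add (Nat.add (Nat.add (Nat.add (Nat.add (Nat.add (Nat.add C (Nat.mul x3940 (nat_lit 2))) x8314) x5398) x3454) x3778) x3994) x3958) x3938) (Nat.mul (e (nat_lit 3940)) ap)) x23622) (Nat.mul (e (nat_lit 3940)) an))
    (Nat.sub (Nat.sub (Nat.sub (Nat.add (Nat.add (Nat.add (Nat.add (Nat.add (Nat.add (Nat.add (Nat.add C x8324) x5408) x3464) x3788) x4004) x3932) x3956) (Nat.mul (e (nat_lit 3950)) ap)) (Nat.mul x3950 (nat_lit 2))) x23632) (Nat.mul (e (nat_lit 3950)) an))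
    (Nat.sub (Nat.sub (Nat.sub (Nat.add (Nat.add (Nat.add (Nat.add (Nat.add (Nat.add (Nat.add (Nat.add (Nat.add (Nat.add C x8330) x5414) x3470) x3794) x4010) x3938) x3950) x3962) x3958) (Nat.mul (e (nat_lit 3956)) ap)) x3956) x23638) (Nat.mul (e (nat_lit 3956)) an))
    (Nat.sub (Nat.sub (Nat.add (Nat.add (Nat.add (Nat.add (Nat.add (Nat.add (Nat.add (Nat.add (Nat.add C x8332) x5416) x3472) x3796) x4012) x3940) x3964) x3956) (Nat.mul (e (nat_lit 3958)) ap)) x23640) (Nat.mul (e (nat_lit 3958)) an))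
    (Nat.sub (Nat.sub (Nat.sub (Nat.add (Nat.add (Nat.add (Nat.add (Nat.add (Nat.add (Nat.add (Nat.add C x8336) x5420) x3476) x3800) x4016) x3956) x3964) (Nat.mul (e (nat_lit 3962)) ap)) (Nat.mul x3962 (nat_lit 2))) x23644) (Nat.mul (e (nat_lit 3962)) an))
    (Nat.sub (Nat.add (Nat.add (Nat.add (Nat.add (Nat.add (Nat.add (Nat.add (Nat.add (Nat.add C x3964) x8338) x5422) x3478) x3802) x4018) x3958) x3962) x3966) x23646)
    (Nat.add (Nat.add (Nat.add (Nat.add (Nat.add (Nat.add (Nat.add C (Nat.mul x3966 (nat_lit 2))) x8340) x5424) x3480) x3804) x4020) x3964)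
    (Nat.sub (Nat.sub (Nat.add (Nat.add (Nat.add (Nat.add (Nat.add (Nat.add (Nat.add (Nat.add (Nat.add (Nat.add C x3986) x8360) x5444) x3500) x3824) x4148) x3932) x4004) x3992) (Nat.mul (e (nat_lit 3986)) ap)) x23668) (Nat.mul (e (nat_lit 3986)) an))
    (Nat.sub (Nat.sub (Nat.sub (Nat.add (Nat.add (Nat.add (Nat.add (Nat.add (Nat.add (Nat.add (Nat.add (Nat.add (Nat.add C x8366) x5450) x3506) x3830) x4154) x3938) x4010) x3986) x3994) (Nat.mul (e (nat_lit 3992)) ap)) x3992) x23674) (Nat.mul (e (nat_lit 3992)) an))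
    (Nat.sub (Nat.sub (Nat.add (Nat.add (Nat.add (Nat.add (Nat.add (Nat.add (Nat.add (Nat.add (Nat.add (Nat.add C x3994) x8368) x5452) x3508) x3832) x4156) x3940) x4012) x3992) (Nat.mul (e (nat_lit 3994)) ap)) x23676) (Nat.mul (e (nat_lit 3994)) an))
    (Nat.sub (Nat.sub (Nat.add (Nat.add (Nat.add (Nat.add (Nat.add (Nat.add (Nat.add (Nat.add (Nat.add (Nat.add C x8378) x5462) x3518) x3842) x4166) x3950) x4058) x3986) x4010) (Nat.mul (e (nat_lit 4004)) ap)) x23686) (Nat.mul (e (nat_lit 4004)) an))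
    (Nat.sub (Nat.sub (Nat.add (Nat.add (Nat.add (Nat.add (Nat.add (Nat.add (Nat.add (Nat.add (Nat.add (Nat.add (Nat.add (Nat.add (Nat.add C x8384) x5468) x3524) x3848) x4172) x3956) x4064) x3992) x4028) x4004) x4016) x4012) (Nat.mul (e (nat_lit 4010)) ap)) x23692) (Nat.mul (e (nat_lit 4010)) an))
    (Nat.sub (Nat.sub (Nat.add (Nat.add (Nat.add (Nat.add (Nat.add (Nat.add (Nat.add (Nat.add (Nat.add (Nat.add (Nat.add (Nat.add (Nat.add C x4012) x8386) x5470) x3526) x3850) x4174) x3958) x4066) x3994) x4030) x4018) x4010) (Nat.mul (e (nat_lit 4012)) ap)) x23694) (Nat.mul (e (nat_lit 4012)) an))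
    (Nat.sub (Nat.sub (Nat.sub (Nat.add (Nat.add (Nat.add (Nat.add (Nat.add (Nat.add (Nat.add (Nat.add (Nat.add (Nat.add (Nat.add C x8390) x5474) x3530) x3854) x4178) x3962) x4070) x4034) x4010) x4018) (Nat.mul (e (nat_lit 4016)) ap)) (Nat.mul x4016 (nat_lit 2))) x23698) (Nat.mul (e (nat_lit 4016)) an))
    (Nat.sub (Nat.add (Nat.add (Nat.add (Nat.add (Nat.add (Nat.add (Nat.add (Nat.add (Nat.add (Nat.add (Nat.add (Nat.add C x4018) x8392) x5476) x3532) x3856) x4180) x3964) x4072) x4036) x4012) x4016) x4020) x23700)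
    (Nat.add (Nat.add (Nat.add (Nat.add (Nat.add (Nat.add (Nat.add (Nat.add (Nat.add (Nat.add C (Nat.mul x4020 (nat_lit 2))) x8394) x5478) x3534) x3858) x4182) x3966) x4074) x4038) x4018)
    (Nat.sub (Nat.sub (Nat.sub (Nat.add (Nat.add (Nat.add (Nat.add (Nat.add (Nat.add (Nat.add (Nat.add (Nat.add (Nat.add C x8402) x5486) x3542) x3866) x4190) x4082) x4010) x4034) x4030) (Nat.mul (e (nat_lit 4028)) ap)) x4028) x23710) (Nat.mul (e (nat_lit 4028)) an))
    (Nat.sub (Nat.sub (Nat.add (Nat.add (Nat.add (Nat.add (Nat.add (Nat.add (Nat.add (Nat.add (Nat.add C x8404) x5488) x3544) x3868) x4192) x4084) x4012) x4036) x4028) x4030) x23712)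
    (Nat.sub (Nat.sub (Nat.sub (Nat.add (Nat.add (Nat.add (Nat.add (Nat.add (Nat.add (Nat.add (Nat.add (Nat.add (Nat.add C x8408) x5492) x3548) x3872) x4196) x4088) x4016) x4028) x4036) (Nat.mul (e (nat_lit 4034)) ap)) x4034) x23716) (Nat.mul (e (nat_lit 4034)) an))
    (Nat.sub (Nat.add (Nat.add (Nat.add (Nat.add (Nat.add (Nat.add (Nat.add (Nat.add (Nat.add (Nat.add (Nat.add (Nat.add C x4036) x8410) x5494) x3550) x3874) x4198) x4090) x4018) x4030) x4042) x4034) x4038) x23718)
    (Nat.add (Nat.add (Nat.add (Nat.add (Nat.add (Nat.add (Nat.add (Nat.add (Nat.add (Nat.add C x4038) x8412) x5496) x3552) x3876) x4200) x4092) x4020) x4044) x4036)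
    (Nat.sub (Nat.add (Nat.add (Nat.add (Nat.add (Nat.add (Nat.add (Nat.add (Nat.add (Nat.add C x4042) x8416) x5500) x3556) x3880) x4204) x4096) x4036) x4044) x23724)
    (Nat.add (Nat.add (Nat.add (Nat.add (Nat.add (Nat.add (Nat.add (Nat.add (Nat.add C (Nat.mul x4044 (nat_lit 3))) x8418) x5502) x3558) x3882) x4206) x4098) x4038) x4042)
    (Nat.sub (Nat.sub (Nat.add (Nat.add (Nat.add (Nat.add (Nat.add (Nat.add (Nat.add C x8432) x5516) x3572) x4220) x4004) x4064) (Nat.mul (e (nat_lit 4058)) ap)) x23740) (Nat.mul (e (nat_lit 4058)) an))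
    (Nat.sub (Nat.sub (Nat.sub (Nat.add (Nat.add (Nat.add (Nat.add (Nat.add (Nat.add (Nat.add (Nat.add (Nat.add (Nat.add C x8438) x5522) x3578) x4226) x4010) x4082) x4058) x4070) x4066) (Nat.mul (e (nat_lit 4064)) ap)) x4064) x23746) (Nat.mul (e (nat_lit 4064)) an))
    (Nat.sub (Nat.add (Nat.add (Nat.add (Nat.add (Nat.add (Nat.add (Nat.add (Nat.add C x8440) x5524) x3580) x4228) x4012) x4084) x4072) x4064) x23748)
    (Nat.sub (Nat.sub (Nat.sub (Nat.add (Nat.add (Nat.add (Nat.add (Nat.add (Nat.add (Nat.add (Nat.add (Nat.add C x8444) x5528) x3584) x4232) x4016) x4088) x4064) x4072) (Nat.mul (e (nat_lit 4070)) ap)) (Nat.mul x4070 (nat_lit 4))) x23752) (Nat.mul (e (nat_lit 4070)) an))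
    (Nat.sub (Nat.sub (Nat.add (Nat.add (Nat.add (Nat.add (Nat.add (Nat.add (Nat.add (Nat.add (Nat.add C x8446) x5530) x3586) x4234) x4018) x4090) x4066) x4070) x4074) x4072) x23754)
    (Nat.add (Nat.add (Nat.add (Nat.add (Nat.add (Nat.add (Nat.add C x8448) x5532) x3588) x4236) x4020) x4092) x4072)
    (Nat.sub (Nat.sub (Nat.add (Nat.add (Nat.add (Nat.add (Nat.add (Nat.add (Nat.add (Nat.add (Nat.add C x8456) x5540) x3596) x4244) x4028) x4064) x4088) x4084) (Nat.mul (e (nat_lit 4082)) ap)) x23764) (Nat.mul (e (nat_lit 4082)) an))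
    (Nat.sub (Nat.add (Nat.add (Nat.add (Nat.add (Nat.add (Nat.add (Nat.add (Nat.add C x8458) x5542) x3598) x4246) x4030) x4066) x4090) x4082) x23766)
    (Nat.sub (Nat.sub (Nat.sub (Nat.add (Nat.add (Nat.add (Nat.add (Nat.add (Nat.add (Nat.add (Nat.add (Nat.add (Nat.add C x8462) x5546) x3602) x4250) x4034) x4070) x4106) x4082) x4090) (Nat.mul (e (nat_lit 4088)) ap)) x4088) x23770) (Nat.mul (e (nat_lit 4088)) an))
    (Nat.sub (Nat.add (Nat.add (Nat.add (Nat.add (Nat.add (Nat.add (Nat.add (Nat.add (Nat.add (Nat.add (Nat.add (Nat.add C x4090) x8464) x5548) x3604) x4252) x4036) x4072) x4108) x4084) x4096) x4088) x4092) x23772)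
    (Nat.add (Nat.add (Nat.add (Nat.add (Nat.add (Nat.add (Nat.add (Nat.add (Nat.add (Nat.add C x4092) x8466) x5550) x3606) x4254) x4038) x4074) x4110) x4098) x4090)
    (Nat.sub (Nat.add (Nat.add (Nat.add (Nat.add (Nat.add (Nat.add (Nat.add (Nat.add C x8470) x5554) x3610) x4258) x4042) x4114) x4090) x4098) x23778)
    (Nat.add (Nat.add (Nat.add (Nat.add (Nat.add (Nat.add (Nat.add (Nat.add (Nat.add C (Nat.mul x4098 (nat_lit 2))) x8472) x5556) x3612) x4260) x4044) x4116) x4092) x4096)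
    (Nat.sub (Nat.add (Nat.add (Nat.add (Nat.add (Nat.add (Nat.add C x8480) x5564) x3620) x4268) x4088) x4108) x23788)
    (Nat.sub (Nat.add (Nat.add (Nat.add (Nat.add (Nat.add (Nat.add (Nat.add (Nat.add (Nat.add C x4108) x8482) x5566) x3622) x4270) x4090) x4114) x4106) x4110) x23790)
    (Nat.add (Nat.add (Nat.add (Nat.add (Nat.add (Nat.add (Nat.add C x8484) x5568) x3624) x4272) x4092) x4116) x4108)
    (Nat.sub (Nat.add (Nat.add (Nat.add (Nat.add (Nat.add (Nat.add (Nat.add (Nat.add C (Nat.mul x4114 (nat_lit 2))) x8488) x5572) x3628) x4276) x4096) x4108) x4116) x23796)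
    (Nat.add (Nat.add (Nat.add (Nat.add (Nat.add (Nat.add (Nat.add (Nat.add (Nat.add C (Nat.mul x4116 (nat_lit 3))) x8490) x5574) x3630) x4278) x4098) x4110) x4122) x4114)
    (Nat.add (Nat.add (Nat.add (Nat.add (Nat.add (Nat.add C (Nat.mul x4122 (nat_lit 4))) x8496) x5580) x3636) x4284) x4116)
    (Nat.sub (Nat.sub (Nat.add (Nat.add (Nat.add (Nat.add (Nat.add (Nat.add (Nat.add C (Nat.mul x4148 (nat_lit 2))) x8522) x5606) x3986) x4166) x4154) (Nat.mul (e (nat_lit 4148)) ap)) x23830) (Nat.mul (e (nat_lit 4148)) an))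
    (Nat.sub (Nat.sub (Nat.add (Nat.add (Nat.add (Nat.add (Nat.add (Nat.add (Nat.add C x8528) x5612) x3992) x4172) x4148) x4156) (Nat.mul (e (nat_lit 4154)) ap)) x23836) (Nat.mul (e (nat_lit 4154)) an))
    (Nat.sub (Nat.sub (Nat.add (Nat.add (Nat.add (Nat.add (Nat.add (Nat.add (Nat.add C (Nat.mul x4156 (nat_lit 2))) x8530) x5614) x3994) x4174) x4154) (Nat.mul (e (nat_lit 4156)) ap)) x23838) (Nat.mul (e (nat_lit 4156)) an))
    (Nat.sub (Nat.add (Nat.add (Nat.add (Nat.add (Nat.add (Nat.add C x8540) x5624) x4004) x4220) x4148) x4172) x23848)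
    (Nat.sub (Nat.sub (Nat.add (Nat.add (Nat.add (Nat.add (Nat.add (Nat.add (Nat.add (Nat.add (Nat.add (Nat.add C x8546) x5630) x4010) x4226) x4154) x4190) x4166) x4178) x4174) (Nat.mul (e (nat_lit 4172)) ap)) x23854) (Nat.mul (e (nat_lit 4172)) an))
    (Nat.sub (Nat.add (Nat.add (Nat.add (Nat.add (Nat.add (Nat.add (Nat.add (Nat.add (Nat.add C x4174) x8548) x5632) x4012) x4228) x4156) x4192) x4180) x4172) x23856)
    (Nat.sub (Nat.sub (Nat.sub (Nat.add (Nat.add (Nat.add (Nat.add (Nat.add (Nat.add (Nat.add (Nat.add C x8552) x5636) x4016) x4232) x4196) x4172) x4180) (Nat.mul (e (nat_lit 4178)) ap)) (Nat.mul x4178 (nat_lit 2))) x23860) (Nat.mul (e (nat_lit 4178)) an))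
    (Nat.sub (Nat.add (Nat.add (Nat.add (Nat.add (Nat.add (Nat.add (Nat.add (Nat.add (Nat.add C x4180) x8554) x5638) x4018) x4234) x4198) x4174) x4178) x4182) x23862)
    (Nat.add (Nat.add (Nat.add (Nat.add (Nat.add (Nat.add (Nat.add C (Nat.mul x4182 (nat_lit 2))) x8556) x5640) x4020) x4236) x4200) x4180)
    (Nat.sub (Nat.sub (Nat.add (Nat.add (Nat.add (Nat.add (Nat.add (Nat.add (Nat.add C x8564) x5648) x4028) x4244) x4172) x4196) x4192) (Nat.mul x4190 (nat_lit 2))) x23872)
    (Nat.sub (Nat.sub (Nat.add (Nat.add (Nat.add (Nat.add (Nat.add (Nat.add (Nat.add C x8566) x5650) x4030) x4246) x4174) x4198) x4190) (Nat.mul x4192 (nat_lit 2))) x23874)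
    (Nat.sub (Nat.sub (Nat.sub (Nat.add (Nat.add (Nat.add (Nat.add (Nat.add (Nat.add (Nat.add (Nat.add C x8570) x5654) x4034) x4250) x4178) x4190) x4198) (Nat.mul (e (nat_lit 4196)) ap)) (Nat.mul x4196 (nat_lit 2))) x23878) (Nat.mul (e (nat_lit 4196)) an))
    (Nat.sub (Nat.add (Nat.add (Nat.add (Nat.add (Nat.add (Nat.add (Nat.add (Nat.add (Nat.add C x8572) x5656) x4036) x4252) x4180) x4192) x4204) x4196) x4200) x23880)
    (Nat.add (Nat.add (Nat.add (Nat.add (Nat.add (Nat.add (Nat.add C x8574) x5658) x4038) x4254) x4182) x4206) x4198)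
    (Nat.sub (Nat.add (Nat.add (Nat.add (Nat.add (Nat.add (Nat.add C x8578) x5662) x4042) x4258) x4198) x4206) x23886)
    (Nat.add (Nat.add (Nat.add (Nat.add (Nat.add (Nat.add (Nat.add C (Nat.mul x4206 (nat_lit 2))) x8580) x5664) x4044) x4260) x4200) x4204)
    (Nat.sub (Nat.add (Nat.add (Nat.add (Nat.add (Nat.add (Nat.add C (Nat.mul x4220 (nat_lit 2))) x8594) x5678) x4058) x4166) x4226) x23902)
    (Nat.sub (Nat.add (Nat.add (Nat.add (Nat.add (Nat.add (Nat.add (Nat.add (Nat.add (Nat.add C x4226) x8600) x5684) x4064) x4172) x4244) x4220) x4232) x4228) x23908)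
    (Nat.sub (Nat.add (Nat.add (Nat.add (Nat.add (Nat.add (Nat.add (Nat.add (Nat.add C (Nat.mul x4228 (nat_lit 2))) x8602) x5686) x4066) x4174) x4246) x4234) x4226) x23910)
    (Nat.sub (Nat.sub (Nat.add (Nat.add (Nat.add (Nat.add (Nat.add (Nat.add (Nat.add C x8606) x5690) x4070) x4178) x4250) x4226) x4234) (Nat.mul x4232 (nat_lit 2))) x23914)
    (Nat.sub (Nat.add (Nat.add (Nat.add (Nat.add (Nat.add (Nat.add (Nat.add (Nat.add (Nat.add C x4234) x8608) x5692) x4072) x4180) x4252) x4228) x4232) x4236) x23916)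
    (Nat.add (Nat.add (Nat.add (Nat.add (Nat.add (Nat.add (Nat.add C (Nat.mul x4236 (nat_lit 2))) x8610) x5694) x4074) x4182) x4254) x4234)
    (Nat.sub (Nat.add (Nat.add (Nat.add (Nat.add (Nat.add (Nat.add (Nat.add (Nat.add (Nat.add C x4244) x8618) x5702) x4082) x4190) x4298) x4226) x4250) x4246) x23926)
    (Nat.sub (Nat.add (Nat.add (Nat.add (Nat.add (Nat.add (Nat.add (Nat.add (Nat.add (Nat.add C x4246) x8620) x5704) x4084) x4192) x4300) x4228) x4252) x4244) x23928)
    (Nat.sub (Nat.add (Nat.add (Nat.add (Nat.add (Nat.add (Nat.add (Nat.add (Nat.add (Nat.add C x8624) x5708) x4088) x4196) x4304) x4232) x4268) x4244) x4252) x23932)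
    (Nat.sub (Nat.add (Nat.add (Nat.add (Nat.add (Nat.add (Nat.add (Nat.add (Nat.add (Nat.add (Nat.add (Nat.add (Nat.add C (Nat.mul x4252 (nat_lit 2))) x8626) x5710) x4090) x4198) x4306) x4234) x4270) x4246) x4258) x4250) x4254) x23934)
    (Nat.add (Nat.add (Nat.add (Nat.add (Nat.add (Nat.add (Nat.add (Nat.add (Nat.add (Nat.add C (Nat.mul x4254 (nat_lit 2))) x8628) x5712) x4092) x4200) x4308) x4236) x4272) x4260) x4252)
    (Nat.sub (Nat.add (Nat.add (Nat.add (Nat.add (Nat.add (Nat.add (Nat.add (Nat.add (Nat.add C x4258) x8632) x5716) x4096) x4204) x4312) x4276) x4252) x4260) x23940)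
    (Nat.add (Nat.add (Nat.add (Nat.add (Nat.add (Nat.add (Nat.add (Nat.add (Nat.add C (Nat.mul x4260 (nat_lit 3))) x8634) x5718) x4098) x4206) x4314) x4278) x4254) x4258)
    (Nat.sub (Nat.add (Nat.add (Nat.add (Nat.add (Nat.add (Nat.add C x8642) x5726) x4106) x4322) x4250) x4270) x23950)
    (Nat.sub (Nat.add (Nat.add (Nat.add (Nat.add (Nat.add (Nat.add (Nat.add (Nat.add (Nat.add C x4270) x8644) x5728) x4108) x4324) x4252) x4276) x4268) x4272) x23952)
    (Nat.add (Nat.add (Nat.add (Nat.add (Nat.add (Nat.add (Nat.add C x8646) x5730) x4110) x4326) x4254) x4278) x4270)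
    (Nat.sub (Nat.add (Nat.add (Nat.add (Nat.add (Nat.add (Nat.add (Nat.add (Nat.add C (Nat.mul x4276 (nat_lit 2))) x8650) x5734) x4114) x4330) x4258) x4270) x4278) x23958)
    (Nat.add (Nat.add (Nat.add (Nat.add (Nat.add (Nat.add (Nat.add (Nat.add (Nat.add C (Nat.mul x4278 (nat_lit 3))) x8652) x5736) x4116) x4332) x4260) x4272) x4284) x4276)
    (Nat.add (Nat.add (Nat.add (Nat.add (Nat.add (Nat.add C (Nat.mul x4284 (nat_lit 4))) x8658) x5742) x4122) x4338) x4278)
    (Nat.sub (Nat.add (Nat.add (Nat.add (Nat.add (Nat.add (Nat.add C (Nat.mul x4298 (nat_lit 2))) x8672) x5756) x4244) x4304) x4300) x23980)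
    (Nat.sub (Nat.add (Nat.add (Nat.add (Nat.add (Nat.add (Nat.add C (Nat.mul x4300 (nat_lit 2))) x8674) x5758) x4246) x4306) x4298) x23982)
    (Nat.sub (Nat.add (Nat.add (Nat.add (Nat.add (Nat.add (Nat.add C x8678) x5762) x4250) x4322) x4298) x4306) x23986)
    (Nat.sub (Nat.add (Nat.add (Nat.add (Nat.add (Nat.add (Nat.add (Nat.add (Nat.add (Nat.add C (Nat.mul x4306 (nat_lit 2))) x8680) x5764) x4252) x4324) x4300) x4312) x4304) x4308) x23988)
    (Nat.add (Nat.add (Nat.add (Nat.add (Nat.add (Nat.add (Nat.add C (Nat.mul x4308 (nat_lit 2))) x8682) x5766) x4254) x4326) x4314) x4306)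
    (Nat.sub (Nat.add (Nat.add (Nat.add (Nat.add (Nat.add (Nat.add C x8686) x5770) x4258) x4330) x4306) x4314) x23994)
    (Nat.add (Nat.add (Nat.add (Nat.add (Nat.add (Nat.add (Nat.add C (Nat.mul x4314 (nat_lit 2))) x8688) x5772) x4260) x4332) x4308) x4312)
    (Nat.sub (Nat.add (Nat.add (Nat.add (Nat.add (Nat.add (Nat.add C (Nat.mul x4322 (nat_lit 2))) x8696) x5780) x4268) x4304) x4324) x24004)
    (Nat.sub (Nat.add (Nat.add (Nat.add (Nat.add (Nat.add (Nat.add (Nat.add (Nat.add C (Nat.mul x4324 (nat_lit 3))) x8698) x5782) x4270) x4306) x4330) x4322) x4326) x24006)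
    (Nat.add (Nat.add (Nat.add (Nat.add (Nat.add (Nat.add (Nat.add C (Nat.mul x4326 (nat_lit 2))) x8700) x5784) x4272) x4308) x4332) x4324)
    (Nat.sub (Nat.add (Nat.add (Nat.add (Nat.add (Nat.add (Nat.add (Nat.add (Nat.add C (Nat.mul x4330 (nat_lit 3))) x8704) x5788) x4276) x4312) x4348) x4324) x4332) x24012)
    (Nat.add (Nat.add (Nat.add (Nat.add (Nat.add (Nat.add (Nat.add (Nat.add (Nat.add C (Nat.mul x4332 (nat_lit 4))) x8706) x5790) x4278) x4314) x4350) x4326) x4338) x4330)
    (Nat.add (Nat.add (Nat.add (Nat.add (Nat.add (Nat.add C (Nat.mul x4338 (nat_lit 4))) x8712) x5796) x4284) x4356) x4332)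
    (Nat.sub (Nat.add (Nat.add (Nat.add (Nat.add (Nat.add C (Nat.mul x4348 (nat_lit 4))) x8722) x5806) x4330) x4350) x24030)
    (Nat.add (Nat.add (Nat.add (Nat.add (Nat.add (Nat.add C (Nat.mul x4350 (nat_lit 4))) x8724) x5808) x4332) x4356) x4348)
    (Nat.add (Nat.add (Nat.add (Nat.add (Nat.add C (Nat.mul x4356 (nat_lit 6))) x8730) x5814) x4338) x4350)
    (Nat.sub (Nat.add (Nat.add (Nat.add (Nat.add C (Nat.mul x4454 (nat_lit 2))) x8828) x2996) x4508) x24136)
    (Nat.sub (Nat.add (Nat.add (Nat.add (Nat.add (Nat.add (Nat.add (Nat.add C x4508) x8882) x3050) x4670) x4454) x4562) x4526) x24190)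
    (Nat.sub (Nat.add (Nat.add (Nat.add (Nat.add (Nat.add (Nat.add C x8900) x3068) x4688) x4580) x4508) x4532) x24208)
    (Nat.sub (Nat.add (Nat.add (Nat.add (Nat.add (Nat.add (Nat.add C x8906) x3074) x4694) x4586) x4526) x4534) x24214)
    (Nat.sub (Nat.add (Nat.add (Nat.add (Nat.add (Nat.add (Nat.add C (Nat.mul x4534 (nat_lit 2))) x8908) x3076) x4696) x4588) x4532) x24216)
    (Nat.sub (Nat.sub (Nat.add (Nat.add (Nat.add (Nat.add (Nat.add C x8936) x3104) x4724) x4508) x4580) (Nat.mul x4562 (nat_lit 2))) x24244)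
    (Nat.sub (Nat.sub (Nat.add (Nat.add (Nat.add (Nat.add (Nat.add (Nat.add (Nat.add C x8954) x3122) x4742) x4526) x4562) x4598) x4586) x4580) x24262)
    (Nat.sub (Nat.sub (Nat.sub (Nat.add (Nat.add (Nat.add (Nat.add (Nat.add (Nat.add (Nat.add (Nat.add C x8960) x3128) x4748) x4532) x4604) x4580) x4588) (Nat.mul (e (nat_lit 4586)) ap)) (Nat.mul x4586 (nat_lit 2))) x24268) (Nat.mul (e (nat_lit 4586)) an))
    (Nat.sub (Nat.add (Nat.add (Nat.add (Nat.add (Nat.add (Nat.add C x8962) x3130) x4750) x4534) x4606) x4586) x24270)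
    (Nat.sub (Nat.sub (Nat.sub (Nat.add (Nat.add (Nat.add (Nat.add (Nat.add (Nat.add C x8972) x3140) x4760) x4580) x4604) (Nat.mul (e (nat_lit 4598)) ap)) (Nat.mul x4598 (nat_lit 2))) x24280) (Nat.mul (e (nat_lit 4598)) an))
    (Nat.sub (Nat.sub (Nat.add (Nat.add (Nat.add (Nat.add (Nat.add (Nat.add (Nat.add C x8978) x3146) x4766) x4586) x4598) x4610) x4606) x4604) x24286)
    (Nat.sub (Nat.add (Nat.add (Nat.add (Nat.add (Nat.add (Nat.add C x8980) x3148) x4768) x4588) x4612) x4604) x24288)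
    (Nat.sub (Nat.sub (Nat.add (Nat.add (Nat.add (Nat.add (Nat.add C x8984) x3152) x4772) x4604) x4612) (Nat.mul x4610 (nat_lit 2))) x24292)
    (Nat.sub (Nat.add (Nat.add (Nat.add (Nat.add (Nat.add (Nat.add (Nat.add C x4612) x8986) x3154) x4774) x4606) x4610) x4614) x24294)
    (Nat.add (Nat.add (Nat.add (Nat.add (Nat.add C (Nat.mul x4614 (nat_lit 2))) x8988) x3156) x4776) x4612)
    (Nat.sub (Nat.add (Nat.add (Nat.add (Nat.add (Nat.add (Nat.add C x9044) x3212) x5156) x4508) x4724) x4688) x24352)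
    (Nat.sub (Nat.sub (Nat.add (Nat.add (Nat.add (Nat.add (Nat.add (Nat.add (Nat.add C x9062) x3230) x5174) x4526) x4742) x4670) x4694) (Nat.mul x4688 (nat_lit 2))) x24370)
    (Nat.sub (Nat.sub (Nat.add (Nat.add (Nat.add (Nat.add (Nat.add (Nat.add (Nat.add C x9068) x3236) x5180) x4532) x4748) x4688) x4696) (Nat.mul x4694 (nat_lit 2))) x24376)
    (Nat.sub (Nat.add (Nat.add (Nat.add (Nat.add (Nat.add (Nat.add C x9070) x3238) x5182) x4534) x4750) x4694) x24378)
    (Nat.sub (Nat.sub (Nat.add (Nat.add (Nat.add (Nat.add (Nat.add (Nat.add (Nat.add C x9098) x3266) x5210) x4562) x4886) x4670) x4742) x4724) x24406)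
    (Nat.sub (Nat.sub (Nat.add (Nat.add (Nat.add (Nat.add (Nat.add (Nat.add (Nat.add (Nat.add (Nat.add (Nat.add C x9116) x3284) x5228) x4580) x4904) x4688) x4796) x4724) x4760) x4748) x4742) x24424)
    (Nat.sub (Nat.sub (Nat.sub (Nat.add (Nat.add (Nat.add (Nat.add (Nat.add (Nat.add (Nat.add (Nat.add (Nat.add (Nat.add (Nat.add C x9122) x3290) x5234) x4586) x4910) x4694) x4802) x4766) x4742) x4750) (Nat.mul (e (nat_lit 4748)) ap)) (Nat.mul x4748 (nat_lit 2))) x24430) (Nat.mul (e (nat_lit 4748)) an))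
    (Nat.sub (Nat.add (Nat.add (Nat.add (Nat.add (Nat.add (Nat.add (Nat.add (Nat.add (Nat.add C x9124) x3292) x5236) x4588) x4912) x4696) x4804) x4768) x4748) x24432)
    (Nat.sub (Nat.sub (Nat.sub (Nat.add (Nat.add (Nat.add (Nat.add (Nat.add (Nat.add (Nat.add (Nat.add (Nat.add C x9134) x3302) x5246) x4598) x4922) x4814) x4742) x4766) (Nat.mul (e (nat_lit 4760)) ap)) (Nat.mul x4760 (nat_lit 3))) x24442) (Nat.mul (e (nat_lit 4760)) an))
    (Nat.sub (Nat.sub (Nat.sub (Nat.add (Nat.add (Nat.add (Nat.add (Nat.add (Nat.add (Nat.add (Nat.add (Nat.add (Nat.add (Nat.add C x9140) x3308) x5252) x4604) x4928) x4820) x4748) x4760) x4772) x4768) (Nat.mul (e (nat_lit 4766)) ap)) (Nat.mul x4766 (nat_lit 2))) x24448) (Nat.mul (e (nat_lit 4766)) an))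
    (Nat.sub (Nat.sub (Nat.add (Nat.add (Nat.add (Nat.add (Nat.add (Nat.add (Nat.add (Nat.add (Nat.add C x9142) x3310) x5254) x4606) x4930) x4822) x4750) x4774) x4766) x4768) x24450)
    (Nat.sub (Nat.sub (Nat.add (Nat.add (Nat.add (Nat.add (Nat.add (Nat.add (Nat.add (Nat.add C x9146) x3314) x5258) x4610) x4934) x4826) x4766) x4774) (Nat.mul x4772 (nat_lit 3))) x24454)
    (Nat.sub (Nat.add (Nat.add (Nat.add (Nat.add (Nat.add (Nat.add (Nat.add (Nat.add (Nat.add C x9148) x3316) x5260) x4612) x4936) x4828) x4768) x4772) x4776) x24456)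
    (Nat.add (Nat.add (Nat.add (Nat.add (Nat.add (Nat.add (Nat.add (Nat.add C x4776) x9150) x3318) x5262) x4614) x4938) x4830) x4774)
    (Nat.sub (Nat.sub (Nat.add (Nat.add (Nat.add (Nat.add (Nat.add (Nat.add (Nat.add C x9170) x3338) x5282) x4958) x4742) x4814) x4802) (Nat.mul x4796 (nat_lit 2))) x24478)
    (Nat.sub (Nat.sub (Nat.sub (Nat.add (Nat.add (Nat.add (Nat.add (Nat.add (Nat.add (Nat.add (Nat.add (Nat.add C x9176) x3344) x5288) x4964) x4748) x4820) x4796) x4804) (Nat.mul (e (nat_lit 4802)) ap)) (Nat.mul x4802 (nat_lit 4))) x24484) (Nat.mul (e (nat_lit 4802)) an))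
    (Nat.sub (Nat.sub (Nat.add (Nat.add (Nat.add (Nat.add (Nat.add (Nat.add (Nat.add C x9178) x3346) x5290) x4966) x4750) x4822) x4802) (Nat.mul x4804 (nat_lit 2))) x24486)
    (Nat.sub (Nat.sub (Nat.sub (Nat.add (Nat.add (Nat.add (Nat.add (Nat.add (Nat.add (Nat.add (Nat.add C x9188) x3356) x5300) x4976) x4760) x4796) x4820) (Nat.mul (e (nat_lit 4814)) ap)) (Nat.mul x4814 (nat_lit 2))) x24496) (Nat.mul (e (nat_lit 4814)) an))
    (Nat.sub (Nat.sub (Nat.sub (Nat.add (Nat.add (Nat.add (Nat.add (Nat.add (Nat.add (Nat.add (Nat.add (Nat.add (Nat.add (Nat.add C x9194) x3362) x5306) x4982) x4766) x4802) x4838) x4814) x4826) x4822) (Nat.mul (e (nat_lit 4820)) ap)) (Nat.mul x4820 (nat_lit 2))) x24502) (Nat.mul (e (nat_lit 4820)) an))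
    (Nat.sub (Nat.sub (Nat.add (Nat.add (Nat.add (Nat.add (Nat.add (Nat.add (Nat.add (Nat.add (Nat.add C x9196) x3364) x5308) x4984) x4768) x4804) x4840) x4828) x4820) x4822) x24504)
    (Nat.sub (Nat.sub (Nat.sub (Nat.add (Nat.add (Nat.add (Nat.add (Nat.add (Nat.add (Nat.add (Nat.add (Nat.add C x9200) x3368) x5312) x4988) x4772) x4844) x4820) x4828) (Nat.mul (e (nat_lit 4826)) ap)) (Nat.mul x4826 (nat_lit 4))) x24508) (Nat.mul (e (nat_lit 4826)) an))
    (Nat.sub (Nat.sub (Nat.add (Nat.add (Nat.add (Nat.add (Nat.add (Nat.add (Nat.add (Nat.add (Nat.add C x9202) x3370) x5314) x4990) x4774) x4846) x4822) x4826) x4830) x4828) x24510)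
    (Nat.add (Nat.add (Nat.add (Nat.add (Nat.add (Nat.add (Nat.add C x9204) x3372) x5316) x4992) x4776) x4848) x4828)
    (Nat.sub (Nat.sub (Nat.add (Nat.add (Nat.add (Nat.add (Nat.add (Nat.add (Nat.add C x9212) x3380) x5324) x5000) x4820) x4844) x4840) (Nat.mul x4838 (nat_lit 2))) x24520)
    (Nat.sub (Nat.sub (Nat.add (Nat.add (Nat.add (Nat.add (Nat.add (Nat.add (Nat.add C x9214) x3382) x5326) x5002) x4822) x4846) x4838) (Nat.mul x4840 (nat_lit 2))) x24522)
    (Nat.sub (Nat.sub (Nat.add (Nat.add (Nat.add (Nat.add (Nat.add (Nat.add (Nat.add C x9218) x3386) x5330) x5006) x4826) x4838) x4846) (Nat.mul x4844 (nat_lit 2))) x24526)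
    (Nat.sub (Nat.add (Nat.add (Nat.add (Nat.add (Nat.add (Nat.add (Nat.add (Nat.add (Nat.add C x9220) x3388) x5332) x5008) x4828) x4840) x4852) x4844) x4848) x24528)
    (Nat.add (Nat.add (Nat.add (Nat.add (Nat.add (Nat.add (Nat.add C x9222) x3390) x5334) x5010) x4830) x4854) x4846)
    (Nat.sub (Nat.add (Nat.add (Nat.add (Nat.add (Nat.add (Nat.add C x9226) x3394) x5338) x5014) x4846) x4854) x24534)
    (Nat.add (Nat.add (Nat.add (Nat.add (Nat.add (Nat.add (Nat.add C (Nat.mul x4854 (nat_lit 2))) x9228) x3396) x5340) x5016) x4848) x4852)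
    (Nat.sub (Nat.sub (Nat.add (Nat.add (Nat.add (Nat.add (Nat.add C x9260) x3428) x5372) x4724) x4904) (Nat.mul x4886 (nat_lit 2))) x24568)
    (Nat.sub (Nat.sub (Nat.add (Nat.add (Nat.add (Nat.add (Nat.add (Nat.add (Nat.add (Nat.add C x9278) x3446) x5390) x4742) x4958) x4886) x4922) x4910) (Nat.mul x4904 (nat_lit 3))) x24586)
    (Nat.sub (Nat.sub (Nat.sub (Nat.add (Nat.add (Nat.add (Nat.add (Nat.add (Nat.add (Nat.add (Nat.add (Nat.add C x9284) x3452) x5396) x4748) x4964) x4928) x4904) x4912) (Nat.mul (e (nat_lit 4910)) ap)) (Nat.mul x4910 (nat_lit 4))) x24592) (Nat.mul (e (nat_lit 4910)) an))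
    (Nat.sub (Nat.sub (Nat.add (Nat.add (Nat.add (Nat.add (Nat.add (Nat.add (Nat.add C x9286) x3454) x5398) x4750) x4966) x4930) x4910) (Nat.mul x4912 (nat_lit 2))) x24594)
    (Nat.sub (Nat.sub (Nat.sub (Nat.add (Nat.add (Nat.add (Nat.add (Nat.add (Nat.add (Nat.add (Nat.add C x9296) x3464) x5408) x4760) x4976) x4904) x4928) (Nat.mul (e (nat_lit 4922)) ap)) (Nat.mul x4922 (nat_lit 6))) x24604) (Nat.mul (e (nat_lit 4922)) an))
    (Nat.sub (Nat.sub (Nat.sub (Nat.add (Nat.add (Nat.add (Nat.add (Nat.add (Nat.add (Nat.add (Nat.add (Nat.add (Nat.add C x9302) x3470) x5414) x4766) x4982) x4910) x4922) x4934) x4930) (Nat.mul (e (nat_lit 4928)) ap)) (Nat.mul x4928 (nat_lit 5))) x24610) (Nat.mul (e (nat_lit 4928)) an))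
    (Nat.sub (Nat.sub (Nat.add (Nat.add (Nat.add (Nat.add (Nat.add (Nat.add (Nat.add (Nat.add C x9304) x3472) x5416) x4768) x4984) x4912) x4936) x4928) (Nat.mul x4930 (nat_lit 4))) x24612)
    (Nat.sub (Nat.sub (Nat.sub (Nat.add (Nat.add (Nat.add (Nat.add (Nat.add (Nat.add (Nat.add (Nat.add C x9308) x3476) x5420) x4772) x4988) x4928) x4936) (Nat.mul (e (nat_lit 4934)) ap)) (Nat.mul x4934 (nat_lit 6))) x24616) (Nat.mul (e (nat_lit 4934)) an))
    (Nat.sub (Nat.sub (Nat.add (Nat.add (Nat.add (Nat.add (Nat.add (Nat.add (Nat.add (Nat.add C x9310) x3478) x5422) x4774) x4990) x4930) x4934) x4938) (Nat.mul x4936 (nat_lit 3))) x24618)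
    (Nat.sub (Nat.add (Nat.add (Nat.add (Nat.add (Nat.add (Nat.add C x9312) x3480) x5424) x4776) x4992) x4936) (Nat.mul x4938 (nat_lit 2)))
    (Nat.sub (Nat.sub (Nat.add (Nat.add (Nat.add (Nat.add (Nat.add (Nat.add (Nat.add C x9332) x3500) x5444) x4796) x4904) x4976) x4964) (Nat.mul x4958 (nat_lit 2))) x24640)
    (Nat.sub (Nat.sub (Nat.sub (Nat.add (Nat.add (Nat.add (Nat.add (Nat.add (Nat.add (Nat.add (Nat.add (Nat.add C x9338) x3506) x5450) x4802) x4910) x4982) x4958) x4966) (Nat.mul (e (nat_lit 4964)) ap)) (Nat.mul x4964 (nat_lit 4))) x24646) (Nat.mul (e (nat_lit 4964)) an))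
    (Nat.sub (Nat.sub (Nat.add (Nat.add (Nat.add (Nat.add (Nat.add (Nat.add (Nat.add C x9340) x3508) x5452) x4804) x4912) x4984) x4964) (Nat.mul x4966 (nat_lit 2))) x24648)
    (Nat.sub (Nat.sub (Nat.sub (Nat.add (Nat.add (Nat.add (Nat.add (Nat.add (Nat.add (Nat.add (Nat.add (Nat.add C x9350) x3518) x5462) x4814) x4922) x5030) x4958) x4982) (Nat.mul (e (nat_lit 4976)) ap)) (Nat.mul x4976 (nat_lit 3))) x24658) (Nat.mul (e (nat_lit 4976)) an))
    (Nat.sub (Nat.sub (Nat.sub (Nat.add (Nat.add (Nat.add (Nat.add (Nat.add (Nat.add (Nat.add (Nat.add (Nat.add (Nat.add (Nat.add (Nat.add C x9356) x3524) x5468) x4820) x4928) x5036) x4964) x5000) x4976) x4988) x4984) (Nat.mul (e (nat_lit 4982)) ap)) (Nat.mul x4982 (nat_lit 3))) x24664) (Nat.mul (e (nat_lit 4982)) an))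
    (Nat.sub (Nat.sub (Nat.add (Nat.add (Nat.add (Nat.add (Nat.add (Nat.add (Nat.add (Nat.add (Nat.add (Nat.add C x9358) x3526) x5470) x4822) x4930) x5038) x4966) x5002) x4990) x4982) (Nat.mul x4984 (nat_lit 2))) x24666)
    (Nat.sub (Nat.sub (Nat.sub (Nat.add (Nat.add (Nat.add (Nat.add (Nat.add (Nat.add (Nat.add (Nat.add (Nat.add (Nat.add C x9362) x3530) x5474) x4826) x4934) x5042) x5006) x4982) x4990) (Nat.mul (e (nat_lit 4988)) ap)) (Nat.mul x4988 (nat_lit 5))) x24670) (Nat.mul (e (nat_lit 4988)) an))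
    (Nat.sub (Nat.sub (Nat.add (Nat.add (Nat.add (Nat.add (Nat.add (Nat.add (Nat.add (Nat.add (Nat.add (Nat.add C x9364) x3532) x5476) x4828) x4936) x5044) x5008) x4984) x4988) x4992) (Nat.mul x4990 (nat_lit 2))) x24672)
    (Nat.sub (Nat.add (Nat.add (Nat.add (Nat.add (Nat.add (Nat.add (Nat.add (Nat.add C x9366) x3534) x5478) x4830) x4938) x5046) x5010) x4990) x4992)
    (Nat.sub (Nat.sub (Nat.sub (Nat.add (Nat.add (Nat.add (Nat.add (Nat.add (Nat.add (Nat.add (Nat.add (Nat.add C x9374) x3542) x5486) x4838) x5054) x4982) x5006) x5002) (Nat.mul (e (nat_lit 5000)) ap)) (Nat.mul x5000 (nat_lit 4))) x24682) (Nat.mul (e (nat_lit 5000)) an))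
    (Nat.sub (Nat.sub (Nat.add (Nat.add (Nat.add (Nat.add (Nat.add (Nat.add (Nat.add (Nat.add C x9376) x3544) x5488) x4840) x5056) x4984) x5008) x5000) (Nat.mul x5002 (nat_lit 4))) x24684)
    (Nat.sub (Nat.sub (Nat.add (Nat.add (Nat.add (Nat.add (Nat.add (Nat.add (Nat.add (Nat.add C x9380) x3548) x5492) x4844) x5060) x4988) x5000) x5008) (Nat.mul x5006 (nat_lit 4))) x24688)
    (Nat.sub (Nat.sub (Nat.add (Nat.add (Nat.add (Nat.add (Nat.add (Nat.add (Nat.add (Nat.add (Nat.add (Nat.add C x9382) x3550) x5494) x4846) x5062) x4990) x5002) x5014) x5006) x5010) (Nat.mul x5008 (nat_lit 2))) x24690)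
    (Nat.sub (Nat.add (Nat.add (Nat.add (Nat.add (Nat.add (Nat.add (Nat.add (Nat.add C x9384) x3552) x5496) x4848) x5064) x4992) x5016) x5008) (Nat.mul x5010 (nat_lit 2)))
    (Nat.sub (Nat.sub (Nat.add (Nat.add (Nat.add (Nat.add (Nat.add (Nat.add (Nat.add C x9388) x3556) x5500) x4852) x5068) x5008) x5016) (Nat.mul x5014 (nat_lit 2))) x24696)
    (Nat.add (Nat.add (Nat.add (Nat.add (Nat.add (Nat.add (Nat.add C x9390) x3558) x5502) x4854) x5070) x5010) x5014)
    (Nat.sub (Nat.sub (Nat.sub (Nat.add (Nat.add (Nat.add (Nat.add (Nat.add (Nat.add C x9404) x3572) x5516) x4976) x5036) (Nat.mul (e (nat_lit 5030)) ap)) (Nat.mul x5030 (nat_lit 2))) x24712) (Nat.mul (e (nat_lit 5030)) an))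
    (Nat.sub (Nat.sub (Nat.sub (Nat.add (Nat.add (Nat.add (Nat.add (Nat.add (Nat.add (Nat.add (Nat.add (Nat.add C x9410) x3578) x5522) x4982) x5054) x5030) x5042) x5038) (Nat.mul (e (nat_lit 5036)) ap)) (Nat.mul x5036 (nat_lit 3))) x24718) (Nat.mul (e (nat_lit 5036)) an))
    (Nat.sub (Nat.sub (Nat.add (Nat.add (Nat.add (Nat.add (Nat.add (Nat.add (Nat.add C x9412) x3580) x5524) x4984) x5056) x5044) x5036) (Nat.mul x5038 (nat_lit 2))) x24720)
    (Nat.sub (Nat.sub (Nat.add (Nat.add (Nat.add (Nat.add (Nat.add (Nat.add (Nat.add C x9416) x3584) x5528) x4988) x5060) x5036) x5044) (Nat.mul x5042 (nat_lit 6))) x24724)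
    (Nat.sub (Nat.sub (Nat.add (Nat.add (Nat.add (Nat.add (Nat.add (Nat.add (Nat.add (Nat.add C x9418) x3586) x5530) x4990) x5062) x5038) x5042) x5046) (Nat.mul x5044 (nat_lit 3))) x24726)
    (Nat.sub (Nat.add (Nat.add (Nat.add (Nat.add (Nat.add (Nat.add C x9420) x3588) x5532) x4992) x5064) x5044) (Nat.mul x5046 (nat_lit 2)))
    (Nat.sub (Nat.sub (Nat.add (Nat.add (Nat.add (Nat.add (Nat.add (Nat.add (Nat.add C x9428) x3596) x5540) x5000) x5036) x5060) x5056) (Nat.mul x5054 (nat_lit 2))) x24736)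
    (Nat.sub (Nat.sub (Nat.add (Nat.add (Nat.add (Nat.add (Nat.add (Nat.add (Nat.add C x9430) x3598) x5542) x5002) x5038) x5062) x5054) (Nat.mul x5056 (nat_lit 2))) x24738)
    (Nat.sub (Nat.sub (Nat.add (Nat.add (Nat.add (Nat.add (Nat.add (Nat.add (Nat.add (Nat.add C x9434) x3602) x5546) x5006) x5042) x5078) x5054) x5062) (Nat.mul x5060 (nat_lit 3))) x24742)
    (Nat.sub (Nat.sub (Nat.add (Nat.add (Nat.add (Nat.add (Nat.add (Nat.add (Nat.add (Nat.add (Nat.add (Nat.add C x9436) x3604) x5548) x5008) x5044) x5080) x5056) x5068) x5060) x5064) x5062) x24744)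
    (Nat.sub (Nat.add (Nat.add (Nat.add (Nat.add (Nat.add (Nat.add (Nat.add (Nat.add C x9438) x3606) x5550) x5010) x5046) x5082) x5070) x5062) x5064)
    (Nat.sub (Nat.sub (Nat.add (Nat.add (Nat.add (Nat.add (Nat.add (Nat.add (Nat.add C x9442) x3610) x5554) x5014) x5086) x5062) x5070) (Nat.mul x5068 (nat_lit 2))) x24750)
    (Nat.add (Nat.add (Nat.add (Nat.add (Nat.add (Nat.add (Nat.add C x9444) x3612) x5556) x5016) x5088) x5064) x5068)
    (Nat.sub (Nat.sub (Nat.add (Nat.add (Nat.add (Nat.add (Nat.add C x9452) x3620) x5564) x5060) x5080) (Nat.mul x5078 (nat_lit 2))) x24760)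
    (Nat.sub (Nat.sub (Nat.add (Nat.add (Nat.add (Nat.add (Nat.add (Nat.add (Nat.add C x9454) x3622) x5566) x5062) x5086) x5078) x5082) x5080) x24762)
    (Nat.sub (Nat.add (Nat.add (Nat.add (Nat.add (Nat.add (Nat.add C x9456) x3624) x5568) x5064) x5088) x5080) (Nat.mul x5082 (nat_lit 2)))
    (Nat.sub (Nat.add (Nat.add (Nat.add (Nat.add (Nat.add (Nat.add C x9460) x3628) x5572) x5068) x5080) x5088) x24768)
    (Nat.add (Nat.add (Nat.add (Nat.add (Nat.add (Nat.add (Nat.add (Nat.add C x5088) x9462) x3630) x5574) x5070) x5082) x5094) x5086)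
    (Nat.add (Nat.add (Nat.add (Nat.add (Nat.add C (Nat.mul x5094 (nat_lit 2))) x9468) x3636) x5580) x5088)
    (Nat.sub (Nat.add (Nat.add (Nat.add (Nat.add (Nat.add (Nat.add C (Nat.mul x5156 (nat_lit 2))) x9530) x3698) x4670) x5210) x5174) x24838)
    (Nat.sub (Nat.add (Nat.add (Nat.add (Nat.add (Nat.add (Nat.add C x9548) x3716) x4688) x5228) x5156) x5180) x24856)
    (Nat.sub (Nat.add (Nat.add (Nat.add (Nat.add (Nat.add (Nat.add C x9554) x3722) x4694) x5234) x5174) x5182) x24862)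
    (Nat.sub (Nat.add (Nat.add (Nat.add (Nat.add (Nat.add (Nat.add C (Nat.mul x5182 (nat_lit 2))) x9556) x3724) x4696) x5236) x5180) x24864)
    (Nat.sub (Nat.add (Nat.add (Nat.add (Nat.add (Nat.add (Nat.add C x9584) x3752) x4724) x5372) x5156) x5228) x24892)
    (Nat.sub (Nat.add (Nat.add (Nat.add (Nat.add (Nat.add (Nat.add (Nat.add (Nat.add (Nat.add C x9602) x3770) x4742) x5390) x5174) x5282) x5210) x5246) x5234) x24910)
    (Nat.sub (Nat.sub (Nat.sub (Nat.add (Nat.add (Nat.add (Nat.add (Nat.add (Nat.add (Nat.add (Nat.add (Nat.add (Nat.add C x9608) x3776) x4748) x5396) x5180) x5288) x5252) x5228) x5236) (Nat.mul (e (nat_lit 5234)) ap)) x5234) x24916) (Nat.mul (e (nat_lit 5234)) an))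
    (Nat.sub (Nat.add (Nat.add (Nat.add (Nat.add (Nat.add (Nat.add (Nat.add (Nat.add (Nat.add C x5236) x9610) x3778) x4750) x5398) x5182) x5290) x5254) x5234) x24918)
    (Nat.sub (Nat.sub (Nat.add (Nat.add (Nat.add (Nat.add (Nat.add (Nat.add (Nat.add C x9620) x3788) x4760) x5408) x5300) x5228) x5252) (Nat.mul x5246 (nat_lit 2))) x24928)
    (Nat.sub (Nat.sub (Nat.sub (Nat.add (Nat.add (Nat.add (Nat.add (Nat.add (Nat.add (Nat.add (Nat.add (Nat.add (Nat.add C x9626) x3794) x4766) x5414) x5306) x5234) x5246) x5258) x5254) (Nat.mul (e (nat_lit 5252)) ap)) x5252) x24934) (Nat.mul (e (nat_lit 5252)) an))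
    (Nat.sub (Nat.add (Nat.add (Nat.add (Nat.add (Nat.add (Nat.add (Nat.add (Nat.add C x9628) x3796) x4768) x5416) x5308) x5236) x5260) x5252) x24936)
    (Nat.sub (Nat.sub (Nat.add (Nat.add (Nat.add (Nat.add (Nat.add (Nat.add (Nat.add C x9632) x3800) x4772) x5420) x5312) x5252) x5260) (Nat.mul x5258 (nat_lit 2))) x24940)
    (Nat.sub (Nat.add (Nat.add (Nat.add (Nat.add (Nat.add (Nat.add (Nat.add (Nat.add (Nat.add C x5260) x9634) x3802) x4774) x5422) x5314) x5254) x5258) x5262) x24942)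
    (Nat.add (Nat.add (Nat.add (Nat.add (Nat.add (Nat.add (Nat.add C (Nat.mul x5262 (nat_lit 2))) x9636) x3804) x4776) x5424) x5316) x5260)
    (Nat.sub (Nat.sub (Nat.add (Nat.add (Nat.add (Nat.add (Nat.add (Nat.add (Nat.add C x9656) x3824) x4796) x5444) x5228) x5300) x5288) (Nat.mul x5282 (nat_lit 2))) x24964)
    (Nat.sub (Nat.sub (Nat.sub (Nat.add (Nat.add (Nat.add (Nat.add (Nat.add (Nat.add (Nat.add (Nat.add (Nat.add C x9662) x3830) x4802) x5450) x5234) x5306) x5282) x5290) (Nat.mul (e (nat_lit 5288)) ap)) (Nat.mul x5288 (nat_lit 4))) x24970) (Nat.mul (e (nat_lit 5288)) an))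
    (Nat.sub (Nat.sub (Nat.add (Nat.add (Nat.add (Nat.add (Nat.add (Nat.add (Nat.add C x9664) x3832) x4804) x5452) x5236) x5308) x5288) (Nat.mul x5290 (nat_lit 2))) x24972)
    (Nat.sub (Nat.sub (Nat.sub (Nat.add (Nat.add (Nat.add (Nat.add (Nat.add (Nat.add (Nat.add (Nat.add C x9674) x3842) x4814) x5462) x5246) x5282) x5306) (Nat.mul (e (nat_lit 5300)) ap)) (Nat.mul x5300 (nat_lit 2))) x24982) (Nat.mul (e (nat_lit 5300)) an))
    (Nat.sub (Nat.sub (Nat.sub (Nat.add (Nat.add (Nat.add (Nat.add (Nat.add (Nat.add (Nat.add (Nat.add (Nat.add (Nat.add (Nat.add C x9680) x3848) x4820) x5468) x5252) x5288) x5324) x5300) x5312) x5308) (Nat.mul (e (nat_lit 5306)) ap)) (Nat.mul x5306 (nat_lit 2))) x24988) (Nat.mul (e (nat_lit 5306)) an))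
    (Nat.sub (Nat.sub (Nat.add (Nat.add (Nat.add (Nat.add (Nat.add (Nat.add (Nat.add (Nat.add (Nat.add C x9682) x3850) x4822) x5470) x5254) x5290) x5326) x5314) x5306) x5308) x24990)
    (Nat.sub (Nat.sub (Nat.add (Nat.add (Nat.add (Nat.add (Nat.add (Nat.add (Nat.add (Nat.add C x9686) x3854) x4826) x5474) x5258) x5330) x5306) x5314) (Nat.mul x5312 (nat_lit 4))) x24994)
    (Nat.sub (Nat.sub (Nat.add (Nat.add (Nat.add (Nat.add (Nat.add (Nat.add (Nat.add (Nat.add (Nat.add C x9688) x3856) x4828) x5476) x5260) x5332) x5308) x5312) x5316) x5314) x24996)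
    (Nat.add (Nat.add (Nat.add (Nat.add (Nat.add (Nat.add (Nat.add C x9690) x3858) x4830) x5478) x5262) x5334) x5314)
    (Nat.sub (Nat.sub (Nat.sub (Nat.add (Nat.add (Nat.add (Nat.add (Nat.add (Nat.add (Nat.add (Nat.add C x9698) x3866) x4838) x5486) x5306) x5330) x5326) (Nat.mul (e (nat_lit 5324)) ap)) (Nat.mul x5324 (nat_lit 2))) x25006) (Nat.mul (e (nat_lit 5324)) an))
    (Nat.sub (Nat.sub (Nat.add (Nat.add (Nat.add (Nat.add (Nat.add (Nat.add (Nat.add C x9700) x3868) x4840) x5488) x5308) x5332) x5324) (Nat.mul x5326 (nat_lit 2))) x25008)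
    (Nat.sub (Nat.sub (Nat.add (Nat.add (Nat.add (Nat.add (Nat.add (Nat.add (Nat.add C x9704) x3872) x4844) x5492) x5312) x5324) x5332) (Nat.mul x5330 (nat_lit 2))) x25012)
    (Nat.sub (Nat.add (Nat.add (Nat.add (Nat.add (Nat.add (Nat.add (Nat.add (Nat.add (Nat.add C x9706) x3874) x4846) x5494) x5314) x5326) x5338) x5330) x5334) x25014)
    (Nat.add (Nat.add (Nat.add (Nat.add (Nat.add (Nat.add (Nat.add C x9708) x3876) x4848) x5496) x5316) x5340) x5332)
    (Nat.sub (Nat.add (Nat.add (Nat.add (Nat.add (Nat.add (Nat.add C x9712) x3880) x4852) x5500) x5332) x5340) x25020)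
    (Nat.add (Nat.add (Nat.add (Nat.add (Nat.add (Nat.add (Nat.add C (Nat.mul x5340 (nat_lit 2))) x9714) x3882) x4854) x5502) x5334) x5338)
    (Nat.sub (Nat.add (Nat.add (Nat.add (Nat.add (Nat.add (Nat.add (Nat.add C x5372) x9746) x3914) x4886) x5858) x5210) x5390) x25054)
    (Nat.sub (Nat.add (Nat.add (Nat.add (Nat.add (Nat.add (Nat.add (Nat.add (Nat.add (Nat.add C x9764) x3932) x4904) x5876) x5228) x5444) x5372) x5408) x5396) x25072)
    (Nat.sub (Nat.sub (Nat.sub (Nat.add (Nat.add (Nat.add (Nat.add (Nat.add (Nat.add (Nat.add (Nat.add (Nat.add (Nat.add C x9770) x3938) x4910) x5882) x5234) x5450) x5414) x5390) x5398) (Nat.mul (e (nat_lit 5396)) ap)) x5396) x25078) (Nat.mul (e (nat_lit 5396)) an))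
    (Nat.sub (Nat.add (Nat.add (Nat.add (Nat.add (Nat.add (Nat.add (Nat.add (Nat.add (Nat.add C x5398) x9772) x3940) x4912) x5884) x5236) x5452) x5416) x5396) x25080)
    (Nat.sub (Nat.sub (Nat.add (Nat.add (Nat.add (Nat.add (Nat.add (Nat.add (Nat.add (Nat.add C x9782) x3950) x4922) x5894) x5246) x5462) x5390) x5414) (Nat.mul x5408 (nat_lit 3))) x25090)
    (Nat.sub (Nat.sub (Nat.sub (Nat.add (Nat.add (Nat.add (Nat.add (Nat.add (Nat.add (Nat.add (Nat.add (Nat.add (Nat.add (Nat.add C x9788) x3956) x4928) x5900) x5252) x5468) x5396) x5408) x5420) x5416) (Nat.mul (e (nat_lit 5414)) ap)) (Nat.mul x5414 (nat_lit 2))) x25096) (Nat.mul (e (nat_lit 5414)) an))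
    (Nat.sub (Nat.sub (Nat.add (Nat.add (Nat.add (Nat.add (Nat.add (Nat.add (Nat.add (Nat.add (Nat.add C x9790) x3958) x4930) x5902) x5254) x5470) x5398) x5422) x5414) x5416) x25098)
    (Nat.sub (Nat.sub (Nat.add (Nat.add (Nat.add (Nat.add (Nat.add (Nat.add (Nat.add (Nat.add C x9794) x3962) x4934) x5906) x5258) x5474) x5414) x5422) (Nat.mul x5420 (nat_lit 3))) x25102)
    (Nat.sub (Nat.add (Nat.add (Nat.add (Nat.add (Nat.add (Nat.add (Nat.add (Nat.add (Nat.add C x9796) x3964) x4936) x5908) x5260) x5476) x5416) x5420) x5424) x25104)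
    (Nat.add (Nat.add (Nat.add (Nat.add (Nat.add (Nat.add (Nat.add (Nat.add C x5424) x9798) x3966) x4938) x5910) x5262) x5478) x5422)
    (Nat.sub (Nat.add (Nat.add (Nat.add (Nat.add (Nat.add (Nat.add (Nat.add (Nat.add (Nat.add C x9818) x3986) x4958) x5930) x5282) x5606) x5390) x5462) x5450) x25126)
    (Nat.sub (Nat.sub (Nat.sub (Nat.add (Nat.add (Nat.add (Nat.add (Nat.add (Nat.add (Nat.add (Nat.add (Nat.add (Nat.add (Nat.add C x9824) x3992) x4964) x5936) x5288) x5612) x5396) x5468) x5444) x5452) (Nat.mul (e (nat_lit 5450)) ap)) (Nat.mul x5450 (nat_lit 2))) x25132) (Nat.mul (e (nat_lit 5450)) an))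
    (Nat.sub (Nat.add (Nat.add (Nat.add (Nat.add (Nat.add (Nat.add (Nat.add (Nat.add (Nat.add C x9826) x3994) x4966) x5938) x5290) x5614) x5398) x5470) x5450) x25134)
    (Nat.sub (Nat.sub (Nat.sub (Nat.add (Nat.add (Nat.add (Nat.add (Nat.add (Nat.add (Nat.add (Nat.add (Nat.add (Nat.add (Nat.add C x9836) x4004) x4976) x5948) x5300) x5624) x5408) x5516) x5444) x5468) (Nat.mul (e (nat_lit 5462)) ap)) x5462) x25144) (Nat.mul (e (nat_lit 5462)) an))
    (Nat.sub (Nat.sub (Nat.sub (Nat.add (Nat.add (Nat.add (Nat.add (Nat.add (Nat.add (Nat.add (Nat.add (Nat.add (Nat.add (Nat.add (Nat.add (Nat.add (Nat.add C x9842) x4010) x4982) x5954) x5306) x5630) x5414) x5522) x5450) x5486) x5462) x5474) x5470) (Nat.mul (e (nat_lit 5468)) ap)) x5468) x25150) (Nat.mul (e (nat_lit 5468)) an))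
    (Nat.sub (Nat.add (Nat.add (Nat.add (Nat.add (Nat.add (Nat.add (Nat.add (Nat.add (Nat.add (Nat.add (Nat.add (Nat.add C x9844) x4012) x4984) x5956) x5308) x5632) x5416) x5524) x5452) x5488) x5476) x5468) x25152)
    (Nat.sub (Nat.sub (Nat.add (Nat.add (Nat.add (Nat.add (Nat.add (Nat.add (Nat.add (Nat.add (Nat.add (Nat.add (Nat.add C x9848) x4016) x4988) x5960) x5312) x5636) x5420) x5528) x5492) x5468) x5476) (Nat.mul x5474 (nat_lit 3))) x25156)
    (Nat.sub (Nat.add (Nat.add (Nat.add (Nat.add (Nat.add (Nat.add (Nat.add (Nat.add (Nat.add (Nat.add (Nat.add (Nat.add C x9850) x4018) x4990) x5962) x5314) x5638) x5422) x5530) x5494) x5470) x5474) x5478) x25158)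
    (Nat.add (Nat.add (Nat.add (Nat.add (Nat.add (Nat.add (Nat.add (Nat.add (Nat.add (Nat.add (Nat.add C x5478) x9852) x4020) x4992) x5964) x5316) x5640) x5424) x5532) x5496) x5476)
    (Nat.sub (Nat.sub (Nat.add (Nat.add (Nat.add (Nat.add (Nat.add (Nat.add (Nat.add (Nat.add (Nat.add (Nat.add C x9860) x4028) x5000) x5972) x5324) x5648) x5540) x5468) x5492) x5488) (Nat.mul x5486 (nat_lit 2))) x25168)
    (Nat.sub (Nat.sub (Nat.add (Nat.add (Nat.add (Nat.add (Nat.add (Nat.add (Nat.add (Nat.add (Nat.add (Nat.add C x9862) x4030) x5002) x5974) x5326) x5650) x5542) x5470) x5494) x5486) (Nat.mul x5488 (nat_lit 2))) x25170)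
    (Nat.sub (Nat.sub (Nat.add (Nat.add (Nat.add (Nat.add (Nat.add (Nat.add (Nat.add (Nat.add (Nat.add (Nat.add C x9866) x4034) x5006) x5978) x5330) x5654) x5546) x5474) x5486) x5494) (Nat.mul x5492 (nat_lit 2))) x25174)
    (Nat.sub (Nat.add (Nat.add (Nat.add (Nat.add (Nat.add (Nat.add (Nat.add (Nat.add (Nat.add (Nat.add (Nat.add (Nat.add C x9868) x4036) x5008) x5980) x5332) x5656) x5548) x5476) x5488) x5500) x5492) x5496) x25176)
    (Nat.add (Nat.add (Nat.add (Nat.add (Nat.add (Nat.add (Nat.add (Nat.add (Nat.add (Nat.add C x9870) x4038) x5010) x5982) x5334) x5658) x5550) x5478) x5502) x5494)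
    (Nat.sub (Nat.add (Nat.add (Nat.add (Nat.add (Nat.add (Nat.add (Nat.add (Nat.add (Nat.add C x9874) x4042) x5014) x5986) x5338) x5662) x5554) x5494) x5502) x25182)
    (Nat.add (Nat.add (Nat.add (Nat.add (Nat.add (Nat.add (Nat.add (Nat.add (Nat.add (Nat.add C (Nat.mul x5502 (nat_lit 2))) x9876) x4044) x5016) x5988) x5340) x5664) x5556) x5496) x5500)
    (Nat.sub (Nat.sub (Nat.sub (Nat.add (Nat.add (Nat.add (Nat.add (Nat.add (Nat.add (Nat.add (Nat.add C x9890) x4058) x5030) x6002) x5678) x5462) x5522) (Nat.mul (e (nat_lit 5516)) ap)) x5516) x25198) (Nat.mul (e (nat_lit 5516)) an))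
    (Nat.sub (Nat.sub (Nat.add (Nat.add (Nat.add (Nat.add (Nat.add (Nat.add (Nat.add (Nat.add (Nat.add (Nat.add C x9896) x4064) x5036) x6008) x5684) x5468) x5540) x5516) x5528) x5524) (Nat.mul x5522 (nat_lit 2))) x25204)
    (Nat.sub (Nat.sub (Nat.add (Nat.add (Nat.add (Nat.add (Nat.add (Nat.add (Nat.add (Nat.add (Nat.add C x9898) x4066) x5038) x6010) x5686) x5470) x5542) x5530) x5522) x5524) x25206)
    (Nat.sub (Nat.sub (Nat.add (Nat.add (Nat.add (Nat.add (Nat.add (Nat.add (Nat.add (Nat.add (Nat.add C x9902) x4070) x5042) x6014) x5690) x5474) x5546) x5522) x5530) (Nat.mul x5528 (nat_lit 5))) x25210)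
    (Nat.sub (Nat.sub (Nat.add (Nat.add (Nat.add (Nat.add (Nat.add (Nat.add (Nat.add (Nat.add (Nat.add (Nat.add C x9904) x4072) x5044) x6016) x5692) x5476) x5548) x5524) x5528) x5532) (Nat.mul x5530 (nat_lit 2))) x25212)
    (Nat.sub (Nat.add (Nat.add (Nat.add (Nat.add (Nat.add (Nat.add (Nat.add (Nat.add C x9906) x4074) x5046) x6018) x5694) x5478) x5550) x5530) x5532)
    (Nat.sub (Nat.sub (Nat.add (Nat.add (Nat.add (Nat.add (Nat.add (Nat.add (Nat.add (Nat.add (Nat.add C x9914) x4082) x5054) x6026) x5702) x5486) x5522) x5546) x5542) x5540) x25222)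
    (Nat.sub (Nat.sub (Nat.add (Nat.add (Nat.add (Nat.add (Nat.add (Nat.add (Nat.add (Nat.add (Nat.add C x9916) x4084) x5056) x6028) x5704) x5488) x5524) x5548) x5540) x5542) x25224)
    (Nat.sub (Nat.sub (Nat.add (Nat.add (Nat.add (Nat.add (Nat.add (Nat.add (Nat.add (Nat.add (Nat.add (Nat.add C x9920) x4088) x5060) x6032) x5708) x5492) x5528) x5564) x5540) x5548) (Nat.mul x5546 (nat_lit 2))) x25228)
    (Nat.sub (Nat.add (Nat.add (Nat.add (Nat.add (Nat.add (Nat.add (Nat.add (Nat.add (Nat.add (Nat.add (Nat.add (Nat.add C x9922) x4090) x5062) x6034) x5710) x5494) x5530) x5566) x5542) x5554) x5546) x5550) x25230)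
    (Nat.add (Nat.add (Nat.add (Nat.add (Nat.add (Nat.add (Nat.add (Nat.add (Nat.add (Nat.add C x9924) x4092) x5064) x6036) x5712) x5496) x5532) x5568) x5556) x5548)
    (Nat.sub (Nat.sub (Nat.add (Nat.add (Nat.add (Nat.add (Nat.add (Nat.add (Nat.add (Nat.add (Nat.add C x9928) x4096) x5068) x6040) x5716) x5500) x5572) x5548) x5556) x5554) x25236)
    (Nat.add (Nat.add (Nat.add (Nat.add (Nat.add (Nat.add (Nat.add (Nat.add (Nat.add (Nat.add C x5556) x9930) x4098) x5070) x6042) x5718) x5502) x5574) x5550) x5554)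
    (Nat.sub (Nat.sub (Nat.add (Nat.add (Nat.add (Nat.add (Nat.add (Nat.add (Nat.add C x9938) x4106) x5078) x6050) x5726) x5546) x5566) x5564) x25246)
    (Nat.sub (Nat.add (Nat.add (Nat.add (Nat.add (Nat.add (Nat.add (Nat.add (Nat.add (Nat.add C x9940) x4108) x5080) x6052) x5728) x5548) x5572) x5564) x5568) x25248)
    (Nat.sub (Nat.add (Nat.add (Nat.add (Nat.add (Nat.add (Nat.add (Nat.add (Nat.add C x9942) x4110) x5082) x6054) x5730) x5550) x5574) x5566) x5568)
    (Nat.sub (Nat.add (Nat.add (Nat.add (Nat.add (Nat.add (Nat.add (Nat.add (Nat.add (Nat.add C x5572) x9946) x4114) x5086) x6058) x5734) x5554) x5566) x5574) x25254)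
    (Nat.add (Nat.add (Nat.add (Nat.add (Nat.add (Nat.add (Nat.add (Nat.add (Nat.add (Nat.add C (Nat.mul x5574 (nat_lit 2))) x9948) x4116) x5088) x6060) x5736) x5556) x5568) x5580) x5572)
    (Nat.add (Nat.add (Nat.add (Nat.add (Nat.add (Nat.add (Nat.add C (Nat.mul x5580 (nat_lit 3))) x9954) x4122) x5094) x6066) x5742) x5574)
    (Nat.sub (Nat.add (Nat.add (Nat.add (Nat.add (Nat.add (Nat.add C x9980) x4148) x6092) x5444) x5624) x5612) x25288)
    (Nat.sub (Nat.sub (Nat.sub (Nat.add (Nat.add (Nat.add (Nat.add (Nat.add (Nat.add (Nat.add (Nat.add C x9986) x4154) x6098) x5450) x5630) x5606) x5614) (Nat.mul (e (nat_lit 5612)) ap)) (Nat.mul x5612 (nat_lit 2))) x25294) (Nat.mul (e (nat_lit 5612)) an))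
    (Nat.sub (Nat.add (Nat.add (Nat.add (Nat.add (Nat.add (Nat.add C x9988) x4156) x6100) x5452) x5632) x5612) x25296)
    (Nat.sub (Nat.sub (Nat.sub (Nat.add (Nat.add (Nat.add (Nat.add (Nat.add (Nat.add (Nat.add (Nat.add C x9998) x4166) x6110) x5462) x5678) x5606) x5630) (Nat.mul (e (nat_lit 5624)) ap)) (Nat.mul x5624 (nat_lit 2))) x25306) (Nat.mul (e (nat_lit 5624)) an))
    (Nat.sub (Nat.sub (Nat.add (Nat.add (Nat.add (Nat.add (Nat.add (Nat.add (Nat.add (Nat.add (Nat.add (Nat.add C x10004) x4172) x6116) x5468) x5684) x5612) x5648) x5624) x5636) x5632) (Nat.mul x5630 (nat_lit 2))) x25312)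
    (Nat.sub (Nat.sub (Nat.add (Nat.add (Nat.add (Nat.add (Nat.add (Nat.add (Nat.add (Nat.add (Nat.add C x10006) x4174) x6118) x5470) x5686) x5614) x5650) x5638) x5630) x5632) x25314)
    (Nat.sub (Nat.sub (Nat.add (Nat.add (Nat.add (Nat.add (Nat.add (Nat.add (Nat.add (Nat.add C x10010) x4178) x6122) x5474) x5690) x5654) x5630) x5638) (Nat.mul x5636 (nat_lit 4))) x25318)
    (Nat.sub (Nat.sub (Nat.add (Nat.add (Nat.add (Nat.add (Nat.add (Nat.add (Nat.add (Nat.add (Nat.add C x10012) x4180) x6124) x5476) x5692) x5656) x5632) x5636) x5640) x5638) x25320)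
    (Nat.add (Nat.add (Nat.add (Nat.add (Nat.add (Nat.add (Nat.add C x10014) x4182) x6126) x5478) x5694) x5658) x5638)
    (Nat.sub (Nat.sub (Nat.add (Nat.add (Nat.add (Nat.add (Nat.add (Nat.add (Nat.add (Nat.add C x10022) x4190) x6134) x5486) x5702) x5630) x5654) x5650) (Nat.mul x5648 (nat_lit 4))) x25330)
    (Nat.sub (Nat.sub (Nat.add (Nat.add (Nat.add (Nat.add (Nat.add (Nat.add (Nat.add (Nat.add C x10024) x4192) x6136) x5488) x5704) x5632) x5656) x5648) (Nat.mul x5650 (nat_lit 4))) x25332)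
    (Nat.sub (Nat.sub (Nat.add (Nat.add (Nat.add (Nat.add (Nat.add (Nat.add (Nat.add (Nat.add C x10028) x4196) x6140) x5492) x5708) x5636) x5648) x5656) (Nat.mul x5654 (nat_lit 4))) x25336)
    (Nat.sub (Nat.sub (Nat.add (Nat.add (Nat.add (Nat.add (Nat.add (Nat.add (Nat.add (Nat.add (Nat.add (Nat.add C x10030) x4198) x6142) x5494) x5710) x5638) x5650) x5662) x5654) x5658) (Nat.mul x5656 (nat_lit 2))) x25338)
    (Nat.sub (Nat.add (Nat.add (Nat.add (Nat.add (Nat.add (Nat.add (Nat.add (Nat.add C x10032) x4200) x6144) x5496) x5712) x5640) x5664) x5656) (Nat.mul x5658 (nat_lit 2)))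
    (Nat.sub (Nat.sub (Nat.add (Nat.add (Nat.add (Nat.add (Nat.add (Nat.add (Nat.add C x10036) x4204) x6148) x5500) x5716) x5656) x5664) (Nat.mul x5662 (nat_lit 2))) x25344)
    (Nat.add (Nat.add (Nat.add (Nat.add (Nat.add (Nat.add (Nat.add C x10038) x4206) x6150) x5502) x5718) x5658) x5662)
    (Nat.sub (Nat.add (Nat.add (Nat.add (Nat.add (Nat.add (Nat.add C x10052) x4220) x6164) x5516) x5624) x5684) x25360)
    (Nat.sub (Nat.sub (Nat.add (Nat.add (Nat.add (Nat.add (Nat.add (Nat.add (Nat.add (Nat.add (Nat.add C x10058) x4226) x6170) x5522) x5630) x5702) x5678) x5690) x5686) x5684) x25366)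
    (Nat.sub (Nat.add (Nat.add (Nat.add (Nat.add (Nat.add (Nat.add (Nat.add (Nat.add C x10060) x4228) x6172) x5524) x5632) x5704) x5692) x5684) x25368)
    (Nat.sub (Nat.sub (Nat.add (Nat.add (Nat.add (Nat.add (Nat.add (Nat.add (Nat.add (Nat.add C x10064) x4232) x6176) x5528) x5636) x5708) x5684) x5692) (Nat.mul x5690 (nat_lit 4))) x25372)
    (Nat.sub (Nat.sub (Nat.add (Nat.add (Nat.add (Nat.add (Nat.add (Nat.add (Nat.add (Nat.add (Nat.add C x10066) x4234) x6178) x5530) x5638) x5710) x5686) x5690) x5694) x5692) x25374)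
    (Nat.add (Nat.add (Nat.add (Nat.add (Nat.add (Nat.add (Nat.add C x10068) x4236) x6180) x5532) x5640) x5712) x5692)
    (Nat.sub (Nat.sub (Nat.add (Nat.add (Nat.add (Nat.add (Nat.add (Nat.add (Nat.add (Nat.add (Nat.add C x10076) x4244) x6188) x5540) x5648) x5756) x5684) x5708) x5704) x5702) x25384)
    (Nat.sub (Nat.sub (Nat.add (Nat.add (Nat.add (Nat.add (Nat.add (Nat.add (Nat.add (Nat.add (Nat.add C x10078) x4246) x6190) x5542) x5650) x5758) x5686) x5710) x5702) x5704) x25386)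
    (Nat.sub (Nat.sub (Nat.add (Nat.add (Nat.add (Nat.add (Nat.add (Nat.add (Nat.add (Nat.add (Nat.add (Nat.add C x10082) x4250) x6194) x5546) x5654) x5762) x5690) x5726) x5702) x5710) (Nat.mul x5708 (nat_lit 2))) x25390)
    (Nat.sub (Nat.add (Nat.add (Nat.add (Nat.add (Nat.add (Nat.add (Nat.add (Nat.add (Nat.add (Nat.add (Nat.add (Nat.add C x10084) x4252) x6196) x5548) x5656) x5764) x5692) x5728) x5704) x5716) x5708) x5712) x25392)
    (Nat.add (Nat.add (Nat.add (Nat.add (Nat.add (Nat.add (Nat.add (Nat.add (Nat.add (Nat.add C x10086) x4254) x6198) x5550) x5658) x5766) x5694) x5730) x5718) x5710)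
    (Nat.sub (Nat.sub (Nat.add (Nat.add (Nat.add (Nat.add (Nat.add (Nat.add (Nat.add (Nat.add (Nat.add C x10090) x4258) x6202) x5554) x5662) x5770) x5734) x5710) x5718) x5716) x25398)
    (Nat.add (Nat.add (Nat.add (Nat.add (Nat.add (Nat.add (Nat.add (Nat.add (Nat.add (Nat.add C x5718) x10092) x4260) x6204) x5556) x5664) x5772) x5736) x5712) x5716)
    (Nat.sub (Nat.sub (Nat.add (Nat.add (Nat.add (Nat.add (Nat.add (Nat.add (Nat.add C x10100) x4268) x6212) x5564) x5780) x5708) x5728) (Nat.mul x5726 (nat_lit 2))) x25408)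
    (Nat.sub (Nat.sub (Nat.add (Nat.add (Nat.add (Nat.add (Nat.add (Nat.add (Nat.add (Nat.add (Nat.add C x10102) x4270) x6214) x5566) x5782) x5710) x5734) x5726) x5730) x5728) x25410)
    (Nat.sub (Nat.add (Nat.add (Nat.add (Nat.add (Nat.add (Nat.add (Nat.add (Nat.add C x10104) x4272) x6216) x5568) x5784) x5712) x5736) x5728) (Nat.mul x5730 (nat_lit 2)))
    (Nat.sub (Nat.add (Nat.add (Nat.add (Nat.add (Nat.add (Nat.add (Nat.add (Nat.add C x10108) x4276) x6220) x5572) x5788) x5716) x5728) x5736) x25416)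
    (Nat.add (Nat.add (Nat.add (Nat.add (Nat.add (Nat.add (Nat.add (Nat.add (Nat.add (Nat.add C x5736) x10110) x4278) x6222) x5574) x5790) x5718) x5730) x5742) x5734)
    (Nat.add (Nat.add (Nat.add (Nat.add (Nat.add (Nat.add (Nat.add C (Nat.mul x5742 (nat_lit 2))) x10116) x4284) x6228) x5580) x5796) x5736)
    (Nat.sub (Nat.add (Nat.add (Nat.add (Nat.add (Nat.add (Nat.add C x10130) x4298) x6242) x5702) x5762) x5758) x25438)
    (Nat.sub (Nat.add (Nat.add (Nat.add (Nat.add (Nat.add (Nat.add C x10132) x4300) x6244) x5704) x5764) x5756) x25440)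
    (Nat.sub (Nat.sub (Nat.add (Nat.add (Nat.add (Nat.add (Nat.add (Nat.add (Nat.add C x10136) x4304) x6248) x5708) x5780) x5756) x5764) (Nat.mul x5762 (nat_lit 2))) x25444)
    (Nat.sub (Nat.add (Nat.add (Nat.add (Nat.add (Nat.add (Nat.add (Nat.add (Nat.add (Nat.add C x10138) x4306) x6250) x5710) x5782) x5758) x5770) x5762) x5766) x25446)
    (Nat.add (Nat.add (Nat.add (Nat.add (Nat.add (Nat.add (Nat.add C x10140) x4308) x6252) x5712) x5784) x5772) x5764)
    (Nat.sub (Nat.sub (Nat.add (Nat.add (Nat.add (Nat.add (Nat.add (Nat.add (Nat.add C x10144) x4312) x6256) x5716) x5788) x5764) x5772) (Nat.mul x5770 (nat_lit 2))) x25452)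
    (Nat.add (Nat.add (Nat.add (Nat.add (Nat.add (Nat.add (Nat.add C x10146) x4314) x6258) x5718) x5790) x5766) x5770)
    (Nat.sub (Nat.add (Nat.add (Nat.add (Nat.add (Nat.add (Nat.add C x10154) x4322) x6266) x5726) x5762) x5782) x25462)
    (Nat.sub (Nat.add (Nat.add (Nat.add (Nat.add (Nat.add (Nat.add (Nat.add (Nat.add (Nat.add C x5782) x10156) x4324) x6268) x5728) x5764) x5788) x5780) x5784) x25464)
    (Nat.add (Nat.add (Nat.add (Nat.add (Nat.add (Nat.add (Nat.add C x10158) x4326) x6270) x5730) x5766) x5790) x5782)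
    (Nat.sub (Nat.add (Nat.add (Nat.add (Nat.add (Nat.add (Nat.add (Nat.add (Nat.add (Nat.add C x5788) x10162) x4330) x6274) x5734) x5770) x5806) x5782) x5790) x25470)
    (Nat.add (Nat.add (Nat.add (Nat.add (Nat.add (Nat.add (Nat.add (Nat.add (Nat.add (Nat.add C (Nat.mul x5790 (nat_lit 2))) x10164) x4332) x6276) x5736) x5772) x5808) x5784) x5796) x5788)
    (Nat.add (Nat.add (Nat.add (Nat.add (Nat.add (Nat.add (Nat.add C (Nat.mul x5796 (nat_lit 2))) x10170) x4338) x6282) x5742) x5814) x5790)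
    (Nat.sub (Nat.add (Nat.add (Nat.add (Nat.add (Nat.add (Nat.add C (Nat.mul x5806 (nat_lit 2))) x10180) x4348) x6292) x5788) x5808) x25488)
    (Nat.add (Nat.add (Nat.add (Nat.add (Nat.add (Nat.add (Nat.add C (Nat.mul x5808 (nat_lit 2))) x10182) x4350) x6294) x5790) x5814) x5806)
    (Nat.add (Nat.add (Nat.add (Nat.add (Nat.add (Nat.add C (Nat.mul x5814 (nat_lit 4))) x10188) x4356) x6300) x5796) x5808)
    (Nat.sub (Nat.add (Nat.add (Nat.add (Nat.add C (Nat.mul x5858 (nat_lit 2))) x10232) x5372) x5876) x25540)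
    (Nat.sub (Nat.add (Nat.add (Nat.add (Nat.add (Nat.add (Nat.add (Nat.add C x5876) x10250) x5390) x5930) x5858) x5894) x5882) x25558)
    (Nat.sub (Nat.add (Nat.add (Nat.add (Nat.add (Nat.add (Nat.add C x10256) x5396) x5936) x5900) x5876) x5884) x25564)
    (Nat.sub (Nat.add (Nat.add (Nat.add (Nat.add (Nat.add (Nat.add C (Nat.mul x5884 (nat_lit 2))) x10258) x5398) x5938) x5902) x5882) x25566)
    (Nat.sub (Nat.sub (Nat.add (Nat.add (Nat.add (Nat.add (Nat.add C x10268) x5408) x5948) x5876) x5900) (Nat.mul x5894 (nat_lit 2))) x25576)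
    (Nat.sub (Nat.sub (Nat.add (Nat.add (Nat.add (Nat.add (Nat.add (Nat.add (Nat.add C x10274) x5414) x5954) x5882) x5894) x5906) x5902) x5900) x25582)
    (Nat.sub (Nat.add (Nat.add (Nat.add (Nat.add (Nat.add (Nat.add C x10276) x5416) x5956) x5884) x5908) x5900) x25584)
    (Nat.sub (Nat.sub (Nat.add (Nat.add (Nat.add (Nat.add (Nat.add C x10280) x5420) x5960) x5900) x5908) (Nat.mul x5906 (nat_lit 2))) x25588)
    (Nat.sub (Nat.add (Nat.add (Nat.add (Nat.add (Nat.add (Nat.add (Nat.add C x5908) x10282) x5422) x5962) x5902) x5906) x5910) x25590)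
    (Nat.add (Nat.add (Nat.add (Nat.add (Nat.add C (Nat.mul x5910 (nat_lit 2))) x10284) x5424) x5964) x5908)
    (Nat.sub (Nat.add (Nat.add (Nat.add (Nat.add (Nat.add (Nat.add C x10304) x5444) x6092) x5876) x5948) x5936) x25612)
    (Nat.sub (Nat.sub (Nat.add (Nat.add (Nat.add (Nat.add (Nat.add (Nat.add (Nat.add C x10310) x5450) x6098) x5882) x5954) x5930) x5938) (Nat.mul x5936 (nat_lit 2))) x25618)
    (Nat.sub (Nat.add (Nat.add (Nat.add (Nat.add (Nat.add (Nat.add C x10312) x5452) x6100) x5884) x5956) x5936) x25620)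
    (Nat.sub (Nat.sub (Nat.add (Nat.add (Nat.add (Nat.add (Nat.add (Nat.add (Nat.add C x10322) x5462) x6110) x5894) x6002) x5930) x5954) x5948) x25630)
    (Nat.sub (Nat.sub (Nat.add (Nat.add (Nat.add (Nat.add (Nat.add (Nat.add (Nat.add (Nat.add (Nat.add (Nat.add C x10328) x5468) x6116) x5900) x6008) x5936) x5972) x5948) x5960) x5956) x5954) x25636)
    (Nat.sub (Nat.add (Nat.add (Nat.add (Nat.add (Nat.add (Nat.add (Nat.add (Nat.add (Nat.add C x10330) x5470) x6118) x5902) x6010) x5938) x5974) x5962) x5954) x25638)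
    (Nat.sub (Nat.sub (Nat.add (Nat.add (Nat.add (Nat.add (Nat.add (Nat.add (Nat.add (Nat.add C x10334) x5474) x6122) x5906) x6014) x5978) x5954) x5962) (Nat.mul x5960 (nat_lit 3))) x25642)
    (Nat.sub (Nat.add (Nat.add (Nat.add (Nat.add (Nat.add (Nat.add (Nat.add (Nat.add (Nat.add C x10336) x5476) x6124) x5908) x6016) x5980) x5956) x5960) x5964) x25644)
    (Nat.add (Nat.add (Nat.add (Nat.add (Nat.add (Nat.add (Nat.add (Nat.add C x5964) x10338) x5478) x6126) x5910) x6018) x5982) x5962)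
    (Nat.sub (Nat.sub (Nat.add (Nat.add (Nat.add (Nat.add (Nat.add (Nat.add (Nat.add C x10346) x5486) x6134) x6026) x5954) x5978) x5974) (Nat.mul x5972 (nat_lit 2))) x25654)
    (Nat.sub (Nat.sub (Nat.add (Nat.add (Nat.add (Nat.add (Nat.add (Nat.add (Nat.add C x10348) x5488) x6136) x6028) x5956) x5980) x5972) (Nat.mul x5974 (nat_lit 2))) x25656)
    (Nat.sub (Nat.sub (Nat.add (Nat.add (Nat.add (Nat.add (Nat.add (Nat.add (Nat.add C x10352) x5492) x6140) x6032) x5960) x5972) x5980) (Nat.mul x5978 (nat_lit 2))) x25660)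
    (Nat.sub (Nat.add (Nat.add (Nat.add (Nat.add (Nat.add (Nat.add (Nat.add (Nat.add (Nat.add C x10354) x5494) x6142) x6034) x5962) x5974) x5986) x5978) x5982) x25662)
    (Nat.add (Nat.add (Nat.add (Nat.add (Nat.add (Nat.add (Nat.add C x10356) x5496) x6144) x6036) x5964) x5988) x5980)
    (Nat.sub (Nat.add (Nat.add (Nat.add (Nat.add (Nat.add (Nat.add C x10360) x5500) x6148) x6040) x5980) x5988) x25668)
    (Nat.add (Nat.add (Nat.add (Nat.add (Nat.add (Nat.add (Nat.add C (Nat.mul x5988 (nat_lit 2))) x10362) x5502) x6150) x6042) x5982) x5986)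
    (Nat.sub (Nat.sub (Nat.add (Nat.add (Nat.add (Nat.add (Nat.add C x10376) x5516) x6164) x5948) x6008) (Nat.mul x6002 (nat_lit 2))) x25684)
    (Nat.sub (Nat.sub (Nat.add (Nat.add (Nat.add (Nat.add (Nat.add (Nat.add (Nat.add (Nat.add C x10382) x5522) x6170) x5954) x6026) x6002) x6014) x6010) (Nat.mul x6008 (nat_lit 3))) x25690)
    (Nat.sub (Nat.sub (Nat.add (Nat.add (Nat.add (Nat.add (Nat.add (Nat.add (Nat.add C x10384) x5524) x6172) x5956) x6028) x6016) x6008) (Nat.mul x6010 (nat_lit 2))) x25692)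
    (Nat.sub (Nat.sub (Nat.add (Nat.add (Nat.add (Nat.add (Nat.add (Nat.add (Nat.add C x10388) x5528) x6176) x5960) x6032) x6008) x6016) (Nat.mul x6014 (nat_lit 6))) x25696)
    (Nat.sub (Nat.sub (Nat.add (Nat.add (Nat.add (Nat.add (Nat.add (Nat.add (Nat.add (Nat.add C x10390) x5530) x6178) x5962) x6034) x6010) x6014) x6018) (Nat.mul x6016 (nat_lit 3))) x25698)
    (Nat.sub (Nat.add (Nat.add (Nat.add (Nat.add (Nat.add (Nat.add C x10392) x5532) x6180) x5964) x6036) x6016) (Nat.mul x6018 (nat_lit 2)))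
    (Nat.sub (Nat.sub (Nat.add (Nat.add (Nat.add (Nat.add (Nat.add (Nat.add (Nat.add C x10400) x5540) x6188) x5972) x6008) x6032) x6028) (Nat.mul x6026 (nat_lit 2))) x25708)
    (Nat.sub (Nat.sub (Nat.add (Nat.add (Nat.add (Nat.add (Nat.add (Nat.add (Nat.add C x10402) x5542) x6190) x5974) x6010) x6034) x6026) (Nat.mul x6028 (nat_lit 2))) x25710)
    (Nat.sub (Nat.sub (Nat.add (Nat.add (Nat.add (Nat.add (Nat.add (Nat.add (Nat.add (Nat.add C x10406) x5546) x6194) x5978) x6014) x6050) x6026) x6034) (Nat.mul x6032 (nat_lit 3))) x25714)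
    (Nat.sub (Nat.sub (Nat.add (Nat.add (Nat.add (Nat.add (Nat.add (Nat.add (Nat.add (Nat.add (Nat.add (Nat.add C x10408) x5548) x6196) x5980) x6016) x6052) x6028) x6040) x6032) x6036) x6034) x25716)
    (Nat.sub (Nat.add (Nat.add (Nat.add (Nat.add (Nat.add (Nat.add (Nat.add (Nat.add C x10410) x5550) x6198) x5982) x6018) x6054) x6042) x6034) x6036)
    (Nat.sub (Nat.sub (Nat.add (Nat.add (Nat.add (Nat.add (Nat.add (Nat.add (Nat.add C x10414) x5554) x6202) x5986) x6058) x6034) x6042) (Nat.mul x6040 (nat_lit 2))) x25722)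
    (Nat.add (Nat.add (Nat.add (Nat.add (Nat.add (Nat.add (Nat.add C x10416) x5556) x6204) x5988) x6060) x6036) x6040)
    (Nat.sub (Nat.sub (Nat.add (Nat.add (Nat.add (Nat.add (Nat.add C x10424) x5564) x6212) x6032) x6052) (Nat.mul x6050 (nat_lit 2))) x25732)
    (Nat.sub (Nat.sub (Nat.add (Nat.add (Nat.add (Nat.add (Nat.add (Nat.add (Nat.add C x10426) x5566) x6214) x6034) x6058) x6050) x6054) x6052) x25734)
    (Nat.sub (Nat.add (Nat.add (Nat.add (Nat.add (Nat.add (Nat.add C x10428) x5568) x6216) x6036) x6060) x6052) (Nat.mul x6054 (nat_lit 2)))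
    (Nat.sub (Nat.add (Nat.add (Nat.add (Nat.add (Nat.add (Nat.add C x10432) x5572) x6220) x6040) x6052) x6060) x25740)
    (Nat.add (Nat.add (Nat.add (Nat.add (Nat.add (Nat.add (Nat.add (Nat.add C x6060) x10434) x5574) x6222) x6042) x6054) x6066) x6058)
    (Nat.add (Nat.add (Nat.add (Nat.add (Nat.add C (Nat.mul x6066 (nat_lit 2))) x10440) x5580) x6228) x6060)
    (Nat.sub (Nat.add (Nat.add (Nat.add (Nat.add (Nat.add (Nat.add C (Nat.mul x6092 (nat_lit 2))) x10466) x5606) x5930) x6110) x6098) x25774)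
    (Nat.sub (Nat.add (Nat.add (Nat.add (Nat.add (Nat.add (Nat.add C x10472) x5612) x5936) x6116) x6092) x6100) x25780)
    (Nat.sub (Nat.add (Nat.add (Nat.add (Nat.add (Nat.add (Nat.add C (Nat.mul x6100 (nat_lit 2))) x10474) x5614) x5938) x6118) x6098) x25782)
    (Nat.sub (Nat.add (Nat.add (Nat.add (Nat.add (Nat.add (Nat.add C x10484) x5624) x5948) x6164) x6092) x6116) x25792)
    (Nat.sub (Nat.add (Nat.add (Nat.add (Nat.add (Nat.add (Nat.add (Nat.add (Nat.add (Nat.add C x10490) x5630) x5954) x6170) x6098) x6134) x6110) x6122) x6118) x25798)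
    (Nat.sub (Nat.add (Nat.add (Nat.add (Nat.add (Nat.add (Nat.add (Nat.add (Nat.add (Nat.add C x6118) x10492) x5632) x5956) x6172) x6100) x6136) x6124) x6116) x25800)
    (Nat.sub (Nat.sub (Nat.add (Nat.add (Nat.add (Nat.add (Nat.add (Nat.add (Nat.add C x10496) x5636) x5960) x6176) x6140) x6116) x6124) (Nat.mul x6122 (nat_lit 2))) x25804)
    (Nat.sub (Nat.add (Nat.add (Nat.add (Nat.add (Nat.add (Nat.add (Nat.add (Nat.add (Nat.add C x6124) x10498) x5638) x5962) x6178) x6142) x6118) x6122) x6126) x25806)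
    (Nat.add (Nat.add (Nat.add (Nat.add (Nat.add (Nat.add (Nat.add C (Nat.mul x6126 (nat_lit 2))) x10500) x5640) x5964) x6180) x6144) x6124)
    (Nat.sub (Nat.sub (Nat.add (Nat.add (Nat.add (Nat.add (Nat.add (Nat.add (Nat.add C x10508) x5648) x5972) x6188) x6116) x6140) x6136) (Nat.mul x6134 (nat_lit 2))) x25816)
    (Nat.sub (Nat.sub (Nat.add (Nat.add (Nat.add (Nat.add (Nat.add (Nat.add (Nat.add C x10510) x5650) x5974) x6190) x6118) x6142) x6134) (Nat.mul x6136 (nat_lit 2))) x25818)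
    (Nat.sub (Nat.sub (Nat.add (Nat.add (Nat.add (Nat.add (Nat.add (Nat.add (Nat.add C x10514) x5654) x5978) x6194) x6122) x6134) x6142) (Nat.mul x6140 (nat_lit 2))) x25822)
    (Nat.sub (Nat.add (Nat.add (Nat.add (Nat.add (Nat.add (Nat.add (Nat.add (Nat.add (Nat.add C x10516) x5656) x5980) x6196) x6124) x6136) x6148) x6140) x6144) x25824)
    (Nat.add (Nat.add (Nat.add (Nat.add (Nat.add (Nat.add (Nat.add C x10518) x5658) x5982) x6198) x6126) x6150) x6142)
    (Nat.sub (Nat.add (Nat.add (Nat.add (Nat.add (Nat.add (Nat.add C x10522) x5662) x5986) x6202) x6142) x6150) x25830)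
    (Nat.add (Nat.add (Nat.add (Nat.add (Nat.add (Nat.add (Nat.add C (Nat.mul x6150 (nat_lit 2))) x10524) x5664) x5988) x6204) x6144) x6148)
    (Nat.sub (Nat.add (Nat.add (Nat.add (Nat.add (Nat.add (Nat.add (Nat.add C x6164) x10538) x5678) x6002) x6326) x6110) x6170) x25846)
    (Nat.sub (Nat.add (Nat.add (Nat.add (Nat.add (Nat.add (Nat.add (Nat.add (Nat.add (Nat.add C x10544) x5684) x6008) x6332) x6116) x6188) x6164) x6176) x6172) x25852)
    (Nat.sub (Nat.add (Nat.add (Nat.add (Nat.add (Nat.add (Nat.add (Nat.add (Nat.add (Nat.add C x6172) x10546) x5686) x6010) x6334) x6118) x6190) x6178) x6170) x25854)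
    (Nat.sub (Nat.sub (Nat.add (Nat.add (Nat.add (Nat.add (Nat.add (Nat.add (Nat.add (Nat.add C x10550) x5690) x6014) x6338) x6122) x6194) x6170) x6178) (Nat.mul x6176 (nat_lit 3))) x25858)
    (Nat.sub (Nat.add (Nat.add (Nat.add (Nat.add (Nat.add (Nat.add (Nat.add (Nat.add (Nat.add C x10552) x5692) x6016) x6340) x6124) x6196) x6172) x6176) x6180) x25860)
    (Nat.add (Nat.add (Nat.add (Nat.add (Nat.add (Nat.add (Nat.add (Nat.add C x6180) x10554) x5694) x6018) x6342) x6126) x6198) x6178)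
    (Nat.sub (Nat.add (Nat.add (Nat.add (Nat.add (Nat.add (Nat.add (Nat.add (Nat.add (Nat.add C x10562) x5702) x6026) x6350) x6134) x6242) x6170) x6194) x6190) x25870)
    (Nat.sub (Nat.add (Nat.add (Nat.add (Nat.add (Nat.add (Nat.add (Nat.add (Nat.add (Nat.add C x10564) x5704) x6028) x6352) x6136) x6244) x6172) x6196) x6188) x25872)
    (Nat.sub (Nat.sub (Nat.add (Nat.add (Nat.add (Nat.add (Nat.add (Nat.add (Nat.add (Nat.add (Nat.add (Nat.add C x10568) x5708) x6032) x6356) x6140) x6248) x6176) x6212) x6188) x6196) x6194) x25876)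
    (Nat.sub (Nat.add (Nat.add (Nat.add (Nat.add (Nat.add (Nat.add (Nat.add (Nat.add (Nat.add (Nat.add (Nat.add (Nat.add (Nat.add C x6196) x10570) x5710) x6034) x6358) x6142) x6250) x6178) x6214) x6190) x6202) x6194) x6198) x25878)
    (Nat.add (Nat.add (Nat.add (Nat.add (Nat.add (Nat.add (Nat.add (Nat.add (Nat.add (Nat.add (Nat.add C x6198) x10572) x5712) x6036) x6360) x6144) x6252) x6180) x6216) x6204) x6196)
    (Nat.sub (Nat.add (Nat.add (Nat.add (Nat.add (Nat.add (Nat.add (Nat.add (Nat.add (Nat.add C x10576) x5716) x6040) x6364) x6148) x6256) x6220) x6196) x6204) x25884)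
    (Nat.add (Nat.add (Nat.add (Nat.add (Nat.add (Nat.add (Nat.add (Nat.add (Nat.add (Nat.add C (Nat.mul x6204 (nat_lit 2))) x10578) x5718) x6042) x6366) x6150) x6258) x6222) x6198) x6202)
    (Nat.sub (Nat.sub (Nat.add (Nat.add (Nat.add (Nat.add (Nat.add (Nat.add (Nat.add C x10586) x5726) x6050) x6374) x6266) x6194) x6214) x6212) x25894)
    (Nat.sub (Nat.add (Nat.add (Nat.add (Nat.add (Nat.add (Nat.add (Nat.add (Nat.add (Nat.add C x10588) x5728) x6052) x6376) x6268) x6196) x6220) x6212) x6216) x25896)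
    (Nat.sub (Nat.add (Nat.add (Nat.add (Nat.add (Nat.add (Nat.add (Nat.add (Nat.add C x10590) x5730) x6054) x6378) x6270) x6198) x6222) x6214) x6216)
    (Nat.sub (Nat.add (Nat.add (Nat.add (Nat.add (Nat.add (Nat.add (Nat.add (Nat.add (Nat.add C x6220) x10594) x5734) x6058) x6382) x6274) x6202) x6214) x6222) x25902)
    (Nat.add (Nat.add (Nat.add (Nat.add (Nat.add (Nat.add (Nat.add (Nat.add (Nat.add (Nat.add C (Nat.mul x6222 (nat_lit 2))) x10596) x5736) x6060) x6384) x6276) x6204) x6216) x6228) x6220)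
    (Nat.add (Nat.add (Nat.add (Nat.add (Nat.add (Nat.add (Nat.add C (Nat.mul x6228 (nat_lit 3))) x10602) x5742) x6066) x6390) x6282) x6222)
    (Nat.sub (Nat.add (Nat.add (Nat.add (Nat.add (Nat.add (Nat.add C x10616) x5756) x6404) x6188) x6248) x6244) x25924)
    (Nat.sub (Nat.add (Nat.add (Nat.add (Nat.add (Nat.add (Nat.add C x10618) x5758) x6406) x6190) x6250) x6242) x25926)
    (Nat.sub (Nat.sub (Nat.add (Nat.add (Nat.add (Nat.add (Nat.add (Nat.add (Nat.add C x10622) x5762) x6410) x6194) x6266) x6242) x6250) (Nat.mul x6248 (nat_lit 2))) x25930)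
    (Nat.sub (Nat.add (Nat.add (Nat.add (Nat.add (Nat.add (Nat.add (Nat.add (Nat.add (Nat.add C x10624) x5764) x6412) x6196) x6268) x6244) x6256) x6248) x6252) x25932)
    (Nat.add (Nat.add (Nat.add (Nat.add (Nat.add (Nat.add (Nat.add C x10626) x5766) x6414) x6198) x6270) x6258) x6250)
    (Nat.sub (Nat.sub (Nat.add (Nat.add (Nat.add (Nat.add (Nat.add (Nat.add (Nat.add C x10630) x5770) x6418) x6202) x6274) x6250) x6258) (Nat.mul x6256 (nat_lit 2))) x25938)
    (Nat.add (Nat.add (Nat.add (Nat.add (Nat.add (Nat.add (Nat.add C x10632) x5772) x6420) x6204) x6276) x6252) x6256)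
    (Nat.sub (Nat.add (Nat.add (Nat.add (Nat.add (Nat.add (Nat.add C x10640) x5780) x6428) x6212) x6248) x6268) x25948)
    (Nat.sub (Nat.add (Nat.add (Nat.add (Nat.add (Nat.add (Nat.add (Nat.add (Nat.add (Nat.add C x6268) x10642) x5782) x6430) x6214) x6250) x6274) x6266) x6270) x25950)
    (Nat.add (Nat.add (Nat.add (Nat.add (Nat.add (Nat.add (Nat.add C x10644) x5784) x6432) x6216) x6252) x6276) x6268)
    (Nat.sub (Nat.add (Nat.add (Nat.add (Nat.add (Nat.add (Nat.add (Nat.add (Nat.add (Nat.add C x6274) x10648) x5788) x6436) x6220) x6256) x6292) x6268) x6276) x25956)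
    (Nat.add (Nat.add (Nat.add (Nat.add (Nat.add (Nat.add (Nat.add (Nat.add (Nat.add (Nat.add C (Nat.mul x6276 (nat_lit 2))) x10650) x5790) x6438) x6222) x6258) x6294) x6270) x6282) x6274)
    (Nat.add (Nat.add (Nat.add (Nat.add (Nat.add (Nat.add (Nat.add C (Nat.mul x6282 (nat_lit 2))) x10656) x5796) x6444) x6228) x6300) x6276)
    (Nat.sub (Nat.add (Nat.add (Nat.add (Nat.add (Nat.add (Nat.add C (Nat.mul x6292 (nat_lit 2))) x10666) x5806) x6454) x6274) x6294) x25974)
    (Nat.add (Nat.add (Nat.add (Nat.add (Nat.add (Nat.add (Nat.add C (Nat.mul x6294 (nat_lit 2))) x10668) x5808) x6456) x6276) x6300) x6292)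
    (Nat.add (Nat.add (Nat.add (Nat.add (Nat.add (Nat.add C (Nat.mul x6300 (nat_lit 4))) x10674) x5814) x6462) x6282) x6294)
    (Nat.sub (Nat.add (Nat.add (Nat.add (Nat.add C (Nat.mul x6326 (nat_lit 2))) x10700) x6164) x6332) x26008)
    (Nat.sub (Nat.add (Nat.add (Nat.add (Nat.add (Nat.add (Nat.add (Nat.add C x6332) x10706) x6170) x6350) x6326) x6338) x6334) x26014)
    (Nat.sub (Nat.add (Nat.add (Nat.add (Nat.add (Nat.add (Nat.add C (Nat.mul x6334 (nat_lit 2))) x10708) x6172) x6352) x6340) x6332) x26016)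
    (Nat.sub (Nat.sub (Nat.add (Nat.add (Nat.add (Nat.add (Nat.add C x10712) x6176) x6356) x6332) x6340) (Nat.mul x6338 (nat_lit 2))) x26020)
    (Nat.sub (Nat.add (Nat.add (Nat.add (Nat.add (Nat.add (Nat.add (Nat.add C x6340) x10714) x6178) x6358) x6334) x6338) x6342) x26022)
    (Nat.add (Nat.add (Nat.add (Nat.add (Nat.add C (Nat.mul x6342 (nat_lit 2))) x10716) x6180) x6360) x6340)
    (Nat.sub (Nat.add (Nat.add (Nat.add (Nat.add (Nat.add (Nat.add C x10724) x6188) x6404) x6332) x6356) x6352) x26032)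
    (Nat.sub (Nat.add (Nat.add (Nat.add (Nat.add (Nat.add (Nat.add C x10726) x6190) x6406) x6334) x6358) x6350) x26034)
    (Nat.sub (Nat.sub (Nat.add (Nat.add (Nat.add (Nat.add (Nat.add (Nat.add (Nat.add C x10730) x6194) x6410) x6338) x6374) x6350) x6358) x6356) x26038)
    (Nat.sub (Nat.add (Nat.add (Nat.add (Nat.add (Nat.add (Nat.add (Nat.add (Nat.add (Nat.add (Nat.add C x6358) x10732) x6196) x6412) x6340) x6376) x6352) x6364) x6356) x6360) x26040)
    (Nat.add (Nat.add (Nat.add (Nat.add (Nat.add (Nat.add (Nat.add (Nat.add C x6360) x10734) x6198) x6414) x6342) x6378) x6366) x6358)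
    (Nat.sub (Nat.add (Nat.add (Nat.add (Nat.add (Nat.add (Nat.add C x10738) x6202) x6418) x6382) x6358) x6366) x26046)
    (Nat.add (Nat.add (Nat.add (Nat.add (Nat.add (Nat.add (Nat.add C (Nat.mul x6366 (nat_lit 2))) x10740) x6204) x6420) x6384) x6360) x6364)
    (Nat.sub (Nat.sub (Nat.add (Nat.add (Nat.add (Nat.add (Nat.add C x10748) x6212) x6428) x6356) x6376) (Nat.mul x6374 (nat_lit 2))) x26056)
    (Nat.sub (Nat.sub (Nat.add (Nat.add (Nat.add (Nat.add (Nat.add (Nat.add (Nat.add C x10750) x6214) x6430) x6358) x6382) x6374) x6378) x6376) x26058)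
    (Nat.sub (Nat.add (Nat.add (Nat.add (Nat.add (Nat.add (Nat.add C x10752) x6216) x6432) x6360) x6384) x6376) (Nat.mul x6378 (nat_lit 2)))
    (Nat.sub (Nat.add (Nat.add (Nat.add (Nat.add (Nat.add (Nat.add C x10756) x6220) x6436) x6364) x6376) x6384) x26064)
    (Nat.add (Nat.add (Nat.add (Nat.add (Nat.add (Nat.add (Nat.add (Nat.add C x6384) x10758) x6222) x6438) x6366) x6378) x6390) x6382)
    (Nat.add (Nat.add (Nat.add (Nat.add (Nat.add C (Nat.mul x6390 (nat_lit 2))) x10764) x6228) x6444) x6384)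
    (Nat.sub (Nat.add (Nat.add (Nat.add (Nat.add (Nat.add (Nat.add C (Nat.mul x6404 (nat_lit 2))) x10778) x6242) x6350) x6410) x6406) x26086)
    (Nat.sub (Nat.add (Nat.add (Nat.add (Nat.add (Nat.add (Nat.add C (Nat.mul x6406 (nat_lit 2))) x10780) x6244) x6352) x6412) x6404) x26088)
    (Nat.sub (Nat.add (Nat.add (Nat.add (Nat.add (Nat.add (Nat.add C x10784) x6248) x6356) x6428) x6404) x6412) x26092)
    (Nat.sub (Nat.add (Nat.add (Nat.add (Nat.add (Nat.add (Nat.add (Nat.add (Nat.add (Nat.add C (Nat.mul x6412 (nat_lit 2))) x10786) x6250) x6358) x6430) x6406) x6418) x6410) x6414) x26094)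
    (Nat.add (Nat.add (Nat.add (Nat.add (Nat.add (Nat.add (Nat.add C (Nat.mul x6414 (nat_lit 2))) x10788) x6252) x6360) x6432) x6420) x6412)
    (Nat.sub (Nat.add (Nat.add (Nat.add (Nat.add (Nat.add (Nat.add C x10792) x6256) x6364) x6436) x6412) x6420) x26100)
    (Nat.add (Nat.add (Nat.add (Nat.add (Nat.add (Nat.add (Nat.add C (Nat.mul x6420 (nat_lit 2))) x10794) x6258) x6366) x6438) x6414) x6418)
    (Nat.sub (Nat.add (Nat.add (Nat.add (Nat.add (Nat.add (Nat.add (Nat.add C x6428) x10802) x6266) x6374) x6482) x6410) x6430) x26110)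
    (Nat.sub (Nat.add (Nat.add (Nat.add (Nat.add (Nat.add (Nat.add (Nat.add (Nat.add (Nat.add C (Nat.mul x6430 (nat_lit 2))) x10804) x6268) x6376) x6484) x6412) x6436) x6428) x6432) x26112)
    (Nat.add (Nat.add (Nat.add (Nat.add (Nat.add (Nat.add (Nat.add (Nat.add C x6432) x10806) x6270) x6378) x6486) x6414) x6438) x6430)
    (Nat.sub (Nat.add (Nat.add (Nat.add (Nat.add (Nat.add (Nat.add (Nat.add (Nat.add (Nat.add C (Nat.mul x6436 (nat_lit 2))) x10810) x6274) x6382) x6490) x6418) x6454) x6430) x6438) x26118)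
    (Nat.add (Nat.add (Nat.add (Nat.add (Nat.add (Nat.add (Nat.add (Nat.add (Nat.add (Nat.add C (Nat.mul x6438 (nat_lit 3))) x10812) x6276) x6384) x6492) x6420) x6456) x6432) x6444) x6436)
    (Nat.add (Nat.add (Nat.add (Nat.add (Nat.add (Nat.add (Nat.add C (Nat.mul x6444 (nat_lit 3))) x10818) x6282) x6390) x6498) x6462) x6438)
    (Nat.sub (Nat.add (Nat.add (Nat.add (Nat.add (Nat.add (Nat.add C (Nat.mul x6454 (nat_lit 2))) x10828) x6292) x6508) x6436) x6456) x26136)
    (Nat.add (Nat.add (Nat.add (Nat.add (Nat.add (Nat.add (Nat.add C (Nat.mul x6456 (nat_lit 2))) x10830) x6294) x6510) x6438) x6462) x6454)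
    (Nat.add (Nat.add (Nat.add (Nat.add (Nat.add (Nat.add C (Nat.mul x6462 (nat_lit 4))) x10836) x6300) x6516) x6444) x6456)
    (Nat.sub (Nat.add (Nat.add (Nat.add (Nat.add C (Nat.mul x6482 (nat_lit 2))) x10856) x6428) x6484) x26164)
    (Nat.sub (Nat.add (Nat.add (Nat.add (Nat.add (Nat.add (Nat.add C (Nat.mul x6484 (nat_lit 3))) x10858) x6430) x6490) x6482) x6486) x26166)
    (Nat.add (Nat.add (Nat.add (Nat.add (Nat.add C (Nat.mul x6486 (nat_lit 2))) x10860) x6432) x6492) x6484)
    (Nat.sub (Nat.add (Nat.add (Nat.add (Nat.add (Nat.add (Nat.add C (Nat.mul x6490 (nat_lit 2))) x10864) x6436) x6508) x6484) x6492) x26172)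
    (Nat.add (Nat.add (Nat.add (Nat.add (Nat.add (Nat.add (Nat.add C (Nat.mul x6492 (nat_lit 3))) x10866) x6438) x6510) x6486) x6498) x6490)
    (Nat.add (Nat.add (Nat.add (Nat.add (Nat.add C (Nat.mul x6498 (nat_lit 2))) x10872) x6444) x6516) x6492)
    (Nat.sub (Nat.add (Nat.add (Nat.add (Nat.add (Nat.add C (Nat.mul x6508 (nat_lit 4))) x10882) x6454) x6490) x6510) x26190)
    (Nat.add (Nat.add (Nat.add (Nat.add (Nat.add (Nat.add C (Nat.mul x6510 (nat_lit 4))) x10884) x6456) x6492) x6516) x6508)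
    (Nat.add (Nat.add (Nat.add (Nat.add (Nat.add (Nat.add C (Nat.mul x6516 (nat_lit 5))) x10890) x6462) x6498) x6534) x6510)
    (Nat.add (Nat.add (Nat.add C (Nat.mul x6534 (nat_lit 6))) x10908) x6516)
    (Nat.sub (Nat.add (Nat.add (Nat.add (Nat.add (Nat.add C (Nat.mul x6722 (nat_lit 4))) x19844) x2348) x6884) x6776) x26404)
    (Nat.sub (Nat.add (Nat.add (Nat.add (Nat.add (Nat.add (Nat.add C (Nat.mul x6776 (nat_lit 2))) x19898) x2402) x6938) x6722) x6794) x26458)
    (Nat.sub (Nat.add (Nat.add (Nat.add (Nat.add (Nat.add (Nat.add C (Nat.mul x6794 (nat_lit 2))) x19916) x2420) x6956) x6776) x6800) x26476)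
    (Nat.sub (Nat.add (Nat.add (Nat.add (Nat.add (Nat.add (Nat.add C (Nat.mul x6800 (nat_lit 2))) x19922) x2426) x6962) x6794) x6802) x26482)
    (Nat.sub (Nat.add (Nat.add (Nat.add (Nat.add (Nat.add C (Nat.mul x6802 (nat_lit 4))) x19924) x2428) x6964) x6800) x26484)
    (Nat.sub (Nat.add (Nat.add (Nat.add (Nat.add (Nat.add (Nat.add C (Nat.mul x6884 (nat_lit 2))) x20006) x2510) x7370) x6722) x6938) x26566)
    (Nat.sub (Nat.add (Nat.add (Nat.add (Nat.add (Nat.add (Nat.add (Nat.add (Nat.add (Nat.add C (Nat.mul x6938 (nat_lit 2))) x20060) x2564) x7424) x6776) x7100) x6884) x6992) x6956) x26620)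
    (Nat.sub (Nat.add (Nat.add (Nat.add (Nat.add (Nat.add (Nat.add (Nat.add (Nat.add (Nat.add C x6956) x20078) x2582) x7442) x6794) x7118) x7010) x6938) x6962) x26638)
    (Nat.sub (Nat.add (Nat.add (Nat.add (Nat.add (Nat.add (Nat.add (Nat.add (Nat.add (Nat.add C x6962) x20084) x2588) x7448) x6800) x7124) x7016) x6956) x6964) x26644)
    (Nat.sub (Nat.add (Nat.add (Nat.add (Nat.add (Nat.add (Nat.add (Nat.add (Nat.add C (Nat.mul x6964 (nat_lit 3))) x20086) x2590) x7450) x6802) x7126) x7018) x6962) x26646)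
    (Nat.sub (Nat.add (Nat.add (Nat.add (Nat.add (Nat.add (Nat.add C x20114) x2618) x7478) x7154) x6938) x7010) x26674)
    (Nat.sub (Nat.add (Nat.add (Nat.add (Nat.add (Nat.add (Nat.add (Nat.add (Nat.add (Nat.add C x7010) x20132) x2636) x7496) x7172) x6956) x6992) x7028) x7016) x26692)
    (Nat.sub (Nat.add (Nat.add (Nat.add (Nat.add (Nat.add (Nat.add (Nat.add (Nat.add C x20138) x2642) x7502) x7178) x6962) x7034) x7010) x7018) x26698)
    (Nat.sub (Nat.add (Nat.add (Nat.add (Nat.add (Nat.add (Nat.add (Nat.add (Nat.add C (Nat.mul x7018 (nat_lit 2))) x20140) x2644) x7504) x7180) x6964) x7036) x7016) x26700)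
    (Nat.sub (Nat.add (Nat.add (Nat.add (Nat.add (Nat.add (Nat.add C x20150) x2654) x7514) x7190) x7010) x7034) x26710)
    (Nat.sub (Nat.add (Nat.add (Nat.add (Nat.add (Nat.add (Nat.add (Nat.add (Nat.add (Nat.add C x7034) x20156) x2660) x7520) x7196) x7016) x7028) x7040) x7036) x26716)
    (Nat.sub (Nat.add (Nat.add (Nat.add (Nat.add (Nat.add (Nat.add (Nat.add (Nat.add C (Nat.mul x7036 (nat_lit 2))) x20158) x2662) x7522) x7198) x7018) x7042) x7034) x26718)
    (Nat.sub (Nat.add (Nat.add (Nat.add (Nat.add (Nat.add (Nat.add C x20162) x2666) x7526) x7202) x7034) x7042) x26722)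
    (Nat.sub (Nat.add (Nat.add (Nat.add (Nat.add (Nat.add (Nat.add (Nat.add (Nat.add C (Nat.mul x7042 (nat_lit 3))) x20164) x2668) x7528) x7204) x7036) x7040) x7044) x26724)
    (Nat.add (Nat.add (Nat.add (Nat.add (Nat.add (Nat.add C (Nat.mul x7044 (nat_lit 4))) x20166) x2670) x7530) x7206) x7042)
    (Nat.sub (Nat.add (Nat.add (Nat.add (Nat.add (Nat.add (Nat.add C x20222) x2726) x7586) x6938) x7154) x7118) x26782)
    (Nat.sub (Nat.sub (Nat.add (Nat.add (Nat.add (Nat.add (Nat.add (Nat.add (Nat.add C x20240) x2744) x7604) x6956) x7172) x7100) x7124) (Nat.mul x7118 (nat_lit 2))) x26800)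
    (Nat.sub (Nat.sub (Nat.add (Nat.add (Nat.add (Nat.add (Nat.add (Nat.add (Nat.add C x20246) x2750) x7610) x6962) x7178) x7118) x7126) (Nat.mul x7124 (nat_lit 2))) x26806)
    (Nat.sub (Nat.add (Nat.add (Nat.add (Nat.add (Nat.add (Nat.add C x20248) x2752) x7612) x6964) x7180) x7124) x26808)
    (Nat.sub (Nat.add (Nat.add (Nat.add (Nat.add (Nat.add (Nat.add C x20276) x2780) x7640) x6992) x7100) x7172) x26836)
    (Nat.sub (Nat.add (Nat.add (Nat.add (Nat.add (Nat.add (Nat.add (Nat.add (Nat.add (Nat.add C x20294) x2798) x7658) x7010) x7118) x7226) x7154) x7190) x7178) x26854)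
    (Nat.sub (Nat.sub (Nat.add (Nat.add (Nat.add (Nat.add (Nat.add (Nat.add (Nat.add (Nat.add (Nat.add C x20300) x2804) x7664) x7016) x7124) x7232) x7196) x7172) x7180) x7178) x26860)
    (Nat.sub (Nat.add (Nat.add (Nat.add (Nat.add (Nat.add (Nat.add (Nat.add (Nat.add (Nat.add C x7180) x20302) x2806) x7666) x7018) x7126) x7234) x7198) x7178) x26862)
    (Nat.sub (Nat.sub (Nat.add (Nat.add (Nat.add (Nat.add (Nat.add (Nat.add (Nat.add C x20312) x2816) x7676) x7028) x7244) x7172) x7196) (Nat.mul x7190 (nat_lit 2))) x26872)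
    (Nat.sub (Nat.sub (Nat.add (Nat.add (Nat.add (Nat.add (Nat.add (Nat.add (Nat.add (Nat.add (Nat.add C x20318) x2822) x7682) x7034) x7250) x7178) x7190) x7202) x7198) x7196) x26878)
    (Nat.sub (Nat.add (Nat.add (Nat.add (Nat.add (Nat.add (Nat.add (Nat.add (Nat.add C x20320) x2824) x7684) x7036) x7252) x7180) x7204) x7196) x26880)
    (Nat.sub (Nat.sub (Nat.add (Nat.add (Nat.add (Nat.add (Nat.add (Nat.add (Nat.add C x20324) x2828) x7688) x7040) x7256) x7196) x7204) (Nat.mul x7202 (nat_lit 2))) x26884)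
    (Nat.sub (Nat.add (Nat.add (Nat.add (Nat.add (Nat.add (Nat.add (Nat.add (Nat.add (Nat.add C x7204) x20326) x2830) x7690) x7042) x7258) x7198) x7202) x7206) x26886)
    (Nat.add (Nat.add (Nat.add (Nat.add (Nat.add (Nat.add (Nat.add C (Nat.mul x7206 (nat_lit 2))) x20328) x2832) x7692) x7044) x7260) x7204)
    (Nat.sub (Nat.add (Nat.add (Nat.add (Nat.add (Nat.add (Nat.add C x20348) x2852) x7712) x7172) x7244) x7232) x26908)
    (Nat.sub (Nat.sub (Nat.add (Nat.add (Nat.add (Nat.add (Nat.add (Nat.add (Nat.add C x20354) x2858) x7718) x7178) x7250) x7226) x7234) (Nat.mul x7232 (nat_lit 2))) x26914)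
    (Nat.sub (Nat.add (Nat.add (Nat.add (Nat.add (Nat.add (Nat.add C x20356) x2860) x7720) x7180) x7252) x7232) x26916)
    (Nat.sub (Nat.add (Nat.add (Nat.add (Nat.add (Nat.add (Nat.add C x20366) x2870) x7730) x7190) x7226) x7250) x26926)
    (Nat.sub (Nat.add (Nat.add (Nat.add (Nat.add (Nat.add (Nat.add (Nat.add (Nat.add (Nat.add C x20372) x2876) x7736) x7196) x7232) x7268) x7244) x7256) x7252) x26932)
    (Nat.sub (Nat.add (Nat.add (Nat.add (Nat.add (Nat.add (Nat.add (Nat.add (Nat.add (Nat.add C x7252) x20374) x2878) x7738) x7198) x7234) x7270) x7258) x7250) x26934)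
    (Nat.sub (Nat.sub (Nat.add (Nat.add (Nat.add (Nat.add (Nat.add (Nat.add (Nat.add C x20378) x2882) x7742) x7202) x7274) x7250) x7258) (Nat.mul x7256 (nat_lit 2))) x26938)
    (Nat.sub (Nat.add (Nat.add (Nat.add (Nat.add (Nat.add (Nat.add (Nat.add (Nat.add (Nat.add C x7258) x20380) x2884) x7744) x7204) x7276) x7252) x7256) x7260) x26940)
    (Nat.add (Nat.add (Nat.add (Nat.add (Nat.add (Nat.add (Nat.add C (Nat.mul x7260 (nat_lit 2))) x20382) x2886) x7746) x7206) x7278) x7258)
    (Nat.sub (Nat.add (Nat.add (Nat.add (Nat.add (Nat.add (Nat.add C x20390) x2894) x7754) x7250) x7274) x7270) x26950)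
    (Nat.sub (Nat.add (Nat.add (Nat.add (Nat.add (Nat.add (Nat.add C x20392) x2896) x7756) x7252) x7276) x7268) x26952)
    (Nat.sub (Nat.add (Nat.add (Nat.add (Nat.add (Nat.add (Nat.add C x20396) x2900) x7760) x7256) x7268) x7276) x26956)
    (Nat.sub (Nat.add (Nat.add (Nat.add (Nat.add (Nat.add (Nat.add (Nat.add (Nat.add (Nat.add C (Nat.mul x7276 (nat_lit 2))) x20398) x2902) x7762) x7258) x7270) x7282) x7274) x7278) x26958)
    (Nat.add (Nat.add (Nat.add (Nat.add (Nat.add (Nat.add (Nat.add C (Nat.mul x7278 (nat_lit 2))) x20400) x2904) x7764) x7260) x7284) x7276)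
    (Nat.sub (Nat.add (Nat.add (Nat.add (Nat.add (Nat.add (Nat.add C (Nat.mul x7282 (nat_lit 2))) x20404) x2908) x7768) x7276) x7284) x26964)
    (Nat.add (Nat.add (Nat.add (Nat.add (Nat.add (Nat.add C (Nat.mul x7284 (nat_lit 4))) x20406) x2910) x7770) x7278) x7282)
    (Nat.sub (Nat.add (Nat.add (Nat.add (Nat.add (Nat.add (Nat.add C (Nat.mul x7370 (nat_lit 2))) x20492) x2996) x8828) x6884) x7424) x27052)
    (Nat.sub (Nat.add (Nat.add (Nat.add (Nat.add (Nat.add (Nat.add (Nat.add (Nat.add (Nat.add C x7424) x20546) x3050) x8882) x6938) x7586) x7370) x7478) x7442) x27106)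
    (Nat.sub (Nat.add (Nat.add (Nat.add (Nat.add (Nat.add (Nat.add (Nat.add (Nat.add C x20564) x3068) x8900) x6956) x7604) x7496) x7424) x7448) x27124)
    (Nat.sub (Nat.add (Nat.add (Nat.add (Nat.add (Nat.add (Nat.add (Nat.add (Nat.add C x20570) x3074) x8906) x6962) x7610) x7502) x7442) x7450) x27130)
    (Nat.sub (Nat.add (Nat.add (Nat.add (Nat.add (Nat.add (Nat.add (Nat.add (Nat.add C (Nat.mul x7450 (nat_lit 2))) x20572) x3076) x8908) x6964) x7612) x7504) x7448) x27132)
    (Nat.sub (Nat.sub (Nat.add (Nat.add (Nat.add (Nat.add (Nat.add (Nat.add (Nat.add C x20600) x3104) x8936) x6992) x7640) x7424) x7496) (Nat.mul x7478 (nat_lit 2))) x27160)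
    (Nat.sub (Nat.sub (Nat.add (Nat.add (Nat.add (Nat.add (Nat.add (Nat.add (Nat.add (Nat.add (Nat.add C x20618) x3122) x8954) x7010) x7658) x7442) x7478) x7514) x7502) x7496) x27178)
    (Nat.sub (Nat.sub (Nat.sub (Nat.add (Nat.add (Nat.add (Nat.add (Nat.add (Nat.add (Nat.add (Nat.add (Nat.add (Nat.add C x20624) x3128) x8960) x7016) x7664) x7448) x7520) x7496) x7504) (Nat.mul (e (nat_lit 7502)) ap)) (Nat.mul x7502 (nat_lit 2))) x27184) (Nat.mul (e (nat_lit 7502)) an))
    (Nat.sub (Nat.add (Nat.add (Nat.add (Nat.add (Nat.add (Nat.add (Nat.add (Nat.add C x20626) x3130) x8962) x7018) x7666) x7450) x7522) x7502) x27186)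
    (Nat.sub (Nat.sub (Nat.add (Nat.add (Nat.add (Nat.add (Nat.add (Nat.add (Nat.add C x20636) x3140) x8972) x7028) x7676) x7496) x7520) (Nat.mul x7514 (nat_lit 2))) x27196)
    (Nat.sub (Nat.sub (Nat.add (Nat.add (Nat.add (Nat.add (Nat.add (Nat.add (Nat.add (Nat.add (Nat.add C x20642) x3146) x8978) x7034) x7682) x7502) x7514) x7526) x7522) x7520) x27202)
    (Nat.sub (Nat.add (Nat.add (Nat.add (Nat.add (Nat.add (Nat.add (Nat.add (Nat.add C x20644) x3148) x8980) x7036) x7684) x7504) x7528) x7520) x27204)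
    (Nat.sub (Nat.sub (Nat.add (Nat.add (Nat.add (Nat.add (Nat.add (Nat.add (Nat.add C x20648) x3152) x8984) x7040) x7688) x7520) x7528) (Nat.mul x7526 (nat_lit 2))) x27208)
    (Nat.sub (Nat.add (Nat.add (Nat.add (Nat.add (Nat.add (Nat.add (Nat.add (Nat.add (Nat.add C x7528) x20650) x3154) x8986) x7042) x7690) x7522) x7526) x7530) x27210)
    (Nat.add (Nat.add (Nat.add (Nat.add (Nat.add (Nat.add (Nat.add C (Nat.mul x7530 (nat_lit 2))) x20652) x3156) x8988) x7044) x7692) x7528)
    (Nat.sub (Nat.add (Nat.add (Nat.add (Nat.add (Nat.add (Nat.add (Nat.add (Nat.add (Nat.add C x7586) x20708) x3212) x9044) x7100) x8072) x7424) x7640) x7604) x27268)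
    (Nat.sub (Nat.sub (Nat.add (Nat.add (Nat.add (Nat.add (Nat.add (Nat.add (Nat.add (Nat.add (Nat.add C x20726) x3230) x9062) x7118) x8090) x7442) x7658) x7586) x7610) x7604) x27286)
    (Nat.sub (Nat.sub (Nat.add (Nat.add (Nat.add (Nat.add (Nat.add (Nat.add (Nat.add (Nat.add (Nat.add C x20732) x3236) x9068) x7124) x8096) x7448) x7664) x7604) x7612) x7610) x27292)
    (Nat.sub (Nat.add (Nat.add (Nat.add (Nat.add (Nat.add (Nat.add (Nat.add (Nat.add (Nat.add C x7612) x20734) x3238) x9070) x7126) x8098) x7450) x7666) x7610) x27294)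
    (Nat.sub (Nat.add (Nat.add (Nat.add (Nat.add (Nat.add (Nat.add (Nat.add (Nat.add (Nat.add C x20762) x3266) x9098) x7154) x8126) x7478) x7802) x7586) x7658) x27322)
    (Nat.sub (Nat.add (Nat.add (Nat.add (Nat.add (Nat.add (Nat.add (Nat.add (Nat.add (Nat.add (Nat.add (Nat.add (Nat.add C x20780) x3284) x9116) x7172) x8144) x7496) x7820) x7604) x7712) x7640) x7676) x7664) x27340)
    (Nat.sub (Nat.sub (Nat.sub (Nat.add (Nat.add (Nat.add (Nat.add (Nat.add (Nat.add (Nat.add (Nat.add (Nat.add (Nat.add (Nat.add (Nat.add (Nat.add C x20786) x3290) x9122) x7178) x8150) x7502) x7826) x7610) x7718) x7682) x7658) x7666) (Nat.mul (e (nat_lit 7664)) ap)) x7664) x27346) (Nat.mul (e (nat_lit 7664)) an))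
    (Nat.sub (Nat.add (Nat.add (Nat.add (Nat.add (Nat.add (Nat.add (Nat.add (Nat.add (Nat.add (Nat.add (Nat.add (Nat.add C x7666) x20788) x3292) x9124) x7180) x8152) x7504) x7828) x7612) x7720) x7684) x7664) x27348)
    (Nat.sub (Nat.sub (Nat.add (Nat.add (Nat.add (Nat.add (Nat.add (Nat.add (Nat.add (Nat.add (Nat.add (Nat.add C x20798) x3302) x9134) x7190) x8162) x7514) x7838) x7730) x7658) x7682) (Nat.mul x7676 (nat_lit 2))) x27358)
    (Nat.sub (Nat.sub (Nat.sub (Nat.add (Nat.add (Nat.add (Nat.add (Nat.add (Nat.add (Nat.add (Nat.add (Nat.add (Nat.add (Nat.add (Nat.add (Nat.add C x20804) x3308) x9140) x7196) x8168) x7520) x7844) x7736) x7664) x7676) x7688) x7684) (Nat.mul (e (nat_lit 7682)) ap)) x7682) x27364) (Nat.mul (e (nat_lit 7682)) an))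
    (Nat.sub (Nat.sub (Nat.add (Nat.add (Nat.add (Nat.add (Nat.add (Nat.add (Nat.add (Nat.add (Nat.add (Nat.add (Nat.add (Nat.add C x20806) x3310) x9142) x7198) x8170) x7522) x7846) x7738) x7666) x7690) x7682) (Nat.mul (e (nat_lit 7684)) ap)) x27366) (Nat.mul (e (nat_lit 7684)) an))
    (Nat.sub (Nat.sub (Nat.add (Nat.add (Nat.add (Nat.add (Nat.add (Nat.add (Nat.add (Nat.add (Nat.add (Nat.add C x20810) x3314) x9146) x7202) x8174) x7526) x7850) x7742) x7682) x7690) (Nat.mul x7688 (nat_lit 2))) x27370)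
    (Nat.sub (Nat.add (Nat.add (Nat.add (Nat.add (Nat.add (Nat.add (Nat.add (Nat.add (Nat.add (Nat.add (Nat.add (Nat.add C x7690) x20812) x3316) x9148) x7204) x8176) x7528) x7852) x7744) x7684) x7688) x7692) x27372)
    (Nat.add (Nat.add (Nat.add (Nat.add (Nat.add (Nat.add (Nat.add (Nat.add (Nat.add (Nat.add C (Nat.mul x7692 (nat_lit 2))) x20814) x3318) x9150) x7206) x8178) x7530) x7854) x7746) x7690)
    (Nat.sub (Nat.sub (Nat.add (Nat.add (Nat.add (Nat.add (Nat.add (Nat.add (Nat.add (Nat.add (Nat.add C x20834) x3338) x9170) x7226) x8198) x7874) x7658) x7730) x7718) x7712) x27394)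
    (Nat.sub (Nat.sub (Nat.sub (Nat.add (Nat.add (Nat.add (Nat.add (Nat.add (Nat.add (Nat.add (Nat.add (Nat.add (Nat.add (Nat.add C x20840) x3344) x9176) x7232) x8204) x7880) x7664) x7736) x7712) x7720) (Nat.mul (e (nat_lit 7718)) ap)) (Nat.mul x7718 (nat_lit 3))) x27400) (Nat.mul (e (nat_lit 7718)) an))
    (Nat.sub (Nat.sub (Nat.add (Nat.add (Nat.add (Nat.add (Nat.add (Nat.add (Nat.add (Nat.add (Nat.add C x20842) x3346) x9178) x7234) x8206) x7882) x7666) x7738) x7718) x7720) x27402)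
    (Nat.sub (Nat.sub (Nat.add (Nat.add (Nat.add (Nat.add (Nat.add (Nat.add (Nat.add (Nat.add (Nat.add C x20852) x3356) x9188) x7244) x8216) x7892) x7676) x7712) x7736) x7730) x27412)
    (Nat.sub (Nat.sub (Nat.sub (Nat.add (Nat.add (Nat.add (Nat.add (Nat.add (Nat.add (Nat.add (Nat.add (Nat.add (Nat.add (Nat.add (Nat.add (Nat.add C x20858) x3362) x9194) x7250) x8222) x7898) x7682) x7718) x7754) x7730) x7742) x7738) (Nat.mul (e (nat_lit 7736)) ap)) x7736) x27418) (Nat.mul (e (nat_lit 7736)) an))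
    (Nat.sub (Nat.sub (Nat.add (Nat.add (Nat.add (Nat.add (Nat.add (Nat.add (Nat.add (Nat.add (Nat.add (Nat.add (Nat.add (Nat.add C x20860) x3364) x9196) x7252) x8224) x7900) x7684) x7720) x7756) x7744) x7736) (Nat.mul (e (nat_lit 7738)) ap)) x27420) (Nat.mul (e (nat_lit 7738)) an))
    (Nat.sub (Nat.sub (Nat.sub (Nat.add (Nat.add (Nat.add (Nat.add (Nat.add (Nat.add (Nat.add (Nat.add (Nat.add (Nat.add (Nat.add C x20864) x3368) x9200) x7256) x8228) x7904) x7688) x7760) x7736) x7744) (Nat.mul (e (nat_lit 7742)) ap)) (Nat.mul x7742 (nat_lit 3))) x27424) (Nat.mul (e (nat_lit 7742)) an))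
    (Nat.sub (Nat.sub (Nat.add (Nat.add (Nat.add (Nat.add (Nat.add (Nat.add (Nat.add (Nat.add (Nat.add (Nat.add (Nat.add (Nat.add C x20866) x3370) x9202) x7258) x8230) x7906) x7690) x7762) x7738) x7742) x7746) (Nat.mul (e (nat_lit 7744)) ap)) x27426) (Nat.mul (e (nat_lit 7744)) an))
    (Nat.add (Nat.add (Nat.add (Nat.add (Nat.add (Nat.add (Nat.add (Nat.add (Nat.add (Nat.add C x7746) x20868) x3372) x9204) x7260) x8232) x7908) x7692) x7764) x7744)
    (Nat.sub (Nat.sub (Nat.add (Nat.add (Nat.add (Nat.add (Nat.add (Nat.add (Nat.add (Nat.add (Nat.add C x20876) x3380) x9212) x7268) x8240) x7916) x7736) x7760) x7756) x7754) x27436)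
    (Nat.sub (Nat.sub (Nat.add (Nat.add (Nat.add (Nat.add (Nat.add (Nat.add (Nat.add (Nat.add (Nat.add C x20878) x3382) x9214) x7270) x8242) x7918) x7738) x7762) x7754) x7756) x27438)
    (Nat.sub (Nat.sub (Nat.add (Nat.add (Nat.add (Nat.add (Nat.add (Nat.add (Nat.add (Nat.add (Nat.add C x20882) x3386) x9218) x7274) x8246) x7922) x7742) x7754) x7762) x7760) x27442)
    (Nat.sub (Nat.add (Nat.add (Nat.add (Nat.add (Nat.add (Nat.add (Nat.add (Nat.add (Nat.add (Nat.add (Nat.add (Nat.add C x7762) x20884) x3388) x9220) x7276) x8248) x7924) x7744) x7756) x7768) x7760) x7764) x27444)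
    (Nat.add (Nat.add (Nat.add (Nat.add (Nat.add (Nat.add (Nat.add (Nat.add (Nat.add (Nat.add C x7764) x20886) x3390) x9222) x7278) x8250) x7926) x7746) x7770) x7762)
    (Nat.sub (Nat.add (Nat.add (Nat.add (Nat.add (Nat.add (Nat.add (Nat.add (Nat.add (Nat.add C x7768) x20890) x3394) x9226) x7282) x8254) x7930) x7762) x7770) x27450)
    (Nat.add (Nat.add (Nat.add (Nat.add (Nat.add (Nat.add (Nat.add (Nat.add (Nat.add C (Nat.mul x7770 (nat_lit 3))) x20892) x3396) x9228) x7284) x8256) x7932) x7764) x7768)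
    (Nat.sub (Nat.add (Nat.add (Nat.add (Nat.add (Nat.add (Nat.add C x20924) x3428) x9260) x8288) x7640) x7820) x27484)
    (Nat.sub (Nat.sub (Nat.add (Nat.add (Nat.add (Nat.add (Nat.add (Nat.add (Nat.add (Nat.add (Nat.add C x20942) x3446) x9278) x8306) x7658) x7874) x7802) x7838) x7826) x7820) x27502)
    (Nat.sub (Nat.sub (Nat.sub (Nat.add (Nat.add (Nat.add (Nat.add (Nat.add (Nat.add (Nat.add (Nat.add (Nat.add (Nat.add C x20948) x3452) x9284) x8312) x7664) x7880) x7844) x7820) x7828) (Nat.mul (e (nat_lit 7826)) ap)) (Nat.mul x7826 (nat_lit 2))) x27508) (Nat.mul (e (nat_lit 7826)) an))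
    (Nat.sub (Nat.add (Nat.add (Nat.add (Nat.add (Nat.add (Nat.add (Nat.add (Nat.add C x20950) x3454) x9286) x8314) x7666) x7882) x7846) x7826) x27510)
    (Nat.sub (Nat.sub (Nat.add (Nat.add (Nat.add (Nat.add (Nat.add (Nat.add (Nat.add (Nat.add C x20960) x3464) x9296) x8324) x7676) x7892) x7820) x7844) (Nat.mul x7838 (nat_lit 4))) x27520)
    (Nat.sub (Nat.sub (Nat.sub (Nat.add (Nat.add (Nat.add (Nat.add (Nat.add (Nat.add (Nat.add (Nat.add (Nat.add (Nat.add (Nat.add C x20966) x3470) x9302) x8330) x7682) x7898) x7826) x7838) x7850) x7846) (Nat.mul (e (nat_lit 7844)) ap)) (Nat.mul x7844 (nat_lit 3))) x27526) (Nat.mul (e (nat_lit 7844)) an))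
    (Nat.sub (Nat.sub (Nat.sub (Nat.add (Nat.add (Nat.add (Nat.add (Nat.add (Nat.add (Nat.add (Nat.add (Nat.add (Nat.add C x20968) x3472) x9304) x8332) x7684) x7900) x7828) x7852) x7844) (Nat.mul (e (nat_lit 7846)) ap)) (Nat.mul x7846 (nat_lit 2))) x27528) (Nat.mul (e (nat_lit 7846)) an))
    (Nat.sub (Nat.sub (Nat.add (Nat.add (Nat.add (Nat.add (Nat.add (Nat.add (Nat.add (Nat.add C x20972) x3476) x9308) x8336) x7688) x7904) x7844) x7852) (Nat.mul x7850 (nat_lit 4))) x27532)
    (Nat.sub (Nat.sub (Nat.add (Nat.add (Nat.add (Nat.add (Nat.add (Nat.add (Nat.add (Nat.add (Nat.add C x20974) x3478) x9310) x8338) x7690) x7906) x7846) x7850) x7854) x7852) x27534)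
    (Nat.add (Nat.add (Nat.add (Nat.add (Nat.add (Nat.add (Nat.add C x20976) x3480) x9312) x8340) x7692) x7908) x7852)
    (Nat.sub (Nat.add (Nat.add (Nat.add (Nat.add (Nat.add (Nat.add (Nat.add (Nat.add C x20996) x3500) x9332) x8360) x7712) x7820) x7892) x7880) x27556)
    (Nat.sub (Nat.sub (Nat.sub (Nat.add (Nat.add (Nat.add (Nat.add (Nat.add (Nat.add (Nat.add (Nat.add (Nat.add (Nat.add C x21002) x3506) x9338) x8366) x7718) x7826) x7898) x7874) x7882) (Nat.mul (e (nat_lit 7880)) ap)) (Nat.mul x7880 (nat_lit 2))) x27562) (Nat.mul (e (nat_lit 7880)) an))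
    (Nat.sub (Nat.add (Nat.add (Nat.add (Nat.add (Nat.add (Nat.add (Nat.add (Nat.add C x21004) x3508) x9340) x8368) x7720) x7828) x7900) x7880) x27564)
    (Nat.sub (Nat.sub (Nat.add (Nat.add (Nat.add (Nat.add (Nat.add (Nat.add (Nat.add (Nat.add (Nat.add C x21014) x3518) x9350) x8378) x7730) x7838) x7946) x7874) x7898) x7892) x27574)
    (Nat.sub (Nat.sub (Nat.sub (Nat.add (Nat.add (Nat.add (Nat.add (Nat.add (Nat.add (Nat.add (Nat.add (Nat.add (Nat.add (Nat.add (Nat.add (Nat.add C x21020) x3524) x9356) x8384) x7736) x7844) x7952) x7880) x7916) x7892) x7904) x7900) (Nat.mul (e (nat_lit 7898)) ap)) x7898) x27580) (Nat.mul (e (nat_lit 7898)) an))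
    (Nat.sub (Nat.sub (Nat.add (Nat.add (Nat.add (Nat.add (Nat.add (Nat.add (Nat.add (Nat.add (Nat.add (Nat.add (Nat.add (Nat.add C x21022) x3526) x9358) x8386) x7738) x7846) x7954) x7882) x7918) x7906) x7898) (Nat.mul (e (nat_lit 7900)) ap)) x27582) (Nat.mul (e (nat_lit 7900)) an))
    (Nat.sub (Nat.sub (Nat.sub (Nat.add (Nat.add (Nat.add (Nat.add (Nat.add (Nat.add (Nat.add (Nat.add (Nat.add (Nat.add (Nat.add C x21026) x3530) x9362) x8390) x7742) x7850) x7958) x7922) x7898) x7906) (Nat.mul (e (nat_lit 7904)) ap)) (Nat.mul x7904 (nat_lit 3))) x27586) (Nat.mul (e (nat_lit 7904)) an))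
    (Nat.sub (Nat.add (Nat.add (Nat.add (Nat.add (Nat.add (Nat.add (Nat.add (Nat.add (Nat.add (Nat.add (Nat.add C x21028) x3532) x9364) x8392) x7744) x7852) x7960) x7924) x7900) x7904) x7908) x27588)
    (Nat.add (Nat.add (Nat.add (Nat.add (Nat.add (Nat.add (Nat.add (Nat.add (Nat.add (Nat.add C x7908) x21030) x3534) x9366) x8394) x7746) x7854) x7962) x7926) x7906)
    (Nat.sub (Nat.sub (Nat.sub (Nat.add (Nat.add (Nat.add (Nat.add (Nat.add (Nat.add (Nat.add (Nat.add (Nat.add (Nat.add C x21038) x3542) x9374) x8402) x7754) x7970) x7898) x7922) x7918) (Nat.mul (e (nat_lit 7916)) ap)) (Nat.mul x7916 (nat_lit 2))) x27598) (Nat.mul (e (nat_lit 7916)) an))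
    (Nat.sub (Nat.sub (Nat.add (Nat.add (Nat.add (Nat.add (Nat.add (Nat.add (Nat.add (Nat.add (Nat.add C x21040) x3544) x9376) x8404) x7756) x7972) x7900) x7924) x7916) (Nat.mul x7918 (nat_lit 2))) x27600)
    (Nat.sub (Nat.sub (Nat.add (Nat.add (Nat.add (Nat.add (Nat.add (Nat.add (Nat.add (Nat.add (Nat.add C x21044) x3548) x9380) x8408) x7760) x7976) x7904) x7916) x7924) (Nat.mul x7922 (nat_lit 2))) x27604)
    (Nat.sub (Nat.add (Nat.add (Nat.add (Nat.add (Nat.add (Nat.add (Nat.add (Nat.add (Nat.add (Nat.add (Nat.add C x21046) x3550) x9382) x8410) x7762) x7978) x7906) x7918) x7930) x7922) x7926) x27606)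
    (Nat.add (Nat.add (Nat.add (Nat.add (Nat.add (Nat.add (Nat.add (Nat.add (Nat.add C x21048) x3552) x9384) x8412) x7764) x7980) x7908) x7932) x7924)
    (Nat.sub (Nat.add (Nat.add (Nat.add (Nat.add (Nat.add (Nat.add (Nat.add (Nat.add C x21052) x3556) x9388) x8416) x7768) x7984) x7924) x7932) x27612)
    (Nat.add (Nat.add (Nat.add (Nat.add (Nat.add (Nat.add (Nat.add (Nat.add (Nat.add C (Nat.mul x7932 (nat_lit 2))) x21054) x3558) x9390) x8418) x7770) x7986) x7926) x7930)
    (Nat.sub (Nat.add (Nat.add (Nat.add (Nat.add (Nat.add (Nat.add C x21068) x3572) x9404) x8432) x7892) x7952) x27628)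
    (Nat.sub (Nat.sub (Nat.add (Nat.add (Nat.add (Nat.add (Nat.add (Nat.add (Nat.add (Nat.add (Nat.add C x21074) x3578) x9410) x8438) x7898) x7970) x7946) x7958) x7954) x7952) x27634)
    (Nat.sub (Nat.add (Nat.add (Nat.add (Nat.add (Nat.add (Nat.add (Nat.add (Nat.add C x21076) x3580) x9412) x8440) x7900) x7972) x7960) x7952) x27636)
    (Nat.sub (Nat.sub (Nat.add (Nat.add (Nat.add (Nat.add (Nat.add (Nat.add (Nat.add (Nat.add C x21080) x3584) x9416) x8444) x7904) x7976) x7952) x7960) (Nat.mul x7958 (nat_lit 4))) x27640)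
    (Nat.sub (Nat.sub (Nat.add (Nat.add (Nat.add (Nat.add (Nat.add (Nat.add (Nat.add (Nat.add (Nat.add C x21082) x3586) x9418) x8446) x7906) x7978) x7954) x7958) x7962) x7960) x27642)
    (Nat.add (Nat.add (Nat.add (Nat.add (Nat.add (Nat.add (Nat.add C x21084) x3588) x9420) x8448) x7908) x7980) x7960)
    (Nat.sub (Nat.add (Nat.add (Nat.add (Nat.add (Nat.add (Nat.add (Nat.add (Nat.add C x21092) x3596) x9428) x8456) x7916) x7952) x7976) x7972) x27652)
    (Nat.sub (Nat.add (Nat.add (Nat.add (Nat.add (Nat.add (Nat.add (Nat.add (Nat.add C x21094) x3598) x9430) x8458) x7918) x7954) x7978) x7970) x27654)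
    (Nat.sub (Nat.sub (Nat.add (Nat.add (Nat.add (Nat.add (Nat.add (Nat.add (Nat.add (Nat.add (Nat.add C x21098) x3602) x9434) x8462) x7922) x7958) x7994) x7970) x7978) x7976) x27658)
    (Nat.sub (Nat.add (Nat.add (Nat.add (Nat.add (Nat.add (Nat.add (Nat.add (Nat.add (Nat.add (Nat.add (Nat.add (Nat.add C x7978) x21100) x3604) x9436) x8464) x7924) x7960) x7996) x7972) x7984) x7976) x7980) x27660)
    (Nat.add (Nat.add (Nat.add (Nat.add (Nat.add (Nat.add (Nat.add (Nat.add (Nat.add (Nat.add C x7980) x21102) x3606) x9438) x8466) x7926) x7962) x7998) x7986) x7978)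
    (Nat.sub (Nat.add (Nat.add (Nat.add (Nat.add (Nat.add (Nat.add (Nat.add (Nat.add C x21106) x3610) x9442) x8470) x7930) x8002) x7978) x7986) x27666)
    (Nat.add (Nat.add (Nat.add (Nat.add (Nat.add (Nat.add (Nat.add (Nat.add (Nat.add C (Nat.mul x7986 (nat_lit 2))) x21108) x3612) x9444) x8472) x7932) x8004) x7980) x7984)
    (Nat.sub (Nat.add (Nat.add (Nat.add (Nat.add (Nat.add (Nat.add C x21116) x3620) x9452) x8480) x7976) x7996) x27676)
    (Nat.sub (Nat.add (Nat.add (Nat.add (Nat.add (Nat.add (Nat.add (Nat.add (Nat.add (Nat.add C x7996) x21118) x3622) x9454) x8482) x7978) x8002) x7994) x7998) x27678)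
    (Nat.add (Nat.add (Nat.add (Nat.add (Nat.add (Nat.add (Nat.add C x21120) x3624) x9456) x8484) x7980) x8004) x7996)
    (Nat.sub (Nat.add (Nat.add (Nat.add (Nat.add (Nat.add (Nat.add (Nat.add (Nat.add C (Nat.mul x8002 (nat_lit 2))) x21124) x3628) x9460) x8488) x7984) x7996) x8004) x27684)
    (Nat.add (Nat.add (Nat.add (Nat.add (Nat.add (Nat.add (Nat.add (Nat.add (Nat.add C (Nat.mul x8004 (nat_lit 3))) x21126) x3630) x9462) x8490) x7986) x7998) x8010) x8002)
    (Nat.add (Nat.add (Nat.add (Nat.add (Nat.add (Nat.add C (Nat.mul x8010 (nat_lit 4))) x21132) x3636) x9468) x8496) x8004)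
    (Nat.sub (Nat.add (Nat.add (Nat.add (Nat.add (Nat.add (Nat.add C x21194) x3698) x9530) x7586) x8126) x8090) x27754)
    (Nat.sub (Nat.sub (Nat.add (Nat.add (Nat.add (Nat.add (Nat.add (Nat.add (Nat.add C x21212) x3716) x9548) x7604) x8144) x8072) x8096) (Nat.mul x8090 (nat_lit 2))) x27772)
    (Nat.sub (Nat.sub (Nat.add (Nat.add (Nat.add (Nat.add (Nat.add (Nat.add (Nat.add C x21218) x3722) x9554) x7610) x8150) x8090) x8098) (Nat.mul x8096 (nat_lit 2))) x27778)
    (Nat.sub (Nat.add (Nat.add (Nat.add (Nat.add (Nat.add (Nat.add C x21220) x3724) x9556) x7612) x8152) x8096) x27780)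
    (Nat.sub (Nat.sub (Nat.add (Nat.add (Nat.add (Nat.add (Nat.add (Nat.add (Nat.add C x21248) x3752) x9584) x7640) x8288) x8072) x8144) (Nat.mul x8126 (nat_lit 2))) x27808)
    (Nat.sub (Nat.sub (Nat.add (Nat.add (Nat.add (Nat.add (Nat.add (Nat.add (Nat.add (Nat.add (Nat.add (Nat.add C x21266) x3770) x9602) x7658) x8306) x8090) x8198) x8126) x8162) x8150) (Nat.mul x8144 (nat_lit 2))) x27826)
    (Nat.sub (Nat.sub (Nat.add (Nat.add (Nat.add (Nat.add (Nat.add (Nat.add (Nat.add (Nat.add (Nat.add (Nat.add C x21272) x3776) x9608) x7664) x8312) x8096) x8204) x8168) x8144) x8152) (Nat.mul x8150 (nat_lit 3))) x27832)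
    (Nat.sub (Nat.sub (Nat.add (Nat.add (Nat.add (Nat.add (Nat.add (Nat.add (Nat.add (Nat.add (Nat.add C x21274) x3778) x9610) x7666) x8314) x8098) x8206) x8170) x8150) x8152) x27834)
    (Nat.sub (Nat.sub (Nat.add (Nat.add (Nat.add (Nat.add (Nat.add (Nat.add (Nat.add (Nat.add C x21284) x3788) x9620) x7676) x8324) x8216) x8144) x8168) (Nat.mul x8162 (nat_lit 4))) x27844)
    (Nat.sub (Nat.sub (Nat.sub (Nat.add (Nat.add (Nat.add (Nat.add (Nat.add (Nat.add (Nat.add (Nat.add (Nat.add (Nat.add (Nat.add C x21290) x3794) x9626) x7682) x8330) x8222) x8150) x8162) x8174) x8170) (Nat.mul (e (nat_lit 8168)) ap)) (Nat.mul x8168 (nat_lit 3))) x27850) (Nat.mul (e (nat_lit 8168)) an))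
    (Nat.sub (Nat.sub (Nat.add (Nat.add (Nat.add (Nat.add (Nat.add (Nat.add (Nat.add (Nat.add (Nat.add C x21292) x3796) x9628) x7684) x8332) x8224) x8152) x8176) x8168) (Nat.mul x8170 (nat_lit 2))) x27852)
    (Nat.sub (Nat.sub (Nat.add (Nat.add (Nat.add (Nat.add (Nat.add (Nat.add (Nat.add (Nat.add C x21296) x3800) x9632) x7688) x8336) x8228) x8168) x8176) (Nat.mul x8174 (nat_lit 4))) x27856)
    (Nat.sub (Nat.sub (Nat.add (Nat.add (Nat.add (Nat.add (Nat.add (Nat.add (Nat.add (Nat.add (Nat.add C x21298) x3802) x9634) x7690) x8338) x8230) x8170) x8174) x8178) x8176) x27858)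
    (Nat.add (Nat.add (Nat.add (Nat.add (Nat.add (Nat.add (Nat.add C x21300) x3804) x9636) x7692) x8340) x8232) x8176)
    (Nat.sub (Nat.sub (Nat.add (Nat.add (Nat.add (Nat.add (Nat.add (Nat.add (Nat.add (Nat.add C x21320) x3824) x9656) x7712) x8360) x8144) x8216) x8204) (Nat.mul x8198 (nat_lit 4))) x27880)
    (Nat.sub (Nat.sub (Nat.sub (Nat.add (Nat.add (Nat.add (Nat.add (Nat.add (Nat.add (Nat.add (Nat.add (Nat.add (Nat.add C x21326) x3830) x9662) x7718) x8366) x8150) x8222) x8198) x8206) (Nat.mul (e (nat_lit 8204)) ap)) (Nat.mul x8204 (nat_lit 6))) x27886) (Nat.mul (e (nat_lit 8204)) an))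
    (Nat.sub (Nat.sub (Nat.add (Nat.add (Nat.add (Nat.add (Nat.add (Nat.add (Nat.add (Nat.add C x21328) x3832) x9664) x7720) x8368) x8152) x8224) x8204) (Nat.mul x8206 (nat_lit 4))) x27888)
    (Nat.sub (Nat.sub (Nat.add (Nat.add (Nat.add (Nat.add (Nat.add (Nat.add (Nat.add (Nat.add C x21338) x3842) x9674) x7730) x8378) x8162) x8198) x8222) (Nat.mul x8216 (nat_lit 4))) x27898)
    (Nat.sub (Nat.sub (Nat.sub (Nat.add (Nat.add (Nat.add (Nat.add (Nat.add (Nat.add (Nat.add (Nat.add (Nat.add (Nat.add (Nat.add (Nat.add C x21344) x3848) x9680) x7736) x8384) x8168) x8204) x8240) x8216) x8228) x8224) (Nat.mul (e (nat_lit 8222)) ap)) (Nat.mul x8222 (nat_lit 4))) x27904) (Nat.mul (e (nat_lit 8222)) an))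
    (Nat.sub (Nat.sub (Nat.add (Nat.add (Nat.add (Nat.add (Nat.add (Nat.add (Nat.add (Nat.add (Nat.add (Nat.add C x21346) x3850) x9682) x7738) x8386) x8170) x8206) x8242) x8230) x8222) (Nat.mul x8224 (nat_lit 3))) x27906)
    (Nat.sub (Nat.sub (Nat.sub (Nat.add (Nat.add (Nat.add (Nat.add (Nat.add (Nat.add (Nat.add (Nat.add (Nat.add (Nat.add C x21350) x3854) x9686) x7742) x8390) x8174) x8246) x8222) x8230) (Nat.mul (e (nat_lit 8228)) ap)) (Nat.mul x8228 (nat_lit 6))) x27910) (Nat.mul (e (nat_lit 8228)) an))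
    (Nat.sub (Nat.sub (Nat.add (Nat.add (Nat.add (Nat.add (Nat.add (Nat.add (Nat.add (Nat.add (Nat.add (Nat.add C x21352) x3856) x9688) x7744) x8392) x8176) x8248) x8224) x8228) x8232) (Nat.mul x8230 (nat_lit 3))) x27912)
    (Nat.sub (Nat.add (Nat.add (Nat.add (Nat.add (Nat.add (Nat.add (Nat.add (Nat.add C x21354) x3858) x9690) x7746) x8394) x8178) x8250) x8230) (Nat.mul x8232 (nat_lit 2)))
    (Nat.sub (Nat.sub (Nat.add (Nat.add (Nat.add (Nat.add (Nat.add (Nat.add (Nat.add (Nat.add C x21362) x3866) x9698) x7754) x8402) x8222) x8246) x8242) (Nat.mul x8240 (nat_lit 4))) x27922)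
    (Nat.sub (Nat.sub (Nat.add (Nat.add (Nat.add (Nat.add (Nat.add (Nat.add (Nat.add (Nat.add C x21364) x3868) x9700) x7756) x8404) x8224) x8248) x8240) (Nat.mul x8242 (nat_lit 4))) x27924)
    (Nat.sub (Nat.sub (Nat.add (Nat.add (Nat.add (Nat.add (Nat.add (Nat.add (Nat.add (Nat.add C x21368) x3872) x9704) x7760) x8408) x8228) x8240) x8248) (Nat.mul x8246 (nat_lit 4))) x27928)
    (Nat.sub (Nat.sub (Nat.add (Nat.add (Nat.add (Nat.add (Nat.add (Nat.add (Nat.add (Nat.add (Nat.add (Nat.add C x21370) x3874) x9706) x7762) x8410) x8230) x8242) x8254) x8246) x8250) (Nat.mul x8248 (nat_lit 2))) x27930)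
    (Nat.sub (Nat.add (Nat.add (Nat.add (Nat.add (Nat.add (Nat.add (Nat.add (Nat.add C x21372) x3876) x9708) x7764) x8412) x8232) x8256) x8248) (Nat.mul x8250 (nat_lit 2)))
    (Nat.sub (Nat.sub (Nat.add (Nat.add (Nat.add (Nat.add (Nat.add (Nat.add (Nat.add C x21376) x3880) x9712) x7768) x8416) x8248) x8256) (Nat.mul x8254 (nat_lit 2))) x27936)
    (Nat.add (Nat.add (Nat.add (Nat.add (Nat.add (Nat.add (Nat.add C x21378) x3882) x9714) x7770) x8418) x8250) x8254)
    (Nat.sub (Nat.add (Nat.add (Nat.add (Nat.add (Nat.add (Nat.add C x21410) x3914) x9746) x7802) x8126) x8306) x27970)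
    (Nat.sub (Nat.sub (Nat.add (Nat.add (Nat.add (Nat.add (Nat.add (Nat.add (Nat.add (Nat.add (Nat.add C x21428) x3932) x9764) x7820) x8144) x8360) x8288) x8324) x8312) x8306) x27988)
    (Nat.sub (Nat.sub (Nat.add (Nat.add (Nat.add (Nat.add (Nat.add (Nat.add (Nat.add (Nat.add (Nat.add C x21434) x3938) x9770) x7826) x8150) x8366) x8330) x8306) x8314) (Nat.mul x8312 (nat_lit 2))) x27994)
    (Nat.sub (Nat.add (Nat.add (Nat.add (Nat.add (Nat.add (Nat.add (Nat.add (Nat.add C x21436) x3940) x9772) x7828) x8152) x8368) x8332) x8312) x27996)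
    (Nat.sub (Nat.sub (Nat.add (Nat.add (Nat.add (Nat.add (Nat.add (Nat.add (Nat.add (Nat.add C x21446) x3950) x9782) x7838) x8162) x8378) x8306) x8330) (Nat.mul x8324 (nat_lit 4))) x28006)
    (Nat.sub (Nat.sub (Nat.sub (Nat.add (Nat.add (Nat.add (Nat.add (Nat.add (Nat.add (Nat.add (Nat.add (Nat.add (Nat.add (Nat.add C x21452) x3956) x9788) x7844) x8168) x8384) x8312) x8324) x8336) x8332) (Nat.mul (e (nat_lit 8330)) ap)) (Nat.mul x8330 (nat_lit 3))) x28012) (Nat.mul (e (nat_lit 8330)) an))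
    (Nat.sub (Nat.sub (Nat.add (Nat.add (Nat.add (Nat.add (Nat.add (Nat.add (Nat.add (Nat.add (Nat.add C x21454) x3958) x9790) x7846) x8170) x8386) x8314) x8338) x8330) (Nat.mul x8332 (nat_lit 2))) x28014)
    (Nat.sub (Nat.sub (Nat.add (Nat.add (Nat.add (Nat.add (Nat.add (Nat.add (Nat.add (Nat.add C x21458) x3962) x9794) x7850) x8174) x8390) x8330) x8338) (Nat.mul x8336 (nat_lit 4))) x28018)
    (Nat.sub (Nat.sub (Nat.add (Nat.add (Nat.add (Nat.add (Nat.add (Nat.add (Nat.add (Nat.add (Nat.add C x21460) x3964) x9796) x7852) x8176) x8392) x8332) x8336) x8340) x8338) x28020)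
    (Nat.add (Nat.add (Nat.add (Nat.add (Nat.add (Nat.add (Nat.add C x21462) x3966) x9798) x7854) x8178) x8394) x8338)
    (Nat.sub (Nat.sub (Nat.add (Nat.add (Nat.add (Nat.add (Nat.add (Nat.add (Nat.add (Nat.add (Nat.add C x21482) x3986) x9818) x7874) x8198) x8522) x8306) x8378) x8366) x8360) x28042)
    (Nat.sub (Nat.sub (Nat.sub (Nat.add (Nat.add (Nat.add (Nat.add (Nat.add (Nat.add (Nat.add (Nat.add (Nat.add (Nat.add (Nat.add C x21488) x3992) x9824) x7880) x8204) x8528) x8312) x8384) x8360) x8368) (Nat.mul (e (nat_lit 8366)) ap)) (Nat.mul x8366 (nat_lit 3))) x28048) (Nat.mul (e (nat_lit 8366)) an))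
    (Nat.sub (Nat.sub (Nat.add (Nat.add (Nat.add (Nat.add (Nat.add (Nat.add (Nat.add (Nat.add (Nat.add C x21490) x3994) x9826) x7882) x8206) x8530) x8314) x8386) x8366) x8368) x28050)
    (Nat.sub (Nat.sub (Nat.add (Nat.add (Nat.add (Nat.add (Nat.add (Nat.add (Nat.add (Nat.add (Nat.add (Nat.add C x21500) x4004) x9836) x7892) x8216) x8540) x8324) x8432) x8360) x8384) (Nat.mul x8378 (nat_lit 2))) x28060)
    (Nat.sub (Nat.sub (Nat.sub (Nat.add (Nat.add (Nat.add (Nat.add (Nat.add (Nat.add (Nat.add (Nat.add (Nat.add (Nat.add (Nat.add (Nat.add (Nat.add (Nat.add C x21506) x4010) x9842) x7898) x8222) x8546) x8330) x8438) x8366) x8402) x8378) x8390) x8386) (Nat.mul (e (nat_lit 8384)) ap)) (Nat.mul x8384 (nat_lit 2))) x28066) (Nat.mul (e (nat_lit 8384)) an))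
    (Nat.sub (Nat.sub (Nat.add (Nat.add (Nat.add (Nat.add (Nat.add (Nat.add (Nat.add (Nat.add (Nat.add (Nat.add (Nat.add (Nat.add C x21508) x4012) x9844) x7900) x8224) x8548) x8332) x8440) x8368) x8404) x8392) x8384) x8386) x28068)
    (Nat.sub (Nat.sub (Nat.add (Nat.add (Nat.add (Nat.add (Nat.add (Nat.add (Nat.add (Nat.add (Nat.add (Nat.add (Nat.add C x21512) x4016) x9848) x7904) x8228) x8552) x8336) x8444) x8408) x8384) x8392) (Nat.mul x8390 (nat_lit 4))) x28072)
    (Nat.sub (Nat.sub (Nat.add (Nat.add (Nat.add (Nat.add (Nat.add (Nat.add (Nat.add (Nat.add (Nat.add (Nat.add (Nat.add (Nat.add C x21514) x4018) x9850) x7906) x8230) x8554) x8338) x8446) x8410) x8386) x8390) x8394) x8392) x28074)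
    (Nat.add (Nat.add (Nat.add (Nat.add (Nat.add (Nat.add (Nat.add (Nat.add (Nat.add (Nat.add C x21516) x4020) x9852) x7908) x8232) x8556) x8340) x8448) x8412) x8392)
    (Nat.sub (Nat.sub (Nat.add (Nat.add (Nat.add (Nat.add (Nat.add (Nat.add (Nat.add (Nat.add (Nat.add (Nat.add C x21524) x4028) x9860) x7916) x8240) x8564) x8456) x8384) x8408) x8404) (Nat.mul x8402 (nat_lit 3))) x28084)
    (Nat.sub (Nat.sub (Nat.add (Nat.add (Nat.add (Nat.add (Nat.add (Nat.add (Nat.add (Nat.add (Nat.add (Nat.add C x21526) x4030) x9862) x7918) x8242) x8566) x8458) x8386) x8410) x8402) (Nat.mul x8404 (nat_lit 3))) x28086)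
    (Nat.sub (Nat.sub (Nat.add (Nat.add (Nat.add (Nat.add (Nat.add (Nat.add (Nat.add (Nat.add (Nat.add (Nat.add C x21530) x4034) x9866) x7922) x8246) x8570) x8462) x8390) x8402) x8410) (Nat.mul x8408 (nat_lit 3))) x28090)
    (Nat.sub (Nat.sub (Nat.add (Nat.add (Nat.add (Nat.add (Nat.add (Nat.add (Nat.add (Nat.add (Nat.add (Nat.add (Nat.add (Nat.add C x21532) x4036) x9868) x7924) x8248) x8572) x8464) x8392) x8404) x8416) x8408) x8412) x8410) x28092)
    (Nat.sub (Nat.add (Nat.add (Nat.add (Nat.add (Nat.add (Nat.add (Nat.add (Nat.add (Nat.add (Nat.add C x21534) x4038) x9870) x7926) x8250) x8574) x8466) x8394) x8418) x8410) x8412)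
    (Nat.sub (Nat.sub (Nat.add (Nat.add (Nat.add (Nat.add (Nat.add (Nat.add (Nat.add (Nat.add (Nat.add C x21538) x4042) x9874) x7930) x8254) x8578) x8470) x8410) x8418) x8416) x28098)
    (Nat.add (Nat.add (Nat.add (Nat.add (Nat.add (Nat.add (Nat.add (Nat.add (Nat.add (Nat.add C x8418) x21540) x4044) x9876) x7932) x8256) x8580) x8472) x8412) x8416)
    (Nat.sub (Nat.sub (Nat.add (Nat.add (Nat.add (Nat.add (Nat.add (Nat.add (Nat.add C x21554) x4058) x9890) x7946) x8594) x8378) x8438) (Nat.mul x8432 (nat_lit 2))) x28114)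
    (Nat.sub (Nat.sub (Nat.add (Nat.add (Nat.add (Nat.add (Nat.add (Nat.add (Nat.add (Nat.add (Nat.add (Nat.add C x21560) x4064) x9896) x7952) x8600) x8384) x8456) x8432) x8444) x8440) (Nat.mul x8438 (nat_lit 3))) x28120)
    (Nat.sub (Nat.sub (Nat.add (Nat.add (Nat.add (Nat.add (Nat.add (Nat.add (Nat.add (Nat.add (Nat.add C x21562) x4066) x9898) x7954) x8602) x8386) x8458) x8446) x8438) (Nat.mul x8440 (nat_lit 2))) x28122)
    (Nat.sub (Nat.sub (Nat.add (Nat.add (Nat.add (Nat.add (Nat.add (Nat.add (Nat.add (Nat.add (Nat.add C x21566) x4070) x9902) x7958) x8606) x8390) x8462) x8438) x8446) (Nat.mul x8444 (nat_lit 6))) x28126)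
    (Nat.sub (Nat.sub (Nat.add (Nat.add (Nat.add (Nat.add (Nat.add (Nat.add (Nat.add (Nat.add (Nat.add (Nat.add C x21568) x4072) x9904) x7960) x8608) x8392) x8464) x8440) x8444) x8448) (Nat.mul x8446 (nat_lit 3))) x28128)
    (Nat.sub (Nat.add (Nat.add (Nat.add (Nat.add (Nat.add (Nat.add (Nat.add (Nat.add C x21570) x4074) x9906) x7962) x8610) x8394) x8466) x8446) (Nat.mul x8448 (nat_lit 2)))
    (Nat.sub (Nat.sub (Nat.add (Nat.add (Nat.add (Nat.add (Nat.add (Nat.add (Nat.add (Nat.add (Nat.add C x21578) x4082) x9914) x7970) x8618) x8402) x8438) x8462) x8458) (Nat.mul x8456 (nat_lit 2))) x28138)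
    (Nat.sub (Nat.sub (Nat.add (Nat.add (Nat.add (Nat.add (Nat.add (Nat.add (Nat.add (Nat.add (Nat.add C x21580) x4084) x9916) x7972) x8620) x8404) x8440) x8464) x8456) (Nat.mul x8458 (nat_lit 2))) x28140)
    (Nat.sub (Nat.sub (Nat.add (Nat.add (Nat.add (Nat.add (Nat.add (Nat.add (Nat.add (Nat.add (Nat.add (Nat.add C x21584) x4088) x9920) x7976) x8624) x8408) x8444) x8480) x8456) x8464) (Nat.mul x8462 (nat_lit 3))) x28144)
    (Nat.sub (Nat.sub (Nat.add (Nat.add (Nat.add (Nat.add (Nat.add (Nat.add (Nat.add (Nat.add (Nat.add (Nat.add (Nat.add (Nat.add C x21586) x4090) x9922) x7978) x8626) x8410) x8446) x8482) x8458) x8470) x8462) x8466) x8464) x28146)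
    (Nat.sub (Nat.add (Nat.add (Nat.add (Nat.add (Nat.add (Nat.add (Nat.add (Nat.add (Nat.add (Nat.add C x21588) x4092) x9924) x7980) x8628) x8412) x8448) x8484) x8472) x8464) x8466)
    (Nat.sub (Nat.sub (Nat.add (Nat.add (Nat.add (Nat.add (Nat.add (Nat.add (Nat.add (Nat.add (Nat.add C x21592) x4096) x9928) x7984) x8632) x8416) x8488) x8464) x8472) (Nat.mul x8470 (nat_lit 2))) x28152)
    (Nat.add (Nat.add (Nat.add (Nat.add (Nat.add (Nat.add (Nat.add (Nat.add (Nat.add C x21594) x4098) x9930) x7986) x8634) x8418) x8490) x8466) x8470)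
    (Nat.sub (Nat.sub (Nat.add (Nat.add (Nat.add (Nat.add (Nat.add (Nat.add (Nat.add C x21602) x4106) x9938) x7994) x8642) x8462) x8482) (Nat.mul x8480 (nat_lit 2))) x28162)
    (Nat.sub (Nat.sub (Nat.add (Nat.add (Nat.add (Nat.add (Nat.add (Nat.add (Nat.add (Nat.add (Nat.add C x21604) x4108) x9940) x7996) x8644) x8464) x8488) x8480) x8484) x8482) x28164)
    (Nat.sub (Nat.add (Nat.add (Nat.add (Nat.add (Nat.add (Nat.add (Nat.add (Nat.add C x21606) x4110) x9942) x7998) x8646) x8466) x8490) x8482) (Nat.mul x8484 (nat_lit 2)))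
    (Nat.sub (Nat.add (Nat.add (Nat.add (Nat.add (Nat.add (Nat.add (Nat.add (Nat.add C x21610) x4114) x9946) x8002) x8650) x8470) x8482) x8490) x28170)
    (Nat.add (Nat.add (Nat.add (Nat.add (Nat.add (Nat.add (Nat.add (Nat.add (Nat.add (Nat.add C x8490) x21612) x4116) x9948) x8004) x8652) x8472) x8484) x8496) x8488)
    (Nat.add (Nat.add (Nat.add (Nat.add (Nat.add (Nat.add (Nat.add C (Nat.mul x8496 (nat_lit 2))) x21618) x4122) x9954) x8010) x8658) x8490)
    (Nat.sub (Nat.add (Nat.add (Nat.add (Nat.add (Nat.add (Nat.add C x21644) x4148) x9980) x8360) x8540) x8528) x28204)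
    (Nat.sub (Nat.sub (Nat.add (Nat.add (Nat.add (Nat.add (Nat.add (Nat.add (Nat.add C x21650) x4154) x9986) x8366) x8546) x8522) x8530) (Nat.mul x8528 (nat_lit 2))) x28210)
    (Nat.sub (Nat.add (Nat.add (Nat.add (Nat.add (Nat.add (Nat.add C x21652) x4156) x9988) x8368) x8548) x8528) x28212)
    (Nat.sub (Nat.sub (Nat.add (Nat.add (Nat.add (Nat.add (Nat.add (Nat.add (Nat.add C x21662) x4166) x9998) x8378) x8594) x8522) x8546) (Nat.mul x8540 (nat_lit 2))) x28222)
    (Nat.sub (Nat.sub (Nat.add (Nat.add (Nat.add (Nat.add (Nat.add (Nat.add (Nat.add (Nat.add (Nat.add (Nat.add C x21668) x4172) x10004) x8384) x8600) x8528) x8564) x8540) x8552) x8548) (Nat.mul x8546 (nat_lit 2))) x28228)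
    (Nat.sub (Nat.sub (Nat.add (Nat.add (Nat.add (Nat.add (Nat.add (Nat.add (Nat.add (Nat.add (Nat.add C x21670) x4174) x10006) x8386) x8602) x8530) x8566) x8554) x8546) x8548) x28230)
    (Nat.sub (Nat.sub (Nat.add (Nat.add (Nat.add (Nat.add (Nat.add (Nat.add (Nat.add (Nat.add C x21674) x4178) x10010) x8390) x8606) x8570) x8546) x8554) (Nat.mul x8552 (nat_lit 4))) x28234)
    (Nat.sub (Nat.sub (Nat.add (Nat.add (Nat.add (Nat.add (Nat.add (Nat.add (Nat.add (Nat.add (Nat.add C x21676) x4180) x10012) x8392) x8608) x8572) x8548) x8552) x8556) x8554) x28236)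
    (Nat.add (Nat.add (Nat.add (Nat.add (Nat.add (Nat.add (Nat.add C x21678) x4182) x10014) x8394) x8610) x8574) x8554)
    (Nat.sub (Nat.sub (Nat.add (Nat.add (Nat.add (Nat.add (Nat.add (Nat.add (Nat.add (Nat.add C x21686) x4190) x10022) x8402) x8618) x8546) x8570) x8566) (Nat.mul x8564 (nat_lit 4))) x28246)
    (Nat.sub (Nat.sub (Nat.add (Nat.add (Nat.add (Nat.add (Nat.add (Nat.add (Nat.add (Nat.add C x21688) x4192) x10024) x8404) x8620) x8548) x8572) x8564) (Nat.mul x8566 (nat_lit 4))) x28248)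
    (Nat.sub (Nat.sub (Nat.add (Nat.add (Nat.add (Nat.add (Nat.add (Nat.add (Nat.add (Nat.add C x21692) x4196) x10028) x8408) x8624) x8552) x8564) x8572) (Nat.mul x8570 (nat_lit 4))) x28252)
    (Nat.sub (Nat.sub (Nat.add (Nat.add (Nat.add (Nat.add (Nat.add (Nat.add (Nat.add (Nat.add (Nat.add (Nat.add C x21694) x4198) x10030) x8410) x8626) x8554) x8566) x8578) x8570) x8574) (Nat.mul x8572 (nat_lit 2))) x28254)
    (Nat.sub (Nat.add (Nat.add (Nat.add (Nat.add (Nat.add (Nat.add (Nat.add (Nat.add C x21696) x4200) x10032) x8412) x8628) x8556) x8580) x8572) (Nat.mul x8574 (nat_lit 2)))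
    (Nat.sub (Nat.sub (Nat.add (Nat.add (Nat.add (Nat.add (Nat.add (Nat.add (Nat.add C x21700) x4204) x10036) x8416) x8632) x8572) x8580) (Nat.mul x8578 (nat_lit 2))) x28260)
    (Nat.add (Nat.add (Nat.add (Nat.add (Nat.add (Nat.add (Nat.add C x21702) x4206) x10038) x8418) x8634) x8574) x8578)
    (Nat.sub (Nat.add (Nat.add (Nat.add (Nat.add (Nat.add (Nat.add C x21716) x4220) x10052) x8432) x8540) x8600) x28276)
    (Nat.sub (Nat.sub (Nat.add (Nat.add (Nat.add (Nat.add (Nat.add (Nat.add (Nat.add (Nat.add (Nat.add C x21722) x4226) x10058) x8438) x8546) x8618) x8594) x8606) x8602) x8600) x28282)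
    (Nat.sub (Nat.add (Nat.add (Nat.add (Nat.add (Nat.add (Nat.add (Nat.add (Nat.add C x21724) x4228) x10060) x8440) x8548) x8620) x8608) x8600) x28284)
    (Nat.sub (Nat.sub (Nat.add (Nat.add (Nat.add (Nat.add (Nat.add (Nat.add (Nat.add (Nat.add C x21728) x4232) x10064) x8444) x8552) x8624) x8600) x8608) (Nat.mul x8606 (nat_lit 4))) x28288)
    (Nat.sub (Nat.sub (Nat.add (Nat.add (Nat.add (Nat.add (Nat.add (Nat.add (Nat.add (Nat.add (Nat.add C x21730) x4234) x10066) x8446) x8554) x8626) x8602) x8606) x8610) x8608) x28290)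
    (Nat.add (Nat.add (Nat.add (Nat.add (Nat.add (Nat.add (Nat.add C x21732) x4236) x10068) x8448) x8556) x8628) x8608)
    (Nat.sub (Nat.sub (Nat.add (Nat.add (Nat.add (Nat.add (Nat.add (Nat.add (Nat.add (Nat.add (Nat.add C x21740) x4244) x10076) x8456) x8564) x8672) x8600) x8624) x8620) x8618) x28300)
    (Nat.sub (Nat.sub (Nat.add (Nat.add (Nat.add (Nat.add (Nat.add (Nat.add (Nat.add (Nat.add (Nat.add C x21742) x4246) x10078) x8458) x8566) x8674) x8602) x8626) x8618) x8620) x28302)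
    (Nat.sub (Nat.sub (Nat.add (Nat.add (Nat.add (Nat.add (Nat.add (Nat.add (Nat.add (Nat.add (Nat.add (Nat.add C x21746) x4250) x10082) x8462) x8570) x8678) x8606) x8642) x8618) x8626) (Nat.mul x8624 (nat_lit 2))) x28306)
    (Nat.sub (Nat.add (Nat.add (Nat.add (Nat.add (Nat.add (Nat.add (Nat.add (Nat.add (Nat.add (Nat.add (Nat.add (Nat.add C x21748) x4252) x10084) x8464) x8572) x8680) x8608) x8644) x8620) x8632) x8624) x8628) x28308)
    (Nat.add (Nat.add (Nat.add (Nat.add (Nat.add (Nat.add (Nat.add (Nat.add (Nat.add (Nat.add C x21750) x4254) x10086) x8466) x8574) x8682) x8610) x8646) x8634) x8626)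
    (Nat.sub (Nat.sub (Nat.add (Nat.add (Nat.add (Nat.add (Nat.add (Nat.add (Nat.add (Nat.add (Nat.add C x21754) x4258) x10090) x8470) x8578) x8686) x8650) x8626) x8634) x8632) x28314)
    (Nat.add (Nat.add (Nat.add (Nat.add (Nat.add (Nat.add (Nat.add (Nat.add (Nat.add (Nat.add C x8634) x21756) x4260) x10092) x8472) x8580) x8688) x8652) x8628) x8632)
    (Nat.sub (Nat.sub (Nat.add (Nat.add (Nat.add (Nat.add (Nat.add (Nat.add (Nat.add C x21764) x4268) x10100) x8480) x8696) x8624) x8644) (Nat.mul x8642 (nat_lit 2))) x28324)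
    (Nat.sub (Nat.sub (Nat.add (Nat.add (Nat.add (Nat.add (Nat.add (Nat.add (Nat.add (Nat.add (Nat.add C x21766) x4270) x10102) x8482) x8698) x8626) x8650) x8642) x8646) x8644) x28326)
    (Nat.sub (Nat.add (Nat.add (Nat.add (Nat.add (Nat.add (Nat.add (Nat.add (Nat.add C x21768) x4272) x10104) x8484) x8700) x8628) x8652) x8644) (Nat.mul x8646 (nat_lit 2)))
    (Nat.sub (Nat.add (Nat.add (Nat.add (Nat.add (Nat.add (Nat.add (Nat.add (Nat.add C x21772) x4276) x10108) x8488) x8704) x8632) x8644) x8652) x28332)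
    (Nat.add (Nat.add (Nat.add (Nat.add (Nat.add (Nat.add (Nat.add (Nat.add (Nat.add (Nat.add C x8652) x21774) x4278) x10110) x8490) x8706) x8634) x8646) x8658) x8650)
    (Nat.add (Nat.add (Nat.add (Nat.add (Nat.add (Nat.add (Nat.add C (Nat.mul x8658 (nat_lit 2))) x21780) x4284) x10116) x8496) x8712) x8652)
    (Nat.sub (Nat.add (Nat.add (Nat.add (Nat.add (Nat.add (Nat.add C x21794) x4298) x10130) x8618) x8678) x8674) x28354)
    (Nat.sub (Nat.add (Nat.add (Nat.add (Nat.add (Nat.add (Nat.add C x21796) x4300) x10132) x8620) x8680) x8672) x28356)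
    (Nat.sub (Nat.sub (Nat.add (Nat.add (Nat.add (Nat.add (Nat.add (Nat.add (Nat.add C x21800) x4304) x10136) x8624) x8696) x8672) x8680) (Nat.mul x8678 (nat_lit 2))) x28360)
    (Nat.sub (Nat.add (Nat.add (Nat.add (Nat.add (Nat.add (Nat.add (Nat.add (Nat.add (Nat.add C x21802) x4306) x10138) x8626) x8698) x8674) x8686) x8678) x8682) x28362)
    (Nat.add (Nat.add (Nat.add (Nat.add (Nat.add (Nat.add (Nat.add C x21804) x4308) x10140) x8628) x8700) x8688) x8680)
    (Nat.sub (Nat.sub (Nat.add (Nat.add (Nat.add (Nat.add (Nat.add (Nat.add (Nat.add C x21808) x4312) x10144) x8632) x8704) x8680) x8688) (Nat.mul x8686 (nat_lit 2))) x28368)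
    (Nat.add (Nat.add (Nat.add (Nat.add (Nat.add (Nat.add (Nat.add C x21810) x4314) x10146) x8634) x8706) x8682) x8686)
    (Nat.sub (Nat.add (Nat.add (Nat.add (Nat.add (Nat.add (Nat.add C x21818) x4322) x10154) x8642) x8678) x8698) x28378)
    (Nat.sub (Nat.add (Nat.add (Nat.add (Nat.add (Nat.add (Nat.add (Nat.add (Nat.add (Nat.add C x8698) x21820) x4324) x10156) x8644) x8680) x8704) x8696) x8700) x28380)
    (Nat.add (Nat.add (Nat.add (Nat.add (Nat.add (Nat.add (Nat.add C x21822) x4326) x10158) x8646) x8682) x8706) x8698)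
    (Nat.sub (Nat.add (Nat.add (Nat.add (Nat.add (Nat.add (Nat.add (Nat.add (Nat.add (Nat.add C x8704) x21826) x4330) x10162) x8650) x8686) x8722) x8698) x8706) x28386)
    (Nat.add (Nat.add (Nat.add (Nat.add (Nat.add (Nat.add (Nat.add (Nat.add (Nat.add (Nat.add C (Nat.mul x8706 (nat_lit 2))) x21828) x4332) x10164) x8652) x8688) x8724) x8700) x8712) x8704)
    (Nat.add (Nat.add (Nat.add (Nat.add (Nat.add (Nat.add (Nat.add C (Nat.mul x8712 (nat_lit 2))) x21834) x4338) x10170) x8658) x8730) x8706)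
    (Nat.sub (Nat.add (Nat.add (Nat.add (Nat.add (Nat.add (Nat.add C (Nat.mul x8722 (nat_lit 2))) x21844) x4348) x10180) x8704) x8724) x28404)
    (Nat.add (Nat.add (Nat.add (Nat.add (Nat.add (Nat.add (Nat.add C (Nat.mul x8724 (nat_lit 2))) x21846) x4350) x10182) x8706) x8730) x8722)
    (Nat.add (Nat.add (Nat.add (Nat.add (Nat.add (Nat.add C (Nat.mul x8730 (nat_lit 4))) x21852) x4356) x10188) x8712) x8724)
    (Nat.sub (Nat.add (Nat.add (Nat.add (Nat.add (Nat.add (Nat.add C (Nat.mul x8828 (nat_lit 3))) x21950) x4454) x13202) x7370) x8882) x28510)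
    (Nat.sub (Nat.add (Nat.add (Nat.add (Nat.add (Nat.add (Nat.add (Nat.add (Nat.add (Nat.add C (Nat.mul x8882 (nat_lit 2))) x22004) x4508) x13256) x7424) x9044) x8828) x8936) x8900) x28564)
    (Nat.sub (Nat.add (Nat.add (Nat.add (Nat.add (Nat.add (Nat.add (Nat.add (Nat.add (Nat.add C x8900) x22022) x4526) x13274) x7442) x9062) x8954) x8882) x8906) x28582)
    (Nat.sub (Nat.add (Nat.add (Nat.add (Nat.add (Nat.add (Nat.add (Nat.add (Nat.add (Nat.add C x8906) x22028) x4532) x13280) x7448) x9068) x8960) x8900) x8908) x28588)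
    (Nat.sub (Nat.add (Nat.add (Nat.add (Nat.add (Nat.add (Nat.add (Nat.add (Nat.add C (Nat.mul x8908 (nat_lit 3))) x22030) x4534) x13282) x7450) x9070) x8962) x8906) x28590)
    (Nat.sub (Nat.sub (Nat.add (Nat.add (Nat.add (Nat.add (Nat.add (Nat.add (Nat.add C x22058) x4562) x13310) x7478) x9098) x8882) x8954) x8936) x28618)
    (Nat.sub (Nat.add (Nat.add (Nat.add (Nat.add (Nat.add (Nat.add (Nat.add (Nat.add (Nat.add C x22076) x4580) x13328) x7496) x9116) x8900) x8936) x8972) x8960) x28636)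
    (Nat.sub (Nat.sub (Nat.add (Nat.add (Nat.add (Nat.add (Nat.add (Nat.add (Nat.add (Nat.add (Nat.add C x22082) x4586) x13334) x7502) x9122) x8906) x8978) x8954) x8962) x8960) x28642)
    (Nat.sub (Nat.add (Nat.add (Nat.add (Nat.add (Nat.add (Nat.add (Nat.add (Nat.add (Nat.add C x8962) x22084) x4588) x13336) x7504) x9124) x8908) x8980) x8960) x28644)
    (Nat.sub (Nat.sub (Nat.add (Nat.add (Nat.add (Nat.add (Nat.add (Nat.add (Nat.add C x22094) x4598) x13346) x7514) x9134) x8954) x8978) x8972) x28654)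
    (Nat.sub (Nat.add (Nat.add (Nat.add (Nat.add (Nat.add (Nat.add (Nat.add (Nat.add (Nat.add C x22100) x4604) x13352) x7520) x9140) x8960) x8972) x8984) x8980) x28660)
    (Nat.sub (Nat.add (Nat.add (Nat.add (Nat.add (Nat.add (Nat.add (Nat.add (Nat.add (Nat.add C x8980) x22102) x4606) x13354) x7522) x9142) x8962) x8986) x8978) x28662)
    (Nat.sub (Nat.sub (Nat.add (Nat.add (Nat.add (Nat.add (Nat.add (Nat.add (Nat.add C x22106) x4610) x13358) x7526) x9146) x8978) x8986) x8984) x28666)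
    (Nat.sub (Nat.add (Nat.add (Nat.add (Nat.add (Nat.add (Nat.add (Nat.add (Nat.add (Nat.add C (Nat.mul x8986 (nat_lit 2))) x22108) x4612) x13360) x7528) x9148) x8980) x8984) x8988) x28668)
    (Nat.add (Nat.add (Nat.add (Nat.add (Nat.add (Nat.add (Nat.add C (Nat.mul x8988 (nat_lit 3))) x22110) x4614) x13362) x7530) x9150) x8986)
    (Nat.sub (Nat.add (Nat.add (Nat.add (Nat.add (Nat.add (Nat.add (Nat.add (Nat.add (Nat.add C x9044) x22166) x4670) x13418) x7586) x9530) x8882) x9098) x9062) x28726)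
    (Nat.sub (Nat.sub (Nat.add (Nat.add (Nat.add (Nat.add (Nat.add (Nat.add (Nat.add (Nat.add (Nat.add C x22184) x4688) x13436) x7604) x9548) x8900) x9116) x9044) x9068) x9062) x28744)
    (Nat.sub (Nat.sub (Nat.add (Nat.add (Nat.add (Nat.add (Nat.add (Nat.add (Nat.add (Nat.add (Nat.add C x22190) x4694) x13442) x7610) x9554) x8906) x9122) x9062) x9070) x9068) x28750)
    (Nat.sub (Nat.add (Nat.add (Nat.add (Nat.add (Nat.add (Nat.add (Nat.add (Nat.add (Nat.add C x9070) x22192) x4696) x13444) x7612) x9556) x8908) x9124) x9068) x28752)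
    (Nat.sub (Nat.add (Nat.add (Nat.add (Nat.add (Nat.add (Nat.add (Nat.add (Nat.add (Nat.add C x22220) x4724) x13472) x7640) x9584) x8936) x9260) x9044) x9116) x28780)
    (Nat.sub (Nat.add (Nat.add (Nat.add (Nat.add (Nat.add (Nat.add (Nat.add (Nat.add (Nat.add (Nat.add (Nat.add (Nat.add C x22238) x4742) x13490) x7658) x9602) x8954) x9278) x9062) x9170) x9098) x9134) x9122) x28798)
    (Nat.sub (Nat.sub (Nat.add (Nat.add (Nat.add (Nat.add (Nat.add (Nat.add (Nat.add (Nat.add (Nat.add (Nat.add (Nat.add (Nat.add C x22244) x4748) x13496) x7664) x9608) x8960) x9284) x9068) x9176) x9140) x9116) x9124) x9122) x28804)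
    (Nat.sub (Nat.add (Nat.add (Nat.add (Nat.add (Nat.add (Nat.add (Nat.add (Nat.add (Nat.add (Nat.add (Nat.add (Nat.add C x9124) x22246) x4750) x13498) x7666) x9610) x8962) x9286) x9070) x9178) x9142) x9122) x28806)
    (Nat.sub (Nat.sub (Nat.add (Nat.add (Nat.add (Nat.add (Nat.add (Nat.add (Nat.add (Nat.add (Nat.add (Nat.add C x22256) x4760) x13508) x7676) x9620) x8972) x9296) x9188) x9116) x9140) (Nat.mul x9134 (nat_lit 2))) x28816)
    (Nat.sub (Nat.sub (Nat.sub (Nat.add (Nat.add (Nat.add (Nat.add (Nat.add (Nat.add (Nat.add (Nat.add (Nat.add (Nat.add (Nat.add (Nat.add (Nat.add C x22262) x4766) x13514) x7682) x9626) x8978) x9302) x9194) x9122) x9134) x9146) x9142) (Nat.mul (e (nat_lit 9140)) ap)) x9140) x28822) (Nat.mul (e (nat_lit 9140)) an))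
    (Nat.sub (Nat.add (Nat.add (Nat.add (Nat.add (Nat.add (Nat.add (Nat.add (Nat.add (Nat.add (Nat.add (Nat.add C x22264) x4768) x13516) x7684) x9628) x8980) x9304) x9196) x9124) x9148) x9140) x28824)
    (Nat.sub (Nat.sub (Nat.add (Nat.add (Nat.add (Nat.add (Nat.add (Nat.add (Nat.add (Nat.add (Nat.add (Nat.add C x22268) x4772) x13520) x7688) x9632) x8984) x9308) x9200) x9140) x9148) (Nat.mul x9146 (nat_lit 2))) x28828)
    (Nat.sub (Nat.add (Nat.add (Nat.add (Nat.add (Nat.add (Nat.add (Nat.add (Nat.add (Nat.add (Nat.add (Nat.add (Nat.add C x9148) x22270) x4774) x13522) x7690) x9634) x8986) x9310) x9202) x9142) x9146) x9150) x28830)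
    (Nat.add (Nat.add (Nat.add (Nat.add (Nat.add (Nat.add (Nat.add (Nat.add (Nat.add (Nat.add C (Nat.mul x9150 (nat_lit 2))) x22272) x4776) x13524) x7692) x9636) x8988) x9312) x9204) x9148)
    (Nat.sub (Nat.sub (Nat.add (Nat.add (Nat.add (Nat.add (Nat.add (Nat.add (Nat.add (Nat.add (Nat.add C x22292) x4796) x13544) x7712) x9656) x9332) x9116) x9188) x9176) x9170) x28852)
    (Nat.sub (Nat.sub (Nat.add (Nat.add (Nat.add (Nat.add (Nat.add (Nat.add (Nat.add (Nat.add (Nat.add (Nat.add C x22298) x4802) x13550) x7718) x9662) x9338) x9122) x9194) x9170) x9178) (Nat.mul x9176 (nat_lit 3))) x28858)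
    (Nat.sub (Nat.sub (Nat.add (Nat.add (Nat.add (Nat.add (Nat.add (Nat.add (Nat.add (Nat.add (Nat.add C x22300) x4804) x13552) x7720) x9664) x9340) x9124) x9196) x9176) x9178) x28860)
    (Nat.sub (Nat.sub (Nat.add (Nat.add (Nat.add (Nat.add (Nat.add (Nat.add (Nat.add (Nat.add (Nat.add C x22310) x4814) x13562) x7730) x9674) x9350) x9134) x9170) x9194) x9188) x28870)
    (Nat.sub (Nat.sub (Nat.sub (Nat.add (Nat.add (Nat.add (Nat.add (Nat.add (Nat.add (Nat.add (Nat.add (Nat.add (Nat.add (Nat.add (Nat.add (Nat.add C x22316) x4820) x13568) x7736) x9680) x9356) x9140) x9176) x9212) x9188) x9200) x9196) (Nat.mul (e (nat_lit 9194)) ap)) x9194) x28876) (Nat.mul (e (nat_lit 9194)) an))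
    (Nat.sub (Nat.sub (Nat.add (Nat.add (Nat.add (Nat.add (Nat.add (Nat.add (Nat.add (Nat.add (Nat.add (Nat.add (Nat.add (Nat.add C x22318) x4822) x13570) x7738) x9682) x9358) x9142) x9178) x9214) x9202) x9194) (Nat.mul (e (nat_lit 9196)) ap)) x28878) (Nat.mul (e (nat_lit 9196)) an))
    (Nat.sub (Nat.sub (Nat.add (Nat.add (Nat.add (Nat.add (Nat.add (Nat.add (Nat.add (Nat.add (Nat.add (Nat.add C x22322) x4826) x13574) x7742) x9686) x9362) x9146) x9218) x9194) x9202) (Nat.mul x9200 (nat_lit 3))) x28882)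
    (Nat.sub (Nat.add (Nat.add (Nat.add (Nat.add (Nat.add (Nat.add (Nat.add (Nat.add (Nat.add (Nat.add (Nat.add C x22324) x4828) x13576) x7744) x9688) x9364) x9148) x9220) x9196) x9200) x9204) x28884)
    (Nat.add (Nat.add (Nat.add (Nat.add (Nat.add (Nat.add (Nat.add (Nat.add (Nat.add (Nat.add C x9204) x22326) x4830) x13578) x7746) x9690) x9366) x9150) x9222) x9202)
    (Nat.sub (Nat.sub (Nat.add (Nat.add (Nat.add (Nat.add (Nat.add (Nat.add (Nat.add (Nat.add (Nat.add C x22334) x4838) x13586) x7754) x9698) x9374) x9194) x9218) x9214) x9212) x28894)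
    (Nat.sub (Nat.sub (Nat.add (Nat.add (Nat.add (Nat.add (Nat.add (Nat.add (Nat.add (Nat.add (Nat.add C x22336) x4840) x13588) x7756) x9700) x9376) x9196) x9220) x9212) x9214) x28896)
    (Nat.sub (Nat.sub (Nat.add (Nat.add (Nat.add (Nat.add (Nat.add (Nat.add (Nat.add (Nat.add (Nat.add C x22340) x4844) x13592) x7760) x9704) x9380) x9200) x9212) x9220) x9218) x28900)
    (Nat.sub (Nat.add (Nat.add (Nat.add (Nat.add (Nat.add (Nat.add (Nat.add (Nat.add (Nat.add (Nat.add (Nat.add (Nat.add C x9220) x22342) x4846) x13594) x7762) x9706) x9382) x9202) x9214) x9226) x9218) x9222) x28902)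
    (Nat.add (Nat.add (Nat.add (Nat.add (Nat.add (Nat.add (Nat.add (Nat.add (Nat.add (Nat.add C x9222) x22344) x4848) x13596) x7764) x9708) x9384) x9204) x9228) x9220)
    (Nat.sub (Nat.add (Nat.add (Nat.add (Nat.add (Nat.add (Nat.add (Nat.add (Nat.add (Nat.add C x9226) x22348) x4852) x13600) x7768) x9712) x9388) x9220) x9228) x28908)
    (Nat.add (Nat.add (Nat.add (Nat.add (Nat.add (Nat.add (Nat.add (Nat.add (Nat.add C (Nat.mul x9228 (nat_lit 3))) x22350) x4854) x13602) x7770) x9714) x9390) x9222) x9226)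
    (Nat.sub (Nat.sub (Nat.add (Nat.add (Nat.add (Nat.add (Nat.add (Nat.add (Nat.add C x22382) x4886) x13634) x7802) x9746) x9098) x9278) x9260) x28942)
    (Nat.sub (Nat.sub (Nat.add (Nat.add (Nat.add (Nat.add (Nat.add (Nat.add (Nat.add (Nat.add (Nat.add (Nat.add C x22400) x4904) x13652) x7820) x9764) x9116) x9332) x9260) x9296) x9284) (Nat.mul x9278 (nat_lit 2))) x28960)
    (Nat.sub (Nat.sub (Nat.add (Nat.add (Nat.add (Nat.add (Nat.add (Nat.add (Nat.add (Nat.add (Nat.add (Nat.add C x22406) x4910) x13658) x7826) x9770) x9122) x9338) x9302) x9278) x9286) (Nat.mul x9284 (nat_lit 3))) x28966)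
    (Nat.sub (Nat.sub (Nat.add (Nat.add (Nat.add (Nat.add (Nat.add (Nat.add (Nat.add (Nat.add (Nat.add C x22408) x4912) x13660) x7828) x9772) x9124) x9340) x9304) x9284) x9286) x28968)
    (Nat.sub (Nat.sub (Nat.add (Nat.add (Nat.add (Nat.add (Nat.add (Nat.add (Nat.add (Nat.add (Nat.add C x22418) x4922) x13670) x7838) x9782) x9134) x9350) x9278) x9302) (Nat.mul x9296 (nat_lit 5))) x28978)
    (Nat.sub (Nat.sub (Nat.sub (Nat.add (Nat.add (Nat.add (Nat.add (Nat.add (Nat.add (Nat.add (Nat.add (Nat.add (Nat.add (Nat.add (Nat.add C x22424) x4928) x13676) x7844) x9788) x9140) x9356) x9284) x9296) x9308) x9304) (Nat.mul (e (nat_lit 9302)) ap)) (Nat.mul x9302 (nat_lit 4))) x28984) (Nat.mul (e (nat_lit 9302)) an))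
    (Nat.sub (Nat.sub (Nat.add (Nat.add (Nat.add (Nat.add (Nat.add (Nat.add (Nat.add (Nat.add (Nat.add (Nat.add C x22426) x4930) x13678) x7846) x9790) x9142) x9358) x9286) x9310) x9302) (Nat.mul x9304 (nat_lit 3))) x28986)
    (Nat.sub (Nat.sub (Nat.add (Nat.add (Nat.add (Nat.add (Nat.add (Nat.add (Nat.add (Nat.add (Nat.add C x22430) x4934) x13682) x7850) x9794) x9146) x9362) x9302) x9310) (Nat.mul x9308 (nat_lit 5))) x28990)
    (Nat.sub (Nat.sub (Nat.add (Nat.add (Nat.add (Nat.add (Nat.add (Nat.add (Nat.add (Nat.add (Nat.add (Nat.add C x22432) x4936) x13684) x7852) x9796) x9148) x9364) x9304) x9308) x9312) (Nat.mul x9310 (nat_lit 2))) x28992)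
    (Nat.sub (Nat.add (Nat.add (Nat.add (Nat.add (Nat.add (Nat.add (Nat.add (Nat.add C x22434) x4938) x13686) x7854) x9798) x9150) x9366) x9310) x9312)
    (Nat.sub (Nat.sub (Nat.add (Nat.add (Nat.add (Nat.add (Nat.add (Nat.add (Nat.add (Nat.add (Nat.add C x22454) x4958) x13706) x7874) x9818) x9170) x9278) x9350) x9338) x9332) x29014)
    (Nat.sub (Nat.sub (Nat.add (Nat.add (Nat.add (Nat.add (Nat.add (Nat.add (Nat.add (Nat.add (Nat.add (Nat.add C x22460) x4964) x13712) x7880) x9824) x9176) x9284) x9356) x9332) x9340) (Nat.mul x9338 (nat_lit 3))) x29020)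
    (Nat.sub (Nat.sub (Nat.add (Nat.add (Nat.add (Nat.add (Nat.add (Nat.add (Nat.add (Nat.add (Nat.add C x22462) x4966) x13714) x7882) x9826) x9178) x9286) x9358) x9338) x9340) x29022)
    (Nat.sub (Nat.sub (Nat.add (Nat.add (Nat.add (Nat.add (Nat.add (Nat.add (Nat.add (Nat.add (Nat.add (Nat.add C x22472) x4976) x13724) x7892) x9836) x9188) x9296) x9404) x9332) x9356) (Nat.mul x9350 (nat_lit 2))) x29032)
    (Nat.sub (Nat.sub (Nat.sub (Nat.add (Nat.add (Nat.add (Nat.add (Nat.add (Nat.add (Nat.add (Nat.add (Nat.add (Nat.add (Nat.add (Nat.add (Nat.add (Nat.add C x22478) x4982) x13730) x7898) x9842) x9194) x9302) x9410) x9338) x9374) x9350) x9362) x9358) (Nat.mul (e (nat_lit 9356)) ap)) (Nat.mul x9356 (nat_lit 2))) x29038) (Nat.mul (e (nat_lit 9356)) an))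
    (Nat.sub (Nat.sub (Nat.add (Nat.add (Nat.add (Nat.add (Nat.add (Nat.add (Nat.add (Nat.add (Nat.add (Nat.add (Nat.add (Nat.add C x22480) x4984) x13732) x7900) x9844) x9196) x9304) x9412) x9340) x9376) x9364) x9356) x9358) x29040)
    (Nat.sub (Nat.sub (Nat.add (Nat.add (Nat.add (Nat.add (Nat.add (Nat.add (Nat.add (Nat.add (Nat.add (Nat.add (Nat.add C x22484) x4988) x13736) x7904) x9848) x9200) x9308) x9416) x9380) x9356) x9364) (Nat.mul x9362 (nat_lit 4))) x29044)
    (Nat.sub (Nat.sub (Nat.add (Nat.add (Nat.add (Nat.add (Nat.add (Nat.add (Nat.add (Nat.add (Nat.add (Nat.add (Nat.add (Nat.add C x22486) x4990) x13738) x7906) x9850) x9202) x9310) x9418) x9382) x9358) x9362) x9366) x9364) x29046)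
    (Nat.add (Nat.add (Nat.add (Nat.add (Nat.add (Nat.add (Nat.add (Nat.add (Nat.add (Nat.add C x22488) x4992) x13740) x7908) x9852) x9204) x9312) x9420) x9384) x9364)
    (Nat.sub (Nat.sub (Nat.add (Nat.add (Nat.add (Nat.add (Nat.add (Nat.add (Nat.add (Nat.add (Nat.add (Nat.add C x22496) x5000) x13748) x7916) x9860) x9212) x9428) x9356) x9380) x9376) (Nat.mul x9374 (nat_lit 3))) x29056)
    (Nat.sub (Nat.sub (Nat.add (Nat.add (Nat.add (Nat.add (Nat.add (Nat.add (Nat.add (Nat.add (Nat.add (Nat.add C x22498) x5002) x13750) x7918) x9862) x9214) x9430) x9358) x9382) x9374) (Nat.mul x9376 (nat_lit 3))) x29058)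
    (Nat.sub (Nat.sub (Nat.add (Nat.add (Nat.add (Nat.add (Nat.add (Nat.add (Nat.add (Nat.add (Nat.add (Nat.add C x22502) x5006) x13754) x7922) x9866) x9218) x9434) x9362) x9374) x9382) (Nat.mul x9380 (nat_lit 3))) x29062)
    (Nat.sub (Nat.sub (Nat.add (Nat.add (Nat.add (Nat.add (Nat.add (Nat.add (Nat.add (Nat.add (Nat.add (Nat.add (Nat.add (Nat.add C x22504) x5008) x13756) x7924) x9868) x9220) x9436) x9364) x9376) x9388) x9380) x9384) x9382) x29064)
    (Nat.sub (Nat.add (Nat.add (Nat.add (Nat.add (Nat.add (Nat.add (Nat.add (Nat.add (Nat.add (Nat.add C x22506) x5010) x13758) x7926) x9870) x9222) x9438) x9366) x9390) x9382) x9384)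
    (Nat.sub (Nat.sub (Nat.add (Nat.add (Nat.add (Nat.add (Nat.add (Nat.add (Nat.add (Nat.add (Nat.add C x22510) x5014) x13762) x7930) x9874) x9226) x9442) x9382) x9390) x9388) x29070)
    (Nat.add (Nat.add (Nat.add (Nat.add (Nat.add (Nat.add (Nat.add (Nat.add (Nat.add (Nat.add C x9390) x22512) x5016) x13764) x7932) x9876) x9228) x9444) x9384) x9388)
    (Nat.sub (Nat.sub (Nat.add (Nat.add (Nat.add (Nat.add (Nat.add (Nat.add (Nat.add C x22526) x5030) x13778) x7946) x9890) x9350) x9410) x9404) x29086)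
    (Nat.sub (Nat.sub (Nat.add (Nat.add (Nat.add (Nat.add (Nat.add (Nat.add (Nat.add (Nat.add (Nat.add (Nat.add C x22532) x5036) x13784) x7952) x9896) x9356) x9428) x9404) x9416) x9412) (Nat.mul x9410 (nat_lit 2))) x29092)
    (Nat.sub (Nat.sub (Nat.add (Nat.add (Nat.add (Nat.add (Nat.add (Nat.add (Nat.add (Nat.add (Nat.add C x22534) x5038) x13786) x7954) x9898) x9358) x9430) x9418) x9410) x9412) x29094)
    (Nat.sub (Nat.sub (Nat.add (Nat.add (Nat.add (Nat.add (Nat.add (Nat.add (Nat.add (Nat.add (Nat.add C x22538) x5042) x13790) x7958) x9902) x9362) x9434) x9410) x9418) (Nat.mul x9416 (nat_lit 5))) x29098)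
    (Nat.sub (Nat.sub (Nat.add (Nat.add (Nat.add (Nat.add (Nat.add (Nat.add (Nat.add (Nat.add (Nat.add (Nat.add C x22540) x5044) x13792) x7960) x9904) x9364) x9436) x9412) x9416) x9420) (Nat.mul x9418 (nat_lit 2))) x29100)
    (Nat.sub (Nat.add (Nat.add (Nat.add (Nat.add (Nat.add (Nat.add (Nat.add (Nat.add C x22542) x5046) x13794) x7962) x9906) x9366) x9438) x9418) x9420)
    (Nat.sub (Nat.sub (Nat.add (Nat.add (Nat.add (Nat.add (Nat.add (Nat.add (Nat.add (Nat.add (Nat.add C x22550) x5054) x13802) x7970) x9914) x9374) x9410) x9434) x9430) x9428) x29110)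
    (Nat.sub (Nat.sub (Nat.add (Nat.add (Nat.add (Nat.add (Nat.add (Nat.add (Nat.add (Nat.add (Nat.add C x22552) x5056) x13804) x7972) x9916) x9376) x9412) x9436) x9428) x9430) x29112)
    (Nat.sub (Nat.sub (Nat.add (Nat.add (Nat.add (Nat.add (Nat.add (Nat.add (Nat.add (Nat.add (Nat.add (Nat.add C x22556) x5060) x13808) x7976) x9920) x9380) x9416) x9452) x9428) x9436) (Nat.mul x9434 (nat_lit 2))) x29116)
    (Nat.sub (Nat.add (Nat.add (Nat.add (Nat.add (Nat.add (Nat.add (Nat.add (Nat.add (Nat.add (Nat.add (Nat.add (Nat.add C x22558) x5062) x13810) x7978) x9922) x9382) x9418) x9454) x9430) x9442) x9434) x9438) x29118)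
    (Nat.add (Nat.add (Nat.add (Nat.add (Nat.add (Nat.add (Nat.add (Nat.add (Nat.add (Nat.add C x22560) x5064) x13812) x7980) x9924) x9384) x9420) x9456) x9444) x9436)
    (Nat.sub (Nat.sub (Nat.add (Nat.add (Nat.add (Nat.add (Nat.add (Nat.add (Nat.add (Nat.add (Nat.add C x22564) x5068) x13816) x7984) x9928) x9388) x9460) x9436) x9444) x9442) x29124)
    (Nat.add (Nat.add (Nat.add (Nat.add (Nat.add (Nat.add (Nat.add (Nat.add (Nat.add (Nat.add C x9444) x22566) x5070) x13818) x7986) x9930) x9390) x9462) x9438) x9442)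
    (Nat.sub (Nat.sub (Nat.add (Nat.add (Nat.add (Nat.add (Nat.add (Nat.add (Nat.add C x22574) x5078) x13826) x7994) x9938) x9434) x9454) x9452) x29134)
    (Nat.sub (Nat.add (Nat.add (Nat.add (Nat.add (Nat.add (Nat.add (Nat.add (Nat.add (Nat.add C x22576) x5080) x13828) x7996) x9940) x9436) x9460) x9452) x9456) x29136)
    (Nat.sub (Nat.add (Nat.add (Nat.add (Nat.add (Nat.add (Nat.add (Nat.add (Nat.add C x22578) x5082) x13830) x7998) x9942) x9438) x9462) x9454) x9456)
    (Nat.sub (Nat.add (Nat.add (Nat.add (Nat.add (Nat.add (Nat.add (Nat.add (Nat.add (Nat.add C x9460) x22582) x5086) x13834) x8002) x9946) x9442) x9454) x9462) x29142)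
    (Nat.add (Nat.add (Nat.add (Nat.add (Nat.add (Nat.add (Nat.add (Nat.add (Nat.add (Nat.add C (Nat.mul x9462 (nat_lit 2))) x22584) x5088) x13836) x8004) x9948) x9444) x9456) x9468) x9460)
    (Nat.add (Nat.add (Nat.add (Nat.add (Nat.add (Nat.add (Nat.add C (Nat.mul x9468 (nat_lit 3))) x22590) x5094) x13842) x8010) x9954) x9462)
    (Nat.sub (Nat.add (Nat.add (Nat.add (Nat.add (Nat.add (Nat.add (Nat.add (Nat.add (Nat.add C (Nat.mul x9530 (nat_lit 2))) x22652) x5156) x13904) x8072) x10988) x9044) x9584) x9548) x29212)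
    (Nat.sub (Nat.add (Nat.add (Nat.add (Nat.add (Nat.add (Nat.add (Nat.add (Nat.add (Nat.add C x22670) x5174) x13922) x8090) x11006) x9062) x9602) x9530) x9554) x29230)
    (Nat.sub (Nat.add (Nat.add (Nat.add (Nat.add (Nat.add (Nat.add (Nat.add (Nat.add (Nat.add C x22676) x5180) x13928) x8096) x11012) x9068) x9608) x9548) x9556) x29236)
    (Nat.sub (Nat.add (Nat.add (Nat.add (Nat.add (Nat.add (Nat.add (Nat.add (Nat.add (Nat.add C (Nat.mul x9556 (nat_lit 2))) x22678) x5182) x13930) x8098) x11014) x9070) x9610) x9554) x29238)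
    (Nat.sub (Nat.add (Nat.add (Nat.add (Nat.add (Nat.add (Nat.add (Nat.add (Nat.add (Nat.add C x22706) x5210) x13958) x8126) x11042) x9098) x9746) x9530) x9602) x29266)
    (Nat.sub (Nat.add (Nat.add (Nat.add (Nat.add (Nat.add (Nat.add (Nat.add (Nat.add (Nat.add (Nat.add (Nat.add (Nat.add C x22724) x5228) x13976) x8144) x11060) x9116) x9764) x9548) x9656) x9584) x9620) x9608) x29284)
    (Nat.sub (Nat.sub (Nat.add (Nat.add (Nat.add (Nat.add (Nat.add (Nat.add (Nat.add (Nat.add (Nat.add (Nat.add (Nat.add (Nat.add C x22730) x5234) x13982) x8150) x11066) x9122) x9770) x9554) x9662) x9626) x9602) x9610) x9608) x29290)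
    (Nat.sub (Nat.add (Nat.add (Nat.add (Nat.add (Nat.add (Nat.add (Nat.add (Nat.add (Nat.add (Nat.add (Nat.add (Nat.add C x9610) x22732) x5236) x13984) x8152) x11068) x9124) x9772) x9556) x9664) x9628) x9608) x29292)
    (Nat.sub (Nat.sub (Nat.add (Nat.add (Nat.add (Nat.add (Nat.add (Nat.add (Nat.add (Nat.add (Nat.add (Nat.add C x22742) x5246) x13994) x8162) x11078) x9134) x9782) x9674) x9602) x9626) (Nat.mul x9620 (nat_lit 2))) x29302)
    (Nat.sub (Nat.sub (Nat.add (Nat.add (Nat.add (Nat.add (Nat.add (Nat.add (Nat.add (Nat.add (Nat.add (Nat.add (Nat.add (Nat.add C x22748) x5252) x14000) x8168) x11084) x9140) x9788) x9680) x9608) x9620) x9632) x9628) x9626) x29308)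
    (Nat.sub (Nat.add (Nat.add (Nat.add (Nat.add (Nat.add (Nat.add (Nat.add (Nat.add (Nat.add (Nat.add (Nat.add C x22750) x5254) x14002) x8170) x11086) x9142) x9790) x9682) x9610) x9634) x9626) x29310)
    (Nat.sub (Nat.sub (Nat.add (Nat.add (Nat.add (Nat.add (Nat.add (Nat.add (Nat.add (Nat.add (Nat.add (Nat.add C x22754) x5258) x14006) x8174) x11090) x9146) x9794) x9686) x9626) x9634) (Nat.mul x9632 (nat_lit 2))) x29314)
    (Nat.sub (Nat.add (Nat.add (Nat.add (Nat.add (Nat.add (Nat.add (Nat.add (Nat.add (Nat.add (Nat.add (Nat.add (Nat.add C x9634) x22756) x5260) x14008) x8176) x11092) x9148) x9796) x9688) x9628) x9632) x9636) x29316)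
    (Nat.add (Nat.add (Nat.add (Nat.add (Nat.add (Nat.add (Nat.add (Nat.add (Nat.add (Nat.add C (Nat.mul x9636 (nat_lit 2))) x22758) x5262) x14010) x8178) x11094) x9150) x9798) x9690) x9634)
    (Nat.sub (Nat.sub (Nat.add (Nat.add (Nat.add (Nat.add (Nat.add (Nat.add (Nat.add (Nat.add (Nat.add (Nat.add C x22778) x5282) x14030) x8198) x11114) x9170) x9818) x9602) x9674) x9662) (Nat.mul x9656 (nat_lit 2))) x29338)
    (Nat.sub (Nat.sub (Nat.add (Nat.add (Nat.add (Nat.add (Nat.add (Nat.add (Nat.add (Nat.add (Nat.add (Nat.add (Nat.add C x22784) x5288) x14036) x8204) x11120) x9176) x9824) x9608) x9680) x9656) x9664) (Nat.mul x9662 (nat_lit 4))) x29344)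
    (Nat.sub (Nat.sub (Nat.add (Nat.add (Nat.add (Nat.add (Nat.add (Nat.add (Nat.add (Nat.add (Nat.add (Nat.add C x22786) x5290) x14038) x8206) x11122) x9178) x9826) x9610) x9682) x9662) (Nat.mul x9664 (nat_lit 2))) x29346)
    (Nat.sub (Nat.sub (Nat.add (Nat.add (Nat.add (Nat.add (Nat.add (Nat.add (Nat.add (Nat.add (Nat.add (Nat.add C x22796) x5300) x14048) x8216) x11132) x9188) x9836) x9620) x9656) x9680) (Nat.mul x9674 (nat_lit 2))) x29356)
    (Nat.sub (Nat.sub (Nat.sub (Nat.add (Nat.add (Nat.add (Nat.add (Nat.add (Nat.add (Nat.add (Nat.add (Nat.add (Nat.add (Nat.add (Nat.add (Nat.add (Nat.add C x22802) x5306) x14054) x8222) x11138) x9194) x9842) x9626) x9662) x9698) x9674) x9686) x9682) (Nat.mul (e (nat_lit 9680)) ap)) (Nat.mul x9680 (nat_lit 2))) x29362) (Nat.mul (e (nat_lit 9680)) an))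
    (Nat.sub (Nat.sub (Nat.add (Nat.add (Nat.add (Nat.add (Nat.add (Nat.add (Nat.add (Nat.add (Nat.add (Nat.add (Nat.add (Nat.add C x22804) x5308) x14056) x8224) x11140) x9196) x9844) x9628) x9664) x9700) x9688) x9680) x9682) x29364)
    (Nat.sub (Nat.sub (Nat.add (Nat.add (Nat.add (Nat.add (Nat.add (Nat.add (Nat.add (Nat.add (Nat.add (Nat.add (Nat.add C x22808) x5312) x14060) x8228) x11144) x9200) x9848) x9632) x9704) x9680) x9688) (Nat.mul x9686 (nat_lit 4))) x29368)
    (Nat.sub (Nat.sub (Nat.add (Nat.add (Nat.add (Nat.add (Nat.add (Nat.add (Nat.add (Nat.add (Nat.add (Nat.add (Nat.add (Nat.add C x22810) x5314) x14062) x8230) x11146) x9202) x9850) x9634) x9706) x9682) x9686) x9690) x9688) x29370)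
    (Nat.add (Nat.add (Nat.add (Nat.add (Nat.add (Nat.add (Nat.add (Nat.add (Nat.add (Nat.add C x22812) x5316) x14064) x8232) x11148) x9204) x9852) x9636) x9708) x9688)
    (Nat.sub (Nat.sub (Nat.add (Nat.add (Nat.add (Nat.add (Nat.add (Nat.add (Nat.add (Nat.add (Nat.add (Nat.add C x22820) x5324) x14072) x8240) x11156) x9212) x9860) x9680) x9704) x9700) (Nat.mul x9698 (nat_lit 2))) x29380)
    (Nat.sub (Nat.sub (Nat.add (Nat.add (Nat.add (Nat.add (Nat.add (Nat.add (Nat.add (Nat.add (Nat.add (Nat.add C x22822) x5326) x14074) x8242) x11158) x9214) x9862) x9682) x9706) x9698) (Nat.mul x9700 (nat_lit 2))) x29382)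
    (Nat.sub (Nat.sub (Nat.add (Nat.add (Nat.add (Nat.add (Nat.add (Nat.add (Nat.add (Nat.add (Nat.add (Nat.add C x22826) x5330) x14078) x8246) x11162) x9218) x9866) x9686) x9698) x9706) (Nat.mul x9704 (nat_lit 2))) x29386)
    (Nat.sub (Nat.add (Nat.add (Nat.add (Nat.add (Nat.add (Nat.add (Nat.add (Nat.add (Nat.add (Nat.add (Nat.add (Nat.add C x22828) x5332) x14080) x8248) x11164) x9220) x9868) x9688) x9700) x9712) x9704) x9708) x29388)
    (Nat.add (Nat.add (Nat.add (Nat.add (Nat.add (Nat.add (Nat.add (Nat.add (Nat.add (Nat.add C x22830) x5334) x14082) x8250) x11166) x9222) x9870) x9690) x9714) x9706)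
    (Nat.sub (Nat.add (Nat.add (Nat.add (Nat.add (Nat.add (Nat.add (Nat.add (Nat.add (Nat.add C x22834) x5338) x14086) x8254) x11170) x9226) x9874) x9706) x9714) x29394)
    (Nat.add (Nat.add (Nat.add (Nat.add (Nat.add (Nat.add (Nat.add (Nat.add (Nat.add (Nat.add C (Nat.mul x9714 (nat_lit 2))) x22836) x5340) x14088) x8256) x11172) x9228) x9876) x9708) x9712)
    (Nat.sub (Nat.add (Nat.add (Nat.add (Nat.add (Nat.add (Nat.add (Nat.add (Nat.add (Nat.add (Nat.add C x9746) x22868) x5372) x14120) x8288) x11204) x9260) x10232) x9584) x9764) x29428)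
    (Nat.sub (Nat.add (Nat.add (Nat.add (Nat.add (Nat.add (Nat.add (Nat.add (Nat.add (Nat.add (Nat.add (Nat.add (Nat.add C x22886) x5390) x14138) x8306) x11222) x9278) x10250) x9602) x9818) x9746) x9782) x9770) x29446)
    (Nat.sub (Nat.sub (Nat.add (Nat.add (Nat.add (Nat.add (Nat.add (Nat.add (Nat.add (Nat.add (Nat.add (Nat.add (Nat.add (Nat.add C x22892) x5396) x14144) x8312) x11228) x9284) x10256) x9608) x9824) x9788) x9764) x9772) x9770) x29452)
    (Nat.sub (Nat.add (Nat.add (Nat.add (Nat.add (Nat.add (Nat.add (Nat.add (Nat.add (Nat.add (Nat.add (Nat.add (Nat.add C x9772) x22894) x5398) x14146) x8314) x11230) x9286) x10258) x9610) x9826) x9790) x9770) x29454)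
    (Nat.sub (Nat.sub (Nat.add (Nat.add (Nat.add (Nat.add (Nat.add (Nat.add (Nat.add (Nat.add (Nat.add (Nat.add (Nat.add C x22904) x5408) x14156) x8324) x11240) x9296) x10268) x9620) x9836) x9764) x9788) (Nat.mul x9782 (nat_lit 3))) x29464)
    (Nat.sub (Nat.sub (Nat.add (Nat.add (Nat.add (Nat.add (Nat.add (Nat.add (Nat.add (Nat.add (Nat.add (Nat.add (Nat.add (Nat.add (Nat.add C x22910) x5414) x14162) x8330) x11246) x9302) x10274) x9626) x9842) x9770) x9782) x9794) x9790) (Nat.mul x9788 (nat_lit 2))) x29470)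
    (Nat.sub (Nat.sub (Nat.add (Nat.add (Nat.add (Nat.add (Nat.add (Nat.add (Nat.add (Nat.add (Nat.add (Nat.add (Nat.add (Nat.add C x22912) x5416) x14164) x8332) x11248) x9304) x10276) x9628) x9844) x9772) x9796) x9788) x9790) x29472)
    (Nat.sub (Nat.sub (Nat.add (Nat.add (Nat.add (Nat.add (Nat.add (Nat.add (Nat.add (Nat.add (Nat.add (Nat.add (Nat.add C x22916) x5420) x14168) x8336) x11252) x9308) x10280) x9632) x9848) x9788) x9796) (Nat.mul x9794 (nat_lit 3))) x29476)
    (Nat.sub (Nat.add (Nat.add (Nat.add (Nat.add (Nat.add (Nat.add (Nat.add (Nat.add (Nat.add (Nat.add (Nat.add (Nat.add C x22918) x5422) x14170) x8338) x11254) x9310) x10282) x9634) x9850) x9790) x9794) x9798) x29478)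
    (Nat.add (Nat.add (Nat.add (Nat.add (Nat.add (Nat.add (Nat.add (Nat.add (Nat.add (Nat.add (Nat.add C x9798) x22920) x5424) x14172) x8340) x11256) x9312) x10284) x9636) x9852) x9796)
    (Nat.sub (Nat.add (Nat.add (Nat.add (Nat.add (Nat.add (Nat.add (Nat.add (Nat.add (Nat.add (Nat.add (Nat.add (Nat.add C x22940) x5444) x14192) x8360) x11276) x9332) x10304) x9656) x9980) x9764) x9836) x9824) x29500)
    (Nat.sub (Nat.sub (Nat.add (Nat.add (Nat.add (Nat.add (Nat.add (Nat.add (Nat.add (Nat.add (Nat.add (Nat.add (Nat.add (Nat.add (Nat.add C x22946) x5450) x14198) x8366) x11282) x9338) x10310) x9662) x9986) x9770) x9842) x9818) x9826) (Nat.mul x9824 (nat_lit 2))) x29506)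
    (Nat.sub (Nat.add (Nat.add (Nat.add (Nat.add (Nat.add (Nat.add (Nat.add (Nat.add (Nat.add (Nat.add (Nat.add (Nat.add C x22948) x5452) x14200) x8368) x11284) x9340) x10312) x9664) x9988) x9772) x9844) x9824) x29508)
    (Nat.sub (Nat.sub (Nat.add (Nat.add (Nat.add (Nat.add (Nat.add (Nat.add (Nat.add (Nat.add (Nat.add (Nat.add (Nat.add (Nat.add (Nat.add C x22958) x5462) x14210) x8378) x11294) x9350) x10322) x9674) x9998) x9782) x9890) x9818) x9842) x9836) x29518)
    (Nat.sub (Nat.sub (Nat.sub (Nat.add (Nat.add (Nat.add (Nat.add (Nat.add (Nat.add (Nat.add (Nat.add (Nat.add (Nat.add (Nat.add (Nat.add (Nat.add (Nat.add (Nat.add (Nat.add (Nat.add C x22964) x5468) x14216) x8384) x11300) x9356) x10328) x9680) x10004) x9788) x9896) x9824) x9860) x9836) x9848) x9844) (Nat.mul (e (nat_lit 9842)) ap)) x9842) x29524) (Nat.mul (e (nat_lit 9842)) an))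
    (Nat.sub (Nat.sub (Nat.add (Nat.add (Nat.add (Nat.add (Nat.add (Nat.add (Nat.add (Nat.add (Nat.add (Nat.add (Nat.add (Nat.add (Nat.add (Nat.add (Nat.add (Nat.add C x22966) x5470) x14218) x8386) x11302) x9358) x10330) x9682) x10006) x9790) x9898) x9826) x9862) x9850) x9842) (Nat.mul (e (nat_lit 9844)) ap)) x29526) (Nat.mul (e (nat_lit 9844)) an))
    (Nat.sub (Nat.sub (Nat.sub (Nat.add (Nat.add (Nat.add (Nat.add (Nat.add (Nat.add (Nat.add (Nat.add (Nat.add (Nat.add (Nat.add (Nat.add (Nat.add (Nat.add (Nat.add C x22970) x5474) x14222) x8390) x11306) x9362) x10334) x9686) x10010) x9794) x9902) x9866) x9842) x9850) (Nat.mul (e (nat_lit 9848)) ap)) (Nat.mul x9848 (nat_lit 3))) x29530) (Nat.mul (e (nat_lit 9848)) an))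
    (Nat.sub (Nat.sub (Nat.add (Nat.add (Nat.add (Nat.add (Nat.add (Nat.add (Nat.add (Nat.add (Nat.add (Nat.add (Nat.add (Nat.add (Nat.add (Nat.add (Nat.add (Nat.add C x22972) x5476) x14224) x8392) x11308) x9364) x10336) x9688) x10012) x9796) x9904) x9868) x9844) x9848) x9852) (Nat.mul (e (nat_lit 9850)) ap)) x29532) (Nat.mul (e (nat_lit 9850)) an))
    (Nat.add (Nat.add (Nat.add (Nat.add (Nat.add (Nat.add (Nat.add (Nat.add (Nat.add (Nat.add (Nat.add (Nat.add (Nat.add (Nat.add C x9852) x22974) x5478) x14226) x8394) x11310) x9366) x10338) x9690) x10014) x9798) x9906) x9870) x9850)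
    (Nat.sub (Nat.sub (Nat.sub (Nat.add (Nat.add (Nat.add (Nat.add (Nat.add (Nat.add (Nat.add (Nat.add (Nat.add (Nat.add (Nat.add (Nat.add (Nat.add (Nat.add C x22982) x5486) x14234) x8402) x11318) x9374) x10346) x9698) x10022) x9914) x9842) x9866) x9862) (Nat.mul (e (nat_lit 9860)) ap)) (Nat.mul x9860 (nat_lit 2))) x29542) (Nat.mul (e (nat_lit 9860)) an))
    (Nat.sub (Nat.sub (Nat.sub (Nat.add (Nat.add (Nat.add (Nat.add (Nat.add (Nat.add (Nat.add (Nat.add (Nat.add (Nat.add (Nat.add (Nat.add (Nat.add (Nat.add C x22984) x5488) x14236) x8404) x11320) x9376) x10348) x9700) x10024) x9916) x9844) x9868) x9860) (Nat.mul (e (nat_lit 9862)) ap)) (Nat.mul x9862 (nat_lit 2))) x29544) (Nat.mul (e (nat_lit 9862)) an))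
    (Nat.sub (Nat.sub (Nat.add (Nat.add (Nat.add (Nat.add (Nat.add (Nat.add (Nat.add (Nat.add (Nat.add (Nat.add (Nat.add (Nat.add (Nat.add C x22988) x5492) x14240) x8408) x11324) x9380) x10352) x9704) x10028) x9920) x9848) x9860) x9868) (Nat.mul x9866 (nat_lit 2))) x29548)
    (Nat.sub (Nat.sub (Nat.add (Nat.add (Nat.add (Nat.add (Nat.add (Nat.add (Nat.add (Nat.add (Nat.add (Nat.add (Nat.add (Nat.add (Nat.add (Nat.add (Nat.add (Nat.add C x22990) x5494) x14242) x8410) x11326) x9382) x10354) x9706) x10030) x9922) x9850) x9862) x9874) x9866) x9870) (Nat.mul (e (nat_lit 9868)) ap)) x29550) (Nat.mul (e (nat_lit 9868)) an))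
    (Nat.add (Nat.add (Nat.add (Nat.add (Nat.add (Nat.add (Nat.add (Nat.add (Nat.add (Nat.add (Nat.add (Nat.add (Nat.add C x22992) x5496) x14244) x8412) x11328) x9384) x10356) x9708) x10032) x9924) x9852) x9876) x9868)
    (Nat.sub (Nat.add (Nat.add (Nat.add (Nat.add (Nat.add (Nat.add (Nat.add (Nat.add (Nat.add (Nat.add (Nat.add (Nat.add C x22996) x5500) x14248) x8416) x11332) x9388) x10360) x9712) x10036) x9928) x9868) x9876) x29556)
    (Nat.add (Nat.add (Nat.add (Nat.add (Nat.add (Nat.add (Nat.add (Nat.add (Nat.add (Nat.add (Nat.add (Nat.add (Nat.add C (Nat.mul x9876 (nat_lit 2))) x22998) x5502) x14250) x8418) x11334) x9390) x10362) x9714) x10038) x9930) x9870) x9874)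
    (Nat.sub (Nat.sub (Nat.add (Nat.add (Nat.add (Nat.add (Nat.add (Nat.add (Nat.add (Nat.add (Nat.add (Nat.add C x23012) x5516) x14264) x8432) x11348) x9404) x10376) x10052) x9836) x9896) x9890) x29572)
    (Nat.sub (Nat.sub (Nat.sub (Nat.add (Nat.add (Nat.add (Nat.add (Nat.add (Nat.add (Nat.add (Nat.add (Nat.add (Nat.add (Nat.add (Nat.add (Nat.add (Nat.add C x23018) x5522) x14270) x8438) x11354) x9410) x10382) x10058) x9842) x9914) x9890) x9902) x9898) (Nat.mul (e (nat_lit 9896)) ap)) (Nat.mul x9896 (nat_lit 2))) x29578) (Nat.mul (e (nat_lit 9896)) an))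
    (Nat.sub (Nat.sub (Nat.sub (Nat.add (Nat.add (Nat.add (Nat.add (Nat.add (Nat.add (Nat.add (Nat.add (Nat.add (Nat.add (Nat.add (Nat.add (Nat.add C x23020) x5524) x14272) x8440) x11356) x9412) x10384) x10060) x9844) x9916) x9904) x9896) (Nat.mul (e (nat_lit 9898)) ap)) x9898) x29580) (Nat.mul (e (nat_lit 9898)) an))
    (Nat.sub (Nat.sub (Nat.sub (Nat.add (Nat.add (Nat.add (Nat.add (Nat.add (Nat.add (Nat.add (Nat.add (Nat.add (Nat.add (Nat.add (Nat.add (Nat.add C x23024) x5528) x14276) x8444) x11360) x9416) x10388) x10064) x9848) x9920) x9896) x9904) (Nat.mul (e (nat_lit 9902)) ap)) (Nat.mul x9902 (nat_lit 5))) x29584) (Nat.mul (e (nat_lit 9902)) an))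
    (Nat.sub (Nat.sub (Nat.sub (Nat.add (Nat.add (Nat.add (Nat.add (Nat.add (Nat.add (Nat.add (Nat.add (Nat.add (Nat.add (Nat.add (Nat.add (Nat.add (Nat.add C x23026) x5530) x14278) x8446) x11362) x9418) x10390) x10066) x9850) x9922) x9898) x9902) x9906) (Nat.mul (e (nat_lit 9904)) ap)) (Nat.mul x9904 (nat_lit 2))) x29586) (Nat.mul (e (nat_lit 9904)) an))
    (Nat.sub (Nat.add (Nat.add (Nat.add (Nat.add (Nat.add (Nat.add (Nat.add (Nat.add (Nat.add (Nat.add (Nat.add C x23028) x5532) x14280) x8448) x11364) x9420) x10392) x10068) x9852) x9924) x9904) x9906)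
    (Nat.sub (Nat.sub (Nat.add (Nat.add (Nat.add (Nat.add (Nat.add (Nat.add (Nat.add (Nat.add (Nat.add (Nat.add (Nat.add (Nat.add C x23036) x5540) x14288) x8456) x11372) x9428) x10400) x10076) x9860) x9896) x9920) x9916) x9914) x29596)
    (Nat.sub (Nat.sub (Nat.sub (Nat.add (Nat.add (Nat.add (Nat.add (Nat.add (Nat.add (Nat.add (Nat.add (Nat.add (Nat.add (Nat.add (Nat.add (Nat.add C x23038) x5542) x14290) x8458) x11374) x9430) x10402) x10078) x9862) x9898) x9922) x9914) (Nat.mul (e (nat_lit 9916)) ap)) x9916) x29598) (Nat.mul (e (nat_lit 9916)) an))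
    (Nat.sub (Nat.sub (Nat.add (Nat.add (Nat.add (Nat.add (Nat.add (Nat.add (Nat.add (Nat.add (Nat.add (Nat.add (Nat.add (Nat.add (Nat.add C x23042) x5546) x14294) x8462) x11378) x9434) x10406) x10082) x9866) x9902) x9938) x9914) x9922) (Nat.mul x9920 (nat_lit 2))) x29602)
    (Nat.sub (Nat.sub (Nat.add (Nat.add (Nat.add (Nat.add (Nat.add (Nat.add (Nat.add (Nat.add (Nat.add (Nat.add (Nat.add (Nat.add (Nat.add (Nat.add (Nat.add (Nat.add C x23044) x5548) x14296) x8464) x11380) x9436) x10408) x10084) x9868) x9904) x9940) x9916) x9928) x9920) x9924) (Nat.mul (e (nat_lit 9922)) ap)) x29604) (Nat.mul (e (nat_lit 9922)) an))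
    (Nat.add (Nat.add (Nat.add (Nat.add (Nat.add (Nat.add (Nat.add (Nat.add (Nat.add (Nat.add (Nat.add (Nat.add (Nat.add C x23046) x5550) x14298) x8466) x11382) x9438) x10410) x10086) x9870) x9906) x9942) x9930) x9922)
    (Nat.sub (Nat.sub (Nat.add (Nat.add (Nat.add (Nat.add (Nat.add (Nat.add (Nat.add (Nat.add (Nat.add (Nat.add (Nat.add (Nat.add C x23050) x5554) x14302) x8470) x11386) x9442) x10414) x10090) x9874) x9946) x9922) x9930) x9928) x29610)
    (Nat.add (Nat.add (Nat.add (Nat.add (Nat.add (Nat.add (Nat.add (Nat.add (Nat.add (Nat.add (Nat.add (Nat.add (Nat.add C x9930) x23052) x5556) x14304) x8472) x11388) x9444) x10416) x10092) x9876) x9948) x9924) x9928)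
    (Nat.sub (Nat.sub (Nat.add (Nat.add (Nat.add (Nat.add (Nat.add (Nat.add (Nat.add (Nat.add (Nat.add (Nat.add C x23060) x5564) x14312) x8480) x11396) x9452) x10424) x10100) x9920) x9940) x9938) x29620)
    (Nat.sub (Nat.add (Nat.add (Nat.add (Nat.add (Nat.add (Nat.add (Nat.add (Nat.add (Nat.add (Nat.add (Nat.add (Nat.add C x23062) x5566) x14314) x8482) x11398) x9454) x10426) x10102) x9922) x9946) x9938) x9942) x29622)
    (Nat.sub (Nat.add (Nat.add (Nat.add (Nat.add (Nat.add (Nat.add (Nat.add (Nat.add (Nat.add (Nat.add (Nat.add C x23064) x5568) x14316) x8484) x11400) x9456) x10428) x10104) x9924) x9948) x9940) x9942)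
    (Nat.sub (Nat.add (Nat.add (Nat.add (Nat.add (Nat.add (Nat.add (Nat.add (Nat.add (Nat.add (Nat.add (Nat.add (Nat.add C x9946) x23068) x5572) x14320) x8488) x11404) x9460) x10432) x10108) x9928) x9940) x9948) x29628)
    (Nat.add (Nat.add (Nat.add (Nat.add (Nat.add (Nat.add (Nat.add (Nat.add (Nat.add (Nat.add (Nat.add (Nat.add (Nat.add C (Nat.mul x9948 (nat_lit 2))) x23070) x5574) x14322) x8490) x11406) x9462) x10434) x10110) x9930) x9942) x9954) x9946)
    (Nat.add (Nat.add (Nat.add (Nat.add (Nat.add (Nat.add (Nat.add (Nat.add (Nat.add (Nat.add C (Nat.mul x9954 (nat_lit 3))) x23076) x5580) x14328) x8496) x11412) x9468) x10440) x10116) x9948)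
    (Nat.sub (Nat.add (Nat.add (Nat.add (Nat.add (Nat.add (Nat.add (Nat.add (Nat.add (Nat.add C x23102) x5606) x14354) x8522) x11438) x10466) x9818) x9998) x9986) x29662)
    (Nat.sub (Nat.sub (Nat.add (Nat.add (Nat.add (Nat.add (Nat.add (Nat.add (Nat.add (Nat.add (Nat.add (Nat.add C x23108) x5612) x14360) x8528) x11444) x10472) x9824) x10004) x9980) x9988) (Nat.mul x9986 (nat_lit 2))) x29668)
    (Nat.sub (Nat.add (Nat.add (Nat.add (Nat.add (Nat.add (Nat.add (Nat.add (Nat.add (Nat.add C x23110) x5614) x14362) x8530) x11446) x10474) x9826) x10006) x9986) x29670)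
    (Nat.sub (Nat.sub (Nat.add (Nat.add (Nat.add (Nat.add (Nat.add (Nat.add (Nat.add (Nat.add (Nat.add (Nat.add C x23120) x5624) x14372) x8540) x11456) x10484) x9836) x10052) x9980) x10004) (Nat.mul x9998 (nat_lit 2))) x29680)
    (Nat.sub (Nat.sub (Nat.sub (Nat.add (Nat.add (Nat.add (Nat.add (Nat.add (Nat.add (Nat.add (Nat.add (Nat.add (Nat.add (Nat.add (Nat.add (Nat.add (Nat.add C x23126) x5630) x14378) x8546) x11462) x10490) x9842) x10058) x9986) x10022) x9998) x10010) x10006) (Nat.mul (e (nat_lit 10004)) ap)) (Nat.mul x10004 (nat_lit 2))) x29686) (Nat.mul (e (nat_lit 10004)) an))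
    (Nat.sub (Nat.sub (Nat.sub (Nat.add (Nat.add (Nat.add (Nat.add (Nat.add (Nat.add (Nat.add (Nat.add (Nat.add (Nat.add (Nat.add (Nat.add (Nat.add C x23128) x5632) x14380) x8548) x11464) x10492) x9844) x10060) x9988) x10024) x10012) x10004) (Nat.mul (e (nat_lit 10006)) ap)) x10006) x29688) (Nat.mul (e (nat_lit 10006)) an))
    (Nat.sub (Nat.sub (Nat.sub (Nat.add (Nat.add (Nat.add (Nat.add (Nat.add (Nat.add (Nat.add (Nat.add (Nat.add (Nat.add (Nat.add (Nat.add C x23132) x5636) x14384) x8552) x11468) x10496) x9848) x10064) x10028) x10004) x10012) (Nat.mul (e (nat_lit 10010)) ap)) (Nat.mul x10010 (nat_lit 4))) x29692) (Nat.mul (e (nat_lit 10010)) an))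
    (Nat.sub (Nat.sub (Nat.sub (Nat.add (Nat.add (Nat.add (Nat.add (Nat.add (Nat.add (Nat.add (Nat.add (Nat.add (Nat.add (Nat.add (Nat.add (Nat.add C x23134) x5638) x14386) x8554) x11470) x10498) x9850) x10066) x10030) x10006) x10010) x10014) (Nat.mul (e (nat_lit 10012)) ap)) x10012) x29694) (Nat.mul (e (nat_lit 10012)) an))
    (Nat.add (Nat.add (Nat.add (Nat.add (Nat.add (Nat.add (Nat.add (Nat.add (Nat.add (Nat.add C x23136) x5640) x14388) x8556) x11472) x10500) x9852) x10068) x10032) x10012)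
    (Nat.sub (Nat.sub (Nat.add (Nat.add (Nat.add (Nat.add (Nat.add (Nat.add (Nat.add (Nat.add (Nat.add (Nat.add (Nat.add C x23144) x5648) x14396) x8564) x11480) x10508) x9860) x10076) x10004) x10028) x10024) (Nat.mul x10022 (nat_lit 4))) x29704)
    (Nat.sub (Nat.sub (Nat.sub (Nat.add (Nat.add (Nat.add (Nat.add (Nat.add (Nat.add (Nat.add (Nat.add (Nat.add (Nat.add (Nat.add (Nat.add C x23146) x5650) x14398) x8566) x11482) x10510) x9862) x10078) x10006) x10030) x10022) (Nat.mul (e (nat_lit 10024)) ap)) (Nat.mul x10024 (nat_lit 4))) x29706) (Nat.mul (e (nat_lit 10024)) an))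
    (Nat.sub (Nat.sub (Nat.sub (Nat.add (Nat.add (Nat.add (Nat.add (Nat.add (Nat.add (Nat.add (Nat.add (Nat.add (Nat.add (Nat.add (Nat.add C x23150) x5654) x14402) x8570) x11486) x10514) x9866) x10082) x10010) x10022) x10030) (Nat.mul (e (nat_lit 10028)) ap)) (Nat.mul x10028 (nat_lit 4))) x29710) (Nat.mul (e (nat_lit 10028)) an))
    (Nat.sub (Nat.sub (Nat.sub (Nat.add (Nat.add (Nat.add (Nat.add (Nat.add (Nat.add (Nat.add (Nat.add (Nat.add (Nat.add (Nat.add (Nat.add (Nat.add (Nat.add C x23152) x5656) x14404) x8572) x11488) x10516) x9868) x10084) x10012) x10024) x10036) x10028) x10032) (Nat.mul (e (nat_lit 10030)) ap)) (Nat.mul x10030 (nat_lit 2))) x29712) (Nat.mul (e (nat_lit 10030)) an))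
    (Nat.sub (Nat.add (Nat.add (Nat.add (Nat.add (Nat.add (Nat.add (Nat.add (Nat.add (Nat.add (Nat.add (Nat.add C x23154) x5658) x14406) x8574) x11490) x10518) x9870) x10086) x10014) x10038) x10030) (Nat.mul x10032 (nat_lit 2)))
    (Nat.sub (Nat.sub (Nat.add (Nat.add (Nat.add (Nat.add (Nat.add (Nat.add (Nat.add (Nat.add (Nat.add (Nat.add C x23158) x5662) x14410) x8578) x11494) x10522) x9874) x10090) x10030) x10038) (Nat.mul x10036 (nat_lit 2))) x29718)
    (Nat.add (Nat.add (Nat.add (Nat.add (Nat.add (Nat.add (Nat.add (Nat.add (Nat.add (Nat.add C x23160) x5664) x14412) x8580) x11496) x10524) x9876) x10092) x10032) x10036)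
    (Nat.sub (Nat.add (Nat.add (Nat.add (Nat.add (Nat.add (Nat.add (Nat.add (Nat.add (Nat.add C x23174) x5678) x14426) x8594) x11510) x10538) x9890) x9998) x10058) x29734)
    (Nat.sub (Nat.sub (Nat.add (Nat.add (Nat.add (Nat.add (Nat.add (Nat.add (Nat.add (Nat.add (Nat.add (Nat.add (Nat.add (Nat.add C x23180) x5684) x14432) x8600) x11516) x10544) x9896) x10004) x10076) x10052) x10064) x10060) x10058) x29740)
    (Nat.sub (Nat.sub (Nat.add (Nat.add (Nat.add (Nat.add (Nat.add (Nat.add (Nat.add (Nat.add (Nat.add (Nat.add (Nat.add (Nat.add C x23182) x5686) x14434) x8602) x11518) x10546) x9898) x10006) x10078) x10066) x10058) (Nat.mul (e (nat_lit 10060)) ap)) x29742) (Nat.mul (e (nat_lit 10060)) an))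
    (Nat.sub (Nat.sub (Nat.add (Nat.add (Nat.add (Nat.add (Nat.add (Nat.add (Nat.add (Nat.add (Nat.add (Nat.add (Nat.add C x23186) x5690) x14438) x8606) x11522) x10550) x9902) x10010) x10082) x10058) x10066) (Nat.mul x10064 (nat_lit 4))) x29746)
    (Nat.sub (Nat.sub (Nat.sub (Nat.add (Nat.add (Nat.add (Nat.add (Nat.add (Nat.add (Nat.add (Nat.add (Nat.add (Nat.add (Nat.add (Nat.add (Nat.add C x23188) x5692) x14440) x8608) x11524) x10552) x9904) x10012) x10084) x10060) x10064) x10068) (Nat.mul (e (nat_lit 10066)) ap)) x10066) x29748) (Nat.mul (e (nat_lit 10066)) an))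
    (Nat.add (Nat.add (Nat.add (Nat.add (Nat.add (Nat.add (Nat.add (Nat.add (Nat.add (Nat.add C x23190) x5694) x14442) x8610) x11526) x10554) x9906) x10014) x10086) x10066)
    (Nat.sub (Nat.sub (Nat.add (Nat.add (Nat.add (Nat.add (Nat.add (Nat.add (Nat.add (Nat.add (Nat.add (Nat.add (Nat.add (Nat.add C x23198) x5702) x14450) x8618) x11534) x10562) x9914) x10022) x10130) x10058) x10082) x10078) x10076) x29758)
    (Nat.sub (Nat.sub (Nat.add (Nat.add (Nat.add (Nat.add (Nat.add (Nat.add (Nat.add (Nat.add (Nat.add (Nat.add (Nat.add (Nat.add C x23200) x5704) x14452) x8620) x11536) x10564) x9916) x10024) x10132) x10060) x10084) x10076) x10078) x29760)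
    (Nat.sub (Nat.sub (Nat.add (Nat.add (Nat.add (Nat.add (Nat.add (Nat.add (Nat.add (Nat.add (Nat.add (Nat.add (Nat.add (Nat.add (Nat.add C x23204) x5708) x14456) x8624) x11540) x10568) x9920) x10028) x10136) x10064) x10100) x10076) x10084) (Nat.mul x10082 (nat_lit 2))) x29764)
    (Nat.sub (Nat.add (Nat.add (Nat.add (Nat.add (Nat.add (Nat.add (Nat.add (Nat.add (Nat.add (Nat.add (Nat.add (Nat.add (Nat.add (Nat.add (Nat.add C x23206) x5710) x14458) x8626) x11542) x10570) x9922) x10030) x10138) x10066) x10102) x10078) x10090) x10082) x10086) x29766)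
    (Nat.add (Nat.add (Nat.add (Nat.add (Nat.add (Nat.add (Nat.add (Nat.add (Nat.add (Nat.add (Nat.add (Nat.add (Nat.add C x23208) x5712) x14460) x8628) x11544) x10572) x9924) x10032) x10140) x10068) x10104) x10092) x10084)
    (Nat.sub (Nat.sub (Nat.add (Nat.add (Nat.add (Nat.add (Nat.add (Nat.add (Nat.add (Nat.add (Nat.add (Nat.add (Nat.add (Nat.add C x23212) x5716) x14464) x8632) x11548) x10576) x9928) x10036) x10144) x10108) x10084) x10092) x10090) x29772)
    (Nat.add (Nat.add (Nat.add (Nat.add (Nat.add (Nat.add (Nat.add (Nat.add (Nat.add (Nat.add (Nat.add (Nat.add (Nat.add C x10092) x23214) x5718) x14466) x8634) x11550) x10578) x9930) x10038) x10146) x10110) x10086) x10090)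
    (Nat.sub (Nat.sub (Nat.add (Nat.add (Nat.add (Nat.add (Nat.add (Nat.add (Nat.add (Nat.add (Nat.add (Nat.add C x23222) x5726) x14474) x8642) x11558) x10586) x9938) x10154) x10082) x10102) (Nat.mul x10100 (nat_lit 2))) x29782)
    (Nat.sub (Nat.sub (Nat.add (Nat.add (Nat.add (Nat.add (Nat.add (Nat.add (Nat.add (Nat.add (Nat.add (Nat.add (Nat.add (Nat.add C x23224) x5728) x14476) x8644) x11560) x10588) x9940) x10156) x10084) x10108) x10100) x10104) x10102) x29784)
    (Nat.sub (Nat.add (Nat.add (Nat.add (Nat.add (Nat.add (Nat.add (Nat.add (Nat.add (Nat.add (Nat.add (Nat.add C x23226) x5730) x14478) x8646) x11562) x10590) x9942) x10158) x10086) x10110) x10102) (Nat.mul x10104 (nat_lit 2)))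
    (Nat.sub (Nat.add (Nat.add (Nat.add (Nat.add (Nat.add (Nat.add (Nat.add (Nat.add (Nat.add (Nat.add (Nat.add C x23230) x5734) x14482) x8650) x11566) x10594) x9946) x10162) x10090) x10102) x10110) x29790)
    (Nat.add (Nat.add (Nat.add (Nat.add (Nat.add (Nat.add (Nat.add (Nat.add (Nat.add (Nat.add (Nat.add (Nat.add (Nat.add C x10110) x23232) x5736) x14484) x8652) x11568) x10596) x9948) x10164) x10092) x10104) x10116) x10108)
    (Nat.add (Nat.add (Nat.add (Nat.add (Nat.add (Nat.add (Nat.add (Nat.add (Nat.add (Nat.add C (Nat.mul x10116 (nat_lit 2))) x23238) x5742) x14490) x8658) x11574) x10602) x9954) x10170) x10110)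
    (Nat.sub (Nat.add (Nat.add (Nat.add (Nat.add (Nat.add (Nat.add (Nat.add (Nat.add (Nat.add C x23252) x5756) x14504) x8672) x11588) x10616) x10076) x10136) x10132) x29812)
    (Nat.sub (Nat.add (Nat.add (Nat.add (Nat.add (Nat.add (Nat.add (Nat.add (Nat.add (Nat.add C x23254) x5758) x14506) x8674) x11590) x10618) x10078) x10138) x10130) x29814)
    (Nat.sub (Nat.sub (Nat.add (Nat.add (Nat.add (Nat.add (Nat.add (Nat.add (Nat.add (Nat.add (Nat.add (Nat.add C x23258) x5762) x14510) x8678) x11594) x10622) x10082) x10154) x10130) x10138) (Nat.mul x10136 (nat_lit 2))) x29818)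
    (Nat.sub (Nat.add (Nat.add (Nat.add (Nat.add (Nat.add (Nat.add (Nat.add (Nat.add (Nat.add (Nat.add (Nat.add (Nat.add C x23260) x5764) x14512) x8680) x11596) x10624) x10084) x10156) x10132) x10144) x10136) x10140) x29820)
    (Nat.add (Nat.add (Nat.add (Nat.add (Nat.add (Nat.add (Nat.add (Nat.add (Nat.add (Nat.add C x23262) x5766) x14514) x8682) x11598) x10626) x10086) x10158) x10146) x10138)
    (Nat.sub (Nat.sub (Nat.add (Nat.add (Nat.add (Nat.add (Nat.add (Nat.add (Nat.add (Nat.add (Nat.add (Nat.add C x23266) x5770) x14518) x8686) x11602) x10630) x10090) x10162) x10138) x10146) (Nat.mul x10144 (nat_lit 2))) x29826)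
    (Nat.add (Nat.add (Nat.add (Nat.add (Nat.add (Nat.add (Nat.add (Nat.add (Nat.add (Nat.add C x23268) x5772) x14520) x8688) x11604) x10632) x10092) x10164) x10140) x10144)
    (Nat.sub (Nat.add (Nat.add (Nat.add (Nat.add (Nat.add (Nat.add (Nat.add (Nat.add (Nat.add C x23276) x5780) x14528) x8696) x11612) x10640) x10100) x10136) x10156) x29836)
    (Nat.sub (Nat.add (Nat.add (Nat.add (Nat.add (Nat.add (Nat.add (Nat.add (Nat.add (Nat.add (Nat.add (Nat.add (Nat.add C x10156) x23278) x5782) x14530) x8698) x11614) x10642) x10102) x10138) x10162) x10154) x10158) x29838)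
    (Nat.add (Nat.add (Nat.add (Nat.add (Nat.add (Nat.add (Nat.add (Nat.add (Nat.add (Nat.add C x23280) x5784) x14532) x8700) x11616) x10644) x10104) x10140) x10164) x10156)
    (Nat.sub (Nat.add (Nat.add (Nat.add (Nat.add (Nat.add (Nat.add (Nat.add (Nat.add (Nat.add (Nat.add (Nat.add (Nat.add C x10162) x23284) x5788) x14536) x8704) x11620) x10648) x10108) x10144) x10180) x10156) x10164) x29844)
    (Nat.add (Nat.add (Nat.add (Nat.add (Nat.add (Nat.add (Nat.add (Nat.add (Nat.add (Nat.add (Nat.add (Nat.add (Nat.add C (Nat.mul x10164 (nat_lit 2))) x23286) x5790) x14538) x8706) x11622) x10650) x10110) x10146) x10182) x10158) x10170) x10162)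
    (Nat.add (Nat.add (Nat.add (Nat.add (Nat.add (Nat.add (Nat.add (Nat.add (Nat.add (Nat.add C (Nat.mul x10170 (nat_lit 2))) x23292) x5796) x14544) x8712) x11628) x10656) x10116) x10188) x10164)
    (Nat.sub (Nat.add (Nat.add (Nat.add (Nat.add (Nat.add (Nat.add (Nat.add (Nat.add (Nat.add C (Nat.mul x10180 (nat_lit 2))) x23302) x5806) x14554) x8722) x11638) x10666) x10162) x10182) x29862)
    (Nat.add (Nat.add (Nat.add (Nat.add (Nat.add (Nat.add (Nat.add (Nat.add (Nat.add (Nat.add C (Nat.mul x10182 (nat_lit 2))) x23304) x5808) x14556) x8724) x11640) x10668) x10164) x10188) x10180)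
    (Nat.add (Nat.add (Nat.add (Nat.add (Nat.add (Nat.add (Nat.add (Nat.add (Nat.add C (Nat.mul x10188 (nat_lit 4))) x23310) x5814) x14562) x8730) x11646) x10674) x10170) x10182)
    (Nat.sub (Nat.add (Nat.add (Nat.add (Nat.add (Nat.add (Nat.add (Nat.add C x10232) x23354) x5858) x14606) x11690) x9746) x10250) x29914)
    (Nat.sub (Nat.add (Nat.add (Nat.add (Nat.add (Nat.add (Nat.add (Nat.add (Nat.add (Nat.add C x23372) x5876) x14624) x11708) x9764) x10304) x10232) x10268) x10256) x29932)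
    (Nat.sub (Nat.sub (Nat.add (Nat.add (Nat.add (Nat.add (Nat.add (Nat.add (Nat.add (Nat.add (Nat.add C x23378) x5882) x14630) x11714) x9770) x10310) x10274) x10250) x10258) x10256) x29938)
    (Nat.sub (Nat.add (Nat.add (Nat.add (Nat.add (Nat.add (Nat.add (Nat.add (Nat.add (Nat.add C x10258) x23380) x5884) x14632) x11716) x9772) x10312) x10276) x10256) x29940)
    (Nat.sub (Nat.sub (Nat.add (Nat.add (Nat.add (Nat.add (Nat.add (Nat.add (Nat.add (Nat.add C x23390) x5894) x14642) x11726) x9782) x10322) x10250) x10274) (Nat.mul x10268 (nat_lit 3))) x29950)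
    (Nat.sub (Nat.sub (Nat.add (Nat.add (Nat.add (Nat.add (Nat.add (Nat.add (Nat.add (Nat.add (Nat.add (Nat.add C x23396) x5900) x14648) x11732) x9788) x10328) x10256) x10268) x10280) x10276) (Nat.mul x10274 (nat_lit 2))) x29956)
    (Nat.sub (Nat.sub (Nat.add (Nat.add (Nat.add (Nat.add (Nat.add (Nat.add (Nat.add (Nat.add (Nat.add C x23398) x5902) x14650) x11734) x9790) x10330) x10258) x10282) x10274) x10276) x29958)
    (Nat.sub (Nat.sub (Nat.add (Nat.add (Nat.add (Nat.add (Nat.add (Nat.add (Nat.add (Nat.add C x23402) x5906) x14654) x11738) x9794) x10334) x10274) x10282) (Nat.mul x10280 (nat_lit 3))) x29962)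
    (Nat.sub (Nat.add (Nat.add (Nat.add (Nat.add (Nat.add (Nat.add (Nat.add (Nat.add (Nat.add C x23404) x5908) x14656) x11740) x9796) x10336) x10276) x10280) x10284) x29964)
    (Nat.add (Nat.add (Nat.add (Nat.add (Nat.add (Nat.add (Nat.add (Nat.add C x10284) x23406) x5910) x14658) x11742) x9798) x10338) x10282)
    (Nat.sub (Nat.sub (Nat.add (Nat.add (Nat.add (Nat.add (Nat.add (Nat.add (Nat.add (Nat.add (Nat.add C x23426) x5930) x14678) x11762) x9818) x10466) x10250) x10322) x10310) x10304) x29986)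
    (Nat.sub (Nat.sub (Nat.add (Nat.add (Nat.add (Nat.add (Nat.add (Nat.add (Nat.add (Nat.add (Nat.add (Nat.add C x23432) x5936) x14684) x11768) x9824) x10472) x10256) x10328) x10304) x10312) (Nat.mul x10310 (nat_lit 3))) x29992)
    (Nat.sub (Nat.sub (Nat.add (Nat.add (Nat.add (Nat.add (Nat.add (Nat.add (Nat.add (Nat.add (Nat.add C x23434) x5938) x14686) x11770) x9826) x10474) x10258) x10330) x10310) x10312) x29994)
    (Nat.sub (Nat.sub (Nat.add (Nat.add (Nat.add (Nat.add (Nat.add (Nat.add (Nat.add (Nat.add (Nat.add (Nat.add C x23444) x5948) x14696) x11780) x9836) x10484) x10268) x10376) x10304) x10328) (Nat.mul x10322 (nat_lit 2))) x30004)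
    (Nat.sub (Nat.sub (Nat.add (Nat.add (Nat.add (Nat.add (Nat.add (Nat.add (Nat.add (Nat.add (Nat.add (Nat.add (Nat.add (Nat.add (Nat.add C x23450) x5954) x14702) x11786) x9842) x10490) x10274) x10382) x10310) x10346) x10322) x10334) x10330) (Nat.mul x10328 (nat_lit 2))) x30010)
    (Nat.sub (Nat.sub (Nat.add (Nat.add (Nat.add (Nat.add (Nat.add (Nat.add (Nat.add (Nat.add (Nat.add (Nat.add (Nat.add (Nat.add C x23452) x5956) x14704) x11788) x9844) x10492) x10276) x10384) x10312) x10348) x10336) x10328) x10330) x30012)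
    (Nat.sub (Nat.sub (Nat.sub (Nat.add (Nat.add (Nat.add (Nat.add (Nat.add (Nat.add (Nat.add (Nat.add (Nat.add (Nat.add (Nat.add (Nat.add C x23456) x5960) x14708) x11792) x9848) x10496) x10280) x10388) x10352) x10328) x10336) (Nat.mul (e (nat_lit 10334)) ap)) (Nat.mul x10334 (nat_lit 4))) x30016) (Nat.mul (e (nat_lit 10334)) an))
    (Nat.sub (Nat.sub (Nat.sub (Nat.add (Nat.add (Nat.add (Nat.add (Nat.add (Nat.add (Nat.add (Nat.add (Nat.add (Nat.add (Nat.add (Nat.add (Nat.add C x23458) x5962) x14710) x11794) x9850) x10498) x10282) x10390) x10354) x10330) x10334) x10338) (Nat.mul (e (nat_lit 10336)) ap)) x10336) x30018) (Nat.mul (e (nat_lit 10336)) an))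
    (Nat.add (Nat.add (Nat.add (Nat.add (Nat.add (Nat.add (Nat.add (Nat.add (Nat.add (Nat.add C x23460) x5964) x14712) x11796) x9852) x10500) x10284) x10392) x10356) x10336)
    (Nat.sub (Nat.sub (Nat.sub (Nat.add (Nat.add (Nat.add (Nat.add (Nat.add (Nat.add (Nat.add (Nat.add (Nat.add (Nat.add (Nat.add C x23468) x5972) x14720) x11804) x9860) x10508) x10400) x10328) x10352) x10348) (Nat.mul (e (nat_lit 10346)) ap)) (Nat.mul x10346 (nat_lit 3))) x30028) (Nat.mul (e (nat_lit 10346)) an))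
    (Nat.sub (Nat.sub (Nat.sub (Nat.add (Nat.add (Nat.add (Nat.add (Nat.add (Nat.add (Nat.add (Nat.add (Nat.add (Nat.add (Nat.add C x23470) x5974) x14722) x11806) x9862) x10510) x10402) x10330) x10354) x10346) (Nat.mul (e (nat_lit 10348)) ap)) (Nat.mul x10348 (nat_lit 3))) x30030) (Nat.mul (e (nat_lit 10348)) an))
    (Nat.sub (Nat.sub (Nat.sub (Nat.add (Nat.add (Nat.add (Nat.add (Nat.add (Nat.add (Nat.add (Nat.add (Nat.add (Nat.add (Nat.add C x23474) x5978) x14726) x11810) x9866) x10514) x10406) x10334) x10346) x10354) (Nat.mul (e (nat_lit 10352)) ap)) (Nat.mul x10352 (nat_lit 3))) x30034) (Nat.mul (e (nat_lit 10352)) an))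
    (Nat.sub (Nat.sub (Nat.add (Nat.add (Nat.add (Nat.add (Nat.add (Nat.add (Nat.add (Nat.add (Nat.add (Nat.add (Nat.add (Nat.add C x23476) x5980) x14728) x11812) x9868) x10516) x10408) x10336) x10348) x10360) x10352) x10356) x10354) x30036)
    (Nat.sub (Nat.add (Nat.add (Nat.add (Nat.add (Nat.add (Nat.add (Nat.add (Nat.add (Nat.add (Nat.add C x23478) x5982) x14730) x11814) x9870) x10518) x10410) x10338) x10362) x10354) x10356)
    (Nat.sub (Nat.sub (Nat.add (Nat.add (Nat.add (Nat.add (Nat.add (Nat.add (Nat.add (Nat.add (Nat.add C x23482) x5986) x14734) x11818) x9874) x10522) x10414) x10354) x10362) x10360) x30042)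
    (Nat.add (Nat.add (Nat.add (Nat.add (Nat.add (Nat.add (Nat.add (Nat.add (Nat.add (Nat.add C x10362) x23484) x5988) x14736) x11820) x9876) x10524) x10416) x10356) x10360)
    (Nat.sub (Nat.sub (Nat.add (Nat.add (Nat.add (Nat.add (Nat.add (Nat.add (Nat.add (Nat.add C x23498) x6002) x14750) x11834) x9890) x10538) x10322) x10382) (Nat.mul x10376 (nat_lit 3))) x30058)
    (Nat.sub (Nat.sub (Nat.add (Nat.add (Nat.add (Nat.add (Nat.add (Nat.add (Nat.add (Nat.add (Nat.add (Nat.add (Nat.add C x23504) x6008) x14756) x11840) x9896) x10544) x10328) x10400) x10376) x10388) x10384) (Nat.mul x10382 (nat_lit 4))) x30064)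
    (Nat.sub (Nat.sub (Nat.sub (Nat.add (Nat.add (Nat.add (Nat.add (Nat.add (Nat.add (Nat.add (Nat.add (Nat.add (Nat.add (Nat.add C x23506) x6010) x14758) x11842) x9898) x10546) x10330) x10402) x10390) x10382) (Nat.mul (e (nat_lit 10384)) ap)) (Nat.mul x10384 (nat_lit 3))) x30066) (Nat.mul (e (nat_lit 10384)) an))
    (Nat.sub (Nat.sub (Nat.sub (Nat.add (Nat.add (Nat.add (Nat.add (Nat.add (Nat.add (Nat.add (Nat.add (Nat.add (Nat.add (Nat.add C x23510) x6014) x14762) x11846) x9902) x10550) x10334) x10406) x10382) x10390) (Nat.mul (e (nat_lit 10388)) ap)) (Nat.mul x10388 (nat_lit 7))) x30070) (Nat.mul (e (nat_lit 10388)) an))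
    (Nat.sub (Nat.sub (Nat.sub (Nat.add (Nat.add (Nat.add (Nat.add (Nat.add (Nat.add (Nat.add (Nat.add (Nat.add (Nat.add (Nat.add (Nat.add C x23512) x6016) x14764) x11848) x9904) x10552) x10336) x10408) x10384) x10388) x10392) (Nat.mul (e (nat_lit 10390)) ap)) (Nat.mul x10390 (nat_lit 4))) x30072) (Nat.mul (e (nat_lit 10390)) an))
    (Nat.sub (Nat.add (Nat.add (Nat.add (Nat.add (Nat.add (Nat.add (Nat.add (Nat.add (Nat.add C x23514) x6018) x14766) x11850) x9906) x10554) x10338) x10410) x10390) (Nat.mul x10392 (nat_lit 3)))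
    (Nat.sub (Nat.sub (Nat.add (Nat.add (Nat.add (Nat.add (Nat.add (Nat.add (Nat.add (Nat.add (Nat.add (Nat.add C x23522) x6026) x14774) x11858) x9914) x10562) x10346) x10382) x10406) x10402) (Nat.mul x10400 (nat_lit 3))) x30082)
    (Nat.sub (Nat.sub (Nat.sub (Nat.add (Nat.add (Nat.add (Nat.add (Nat.add (Nat.add (Nat.add (Nat.add (Nat.add (Nat.add (Nat.add C x23524) x6028) x14776) x11860) x9916) x10564) x10348) x10384) x10408) x10400) (Nat.mul (e (nat_lit 10402)) ap)) (Nat.mul x10402 (nat_lit 3))) x30084) (Nat.mul (e (nat_lit 10402)) an))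
    (Nat.sub (Nat.sub (Nat.sub (Nat.add (Nat.add (Nat.add (Nat.add (Nat.add (Nat.add (Nat.add (Nat.add (Nat.add (Nat.add (Nat.add (Nat.add C x23528) x6032) x14780) x11864) x9920) x10568) x10352) x10388) x10424) x10400) x10408) (Nat.mul (e (nat_lit 10406)) ap)) (Nat.mul x10406 (nat_lit 4))) x30088) (Nat.mul (e (nat_lit 10406)) an))
    (Nat.sub (Nat.sub (Nat.add (Nat.add (Nat.add (Nat.add (Nat.add (Nat.add (Nat.add (Nat.add (Nat.add (Nat.add (Nat.add (Nat.add (Nat.add C x23530) x6034) x14782) x11866) x9922) x10570) x10354) x10390) x10426) x10402) x10414) x10406) x10410) (Nat.mul x10408 (nat_lit 2))) x30090)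
    (Nat.sub (Nat.add (Nat.add (Nat.add (Nat.add (Nat.add (Nat.add (Nat.add (Nat.add (Nat.add (Nat.add (Nat.add C x23532) x6036) x14784) x11868) x9924) x10572) x10356) x10392) x10428) x10416) x10408) (Nat.mul x10410 (nat_lit 2)))
    (Nat.sub (Nat.sub (Nat.add (Nat.add (Nat.add (Nat.add (Nat.add (Nat.add (Nat.add (Nat.add (Nat.add (Nat.add C x23536) x6040) x14788) x11872) x9928) x10576) x10360) x10432) x10408) x10416) (Nat.mul x10414 (nat_lit 3))) x30096)
    (Nat.sub (Nat.add (Nat.add (Nat.add (Nat.add (Nat.add (Nat.add (Nat.add (Nat.add (Nat.add (Nat.add C x23538) x6042) x14790) x11874) x9930) x10578) x10362) x10434) x10410) x10414) x10416)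
    (Nat.sub (Nat.sub (Nat.add (Nat.add (Nat.add (Nat.add (Nat.add (Nat.add (Nat.add (Nat.add C x23546) x6050) x14798) x11882) x9938) x10586) x10406) x10426) (Nat.mul x10424 (nat_lit 3))) x30106)
    (Nat.sub (Nat.sub (Nat.add (Nat.add (Nat.add (Nat.add (Nat.add (Nat.add (Nat.add (Nat.add (Nat.add (Nat.add C x23548) x6052) x14800) x11884) x9940) x10588) x10408) x10432) x10424) x10428) (Nat.mul x10426 (nat_lit 2))) x30108)
    (Nat.sub (Nat.add (Nat.add (Nat.add (Nat.add (Nat.add (Nat.add (Nat.add (Nat.add (Nat.add C x23550) x6054) x14802) x11886) x9942) x10590) x10410) x10434) x10426) (Nat.mul x10428 (nat_lit 3)))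
    (Nat.sub (Nat.sub (Nat.add (Nat.add (Nat.add (Nat.add (Nat.add (Nat.add (Nat.add (Nat.add (Nat.add C x23554) x6058) x14806) x11890) x9946) x10594) x10414) x10426) x10434) x10432) x30114)
    (Nat.add (Nat.add (Nat.add (Nat.add (Nat.add (Nat.add (Nat.add (Nat.add (Nat.add (Nat.add C x23556) x6060) x14808) x11892) x9948) x10596) x10416) x10428) x10440) x10432)
    (Nat.add (Nat.add (Nat.add (Nat.add (Nat.add (Nat.add (Nat.add (Nat.add C x10440) x23562) x6066) x14814) x11898) x9954) x10602) x10434)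
    (Nat.sub (Nat.add (Nat.add (Nat.add (Nat.add (Nat.add (Nat.add (Nat.add (Nat.add (Nat.add C x10466) x23588) x6092) x14840) x11924) x9980) x10304) x10484) x10472) x30148)
    (Nat.sub (Nat.sub (Nat.add (Nat.add (Nat.add (Nat.add (Nat.add (Nat.add (Nat.add (Nat.add (Nat.add C x23594) x6098) x14846) x11930) x9986) x10310) x10490) x10466) x10474) x10472) x30154)
    (Nat.sub (Nat.add (Nat.add (Nat.add (Nat.add (Nat.add (Nat.add (Nat.add (Nat.add (Nat.add C x10474) x23596) x6100) x14848) x11932) x9988) x10312) x10492) x10472) x30156)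
    (Nat.sub (Nat.sub (Nat.add (Nat.add (Nat.add (Nat.add (Nat.add (Nat.add (Nat.add (Nat.add (Nat.add C x23606) x6110) x14858) x11942) x9998) x10322) x10538) x10466) x10490) x10484) x30166)
    (Nat.sub (Nat.sub (Nat.add (Nat.add (Nat.add (Nat.add (Nat.add (Nat.add (Nat.add (Nat.add (Nat.add (Nat.add (Nat.add (Nat.add C x23612) x6116) x14864) x11948) x10004) x10328) x10544) x10472) x10508) x10484) x10496) x10492) x10490) x30172)
    (Nat.sub (Nat.sub (Nat.add (Nat.add (Nat.add (Nat.add (Nat.add (Nat.add (Nat.add (Nat.add (Nat.add (Nat.add (Nat.add (Nat.add C x23614) x6118) x14866) x11950) x10006) x10330) x10546) x10474) x10510) x10498) x10490) (Nat.mul (e (nat_lit 10492)) ap)) x30174) (Nat.mul (e (nat_lit 10492)) an))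
    (Nat.sub (Nat.sub (Nat.add (Nat.add (Nat.add (Nat.add (Nat.add (Nat.add (Nat.add (Nat.add (Nat.add (Nat.add C x23618) x6122) x14870) x11954) x10010) x10334) x10550) x10514) x10490) x10498) (Nat.mul x10496 (nat_lit 3))) x30178)
    (Nat.sub (Nat.sub (Nat.add (Nat.add (Nat.add (Nat.add (Nat.add (Nat.add (Nat.add (Nat.add (Nat.add (Nat.add (Nat.add (Nat.add C x23620) x6124) x14872) x11956) x10012) x10336) x10552) x10516) x10492) x10496) x10500) (Nat.mul (e (nat_lit 10498)) ap)) x30180) (Nat.mul (e (nat_lit 10498)) an))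
    (Nat.add (Nat.add (Nat.add (Nat.add (Nat.add (Nat.add (Nat.add (Nat.add (Nat.add (Nat.add C x10500) x23622) x6126) x14874) x11958) x10014) x10338) x10554) x10518) x10498)
    (Nat.sub (Nat.sub (Nat.add (Nat.add (Nat.add (Nat.add (Nat.add (Nat.add (Nat.add (Nat.add (Nat.add (Nat.add C x23630) x6134) x14882) x11966) x10022) x10346) x10562) x10490) x10514) x10510) (Nat.mul x10508 (nat_lit 3))) x30190)
    (Nat.sub (Nat.sub (Nat.sub (Nat.add (Nat.add (Nat.add (Nat.add (Nat.add (Nat.add (Nat.add (Nat.add (Nat.add (Nat.add (Nat.add C x23632) x6136) x14884) x11968) x10024) x10348) x10564) x10492) x10516) x10508) (Nat.mul (e (nat_lit 10510)) ap)) (Nat.mul x10510 (nat_lit 3))) x30192) (Nat.mul (e (nat_lit 10510)) an))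
    (Nat.sub (Nat.sub (Nat.add (Nat.add (Nat.add (Nat.add (Nat.add (Nat.add (Nat.add (Nat.add (Nat.add (Nat.add C x23636) x6140) x14888) x11972) x10028) x10352) x10568) x10496) x10508) x10516) (Nat.mul x10514 (nat_lit 3))) x30196)
    (Nat.sub (Nat.sub (Nat.add (Nat.add (Nat.add (Nat.add (Nat.add (Nat.add (Nat.add (Nat.add (Nat.add (Nat.add (Nat.add (Nat.add C x23638) x6142) x14890) x11974) x10030) x10354) x10570) x10498) x10510) x10522) x10514) x10518) x10516) x30198)
    (Nat.sub (Nat.add (Nat.add (Nat.add (Nat.add (Nat.add (Nat.add (Nat.add (Nat.add (Nat.add (Nat.add C x23640) x6144) x14892) x11976) x10032) x10356) x10572) x10500) x10524) x10516) x10518)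
    (Nat.sub (Nat.sub (Nat.add (Nat.add (Nat.add (Nat.add (Nat.add (Nat.add (Nat.add (Nat.add (Nat.add C x23644) x6148) x14896) x11980) x10036) x10360) x10576) x10516) x10524) x10522) x30204)
    (Nat.add (Nat.add (Nat.add (Nat.add (Nat.add (Nat.add (Nat.add (Nat.add (Nat.add (Nat.add C x10524) x23646) x6150) x14898) x11982) x10038) x10362) x10578) x10518) x10522)
    (Nat.sub (Nat.add (Nat.add (Nat.add (Nat.add (Nat.add (Nat.add (Nat.add (Nat.add (Nat.add C x23660) x6164) x14912) x11996) x10052) x10376) x10700) x10484) x10544) x30220)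
    (Nat.sub (Nat.sub (Nat.add (Nat.add (Nat.add (Nat.add (Nat.add (Nat.add (Nat.add (Nat.add (Nat.add (Nat.add (Nat.add (Nat.add C x23666) x6170) x14918) x12002) x10058) x10382) x10706) x10490) x10562) x10538) x10550) x10546) x10544) x30226)
    (Nat.sub (Nat.add (Nat.add (Nat.add (Nat.add (Nat.add (Nat.add (Nat.add (Nat.add (Nat.add (Nat.add (Nat.add C x23668) x6172) x14920) x12004) x10060) x10384) x10708) x10492) x10564) x10552) x10544) x30228)
    (Nat.sub (Nat.sub (Nat.add (Nat.add (Nat.add (Nat.add (Nat.add (Nat.add (Nat.add (Nat.add (Nat.add (Nat.add (Nat.add C x23672) x6176) x14924) x12008) x10064) x10388) x10712) x10496) x10568) x10544) x10552) (Nat.mul x10550 (nat_lit 4))) x30232)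
    (Nat.sub (Nat.sub (Nat.add (Nat.add (Nat.add (Nat.add (Nat.add (Nat.add (Nat.add (Nat.add (Nat.add (Nat.add (Nat.add (Nat.add C x23674) x6178) x14926) x12010) x10066) x10390) x10714) x10498) x10570) x10546) x10550) x10554) x10552) x30234)
    (Nat.add (Nat.add (Nat.add (Nat.add (Nat.add (Nat.add (Nat.add (Nat.add (Nat.add (Nat.add C x23676) x6180) x14928) x12012) x10068) x10392) x10716) x10500) x10572) x10552)
    (Nat.sub (Nat.sub (Nat.add (Nat.add (Nat.add (Nat.add (Nat.add (Nat.add (Nat.add (Nat.add (Nat.add (Nat.add (Nat.add (Nat.add C x23684) x6188) x14936) x12020) x10076) x10400) x10724) x10508) x10616) x10544) x10568) x10564) x10562) x30244)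
    (Nat.sub (Nat.sub (Nat.add (Nat.add (Nat.add (Nat.add (Nat.add (Nat.add (Nat.add (Nat.add (Nat.add (Nat.add (Nat.add (Nat.add C x23686) x6190) x14938) x12022) x10078) x10402) x10726) x10510) x10618) x10546) x10570) x10562) x10564) x30246)
    (Nat.sub (Nat.sub (Nat.add (Nat.add (Nat.add (Nat.add (Nat.add (Nat.add (Nat.add (Nat.add (Nat.add (Nat.add (Nat.add (Nat.add (Nat.add C x23690) x6194) x14942) x12026) x10082) x10406) x10730) x10514) x10622) x10550) x10586) x10562) x10570) (Nat.mul x10568 (nat_lit 2))) x30250)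
    (Nat.sub (Nat.add (Nat.add (Nat.add (Nat.add (Nat.add (Nat.add (Nat.add (Nat.add (Nat.add (Nat.add (Nat.add (Nat.add (Nat.add (Nat.add (Nat.add C x23692) x6196) x14944) x12028) x10084) x10408) x10732) x10516) x10624) x10552) x10588) x10564) x10576) x10568) x10572) x30252)
    (Nat.add (Nat.add (Nat.add (Nat.add (Nat.add (Nat.add (Nat.add (Nat.add (Nat.add (Nat.add (Nat.add (Nat.add (Nat.add C x23694) x6198) x14946) x12030) x10086) x10410) x10734) x10518) x10626) x10554) x10590) x10578) x10570)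
    (Nat.sub (Nat.sub (Nat.add (Nat.add (Nat.add (Nat.add (Nat.add (Nat.add (Nat.add (Nat.add (Nat.add (Nat.add (Nat.add (Nat.add C x23698) x6202) x14950) x12034) x10090) x10414) x10738) x10522) x10630) x10594) x10570) x10578) x10576) x30258)
    (Nat.add (Nat.add (Nat.add (Nat.add (Nat.add (Nat.add (Nat.add (Nat.add (Nat.add (Nat.add (Nat.add (Nat.add (Nat.add C x10578) x23700) x6204) x14952) x12036) x10092) x10416) x10740) x10524) x10632) x10596) x10572) x10576)
    (Nat.sub (Nat.sub (Nat.add (Nat.add (Nat.add (Nat.add (Nat.add (Nat.add (Nat.add (Nat.add (Nat.add (Nat.add C x23708) x6212) x14960) x12044) x10100) x10424) x10748) x10640) x10568) x10588) (Nat.mul x10586 (nat_lit 2))) x30268)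
    (Nat.sub (Nat.sub (Nat.add (Nat.add (Nat.add (Nat.add (Nat.add (Nat.add (Nat.add (Nat.add (Nat.add (Nat.add (Nat.add (Nat.add C x23710) x6214) x14962) x12046) x10102) x10426) x10750) x10642) x10570) x10594) x10586) x10590) x10588) x30270)
    (Nat.sub (Nat.add (Nat.add (Nat.add (Nat.add (Nat.add (Nat.add (Nat.add (Nat.add (Nat.add (Nat.add (Nat.add C x23712) x6216) x14964) x12048) x10104) x10428) x10752) x10644) x10572) x10596) x10588) (Nat.mul x10590 (nat_lit 2)))
    (Nat.sub (Nat.add (Nat.add (Nat.add (Nat.add (Nat.add (Nat.add (Nat.add (Nat.add (Nat.add (Nat.add (Nat.add C x23716) x6220) x14968) x12052) x10108) x10432) x10756) x10648) x10576) x10588) x10596) x30276)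
    (Nat.add (Nat.add (Nat.add (Nat.add (Nat.add (Nat.add (Nat.add (Nat.add (Nat.add (Nat.add (Nat.add (Nat.add (Nat.add C x10596) x23718) x6222) x14970) x12054) x10110) x10434) x10758) x10650) x10578) x10590) x10602) x10594)
    (Nat.add (Nat.add (Nat.add (Nat.add (Nat.add (Nat.add (Nat.add (Nat.add (Nat.add (Nat.add C (Nat.mul x10602 (nat_lit 2))) x23724) x6228) x14976) x12060) x10116) x10440) x10764) x10656) x10596)
    (Nat.sub (Nat.sub (Nat.add (Nat.add (Nat.add (Nat.add (Nat.add (Nat.add (Nat.add (Nat.add (Nat.add C x23738) x6242) x14990) x12074) x10130) x10778) x10562) x10622) x10618) x10616) x30298)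
    (Nat.sub (Nat.sub (Nat.add (Nat.add (Nat.add (Nat.add (Nat.add (Nat.add (Nat.add (Nat.add (Nat.add C x23740) x6244) x14992) x12076) x10132) x10780) x10564) x10624) x10616) x10618) x30300)
    (Nat.sub (Nat.sub (Nat.add (Nat.add (Nat.add (Nat.add (Nat.add (Nat.add (Nat.add (Nat.add (Nat.add (Nat.add C x23744) x6248) x14996) x12080) x10136) x10784) x10568) x10640) x10616) x10624) (Nat.mul x10622 (nat_lit 3))) x30304)
    (Nat.sub (Nat.sub (Nat.add (Nat.add (Nat.add (Nat.add (Nat.add (Nat.add (Nat.add (Nat.add (Nat.add (Nat.add (Nat.add (Nat.add C x23746) x6250) x14998) x12082) x10138) x10786) x10570) x10642) x10618) x10630) x10622) x10626) x10624) x30306)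
    (Nat.sub (Nat.add (Nat.add (Nat.add (Nat.add (Nat.add (Nat.add (Nat.add (Nat.add (Nat.add (Nat.add C x23748) x6252) x15000) x12084) x10140) x10788) x10572) x10644) x10632) x10624) x10626)
    (Nat.sub (Nat.sub (Nat.add (Nat.add (Nat.add (Nat.add (Nat.add (Nat.add (Nat.add (Nat.add (Nat.add (Nat.add C x23752) x6256) x15004) x12088) x10144) x10792) x10576) x10648) x10624) x10632) (Nat.mul x10630 (nat_lit 3))) x30312)
    (Nat.sub (Nat.add (Nat.add (Nat.add (Nat.add (Nat.add (Nat.add (Nat.add (Nat.add (Nat.add (Nat.add C x23754) x6258) x15006) x12090) x10146) x10794) x10578) x10650) x10626) x10630) x10632)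
    (Nat.sub (Nat.sub (Nat.add (Nat.add (Nat.add (Nat.add (Nat.add (Nat.add (Nat.add (Nat.add (Nat.add C x23762) x6266) x15014) x12098) x10154) x10802) x10586) x10622) x10642) x10640) x30322)
    (Nat.sub (Nat.add (Nat.add (Nat.add (Nat.add (Nat.add (Nat.add (Nat.add (Nat.add (Nat.add (Nat.add (Nat.add C x23764) x6268) x15016) x12100) x10156) x10804) x10588) x10624) x10648) x10640) x10644) x30324)
    (Nat.sub (Nat.add (Nat.add (Nat.add (Nat.add (Nat.add (Nat.add (Nat.add (Nat.add (Nat.add (Nat.add C x23766) x6270) x15018) x12102) x10158) x10806) x10590) x10626) x10650) x10642) x10644)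
    (Nat.sub (Nat.add (Nat.add (Nat.add (Nat.add (Nat.add (Nat.add (Nat.add (Nat.add (Nat.add (Nat.add (Nat.add C x23770) x6274) x15022) x12106) x10162) x10810) x10594) x10630) x10666) x10642) x10650) x30330)
    (Nat.add (Nat.add (Nat.add (Nat.add (Nat.add (Nat.add (Nat.add (Nat.add (Nat.add (Nat.add (Nat.add (Nat.add (Nat.add C x10650) x23772) x6276) x15024) x12108) x10164) x10812) x10596) x10632) x10668) x10644) x10656) x10648)
    (Nat.add (Nat.add (Nat.add (Nat.add (Nat.add (Nat.add (Nat.add (Nat.add (Nat.add (Nat.add C x10656) x23778) x6282) x15030) x12114) x10170) x10818) x10602) x10674) x10650)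
    (Nat.sub (Nat.add (Nat.add (Nat.add (Nat.add (Nat.add (Nat.add (Nat.add (Nat.add (Nat.add C x10666) x23788) x6292) x15040) x12124) x10180) x10828) x10648) x10668) x30348)
    (Nat.add (Nat.add (Nat.add (Nat.add (Nat.add (Nat.add (Nat.add (Nat.add (Nat.add (Nat.add C x10668) x23790) x6294) x15042) x12126) x10182) x10830) x10650) x10674) x10666)
    (Nat.add (Nat.add (Nat.add (Nat.add (Nat.add (Nat.add (Nat.add (Nat.add (Nat.add C (Nat.mul x10674 (nat_lit 3))) x23796) x6300) x15048) x12132) x10188) x10836) x10656) x10668)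
    (Nat.sub (Nat.add (Nat.add (Nat.add (Nat.add (Nat.add (Nat.add (Nat.add C x10700) x23822) x6326) x15074) x12158) x10538) x10706) x30382)
    (Nat.sub (Nat.add (Nat.add (Nat.add (Nat.add (Nat.add (Nat.add (Nat.add (Nat.add (Nat.add C x23828) x6332) x15080) x12164) x10544) x10724) x10700) x10712) x10708) x30388)
    (Nat.sub (Nat.add (Nat.add (Nat.add (Nat.add (Nat.add (Nat.add (Nat.add (Nat.add (Nat.add C x10708) x23830) x6334) x15082) x12166) x10546) x10726) x10714) x10706) x30390)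
    (Nat.sub (Nat.sub (Nat.add (Nat.add (Nat.add (Nat.add (Nat.add (Nat.add (Nat.add (Nat.add C x23834) x6338) x15086) x12170) x10550) x10730) x10706) x10714) (Nat.mul x10712 (nat_lit 3))) x30394)
    (Nat.sub (Nat.add (Nat.add (Nat.add (Nat.add (Nat.add (Nat.add (Nat.add (Nat.add (Nat.add C x23836) x6340) x15088) x12172) x10552) x10732) x10708) x10712) x10716) x30396)
    (Nat.add (Nat.add (Nat.add (Nat.add (Nat.add (Nat.add (Nat.add (Nat.add C x10716) x23838) x6342) x15090) x12174) x10554) x10734) x10714)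
    (Nat.sub (Nat.sub (Nat.add (Nat.add (Nat.add (Nat.add (Nat.add (Nat.add (Nat.add (Nat.add (Nat.add C x23846) x6350) x15098) x12182) x10562) x10778) x10706) x10730) x10726) x10724) x30406)
    (Nat.sub (Nat.sub (Nat.add (Nat.add (Nat.add (Nat.add (Nat.add (Nat.add (Nat.add (Nat.add (Nat.add C x23848) x6352) x15100) x12184) x10564) x10780) x10708) x10732) x10724) x10726) x30408)
    (Nat.sub (Nat.sub (Nat.add (Nat.add (Nat.add (Nat.add (Nat.add (Nat.add (Nat.add (Nat.add (Nat.add (Nat.add C x23852) x6356) x15104) x12188) x10568) x10784) x10712) x10748) x10724) x10732) (Nat.mul x10730 (nat_lit 2))) x30412)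
    (Nat.sub (Nat.add (Nat.add (Nat.add (Nat.add (Nat.add (Nat.add (Nat.add (Nat.add (Nat.add (Nat.add (Nat.add (Nat.add C x23854) x6358) x15106) x12190) x10570) x10786) x10714) x10750) x10726) x10738) x10730) x10734) x30414)
    (Nat.add (Nat.add (Nat.add (Nat.add (Nat.add (Nat.add (Nat.add (Nat.add (Nat.add (Nat.add C x23856) x6360) x15108) x12192) x10572) x10788) x10716) x10752) x10740) x10732)
    (Nat.sub (Nat.sub (Nat.add (Nat.add (Nat.add (Nat.add (Nat.add (Nat.add (Nat.add (Nat.add (Nat.add C x23860) x6364) x15112) x12196) x10576) x10792) x10756) x10732) x10740) x10738) x30420)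
    (Nat.add (Nat.add (Nat.add (Nat.add (Nat.add (Nat.add (Nat.add (Nat.add (Nat.add (Nat.add C x10740) x23862) x6366) x15114) x12198) x10578) x10794) x10758) x10734) x10738)
    (Nat.sub (Nat.sub (Nat.add (Nat.add (Nat.add (Nat.add (Nat.add (Nat.add (Nat.add (Nat.add C x23870) x6374) x15122) x12206) x10586) x10802) x10730) x10750) (Nat.mul x10748 (nat_lit 3))) x30430)
    (Nat.sub (Nat.sub (Nat.add (Nat.add (Nat.add (Nat.add (Nat.add (Nat.add (Nat.add (Nat.add (Nat.add (Nat.add C x23872) x6376) x15124) x12208) x10588) x10804) x10732) x10756) x10748) x10752) (Nat.mul x10750 (nat_lit 2))) x30432)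
    (Nat.sub (Nat.add (Nat.add (Nat.add (Nat.add (Nat.add (Nat.add (Nat.add (Nat.add (Nat.add C x23874) x6378) x15126) x12210) x10590) x10806) x10734) x10758) x10750) (Nat.mul x10752 (nat_lit 3)))
    (Nat.sub (Nat.sub (Nat.add (Nat.add (Nat.add (Nat.add (Nat.add (Nat.add (Nat.add (Nat.add (Nat.add C x23878) x6382) x15130) x12214) x10594) x10810) x10738) x10750) x10758) x10756) x30438)
    (Nat.add (Nat.add (Nat.add (Nat.add (Nat.add (Nat.add (Nat.add (Nat.add (Nat.add (Nat.add C x23880) x6384) x15132) x12216) x10596) x10812) x10740) x10752) x10764) x10756)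
    (Nat.add (Nat.add (Nat.add (Nat.add (Nat.add (Nat.add (Nat.add (Nat.add C x10764) x23886) x6390) x15138) x12222) x10602) x10818) x10758)
    (Nat.sub (Nat.add (Nat.add (Nat.add (Nat.add (Nat.add (Nat.add (Nat.add (Nat.add (Nat.add C x10778) x23900) x6404) x15152) x12236) x10616) x10724) x10784) x10780) x30460)
    (Nat.sub (Nat.add (Nat.add (Nat.add (Nat.add (Nat.add (Nat.add (Nat.add (Nat.add (Nat.add C x10780) x23902) x6406) x15154) x12238) x10618) x10726) x10786) x10778) x30462)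
    (Nat.sub (Nat.sub (Nat.add (Nat.add (Nat.add (Nat.add (Nat.add (Nat.add (Nat.add (Nat.add (Nat.add C x23906) x6410) x15158) x12242) x10622) x10730) x10802) x10778) x10786) x10784) x30466)
    (Nat.sub (Nat.add (Nat.add (Nat.add (Nat.add (Nat.add (Nat.add (Nat.add (Nat.add (Nat.add (Nat.add (Nat.add (Nat.add C x10786) x23908) x6412) x15160) x12244) x10624) x10732) x10804) x10780) x10792) x10784) x10788) x30468)
    (Nat.add (Nat.add (Nat.add (Nat.add (Nat.add (Nat.add (Nat.add (Nat.add (Nat.add (Nat.add C x10788) x23910) x6414) x15162) x12246) x10626) x10734) x10806) x10794) x10786)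
    (Nat.sub (Nat.sub (Nat.add (Nat.add (Nat.add (Nat.add (Nat.add (Nat.add (Nat.add (Nat.add (Nat.add C x23914) x6418) x15166) x12250) x10630) x10738) x10810) x10786) x10794) x10792) x30474)
    (Nat.add (Nat.add (Nat.add (Nat.add (Nat.add (Nat.add (Nat.add (Nat.add (Nat.add (Nat.add C x10794) x23916) x6420) x15168) x12252) x10632) x10740) x10812) x10788) x10792)
    (Nat.sub (Nat.add (Nat.add (Nat.add (Nat.add (Nat.add (Nat.add (Nat.add (Nat.add (Nat.add C x23924) x6428) x15176) x12260) x10640) x10748) x10856) x10784) x10804) x30484)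
    (Nat.sub (Nat.add (Nat.add (Nat.add (Nat.add (Nat.add (Nat.add (Nat.add (Nat.add (Nat.add (Nat.add (Nat.add (Nat.add C x10804) x23926) x6430) x15178) x12262) x10642) x10750) x10858) x10786) x10810) x10802) x10806) x30486)
    (Nat.add (Nat.add (Nat.add (Nat.add (Nat.add (Nat.add (Nat.add (Nat.add (Nat.add (Nat.add C x23928) x6432) x15180) x12264) x10644) x10752) x10860) x10788) x10812) x10804)
    (Nat.sub (Nat.add (Nat.add (Nat.add (Nat.add (Nat.add (Nat.add (Nat.add (Nat.add (Nat.add (Nat.add (Nat.add (Nat.add C x10810) x23932) x6436) x15184) x12268) x10648) x10756) x10864) x10792) x10828) x10804) x10812) x30492)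
    (Nat.add (Nat.add (Nat.add (Nat.add (Nat.add (Nat.add (Nat.add (Nat.add (Nat.add (Nat.add (Nat.add (Nat.add (Nat.add C (Nat.mul x10812 (nat_lit 2))) x23934) x6438) x15186) x12270) x10650) x10758) x10866) x10794) x10830) x10806) x10818) x10810)
    (Nat.add (Nat.add (Nat.add (Nat.add (Nat.add (Nat.add (Nat.add (Nat.add (Nat.add (Nat.add C (Nat.mul x10818 (nat_lit 2))) x23940) x6444) x15192) x12276) x10656) x10764) x10872) x10836) x10812)
    (Nat.sub (Nat.add (Nat.add (Nat.add (Nat.add (Nat.add (Nat.add (Nat.add (Nat.add (Nat.add C x10828) x23950) x6454) x15202) x12286) x10666) x10882) x10810) x10830) x30510)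
    (Nat.add (Nat.add (Nat.add (Nat.add (Nat.add (Nat.add (Nat.add (Nat.add (Nat.add (Nat.add C x10830) x23952) x6456) x15204) x12288) x10668) x10884) x10812) x10836) x10828)
    (Nat.add (Nat.add (Nat.add (Nat.add (Nat.add (Nat.add (Nat.add (Nat.add (Nat.add C (Nat.mul x10836 (nat_lit 3))) x23958) x6462) x15210) x12294) x10674) x10890) x10818) x10830)
    (Nat.sub (Nat.add (Nat.add (Nat.add (Nat.add (Nat.add (Nat.add (Nat.add C x10856) x23978) x6482) x15230) x12314) x10802) x10858) x30538)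
    (Nat.sub (Nat.add (Nat.add (Nat.add (Nat.add (Nat.add (Nat.add (Nat.add (Nat.add (Nat.add C (Nat.mul x10858 (nat_lit 2))) x23980) x6484) x15232) x12316) x10804) x10864) x10856) x10860) x30540)
    (Nat.add (Nat.add (Nat.add (Nat.add (Nat.add (Nat.add (Nat.add (Nat.add C x10860) x23982) x6486) x15234) x12318) x10806) x10866) x10858)
    (Nat.sub (Nat.add (Nat.add (Nat.add (Nat.add (Nat.add (Nat.add (Nat.add (Nat.add (Nat.add C x10864) x23986) x6490) x15238) x12322) x10810) x10882) x10858) x10866) x30546)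
    (Nat.add (Nat.add (Nat.add (Nat.add (Nat.add (Nat.add (Nat.add (Nat.add (Nat.add (Nat.add C (Nat.mul x10866 (nat_lit 2))) x23988) x6492) x15240) x12324) x10812) x10884) x10860) x10872) x10864)
    (Nat.add (Nat.add (Nat.add (Nat.add (Nat.add (Nat.add (Nat.add (Nat.add C x10872) x23994) x6498) x15246) x12330) x10818) x10890) x10866)
    (Nat.sub (Nat.add (Nat.add (Nat.add (Nat.add (Nat.add (Nat.add (Nat.add (Nat.add C (Nat.mul x10882 (nat_lit 3))) x24004) x6508) x15256) x12340) x10828) x10864) x10884) x30564)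
    (Nat.add (Nat.add (Nat.add (Nat.add (Nat.add (Nat.add (Nat.add (Nat.add (Nat.add C (Nat.mul x10884 (nat_lit 3))) x24006) x6510) x15258) x12342) x10830) x10866) x10890) x10882)
    (Nat.add (Nat.add (Nat.add (Nat.add (Nat.add (Nat.add (Nat.add (Nat.add (Nat.add C (Nat.mul x10890 (nat_lit 4))) x24012) x6516) x15264) x12348) x10836) x10872) x10908) x10884)
    (Nat.add (Nat.add (Nat.add (Nat.add (Nat.add (Nat.add C (Nat.mul x10908 (nat_lit 5))) x24030) x6534) x15282) x12366) x10890)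
    (Nat.sub (Nat.add (Nat.add (Nat.add (Nat.add (Nat.add (Nat.add C (Nat.mul x10988 (nat_lit 2))) x24110) x15362) x9530) x11042) x11006) x30670)
    (Nat.sub (Nat.add (Nat.add (Nat.add (Nat.add (Nat.add (Nat.add C x24128) x15380) x9548) x11060) x10988) x11012) x30688)
    (Nat.sub (Nat.add (Nat.add (Nat.add (Nat.add (Nat.add (Nat.add C x24134) x15386) x9554) x11066) x11006) x11014) x30694)
    (Nat.sub (Nat.add (Nat.add (Nat.add (Nat.add (Nat.add (Nat.add C (Nat.mul x11014 (nat_lit 2))) x24136) x15388) x9556) x11068) x11012) x30696)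
    (Nat.sub (Nat.add (Nat.add (Nat.add (Nat.add (Nat.add (Nat.add C x24164) x15416) x9584) x11204) x10988) x11060) x30724)
    (Nat.sub (Nat.add (Nat.add (Nat.add (Nat.add (Nat.add (Nat.add (Nat.add (Nat.add (Nat.add C x24182) x15434) x9602) x11222) x11006) x11114) x11042) x11078) x11066) x30742)
    (Nat.sub (Nat.sub (Nat.add (Nat.add (Nat.add (Nat.add (Nat.add (Nat.add (Nat.add (Nat.add (Nat.add C x24188) x15440) x9608) x11228) x11012) x11120) x11084) x11060) x11068) x11066) x30748)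
    (Nat.sub (Nat.add (Nat.add (Nat.add (Nat.add (Nat.add (Nat.add (Nat.add (Nat.add (Nat.add C x11068) x24190) x15442) x9610) x11230) x11014) x11122) x11086) x11066) x30750)
    (Nat.sub (Nat.sub (Nat.add (Nat.add (Nat.add (Nat.add (Nat.add (Nat.add (Nat.add C x24200) x15452) x9620) x11240) x11132) x11060) x11084) (Nat.mul x11078 (nat_lit 2))) x30760)
    (Nat.sub (Nat.sub (Nat.add (Nat.add (Nat.add (Nat.add (Nat.add (Nat.add (Nat.add (Nat.add (Nat.add C x24206) x15458) x9626) x11246) x11138) x11066) x11078) x11090) x11086) x11084) x30766)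
    (Nat.sub (Nat.add (Nat.add (Nat.add (Nat.add (Nat.add (Nat.add (Nat.add (Nat.add C x24208) x15460) x9628) x11248) x11140) x11068) x11092) x11084) x30768)
    (Nat.sub (Nat.sub (Nat.add (Nat.add (Nat.add (Nat.add (Nat.add (Nat.add (Nat.add C x24212) x15464) x9632) x11252) x11144) x11084) x11092) (Nat.mul x11090 (nat_lit 2))) x30772)
    (Nat.sub (Nat.add (Nat.add (Nat.add (Nat.add (Nat.add (Nat.add (Nat.add (Nat.add (Nat.add C x11092) x24214) x15466) x9634) x11254) x11146) x11086) x11090) x11094) x30774)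
    (Nat.add (Nat.add (Nat.add (Nat.add (Nat.add (Nat.add (Nat.add C (Nat.mul x11094 (nat_lit 2))) x24216) x15468) x9636) x11256) x11148) x11092)
    (Nat.sub (Nat.sub (Nat.add (Nat.add (Nat.add (Nat.add (Nat.add (Nat.add (Nat.add C x24236) x15488) x9656) x11276) x11060) x11132) x11120) (Nat.mul x11114 (nat_lit 2))) x30796)
    (Nat.sub (Nat.sub (Nat.add (Nat.add (Nat.add (Nat.add (Nat.add (Nat.add (Nat.add (Nat.add C x24242) x15494) x9662) x11282) x11066) x11138) x11114) x11122) (Nat.mul x11120 (nat_lit 4))) x30802)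
    (Nat.sub (Nat.sub (Nat.add (Nat.add (Nat.add (Nat.add (Nat.add (Nat.add (Nat.add C x24244) x15496) x9664) x11284) x11068) x11140) x11120) (Nat.mul x11122 (nat_lit 2))) x30804)
    (Nat.sub (Nat.sub (Nat.add (Nat.add (Nat.add (Nat.add (Nat.add (Nat.add (Nat.add C x24254) x15506) x9674) x11294) x11078) x11114) x11138) (Nat.mul x11132 (nat_lit 2))) x30814)
    (Nat.sub (Nat.sub (Nat.add (Nat.add (Nat.add (Nat.add (Nat.add (Nat.add (Nat.add (Nat.add (Nat.add (Nat.add C x24260) x15512) x9680) x11300) x11084) x11120) x11156) x11132) x11144) x11140) (Nat.mul x11138 (nat_lit 2))) x30820)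
    (Nat.sub (Nat.sub (Nat.add (Nat.add (Nat.add (Nat.add (Nat.add (Nat.add (Nat.add (Nat.add (Nat.add C x24262) x15514) x9682) x11302) x11086) x11122) x11158) x11146) x11138) x11140) x30822)
    (Nat.sub (Nat.sub (Nat.add (Nat.add (Nat.add (Nat.add (Nat.add (Nat.add (Nat.add (Nat.add C x24266) x15518) x9686) x11306) x11090) x11162) x11138) x11146) (Nat.mul x11144 (nat_lit 4))) x30826)
    (Nat.sub (Nat.sub (Nat.add (Nat.add (Nat.add (Nat.add (Nat.add (Nat.add (Nat.add (Nat.add (Nat.add C x24268) x15520) x9688) x11308) x11092) x11164) x11140) x11144) x11148) x11146) x30828)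
    (Nat.add (Nat.add (Nat.add (Nat.add (Nat.add (Nat.add (Nat.add C x24270) x15522) x9690) x11310) x11094) x11166) x11146)
    (Nat.sub (Nat.sub (Nat.add (Nat.add (Nat.add (Nat.add (Nat.add (Nat.add (Nat.add C x24278) x15530) x9698) x11318) x11138) x11162) x11158) (Nat.mul x11156 (nat_lit 2))) x30838)
    (Nat.sub (Nat.sub (Nat.add (Nat.add (Nat.add (Nat.add (Nat.add (Nat.add (Nat.add C x24280) x15532) x9700) x11320) x11140) x11164) x11156) (Nat.mul x11158 (nat_lit 2))) x30840)
    (Nat.sub (Nat.sub (Nat.add (Nat.add (Nat.add (Nat.add (Nat.add (Nat.add (Nat.add C x24284) x15536) x9704) x11324) x11144) x11156) x11164) (Nat.mul x11162 (nat_lit 2))) x30844)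
    (Nat.sub (Nat.add (Nat.add (Nat.add (Nat.add (Nat.add (Nat.add (Nat.add (Nat.add (Nat.add C x24286) x15538) x9706) x11326) x11146) x11158) x11170) x11162) x11166) x30846)
    (Nat.add (Nat.add (Nat.add (Nat.add (Nat.add (Nat.add (Nat.add C x24288) x15540) x9708) x11328) x11148) x11172) x11164)
    (Nat.sub (Nat.add (Nat.add (Nat.add (Nat.add (Nat.add (Nat.add C x24292) x15544) x9712) x11332) x11164) x11172) x30852)
    (Nat.add (Nat.add (Nat.add (Nat.add (Nat.add (Nat.add (Nat.add C (Nat.mul x11172 (nat_lit 2))) x24294) x15546) x9714) x11334) x11166) x11170)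
    (Nat.sub (Nat.add (Nat.add (Nat.add (Nat.add (Nat.add (Nat.add C x24326) x15578) x9746) x11690) x11042) x11222) x30886)
    (Nat.sub (Nat.sub (Nat.add (Nat.add (Nat.add (Nat.add (Nat.add (Nat.add (Nat.add (Nat.add (Nat.add C x24344) x15596) x9764) x11708) x11060) x11276) x11204) x11240) x11228) x11222) x30904)
    (Nat.sub (Nat.sub (Nat.add (Nat.add (Nat.add (Nat.add (Nat.add (Nat.add (Nat.add (Nat.add (Nat.add C x24350) x15602) x9770) x11714) x11066) x11282) x11246) x11222) x11230) (Nat.mul x11228 (nat_lit 2))) x30910)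
    (Nat.sub (Nat.add (Nat.add (Nat.add (Nat.add (Nat.add (Nat.add (Nat.add (Nat.add C x24352) x15604) x9772) x11716) x11068) x11284) x11248) x11228) x30912)
    (Nat.sub (Nat.sub (Nat.add (Nat.add (Nat.add (Nat.add (Nat.add (Nat.add (Nat.add (Nat.add C x24362) x15614) x9782) x11726) x11078) x11294) x11222) x11246) (Nat.mul x11240 (nat_lit 4))) x30922)
    (Nat.sub (Nat.sub (Nat.add (Nat.add (Nat.add (Nat.add (Nat.add (Nat.add (Nat.add (Nat.add (Nat.add (Nat.add C x24368) x15620) x9788) x11732) x11084) x11300) x11228) x11240) x11252) x11248) (Nat.mul x11246 (nat_lit 3))) x30928)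
    (Nat.sub (Nat.sub (Nat.add (Nat.add (Nat.add (Nat.add (Nat.add (Nat.add (Nat.add (Nat.add (Nat.add C x24370) x15622) x9790) x11734) x11086) x11302) x11230) x11254) x11246) (Nat.mul x11248 (nat_lit 2))) x30930)
    (Nat.sub (Nat.sub (Nat.add (Nat.add (Nat.add (Nat.add (Nat.add (Nat.add (Nat.add (Nat.add C x24374) x15626) x9794) x11738) x11090) x11306) x11246) x11254) (Nat.mul x11252 (nat_lit 4))) x30934)
    (Nat.sub (Nat.sub (Nat.add (Nat.add (Nat.add (Nat.add (Nat.add (Nat.add (Nat.add (Nat.add (Nat.add C x24376) x15628) x9796) x11740) x11092) x11308) x11248) x11252) x11256) x11254) x30936)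
    (Nat.add (Nat.add (Nat.add (Nat.add (Nat.add (Nat.add (Nat.add C x24378) x15630) x9798) x11742) x11094) x11310) x11254)
    (Nat.sub (Nat.sub (Nat.add (Nat.add (Nat.add (Nat.add (Nat.add (Nat.add (Nat.add (Nat.add (Nat.add C x24398) x15650) x9818) x11762) x11114) x11438) x11222) x11294) x11282) x11276) x30958)
    (Nat.sub (Nat.sub (Nat.add (Nat.add (Nat.add (Nat.add (Nat.add (Nat.add (Nat.add (Nat.add (Nat.add (Nat.add C x24404) x15656) x9824) x11768) x11120) x11444) x11228) x11300) x11276) x11284) (Nat.mul x11282 (nat_lit 3))) x30964)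
    (Nat.sub (Nat.sub (Nat.add (Nat.add (Nat.add (Nat.add (Nat.add (Nat.add (Nat.add (Nat.add (Nat.add C x24406) x15658) x9826) x11770) x11122) x11446) x11230) x11302) x11282) x11284) x30966)
    (Nat.sub (Nat.sub (Nat.add (Nat.add (Nat.add (Nat.add (Nat.add (Nat.add (Nat.add (Nat.add (Nat.add (Nat.add C x24416) x15668) x9836) x11780) x11132) x11456) x11240) x11348) x11276) x11300) (Nat.mul x11294 (nat_lit 2))) x30976)
    (Nat.sub (Nat.sub (Nat.add (Nat.add (Nat.add (Nat.add (Nat.add (Nat.add (Nat.add (Nat.add (Nat.add (Nat.add (Nat.add (Nat.add (Nat.add C x24422) x15674) x9842) x11786) x11138) x11462) x11246) x11354) x11282) x11318) x11294) x11306) x11302) (Nat.mul x11300 (nat_lit 2))) x30982)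
    (Nat.sub (Nat.sub (Nat.add (Nat.add (Nat.add (Nat.add (Nat.add (Nat.add (Nat.add (Nat.add (Nat.add (Nat.add (Nat.add (Nat.add C x24424) x15676) x9844) x11788) x11140) x11464) x11248) x11356) x11284) x11320) x11308) x11300) x11302) x30984)
    (Nat.sub (Nat.sub (Nat.add (Nat.add (Nat.add (Nat.add (Nat.add (Nat.add (Nat.add (Nat.add (Nat.add (Nat.add (Nat.add C x24428) x15680) x9848) x11792) x11144) x11468) x11252) x11360) x11324) x11300) x11308) (Nat.mul x11306 (nat_lit 4))) x30988)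
    (Nat.sub (Nat.sub (Nat.add (Nat.add (Nat.add (Nat.add (Nat.add (Nat.add (Nat.add (Nat.add (Nat.add (Nat.add (Nat.add (Nat.add C x24430) x15682) x9850) x11794) x11146) x11470) x11254) x11362) x11326) x11302) x11306) x11310) x11308) x30990)
    (Nat.add (Nat.add (Nat.add (Nat.add (Nat.add (Nat.add (Nat.add (Nat.add (Nat.add (Nat.add C x24432) x15684) x9852) x11796) x11148) x11472) x11256) x11364) x11328) x11308)
    (Nat.sub (Nat.sub (Nat.add (Nat.add (Nat.add (Nat.add (Nat.add (Nat.add (Nat.add (Nat.add (Nat.add (Nat.add C x24440) x15692) x9860) x11804) x11156) x11480) x11372) x11300) x11324) x11320) (Nat.mul x11318 (nat_lit 3))) x31000)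
    (Nat.sub (Nat.sub (Nat.add (Nat.add (Nat.add (Nat.add (Nat.add (Nat.add (Nat.add (Nat.add (Nat.add (Nat.add C x24442) x15694) x9862) x11806) x11158) x11482) x11374) x11302) x11326) x11318) (Nat.mul x11320 (nat_lit 3))) x31002)
    (Nat.sub (Nat.sub (Nat.add (Nat.add (Nat.add (Nat.add (Nat.add (Nat.add (Nat.add (Nat.add (Nat.add (Nat.add C x24446) x15698) x9866) x11810) x11162) x11486) x11378) x11306) x11318) x11326) (Nat.mul x11324 (nat_lit 3))) x31006)
    (Nat.sub (Nat.sub (Nat.add (Nat.add (Nat.add (Nat.add (Nat.add (Nat.add (Nat.add (Nat.add (Nat.add (Nat.add (Nat.add (Nat.add C x24448) x15700) x9868) x11812) x11164) x11488) x11380) x11308) x11320) x11332) x11324) x11328) x11326) x31008)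
    (Nat.sub (Nat.add (Nat.add (Nat.add (Nat.add (Nat.add (Nat.add (Nat.add (Nat.add (Nat.add (Nat.add C x24450) x15702) x9870) x11814) x11166) x11490) x11382) x11310) x11334) x11326) x11328)
    (Nat.sub (Nat.sub (Nat.add (Nat.add (Nat.add (Nat.add (Nat.add (Nat.add (Nat.add (Nat.add (Nat.add C x24454) x15706) x9874) x11818) x11170) x11494) x11386) x11326) x11334) x11332) x31014)
    (Nat.add (Nat.add (Nat.add (Nat.add (Nat.add (Nat.add (Nat.add (Nat.add (Nat.add (Nat.add C x11334) x24456) x15708) x9876) x11820) x11172) x11496) x11388) x11328) x11332)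
    (Nat.sub (Nat.sub (Nat.add (Nat.add (Nat.add (Nat.add (Nat.add (Nat.add (Nat.add C x24470) x15722) x9890) x11834) x11510) x11294) x11354) (Nat.mul x11348 (nat_lit 2))) x31030)
    (Nat.sub (Nat.sub (Nat.add (Nat.add (Nat.add (Nat.add (Nat.add (Nat.add (Nat.add (Nat.add (Nat.add (Nat.add C x24476) x15728) x9896) x11840) x11516) x11300) x11372) x11348) x11360) x11356) (Nat.mul x11354 (nat_lit 3))) x31036)
    (Nat.sub (Nat.sub (Nat.sub (Nat.add (Nat.add (Nat.add (Nat.add (Nat.add (Nat.add (Nat.add (Nat.add (Nat.add (Nat.add C x24478) x15730) x9898) x11842) x11518) x11302) x11374) x11362) x11354) (Nat.mul (e (nat_lit 11356)) ap)) (Nat.mul x11356 (nat_lit 2))) x31038) (Nat.mul (e (nat_lit 11356)) an))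
    (Nat.sub (Nat.sub (Nat.sub (Nat.add (Nat.add (Nat.add (Nat.add (Nat.add (Nat.add (Nat.add (Nat.add (Nat.add (Nat.add C x24482) x15734) x9902) x11846) x11522) x11306) x11378) x11354) x11362) (Nat.mul (e (nat_lit 11360)) ap)) (Nat.mul x11360 (nat_lit 6))) x31042) (Nat.mul (e (nat_lit 11360)) an))
    (Nat.sub (Nat.sub (Nat.add (Nat.add (Nat.add (Nat.add (Nat.add (Nat.add (Nat.add (Nat.add (Nat.add (Nat.add C x24484) x15736) x9904) x11848) x11524) x11308) x11380) x11356) x11360) x11364) (Nat.mul x11362 (nat_lit 3))) x31044)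
    (Nat.sub (Nat.add (Nat.add (Nat.add (Nat.add (Nat.add (Nat.add (Nat.add (Nat.add C x24486) x15738) x9906) x11850) x11526) x11310) x11382) x11362) (Nat.mul x11364 (nat_lit 2)))
    (Nat.sub (Nat.sub (Nat.add (Nat.add (Nat.add (Nat.add (Nat.add (Nat.add (Nat.add (Nat.add (Nat.add C x24494) x15746) x9914) x11858) x11534) x11318) x11354) x11378) x11374) (Nat.mul x11372 (nat_lit 2))) x31054)
    (Nat.sub (Nat.sub (Nat.sub (Nat.add (Nat.add (Nat.add (Nat.add (Nat.add (Nat.add (Nat.add (Nat.add (Nat.add (Nat.add C x24496) x15748) x9916) x11860) x11536) x11320) x11356) x11380) x11372) (Nat.mul (e (nat_lit 11374)) ap)) (Nat.mul x11374 (nat_lit 2))) x31056) (Nat.mul (e (nat_lit 11374)) an))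
    (Nat.sub (Nat.sub (Nat.add (Nat.add (Nat.add (Nat.add (Nat.add (Nat.add (Nat.add (Nat.add (Nat.add (Nat.add C x24500) x15752) x9920) x11864) x11540) x11324) x11360) x11396) x11372) x11380) (Nat.mul x11378 (nat_lit 3))) x31060)
    (Nat.sub (Nat.sub (Nat.add (Nat.add (Nat.add (Nat.add (Nat.add (Nat.add (Nat.add (Nat.add (Nat.add (Nat.add (Nat.add (Nat.add C x24502) x15754) x9922) x11866) x11542) x11326) x11362) x11398) x11374) x11386) x11378) x11382) x11380) x31062)
    (Nat.sub (Nat.add (Nat.add (Nat.add (Nat.add (Nat.add (Nat.add (Nat.add (Nat.add (Nat.add (Nat.add C x24504) x15756) x9924) x11868) x11544) x11328) x11364) x11400) x11388) x11380) x11382)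
    (Nat.sub (Nat.sub (Nat.add (Nat.add (Nat.add (Nat.add (Nat.add (Nat.add (Nat.add (Nat.add (Nat.add C x24508) x15760) x9928) x11872) x11548) x11332) x11404) x11380) x11388) (Nat.mul x11386 (nat_lit 2))) x31068)
    (Nat.add (Nat.add (Nat.add (Nat.add (Nat.add (Nat.add (Nat.add (Nat.add (Nat.add C x24510) x15762) x9930) x11874) x11550) x11334) x11406) x11382) x11386)
    (Nat.sub (Nat.sub (Nat.add (Nat.add (Nat.add (Nat.add (Nat.add (Nat.add (Nat.add C x24518) x15770) x9938) x11882) x11558) x11378) x11398) (Nat.mul x11396 (nat_lit 2))) x31078)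
    (Nat.sub (Nat.sub (Nat.add (Nat.add (Nat.add (Nat.add (Nat.add (Nat.add (Nat.add (Nat.add (Nat.add C x24520) x15772) x9940) x11884) x11560) x11380) x11404) x11396) x11400) x11398) x31080)
    (Nat.sub (Nat.add (Nat.add (Nat.add (Nat.add (Nat.add (Nat.add (Nat.add (Nat.add C x24522) x15774) x9942) x11886) x11562) x11382) x11406) x11398) (Nat.mul x11400 (nat_lit 2)))
    (Nat.sub (Nat.add (Nat.add (Nat.add (Nat.add (Nat.add (Nat.add (Nat.add (Nat.add C x24526) x15778) x9946) x11890) x11566) x11386) x11398) x11406) x31086)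
    (Nat.add (Nat.add (Nat.add (Nat.add (Nat.add (Nat.add (Nat.add (Nat.add (Nat.add (Nat.add C x11406) x24528) x15780) x9948) x11892) x11568) x11388) x11400) x11412) x11404)
    (Nat.add (Nat.add (Nat.add (Nat.add (Nat.add (Nat.add (Nat.add C (Nat.mul x11412 (nat_lit 2))) x24534) x15786) x9954) x11898) x11574) x11406)
    (Nat.sub (Nat.sub (Nat.add (Nat.add (Nat.add (Nat.add (Nat.add (Nat.add (Nat.add C x24560) x15812) x9980) x11924) x11276) x11456) x11444) (Nat.mul x11438 (nat_lit 2))) x31120)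
    (Nat.sub (Nat.sub (Nat.add (Nat.add (Nat.add (Nat.add (Nat.add (Nat.add (Nat.add (Nat.add C x24566) x15818) x9986) x11930) x11282) x11462) x11438) x11446) (Nat.mul x11444 (nat_lit 4))) x31126)
    (Nat.sub (Nat.sub (Nat.add (Nat.add (Nat.add (Nat.add (Nat.add (Nat.add (Nat.add C x24568) x15820) x9988) x11932) x11284) x11464) x11444) (Nat.mul x11446 (nat_lit 2))) x31128)
    (Nat.sub (Nat.sub (Nat.add (Nat.add (Nat.add (Nat.add (Nat.add (Nat.add (Nat.add (Nat.add C x24578) x15830) x9998) x11942) x11294) x11510) x11438) x11462) (Nat.mul x11456 (nat_lit 4))) x31138)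
    (Nat.sub (Nat.sub (Nat.add (Nat.add (Nat.add (Nat.add (Nat.add (Nat.add (Nat.add (Nat.add (Nat.add (Nat.add (Nat.add C x24584) x15836) x10004) x11948) x11300) x11516) x11444) x11480) x11456) x11468) x11464) (Nat.mul x11462 (nat_lit 4))) x31144)
    (Nat.sub (Nat.sub (Nat.add (Nat.add (Nat.add (Nat.add (Nat.add (Nat.add (Nat.add (Nat.add (Nat.add (Nat.add C x24586) x15838) x10006) x11950) x11302) x11518) x11446) x11482) x11470) x11462) (Nat.mul x11464 (nat_lit 3))) x31146)
    (Nat.sub (Nat.sub (Nat.sub (Nat.add (Nat.add (Nat.add (Nat.add (Nat.add (Nat.add (Nat.add (Nat.add (Nat.add (Nat.add C x24590) x15842) x10010) x11954) x11306) x11522) x11486) x11462) x11470) (Nat.mul (e (nat_lit 11468)) ap)) (Nat.mul x11468 (nat_lit 6))) x31150) (Nat.mul (e (nat_lit 11468)) an))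
    (Nat.sub (Nat.sub (Nat.add (Nat.add (Nat.add (Nat.add (Nat.add (Nat.add (Nat.add (Nat.add (Nat.add (Nat.add C x24592) x15844) x10012) x11956) x11308) x11524) x11488) x11464) x11468) x11472) (Nat.mul x11470 (nat_lit 3))) x31152)
    (Nat.sub (Nat.add (Nat.add (Nat.add (Nat.add (Nat.add (Nat.add (Nat.add (Nat.add C x24594) x15846) x10014) x11958) x11310) x11526) x11490) x11470) (Nat.mul x11472 (nat_lit 2)))
    (Nat.sub (Nat.sub (Nat.add (Nat.add (Nat.add (Nat.add (Nat.add (Nat.add (Nat.add (Nat.add (Nat.add C x24602) x15854) x10022) x11966) x11318) x11534) x11462) x11486) x11482) (Nat.mul x11480 (nat_lit 6))) x31162)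
    (Nat.sub (Nat.sub (Nat.sub (Nat.add (Nat.add (Nat.add (Nat.add (Nat.add (Nat.add (Nat.add (Nat.add (Nat.add (Nat.add C x24604) x15856) x10024) x11968) x11320) x11536) x11464) x11488) x11480) (Nat.mul (e (nat_lit 11482)) ap)) (Nat.mul x11482 (nat_lit 6))) x31164) (Nat.mul (e (nat_lit 11482)) an))
    (Nat.sub (Nat.sub (Nat.sub (Nat.add (Nat.add (Nat.add (Nat.add (Nat.add (Nat.add (Nat.add (Nat.add (Nat.add (Nat.add C x24608) x15860) x10028) x11972) x11324) x11540) x11468) x11480) x11488) (Nat.mul (e (nat_lit 11486)) ap)) (Nat.mul x11486 (nat_lit 6))) x31168) (Nat.mul (e (nat_lit 11486)) an))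
    (Nat.sub (Nat.sub (Nat.add (Nat.add (Nat.add (Nat.add (Nat.add (Nat.add (Nat.add (Nat.add (Nat.add (Nat.add (Nat.add C x24610) x15862) x10030) x11974) x11326) x11542) x11470) x11482) x11494) x11486) x11490) (Nat.mul x11488 (nat_lit 4))) x31170)
    (Nat.sub (Nat.add (Nat.add (Nat.add (Nat.add (Nat.add (Nat.add (Nat.add (Nat.add (Nat.add C x24612) x15864) x10032) x11976) x11328) x11544) x11472) x11496) x11488) (Nat.mul x11490 (nat_lit 4)))
    (Nat.sub (Nat.sub (Nat.add (Nat.add (Nat.add (Nat.add (Nat.add (Nat.add (Nat.add (Nat.add C x24616) x15868) x10036) x11980) x11332) x11548) x11488) x11496) (Nat.mul x11494 (nat_lit 4))) x31176)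
    (Nat.sub (Nat.add (Nat.add (Nat.add (Nat.add (Nat.add (Nat.add (Nat.add (Nat.add C x24618) x15870) x10038) x11982) x11334) x11550) x11490) x11494) (Nat.mul x11496 (nat_lit 2)))
    (Nat.sub (Nat.sub (Nat.add (Nat.add (Nat.add (Nat.add (Nat.add (Nat.add (Nat.add C x24632) x15884) x10052) x11996) x11348) x11456) x11516) (Nat.mul x11510 (nat_lit 2))) x31192)
    (Nat.sub (Nat.sub (Nat.add (Nat.add (Nat.add (Nat.add (Nat.add (Nat.add (Nat.add (Nat.add (Nat.add (Nat.add C x24638) x15890) x10058) x12002) x11354) x11462) x11534) x11510) x11522) x11518) (Nat.mul x11516 (nat_lit 3))) x31198)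
    (Nat.sub (Nat.sub (Nat.sub (Nat.add (Nat.add (Nat.add (Nat.add (Nat.add (Nat.add (Nat.add (Nat.add (Nat.add (Nat.add C x24640) x15892) x10060) x12004) x11356) x11464) x11536) x11524) x11516) (Nat.mul (e (nat_lit 11518)) ap)) (Nat.mul x11518 (nat_lit 2))) x31200) (Nat.mul (e (nat_lit 11518)) an))
    (Nat.sub (Nat.sub (Nat.add (Nat.add (Nat.add (Nat.add (Nat.add (Nat.add (Nat.add (Nat.add (Nat.add C x24644) x15896) x10064) x12008) x11360) x11468) x11540) x11516) x11524) (Nat.mul x11522 (nat_lit 6))) x31204)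
    (Nat.sub (Nat.sub (Nat.add (Nat.add (Nat.add (Nat.add (Nat.add (Nat.add (Nat.add (Nat.add (Nat.add (Nat.add C x24646) x15898) x10066) x12010) x11362) x11470) x11542) x11518) x11522) x11526) (Nat.mul x11524 (nat_lit 3))) x31206)
    (Nat.sub (Nat.add (Nat.add (Nat.add (Nat.add (Nat.add (Nat.add (Nat.add (Nat.add C x24648) x15900) x10068) x12012) x11364) x11472) x11544) x11524) (Nat.mul x11526 (nat_lit 2)))
    (Nat.sub (Nat.sub (Nat.add (Nat.add (Nat.add (Nat.add (Nat.add (Nat.add (Nat.add (Nat.add (Nat.add (Nat.add C x24656) x15908) x10076) x12020) x11372) x11480) x11588) x11516) x11540) x11536) (Nat.mul x11534 (nat_lit 3))) x31216)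
    (Nat.sub (Nat.sub (Nat.add (Nat.add (Nat.add (Nat.add (Nat.add (Nat.add (Nat.add (Nat.add (Nat.add (Nat.add C x24658) x15910) x10078) x12022) x11374) x11482) x11590) x11518) x11542) x11534) (Nat.mul x11536 (nat_lit 3))) x31218)
    (Nat.sub (Nat.sub (Nat.add (Nat.add (Nat.add (Nat.add (Nat.add (Nat.add (Nat.add (Nat.add (Nat.add (Nat.add (Nat.add C x24662) x15914) x10082) x12026) x11378) x11486) x11594) x11522) x11558) x11534) x11542) (Nat.mul x11540 (nat_lit 4))) x31222)
    (Nat.sub (Nat.sub (Nat.add (Nat.add (Nat.add (Nat.add (Nat.add (Nat.add (Nat.add (Nat.add (Nat.add (Nat.add (Nat.add (Nat.add (Nat.add C x24664) x15916) x10084) x12028) x11380) x11488) x11596) x11524) x11560) x11536) x11548) x11540) x11544) (Nat.mul x11542 (nat_lit 2))) x31224)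
    (Nat.sub (Nat.add (Nat.add (Nat.add (Nat.add (Nat.add (Nat.add (Nat.add (Nat.add (Nat.add (Nat.add (Nat.add C x24666) x15918) x10086) x12030) x11382) x11490) x11598) x11526) x11562) x11550) x11542) (Nat.mul x11544 (nat_lit 2)))
    (Nat.sub (Nat.sub (Nat.add (Nat.add (Nat.add (Nat.add (Nat.add (Nat.add (Nat.add (Nat.add (Nat.add (Nat.add C x24670) x15922) x10090) x12034) x11386) x11494) x11602) x11566) x11542) x11550) (Nat.mul x11548 (nat_lit 3))) x31230)
    (Nat.sub (Nat.add (Nat.add (Nat.add (Nat.add (Nat.add (Nat.add (Nat.add (Nat.add (Nat.add (Nat.add C x24672) x15924) x10092) x12036) x11388) x11496) x11604) x11568) x11544) x11548) x11550)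
    (Nat.sub (Nat.sub (Nat.add (Nat.add (Nat.add (Nat.add (Nat.add (Nat.add (Nat.add (Nat.add C x24680) x15932) x10100) x12044) x11396) x11612) x11540) x11560) (Nat.mul x11558 (nat_lit 4))) x31240)
    (Nat.sub (Nat.sub (Nat.add (Nat.add (Nat.add (Nat.add (Nat.add (Nat.add (Nat.add (Nat.add (Nat.add (Nat.add C x24682) x15934) x10102) x12046) x11398) x11614) x11542) x11566) x11558) x11562) (Nat.mul x11560 (nat_lit 3))) x31242)
    (Nat.sub (Nat.add (Nat.add (Nat.add (Nat.add (Nat.add (Nat.add (Nat.add (Nat.add (Nat.add C x24684) x15936) x10104) x12048) x11400) x11616) x11544) x11568) x11560) (Nat.mul x11562 (nat_lit 4)))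
    (Nat.sub (Nat.sub (Nat.add (Nat.add (Nat.add (Nat.add (Nat.add (Nat.add (Nat.add (Nat.add (Nat.add C x24688) x15940) x10108) x12052) x11404) x11620) x11548) x11560) x11568) (Nat.mul x11566 (nat_lit 2))) x31248)
    (Nat.sub (Nat.add (Nat.add (Nat.add (Nat.add (Nat.add (Nat.add (Nat.add (Nat.add (Nat.add (Nat.add C x24690) x15942) x10110) x12054) x11406) x11622) x11550) x11562) x11574) x11566) x11568)
    (Nat.add (Nat.add (Nat.add (Nat.add (Nat.add (Nat.add (Nat.add C x24696) x15948) x10116) x12060) x11412) x11628) x11568)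
    (Nat.sub (Nat.sub (Nat.add (Nat.add (Nat.add (Nat.add (Nat.add (Nat.add (Nat.add C x24710) x15962) x10130) x12074) x11534) x11594) x11590) (Nat.mul x11588 (nat_lit 2))) x31270)
    (Nat.sub (Nat.sub (Nat.add (Nat.add (Nat.add (Nat.add (Nat.add (Nat.add (Nat.add C x24712) x15964) x10132) x12076) x11536) x11596) x11588) (Nat.mul x11590 (nat_lit 2))) x31272)
    (Nat.sub (Nat.sub (Nat.add (Nat.add (Nat.add (Nat.add (Nat.add (Nat.add (Nat.add (Nat.add C x24716) x15968) x10136) x12080) x11540) x11612) x11588) x11596) (Nat.mul x11594 (nat_lit 4))) x31276)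
    (Nat.sub (Nat.sub (Nat.add (Nat.add (Nat.add (Nat.add (Nat.add (Nat.add (Nat.add (Nat.add (Nat.add (Nat.add C x24718) x15970) x10138) x12082) x11542) x11614) x11590) x11602) x11594) x11598) (Nat.mul x11596 (nat_lit 2))) x31278)
    (Nat.sub (Nat.add (Nat.add (Nat.add (Nat.add (Nat.add (Nat.add (Nat.add (Nat.add C x24720) x15972) x10140) x12084) x11544) x11616) x11604) x11596) (Nat.mul x11598 (nat_lit 2)))
    (Nat.sub (Nat.sub (Nat.add (Nat.add (Nat.add (Nat.add (Nat.add (Nat.add (Nat.add (Nat.add C x24724) x15976) x10144) x12088) x11548) x11620) x11596) x11604) (Nat.mul x11602 (nat_lit 4))) x31284)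
    (Nat.sub (Nat.add (Nat.add (Nat.add (Nat.add (Nat.add (Nat.add (Nat.add (Nat.add C x24726) x15978) x10146) x12090) x11550) x11622) x11598) x11602) (Nat.mul x11604 (nat_lit 2)))
    (Nat.sub (Nat.sub (Nat.add (Nat.add (Nat.add (Nat.add (Nat.add (Nat.add (Nat.add C x24734) x15986) x10154) x12098) x11558) x11594) x11614) (Nat.mul x11612 (nat_lit 2))) x31294)
    (Nat.sub (Nat.sub (Nat.add (Nat.add (Nat.add (Nat.add (Nat.add (Nat.add (Nat.add (Nat.add (Nat.add C x24736) x15988) x10156) x12100) x11560) x11596) x11620) x11612) x11616) x11614) x31296)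
    (Nat.sub (Nat.add (Nat.add (Nat.add (Nat.add (Nat.add (Nat.add (Nat.add (Nat.add C x24738) x15990) x10158) x12102) x11562) x11598) x11622) x11614) (Nat.mul x11616 (nat_lit 2)))
    (Nat.sub (Nat.sub (Nat.add (Nat.add (Nat.add (Nat.add (Nat.add (Nat.add (Nat.add (Nat.add (Nat.add C x24742) x15994) x10162) x12106) x11566) x11602) x11638) x11614) x11622) x11620) x31302)
    (Nat.add (Nat.add (Nat.add (Nat.add (Nat.add (Nat.add (Nat.add (Nat.add (Nat.add (Nat.add C x24744) x15996) x10164) x12108) x11568) x11604) x11640) x11616) x11628) x11620)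
    (Nat.add (Nat.add (Nat.add (Nat.add (Nat.add (Nat.add (Nat.add C x24750) x16002) x10170) x12114) x11574) x11646) x11622)
    (Nat.sub (Nat.add (Nat.add (Nat.add (Nat.add (Nat.add (Nat.add C x24760) x16012) x10180) x12124) x11620) x11640) x31320)
    (Nat.add (Nat.add (Nat.add (Nat.add (Nat.add (Nat.add (Nat.add C x24762) x16014) x10182) x12126) x11622) x11646) x11638)
    (Nat.add (Nat.add (Nat.add (Nat.add (Nat.add (Nat.add (Nat.add C (Nat.mul x11646 (nat_lit 2))) x24768) x16020) x10188) x12132) x11628) x11640)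
    (Nat.sub (Nat.add (Nat.add (Nat.add (Nat.add (Nat.add (Nat.add C (Nat.mul x11690 (nat_lit 2))) x24812) x16064) x10232) x11204) x11708) x31372)
    (Nat.sub (Nat.add (Nat.add (Nat.add (Nat.add (Nat.add (Nat.add (Nat.add (Nat.add (Nat.add C x11708) x24830) x16082) x10250) x11222) x11762) x11690) x11726) x11714) x31390)
    (Nat.sub (Nat.add (Nat.add (Nat.add (Nat.add (Nat.add (Nat.add (Nat.add (Nat.add C x24836) x16088) x10256) x11228) x11768) x11732) x11708) x11716) x31396)
    (Nat.sub (Nat.add (Nat.add (Nat.add (Nat.add (Nat.add (Nat.add (Nat.add (Nat.add C (Nat.mul x11716 (nat_lit 2))) x24838) x16090) x10258) x11230) x11770) x11734) x11714) x31398)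
    (Nat.sub (Nat.sub (Nat.add (Nat.add (Nat.add (Nat.add (Nat.add (Nat.add (Nat.add C x24848) x16100) x10268) x11240) x11780) x11708) x11732) (Nat.mul x11726 (nat_lit 2))) x31408)
    (Nat.sub (Nat.sub (Nat.add (Nat.add (Nat.add (Nat.add (Nat.add (Nat.add (Nat.add (Nat.add (Nat.add C x24854) x16106) x10274) x11246) x11786) x11714) x11726) x11738) x11734) x11732) x31414)
    (Nat.sub (Nat.add (Nat.add (Nat.add (Nat.add (Nat.add (Nat.add (Nat.add (Nat.add C x24856) x16108) x10276) x11248) x11788) x11716) x11740) x11732) x31416)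
    (Nat.sub (Nat.sub (Nat.add (Nat.add (Nat.add (Nat.add (Nat.add (Nat.add (Nat.add C x24860) x16112) x10280) x11252) x11792) x11732) x11740) (Nat.mul x11738 (nat_lit 2))) x31420)
    (Nat.sub (Nat.add (Nat.add (Nat.add (Nat.add (Nat.add (Nat.add (Nat.add (Nat.add (Nat.add C x11740) x24862) x16114) x10282) x11254) x11794) x11734) x11738) x11742) x31422)
    (Nat.add (Nat.add (Nat.add (Nat.add (Nat.add (Nat.add (Nat.add C (Nat.mul x11742 (nat_lit 2))) x24864) x16116) x10284) x11256) x11796) x11740)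
    (Nat.sub (Nat.add (Nat.add (Nat.add (Nat.add (Nat.add (Nat.add (Nat.add (Nat.add C x24884) x16136) x10304) x11276) x11924) x11708) x11780) x11768) x31444)
    (Nat.sub (Nat.sub (Nat.add (Nat.add (Nat.add (Nat.add (Nat.add (Nat.add (Nat.add (Nat.add (Nat.add C x24890) x16142) x10310) x11282) x11930) x11714) x11786) x11762) x11770) (Nat.mul x11768 (nat_lit 2))) x31450)
    (Nat.sub (Nat.add (Nat.add (Nat.add (Nat.add (Nat.add (Nat.add (Nat.add (Nat.add C x24892) x16144) x10312) x11284) x11932) x11716) x11788) x11768) x31452)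
    (Nat.sub (Nat.sub (Nat.add (Nat.add (Nat.add (Nat.add (Nat.add (Nat.add (Nat.add (Nat.add (Nat.add C x24902) x16154) x10322) x11294) x11942) x11726) x11834) x11762) x11786) x11780) x31462)
    (Nat.sub (Nat.sub (Nat.add (Nat.add (Nat.add (Nat.add (Nat.add (Nat.add (Nat.add (Nat.add (Nat.add (Nat.add (Nat.add (Nat.add C x24908) x16160) x10328) x11300) x11948) x11732) x11840) x11768) x11804) x11780) x11792) x11788) x11786) x31468)
    (Nat.sub (Nat.add (Nat.add (Nat.add (Nat.add (Nat.add (Nat.add (Nat.add (Nat.add (Nat.add (Nat.add (Nat.add C x24910) x16162) x10330) x11302) x11950) x11734) x11842) x11770) x11806) x11794) x11786) x31470)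
    (Nat.sub (Nat.sub (Nat.add (Nat.add (Nat.add (Nat.add (Nat.add (Nat.add (Nat.add (Nat.add (Nat.add (Nat.add C x24914) x16166) x10334) x11306) x11954) x11738) x11846) x11810) x11786) x11794) (Nat.mul x11792 (nat_lit 3))) x31474)
    (Nat.sub (Nat.add (Nat.add (Nat.add (Nat.add (Nat.add (Nat.add (Nat.add (Nat.add (Nat.add (Nat.add (Nat.add C x24916) x16168) x10336) x11308) x11956) x11740) x11848) x11812) x11788) x11792) x11796) x31476)
    (Nat.add (Nat.add (Nat.add (Nat.add (Nat.add (Nat.add (Nat.add (Nat.add (Nat.add (Nat.add C x11796) x24918) x16170) x10338) x11310) x11958) x11742) x11850) x11814) x11794)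
    (Nat.sub (Nat.sub (Nat.add (Nat.add (Nat.add (Nat.add (Nat.add (Nat.add (Nat.add (Nat.add (Nat.add C x24926) x16178) x10346) x11318) x11966) x11858) x11786) x11810) x11806) (Nat.mul x11804 (nat_lit 2))) x31486)
    (Nat.sub (Nat.sub (Nat.add (Nat.add (Nat.add (Nat.add (Nat.add (Nat.add (Nat.add (Nat.add (Nat.add C x24928) x16180) x10348) x11320) x11968) x11860) x11788) x11812) x11804) (Nat.mul x11806 (nat_lit 2))) x31488)
    (Nat.sub (Nat.sub (Nat.add (Nat.add (Nat.add (Nat.add (Nat.add (Nat.add (Nat.add (Nat.add (Nat.add C x24932) x16184) x10352) x11324) x11972) x11864) x11792) x11804) x11812) (Nat.mul x11810 (nat_lit 2))) x31492)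
    (Nat.sub (Nat.add (Nat.add (Nat.add (Nat.add (Nat.add (Nat.add (Nat.add (Nat.add (Nat.add (Nat.add (Nat.add C x24934) x16186) x10354) x11326) x11974) x11866) x11794) x11806) x11818) x11810) x11814) x31494)
    (Nat.add (Nat.add (Nat.add (Nat.add (Nat.add (Nat.add (Nat.add (Nat.add (Nat.add C x24936) x16188) x10356) x11328) x11976) x11868) x11796) x11820) x11812)
    (Nat.sub (Nat.add (Nat.add (Nat.add (Nat.add (Nat.add (Nat.add (Nat.add (Nat.add C x24940) x16192) x10360) x11332) x11980) x11872) x11812) x11820) x31500)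
    (Nat.add (Nat.add (Nat.add (Nat.add (Nat.add (Nat.add (Nat.add (Nat.add (Nat.add C (Nat.mul x11820 (nat_lit 2))) x24942) x16194) x10362) x11334) x11982) x11874) x11814) x11818)
    (Nat.sub (Nat.sub (Nat.add (Nat.add (Nat.add (Nat.add (Nat.add (Nat.add (Nat.add C x24956) x16208) x10376) x11348) x11996) x11780) x11840) (Nat.mul x11834 (nat_lit 2))) x31516)
    (Nat.sub (Nat.sub (Nat.add (Nat.add (Nat.add (Nat.add (Nat.add (Nat.add (Nat.add (Nat.add (Nat.add (Nat.add C x24962) x16214) x10382) x11354) x12002) x11786) x11858) x11834) x11846) x11842) (Nat.mul x11840 (nat_lit 3))) x31522)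
    (Nat.sub (Nat.sub (Nat.add (Nat.add (Nat.add (Nat.add (Nat.add (Nat.add (Nat.add (Nat.add (Nat.add C x24964) x16216) x10384) x11356) x12004) x11788) x11860) x11848) x11840) (Nat.mul x11842 (nat_lit 2))) x31524)
    (Nat.sub (Nat.sub (Nat.add (Nat.add (Nat.add (Nat.add (Nat.add (Nat.add (Nat.add (Nat.add (Nat.add C x24968) x16220) x10388) x11360) x12008) x11792) x11864) x11840) x11848) (Nat.mul x11846 (nat_lit 6))) x31528)
    (Nat.sub (Nat.sub (Nat.add (Nat.add (Nat.add (Nat.add (Nat.add (Nat.add (Nat.add (Nat.add (Nat.add (Nat.add C x24970) x16222) x10390) x11362) x12010) x11794) x11866) x11842) x11846) x11850) (Nat.mul x11848 (nat_lit 3))) x31530)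
    (Nat.sub (Nat.add (Nat.add (Nat.add (Nat.add (Nat.add (Nat.add (Nat.add (Nat.add C x24972) x16224) x10392) x11364) x12012) x11796) x11868) x11848) (Nat.mul x11850 (nat_lit 2)))
    (Nat.sub (Nat.sub (Nat.add (Nat.add (Nat.add (Nat.add (Nat.add (Nat.add (Nat.add (Nat.add (Nat.add C x24980) x16232) x10400) x11372) x12020) x11804) x11840) x11864) x11860) (Nat.mul x11858 (nat_lit 2))) x31540)
    (Nat.sub (Nat.sub (Nat.add (Nat.add (Nat.add (Nat.add (Nat.add (Nat.add (Nat.add (Nat.add (Nat.add C x24982) x16234) x10402) x11374) x12022) x11806) x11842) x11866) x11858) (Nat.mul x11860 (nat_lit 2))) x31542)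
    (Nat.sub (Nat.sub (Nat.add (Nat.add (Nat.add (Nat.add (Nat.add (Nat.add (Nat.add (Nat.add (Nat.add (Nat.add C x24986) x16238) x10406) x11378) x12026) x11810) x11846) x11882) x11858) x11866) (Nat.mul x11864 (nat_lit 3))) x31546)
    (Nat.sub (Nat.sub (Nat.add (Nat.add (Nat.add (Nat.add (Nat.add (Nat.add (Nat.add (Nat.add (Nat.add (Nat.add (Nat.add (Nat.add C x24988) x16240) x10408) x11380) x12028) x11812) x11848) x11884) x11860) x11872) x11864) x11868) x11866) x31548)
    (Nat.sub (Nat.add (Nat.add (Nat.add (Nat.add (Nat.add (Nat.add (Nat.add (Nat.add (Nat.add (Nat.add C x24990) x16242) x10410) x11382) x12030) x11814) x11850) x11886) x11874) x11866) x11868)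
    (Nat.sub (Nat.sub (Nat.add (Nat.add (Nat.add (Nat.add (Nat.add (Nat.add (Nat.add (Nat.add (Nat.add C x24994) x16246) x10414) x11386) x12034) x11818) x11890) x11866) x11874) (Nat.mul x11872 (nat_lit 2))) x31554)
    (Nat.add (Nat.add (Nat.add (Nat.add (Nat.add (Nat.add (Nat.add (Nat.add (Nat.add C x24996) x16248) x10416) x11388) x12036) x11820) x11892) x11868) x11872)
    (Nat.sub (Nat.sub (Nat.add (Nat.add (Nat.add (Nat.add (Nat.add (Nat.add (Nat.add C x25004) x16256) x10424) x11396) x12044) x11864) x11884) (Nat.mul x11882 (nat_lit 2))) x31564)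
    (Nat.sub (Nat.sub (Nat.add (Nat.add (Nat.add (Nat.add (Nat.add (Nat.add (Nat.add (Nat.add (Nat.add C x25006) x16258) x10426) x11398) x12046) x11866) x11890) x11882) x11886) x11884) x31566)
    (Nat.sub (Nat.add (Nat.add (Nat.add (Nat.add (Nat.add (Nat.add (Nat.add (Nat.add C x25008) x16260) x10428) x11400) x12048) x11868) x11892) x11884) (Nat.mul x11886 (nat_lit 2)))
    (Nat.sub (Nat.add (Nat.add (Nat.add (Nat.add (Nat.add (Nat.add (Nat.add (Nat.add C x25012) x16264) x10432) x11404) x12052) x11872) x11884) x11892) x31572)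
    (Nat.add (Nat.add (Nat.add (Nat.add (Nat.add (Nat.add (Nat.add (Nat.add (Nat.add (Nat.add C x11892) x25014) x16266) x10434) x11406) x12054) x11874) x11886) x11898) x11890)
    (Nat.add (Nat.add (Nat.add (Nat.add (Nat.add (Nat.add (Nat.add C (Nat.mul x11898 (nat_lit 2))) x25020) x16272) x10440) x11412) x12060) x11892)
    (Nat.sub (Nat.add (Nat.add (Nat.add (Nat.add (Nat.add (Nat.add (Nat.add (Nat.add (Nat.add C x11924) x25046) x16298) x10466) x11438) x12410) x11762) x11942) x11930) x31606)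
    (Nat.sub (Nat.sub (Nat.add (Nat.add (Nat.add (Nat.add (Nat.add (Nat.add (Nat.add (Nat.add (Nat.add C x25052) x16304) x10472) x11444) x12416) x11768) x11948) x11924) x11932) x11930) x31612)
    (Nat.sub (Nat.add (Nat.add (Nat.add (Nat.add (Nat.add (Nat.add (Nat.add (Nat.add (Nat.add C x11932) x25054) x16306) x10474) x11446) x12418) x11770) x11950) x11930) x31614)
    (Nat.sub (Nat.sub (Nat.add (Nat.add (Nat.add (Nat.add (Nat.add (Nat.add (Nat.add (Nat.add (Nat.add C x25064) x16316) x10484) x11456) x12428) x11780) x11996) x11924) x11948) x11942) x31624)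
    (Nat.sub (Nat.sub (Nat.add (Nat.add (Nat.add (Nat.add (Nat.add (Nat.add (Nat.add (Nat.add (Nat.add (Nat.add (Nat.add (Nat.add C x25070) x16322) x10490) x11462) x12434) x11786) x12002) x11930) x11966) x11942) x11954) x11950) x11948) x31630)
    (Nat.sub (Nat.add (Nat.add (Nat.add (Nat.add (Nat.add (Nat.add (Nat.add (Nat.add (Nat.add (Nat.add (Nat.add C x25072) x16324) x10492) x11464) x12436) x11788) x12004) x11932) x11968) x11956) x11948) x31632)
    (Nat.sub (Nat.sub (Nat.add (Nat.add (Nat.add (Nat.add (Nat.add (Nat.add (Nat.add (Nat.add (Nat.add (Nat.add C x25076) x16328) x10496) x11468) x12440) x11792) x12008) x11972) x11948) x11956) (Nat.mul x11954 (nat_lit 3))) x31636)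
    (Nat.sub (Nat.add (Nat.add (Nat.add (Nat.add (Nat.add (Nat.add (Nat.add (Nat.add (Nat.add (Nat.add (Nat.add C x25078) x16330) x10498) x11470) x12442) x11794) x12010) x11974) x11950) x11954) x11958) x31638)
    (Nat.add (Nat.add (Nat.add (Nat.add (Nat.add (Nat.add (Nat.add (Nat.add (Nat.add (Nat.add C x11958) x25080) x16332) x10500) x11472) x12444) x11796) x12012) x11976) x11956)
    (Nat.sub (Nat.sub (Nat.add (Nat.add (Nat.add (Nat.add (Nat.add (Nat.add (Nat.add (Nat.add (Nat.add (Nat.add C x25088) x16340) x10508) x11480) x12452) x11804) x12020) x11948) x11972) x11968) (Nat.mul x11966 (nat_lit 3))) x31648)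
    (Nat.sub (Nat.sub (Nat.add (Nat.add (Nat.add (Nat.add (Nat.add (Nat.add (Nat.add (Nat.add (Nat.add (Nat.add C x25090) x16342) x10510) x11482) x12454) x11806) x12022) x11950) x11974) x11966) (Nat.mul x11968 (nat_lit 3))) x31650)
    (Nat.sub (Nat.sub (Nat.add (Nat.add (Nat.add (Nat.add (Nat.add (Nat.add (Nat.add (Nat.add (Nat.add (Nat.add C x25094) x16346) x10514) x11486) x12458) x11810) x12026) x11954) x11966) x11974) (Nat.mul x11972 (nat_lit 3))) x31654)
    (Nat.sub (Nat.sub (Nat.add (Nat.add (Nat.add (Nat.add (Nat.add (Nat.add (Nat.add (Nat.add (Nat.add (Nat.add (Nat.add (Nat.add C x25096) x16348) x10516) x11488) x12460) x11812) x12028) x11956) x11968) x11980) x11972) x11976) x11974) x31656)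
    (Nat.sub (Nat.add (Nat.add (Nat.add (Nat.add (Nat.add (Nat.add (Nat.add (Nat.add (Nat.add (Nat.add C x25098) x16350) x10518) x11490) x12462) x11814) x12030) x11958) x11982) x11974) x11976)
    (Nat.sub (Nat.sub (Nat.add (Nat.add (Nat.add (Nat.add (Nat.add (Nat.add (Nat.add (Nat.add (Nat.add C x25102) x16354) x10522) x11494) x12466) x11818) x12034) x11974) x11982) x11980) x31662)
    (Nat.add (Nat.add (Nat.add (Nat.add (Nat.add (Nat.add (Nat.add (Nat.add (Nat.add (Nat.add C x11982) x25104) x16356) x10524) x11496) x12468) x11820) x12036) x11976) x11980)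
    (Nat.sub (Nat.add (Nat.add (Nat.add (Nat.add (Nat.add (Nat.add (Nat.add (Nat.add (Nat.add C x25118) x16370) x10538) x11510) x12482) x11834) x12158) x11942) x12002) x31678)
    (Nat.sub (Nat.sub (Nat.add (Nat.add (Nat.add (Nat.add (Nat.add (Nat.add (Nat.add (Nat.add (Nat.add (Nat.add (Nat.add (Nat.add C x25124) x16376) x10544) x11516) x12488) x11840) x12164) x11948) x12020) x11996) x12008) x12004) x12002) x31684)
    (Nat.sub (Nat.add (Nat.add (Nat.add (Nat.add (Nat.add (Nat.add (Nat.add (Nat.add (Nat.add (Nat.add (Nat.add C x25126) x16378) x10546) x11518) x12490) x11842) x12166) x11950) x12022) x12010) x12002) x31686)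
    (Nat.sub (Nat.sub (Nat.add (Nat.add (Nat.add (Nat.add (Nat.add (Nat.add (Nat.add (Nat.add (Nat.add (Nat.add (Nat.add C x25130) x16382) x10550) x11522) x12494) x11846) x12170) x11954) x12026) x12002) x12010) (Nat.mul x12008 (nat_lit 4))) x31690)
    (Nat.sub (Nat.sub (Nat.add (Nat.add (Nat.add (Nat.add (Nat.add (Nat.add (Nat.add (Nat.add (Nat.add (Nat.add (Nat.add (Nat.add C x25132) x16384) x10552) x11524) x12496) x11848) x12172) x11956) x12028) x12004) x12008) x12012) x12010) x31692)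
    (Nat.add (Nat.add (Nat.add (Nat.add (Nat.add (Nat.add (Nat.add (Nat.add (Nat.add (Nat.add C x25134) x16386) x10554) x11526) x12498) x11850) x12174) x11958) x12030) x12010)
    (Nat.sub (Nat.sub (Nat.add (Nat.add (Nat.add (Nat.add (Nat.add (Nat.add (Nat.add (Nat.add (Nat.add (Nat.add (Nat.add (Nat.add C x25142) x16394) x10562) x11534) x12506) x11858) x12182) x11966) x12074) x12002) x12026) x12022) x12020) x31702)
    (Nat.sub (Nat.sub (Nat.add (Nat.add (Nat.add (Nat.add (Nat.add (Nat.add (Nat.add (Nat.add (Nat.add (Nat.add (Nat.add (Nat.add C x25144) x16396) x10564) x11536) x12508) x11860) x12184) x11968) x12076) x12004) x12028) x12020) x12022) x31704)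
    (Nat.sub (Nat.sub (Nat.add (Nat.add (Nat.add (Nat.add (Nat.add (Nat.add (Nat.add (Nat.add (Nat.add (Nat.add (Nat.add (Nat.add (Nat.add C x25148) x16400) x10568) x11540) x12512) x11864) x12188) x11972) x12080) x12008) x12044) x12020) x12028) (Nat.mul x12026 (nat_lit 2))) x31708)
    (Nat.sub (Nat.add (Nat.add (Nat.add (Nat.add (Nat.add (Nat.add (Nat.add (Nat.add (Nat.add (Nat.add (Nat.add (Nat.add (Nat.add (Nat.add (Nat.add C x25150) x16402) x10570) x11542) x12514) x11866) x12190) x11974) x12082) x12010) x12046) x12022) x12034) x12026) x12030) x31710)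
    (Nat.add (Nat.add (Nat.add (Nat.add (Nat.add (Nat.add (Nat.add (Nat.add (Nat.add (Nat.add (Nat.add (Nat.add (Nat.add C x25152) x16404) x10572) x11544) x12516) x11868) x12192) x11976) x12084) x12012) x12048) x12036) x12028)
    (Nat.sub (Nat.sub (Nat.add (Nat.add (Nat.add (Nat.add (Nat.add (Nat.add (Nat.add (Nat.add (Nat.add (Nat.add (Nat.add (Nat.add C x25156) x16408) x10576) x11548) x12520) x11872) x12196) x11980) x12088) x12052) x12028) x12036) x12034) x31716)
    (Nat.add (Nat.add (Nat.add (Nat.add (Nat.add (Nat.add (Nat.add (Nat.add (Nat.add (Nat.add (Nat.add (Nat.add (Nat.add C x12036) x25158) x16410) x10578) x11550) x12522) x11874) x12198) x11982) x12090) x12054) x12030) x12034)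
    (Nat.sub (Nat.sub (Nat.add (Nat.add (Nat.add (Nat.add (Nat.add (Nat.add (Nat.add (Nat.add (Nat.add (Nat.add C x25166) x16418) x10586) x11558) x12530) x11882) x12206) x12098) x12026) x12046) (Nat.mul x12044 (nat_lit 2))) x31726)
    (Nat.sub (Nat.sub (Nat.add (Nat.add (Nat.add (Nat.add (Nat.add (Nat.add (Nat.add (Nat.add (Nat.add (Nat.add (Nat.add (Nat.add C x25168) x16420) x10588) x11560) x12532) x11884) x12208) x12100) x12028) x12052) x12044) x12048) x12046) x31728)
    (Nat.sub (Nat.add (Nat.add (Nat.add (Nat.add (Nat.add (Nat.add (Nat.add (Nat.add (Nat.add (Nat.add (Nat.add C x25170) x16422) x10590) x11562) x12534) x11886) x12210) x12102) x12030) x12054) x12046) (Nat.mul x12048 (nat_lit 2)))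
    (Nat.sub (Nat.add (Nat.add (Nat.add (Nat.add (Nat.add (Nat.add (Nat.add (Nat.add (Nat.add (Nat.add (Nat.add C x25174) x16426) x10594) x11566) x12538) x11890) x12214) x12106) x12034) x12046) x12054) x31734)
    (Nat.add (Nat.add (Nat.add (Nat.add (Nat.add (Nat.add (Nat.add (Nat.add (Nat.add (Nat.add (Nat.add (Nat.add (Nat.add C x12054) x25176) x16428) x10596) x11568) x12540) x11892) x12216) x12108) x12036) x12048) x12060) x12052)
    (Nat.add (Nat.add (Nat.add (Nat.add (Nat.add (Nat.add (Nat.add (Nat.add (Nat.add (Nat.add C (Nat.mul x12060 (nat_lit 2))) x25182) x16434) x10602) x11574) x12546) x11898) x12222) x12114) x12054)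
    (Nat.sub (Nat.sub (Nat.add (Nat.add (Nat.add (Nat.add (Nat.add (Nat.add (Nat.add (Nat.add (Nat.add C x25196) x16448) x10616) x11588) x12560) x12236) x12020) x12080) x12076) x12074) x31756)
    (Nat.sub (Nat.sub (Nat.add (Nat.add (Nat.add (Nat.add (Nat.add (Nat.add (Nat.add (Nat.add (Nat.add C x25198) x16450) x10618) x11590) x12562) x12238) x12022) x12082) x12074) x12076) x31758)
    (Nat.sub (Nat.sub (Nat.add (Nat.add (Nat.add (Nat.add (Nat.add (Nat.add (Nat.add (Nat.add (Nat.add (Nat.add C x25202) x16454) x10622) x11594) x12566) x12242) x12026) x12098) x12074) x12082) (Nat.mul x12080 (nat_lit 3))) x31762)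
    (Nat.sub (Nat.sub (Nat.add (Nat.add (Nat.add (Nat.add (Nat.add (Nat.add (Nat.add (Nat.add (Nat.add (Nat.add (Nat.add (Nat.add C x25204) x16456) x10624) x11596) x12568) x12244) x12028) x12100) x12076) x12088) x12080) x12084) x12082) x31764)
    (Nat.sub (Nat.add (Nat.add (Nat.add (Nat.add (Nat.add (Nat.add (Nat.add (Nat.add (Nat.add (Nat.add C x25206) x16458) x10626) x11598) x12570) x12246) x12030) x12102) x12090) x12082) x12084)
    (Nat.sub (Nat.sub (Nat.add (Nat.add (Nat.add (Nat.add (Nat.add (Nat.add (Nat.add (Nat.add (Nat.add (Nat.add C x25210) x16462) x10630) x11602) x12574) x12250) x12034) x12106) x12082) x12090) (Nat.mul x12088 (nat_lit 3))) x31770)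
    (Nat.sub (Nat.add (Nat.add (Nat.add (Nat.add (Nat.add (Nat.add (Nat.add (Nat.add (Nat.add (Nat.add C x25212) x16464) x10632) x11604) x12576) x12252) x12036) x12108) x12084) x12088) x12090)
    (Nat.sub (Nat.sub (Nat.add (Nat.add (Nat.add (Nat.add (Nat.add (Nat.add (Nat.add (Nat.add (Nat.add C x25220) x16472) x10640) x11612) x12584) x12260) x12044) x12080) x12100) x12098) x31780)
    (Nat.sub (Nat.add (Nat.add (Nat.add (Nat.add (Nat.add (Nat.add (Nat.add (Nat.add (Nat.add (Nat.add (Nat.add C x25222) x16474) x10642) x11614) x12586) x12262) x12046) x12082) x12106) x12098) x12102) x31782)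
    (Nat.sub (Nat.add (Nat.add (Nat.add (Nat.add (Nat.add (Nat.add (Nat.add (Nat.add (Nat.add (Nat.add C x25224) x16476) x10644) x11616) x12588) x12264) x12048) x12084) x12108) x12100) x12102)
    (Nat.sub (Nat.add (Nat.add (Nat.add (Nat.add (Nat.add (Nat.add (Nat.add (Nat.add (Nat.add (Nat.add (Nat.add C x25228) x16480) x10648) x11620) x12592) x12268) x12052) x12088) x12124) x12100) x12108) x31788)
    (Nat.add (Nat.add (Nat.add (Nat.add (Nat.add (Nat.add (Nat.add (Nat.add (Nat.add (Nat.add (Nat.add (Nat.add (Nat.add C x12108) x25230) x16482) x10650) x11622) x12594) x12270) x12054) x12090) x12126) x12102) x12114) x12106)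
    (Nat.add (Nat.add (Nat.add (Nat.add (Nat.add (Nat.add (Nat.add (Nat.add (Nat.add (Nat.add C x12114) x25236) x16488) x10656) x11628) x12600) x12276) x12060) x12132) x12108)
    (Nat.sub (Nat.add (Nat.add (Nat.add (Nat.add (Nat.add (Nat.add (Nat.add (Nat.add (Nat.add C x12124) x25246) x16498) x10666) x11638) x12610) x12286) x12106) x12126) x31806)
    (Nat.add (Nat.add (Nat.add (Nat.add (Nat.add (Nat.add (Nat.add (Nat.add (Nat.add (Nat.add C x12126) x25248) x16500) x10668) x11640) x12612) x12288) x12108) x12132) x12124)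
    (Nat.add (Nat.add (Nat.add (Nat.add (Nat.add (Nat.add (Nat.add (Nat.add (Nat.add C (Nat.mul x12132 (nat_lit 3))) x25254) x16506) x10674) x11646) x12618) x12294) x12114) x12126)
    (Nat.sub (Nat.add (Nat.add (Nat.add (Nat.add (Nat.add (Nat.add C x25280) x16532) x10700) x12644) x11996) x12164) x31840)
    (Nat.sub (Nat.sub (Nat.add (Nat.add (Nat.add (Nat.add (Nat.add (Nat.add (Nat.add (Nat.add (Nat.add C x25286) x16538) x10706) x12650) x12002) x12182) x12158) x12170) x12166) x12164) x31846)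
    (Nat.sub (Nat.add (Nat.add (Nat.add (Nat.add (Nat.add (Nat.add (Nat.add (Nat.add C x25288) x16540) x10708) x12652) x12004) x12184) x12172) x12164) x31848)
    (Nat.sub (Nat.sub (Nat.add (Nat.add (Nat.add (Nat.add (Nat.add (Nat.add (Nat.add (Nat.add C x25292) x16544) x10712) x12656) x12008) x12188) x12164) x12172) (Nat.mul x12170 (nat_lit 4))) x31852)
    (Nat.sub (Nat.sub (Nat.add (Nat.add (Nat.add (Nat.add (Nat.add (Nat.add (Nat.add (Nat.add (Nat.add C x25294) x16546) x10714) x12658) x12010) x12190) x12166) x12170) x12174) x12172) x31854)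
    (Nat.add (Nat.add (Nat.add (Nat.add (Nat.add (Nat.add (Nat.add C x25296) x16548) x10716) x12660) x12012) x12192) x12172)
    (Nat.sub (Nat.sub (Nat.add (Nat.add (Nat.add (Nat.add (Nat.add (Nat.add (Nat.add (Nat.add (Nat.add C x25304) x16556) x10724) x12668) x12020) x12236) x12164) x12188) x12184) (Nat.mul x12182 (nat_lit 2))) x31864)
    (Nat.sub (Nat.sub (Nat.add (Nat.add (Nat.add (Nat.add (Nat.add (Nat.add (Nat.add (Nat.add (Nat.add C x25306) x16558) x10726) x12670) x12022) x12238) x12166) x12190) x12182) (Nat.mul x12184 (nat_lit 2))) x31866)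
    (Nat.sub (Nat.sub (Nat.add (Nat.add (Nat.add (Nat.add (Nat.add (Nat.add (Nat.add (Nat.add (Nat.add (Nat.add C x25310) x16562) x10730) x12674) x12026) x12242) x12170) x12206) x12182) x12190) (Nat.mul x12188 (nat_lit 3))) x31870)
    (Nat.sub (Nat.sub (Nat.add (Nat.add (Nat.add (Nat.add (Nat.add (Nat.add (Nat.add (Nat.add (Nat.add (Nat.add (Nat.add (Nat.add C x25312) x16564) x10732) x12676) x12028) x12244) x12172) x12208) x12184) x12196) x12188) x12192) x12190) x31872)
    (Nat.sub (Nat.add (Nat.add (Nat.add (Nat.add (Nat.add (Nat.add (Nat.add (Nat.add (Nat.add (Nat.add C x25314) x16566) x10734) x12678) x12030) x12246) x12174) x12210) x12198) x12190) x12192)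
    (Nat.sub (Nat.sub (Nat.add (Nat.add (Nat.add (Nat.add (Nat.add (Nat.add (Nat.add (Nat.add (Nat.add C x25318) x16570) x10738) x12682) x12034) x12250) x12214) x12190) x12198) (Nat.mul x12196 (nat_lit 2))) x31878)
    (Nat.add (Nat.add (Nat.add (Nat.add (Nat.add (Nat.add (Nat.add (Nat.add (Nat.add C x25320) x16572) x10740) x12684) x12036) x12252) x12216) x12192) x12196)
    (Nat.sub (Nat.sub (Nat.add (Nat.add (Nat.add (Nat.add (Nat.add (Nat.add (Nat.add (Nat.add C x25328) x16580) x10748) x12692) x12044) x12260) x12188) x12208) (Nat.mul x12206 (nat_lit 4))) x31888)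
    (Nat.sub (Nat.sub (Nat.add (Nat.add (Nat.add (Nat.add (Nat.add (Nat.add (Nat.add (Nat.add (Nat.add (Nat.add C x25330) x16582) x10750) x12694) x12046) x12262) x12190) x12214) x12206) x12210) (Nat.mul x12208 (nat_lit 3))) x31890)
    (Nat.sub (Nat.add (Nat.add (Nat.add (Nat.add (Nat.add (Nat.add (Nat.add (Nat.add (Nat.add C x25332) x16584) x10752) x12696) x12048) x12264) x12192) x12216) x12208) (Nat.mul x12210 (nat_lit 4)))
    (Nat.sub (Nat.sub (Nat.add (Nat.add (Nat.add (Nat.add (Nat.add (Nat.add (Nat.add (Nat.add (Nat.add C x25336) x16588) x10756) x12700) x12052) x12268) x12196) x12208) x12216) (Nat.mul x12214 (nat_lit 2))) x31896)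
    (Nat.sub (Nat.add (Nat.add (Nat.add (Nat.add (Nat.add (Nat.add (Nat.add (Nat.add (Nat.add (Nat.add C x25338) x16590) x10758) x12702) x12054) x12270) x12198) x12210) x12222) x12214) x12216)
    (Nat.add (Nat.add (Nat.add (Nat.add (Nat.add (Nat.add (Nat.add C x25344) x16596) x10764) x12708) x12060) x12276) x12216)
    (Nat.sub (Nat.add (Nat.add (Nat.add (Nat.add (Nat.add (Nat.add (Nat.add (Nat.add C x25358) x16610) x10778) x12722) x12074) x12182) x12242) x12238) x31918)
    (Nat.sub (Nat.add (Nat.add (Nat.add (Nat.add (Nat.add (Nat.add (Nat.add (Nat.add C x25360) x16612) x10780) x12724) x12076) x12184) x12244) x12236) x31920)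
    (Nat.sub (Nat.sub (Nat.add (Nat.add (Nat.add (Nat.add (Nat.add (Nat.add (Nat.add (Nat.add (Nat.add C x25364) x16616) x10784) x12728) x12080) x12188) x12260) x12236) x12244) (Nat.mul x12242 (nat_lit 2))) x31924)
    (Nat.sub (Nat.add (Nat.add (Nat.add (Nat.add (Nat.add (Nat.add (Nat.add (Nat.add (Nat.add (Nat.add (Nat.add C x25366) x16618) x10786) x12730) x12082) x12190) x12262) x12238) x12250) x12242) x12246) x31926)
    (Nat.add (Nat.add (Nat.add (Nat.add (Nat.add (Nat.add (Nat.add (Nat.add (Nat.add C x25368) x16620) x10788) x12732) x12084) x12192) x12264) x12252) x12244)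
    (Nat.sub (Nat.sub (Nat.add (Nat.add (Nat.add (Nat.add (Nat.add (Nat.add (Nat.add (Nat.add (Nat.add C x25372) x16624) x10792) x12736) x12088) x12196) x12268) x12244) x12252) (Nat.mul x12250 (nat_lit 2))) x31932)
    (Nat.add (Nat.add (Nat.add (Nat.add (Nat.add (Nat.add (Nat.add (Nat.add (Nat.add C x25374) x16626) x10794) x12738) x12090) x12198) x12270) x12246) x12250)
    (Nat.sub (Nat.sub (Nat.add (Nat.add (Nat.add (Nat.add (Nat.add (Nat.add (Nat.add (Nat.add (Nat.add C x25382) x16634) x10802) x12746) x12098) x12206) x12314) x12242) x12262) x12260) x31942)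
    (Nat.sub (Nat.add (Nat.add (Nat.add (Nat.add (Nat.add (Nat.add (Nat.add (Nat.add (Nat.add (Nat.add (Nat.add C x25384) x16636) x10804) x12748) x12100) x12208) x12316) x12244) x12268) x12260) x12264) x31944)
    (Nat.sub (Nat.add (Nat.add (Nat.add (Nat.add (Nat.add (Nat.add (Nat.add (Nat.add (Nat.add (Nat.add C x25386) x16638) x10806) x12750) x12102) x12210) x12318) x12246) x12270) x12262) x12264)
    (Nat.sub (Nat.add (Nat.add (Nat.add (Nat.add (Nat.add (Nat.add (Nat.add (Nat.add (Nat.add (Nat.add (Nat.add C x25390) x16642) x10810) x12754) x12106) x12214) x12322) x12250) x12286) x12262) x12270) x31950)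
    (Nat.add (Nat.add (Nat.add (Nat.add (Nat.add (Nat.add (Nat.add (Nat.add (Nat.add (Nat.add (Nat.add (Nat.add (Nat.add C x12270) x25392) x16644) x10812) x12756) x12108) x12216) x12324) x12252) x12288) x12264) x12276) x12268)
    (Nat.add (Nat.add (Nat.add (Nat.add (Nat.add (Nat.add (Nat.add (Nat.add (Nat.add (Nat.add C x12276) x25398) x16650) x10818) x12762) x12114) x12222) x12330) x12294) x12270)
    (Nat.sub (Nat.add (Nat.add (Nat.add (Nat.add (Nat.add (Nat.add (Nat.add (Nat.add C x25408) x16660) x10828) x12772) x12124) x12340) x12268) x12288) x31968)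
    (Nat.add (Nat.add (Nat.add (Nat.add (Nat.add (Nat.add (Nat.add (Nat.add (Nat.add C x25410) x16662) x10830) x12774) x12126) x12342) x12270) x12294) x12286)
    (Nat.add (Nat.add (Nat.add (Nat.add (Nat.add (Nat.add (Nat.add (Nat.add (Nat.add C (Nat.mul x12294 (nat_lit 2))) x25416) x16668) x10836) x12780) x12132) x12348) x12276) x12288)
    (Nat.sub (Nat.add (Nat.add (Nat.add (Nat.add (Nat.add (Nat.add C x25436) x16688) x10856) x12800) x12260) x12316) x31996)
    (Nat.sub (Nat.add (Nat.add (Nat.add (Nat.add (Nat.add (Nat.add (Nat.add (Nat.add (Nat.add C x12316) x25438) x16690) x10858) x12802) x12262) x12322) x12314) x12318) x31998)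
    (Nat.add (Nat.add (Nat.add (Nat.add (Nat.add (Nat.add (Nat.add C x25440) x16692) x10860) x12804) x12264) x12324) x12316)
    (Nat.sub (Nat.add (Nat.add (Nat.add (Nat.add (Nat.add (Nat.add (Nat.add (Nat.add C x25444) x16696) x10864) x12808) x12268) x12340) x12316) x12324) x32004)
    (Nat.add (Nat.add (Nat.add (Nat.add (Nat.add (Nat.add (Nat.add (Nat.add (Nat.add (Nat.add C x12324) x25446) x16698) x10866) x12810) x12270) x12342) x12318) x12330) x12322)
    (Nat.add (Nat.add (Nat.add (Nat.add (Nat.add (Nat.add (Nat.add C x25452) x16704) x10872) x12816) x12276) x12348) x12324)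
    (Nat.sub (Nat.add (Nat.add (Nat.add (Nat.add (Nat.add (Nat.add (Nat.add (Nat.add C (Nat.mul x12340 (nat_lit 2))) x25462) x16714) x10882) x12826) x12286) x12322) x12342) x32022)
    (Nat.add (Nat.add (Nat.add (Nat.add (Nat.add (Nat.add (Nat.add (Nat.add (Nat.add C (Nat.mul x12342 (nat_lit 2))) x25464) x16716) x10884) x12828) x12288) x12324) x12348) x12340)
    (Nat.add (Nat.add (Nat.add (Nat.add (Nat.add (Nat.add (Nat.add (Nat.add (Nat.add C (Nat.mul x12348 (nat_lit 3))) x25470) x16722) x10890) x12834) x12294) x12330) x12366) x12342)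
    (Nat.add (Nat.add (Nat.add (Nat.add (Nat.add (Nat.add C (Nat.mul x12366 (nat_lit 4))) x25488) x16740) x10908) x12852) x12348)
    (Nat.sub (Nat.add (Nat.add (Nat.add (Nat.add (Nat.add (Nat.add C (Nat.mul x12410 (nat_lit 2))) x25532) x16784) x11924) x12428) x12416) x32092)
    (Nat.sub (Nat.add (Nat.add (Nat.add (Nat.add (Nat.add (Nat.add C x25538) x16790) x11930) x12434) x12410) x12418) x32098)
    (Nat.sub (Nat.add (Nat.add (Nat.add (Nat.add (Nat.add (Nat.add C (Nat.mul x12418 (nat_lit 2))) x25540) x16792) x11932) x12436) x12416) x32100)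
    (Nat.sub (Nat.add (Nat.add (Nat.add (Nat.add (Nat.add (Nat.add C x25550) x16802) x11942) x12482) x12410) x12434) x32110)
    (Nat.sub (Nat.add (Nat.add (Nat.add (Nat.add (Nat.add (Nat.add (Nat.add (Nat.add (Nat.add C x25556) x16808) x11948) x12488) x12416) x12452) x12428) x12440) x12436) x32116)
    (Nat.sub (Nat.add (Nat.add (Nat.add (Nat.add (Nat.add (Nat.add (Nat.add (Nat.add (Nat.add C x12436) x25558) x16810) x11950) x12490) x12418) x12454) x12442) x12434) x32118)
    (Nat.sub (Nat.sub (Nat.add (Nat.add (Nat.add (Nat.add (Nat.add (Nat.add (Nat.add C x25562) x16814) x11954) x12494) x12458) x12434) x12442) (Nat.mul x12440 (nat_lit 2))) x32122)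
    (Nat.sub (Nat.add (Nat.add (Nat.add (Nat.add (Nat.add (Nat.add (Nat.add (Nat.add (Nat.add C x12442) x25564) x16816) x11956) x12496) x12460) x12436) x12440) x12444) x32124)
    (Nat.add (Nat.add (Nat.add (Nat.add (Nat.add (Nat.add (Nat.add C (Nat.mul x12444 (nat_lit 2))) x25566) x16818) x11958) x12498) x12462) x12442)
    (Nat.sub (Nat.sub (Nat.add (Nat.add (Nat.add (Nat.add (Nat.add (Nat.add (Nat.add C x25574) x16826) x11966) x12506) x12434) x12458) x12454) (Nat.mul x12452 (nat_lit 2))) x32134)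
    (Nat.sub (Nat.sub (Nat.add (Nat.add (Nat.add (Nat.add (Nat.add (Nat.add (Nat.add C x25576) x16828) x11968) x12508) x12436) x12460) x12452) (Nat.mul x12454 (nat_lit 2))) x32136)
    (Nat.sub (Nat.sub (Nat.add (Nat.add (Nat.add (Nat.add (Nat.add (Nat.add (Nat.add C x25580) x16832) x11972) x12512) x12440) x12452) x12460) (Nat.mul x12458 (nat_lit 2))) x32140)
    (Nat.sub (Nat.add (Nat.add (Nat.add (Nat.add (Nat.add (Nat.add (Nat.add (Nat.add (Nat.add C x25582) x16834) x11974) x12514) x12442) x12454) x12466) x12458) x12462) x32142)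
    (Nat.add (Nat.add (Nat.add (Nat.add (Nat.add (Nat.add (Nat.add C x25584) x16836) x11976) x12516) x12444) x12468) x12460)
    (Nat.sub (Nat.add (Nat.add (Nat.add (Nat.add (Nat.add (Nat.add C x25588) x16840) x11980) x12520) x12460) x12468) x32148)
    (Nat.add (Nat.add (Nat.add (Nat.add (Nat.add (Nat.add (Nat.add C (Nat.mul x12468 (nat_lit 2))) x25590) x16842) x11982) x12522) x12462) x12466)
    (Nat.sub (Nat.add (Nat.add (Nat.add (Nat.add (Nat.add (Nat.add C x25604) x16856) x11996) x12644) x12428) x12488) x32164)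
    (Nat.sub (Nat.sub (Nat.add (Nat.add (Nat.add (Nat.add (Nat.add (Nat.add (Nat.add (Nat.add (Nat.add C x25610) x16862) x12002) x12650) x12434) x12506) x12482) x12494) x12490) x12488) x32170)
    (Nat.sub (Nat.add (Nat.add (Nat.add (Nat.add (Nat.add (Nat.add (Nat.add (Nat.add C x25612) x16864) x12004) x12652) x12436) x12508) x12496) x12488) x32172)
    (Nat.sub (Nat.sub (Nat.add (Nat.add (Nat.add (Nat.add (Nat.add (Nat.add (Nat.add (Nat.add C x25616) x16868) x12008) x12656) x12440) x12512) x12488) x12496) (Nat.mul x12494 (nat_lit 4))) x32176)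
    (Nat.sub (Nat.sub (Nat.add (Nat.add (Nat.add (Nat.add (Nat.add (Nat.add (Nat.add (Nat.add (Nat.add C x25618) x16870) x12010) x12658) x12442) x12514) x12490) x12494) x12498) x12496) x32178)
    (Nat.add (Nat.add (Nat.add (Nat.add (Nat.add (Nat.add (Nat.add C x25620) x16872) x12012) x12660) x12444) x12516) x12496)
    (Nat.sub (Nat.sub (Nat.add (Nat.add (Nat.add (Nat.add (Nat.add (Nat.add (Nat.add (Nat.add (Nat.add C x25628) x16880) x12020) x12668) x12452) x12560) x12488) x12512) x12508) x12506) x32188)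
    (Nat.sub (Nat.sub (Nat.add (Nat.add (Nat.add (Nat.add (Nat.add (Nat.add (Nat.add (Nat.add (Nat.add C x25630) x16882) x12022) x12670) x12454) x12562) x12490) x12514) x12506) x12508) x32190)
    (Nat.sub (Nat.sub (Nat.add (Nat.add (Nat.add (Nat.add (Nat.add (Nat.add (Nat.add (Nat.add (Nat.add (Nat.add C x25634) x16886) x12026) x12674) x12458) x12566) x12494) x12530) x12506) x12514) (Nat.mul x12512 (nat_lit 2))) x32194)
    (Nat.sub (Nat.add (Nat.add (Nat.add (Nat.add (Nat.add (Nat.add (Nat.add (Nat.add (Nat.add (Nat.add (Nat.add (Nat.add C x25636) x16888) x12028) x12676) x12460) x12568) x12496) x12532) x12508) x12520) x12512) x12516) x32196)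
    (Nat.add (Nat.add (Nat.add (Nat.add (Nat.add (Nat.add (Nat.add (Nat.add (Nat.add (Nat.add C x25638) x16890) x12030) x12678) x12462) x12570) x12498) x12534) x12522) x12514)
    (Nat.sub (Nat.sub (Nat.add (Nat.add (Nat.add (Nat.add (Nat.add (Nat.add (Nat.add (Nat.add (Nat.add C x25642) x16894) x12034) x12682) x12466) x12574) x12538) x12514) x12522) x12520) x32202)
    (Nat.add (Nat.add (Nat.add (Nat.add (Nat.add (Nat.add (Nat.add (Nat.add (Nat.add (Nat.add C x12522) x25644) x16896) x12036) x12684) x12468) x12576) x12540) x12516) x12520)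
    (Nat.sub (Nat.sub (Nat.add (Nat.add (Nat.add (Nat.add (Nat.add (Nat.add (Nat.add C x25652) x16904) x12044) x12692) x12584) x12512) x12532) (Nat.mul x12530 (nat_lit 2))) x32212)
    (Nat.sub (Nat.sub (Nat.add (Nat.add (Nat.add (Nat.add (Nat.add (Nat.add (Nat.add (Nat.add (Nat.add C x25654) x16906) x12046) x12694) x12586) x12514) x12538) x12530) x12534) x12532) x32214)
    (Nat.sub (Nat.add (Nat.add (Nat.add (Nat.add (Nat.add (Nat.add (Nat.add (Nat.add C x25656) x16908) x12048) x12696) x12588) x12516) x12540) x12532) (Nat.mul x12534 (nat_lit 2)))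
    (Nat.sub (Nat.add (Nat.add (Nat.add (Nat.add (Nat.add (Nat.add (Nat.add (Nat.add C x25660) x16912) x12052) x12700) x12592) x12520) x12532) x12540) x32220)
    (Nat.add (Nat.add (Nat.add (Nat.add (Nat.add (Nat.add (Nat.add (Nat.add (Nat.add (Nat.add C x12540) x25662) x16914) x12054) x12702) x12594) x12522) x12534) x12546) x12538)
    (Nat.add (Nat.add (Nat.add (Nat.add (Nat.add (Nat.add (Nat.add C (Nat.mul x12546 (nat_lit 2))) x25668) x16920) x12060) x12708) x12600) x12540)
    (Nat.sub (Nat.sub (Nat.add (Nat.add (Nat.add (Nat.add (Nat.add (Nat.add (Nat.add C x25682) x16934) x12074) x12722) x12506) x12566) x12562) (Nat.mul x12560 (nat_lit 2))) x32242)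
    (Nat.sub (Nat.sub (Nat.add (Nat.add (Nat.add (Nat.add (Nat.add (Nat.add (Nat.add C x25684) x16936) x12076) x12724) x12508) x12568) x12560) (Nat.mul x12562 (nat_lit 2))) x32244)
    (Nat.sub (Nat.sub (Nat.add (Nat.add (Nat.add (Nat.add (Nat.add (Nat.add (Nat.add (Nat.add C x25688) x16940) x12080) x12728) x12512) x12584) x12560) x12568) (Nat.mul x12566 (nat_lit 4))) x32248)
    (Nat.sub (Nat.sub (Nat.add (Nat.add (Nat.add (Nat.add (Nat.add (Nat.add (Nat.add (Nat.add (Nat.add (Nat.add C x25690) x16942) x12082) x12730) x12514) x12586) x12562) x12574) x12566) x12570) (Nat.mul x12568 (nat_lit 2))) x32250)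
    (Nat.sub (Nat.add (Nat.add (Nat.add (Nat.add (Nat.add (Nat.add (Nat.add (Nat.add C x25692) x16944) x12084) x12732) x12516) x12588) x12576) x12568) (Nat.mul x12570 (nat_lit 2)))
    (Nat.sub (Nat.sub (Nat.add (Nat.add (Nat.add (Nat.add (Nat.add (Nat.add (Nat.add (Nat.add C x25696) x16948) x12088) x12736) x12520) x12592) x12568) x12576) (Nat.mul x12574 (nat_lit 4))) x32256)
    (Nat.sub (Nat.add (Nat.add (Nat.add (Nat.add (Nat.add (Nat.add (Nat.add (Nat.add C x25698) x16950) x12090) x12738) x12522) x12594) x12570) x12574) (Nat.mul x12576 (nat_lit 2)))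
    (Nat.sub (Nat.sub (Nat.add (Nat.add (Nat.add (Nat.add (Nat.add (Nat.add (Nat.add C x25706) x16958) x12098) x12746) x12530) x12566) x12586) (Nat.mul x12584 (nat_lit 2))) x32266)
    (Nat.sub (Nat.sub (Nat.add (Nat.add (Nat.add (Nat.add (Nat.add (Nat.add (Nat.add (Nat.add (Nat.add C x25708) x16960) x12100) x12748) x12532) x12568) x12592) x12584) x12588) x12586) x32268)
    (Nat.sub (Nat.add (Nat.add (Nat.add (Nat.add (Nat.add (Nat.add (Nat.add (Nat.add C x25710) x16962) x12102) x12750) x12534) x12570) x12594) x12586) (Nat.mul x12588 (nat_lit 2)))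
    (Nat.sub (Nat.sub (Nat.add (Nat.add (Nat.add (Nat.add (Nat.add (Nat.add (Nat.add (Nat.add (Nat.add C x25714) x16966) x12106) x12754) x12538) x12574) x12610) x12586) x12594) x12592) x32274)
    (Nat.add (Nat.add (Nat.add (Nat.add (Nat.add (Nat.add (Nat.add (Nat.add (Nat.add (Nat.add C x25716) x16968) x12108) x12756) x12540) x12576) x12612) x12588) x12600) x12592)
    (Nat.add (Nat.add (Nat.add (Nat.add (Nat.add (Nat.add (Nat.add C x25722) x16974) x12114) x12762) x12546) x12618) x12594)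
    (Nat.sub (Nat.add (Nat.add (Nat.add (Nat.add (Nat.add (Nat.add C x25732) x16984) x12124) x12772) x12592) x12612) x32292)
    (Nat.add (Nat.add (Nat.add (Nat.add (Nat.add (Nat.add (Nat.add C x25734) x16986) x12126) x12774) x12594) x12618) x12610)
    (Nat.add (Nat.add (Nat.add (Nat.add (Nat.add (Nat.add (Nat.add C (Nat.mul x12618 (nat_lit 2))) x25740) x16992) x12132) x12780) x12600) x12612)
    (Nat.sub (Nat.add (Nat.add (Nat.add (Nat.add (Nat.add (Nat.add C (Nat.mul x12644 (nat_lit 2))) x25766) x17018) x12158) x12482) x12650) x32326)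
    (Nat.sub (Nat.add (Nat.add (Nat.add (Nat.add (Nat.add (Nat.add (Nat.add (Nat.add (Nat.add C x12650) x25772) x17024) x12164) x12488) x12668) x12644) x12656) x12652) x32332)
    (Nat.sub (Nat.add (Nat.add (Nat.add (Nat.add (Nat.add (Nat.add (Nat.add (Nat.add C (Nat.mul x12652 (nat_lit 2))) x25774) x17026) x12166) x12490) x12670) x12658) x12650) x32334)
    (Nat.sub (Nat.sub (Nat.add (Nat.add (Nat.add (Nat.add (Nat.add (Nat.add (Nat.add C x25778) x17030) x12170) x12494) x12674) x12650) x12658) (Nat.mul x12656 (nat_lit 2))) x32338)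
    (Nat.sub (Nat.add (Nat.add (Nat.add (Nat.add (Nat.add (Nat.add (Nat.add (Nat.add (Nat.add C x12658) x25780) x17032) x12172) x12496) x12676) x12652) x12656) x12660) x32340)
    (Nat.add (Nat.add (Nat.add (Nat.add (Nat.add (Nat.add (Nat.add C (Nat.mul x12660 (nat_lit 2))) x25782) x17034) x12174) x12498) x12678) x12658)
    (Nat.sub (Nat.add (Nat.add (Nat.add (Nat.add (Nat.add (Nat.add (Nat.add (Nat.add C x25790) x17042) x12182) x12506) x12722) x12650) x12674) x12670) x32350)
    (Nat.sub (Nat.add (Nat.add (Nat.add (Nat.add (Nat.add (Nat.add (Nat.add (Nat.add C x25792) x17044) x12184) x12508) x12724) x12652) x12676) x12668) x32352)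
    (Nat.sub (Nat.sub (Nat.add (Nat.add (Nat.add (Nat.add (Nat.add (Nat.add (Nat.add (Nat.add (Nat.add C x25796) x17048) x12188) x12512) x12728) x12656) x12692) x12668) x12676) x12674) x32356)
    (Nat.sub (Nat.add (Nat.add (Nat.add (Nat.add (Nat.add (Nat.add (Nat.add (Nat.add (Nat.add (Nat.add (Nat.add (Nat.add C x12676) x25798) x17050) x12190) x12514) x12730) x12658) x12694) x12670) x12682) x12674) x12678) x32358)
    (Nat.add (Nat.add (Nat.add (Nat.add (Nat.add (Nat.add (Nat.add (Nat.add (Nat.add (Nat.add C x12678) x25800) x17052) x12192) x12516) x12732) x12660) x12696) x12684) x12676)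
    (Nat.sub (Nat.add (Nat.add (Nat.add (Nat.add (Nat.add (Nat.add (Nat.add (Nat.add C x25804) x17056) x12196) x12520) x12736) x12700) x12676) x12684) x32364)
    (Nat.add (Nat.add (Nat.add (Nat.add (Nat.add (Nat.add (Nat.add (Nat.add (Nat.add C (Nat.mul x12684 (nat_lit 2))) x25806) x17058) x12198) x12522) x12738) x12702) x12678) x12682)
    (Nat.sub (Nat.sub (Nat.add (Nat.add (Nat.add (Nat.add (Nat.add (Nat.add (Nat.add C x25814) x17066) x12206) x12530) x12746) x12674) x12694) (Nat.mul x12692 (nat_lit 2))) x32374)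
    (Nat.sub (Nat.sub (Nat.add (Nat.add (Nat.add (Nat.add (Nat.add (Nat.add (Nat.add (Nat.add (Nat.add C x25816) x17068) x12208) x12532) x12748) x12676) x12700) x12692) x12696) x12694) x32376)
    (Nat.sub (Nat.add (Nat.add (Nat.add (Nat.add (Nat.add (Nat.add (Nat.add (Nat.add C x25818) x17070) x12210) x12534) x12750) x12678) x12702) x12694) (Nat.mul x12696 (nat_lit 2)))
    (Nat.sub (Nat.add (Nat.add (Nat.add (Nat.add (Nat.add (Nat.add (Nat.add (Nat.add C x25822) x17074) x12214) x12538) x12754) x12682) x12694) x12702) x32382)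
    (Nat.add (Nat.add (Nat.add (Nat.add (Nat.add (Nat.add (Nat.add (Nat.add (Nat.add (Nat.add C x12702) x25824) x17076) x12216) x12540) x12756) x12684) x12696) x12708) x12700)
    (Nat.add (Nat.add (Nat.add (Nat.add (Nat.add (Nat.add (Nat.add C (Nat.mul x12708 (nat_lit 2))) x25830) x17082) x12222) x12546) x12762) x12702)
    (Nat.sub (Nat.add (Nat.add (Nat.add (Nat.add (Nat.add (Nat.add (Nat.add (Nat.add (Nat.add C x12722) x25844) x17096) x12236) x12560) x12884) x12668) x12728) x12724) x32404)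
    (Nat.sub (Nat.add (Nat.add (Nat.add (Nat.add (Nat.add (Nat.add (Nat.add (Nat.add (Nat.add C x12724) x25846) x17098) x12238) x12562) x12886) x12670) x12730) x12722) x32406)
    (Nat.sub (Nat.sub (Nat.add (Nat.add (Nat.add (Nat.add (Nat.add (Nat.add (Nat.add (Nat.add (Nat.add C x25850) x17102) x12242) x12566) x12890) x12674) x12746) x12722) x12730) x12728) x32410)
    (Nat.sub (Nat.add (Nat.add (Nat.add (Nat.add (Nat.add (Nat.add (Nat.add (Nat.add (Nat.add (Nat.add (Nat.add (Nat.add C x12730) x25852) x17104) x12244) x12568) x12892) x12676) x12748) x12724) x12736) x12728) x12732) x32412)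
    (Nat.add (Nat.add (Nat.add (Nat.add (Nat.add (Nat.add (Nat.add (Nat.add (Nat.add (Nat.add C x12732) x25854) x17106) x12246) x12570) x12894) x12678) x12750) x12738) x12730)
    (Nat.sub (Nat.sub (Nat.add (Nat.add (Nat.add (Nat.add (Nat.add (Nat.add (Nat.add (Nat.add (Nat.add C x25858) x17110) x12250) x12574) x12898) x12682) x12754) x12730) x12738) x12736) x32418)
    (Nat.add (Nat.add (Nat.add (Nat.add (Nat.add (Nat.add (Nat.add (Nat.add (Nat.add (Nat.add C x12738) x25860) x17112) x12252) x12576) x12900) x12684) x12756) x12732) x12736)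
    (Nat.sub (Nat.add (Nat.add (Nat.add (Nat.add (Nat.add (Nat.add (Nat.add (Nat.add (Nat.add C x25868) x17120) x12260) x12584) x12908) x12692) x12800) x12728) x12748) x32428)
    (Nat.sub (Nat.add (Nat.add (Nat.add (Nat.add (Nat.add (Nat.add (Nat.add (Nat.add (Nat.add (Nat.add (Nat.add (Nat.add C x12748) x25870) x17122) x12262) x12586) x12910) x12694) x12802) x12730) x12754) x12746) x12750) x32430)
    (Nat.add (Nat.add (Nat.add (Nat.add (Nat.add (Nat.add (Nat.add (Nat.add (Nat.add (Nat.add C x25872) x17124) x12264) x12588) x12912) x12696) x12804) x12732) x12756) x12748)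
    (Nat.sub (Nat.add (Nat.add (Nat.add (Nat.add (Nat.add (Nat.add (Nat.add (Nat.add (Nat.add (Nat.add (Nat.add (Nat.add C x12754) x25876) x17128) x12268) x12592) x12916) x12700) x12808) x12736) x12772) x12748) x12756) x32436)
    (Nat.add (Nat.add (Nat.add (Nat.add (Nat.add (Nat.add (Nat.add (Nat.add (Nat.add (Nat.add (Nat.add (Nat.add (Nat.add C (Nat.mul x12756 (nat_lit 2))) x25878) x17130) x12270) x12594) x12918) x12702) x12810) x12738) x12774) x12750) x12762) x12754)
    (Nat.add (Nat.add (Nat.add (Nat.add (Nat.add (Nat.add (Nat.add (Nat.add (Nat.add (Nat.add C (Nat.mul x12762 (nat_lit 2))) x25884) x17136) x12276) x12600) x12924) x12708) x12816) x12780) x12756)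
    (Nat.sub (Nat.add (Nat.add (Nat.add (Nat.add (Nat.add (Nat.add (Nat.add (Nat.add (Nat.add C x12772) x25894) x17146) x12286) x12610) x12934) x12826) x12754) x12774) x32454)
    (Nat.add (Nat.add (Nat.add (Nat.add (Nat.add (Nat.add (Nat.add (Nat.add (Nat.add (Nat.add C x12774) x25896) x17148) x12288) x12612) x12936) x12828) x12756) x12780) x12772)
    (Nat.add (Nat.add (Nat.add (Nat.add (Nat.add (Nat.add (Nat.add (Nat.add (Nat.add C (Nat.mul x12780 (nat_lit 3))) x25902) x17154) x12294) x12618) x12942) x12834) x12762) x12774)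
    (Nat.sub (Nat.add (Nat.add (Nat.add (Nat.add (Nat.add (Nat.add C x25922) x17174) x12314) x12962) x12746) x12802) x32482)
    (Nat.sub (Nat.add (Nat.add (Nat.add (Nat.add (Nat.add (Nat.add (Nat.add (Nat.add (Nat.add C x12802) x25924) x17176) x12316) x12964) x12748) x12808) x12800) x12804) x32484)
    (Nat.add (Nat.add (Nat.add (Nat.add (Nat.add (Nat.add (Nat.add C x25926) x17178) x12318) x12966) x12750) x12810) x12802)
    (Nat.sub (Nat.add (Nat.add (Nat.add (Nat.add (Nat.add (Nat.add (Nat.add (Nat.add C x25930) x17182) x12322) x12970) x12754) x12826) x12802) x12810) x32490)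
    (Nat.add (Nat.add (Nat.add (Nat.add (Nat.add (Nat.add (Nat.add (Nat.add (Nat.add (Nat.add C x12810) x25932) x17184) x12324) x12972) x12756) x12828) x12804) x12816) x12808)
    (Nat.add (Nat.add (Nat.add (Nat.add (Nat.add (Nat.add (Nat.add C x25938) x17190) x12330) x12978) x12762) x12834) x12810)
    (Nat.sub (Nat.add (Nat.add (Nat.add (Nat.add (Nat.add (Nat.add (Nat.add (Nat.add C (Nat.mul x12826 (nat_lit 2))) x25948) x17200) x12340) x12988) x12772) x12808) x12828) x32508)
    (Nat.add (Nat.add (Nat.add (Nat.add (Nat.add (Nat.add (Nat.add (Nat.add (Nat.add C (Nat.mul x12828 (nat_lit 2))) x25950) x17202) x12342) x12990) x12774) x12810) x12834) x12826)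
    (Nat.add (Nat.add (Nat.add (Nat.add (Nat.add (Nat.add (Nat.add (Nat.add (Nat.add C (Nat.mul x12834 (nat_lit 3))) x25956) x17208) x12348) x12996) x12780) x12816) x12852) x12828)
    (Nat.add (Nat.add (Nat.add (Nat.add (Nat.add (Nat.add C (Nat.mul x12852 (nat_lit 4))) x25974) x17226) x12366) x13014) x12834)
    (Nat.sub (Nat.add (Nat.add (Nat.add (Nat.add (Nat.add (Nat.add C (Nat.mul x12884 (nat_lit 2))) x26006) x17258) x12722) x12890) x12886) x32566)
    (Nat.sub (Nat.add (Nat.add (Nat.add (Nat.add (Nat.add (Nat.add C (Nat.mul x12886 (nat_lit 2))) x26008) x17260) x12724) x12892) x12884) x32568)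
    (Nat.sub (Nat.add (Nat.add (Nat.add (Nat.add (Nat.add (Nat.add C x26012) x17264) x12728) x12908) x12884) x12892) x32572)
    (Nat.sub (Nat.add (Nat.add (Nat.add (Nat.add (Nat.add (Nat.add (Nat.add (Nat.add (Nat.add C (Nat.mul x12892 (nat_lit 2))) x26014) x17266) x12730) x12910) x12886) x12898) x12890) x12894) x32574)
    (Nat.add (Nat.add (Nat.add (Nat.add (Nat.add (Nat.add (Nat.add C (Nat.mul x12894 (nat_lit 2))) x26016) x17268) x12732) x12912) x12900) x12892)
    (Nat.sub (Nat.add (Nat.add (Nat.add (Nat.add (Nat.add (Nat.add C x26020) x17272) x12736) x12916) x12892) x12900) x32580)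
    (Nat.add (Nat.add (Nat.add (Nat.add (Nat.add (Nat.add (Nat.add C (Nat.mul x12900 (nat_lit 2))) x26022) x17274) x12738) x12918) x12894) x12898)
    (Nat.sub (Nat.add (Nat.add (Nat.add (Nat.add (Nat.add (Nat.add C x26030) x17282) x12746) x12962) x12890) x12910) x32590)
    (Nat.sub (Nat.add (Nat.add (Nat.add (Nat.add (Nat.add (Nat.add (Nat.add (Nat.add (Nat.add C x12910) x26032) x17284) x12748) x12964) x12892) x12916) x12908) x12912) x32592)
    (Nat.add (Nat.add (Nat.add (Nat.add (Nat.add (Nat.add (Nat.add C x26034) x17286) x12750) x12966) x12894) x12918) x12910)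
    (Nat.sub (Nat.add (Nat.add (Nat.add (Nat.add (Nat.add (Nat.add (Nat.add (Nat.add (Nat.add C x12916) x26038) x17290) x12754) x12970) x12898) x12934) x12910) x12918) x32598)
    (Nat.add (Nat.add (Nat.add (Nat.add (Nat.add (Nat.add (Nat.add (Nat.add (Nat.add (Nat.add C (Nat.mul x12918 (nat_lit 2))) x26040) x17292) x12756) x12972) x12900) x12936) x12912) x12924) x12916)
    (Nat.add (Nat.add (Nat.add (Nat.add (Nat.add (Nat.add (Nat.add C (Nat.mul x12924 (nat_lit 2))) x26046) x17298) x12762) x12978) x12942) x12918)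
    (Nat.sub (Nat.add (Nat.add (Nat.add (Nat.add (Nat.add (Nat.add C x26056) x17308) x12772) x12988) x12916) x12936) x32616)
    (Nat.add (Nat.add (Nat.add (Nat.add (Nat.add (Nat.add (Nat.add C x26058) x17310) x12774) x12990) x12918) x12942) x12934)
    (Nat.add (Nat.add (Nat.add (Nat.add (Nat.add (Nat.add (Nat.add C (Nat.mul x12942 (nat_lit 2))) x26064) x17316) x12780) x12996) x12924) x12936)
    (Nat.sub (Nat.add (Nat.add (Nat.add (Nat.add (Nat.add (Nat.add C (Nat.mul x12962 (nat_lit 2))) x26084) x17336) x12800) x12908) x12964) x32644)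
    (Nat.sub (Nat.add (Nat.add (Nat.add (Nat.add (Nat.add (Nat.add (Nat.add (Nat.add C (Nat.mul x12964 (nat_lit 3))) x26086) x17338) x12802) x12910) x12970) x12962) x12966) x32646)
    (Nat.add (Nat.add (Nat.add (Nat.add (Nat.add (Nat.add (Nat.add C (Nat.mul x12966 (nat_lit 2))) x26088) x17340) x12804) x12912) x12972) x12964)
    (Nat.sub (Nat.add (Nat.add (Nat.add (Nat.add (Nat.add (Nat.add (Nat.add (Nat.add C (Nat.mul x12970 (nat_lit 2))) x26092) x17344) x12808) x12916) x12988) x12964) x12972) x32652)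
    (Nat.add (Nat.add (Nat.add (Nat.add (Nat.add (Nat.add (Nat.add (Nat.add (Nat.add C (Nat.mul x12972 (nat_lit 3))) x26094) x17346) x12810) x12918) x12990) x12966) x12978) x12970)
    (Nat.add (Nat.add (Nat.add (Nat.add (Nat.add (Nat.add (Nat.add C (Nat.mul x12978 (nat_lit 2))) x26100) x17352) x12816) x12924) x12996) x12972)
    (Nat.sub (Nat.add (Nat.add (Nat.add (Nat.add (Nat.add (Nat.add (Nat.add (Nat.add C (Nat.mul x12988 (nat_lit 3))) x26110) x17362) x12826) x12934) x13042) x12970) x12990) x32670)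
    (Nat.add (Nat.add (Nat.add (Nat.add (Nat.add (Nat.add (Nat.add (Nat.add (Nat.add C (Nat.mul x12990 (nat_lit 3))) x26112) x17364) x12828) x12936) x13044) x12972) x12996) x12988)
    (Nat.add (Nat.add (Nat.add (Nat.add (Nat.add (Nat.add (Nat.add (Nat.add (Nat.add C (Nat.mul x12996 (nat_lit 4))) x26118) x17370) x12834) x12942) x13050) x12978) x13014) x12990)
    (Nat.add (Nat.add (Nat.add (Nat.add (Nat.add (Nat.add C (Nat.mul x13014 (nat_lit 4))) x26136) x17388) x12852) x13068) x12996)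
    (Nat.sub (Nat.add (Nat.add (Nat.add (Nat.add (Nat.add C (Nat.mul x13042 (nat_lit 4))) x26164) x17416) x12988) x13044) x32724)
    (Nat.add (Nat.add (Nat.add (Nat.add (Nat.add (Nat.add C (Nat.mul x13044 (nat_lit 4))) x26166) x17418) x12990) x13050) x13042)
    (Nat.add (Nat.add (Nat.add (Nat.add (Nat.add (Nat.add C (Nat.mul x13050 (nat_lit 4))) x26172) x17424) x12996) x13068) x13044)
    (Nat.add (Nat.add (Nat.add (Nat.add (Nat.add C (Nat.mul x13068 (nat_lit 6))) x26190) x17442) x13014) x13050)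
    (Nat.sub (Nat.add (Nat.add (Nat.add (Nat.add C (Nat.mul x13202 (nat_lit 2))) x26324) x8828) x13256) x32884)
    (Nat.sub (Nat.add (Nat.add (Nat.add (Nat.add (Nat.add (Nat.add (Nat.add C x13256) x26378) x8882) x13418) x13202) x13310) x13274) x32938)
    (Nat.sub (Nat.add (Nat.add (Nat.add (Nat.add (Nat.add (Nat.add C x26396) x8900) x13436) x13328) x13256) x13280) x32956)
    (Nat.sub (Nat.add (Nat.add (Nat.add (Nat.add (Nat.add (Nat.add C x26402) x8906) x13442) x13334) x13274) x13282) x32962)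
    (Nat.sub (Nat.add (Nat.add (Nat.add (Nat.add (Nat.add (Nat.add C (Nat.mul x13282 (nat_lit 2))) x26404) x8908) x13444) x13336) x13280) x32964)
    (Nat.sub (Nat.sub (Nat.add (Nat.add (Nat.add (Nat.add (Nat.add C x26432) x8936) x13472) x13256) x13328) (Nat.mul x13310 (nat_lit 2))) x32992)
    (Nat.sub (Nat.sub (Nat.add (Nat.add (Nat.add (Nat.add (Nat.add (Nat.add (Nat.add C x26450) x8954) x13490) x13274) x13310) x13346) x13334) x13328) x33010)
    (Nat.sub (Nat.sub (Nat.add (Nat.add (Nat.add (Nat.add (Nat.add (Nat.add (Nat.add C x26456) x8960) x13496) x13280) x13352) x13328) x13336) (Nat.mul x13334 (nat_lit 2))) x33016)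
    (Nat.sub (Nat.add (Nat.add (Nat.add (Nat.add (Nat.add (Nat.add C x26458) x8962) x13498) x13282) x13354) x13334) x33018)
    (Nat.sub (Nat.sub (Nat.add (Nat.add (Nat.add (Nat.add (Nat.add C x26468) x8972) x13508) x13328) x13352) (Nat.mul x13346 (nat_lit 2))) x33028)
    (Nat.sub (Nat.sub (Nat.add (Nat.add (Nat.add (Nat.add (Nat.add (Nat.add (Nat.add C x26474) x8978) x13514) x13334) x13346) x13358) x13354) x13352) x33034)
    (Nat.sub (Nat.add (Nat.add (Nat.add (Nat.add (Nat.add (Nat.add C x26476) x8980) x13516) x13336) x13360) x13352) x33036)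
    (Nat.sub (Nat.sub (Nat.add (Nat.add (Nat.add (Nat.add (Nat.add C x26480) x8984) x13520) x13352) x13360) (Nat.mul x13358 (nat_lit 2))) x33040)
    (Nat.sub (Nat.add (Nat.add (Nat.add (Nat.add (Nat.add (Nat.add (Nat.add C x13360) x26482) x8986) x13522) x13354) x13358) x13362) x33042)
    (Nat.add (Nat.add (Nat.add (Nat.add (Nat.add C (Nat.mul x13362 (nat_lit 2))) x26484) x8988) x13524) x13360)
    (Nat.sub (Nat.add (Nat.add (Nat.add (Nat.add (Nat.add (Nat.add C x26540) x9044) x13904) x13256) x13472) x13436) x33100)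
    (Nat.sub (Nat.sub (Nat.add (Nat.add (Nat.add (Nat.add (Nat.add (Nat.add (Nat.add C x26558) x9062) x13922) x13274) x13490) x13418) x13442) (Nat.mul x13436 (nat_lit 2))) x33118)
    (Nat.sub (Nat.sub (Nat.add (Nat.add (Nat.add (Nat.add (Nat.add (Nat.add (Nat.add C x26564) x9068) x13928) x13280) x13496) x13436) x13444) (Nat.mul x13442 (nat_lit 2))) x33124)
    (Nat.sub (Nat.add (Nat.add (Nat.add (Nat.add (Nat.add (Nat.add C x26566) x9070) x13930) x13282) x13498) x13442) x33126)
    (Nat.sub (Nat.sub (Nat.add (Nat.add (Nat.add (Nat.add (Nat.add (Nat.add (Nat.add C x26594) x9098) x13958) x13310) x13634) x13418) x13490) x13472) x33154)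
    (Nat.sub (Nat.sub (Nat.add (Nat.add (Nat.add (Nat.add (Nat.add (Nat.add (Nat.add (Nat.add (Nat.add (Nat.add C x26612) x9116) x13976) x13328) x13652) x13436) x13544) x13472) x13508) x13496) x13490) x33172)
    (Nat.sub (Nat.sub (Nat.add (Nat.add (Nat.add (Nat.add (Nat.add (Nat.add (Nat.add (Nat.add (Nat.add (Nat.add C x26618) x9122) x13982) x13334) x13658) x13442) x13550) x13514) x13490) x13498) (Nat.mul x13496 (nat_lit 2))) x33178)
    (Nat.sub (Nat.add (Nat.add (Nat.add (Nat.add (Nat.add (Nat.add (Nat.add (Nat.add (Nat.add C x26620) x9124) x13984) x13336) x13660) x13444) x13552) x13516) x13496) x33180)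
    (Nat.sub (Nat.sub (Nat.add (Nat.add (Nat.add (Nat.add (Nat.add (Nat.add (Nat.add (Nat.add C x26630) x9134) x13994) x13346) x13670) x13562) x13490) x13514) (Nat.mul x13508 (nat_lit 3))) x33190)
    (Nat.sub (Nat.sub (Nat.add (Nat.add (Nat.add (Nat.add (Nat.add (Nat.add (Nat.add (Nat.add (Nat.add (Nat.add C x26636) x9140) x14000) x13352) x13676) x13568) x13496) x13508) x13520) x13516) (Nat.mul x13514 (nat_lit 2))) x33196)
    (Nat.sub (Nat.sub (Nat.add (Nat.add (Nat.add (Nat.add (Nat.add (Nat.add (Nat.add (Nat.add (Nat.add C x26638) x9142) x14002) x13354) x13678) x13570) x13498) x13522) x13514) x13516) x33198)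
    (Nat.sub (Nat.sub (Nat.add (Nat.add (Nat.add (Nat.add (Nat.add (Nat.add (Nat.add (Nat.add C x26642) x9146) x14006) x13358) x13682) x13574) x13514) x13522) (Nat.mul x13520 (nat_lit 3))) x33202)
    (Nat.sub (Nat.add (Nat.add (Nat.add (Nat.add (Nat.add (Nat.add (Nat.add (Nat.add (Nat.add C x26644) x9148) x14008) x13360) x13684) x13576) x13516) x13520) x13524) x33204)
    (Nat.add (Nat.add (Nat.add (Nat.add (Nat.add (Nat.add (Nat.add (Nat.add C x13524) x26646) x9150) x14010) x13362) x13686) x13578) x13522)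
    (Nat.sub (Nat.sub (Nat.add (Nat.add (Nat.add (Nat.add (Nat.add (Nat.add (Nat.add C x26666) x9170) x14030) x13706) x13490) x13562) x13550) (Nat.mul x13544 (nat_lit 2))) x33226)
    (Nat.sub (Nat.sub (Nat.add (Nat.add (Nat.add (Nat.add (Nat.add (Nat.add (Nat.add (Nat.add C x26672) x9176) x14036) x13712) x13496) x13568) x13544) x13552) (Nat.mul x13550 (nat_lit 4))) x33232)
    (Nat.sub (Nat.sub (Nat.add (Nat.add (Nat.add (Nat.add (Nat.add (Nat.add (Nat.add C x26674) x9178) x14038) x13714) x13498) x13570) x13550) (Nat.mul x13552 (nat_lit 2))) x33234)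
    (Nat.sub (Nat.sub (Nat.add (Nat.add (Nat.add (Nat.add (Nat.add (Nat.add (Nat.add C x26684) x9188) x14048) x13724) x13508) x13544) x13568) (Nat.mul x13562 (nat_lit 2))) x33244)
    (Nat.sub (Nat.sub (Nat.add (Nat.add (Nat.add (Nat.add (Nat.add (Nat.add (Nat.add (Nat.add (Nat.add (Nat.add C x26690) x9194) x14054) x13730) x13514) x13550) x13586) x13562) x13574) x13570) (Nat.mul x13568 (nat_lit 2))) x33250)
    (Nat.sub (Nat.sub (Nat.add (Nat.add (Nat.add (Nat.add (Nat.add (Nat.add (Nat.add (Nat.add (Nat.add C x26692) x9196) x14056) x13732) x13516) x13552) x13588) x13576) x13568) x13570) x33252)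
    (Nat.sub (Nat.sub (Nat.add (Nat.add (Nat.add (Nat.add (Nat.add (Nat.add (Nat.add (Nat.add C x26696) x9200) x14060) x13736) x13520) x13592) x13568) x13576) (Nat.mul x13574 (nat_lit 4))) x33256)
    (Nat.sub (Nat.sub (Nat.add (Nat.add (Nat.add (Nat.add (Nat.add (Nat.add (Nat.add (Nat.add (Nat.add C x26698) x9202) x14062) x13738) x13522) x13594) x13570) x13574) x13578) x13576) x33258)
    (Nat.add (Nat.add (Nat.add (Nat.add (Nat.add (Nat.add (Nat.add C x26700) x9204) x14064) x13740) x13524) x13596) x13576)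
    (Nat.sub (Nat.sub (Nat.add (Nat.add (Nat.add (Nat.add (Nat.add (Nat.add (Nat.add C x26708) x9212) x14072) x13748) x13568) x13592) x13588) (Nat.mul x13586 (nat_lit 2))) x33268)
    (Nat.sub (Nat.sub (Nat.add (Nat.add (Nat.add (Nat.add (Nat.add (Nat.add (Nat.add C x26710) x9214) x14074) x13750) x13570) x13594) x13586) (Nat.mul x13588 (nat_lit 2))) x33270)
    (Nat.sub (Nat.sub (Nat.add (Nat.add (Nat.add (Nat.add (Nat.add (Nat.add (Nat.add C x26714) x9218) x14078) x13754) x13574) x13586) x13594) (Nat.mul x13592 (nat_lit 2))) x33274)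
    (Nat.sub (Nat.add (Nat.add (Nat.add (Nat.add (Nat.add (Nat.add (Nat.add (Nat.add (Nat.add C x26716) x9220) x14080) x13756) x13576) x13588) x13600) x13592) x13596) x33276)
    (Nat.add (Nat.add (Nat.add (Nat.add (Nat.add (Nat.add (Nat.add C x26718) x9222) x14082) x13758) x13578) x13602) x13594)
    (Nat.sub (Nat.add (Nat.add (Nat.add (Nat.add (Nat.add (Nat.add C x26722) x9226) x14086) x13762) x13594) x13602) x33282)
    (Nat.add (Nat.add (Nat.add (Nat.add (Nat.add (Nat.add (Nat.add C (Nat.mul x13602 (nat_lit 2))) x26724) x9228) x14088) x13764) x13596) x13600)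
    (Nat.sub (Nat.sub (Nat.add (Nat.add (Nat.add (Nat.add (Nat.add C x26756) x9260) x14120) x13472) x13652) (Nat.mul x13634 (nat_lit 2))) x33316)
    (Nat.sub (Nat.sub (Nat.add (Nat.add (Nat.add (Nat.add (Nat.add (Nat.add (Nat.add (Nat.add C x26774) x9278) x14138) x13490) x13706) x13634) x13670) x13658) (Nat.mul x13652 (nat_lit 3))) x33334)
    (Nat.sub (Nat.sub (Nat.add (Nat.add (Nat.add (Nat.add (Nat.add (Nat.add (Nat.add (Nat.add C x26780) x9284) x14144) x13496) x13712) x13676) x13652) x13660) (Nat.mul x13658 (nat_lit 4))) x33340)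
    (Nat.sub (Nat.sub (Nat.add (Nat.add (Nat.add (Nat.add (Nat.add (Nat.add (Nat.add C x26782) x9286) x14146) x13498) x13714) x13678) x13658) (Nat.mul x13660 (nat_lit 2))) x33342)
    (Nat.sub (Nat.sub (Nat.add (Nat.add (Nat.add (Nat.add (Nat.add (Nat.add (Nat.add C x26792) x9296) x14156) x13508) x13724) x13652) x13676) (Nat.mul x13670 (nat_lit 6))) x33352)
    (Nat.sub (Nat.sub (Nat.add (Nat.add (Nat.add (Nat.add (Nat.add (Nat.add (Nat.add (Nat.add (Nat.add C x26798) x9302) x14162) x13514) x13730) x13658) x13670) x13682) x13678) (Nat.mul x13676 (nat_lit 5))) x33358)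
    (Nat.sub (Nat.sub (Nat.add (Nat.add (Nat.add (Nat.add (Nat.add (Nat.add (Nat.add (Nat.add C x26800) x9304) x14164) x13516) x13732) x13660) x13684) x13676) (Nat.mul x13678 (nat_lit 4))) x33360)
    (Nat.sub (Nat.sub (Nat.add (Nat.add (Nat.add (Nat.add (Nat.add (Nat.add (Nat.add C x26804) x9308) x14168) x13520) x13736) x13676) x13684) (Nat.mul x13682 (nat_lit 6))) x33364)
    (Nat.sub (Nat.sub (Nat.add (Nat.add (Nat.add (Nat.add (Nat.add (Nat.add (Nat.add (Nat.add C x26806) x9310) x14170) x13522) x13738) x13678) x13682) x13686) (Nat.mul x13684 (nat_lit 3))) x33366)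
    (Nat.sub (Nat.add (Nat.add (Nat.add (Nat.add (Nat.add (Nat.add C x26808) x9312) x14172) x13524) x13740) x13684) (Nat.mul x13686 (nat_lit 2)))
    (Nat.sub (Nat.sub (Nat.add (Nat.add (Nat.add (Nat.add (Nat.add (Nat.add (Nat.add C x26828) x9332) x14192) x13544) x13652) x13724) x13712) (Nat.mul x13706 (nat_lit 2))) x33388)
    (Nat.sub (Nat.sub (Nat.add (Nat.add (Nat.add (Nat.add (Nat.add (Nat.add (Nat.add (Nat.add C x26834) x9338) x14198) x13550) x13658) x13730) x13706) x13714) (Nat.mul x13712 (nat_lit 4))) x33394)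
    (Nat.sub (Nat.sub (Nat.add (Nat.add (Nat.add (Nat.add (Nat.add (Nat.add (Nat.add C x26836) x9340) x14200) x13552) x13660) x13732) x13712) (Nat.mul x13714 (nat_lit 2))) x33396)
    (Nat.sub (Nat.sub (Nat.add (Nat.add (Nat.add (Nat.add (Nat.add (Nat.add (Nat.add (Nat.add C x26846) x9350) x14210) x13562) x13670) x13778) x13706) x13730) (Nat.mul x13724 (nat_lit 3))) x33406)
    (Nat.sub (Nat.sub (Nat.add (Nat.add (Nat.add (Nat.add (Nat.add (Nat.add (Nat.add (Nat.add (Nat.add (Nat.add (Nat.add C x26852) x9356) x14216) x13568) x13676) x13784) x13712) x13748) x13724) x13736) x13732) (Nat.mul x13730 (nat_lit 3))) x33412)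
    (Nat.sub (Nat.sub (Nat.add (Nat.add (Nat.add (Nat.add (Nat.add (Nat.add (Nat.add (Nat.add (Nat.add (Nat.add C x26854) x9358) x14218) x13570) x13678) x13786) x13714) x13750) x13738) x13730) (Nat.mul x13732 (nat_lit 2))) x33414)
    (Nat.sub (Nat.sub (Nat.add (Nat.add (Nat.add (Nat.add (Nat.add (Nat.add (Nat.add (Nat.add (Nat.add C x26858) x9362) x14222) x13574) x13682) x13790) x13754) x13730) x13738) (Nat.mul x13736 (nat_lit 5))) x33418)
    (Nat.sub (Nat.sub (Nat.add (Nat.add (Nat.add (Nat.add (Nat.add (Nat.add (Nat.add (Nat.add (Nat.add (Nat.add C x26860) x9364) x14224) x13576) x13684) x13792) x13756) x13732) x13736) x13740) (Nat.mul x13738 (nat_lit 2))) x33420)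
    (Nat.sub (Nat.add (Nat.add (Nat.add (Nat.add (Nat.add (Nat.add (Nat.add (Nat.add C x26862) x9366) x14226) x13578) x13686) x13794) x13758) x13738) x13740)
    (Nat.sub (Nat.sub (Nat.add (Nat.add (Nat.add (Nat.add (Nat.add (Nat.add (Nat.add (Nat.add C x26870) x9374) x14234) x13586) x13802) x13730) x13754) x13750) (Nat.mul x13748 (nat_lit 4))) x33430)
    (Nat.sub (Nat.sub (Nat.add (Nat.add (Nat.add (Nat.add (Nat.add (Nat.add (Nat.add (Nat.add C x26872) x9376) x14236) x13588) x13804) x13732) x13756) x13748) (Nat.mul x13750 (nat_lit 4))) x33432)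
    (Nat.sub (Nat.sub (Nat.add (Nat.add (Nat.add (Nat.add (Nat.add (Nat.add (Nat.add (Nat.add C x26876) x9380) x14240) x13592) x13808) x13736) x13748) x13756) (Nat.mul x13754 (nat_lit 4))) x33436)
    (Nat.sub (Nat.sub (Nat.add (Nat.add (Nat.add (Nat.add (Nat.add (Nat.add (Nat.add (Nat.add (Nat.add (Nat.add C x26878) x9382) x14242) x13594) x13810) x13738) x13750) x13762) x13754) x13758) (Nat.mul x13756 (nat_lit 2))) x33438)
    (Nat.sub (Nat.add (Nat.add (Nat.add (Nat.add (Nat.add (Nat.add (Nat.add (Nat.add C x26880) x9384) x14244) x13596) x13812) x13740) x13764) x13756) (Nat.mul x13758 (nat_lit 2)))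
    (Nat.sub (Nat.sub (Nat.add (Nat.add (Nat.add (Nat.add (Nat.add (Nat.add (Nat.add C x26884) x9388) x14248) x13600) x13816) x13756) x13764) (Nat.mul x13762 (nat_lit 2))) x33444)
    (Nat.add (Nat.add (Nat.add (Nat.add (Nat.add (Nat.add (Nat.add C x26886) x9390) x14250) x13602) x13818) x13758) x13762)
    (Nat.sub (Nat.sub (Nat.add (Nat.add (Nat.add (Nat.add (Nat.add C x26900) x9404) x14264) x13724) x13784) (Nat.mul x13778 (nat_lit 2))) x33460)
    (Nat.sub (Nat.sub (Nat.add (Nat.add (Nat.add (Nat.add (Nat.add (Nat.add (Nat.add (Nat.add C x26906) x9410) x14270) x13730) x13802) x13778) x13790) x13786) (Nat.mul x13784 (nat_lit 3))) x33466)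
    (Nat.sub (Nat.sub (Nat.add (Nat.add (Nat.add (Nat.add (Nat.add (Nat.add (Nat.add C x26908) x9412) x14272) x13732) x13804) x13792) x13784) (Nat.mul x13786 (nat_lit 2))) x33468)
    (Nat.sub (Nat.sub (Nat.add (Nat.add (Nat.add (Nat.add (Nat.add (Nat.add (Nat.add C x26912) x9416) x14276) x13736) x13808) x13784) x13792) (Nat.mul x13790 (nat_lit 6))) x33472)
    (Nat.sub (Nat.sub (Nat.add (Nat.add (Nat.add (Nat.add (Nat.add (Nat.add (Nat.add (Nat.add C x26914) x9418) x14278) x13738) x13810) x13786) x13790) x13794) (Nat.mul x13792 (nat_lit 3))) x33474)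
    (Nat.sub (Nat.add (Nat.add (Nat.add (Nat.add (Nat.add (Nat.add C x26916) x9420) x14280) x13740) x13812) x13792) (Nat.mul x13794 (nat_lit 2)))
    (Nat.sub (Nat.sub (Nat.add (Nat.add (Nat.add (Nat.add (Nat.add (Nat.add (Nat.add C x26924) x9428) x14288) x13748) x13784) x13808) x13804) (Nat.mul x13802 (nat_lit 2))) x33484)
    (Nat.sub (Nat.sub (Nat.add (Nat.add (Nat.add (Nat.add (Nat.add (Nat.add (Nat.add C x26926) x9430) x14290) x13750) x13786) x13810) x13802) (Nat.mul x13804 (nat_lit 2))) x33486)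
    (Nat.sub (Nat.sub (Nat.add (Nat.add (Nat.add (Nat.add (Nat.add (Nat.add (Nat.add (Nat.add C x26930) x9434) x14294) x13754) x13790) x13826) x13802) x13810) (Nat.mul x13808 (nat_lit 3))) x33490)
    (Nat.sub (Nat.sub (Nat.add (Nat.add (Nat.add (Nat.add (Nat.add (Nat.add (Nat.add (Nat.add (Nat.add (Nat.add C x26932) x9436) x14296) x13756) x13792) x13828) x13804) x13816) x13808) x13812) x13810) x33492)
    (Nat.sub (Nat.add (Nat.add (Nat.add (Nat.add (Nat.add (Nat.add (Nat.add (Nat.add C x26934) x9438) x14298) x13758) x13794) x13830) x13818) x13810) x13812)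
    (Nat.sub (Nat.sub (Nat.add (Nat.add (Nat.add (Nat.add (Nat.add (Nat.add (Nat.add C x26938) x9442) x14302) x13762) x13834) x13810) x13818) (Nat.mul x13816 (nat_lit 2))) x33498)
    (Nat.add (Nat.add (Nat.add (Nat.add (Nat.add (Nat.add (Nat.add C x26940) x9444) x14304) x13764) x13836) x13812) x13816)
    (Nat.sub (Nat.sub (Nat.add (Nat.add (Nat.add (Nat.add (Nat.add C x26948) x9452) x14312) x13808) x13828) (Nat.mul x13826 (nat_lit 2))) x33508)
    (Nat.sub (Nat.sub (Nat.add (Nat.add (Nat.add (Nat.add (Nat.add (Nat.add (Nat.add C x26950) x9454) x14314) x13810) x13834) x13826) x13830) x13828) x33510)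
    (Nat.sub (Nat.add (Nat.add (Nat.add (Nat.add (Nat.add (Nat.add C x26952) x9456) x14316) x13812) x13836) x13828) (Nat.mul x13830 (nat_lit 2)))
    (Nat.sub (Nat.add (Nat.add (Nat.add (Nat.add (Nat.add (Nat.add C x26956) x9460) x14320) x13816) x13828) x13836) x33516)
    (Nat.add (Nat.add (Nat.add (Nat.add (Nat.add (Nat.add (Nat.add (Nat.add C x13836) x26958) x9462) x14322) x13818) x13830) x13842) x13834)
    (Nat.add (Nat.add (Nat.add (Nat.add (Nat.add C (Nat.mul x13842 (nat_lit 2))) x26964) x9468) x14328) x13836)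
    (Nat.sub (Nat.add (Nat.add (Nat.add (Nat.add (Nat.add (Nat.add C x27026) x9530) x15362) x13418) x13958) x13922) x33586)
    (Nat.sub (Nat.sub (Nat.add (Nat.add (Nat.add (Nat.add (Nat.add (Nat.add (Nat.add C x27044) x9548) x15380) x13436) x13976) x13904) x13928) (Nat.mul x13922 (nat_lit 2))) x33604)
    (Nat.sub (Nat.sub (Nat.add (Nat.add (Nat.add (Nat.add (Nat.add (Nat.add (Nat.add C x27050) x9554) x15386) x13442) x13982) x13922) x13930) (Nat.mul x13928 (nat_lit 2))) x33610)
    (Nat.sub (Nat.add (Nat.add (Nat.add (Nat.add (Nat.add (Nat.add C x27052) x9556) x15388) x13444) x13984) x13928) x33612)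
    (Nat.sub (Nat.sub (Nat.add (Nat.add (Nat.add (Nat.add (Nat.add (Nat.add (Nat.add C x27080) x9584) x15416) x13472) x14120) x13904) x13976) (Nat.mul x13958 (nat_lit 2))) x33640)
    (Nat.sub (Nat.sub (Nat.add (Nat.add (Nat.add (Nat.add (Nat.add (Nat.add (Nat.add (Nat.add (Nat.add (Nat.add C x27098) x9602) x15434) x13490) x14138) x13922) x14030) x13958) x13994) x13982) (Nat.mul x13976 (nat_lit 2))) x33658)
    (Nat.sub (Nat.sub (Nat.add (Nat.add (Nat.add (Nat.add (Nat.add (Nat.add (Nat.add (Nat.add (Nat.add (Nat.add C x27104) x9608) x15440) x13496) x14144) x13928) x14036) x14000) x13976) x13984) (Nat.mul x13982 (nat_lit 3))) x33664)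
    (Nat.sub (Nat.sub (Nat.add (Nat.add (Nat.add (Nat.add (Nat.add (Nat.add (Nat.add (Nat.add (Nat.add C x27106) x9610) x15442) x13498) x14146) x13930) x14038) x14002) x13982) x13984) x33666)
    (Nat.sub (Nat.sub (Nat.add (Nat.add (Nat.add (Nat.add (Nat.add (Nat.add (Nat.add (Nat.add C x27116) x9620) x15452) x13508) x14156) x14048) x13976) x14000) (Nat.mul x13994 (nat_lit 4))) x33676)
    (Nat.sub (Nat.sub (Nat.add (Nat.add (Nat.add (Nat.add (Nat.add (Nat.add (Nat.add (Nat.add (Nat.add (Nat.add C x27122) x9626) x15458) x13514) x14162) x14054) x13982) x13994) x14006) x14002) (Nat.mul x14000 (nat_lit 3))) x33682)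
    (Nat.sub (Nat.sub (Nat.add (Nat.add (Nat.add (Nat.add (Nat.add (Nat.add (Nat.add (Nat.add (Nat.add C x27124) x9628) x15460) x13516) x14164) x14056) x13984) x14008) x14000) (Nat.mul x14002 (nat_lit 2))) x33684)
    (Nat.sub (Nat.sub (Nat.add (Nat.add (Nat.add (Nat.add (Nat.add (Nat.add (Nat.add (Nat.add C x27128) x9632) x15464) x13520) x14168) x14060) x14000) x14008) (Nat.mul x14006 (nat_lit 4))) x33688)
    (Nat.sub (Nat.sub (Nat.add (Nat.add (Nat.add (Nat.add (Nat.add (Nat.add (Nat.add (Nat.add (Nat.add C x27130) x9634) x15466) x13522) x14170) x14062) x14002) x14006) x14010) x14008) x33690)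
    (Nat.add (Nat.add (Nat.add (Nat.add (Nat.add (Nat.add (Nat.add C x27132) x9636) x15468) x13524) x14172) x14064) x14008)
    (Nat.sub (Nat.sub (Nat.add (Nat.add (Nat.add (Nat.add (Nat.add (Nat.add (Nat.add (Nat.add C x27152) x9656) x15488) x13544) x14192) x13976) x14048) x14036) (Nat.mul x14030 (nat_lit 4))) x33712)
    (Nat.sub (Nat.sub (Nat.add (Nat.add (Nat.add (Nat.add (Nat.add (Nat.add (Nat.add (Nat.add (Nat.add C x27158) x9662) x15494) x13550) x14198) x13982) x14054) x14030) x14038) (Nat.mul x14036 (nat_lit 6))) x33718)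
    (Nat.sub (Nat.sub (Nat.add (Nat.add (Nat.add (Nat.add (Nat.add (Nat.add (Nat.add (Nat.add C x27160) x9664) x15496) x13552) x14200) x13984) x14056) x14036) (Nat.mul x14038 (nat_lit 4))) x33720)
    (Nat.sub (Nat.sub (Nat.add (Nat.add (Nat.add (Nat.add (Nat.add (Nat.add (Nat.add (Nat.add C x27170) x9674) x15506) x13562) x14210) x13994) x14030) x14054) (Nat.mul x14048 (nat_lit 4))) x33730)
    (Nat.sub (Nat.sub (Nat.add (Nat.add (Nat.add (Nat.add (Nat.add (Nat.add (Nat.add (Nat.add (Nat.add (Nat.add (Nat.add C x27176) x9680) x15512) x13568) x14216) x14000) x14036) x14072) x14048) x14060) x14056) (Nat.mul x14054 (nat_lit 4))) x33736)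
    (Nat.sub (Nat.sub (Nat.add (Nat.add (Nat.add (Nat.add (Nat.add (Nat.add (Nat.add (Nat.add (Nat.add (Nat.add C x27178) x9682) x15514) x13570) x14218) x14002) x14038) x14074) x14062) x14054) (Nat.mul x14056 (nat_lit 3))) x33738)
    (Nat.sub (Nat.sub (Nat.add (Nat.add (Nat.add (Nat.add (Nat.add (Nat.add (Nat.add (Nat.add (Nat.add C x27182) x9686) x15518) x13574) x14222) x14006) x14078) x14054) x14062) (Nat.mul x14060 (nat_lit 6))) x33742)
    (Nat.sub (Nat.sub (Nat.add (Nat.add (Nat.add (Nat.add (Nat.add (Nat.add (Nat.add (Nat.add (Nat.add (Nat.add C x27184) x9688) x15520) x13576) x14224) x14008) x14080) x14056) x14060) x14064) (Nat.mul x14062 (nat_lit 3))) x33744)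
    (Nat.sub (Nat.add (Nat.add (Nat.add (Nat.add (Nat.add (Nat.add (Nat.add (Nat.add C x27186) x9690) x15522) x13578) x14226) x14010) x14082) x14062) (Nat.mul x14064 (nat_lit 2)))
    (Nat.sub (Nat.sub (Nat.add (Nat.add (Nat.add (Nat.add (Nat.add (Nat.add (Nat.add (Nat.add C x27194) x9698) x15530) x13586) x14234) x14054) x14078) x14074) (Nat.mul x14072 (nat_lit 4))) x33754)
    (Nat.sub (Nat.sub (Nat.add (Nat.add (Nat.add (Nat.add (Nat.add (Nat.add (Nat.add (Nat.add C x27196) x9700) x15532) x13588) x14236) x14056) x14080) x14072) (Nat.mul x14074 (nat_lit 4))) x33756)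
    (Nat.sub (Nat.sub (Nat.add (Nat.add (Nat.add (Nat.add (Nat.add (Nat.add (Nat.add (Nat.add C x27200) x9704) x15536) x13592) x14240) x14060) x14072) x14080) (Nat.mul x14078 (nat_lit 4))) x33760)
    (Nat.sub (Nat.sub (Nat.add (Nat.add (Nat.add (Nat.add (Nat.add (Nat.add (Nat.add (Nat.add (Nat.add (Nat.add C x27202) x9706) x15538) x13594) x14242) x14062) x14074) x14086) x14078) x14082) (Nat.mul x14080 (nat_lit 2))) x33762)
    (Nat.sub (Nat.add (Nat.add (Nat.add (Nat.add (Nat.add (Nat.add (Nat.add (Nat.add C x27204) x9708) x15540) x13596) x14244) x14064) x14088) x14080) (Nat.mul x14082 (nat_lit 2)))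
    (Nat.sub (Nat.sub (Nat.add (Nat.add (Nat.add (Nat.add (Nat.add (Nat.add (Nat.add C x27208) x9712) x15544) x13600) x14248) x14080) x14088) (Nat.mul x14086 (nat_lit 2))) x33768)
    (Nat.add (Nat.add (Nat.add (Nat.add (Nat.add (Nat.add (Nat.add C x27210) x9714) x15546) x13602) x14250) x14082) x14086)
    (Nat.sub (Nat.sub (Nat.add (Nat.add (Nat.add (Nat.add (Nat.add (Nat.add (Nat.add C x27242) x9746) x15578) x13634) x14606) x13958) x14138) x14120) x33802)
    (Nat.sub (Nat.sub (Nat.add (Nat.add (Nat.add (Nat.add (Nat.add (Nat.add (Nat.add (Nat.add (Nat.add (Nat.add C x27260) x9764) x15596) x13652) x14624) x13976) x14192) x14120) x14156) x14144) (Nat.mul x14138 (nat_lit 2))) x33820)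
    (Nat.sub (Nat.sub (Nat.add (Nat.add (Nat.add (Nat.add (Nat.add (Nat.add (Nat.add (Nat.add (Nat.add (Nat.add C x27266) x9770) x15602) x13658) x14630) x13982) x14198) x14162) x14138) x14146) (Nat.mul x14144 (nat_lit 3))) x33826)
    (Nat.sub (Nat.sub (Nat.add (Nat.add (Nat.add (Nat.add (Nat.add (Nat.add (Nat.add (Nat.add (Nat.add C x27268) x9772) x15604) x13660) x14632) x13984) x14200) x14164) x14144) x14146) x33828)
    (Nat.sub (Nat.sub (Nat.add (Nat.add (Nat.add (Nat.add (Nat.add (Nat.add (Nat.add (Nat.add (Nat.add C x27278) x9782) x15614) x13670) x14642) x13994) x14210) x14138) x14162) (Nat.mul x14156 (nat_lit 5))) x33838)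
    (Nat.sub (Nat.sub (Nat.add (Nat.add (Nat.add (Nat.add (Nat.add (Nat.add (Nat.add (Nat.add (Nat.add (Nat.add (Nat.add C x27284) x9788) x15620) x13676) x14648) x14000) x14216) x14144) x14156) x14168) x14164) (Nat.mul x14162 (nat_lit 4))) x33844)
    (Nat.sub (Nat.sub (Nat.add (Nat.add (Nat.add (Nat.add (Nat.add (Nat.add (Nat.add (Nat.add (Nat.add (Nat.add C x27286) x9790) x15622) x13678) x14650) x14002) x14218) x14146) x14170) x14162) (Nat.mul x14164 (nat_lit 3))) x33846)
    (Nat.sub (Nat.sub (Nat.add (Nat.add (Nat.add (Nat.add (Nat.add (Nat.add (Nat.add (Nat.add (Nat.add C x27290) x9794) x15626) x13682) x14654) x14006) x14222) x14162) x14170) (Nat.mul x14168 (nat_lit 5))) x33850)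
    (Nat.sub (Nat.sub (Nat.add (Nat.add (Nat.add (Nat.add (Nat.add (Nat.add (Nat.add (Nat.add (Nat.add (Nat.add C x27292) x9796) x15628) x13684) x14656) x14008) x14224) x14164) x14168) x14172) (Nat.mul x14170 (nat_lit 2))) x33852)
    (Nat.sub (Nat.add (Nat.add (Nat.add (Nat.add (Nat.add (Nat.add (Nat.add (Nat.add C x27294) x9798) x15630) x13686) x14658) x14010) x14226) x14170) x14172)
    (Nat.sub (Nat.sub (Nat.add (Nat.add (Nat.add (Nat.add (Nat.add (Nat.add (Nat.add (Nat.add (Nat.add (Nat.add C x27314) x9818) x15650) x13706) x14678) x14030) x14354) x14138) x14210) x14198) (Nat.mul x14192 (nat_lit 2))) x33874)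
    (Nat.sub (Nat.sub (Nat.add (Nat.add (Nat.add (Nat.add (Nat.add (Nat.add (Nat.add (Nat.add (Nat.add (Nat.add (Nat.add C x27320) x9824) x15656) x13712) x14684) x14036) x14360) x14144) x14216) x14192) x14200) (Nat.mul x14198 (nat_lit 4))) x33880)
    (Nat.sub (Nat.sub (Nat.add (Nat.add (Nat.add (Nat.add (Nat.add (Nat.add (Nat.add (Nat.add (Nat.add (Nat.add C x27322) x9826) x15658) x13714) x14686) x14038) x14362) x14146) x14218) x14198) (Nat.mul x14200 (nat_lit 2))) x33882)
    (Nat.sub (Nat.sub (Nat.add (Nat.add (Nat.add (Nat.add (Nat.add (Nat.add (Nat.add (Nat.add (Nat.add (Nat.add (Nat.add C x27332) x9836) x15668) x13724) x14696) x14048) x14372) x14156) x14264) x14192) x14216) (Nat.mul x14210 (nat_lit 3))) x33892)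
    (Nat.sub (Nat.sub (Nat.add (Nat.add (Nat.add (Nat.add (Nat.add (Nat.add (Nat.add (Nat.add (Nat.add (Nat.add (Nat.add (Nat.add (Nat.add (Nat.add C x27338) x9842) x15674) x13730) x14702) x14054) x14378) x14162) x14270) x14198) x14234) x14210) x14222) x14218) (Nat.mul x14216 (nat_lit 3))) x33898)
    (Nat.sub (Nat.sub (Nat.add (Nat.add (Nat.add (Nat.add (Nat.add (Nat.add (Nat.add (Nat.add (Nat.add (Nat.add (Nat.add (Nat.add (Nat.add C x27340) x9844) x15676) x13732) x14704) x14056) x14380) x14164) x14272) x14200) x14236) x14224) x14216) (Nat.mul x14218 (nat_lit 2))) x33900)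
    (Nat.sub (Nat.sub (Nat.add (Nat.add (Nat.add (Nat.add (Nat.add (Nat.add (Nat.add (Nat.add (Nat.add (Nat.add (Nat.add (Nat.add C x27344) x9848) x15680) x13736) x14708) x14060) x14384) x14168) x14276) x14240) x14216) x14224) (Nat.mul x14222 (nat_lit 5))) x33904)
    (Nat.sub (Nat.sub (Nat.add (Nat.add (Nat.add (Nat.add (Nat.add (Nat.add (Nat.add (Nat.add (Nat.add (Nat.add (Nat.add (Nat.add (Nat.add C x27346) x9850) x15682) x13738) x14710) x14062) x14386) x14170) x14278) x14242) x14218) x14222) x14226) (Nat.mul x14224 (nat_lit 2))) x33906)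
    (Nat.sub (Nat.add (Nat.add (Nat.add (Nat.add (Nat.add (Nat.add (Nat.add (Nat.add (Nat.add (Nat.add (Nat.add C x27348) x9852) x15684) x13740) x14712) x14064) x14388) x14172) x14280) x14244) x14224) x14226)
    (Nat.sub (Nat.sub (Nat.add (Nat.add (Nat.add (Nat.add (Nat.add (Nat.add (Nat.add (Nat.add (Nat.add (Nat.add (Nat.add C x27356) x9860) x15692) x13748) x14720) x14072) x14396) x14288) x14216) x14240) x14236) (Nat.mul x14234 (nat_lit 4))) x33916)
    (Nat.sub (Nat.sub (Nat.add (Nat.add (Nat.add (Nat.add (Nat.add (Nat.add (Nat.add (Nat.add (Nat.add (Nat.add (Nat.add C x27358) x9862) x15694) x13750) x14722) x14074) x14398) x14290) x14218) x14242) x14234) (Nat.mul x14236 (nat_lit 4))) x33918)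
    (Nat.sub (Nat.sub (Nat.add (Nat.add (Nat.add (Nat.add (Nat.add (Nat.add (Nat.add (Nat.add (Nat.add (Nat.add (Nat.add C x27362) x9866) x15698) x13754) x14726) x14078) x14402) x14294) x14222) x14234) x14242) (Nat.mul x14240 (nat_lit 4))) x33922)
    (Nat.sub (Nat.sub (Nat.add (Nat.add (Nat.add (Nat.add (Nat.add (Nat.add (Nat.add (Nat.add (Nat.add (Nat.add (Nat.add (Nat.add (Nat.add C x27364) x9868) x15700) x13756) x14728) x14080) x14404) x14296) x14224) x14236) x14248) x14240) x14244) (Nat.mul x14242 (nat_lit 2))) x33924)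
    (Nat.sub (Nat.add (Nat.add (Nat.add (Nat.add (Nat.add (Nat.add (Nat.add (Nat.add (Nat.add (Nat.add (Nat.add C x27366) x9870) x15702) x13758) x14730) x14082) x14406) x14298) x14226) x14250) x14242) (Nat.mul x14244 (nat_lit 2)))
    (Nat.sub (Nat.sub (Nat.add (Nat.add (Nat.add (Nat.add (Nat.add (Nat.add (Nat.add (Nat.add (Nat.add (Nat.add C x27370) x9874) x15706) x13762) x14734) x14086) x14410) x14302) x14242) x14250) (Nat.mul x14248 (nat_lit 2))) x33930)
    (Nat.add (Nat.add (Nat.add (Nat.add (Nat.add (Nat.add (Nat.add (Nat.add (Nat.add (Nat.add C x27372) x9876) x15708) x13764) x14736) x14088) x14412) x14304) x14244) x14248)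
    (Nat.sub (Nat.sub (Nat.add (Nat.add (Nat.add (Nat.add (Nat.add (Nat.add (Nat.add (Nat.add C x27386) x9890) x15722) x13778) x14750) x14426) x14210) x14270) (Nat.mul x14264 (nat_lit 3))) x33946)
    (Nat.sub (Nat.sub (Nat.add (Nat.add (Nat.add (Nat.add (Nat.add (Nat.add (Nat.add (Nat.add (Nat.add (Nat.add (Nat.add C x27392) x9896) x15728) x13784) x14756) x14432) x14216) x14288) x14264) x14276) x14272) (Nat.mul x14270 (nat_lit 4))) x33952)
    (Nat.sub (Nat.sub (Nat.add (Nat.add (Nat.add (Nat.add (Nat.add (Nat.add (Nat.add (Nat.add (Nat.add (Nat.add C x27394) x9898) x15730) x13786) x14758) x14434) x14218) x14290) x14278) x14270) (Nat.mul x14272 (nat_lit 3))) x33954)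
    (Nat.sub (Nat.sub (Nat.add (Nat.add (Nat.add (Nat.add (Nat.add (Nat.add (Nat.add (Nat.add (Nat.add (Nat.add C x27398) x9902) x15734) x13790) x14762) x14438) x14222) x14294) x14270) x14278) (Nat.mul x14276 (nat_lit 7))) x33958)
    (Nat.sub (Nat.sub (Nat.add (Nat.add (Nat.add (Nat.add (Nat.add (Nat.add (Nat.add (Nat.add (Nat.add (Nat.add (Nat.add C x27400) x9904) x15736) x13792) x14764) x14440) x14224) x14296) x14272) x14276) x14280) (Nat.mul x14278 (nat_lit 4))) x33960)
    (Nat.sub (Nat.add (Nat.add (Nat.add (Nat.add (Nat.add (Nat.add (Nat.add (Nat.add (Nat.add C x27402) x9906) x15738) x13794) x14766) x14442) x14226) x14298) x14278) (Nat.mul x14280 (nat_lit 3)))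
    (Nat.sub (Nat.sub (Nat.add (Nat.add (Nat.add (Nat.add (Nat.add (Nat.add (Nat.add (Nat.add (Nat.add (Nat.add C x27410) x9914) x15746) x13802) x14774) x14450) x14234) x14270) x14294) x14290) (Nat.mul x14288 (nat_lit 3))) x33970)
    (Nat.sub (Nat.sub (Nat.add (Nat.add (Nat.add (Nat.add (Nat.add (Nat.add (Nat.add (Nat.add (Nat.add (Nat.add C x27412) x9916) x15748) x13804) x14776) x14452) x14236) x14272) x14296) x14288) (Nat.mul x14290 (nat_lit 3))) x33972)
    (Nat.sub (Nat.sub (Nat.add (Nat.add (Nat.add (Nat.add (Nat.add (Nat.add (Nat.add (Nat.add (Nat.add (Nat.add (Nat.add C x27416) x9920) x15752) x13808) x14780) x14456) x14240) x14276) x14312) x14288) x14296) (Nat.mul x14294 (nat_lit 4))) x33976)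
    (Nat.sub (Nat.sub (Nat.add (Nat.add (Nat.add (Nat.add (Nat.add (Nat.add (Nat.add (Nat.add (Nat.add (Nat.add (Nat.add (Nat.add (Nat.add C x27418) x9922) x15754) x13810) x14782) x14458) x14242) x14278) x14314) x14290) x14302) x14294) x14298) (Nat.mul x14296 (nat_lit 2))) x33978)
    (Nat.sub (Nat.add (Nat.add (Nat.add (Nat.add (Nat.add (Nat.add (Nat.add (Nat.add (Nat.add (Nat.add (Nat.add C x27420) x9924) x15756) x13812) x14784) x14460) x14244) x14280) x14316) x14304) x14296) (Nat.mul x14298 (nat_lit 2)))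
    (Nat.sub (Nat.sub (Nat.add (Nat.add (Nat.add (Nat.add (Nat.add (Nat.add (Nat.add (Nat.add (Nat.add (Nat.add C x27424) x9928) x15760) x13816) x14788) x14464) x14248) x14320) x14296) x14304) (Nat.mul x14302 (nat_lit 3))) x33984)
    (Nat.sub (Nat.add (Nat.add (Nat.add (Nat.add (Nat.add (Nat.add (Nat.add (Nat.add (Nat.add (Nat.add C x27426) x9930) x15762) x13818) x14790) x14466) x14250) x14322) x14298) x14302) x14304)
    (Nat.sub (Nat.sub (Nat.add (Nat.add (Nat.add (Nat.add (Nat.add (Nat.add (Nat.add (Nat.add C x27434) x9938) x15770) x13826) x14798) x14474) x14294) x14314) (Nat.mul x14312 (nat_lit 3))) x33994)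
    (Nat.sub (Nat.sub (Nat.add (Nat.add (Nat.add (Nat.add (Nat.add (Nat.add (Nat.add (Nat.add (Nat.add (Nat.add C x27436) x9940) x15772) x13828) x14800) x14476) x14296) x14320) x14312) x14316) (Nat.mul x14314 (nat_lit 2))) x33996)
    (Nat.sub (Nat.add (Nat.add (Nat.add (Nat.add (Nat.add (Nat.add (Nat.add (Nat.add (Nat.add C x27438) x9942) x15774) x13830) x14802) x14478) x14298) x14322) x14314) (Nat.mul x14316 (nat_lit 3)))
    (Nat.sub (Nat.sub (Nat.add (Nat.add (Nat.add (Nat.add (Nat.add (Nat.add (Nat.add (Nat.add (Nat.add C x27442) x9946) x15778) x13834) x14806) x14482) x14302) x14314) x14322) x14320) x34002)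
    (Nat.add (Nat.add (Nat.add (Nat.add (Nat.add (Nat.add (Nat.add (Nat.add (Nat.add (Nat.add C x27444) x9948) x15780) x13836) x14808) x14484) x14304) x14316) x14328) x14320)
    (Nat.add (Nat.add (Nat.add (Nat.add (Nat.add (Nat.add (Nat.add (Nat.add C x14328) x27450) x9954) x15786) x13842) x14814) x14490) x14322)
    (Nat.sub (Nat.sub (Nat.add (Nat.add (Nat.add (Nat.add (Nat.add (Nat.add (Nat.add C x27476) x9980) x15812) x14840) x14192) x14372) x14360) (Nat.mul x14354 (nat_lit 2))) x34036)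
    (Nat.sub (Nat.sub (Nat.add (Nat.add (Nat.add (Nat.add (Nat.add (Nat.add (Nat.add (Nat.add C x27482) x9986) x15818) x14846) x14198) x14378) x14354) x14362) (Nat.mul x14360 (nat_lit 4))) x34042)
    (Nat.sub (Nat.sub (Nat.add (Nat.add (Nat.add (Nat.add (Nat.add (Nat.add (Nat.add C x27484) x9988) x15820) x14848) x14200) x14380) x14360) (Nat.mul x14362 (nat_lit 2))) x34044)
    (Nat.sub (Nat.sub (Nat.add (Nat.add (Nat.add (Nat.add (Nat.add (Nat.add (Nat.add (Nat.add C x27494) x9998) x15830) x14858) x14210) x14426) x14354) x14378) (Nat.mul x14372 (nat_lit 4))) x34054)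
    (Nat.sub (Nat.sub (Nat.add (Nat.add (Nat.add (Nat.add (Nat.add (Nat.add (Nat.add (Nat.add (Nat.add (Nat.add (Nat.add C x27500) x10004) x15836) x14864) x14216) x14432) x14360) x14396) x14372) x14384) x14380) (Nat.mul x14378 (nat_lit 4))) x34060)
    (Nat.sub (Nat.sub (Nat.add (Nat.add (Nat.add (Nat.add (Nat.add (Nat.add (Nat.add (Nat.add (Nat.add (Nat.add C x27502) x10006) x15838) x14866) x14218) x14434) x14362) x14398) x14386) x14378) (Nat.mul x14380 (nat_lit 3))) x34062)
    (Nat.sub (Nat.sub (Nat.add (Nat.add (Nat.add (Nat.add (Nat.add (Nat.add (Nat.add (Nat.add (Nat.add C x27506) x10010) x15842) x14870) x14222) x14438) x14402) x14378) x14386) (Nat.mul x14384 (nat_lit 6))) x34066)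
    (Nat.sub (Nat.sub (Nat.add (Nat.add (Nat.add (Nat.add (Nat.add (Nat.add (Nat.add (Nat.add (Nat.add (Nat.add C x27508) x10012) x15844) x14872) x14224) x14440) x14404) x14380) x14384) x14388) (Nat.mul x14386 (nat_lit 3))) x34068)
    (Nat.sub (Nat.add (Nat.add (Nat.add (Nat.add (Nat.add (Nat.add (Nat.add (Nat.add C x27510) x10014) x15846) x14874) x14226) x14442) x14406) x14386) (Nat.mul x14388 (nat_lit 2)))
    (Nat.sub (Nat.sub (Nat.add (Nat.add (Nat.add (Nat.add (Nat.add (Nat.add (Nat.add (Nat.add (Nat.add C x27518) x10022) x15854) x14882) x14234) x14450) x14378) x14402) x14398) (Nat.mul x14396 (nat_lit 6))) x34078)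
    (Nat.sub (Nat.sub (Nat.add (Nat.add (Nat.add (Nat.add (Nat.add (Nat.add (Nat.add (Nat.add (Nat.add C x27520) x10024) x15856) x14884) x14236) x14452) x14380) x14404) x14396) (Nat.mul x14398 (nat_lit 6))) x34080)
    (Nat.sub (Nat.sub (Nat.add (Nat.add (Nat.add (Nat.add (Nat.add (Nat.add (Nat.add (Nat.add (Nat.add C x27524) x10028) x15860) x14888) x14240) x14456) x14384) x14396) x14404) (Nat.mul x14402 (nat_lit 6))) x34084)
    (Nat.sub (Nat.sub (Nat.add (Nat.add (Nat.add (Nat.add (Nat.add (Nat.add (Nat.add (Nat.add (Nat.add (Nat.add (Nat.add C x27526) x10030) x15862) x14890) x14242) x14458) x14386) x14398) x14410) x14402) x14406) (Nat.mul x14404 (nat_lit 4))) x34086)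
    (Nat.sub (Nat.add (Nat.add (Nat.add (Nat.add (Nat.add (Nat.add (Nat.add (Nat.add (Nat.add C x27528) x10032) x15864) x14892) x14244) x14460) x14388) x14412) x14404) (Nat.mul x14406 (nat_lit 4)))
    (Nat.sub (Nat.sub (Nat.add (Nat.add (Nat.add (Nat.add (Nat.add (Nat.add (Nat.add (Nat.add C x27532) x10036) x15868) x14896) x14248) x14464) x14404) x14412) (Nat.mul x14410 (nat_lit 4))) x34092)
    (Nat.sub (Nat.add (Nat.add (Nat.add (Nat.add (Nat.add (Nat.add (Nat.add (Nat.add C x27534) x10038) x15870) x14898) x14250) x14466) x14406) x14410) (Nat.mul x14412 (nat_lit 2)))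
    (Nat.sub (Nat.sub (Nat.add (Nat.add (Nat.add (Nat.add (Nat.add (Nat.add (Nat.add C x27548) x10052) x15884) x14912) x14264) x14372) x14432) (Nat.mul x14426 (nat_lit 2))) x34108)
    (Nat.sub (Nat.sub (Nat.add (Nat.add (Nat.add (Nat.add (Nat.add (Nat.add (Nat.add (Nat.add (Nat.add (Nat.add C x27554) x10058) x15890) x14918) x14270) x14378) x14450) x14426) x14438) x14434) (Nat.mul x14432 (nat_lit 3))) x34114)
    (Nat.sub (Nat.sub (Nat.add (Nat.add (Nat.add (Nat.add (Nat.add (Nat.add (Nat.add (Nat.add (Nat.add C x27556) x10060) x15892) x14920) x14272) x14380) x14452) x14440) x14432) (Nat.mul x14434 (nat_lit 2))) x34116)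
    (Nat.sub (Nat.sub (Nat.add (Nat.add (Nat.add (Nat.add (Nat.add (Nat.add (Nat.add (Nat.add (Nat.add C x27560) x10064) x15896) x14924) x14276) x14384) x14456) x14432) x14440) (Nat.mul x14438 (nat_lit 6))) x34120)
    (Nat.sub (Nat.sub (Nat.add (Nat.add (Nat.add (Nat.add (Nat.add (Nat.add (Nat.add (Nat.add (Nat.add (Nat.add C x27562) x10066) x15898) x14926) x14278) x14386) x14458) x14434) x14438) x14442) (Nat.mul x14440 (nat_lit 3))) x34122)
    (Nat.sub (Nat.add (Nat.add (Nat.add (Nat.add (Nat.add (Nat.add (Nat.add (Nat.add C x27564) x10068) x15900) x14928) x14280) x14388) x14460) x14440) (Nat.mul x14442 (nat_lit 2)))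
    (Nat.sub (Nat.sub (Nat.add (Nat.add (Nat.add (Nat.add (Nat.add (Nat.add (Nat.add (Nat.add (Nat.add (Nat.add C x27572) x10076) x15908) x14936) x14288) x14396) x14504) x14432) x14456) x14452) (Nat.mul x14450 (nat_lit 3))) x34132)
    (Nat.sub (Nat.sub (Nat.add (Nat.add (Nat.add (Nat.add (Nat.add (Nat.add (Nat.add (Nat.add (Nat.add (Nat.add C x27574) x10078) x15910) x14938) x14290) x14398) x14506) x14434) x14458) x14450) (Nat.mul x14452 (nat_lit 3))) x34134)
    (Nat.sub (Nat.sub (Nat.add (Nat.add (Nat.add (Nat.add (Nat.add (Nat.add (Nat.add (Nat.add (Nat.add (Nat.add (Nat.add C x27578) x10082) x15914) x14942) x14294) x14402) x14510) x14438) x14474) x14450) x14458) (Nat.mul x14456 (nat_lit 4))) x34138)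
    (Nat.sub (Nat.sub (Nat.add (Nat.add (Nat.add (Nat.add (Nat.add (Nat.add (Nat.add (Nat.add (Nat.add (Nat.add (Nat.add (Nat.add (Nat.add C x27580) x10084) x15916) x14944) x14296) x14404) x14512) x14440) x14476) x14452) x14464) x14456) x14460) (Nat.mul x14458 (nat_lit 2))) x34140)
    (Nat.sub (Nat.add (Nat.add (Nat.add (Nat.add (Nat.add (Nat.add (Nat.add (Nat.add (Nat.add (Nat.add (Nat.add C x27582) x10086) x15918) x14946) x14298) x14406) x14514) x14442) x14478) x14466) x14458) (Nat.mul x14460 (nat_lit 2)))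
    (Nat.sub (Nat.sub (Nat.add (Nat.add (Nat.add (Nat.add (Nat.add (Nat.add (Nat.add (Nat.add (Nat.add (Nat.add C x27586) x10090) x15922) x14950) x14302) x14410) x14518) x14482) x14458) x14466) (Nat.mul x14464 (nat_lit 3))) x34146)
    (Nat.sub (Nat.add (Nat.add (Nat.add (Nat.add (Nat.add (Nat.add (Nat.add (Nat.add (Nat.add (Nat.add C x27588) x10092) x15924) x14952) x14304) x14412) x14520) x14484) x14460) x14464) x14466)
    (Nat.sub (Nat.sub (Nat.add (Nat.add (Nat.add (Nat.add (Nat.add (Nat.add (Nat.add (Nat.add C x27596) x10100) x15932) x14960) x14312) x14528) x14456) x14476) (Nat.mul x14474 (nat_lit 4))) x34156)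
    (Nat.sub (Nat.sub (Nat.add (Nat.add (Nat.add (Nat.add (Nat.add (Nat.add (Nat.add (Nat.add (Nat.add (Nat.add C x27598) x10102) x15934) x14962) x14314) x14530) x14458) x14482) x14474) x14478) (Nat.mul x14476 (nat_lit 3))) x34158)
    (Nat.sub (Nat.add (Nat.add (Nat.add (Nat.add (Nat.add (Nat.add (Nat.add (Nat.add (Nat.add C x27600) x10104) x15936) x14964) x14316) x14532) x14460) x14484) x14476) (Nat.mul x14478 (nat_lit 4)))
    (Nat.sub (Nat.sub (Nat.add (Nat.add (Nat.add (Nat.add (Nat.add (Nat.add (Nat.add (Nat.add (Nat.add C x27604) x10108) x15940) x14968) x14320) x14536) x14464) x14476) x14484) (Nat.mul x14482 (nat_lit 2))) x34164)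
    (Nat.sub (Nat.add (Nat.add (Nat.add (Nat.add (Nat.add (Nat.add (Nat.add (Nat.add (Nat.add (Nat.add C x27606) x10110) x15942) x14970) x14322) x14538) x14466) x14478) x14490) x14482) x14484)
    (Nat.add (Nat.add (Nat.add (Nat.add (Nat.add (Nat.add (Nat.add C x27612) x10116) x15948) x14976) x14328) x14544) x14484)
    (Nat.sub (Nat.sub (Nat.add (Nat.add (Nat.add (Nat.add (Nat.add (Nat.add (Nat.add C x27626) x10130) x15962) x14990) x14450) x14510) x14506) (Nat.mul x14504 (nat_lit 2))) x34186)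
    (Nat.sub (Nat.sub (Nat.add (Nat.add (Nat.add (Nat.add (Nat.add (Nat.add (Nat.add C x27628) x10132) x15964) x14992) x14452) x14512) x14504) (Nat.mul x14506 (nat_lit 2))) x34188)
    (Nat.sub (Nat.sub (Nat.add (Nat.add (Nat.add (Nat.add (Nat.add (Nat.add (Nat.add (Nat.add C x27632) x10136) x15968) x14996) x14456) x14528) x14504) x14512) (Nat.mul x14510 (nat_lit 4))) x34192)
    (Nat.sub (Nat.sub (Nat.add (Nat.add (Nat.add (Nat.add (Nat.add (Nat.add (Nat.add (Nat.add (Nat.add (Nat.add C x27634) x10138) x15970) x14998) x14458) x14530) x14506) x14518) x14510) x14514) (Nat.mul x14512 (nat_lit 2))) x34194)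
    (Nat.sub (Nat.add (Nat.add (Nat.add (Nat.add (Nat.add (Nat.add (Nat.add (Nat.add C x27636) x10140) x15972) x15000) x14460) x14532) x14520) x14512) (Nat.mul x14514 (nat_lit 2)))
    (Nat.sub (Nat.sub (Nat.add (Nat.add (Nat.add (Nat.add (Nat.add (Nat.add (Nat.add (Nat.add C x27640) x10144) x15976) x15004) x14464) x14536) x14512) x14520) (Nat.mul x14518 (nat_lit 4))) x34200)
    (Nat.sub (Nat.add (Nat.add (Nat.add (Nat.add (Nat.add (Nat.add (Nat.add (Nat.add C x27642) x10146) x15978) x15006) x14466) x14538) x14514) x14518) (Nat.mul x14520 (nat_lit 2)))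
    (Nat.sub (Nat.sub (Nat.add (Nat.add (Nat.add (Nat.add (Nat.add (Nat.add (Nat.add C x27650) x10154) x15986) x15014) x14474) x14510) x14530) (Nat.mul x14528 (nat_lit 2))) x34210)
    (Nat.sub (Nat.sub (Nat.add (Nat.add (Nat.add (Nat.add (Nat.add (Nat.add (Nat.add (Nat.add (Nat.add C x27652) x10156) x15988) x15016) x14476) x14512) x14536) x14528) x14532) x14530) x34212)
    (Nat.sub (Nat.add (Nat.add (Nat.add (Nat.add (Nat.add (Nat.add (Nat.add (Nat.add C x27654) x10158) x15990) x15018) x14478) x14514) x14538) x14530) (Nat.mul x14532 (nat_lit 2)))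
    (Nat.sub (Nat.sub (Nat.add (Nat.add (Nat.add (Nat.add (Nat.add (Nat.add (Nat.add (Nat.add (Nat.add C x27658) x10162) x15994) x15022) x14482) x14518) x14554) x14530) x14538) x14536) x34218)
    (Nat.add (Nat.add (Nat.add (Nat.add (Nat.add (Nat.add (Nat.add (Nat.add (Nat.add (Nat.add C x27660) x10164) x15996) x15024) x14484) x14520) x14556) x14532) x14544) x14536)
    (Nat.add (Nat.add (Nat.add (Nat.add (Nat.add (Nat.add (Nat.add C x27666) x10170) x16002) x15030) x14490) x14562) x14538)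
    (Nat.sub (Nat.add (Nat.add (Nat.add (Nat.add (Nat.add (Nat.add C x27676) x10180) x16012) x15040) x14536) x14556) x34236)
    (Nat.add (Nat.add (Nat.add (Nat.add (Nat.add (Nat.add (Nat.add C x27678) x10182) x16014) x15042) x14538) x14562) x14554)
    (Nat.add (Nat.add (Nat.add (Nat.add (Nat.add (Nat.add (Nat.add C (Nat.mul x14562 (nat_lit 2))) x27684) x10188) x16020) x15048) x14544) x14556)
    (Nat.sub (Nat.sub (Nat.add (Nat.add (Nat.add (Nat.add (Nat.add C x27728) x10232) x16064) x14120) x14624) (Nat.mul x14606 (nat_lit 2))) x34288)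
    (Nat.sub (Nat.sub (Nat.add (Nat.add (Nat.add (Nat.add (Nat.add (Nat.add (Nat.add (Nat.add C x27746) x10250) x16082) x14138) x14678) x14606) x14642) x14630) (Nat.mul x14624 (nat_lit 3))) x34306)
    (Nat.sub (Nat.sub (Nat.add (Nat.add (Nat.add (Nat.add (Nat.add (Nat.add (Nat.add (Nat.add C x27752) x10256) x16088) x14144) x14684) x14648) x14624) x14632) (Nat.mul x14630 (nat_lit 4))) x34312)
    (Nat.sub (Nat.sub (Nat.add (Nat.add (Nat.add (Nat.add (Nat.add (Nat.add (Nat.add C x27754) x10258) x16090) x14146) x14686) x14650) x14630) (Nat.mul x14632 (nat_lit 2))) x34314)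
    (Nat.sub (Nat.sub (Nat.add (Nat.add (Nat.add (Nat.add (Nat.add (Nat.add (Nat.add C x27764) x10268) x16100) x14156) x14696) x14624) x14648) (Nat.mul x14642 (nat_lit 6))) x34324)
    (Nat.sub (Nat.sub (Nat.add (Nat.add (Nat.add (Nat.add (Nat.add (Nat.add (Nat.add (Nat.add (Nat.add C x27770) x10274) x16106) x14162) x14702) x14630) x14642) x14654) x14650) (Nat.mul x14648 (nat_lit 5))) x34330)
    (Nat.sub (Nat.sub (Nat.add (Nat.add (Nat.add (Nat.add (Nat.add (Nat.add (Nat.add (Nat.add C x27772) x10276) x16108) x14164) x14704) x14632) x14656) x14648) (Nat.mul x14650 (nat_lit 4))) x34332)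
    (Nat.sub (Nat.sub (Nat.add (Nat.add (Nat.add (Nat.add (Nat.add (Nat.add (Nat.add C x27776) x10280) x16112) x14168) x14708) x14648) x14656) (Nat.mul x14654 (nat_lit 6))) x34336)
    (Nat.sub (Nat.sub (Nat.add (Nat.add (Nat.add (Nat.add (Nat.add (Nat.add (Nat.add (Nat.add C x27778) x10282) x16114) x14170) x14710) x14650) x14654) x14658) (Nat.mul x14656 (nat_lit 3))) x34338)
    (Nat.sub (Nat.add (Nat.add (Nat.add (Nat.add (Nat.add (Nat.add C x27780) x10284) x16116) x14172) x14712) x14656) (Nat.mul x14658 (nat_lit 2)))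
    (Nat.sub (Nat.sub (Nat.add (Nat.add (Nat.add (Nat.add (Nat.add (Nat.add (Nat.add (Nat.add C x27800) x10304) x16136) x14192) x14840) x14624) x14696) x14684) (Nat.mul x14678 (nat_lit 4))) x34360)
    (Nat.sub (Nat.sub (Nat.add (Nat.add (Nat.add (Nat.add (Nat.add (Nat.add (Nat.add (Nat.add (Nat.add C x27806) x10310) x16142) x14198) x14846) x14630) x14702) x14678) x14686) (Nat.mul x14684 (nat_lit 6))) x34366)
    (Nat.sub (Nat.sub (Nat.add (Nat.add (Nat.add (Nat.add (Nat.add (Nat.add (Nat.add (Nat.add C x27808) x10312) x16144) x14200) x14848) x14632) x14704) x14684) (Nat.mul x14686 (nat_lit 4))) x34368)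
    (Nat.sub (Nat.sub (Nat.add (Nat.add (Nat.add (Nat.add (Nat.add (Nat.add (Nat.add (Nat.add (Nat.add C x27818) x10322) x16154) x14210) x14858) x14642) x14750) x14678) x14702) (Nat.mul x14696 (nat_lit 5))) x34378)
    (Nat.sub (Nat.sub (Nat.add (Nat.add (Nat.add (Nat.add (Nat.add (Nat.add (Nat.add (Nat.add (Nat.add (Nat.add (Nat.add (Nat.add C x27824) x10328) x16160) x14216) x14864) x14648) x14756) x14684) x14720) x14696) x14708) x14704) (Nat.mul x14702 (nat_lit 5))) x34384)
    (Nat.sub (Nat.sub (Nat.add (Nat.add (Nat.add (Nat.add (Nat.add (Nat.add (Nat.add (Nat.add (Nat.add (Nat.add (Nat.add C x27826) x10330) x16162) x14218) x14866) x14650) x14758) x14686) x14722) x14710) x14702) (Nat.mul x14704 (nat_lit 4))) x34386)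
    (Nat.sub (Nat.sub (Nat.add (Nat.add (Nat.add (Nat.add (Nat.add (Nat.add (Nat.add (Nat.add (Nat.add (Nat.add C x27830) x10334) x16166) x14222) x14870) x14654) x14762) x14726) x14702) x14710) (Nat.mul x14708 (nat_lit 7))) x34390)
    (Nat.sub (Nat.sub (Nat.add (Nat.add (Nat.add (Nat.add (Nat.add (Nat.add (Nat.add (Nat.add (Nat.add (Nat.add (Nat.add C x27832) x10336) x16168) x14224) x14872) x14656) x14764) x14728) x14704) x14708) x14712) (Nat.mul x14710 (nat_lit 4))) x34392)
    (Nat.sub (Nat.add (Nat.add (Nat.add (Nat.add (Nat.add (Nat.add (Nat.add (Nat.add (Nat.add C x27834) x10338) x16170) x14226) x14874) x14658) x14766) x14730) x14710) (Nat.mul x14712 (nat_lit 3)))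
    (Nat.sub (Nat.sub (Nat.add (Nat.add (Nat.add (Nat.add (Nat.add (Nat.add (Nat.add (Nat.add (Nat.add C x27842) x10346) x16178) x14234) x14882) x14774) x14702) x14726) x14722) (Nat.mul x14720 (nat_lit 6))) x34402)
    (Nat.sub (Nat.sub (Nat.add (Nat.add (Nat.add (Nat.add (Nat.add (Nat.add (Nat.add (Nat.add (Nat.add C x27844) x10348) x16180) x14236) x14884) x14776) x14704) x14728) x14720) (Nat.mul x14722 (nat_lit 6))) x34404)
    (Nat.sub (Nat.sub (Nat.add (Nat.add (Nat.add (Nat.add (Nat.add (Nat.add (Nat.add (Nat.add (Nat.add C x27848) x10352) x16184) x14240) x14888) x14780) x14708) x14720) x14728) (Nat.mul x14726 (nat_lit 6))) x34408)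
    (Nat.sub (Nat.sub (Nat.add (Nat.add (Nat.add (Nat.add (Nat.add (Nat.add (Nat.add (Nat.add (Nat.add (Nat.add (Nat.add C x27850) x10354) x16186) x14242) x14890) x14782) x14710) x14722) x14734) x14726) x14730) (Nat.mul x14728 (nat_lit 4))) x34410)
    (Nat.sub (Nat.add (Nat.add (Nat.add (Nat.add (Nat.add (Nat.add (Nat.add (Nat.add (Nat.add C x27852) x10356) x16188) x14244) x14892) x14784) x14712) x14736) x14728) (Nat.mul x14730 (nat_lit 4)))
    (Nat.sub (Nat.sub (Nat.add (Nat.add (Nat.add (Nat.add (Nat.add (Nat.add (Nat.add (Nat.add C x27856) x10360) x16192) x14248) x14896) x14788) x14728) x14736) (Nat.mul x14734 (nat_lit 4))) x34416)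
    (Nat.sub (Nat.add (Nat.add (Nat.add (Nat.add (Nat.add (Nat.add (Nat.add (Nat.add C x27858) x10362) x16194) x14250) x14898) x14790) x14730) x14734) (Nat.mul x14736 (nat_lit 2)))
    (Nat.sub (Nat.sub (Nat.add (Nat.add (Nat.add (Nat.add (Nat.add (Nat.add (Nat.add C x27872) x10376) x16208) x14264) x14912) x14696) x14756) (Nat.mul x14750 (nat_lit 6))) x34432)
    (Nat.sub (Nat.sub (Nat.add (Nat.add (Nat.add (Nat.add (Nat.add (Nat.add (Nat.add (Nat.add (Nat.add (Nat.add C x27878) x10382) x16214) x14270) x14918) x14702) x14774) x14750) x14762) x14758) (Nat.mul x14756 (nat_lit 7))) x34438)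
    (Nat.sub (Nat.sub (Nat.add (Nat.add (Nat.add (Nat.add (Nat.add (Nat.add (Nat.add (Nat.add (Nat.add C x27880) x10384) x16216) x14272) x14920) x14704) x14776) x14764) x14756) (Nat.mul x14758 (nat_lit 6))) x34440)
    (Nat.sub (Nat.sub (Nat.sub (Nat.add (Nat.add (Nat.add (Nat.add (Nat.add (Nat.add (Nat.add (Nat.add (Nat.add (Nat.add C x27884) x10388) x16220) x14276) x14924) x14708) x14780) x14756) x14764) (Nat.mul (e (nat_lit 14762)) ap)) (Nat.mul x14762 (nat_lit 10))) x34444) (Nat.mul (e (nat_lit 14762)) an))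
    (Nat.sub (Nat.sub (Nat.add (Nat.add (Nat.add (Nat.add (Nat.add (Nat.add (Nat.add (Nat.add (Nat.add (Nat.add C x27886) x10390) x16222) x14278) x14926) x14710) x14782) x14758) x14762) x14766) (Nat.mul x14764 (nat_lit 7))) x34446)
    (Nat.sub (Nat.add (Nat.add (Nat.add (Nat.add (Nat.add (Nat.add (Nat.add (Nat.add C x27888) x10392) x16224) x14280) x14928) x14712) x14784) x14764) (Nat.mul x14766 (nat_lit 6)))
    (Nat.sub (Nat.sub (Nat.add (Nat.add (Nat.add (Nat.add (Nat.add (Nat.add (Nat.add (Nat.add (Nat.add C x27896) x10400) x16232) x14288) x14936) x14720) x14756) x14780) x14776) (Nat.mul x14774 (nat_lit 6))) x34456)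
    (Nat.sub (Nat.sub (Nat.add (Nat.add (Nat.add (Nat.add (Nat.add (Nat.add (Nat.add (Nat.add (Nat.add C x27898) x10402) x16234) x14290) x14938) x14722) x14758) x14782) x14774) (Nat.mul x14776 (nat_lit 6))) x34458)
    (Nat.sub (Nat.sub (Nat.add (Nat.add (Nat.add (Nat.add (Nat.add (Nat.add (Nat.add (Nat.add (Nat.add (Nat.add C x27902) x10406) x16238) x14294) x14942) x14726) x14762) x14798) x14774) x14782) (Nat.mul x14780 (nat_lit 7))) x34462)
    (Nat.sub (Nat.sub (Nat.add (Nat.add (Nat.add (Nat.add (Nat.add (Nat.add (Nat.add (Nat.add (Nat.add (Nat.add (Nat.add (Nat.add C x27904) x10408) x16240) x14296) x14944) x14728) x14764) x14800) x14776) x14788) x14780) x14784) (Nat.mul x14782 (nat_lit 5))) x34464)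
    (Nat.sub (Nat.add (Nat.add (Nat.add (Nat.add (Nat.add (Nat.add (Nat.add (Nat.add (Nat.add (Nat.add C x27906) x10410) x16242) x14298) x14946) x14730) x14766) x14802) x14790) x14782) (Nat.mul x14784 (nat_lit 5)))
    (Nat.sub (Nat.sub (Nat.add (Nat.add (Nat.add (Nat.add (Nat.add (Nat.add (Nat.add (Nat.add (Nat.add C x27910) x10414) x16246) x14302) x14950) x14734) x14806) x14782) x14790) (Nat.mul x14788 (nat_lit 6))) x34470)
    (Nat.sub (Nat.add (Nat.add (Nat.add (Nat.add (Nat.add (Nat.add (Nat.add (Nat.add (Nat.add C x27912) x10416) x16248) x14304) x14952) x14736) x14808) x14784) x14788) (Nat.mul x14790 (nat_lit 4)))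
    (Nat.sub (Nat.sub (Nat.add (Nat.add (Nat.add (Nat.add (Nat.add (Nat.add (Nat.add C x27920) x10424) x16256) x14312) x14960) x14780) x14800) (Nat.mul x14798 (nat_lit 6))) x34480)
    (Nat.sub (Nat.sub (Nat.add (Nat.add (Nat.add (Nat.add (Nat.add (Nat.add (Nat.add (Nat.add (Nat.add C x27922) x10426) x16258) x14314) x14962) x14782) x14806) x14798) x14802) (Nat.mul x14800 (nat_lit 5))) x34482)
    (Nat.sub (Nat.add (Nat.add (Nat.add (Nat.add (Nat.add (Nat.add (Nat.add (Nat.add C x27924) x10428) x16260) x14316) x14964) x14784) x14808) x14800) (Nat.mul x14802 (nat_lit 6)))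
    (Nat.sub (Nat.sub (Nat.add (Nat.add (Nat.add (Nat.add (Nat.add (Nat.add (Nat.add (Nat.add C x27928) x10432) x16264) x14320) x14968) x14788) x14800) x14808) (Nat.mul x14806 (nat_lit 4))) x34488)
    (Nat.sub (Nat.add (Nat.add (Nat.add (Nat.add (Nat.add (Nat.add (Nat.add (Nat.add (Nat.add C x27930) x10434) x16266) x14322) x14970) x14790) x14802) x14814) x14806) (Nat.mul x14808 (nat_lit 3)))
    (Nat.sub (Nat.add (Nat.add (Nat.add (Nat.add (Nat.add (Nat.add C x27936) x10440) x16272) x14328) x14976) x14808) (Nat.mul x14814 (nat_lit 2)))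
    (Nat.sub (Nat.sub (Nat.add (Nat.add (Nat.add (Nat.add (Nat.add (Nat.add (Nat.add C x27962) x10466) x16298) x14354) x14678) x14858) x14846) (Nat.mul x14840 (nat_lit 2))) x34522)
    (Nat.sub (Nat.sub (Nat.add (Nat.add (Nat.add (Nat.add (Nat.add (Nat.add (Nat.add (Nat.add C x27968) x10472) x16304) x14360) x14684) x14864) x14840) x14848) (Nat.mul x14846 (nat_lit 4))) x34528)
    (Nat.sub (Nat.sub (Nat.add (Nat.add (Nat.add (Nat.add (Nat.add (Nat.add (Nat.add C x27970) x10474) x16306) x14362) x14686) x14866) x14846) (Nat.mul x14848 (nat_lit 2))) x34530)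
    (Nat.sub (Nat.sub (Nat.add (Nat.add (Nat.add (Nat.add (Nat.add (Nat.add (Nat.add (Nat.add C x27980) x10484) x16316) x14372) x14696) x14912) x14840) x14864) (Nat.mul x14858 (nat_lit 4))) x34540)
    (Nat.sub (Nat.sub (Nat.add (Nat.add (Nat.add (Nat.add (Nat.add (Nat.add (Nat.add (Nat.add (Nat.add (Nat.add (Nat.add C x27986) x10490) x16322) x14378) x14702) x14918) x14846) x14882) x14858) x14870) x14866) (Nat.mul x14864 (nat_lit 4))) x34546)
    (Nat.sub (Nat.sub (Nat.add (Nat.add (Nat.add (Nat.add (Nat.add (Nat.add (Nat.add (Nat.add (Nat.add (Nat.add C x27988) x10492) x16324) x14380) x14704) x14920) x14848) x14884) x14872) x14864) (Nat.mul x14866 (nat_lit 3))) x34548)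
    (Nat.sub (Nat.sub (Nat.add (Nat.add (Nat.add (Nat.add (Nat.add (Nat.add (Nat.add (Nat.add (Nat.add C x27992) x10496) x16328) x14384) x14708) x14924) x14888) x14864) x14872) (Nat.mul x14870 (nat_lit 6))) x34552)
    (Nat.sub (Nat.sub (Nat.add (Nat.add (Nat.add (Nat.add (Nat.add (Nat.add (Nat.add (Nat.add (Nat.add (Nat.add C x27994) x10498) x16330) x14386) x14710) x14926) x14890) x14866) x14870) x14874) (Nat.mul x14872 (nat_lit 3))) x34554)
    (Nat.sub (Nat.add (Nat.add (Nat.add (Nat.add (Nat.add (Nat.add (Nat.add (Nat.add C x27996) x10500) x16332) x14388) x14712) x14928) x14892) x14872) (Nat.mul x14874 (nat_lit 2)))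
    (Nat.sub (Nat.sub (Nat.add (Nat.add (Nat.add (Nat.add (Nat.add (Nat.add (Nat.add (Nat.add (Nat.add C x28004) x10508) x16340) x14396) x14720) x14936) x14864) x14888) x14884) (Nat.mul x14882 (nat_lit 6))) x34564)
    (Nat.sub (Nat.sub (Nat.add (Nat.add (Nat.add (Nat.add (Nat.add (Nat.add (Nat.add (Nat.add (Nat.add C x28006) x10510) x16342) x14398) x14722) x14938) x14866) x14890) x14882) (Nat.mul x14884 (nat_lit 6))) x34566)
    (Nat.sub (Nat.sub (Nat.add (Nat.add (Nat.add (Nat.add (Nat.add (Nat.add (Nat.add (Nat.add (Nat.add C x28010) x10514) x16346) x14402) x14726) x14942) x14870) x14882) x14890) (Nat.mul x14888 (nat_lit 6))) x34570)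
    (Nat.sub (Nat.sub (Nat.add (Nat.add (Nat.add (Nat.add (Nat.add (Nat.add (Nat.add (Nat.add (Nat.add (Nat.add (Nat.add C x28012) x10516) x16348) x14404) x14728) x14944) x14872) x14884) x14896) x14888) x14892) (Nat.mul x14890 (nat_lit 4))) x34572)
    (Nat.sub (Nat.add (Nat.add (Nat.add (Nat.add (Nat.add (Nat.add (Nat.add (Nat.add (Nat.add C x28014) x10518) x16350) x14406) x14730) x14946) x14874) x14898) x14890) (Nat.mul x14892 (nat_lit 4)))
    (Nat.sub (Nat.sub (Nat.add (Nat.add (Nat.add (Nat.add (Nat.add (Nat.add (Nat.add (Nat.add C x28018) x10522) x16354) x14410) x14734) x14950) x14890) x14898) (Nat.mul x14896 (nat_lit 4))) x34578)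
    (Nat.sub (Nat.add (Nat.add (Nat.add (Nat.add (Nat.add (Nat.add (Nat.add (Nat.add C x28020) x10524) x16356) x14412) x14736) x14952) x14892) x14896) (Nat.mul x14898 (nat_lit 2)))
    (Nat.sub (Nat.sub (Nat.add (Nat.add (Nat.add (Nat.add (Nat.add (Nat.add (Nat.add (Nat.add C x28034) x10538) x16370) x14426) x14750) x15074) x14858) x14918) (Nat.mul x14912 (nat_lit 3))) x34594)
    (Nat.sub (Nat.sub (Nat.add (Nat.add (Nat.add (Nat.add (Nat.add (Nat.add (Nat.add (Nat.add (Nat.add (Nat.add (Nat.add C x28040) x10544) x16376) x14432) x14756) x15080) x14864) x14936) x14912) x14924) x14920) (Nat.mul x14918 (nat_lit 4))) x34600)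
    (Nat.sub (Nat.sub (Nat.add (Nat.add (Nat.add (Nat.add (Nat.add (Nat.add (Nat.add (Nat.add (Nat.add (Nat.add C x28042) x10546) x16378) x14434) x14758) x15082) x14866) x14938) x14926) x14918) (Nat.mul x14920 (nat_lit 3))) x34602)
    (Nat.sub (Nat.sub (Nat.add (Nat.add (Nat.add (Nat.add (Nat.add (Nat.add (Nat.add (Nat.add (Nat.add (Nat.add C x28046) x10550) x16382) x14438) x14762) x15086) x14870) x14942) x14918) x14926) (Nat.mul x14924 (nat_lit 7))) x34606)
    (Nat.sub (Nat.sub (Nat.add (Nat.add (Nat.add (Nat.add (Nat.add (Nat.add (Nat.add (Nat.add (Nat.add (Nat.add (Nat.add C x28048) x10552) x16384) x14440) x14764) x15088) x14872) x14944) x14920) x14924) x14928) (Nat.mul x14926 (nat_lit 4))) x34608)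
    (Nat.sub (Nat.add (Nat.add (Nat.add (Nat.add (Nat.add (Nat.add (Nat.add (Nat.add (Nat.add C x28050) x10554) x16386) x14442) x14766) x15090) x14874) x14946) x14926) (Nat.mul x14928 (nat_lit 3)))
    (Nat.sub (Nat.sub (Nat.add (Nat.add (Nat.add (Nat.add (Nat.add (Nat.add (Nat.add (Nat.add (Nat.add (Nat.add (Nat.add C x28058) x10562) x16394) x14450) x14774) x15098) x14882) x14990) x14918) x14942) x14938) (Nat.mul x14936 (nat_lit 4))) x34618)
    (Nat.sub (Nat.sub (Nat.add (Nat.add (Nat.add (Nat.add (Nat.add (Nat.add (Nat.add (Nat.add (Nat.add (Nat.add (Nat.add C x28060) x10564) x16396) x14452) x14776) x15100) x14884) x14992) x14920) x14944) x14936) (Nat.mul x14938 (nat_lit 4))) x34620)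
    (Nat.sub (Nat.sub (Nat.add (Nat.add (Nat.add (Nat.add (Nat.add (Nat.add (Nat.add (Nat.add (Nat.add (Nat.add (Nat.add (Nat.add C x28064) x10568) x16400) x14456) x14780) x15104) x14888) x14996) x14924) x14960) x14936) x14944) (Nat.mul x14942 (nat_lit 5))) x34624)
    (Nat.sub (Nat.sub (Nat.add (Nat.add (Nat.add (Nat.add (Nat.add (Nat.add (Nat.add (Nat.add (Nat.add (Nat.add (Nat.add (Nat.add (Nat.add (Nat.add C x28066) x10570) x16402) x14458) x14782) x15106) x14890) x14998) x14926) x14962) x14938) x14950) x14942) x14946) (Nat.mul x14944 (nat_lit 3))) x34626)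
    (Nat.sub (Nat.add (Nat.add (Nat.add (Nat.add (Nat.add (Nat.add (Nat.add (Nat.add (Nat.add (Nat.add (Nat.add (Nat.add C x28068) x10572) x16404) x14460) x14784) x15108) x14892) x15000) x14928) x14964) x14952) x14944) (Nat.mul x14946 (nat_lit 3)))
    (Nat.sub (Nat.sub (Nat.add (Nat.add (Nat.add (Nat.add (Nat.add (Nat.add (Nat.add (Nat.add (Nat.add (Nat.add (Nat.add C x28072) x10576) x16408) x14464) x14788) x15112) x14896) x15004) x14968) x14944) x14952) (Nat.mul x14950 (nat_lit 4))) x34632)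
    (Nat.sub (Nat.add (Nat.add (Nat.add (Nat.add (Nat.add (Nat.add (Nat.add (Nat.add (Nat.add (Nat.add (Nat.add C x28074) x10578) x16410) x14466) x14790) x15114) x14898) x15006) x14970) x14946) x14950) (Nat.mul x14952 (nat_lit 2)))
    (Nat.sub (Nat.sub (Nat.add (Nat.add (Nat.add (Nat.add (Nat.add (Nat.add (Nat.add (Nat.add (Nat.add C x28082) x10586) x16418) x14474) x14798) x15122) x15014) x14942) x14962) (Nat.mul x14960 (nat_lit 5))) x34642)
    (Nat.sub (Nat.sub (Nat.add (Nat.add (Nat.add (Nat.add (Nat.add (Nat.add (Nat.add (Nat.add (Nat.add (Nat.add (Nat.add C x28084) x10588) x16420) x14476) x14800) x15124) x15016) x14944) x14968) x14960) x14964) (Nat.mul x14962 (nat_lit 4))) x34644)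
    (Nat.sub (Nat.add (Nat.add (Nat.add (Nat.add (Nat.add (Nat.add (Nat.add (Nat.add (Nat.add (Nat.add C x28086) x10590) x16422) x14478) x14802) x15126) x15018) x14946) x14970) x14962) (Nat.mul x14964 (nat_lit 5)))
    (Nat.sub (Nat.sub (Nat.add (Nat.add (Nat.add (Nat.add (Nat.add (Nat.add (Nat.add (Nat.add (Nat.add (Nat.add C x28090) x10594) x16426) x14482) x14806) x15130) x15022) x14950) x14962) x14970) (Nat.mul x14968 (nat_lit 3))) x34650)
    (Nat.sub (Nat.add (Nat.add (Nat.add (Nat.add (Nat.add (Nat.add (Nat.add (Nat.add (Nat.add (Nat.add (Nat.add C x28092) x10596) x16428) x14484) x14808) x15132) x15024) x14952) x14964) x14976) x14968) (Nat.mul x14970 (nat_lit 2)))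
    (Nat.sub (Nat.add (Nat.add (Nat.add (Nat.add (Nat.add (Nat.add (Nat.add (Nat.add C x28098) x10602) x16434) x14490) x14814) x15138) x15030) x14970) x14976)
    (Nat.sub (Nat.sub (Nat.add (Nat.add (Nat.add (Nat.add (Nat.add (Nat.add (Nat.add (Nat.add C x28112) x10616) x16448) x14504) x15152) x14936) x14996) x14992) (Nat.mul x14990 (nat_lit 4))) x34672)
    (Nat.sub (Nat.sub (Nat.add (Nat.add (Nat.add (Nat.add (Nat.add (Nat.add (Nat.add (Nat.add C x28114) x10618) x16450) x14506) x15154) x14938) x14998) x14990) (Nat.mul x14992 (nat_lit 4))) x34674)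
    (Nat.sub (Nat.sub (Nat.add (Nat.add (Nat.add (Nat.add (Nat.add (Nat.add (Nat.add (Nat.add (Nat.add C x28118) x10622) x16454) x14510) x15158) x14942) x15014) x14990) x14998) (Nat.mul x14996 (nat_lit 6))) x34678)
    (Nat.sub (Nat.sub (Nat.add (Nat.add (Nat.add (Nat.add (Nat.add (Nat.add (Nat.add (Nat.add (Nat.add (Nat.add (Nat.add C x28120) x10624) x16456) x14512) x15160) x14944) x15016) x14992) x15004) x14996) x15000) (Nat.mul x14998 (nat_lit 4))) x34680)
    (Nat.sub (Nat.add (Nat.add (Nat.add (Nat.add (Nat.add (Nat.add (Nat.add (Nat.add (Nat.add C x28122) x10626) x16458) x14514) x15162) x14946) x15018) x15006) x14998) (Nat.mul x15000 (nat_lit 4)))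
    (Nat.sub (Nat.sub (Nat.add (Nat.add (Nat.add (Nat.add (Nat.add (Nat.add (Nat.add (Nat.add (Nat.add C x28126) x10630) x16462) x14518) x15166) x14950) x15022) x14998) x15006) (Nat.mul x15004 (nat_lit 6))) x34686)
    (Nat.sub (Nat.add (Nat.add (Nat.add (Nat.add (Nat.add (Nat.add (Nat.add (Nat.add (Nat.add C x28128) x10632) x16464) x14520) x15168) x14952) x15024) x15000) x15004) (Nat.mul x15006 (nat_lit 4)))
    (Nat.sub (Nat.sub (Nat.add (Nat.add (Nat.add (Nat.add (Nat.add (Nat.add (Nat.add (Nat.add C x28136) x10640) x16472) x14528) x15176) x14960) x14996) x15016) (Nat.mul x15014 (nat_lit 4))) x34696)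
    (Nat.sub (Nat.sub (Nat.add (Nat.add (Nat.add (Nat.add (Nat.add (Nat.add (Nat.add (Nat.add (Nat.add (Nat.add C x28138) x10642) x16474) x14530) x15178) x14962) x14998) x15022) x15014) x15018) (Nat.mul x15016 (nat_lit 3))) x34698)
    (Nat.sub (Nat.add (Nat.add (Nat.add (Nat.add (Nat.add (Nat.add (Nat.add (Nat.add (Nat.add C x28140) x10644) x16476) x14532) x15180) x14964) x15000) x15024) x15016) (Nat.mul x15018 (nat_lit 4)))
    (Nat.sub (Nat.sub (Nat.add (Nat.add (Nat.add (Nat.add (Nat.add (Nat.add (Nat.add (Nat.add (Nat.add (Nat.add C x28144) x10648) x16480) x14536) x15184) x14968) x15004) x15040) x15016) x15024) (Nat.mul x15022 (nat_lit 3))) x34704)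
    (Nat.sub (Nat.add (Nat.add (Nat.add (Nat.add (Nat.add (Nat.add (Nat.add (Nat.add (Nat.add (Nat.add (Nat.add C x28146) x10650) x16482) x14538) x15186) x14970) x15006) x15042) x15018) x15030) x15022) (Nat.mul x15024 (nat_lit 2)))
    (Nat.sub (Nat.add (Nat.add (Nat.add (Nat.add (Nat.add (Nat.add (Nat.add (Nat.add C x28152) x10656) x16488) x14544) x15192) x14976) x15048) x15024) (Nat.mul x15030 (nat_lit 2)))
    (Nat.sub (Nat.sub (Nat.add (Nat.add (Nat.add (Nat.add (Nat.add (Nat.add (Nat.add C x28162) x10666) x16498) x14554) x15202) x15022) x15042) (Nat.mul x15040 (nat_lit 2))) x34722)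
    (Nat.sub (Nat.add (Nat.add (Nat.add (Nat.add (Nat.add (Nat.add (Nat.add (Nat.add C x28164) x10668) x16500) x14556) x15204) x15024) x15048) x15040) (Nat.mul x15042 (nat_lit 2)))
    (Nat.add (Nat.add (Nat.add (Nat.add (Nat.add (Nat.add (Nat.add C x28170) x10674) x16506) x14562) x15210) x15030) x15042)
    (Nat.sub (Nat.sub (Nat.add (Nat.add (Nat.add (Nat.add (Nat.add C x28196) x10700) x16532) x14912) x15080) (Nat.mul x15074 (nat_lit 2))) x34756)
    (Nat.sub (Nat.sub (Nat.add (Nat.add (Nat.add (Nat.add (Nat.add (Nat.add (Nat.add (Nat.add C x28202) x10706) x16538) x14918) x15098) x15074) x15086) x15082) (Nat.mul x15080 (nat_lit 3))) x34762)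
    (Nat.sub (Nat.sub (Nat.add (Nat.add (Nat.add (Nat.add (Nat.add (Nat.add (Nat.add C x28204) x10708) x16540) x14920) x15100) x15088) x15080) (Nat.mul x15082 (nat_lit 2))) x34764)
    (Nat.sub (Nat.sub (Nat.add (Nat.add (Nat.add (Nat.add (Nat.add (Nat.add (Nat.add C x28208) x10712) x16544) x14924) x15104) x15080) x15088) (Nat.mul x15086 (nat_lit 6))) x34768)
    (Nat.sub (Nat.sub (Nat.add (Nat.add (Nat.add (Nat.add (Nat.add (Nat.add (Nat.add (Nat.add C x28210) x10714) x16546) x14926) x15106) x15082) x15086) x15090) (Nat.mul x15088 (nat_lit 3))) x34770)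
    (Nat.sub (Nat.add (Nat.add (Nat.add (Nat.add (Nat.add (Nat.add C x28212) x10716) x16548) x14928) x15108) x15088) (Nat.mul x15090 (nat_lit 2)))
    (Nat.sub (Nat.sub (Nat.add (Nat.add (Nat.add (Nat.add (Nat.add (Nat.add (Nat.add (Nat.add C x28220) x10724) x16556) x14936) x15152) x15080) x15104) x15100) (Nat.mul x15098 (nat_lit 4))) x34780)
    (Nat.sub (Nat.sub (Nat.add (Nat.add (Nat.add (Nat.add (Nat.add (Nat.add (Nat.add (Nat.add C x28222) x10726) x16558) x14938) x15154) x15082) x15106) x15098) (Nat.mul x15100 (nat_lit 4))) x34782)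
    (Nat.sub (Nat.sub (Nat.add (Nat.add (Nat.add (Nat.add (Nat.add (Nat.add (Nat.add (Nat.add (Nat.add C x28226) x10730) x16562) x14942) x15158) x15086) x15122) x15098) x15106) (Nat.mul x15104 (nat_lit 5))) x34786)
    (Nat.sub (Nat.sub (Nat.add (Nat.add (Nat.add (Nat.add (Nat.add (Nat.add (Nat.add (Nat.add (Nat.add (Nat.add (Nat.add C x28228) x10732) x16564) x14944) x15160) x15088) x15124) x15100) x15112) x15104) x15108) (Nat.mul x15106 (nat_lit 3))) x34788)
    (Nat.sub (Nat.add (Nat.add (Nat.add (Nat.add (Nat.add (Nat.add (Nat.add (Nat.add (Nat.add C x28230) x10734) x16566) x14946) x15162) x15090) x15126) x15114) x15106) (Nat.mul x15108 (nat_lit 3)))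
    (Nat.sub (Nat.sub (Nat.add (Nat.add (Nat.add (Nat.add (Nat.add (Nat.add (Nat.add (Nat.add C x28234) x10738) x16570) x14950) x15166) x15130) x15106) x15114) (Nat.mul x15112 (nat_lit 4))) x34794)
    (Nat.sub (Nat.add (Nat.add (Nat.add (Nat.add (Nat.add (Nat.add (Nat.add (Nat.add C x28236) x10740) x16572) x14952) x15168) x15132) x15108) x15112) (Nat.mul x15114 (nat_lit 2)))
    (Nat.sub (Nat.sub (Nat.add (Nat.add (Nat.add (Nat.add (Nat.add (Nat.add (Nat.add C x28244) x10748) x16580) x14960) x15176) x15104) x15124) (Nat.mul x15122 (nat_lit 6))) x34804)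
    (Nat.sub (Nat.sub (Nat.add (Nat.add (Nat.add (Nat.add (Nat.add (Nat.add (Nat.add (Nat.add (Nat.add C x28246) x10750) x16582) x14962) x15178) x15106) x15130) x15122) x15126) (Nat.mul x15124 (nat_lit 5))) x34806)
    (Nat.sub (Nat.add (Nat.add (Nat.add (Nat.add (Nat.add (Nat.add (Nat.add (Nat.add C x28248) x10752) x16584) x14964) x15180) x15108) x15132) x15124) (Nat.mul x15126 (nat_lit 6)))
    (Nat.sub (Nat.sub (Nat.add (Nat.add (Nat.add (Nat.add (Nat.add (Nat.add (Nat.add (Nat.add C x28252) x10756) x16588) x14968) x15184) x15112) x15124) x15132) (Nat.mul x15130 (nat_lit 4))) x34812)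
    (Nat.sub (Nat.add (Nat.add (Nat.add (Nat.add (Nat.add (Nat.add (Nat.add (Nat.add (Nat.add C x28254) x10758) x16590) x14970) x15186) x15114) x15126) x15138) x15130) (Nat.mul x15132 (nat_lit 3)))
    (Nat.sub (Nat.add (Nat.add (Nat.add (Nat.add (Nat.add (Nat.add C x28260) x10764) x16596) x14976) x15192) x15132) (Nat.mul x15138 (nat_lit 2)))
    (Nat.sub (Nat.sub (Nat.add (Nat.add (Nat.add (Nat.add (Nat.add (Nat.add (Nat.add C x28274) x10778) x16610) x14990) x15098) x15158) x15154) (Nat.mul x15152 (nat_lit 2))) x34834)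
    (Nat.sub (Nat.sub (Nat.add (Nat.add (Nat.add (Nat.add (Nat.add (Nat.add (Nat.add C x28276) x10780) x16612) x14992) x15100) x15160) x15152) (Nat.mul x15154 (nat_lit 2))) x34836)
    (Nat.sub (Nat.sub (Nat.add (Nat.add (Nat.add (Nat.add (Nat.add (Nat.add (Nat.add (Nat.add C x28280) x10784) x16616) x14996) x15104) x15176) x15152) x15160) (Nat.mul x15158 (nat_lit 4))) x34840)
    (Nat.sub (Nat.sub (Nat.add (Nat.add (Nat.add (Nat.add (Nat.add (Nat.add (Nat.add (Nat.add (Nat.add (Nat.add C x28282) x10786) x16618) x14998) x15106) x15178) x15154) x15166) x15158) x15162) (Nat.mul x15160 (nat_lit 2))) x34842)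
    (Nat.sub (Nat.add (Nat.add (Nat.add (Nat.add (Nat.add (Nat.add (Nat.add (Nat.add C x28284) x10788) x16620) x15000) x15108) x15180) x15168) x15160) (Nat.mul x15162 (nat_lit 2)))
    (Nat.sub (Nat.sub (Nat.add (Nat.add (Nat.add (Nat.add (Nat.add (Nat.add (Nat.add (Nat.add C x28288) x10792) x16624) x15004) x15112) x15184) x15160) x15168) (Nat.mul x15166 (nat_lit 4))) x34848)
    (Nat.sub (Nat.add (Nat.add (Nat.add (Nat.add (Nat.add (Nat.add (Nat.add (Nat.add C x28290) x10794) x16626) x15006) x15114) x15186) x15162) x15166) (Nat.mul x15168 (nat_lit 2)))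
    (Nat.sub (Nat.sub (Nat.add (Nat.add (Nat.add (Nat.add (Nat.add (Nat.add (Nat.add (Nat.add C x28298) x10802) x16634) x15014) x15122) x15230) x15158) x15178) (Nat.mul x15176 (nat_lit 3))) x34858)
    (Nat.sub (Nat.sub (Nat.add (Nat.add (Nat.add (Nat.add (Nat.add (Nat.add (Nat.add (Nat.add (Nat.add (Nat.add C x28300) x10804) x16636) x15016) x15124) x15232) x15160) x15184) x15176) x15180) (Nat.mul x15178 (nat_lit 2))) x34860)
    (Nat.sub (Nat.add (Nat.add (Nat.add (Nat.add (Nat.add (Nat.add (Nat.add (Nat.add (Nat.add C x28302) x10806) x16638) x15018) x15126) x15234) x15162) x15186) x15178) (Nat.mul x15180 (nat_lit 3)))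
    (Nat.sub (Nat.sub (Nat.add (Nat.add (Nat.add (Nat.add (Nat.add (Nat.add (Nat.add (Nat.add (Nat.add (Nat.add C x28306) x10810) x16642) x15022) x15130) x15238) x15166) x15202) x15178) x15186) (Nat.mul x15184 (nat_lit 2))) x34866)
    (Nat.sub (Nat.add (Nat.add (Nat.add (Nat.add (Nat.add (Nat.add (Nat.add (Nat.add (Nat.add (Nat.add (Nat.add C x28308) x10812) x16644) x15024) x15132) x15240) x15168) x15204) x15180) x15192) x15184) x15186)
    (Nat.sub (Nat.add (Nat.add (Nat.add (Nat.add (Nat.add (Nat.add (Nat.add (Nat.add C x28314) x10818) x16650) x15030) x15138) x15246) x15210) x15186) x15192)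
    (Nat.sub (Nat.sub (Nat.add (Nat.add (Nat.add (Nat.add (Nat.add (Nat.add (Nat.add C x28324) x10828) x16660) x15040) x15256) x15184) x15204) (Nat.mul x15202 (nat_lit 2))) x34884)
    (Nat.sub (Nat.add (Nat.add (Nat.add (Nat.add (Nat.add (Nat.add (Nat.add (Nat.add C x28326) x10830) x16662) x15042) x15258) x15186) x15210) x15202) (Nat.mul x15204 (nat_lit 2)))
    (Nat.add (Nat.add (Nat.add (Nat.add (Nat.add (Nat.add (Nat.add C x28332) x10836) x16668) x15048) x15264) x15192) x15204)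
    (Nat.sub (Nat.sub (Nat.add (Nat.add (Nat.add (Nat.add (Nat.add C x28352) x10856) x16688) x15176) x15232) (Nat.mul x15230 (nat_lit 2))) x34912)
    (Nat.sub (Nat.sub (Nat.add (Nat.add (Nat.add (Nat.add (Nat.add (Nat.add (Nat.add C x28354) x10858) x16690) x15178) x15238) x15230) x15234) x15232) x34914)
    (Nat.sub (Nat.add (Nat.add (Nat.add (Nat.add (Nat.add (Nat.add C x28356) x10860) x16692) x15180) x15240) x15232) (Nat.mul x15234 (nat_lit 2)))
    (Nat.sub (Nat.sub (Nat.add (Nat.add (Nat.add (Nat.add (Nat.add (Nat.add (Nat.add C x28360) x10864) x16696) x15184) x15256) x15232) x15240) (Nat.mul x15238 (nat_lit 2))) x34920)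
    (Nat.sub (Nat.add (Nat.add (Nat.add (Nat.add (Nat.add (Nat.add (Nat.add (Nat.add C x28362) x10866) x16698) x15186) x15258) x15234) x15246) x15238) x15240)
    (Nat.sub (Nat.add (Nat.add (Nat.add (Nat.add (Nat.add (Nat.add C x28368) x10872) x16704) x15192) x15264) x15240) (Nat.mul x15246 (nat_lit 2)))
    (Nat.sub (Nat.add (Nat.add (Nat.add (Nat.add (Nat.add (Nat.add C x28378) x10882) x16714) x15202) x15238) x15258) x34938)
    (Nat.add (Nat.add (Nat.add (Nat.add (Nat.add (Nat.add (Nat.add C x28380) x10884) x16716) x15204) x15240) x15264) x15256)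
    (Nat.add (Nat.add (Nat.add (Nat.add (Nat.add (Nat.add (Nat.add (Nat.add C x15264) x28386) x10890) x16722) x15210) x15246) x15282) x15258)
    (Nat.add (Nat.add (Nat.add (Nat.add (Nat.add C (Nat.mul x15282 (nat_lit 2))) x28404) x10908) x16740) x15264)
    (Nat.sub (Nat.add (Nat.add (Nat.add (Nat.add (Nat.add (Nat.add C (Nat.mul x15362 (nat_lit 2))) x28484) x10988) x13904) x15416) x15380) x35044)
    (Nat.sub (Nat.add (Nat.add (Nat.add (Nat.add (Nat.add (Nat.add C x28502) x11006) x13922) x15434) x15362) x15386) x35062)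
    (Nat.sub (Nat.add (Nat.add (Nat.add (Nat.add (Nat.add (Nat.add C x28508) x11012) x13928) x15440) x15380) x15388) x35068)
    (Nat.sub (Nat.add (Nat.add (Nat.add (Nat.add (Nat.add (Nat.add C (Nat.mul x15388 (nat_lit 2))) x28510) x11014) x13930) x15442) x15386) x35070)
    (Nat.sub (Nat.add (Nat.add (Nat.add (Nat.add (Nat.add (Nat.add C x28538) x11042) x13958) x15578) x15362) x15434) x35098)
    (Nat.sub (Nat.add (Nat.add (Nat.add (Nat.add (Nat.add (Nat.add (Nat.add (Nat.add (Nat.add C x28556) x11060) x13976) x15596) x15380) x15488) x15416) x15452) x15440) x35116)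
    (Nat.sub (Nat.sub (Nat.add (Nat.add (Nat.add (Nat.add (Nat.add (Nat.add (Nat.add (Nat.add (Nat.add C x28562) x11066) x13982) x15602) x15386) x15494) x15458) x15434) x15442) x15440) x35122)
    (Nat.sub (Nat.add (Nat.add (Nat.add (Nat.add (Nat.add (Nat.add (Nat.add (Nat.add (Nat.add C x15442) x28564) x11068) x13984) x15604) x15388) x15496) x15460) x15440) x35124)
    (Nat.sub (Nat.sub (Nat.add (Nat.add (Nat.add (Nat.add (Nat.add (Nat.add (Nat.add C x28574) x11078) x13994) x15614) x15506) x15434) x15458) (Nat.mul x15452 (nat_lit 2))) x35134)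
    (Nat.sub (Nat.sub (Nat.add (Nat.add (Nat.add (Nat.add (Nat.add (Nat.add (Nat.add (Nat.add (Nat.add C x28580) x11084) x14000) x15620) x15512) x15440) x15452) x15464) x15460) x15458) x35140)
    (Nat.sub (Nat.add (Nat.add (Nat.add (Nat.add (Nat.add (Nat.add (Nat.add (Nat.add C x28582) x11086) x14002) x15622) x15514) x15442) x15466) x15458) x35142)
    (Nat.sub (Nat.sub (Nat.add (Nat.add (Nat.add (Nat.add (Nat.add (Nat.add (Nat.add C x28586) x11090) x14006) x15626) x15518) x15458) x15466) (Nat.mul x15464 (nat_lit 2))) x35146)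
    (Nat.sub (Nat.add (Nat.add (Nat.add (Nat.add (Nat.add (Nat.add (Nat.add (Nat.add (Nat.add C x15466) x28588) x11092) x14008) x15628) x15520) x15460) x15464) x15468) x35148)
    (Nat.add (Nat.add (Nat.add (Nat.add (Nat.add (Nat.add (Nat.add C (Nat.mul x15468 (nat_lit 2))) x28590) x11094) x14010) x15630) x15522) x15466)
    (Nat.sub (Nat.sub (Nat.add (Nat.add (Nat.add (Nat.add (Nat.add (Nat.add (Nat.add C x28610) x11114) x14030) x15650) x15434) x15506) x15494) (Nat.mul x15488 (nat_lit 2))) x35170)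
    (Nat.sub (Nat.sub (Nat.add (Nat.add (Nat.add (Nat.add (Nat.add (Nat.add (Nat.add (Nat.add C x28616) x11120) x14036) x15656) x15440) x15512) x15488) x15496) (Nat.mul x15494 (nat_lit 4))) x35176)
    (Nat.sub (Nat.sub (Nat.add (Nat.add (Nat.add (Nat.add (Nat.add (Nat.add (Nat.add C x28618) x11122) x14038) x15658) x15442) x15514) x15494) (Nat.mul x15496 (nat_lit 2))) x35178)
    (Nat.sub (Nat.sub (Nat.add (Nat.add (Nat.add (Nat.add (Nat.add (Nat.add (Nat.add C x28628) x11132) x14048) x15668) x15452) x15488) x15512) (Nat.mul x15506 (nat_lit 2))) x35188)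
    (Nat.sub (Nat.sub (Nat.add (Nat.add (Nat.add (Nat.add (Nat.add (Nat.add (Nat.add (Nat.add (Nat.add (Nat.add C x28634) x11138) x14054) x15674) x15458) x15494) x15530) x15506) x15518) x15514) (Nat.mul x15512 (nat_lit 2))) x35194)
    (Nat.sub (Nat.sub (Nat.add (Nat.add (Nat.add (Nat.add (Nat.add (Nat.add (Nat.add (Nat.add (Nat.add C x28636) x11140) x14056) x15676) x15460) x15496) x15532) x15520) x15512) x15514) x35196)
    (Nat.sub (Nat.sub (Nat.add (Nat.add (Nat.add (Nat.add (Nat.add (Nat.add (Nat.add (Nat.add C x28640) x11144) x14060) x15680) x15464) x15536) x15512) x15520) (Nat.mul x15518 (nat_lit 4))) x35200)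
    (Nat.sub (Nat.sub (Nat.add (Nat.add (Nat.add (Nat.add (Nat.add (Nat.add (Nat.add (Nat.add (Nat.add C x28642) x11146) x14062) x15682) x15466) x15538) x15514) x15518) x15522) x15520) x35202)
    (Nat.add (Nat.add (Nat.add (Nat.add (Nat.add (Nat.add (Nat.add C x28644) x11148) x14064) x15684) x15468) x15540) x15520)
    (Nat.sub (Nat.sub (Nat.add (Nat.add (Nat.add (Nat.add (Nat.add (Nat.add (Nat.add C x28652) x11156) x14072) x15692) x15512) x15536) x15532) (Nat.mul x15530 (nat_lit 2))) x35212)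
    (Nat.sub (Nat.sub (Nat.add (Nat.add (Nat.add (Nat.add (Nat.add (Nat.add (Nat.add C x28654) x11158) x14074) x15694) x15514) x15538) x15530) (Nat.mul x15532 (nat_lit 2))) x35214)
    (Nat.sub (Nat.sub (Nat.add (Nat.add (Nat.add (Nat.add (Nat.add (Nat.add (Nat.add C x28658) x11162) x14078) x15698) x15518) x15530) x15538) (Nat.mul x15536 (nat_lit 2))) x35218)
    (Nat.sub (Nat.add (Nat.add (Nat.add (Nat.add (Nat.add (Nat.add (Nat.add (Nat.add (Nat.add C x28660) x11164) x14080) x15700) x15520) x15532) x15544) x15536) x15540) x35220)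
    (Nat.add (Nat.add (Nat.add (Nat.add (Nat.add (Nat.add (Nat.add C x28662) x11166) x14082) x15702) x15522) x15546) x15538)
    (Nat.sub (Nat.add (Nat.add (Nat.add (Nat.add (Nat.add (Nat.add C x28666) x11170) x14086) x15706) x15538) x15546) x35226)
    (Nat.add (Nat.add (Nat.add (Nat.add (Nat.add (Nat.add (Nat.add C (Nat.mul x15546 (nat_lit 2))) x28668) x11172) x14088) x15708) x15540) x15544)
    (Nat.sub (Nat.add (Nat.add (Nat.add (Nat.add (Nat.add (Nat.add C x28700) x11204) x14120) x16064) x15416) x15596) x35260)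
    (Nat.sub (Nat.sub (Nat.add (Nat.add (Nat.add (Nat.add (Nat.add (Nat.add (Nat.add (Nat.add (Nat.add C x28718) x11222) x14138) x16082) x15434) x15650) x15578) x15614) x15602) x15596) x35278)
    (Nat.sub (Nat.sub (Nat.add (Nat.add (Nat.add (Nat.add (Nat.add (Nat.add (Nat.add (Nat.add (Nat.add C x28724) x11228) x14144) x16088) x15440) x15656) x15620) x15596) x15604) (Nat.mul x15602 (nat_lit 2))) x35284)
    (Nat.sub (Nat.add (Nat.add (Nat.add (Nat.add (Nat.add (Nat.add (Nat.add (Nat.add C x28726) x11230) x14146) x16090) x15442) x15658) x15622) x15602) x35286)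
    (Nat.sub (Nat.sub (Nat.add (Nat.add (Nat.add (Nat.add (Nat.add (Nat.add (Nat.add (Nat.add C x28736) x11240) x14156) x16100) x15452) x15668) x15596) x15620) (Nat.mul x15614 (nat_lit 4))) x35296)
    (Nat.sub (Nat.sub (Nat.add (Nat.add (Nat.add (Nat.add (Nat.add (Nat.add (Nat.add (Nat.add (Nat.add (Nat.add C x28742) x11246) x14162) x16106) x15458) x15674) x15602) x15614) x15626) x15622) (Nat.mul x15620 (nat_lit 3))) x35302)
    (Nat.sub (Nat.sub (Nat.add (Nat.add (Nat.add (Nat.add (Nat.add (Nat.add (Nat.add (Nat.add (Nat.add C x28744) x11248) x14164) x16108) x15460) x15676) x15604) x15628) x15620) (Nat.mul x15622 (nat_lit 2))) x35304)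
    (Nat.sub (Nat.sub (Nat.add (Nat.add (Nat.add (Nat.add (Nat.add (Nat.add (Nat.add (Nat.add C x28748) x11252) x14168) x16112) x15464) x15680) x15620) x15628) (Nat.mul x15626 (nat_lit 4))) x35308)
    (Nat.sub (Nat.sub (Nat.add (Nat.add (Nat.add (Nat.add (Nat.add (Nat.add (Nat.add (Nat.add (Nat.add C x28750) x11254) x14170) x16114) x15466) x15682) x15622) x15626) x15630) x15628) x35310)
    (Nat.add (Nat.add (Nat.add (Nat.add (Nat.add (Nat.add (Nat.add C x28752) x11256) x14172) x16116) x15468) x15684) x15628)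
    (Nat.sub (Nat.sub (Nat.add (Nat.add (Nat.add (Nat.add (Nat.add (Nat.add (Nat.add (Nat.add (Nat.add C x28772) x11276) x14192) x16136) x15488) x15812) x15596) x15668) x15656) x15650) x35332)
    (Nat.sub (Nat.sub (Nat.add (Nat.add (Nat.add (Nat.add (Nat.add (Nat.add (Nat.add (Nat.add (Nat.add (Nat.add C x28778) x11282) x14198) x16142) x15494) x15818) x15602) x15674) x15650) x15658) (Nat.mul x15656 (nat_lit 3))) x35338)
    (Nat.sub (Nat.sub (Nat.add (Nat.add (Nat.add (Nat.add (Nat.add (Nat.add (Nat.add (Nat.add (Nat.add C x28780) x11284) x14200) x16144) x15496) x15820) x15604) x15676) x15656) x15658) x35340)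
    (Nat.sub (Nat.sub (Nat.add (Nat.add (Nat.add (Nat.add (Nat.add (Nat.add (Nat.add (Nat.add (Nat.add (Nat.add C x28790) x11294) x14210) x16154) x15506) x15830) x15614) x15722) x15650) x15674) (Nat.mul x15668 (nat_lit 2))) x35350)
    (Nat.sub (Nat.sub (Nat.add (Nat.add (Nat.add (Nat.add (Nat.add (Nat.add (Nat.add (Nat.add (Nat.add (Nat.add (Nat.add (Nat.add (Nat.add C x28796) x11300) x14216) x16160) x15512) x15836) x15620) x15728) x15656) x15692) x15668) x15680) x15676) (Nat.mul x15674 (nat_lit 2))) x35356)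
    (Nat.sub (Nat.sub (Nat.add (Nat.add (Nat.add (Nat.add (Nat.add (Nat.add (Nat.add (Nat.add (Nat.add (Nat.add (Nat.add (Nat.add C x28798) x11302) x14218) x16162) x15514) x15838) x15622) x15730) x15658) x15694) x15682) x15674) x15676) x35358)
    (Nat.sub (Nat.sub (Nat.add (Nat.add (Nat.add (Nat.add (Nat.add (Nat.add (Nat.add (Nat.add (Nat.add (Nat.add (Nat.add C x28802) x11306) x14222) x16166) x15518) x15842) x15626) x15734) x15698) x15674) x15682) (Nat.mul x15680 (nat_lit 4))) x35362)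
    (Nat.sub (Nat.sub (Nat.add (Nat.add (Nat.add (Nat.add (Nat.add (Nat.add (Nat.add (Nat.add (Nat.add (Nat.add (Nat.add (Nat.add C x28804) x11308) x14224) x16168) x15520) x15844) x15628) x15736) x15700) x15676) x15680) x15684) x15682) x35364)
    (Nat.add (Nat.add (Nat.add (Nat.add (Nat.add (Nat.add (Nat.add (Nat.add (Nat.add (Nat.add C x28806) x11310) x14226) x16170) x15522) x15846) x15630) x15738) x15702) x15682)
    (Nat.sub (Nat.sub (Nat.add (Nat.add (Nat.add (Nat.add (Nat.add (Nat.add (Nat.add (Nat.add (Nat.add (Nat.add C x28814) x11318) x14234) x16178) x15530) x15854) x15746) x15674) x15698) x15694) (Nat.mul x15692 (nat_lit 3))) x35374)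
    (Nat.sub (Nat.sub (Nat.add (Nat.add (Nat.add (Nat.add (Nat.add (Nat.add (Nat.add (Nat.add (Nat.add (Nat.add C x28816) x11320) x14236) x16180) x15532) x15856) x15748) x15676) x15700) x15692) (Nat.mul x15694 (nat_lit 3))) x35376)
    (Nat.sub (Nat.sub (Nat.add (Nat.add (Nat.add (Nat.add (Nat.add (Nat.add (Nat.add (Nat.add (Nat.add (Nat.add C x28820) x11324) x14240) x16184) x15536) x15860) x15752) x15680) x15692) x15700) (Nat.mul x15698 (nat_lit 3))) x35380)
    (Nat.sub (Nat.sub (Nat.add (Nat.add (Nat.add (Nat.add (Nat.add (Nat.add (Nat.add (Nat.add (Nat.add (Nat.add (Nat.add (Nat.add C x28822) x11326) x14242) x16186) x15538) x15862) x15754) x15682) x15694) x15706) x15698) x15702) x15700) x35382)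
    (Nat.sub (Nat.add (Nat.add (Nat.add (Nat.add (Nat.add (Nat.add (Nat.add (Nat.add (Nat.add (Nat.add C x28824) x11328) x14244) x16188) x15540) x15864) x15756) x15684) x15708) x15700) x15702)
    (Nat.sub (Nat.sub (Nat.add (Nat.add (Nat.add (Nat.add (Nat.add (Nat.add (Nat.add (Nat.add (Nat.add C x28828) x11332) x14248) x16192) x15544) x15868) x15760) x15700) x15708) x15706) x35388)
    (Nat.add (Nat.add (Nat.add (Nat.add (Nat.add (Nat.add (Nat.add (Nat.add (Nat.add (Nat.add C x15708) x28830) x11334) x14250) x16194) x15546) x15870) x15762) x15702) x15706)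
    (Nat.sub (Nat.sub (Nat.add (Nat.add (Nat.add (Nat.add (Nat.add (Nat.add (Nat.add C x28844) x11348) x14264) x16208) x15884) x15668) x15728) (Nat.mul x15722 (nat_lit 2))) x35404)
    (Nat.sub (Nat.sub (Nat.add (Nat.add (Nat.add (Nat.add (Nat.add (Nat.add (Nat.add (Nat.add (Nat.add (Nat.add C x28850) x11354) x14270) x16214) x15890) x15674) x15746) x15722) x15734) x15730) (Nat.mul x15728 (nat_lit 3))) x35410)
    (Nat.sub (Nat.sub (Nat.add (Nat.add (Nat.add (Nat.add (Nat.add (Nat.add (Nat.add (Nat.add (Nat.add C x28852) x11356) x14272) x16216) x15892) x15676) x15748) x15736) x15728) (Nat.mul x15730 (nat_lit 2))) x35412)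
    (Nat.sub (Nat.sub (Nat.add (Nat.add (Nat.add (Nat.add (Nat.add (Nat.add (Nat.add (Nat.add (Nat.add C x28856) x11360) x14276) x16220) x15896) x15680) x15752) x15728) x15736) (Nat.mul x15734 (nat_lit 6))) x35416)
    (Nat.sub (Nat.sub (Nat.add (Nat.add (Nat.add (Nat.add (Nat.add (Nat.add (Nat.add (Nat.add (Nat.add (Nat.add C x28858) x11362) x14278) x16222) x15898) x15682) x15754) x15730) x15734) x15738) (Nat.mul x15736 (nat_lit 3))) x35418)
    (Nat.sub (Nat.add (Nat.add (Nat.add (Nat.add (Nat.add (Nat.add (Nat.add (Nat.add C x28860) x11364) x14280) x16224) x15900) x15684) x15756) x15736) (Nat.mul x15738 (nat_lit 2)))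
    (Nat.sub (Nat.sub (Nat.add (Nat.add (Nat.add (Nat.add (Nat.add (Nat.add (Nat.add (Nat.add (Nat.add C x28868) x11372) x14288) x16232) x15908) x15692) x15728) x15752) x15748) (Nat.mul x15746 (nat_lit 2))) x35428)
    (Nat.sub (Nat.sub (Nat.add (Nat.add (Nat.add (Nat.add (Nat.add (Nat.add (Nat.add (Nat.add (Nat.add C x28870) x11374) x14290) x16234) x15910) x15694) x15730) x15754) x15746) (Nat.mul x15748 (nat_lit 2))) x35430)
    (Nat.sub (Nat.sub (Nat.add (Nat.add (Nat.add (Nat.add (Nat.add (Nat.add (Nat.add (Nat.add (Nat.add (Nat.add C x28874) x11378) x14294) x16238) x15914) x15698) x15734) x15770) x15746) x15754) (Nat.mul x15752 (nat_lit 3))) x35434)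
    (Nat.sub (Nat.sub (Nat.add (Nat.add (Nat.add (Nat.add (Nat.add (Nat.add (Nat.add (Nat.add (Nat.add (Nat.add (Nat.add (Nat.add C x28876) x11380) x14296) x16240) x15916) x15700) x15736) x15772) x15748) x15760) x15752) x15756) x15754) x35436)
    (Nat.sub (Nat.add (Nat.add (Nat.add (Nat.add (Nat.add (Nat.add (Nat.add (Nat.add (Nat.add (Nat.add C x28878) x11382) x14298) x16242) x15918) x15702) x15738) x15774) x15762) x15754) x15756)
    (Nat.sub (Nat.sub (Nat.add (Nat.add (Nat.add (Nat.add (Nat.add (Nat.add (Nat.add (Nat.add (Nat.add C x28882) x11386) x14302) x16246) x15922) x15706) x15778) x15754) x15762) (Nat.mul x15760 (nat_lit 2))) x35442)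
    (Nat.add (Nat.add (Nat.add (Nat.add (Nat.add (Nat.add (Nat.add (Nat.add (Nat.add C x28884) x11388) x14304) x16248) x15924) x15708) x15780) x15756) x15760)
    (Nat.sub (Nat.sub (Nat.add (Nat.add (Nat.add (Nat.add (Nat.add (Nat.add (Nat.add C x28892) x11396) x14312) x16256) x15932) x15752) x15772) (Nat.mul x15770 (nat_lit 2))) x35452)
    (Nat.sub (Nat.sub (Nat.add (Nat.add (Nat.add (Nat.add (Nat.add (Nat.add (Nat.add (Nat.add (Nat.add C x28894) x11398) x14314) x16258) x15934) x15754) x15778) x15770) x15774) x15772) x35454)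
    (Nat.sub (Nat.add (Nat.add (Nat.add (Nat.add (Nat.add (Nat.add (Nat.add (Nat.add C x28896) x11400) x14316) x16260) x15936) x15756) x15780) x15772) (Nat.mul x15774 (nat_lit 2)))
    (Nat.sub (Nat.add (Nat.add (Nat.add (Nat.add (Nat.add (Nat.add (Nat.add (Nat.add C x28900) x11404) x14320) x16264) x15940) x15760) x15772) x15780) x35460)
    (Nat.add (Nat.add (Nat.add (Nat.add (Nat.add (Nat.add (Nat.add (Nat.add (Nat.add (Nat.add C x15780) x28902) x11406) x14322) x16266) x15942) x15762) x15774) x15786) x15778)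
    (Nat.add (Nat.add (Nat.add (Nat.add (Nat.add (Nat.add (Nat.add C (Nat.mul x15786 (nat_lit 2))) x28908) x11412) x14328) x16272) x15948) x15780)
    (Nat.sub (Nat.sub (Nat.add (Nat.add (Nat.add (Nat.add (Nat.add (Nat.add (Nat.add C x28934) x11438) x14354) x16298) x15650) x15830) x15818) (Nat.mul x15812 (nat_lit 2))) x35494)
    (Nat.sub (Nat.sub (Nat.add (Nat.add (Nat.add (Nat.add (Nat.add (Nat.add (Nat.add (Nat.add C x28940) x11444) x14360) x16304) x15656) x15836) x15812) x15820) (Nat.mul x15818 (nat_lit 4))) x35500)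
    (Nat.sub (Nat.sub (Nat.add (Nat.add (Nat.add (Nat.add (Nat.add (Nat.add (Nat.add C x28942) x11446) x14362) x16306) x15658) x15838) x15818) (Nat.mul x15820 (nat_lit 2))) x35502)
    (Nat.sub (Nat.sub (Nat.add (Nat.add (Nat.add (Nat.add (Nat.add (Nat.add (Nat.add (Nat.add C x28952) x11456) x14372) x16316) x15668) x15884) x15812) x15836) (Nat.mul x15830 (nat_lit 4))) x35512)
    (Nat.sub (Nat.sub (Nat.add (Nat.add (Nat.add (Nat.add (Nat.add (Nat.add (Nat.add (Nat.add (Nat.add (Nat.add (Nat.add C x28958) x11462) x14378) x16322) x15674) x15890) x15818) x15854) x15830) x15842) x15838) (Nat.mul x15836 (nat_lit 4))) x35518)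
    (Nat.sub (Nat.sub (Nat.add (Nat.add (Nat.add (Nat.add (Nat.add (Nat.add (Nat.add (Nat.add (Nat.add (Nat.add C x28960) x11464) x14380) x16324) x15676) x15892) x15820) x15856) x15844) x15836) (Nat.mul x15838 (nat_lit 3))) x35520)
    (Nat.sub (Nat.sub (Nat.add (Nat.add (Nat.add (Nat.add (Nat.add (Nat.add (Nat.add (Nat.add (Nat.add C x28964) x11468) x14384) x16328) x15680) x15896) x15860) x15836) x15844) (Nat.mul x15842 (nat_lit 6))) x35524)
    (Nat.sub (Nat.sub (Nat.add (Nat.add (Nat.add (Nat.add (Nat.add (Nat.add (Nat.add (Nat.add (Nat.add (Nat.add C x28966) x11470) x14386) x16330) x15682) x15898) x15862) x15838) x15842) x15846) (Nat.mul x15844 (nat_lit 3))) x35526)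
    (Nat.sub (Nat.add (Nat.add (Nat.add (Nat.add (Nat.add (Nat.add (Nat.add (Nat.add C x28968) x11472) x14388) x16332) x15684) x15900) x15864) x15844) (Nat.mul x15846 (nat_lit 2)))
    (Nat.sub (Nat.sub (Nat.add (Nat.add (Nat.add (Nat.add (Nat.add (Nat.add (Nat.add (Nat.add (Nat.add C x28976) x11480) x14396) x16340) x15692) x15908) x15836) x15860) x15856) (Nat.mul x15854 (nat_lit 6))) x35536)
    (Nat.sub (Nat.sub (Nat.add (Nat.add (Nat.add (Nat.add (Nat.add (Nat.add (Nat.add (Nat.add (Nat.add C x28978) x11482) x14398) x16342) x15694) x15910) x15838) x15862) x15854) (Nat.mul x15856 (nat_lit 6))) x35538)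
    (Nat.sub (Nat.sub (Nat.add (Nat.add (Nat.add (Nat.add (Nat.add (Nat.add (Nat.add (Nat.add (Nat.add C x28982) x11486) x14402) x16346) x15698) x15914) x15842) x15854) x15862) (Nat.mul x15860 (nat_lit 6))) x35542)
    (Nat.sub (Nat.sub (Nat.add (Nat.add (Nat.add (Nat.add (Nat.add (Nat.add (Nat.add (Nat.add (Nat.add (Nat.add (Nat.add C x28984) x11488) x14404) x16348) x15700) x15916) x15844) x15856) x15868) x15860) x15864) (Nat.mul x15862 (nat_lit 4))) x35544)
    (Nat.sub (Nat.add (Nat.add (Nat.add (Nat.add (Nat.add (Nat.add (Nat.add (Nat.add (Nat.add C x28986) x11490) x14406) x16350) x15702) x15918) x15846) x15870) x15862) (Nat.mul x15864 (nat_lit 4)))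
    (Nat.sub (Nat.sub (Nat.add (Nat.add (Nat.add (Nat.add (Nat.add (Nat.add (Nat.add (Nat.add C x28990) x11494) x14410) x16354) x15706) x15922) x15862) x15870) (Nat.mul x15868 (nat_lit 4))) x35550)
    (Nat.sub (Nat.add (Nat.add (Nat.add (Nat.add (Nat.add (Nat.add (Nat.add (Nat.add C x28992) x11496) x14412) x16356) x15708) x15924) x15864) x15868) (Nat.mul x15870 (nat_lit 2)))
    (Nat.sub (Nat.sub (Nat.add (Nat.add (Nat.add (Nat.add (Nat.add (Nat.add (Nat.add C x29006) x11510) x14426) x16370) x15722) x15830) x15890) (Nat.mul x15884 (nat_lit 2))) x35566)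
    (Nat.sub (Nat.sub (Nat.add (Nat.add (Nat.add (Nat.add (Nat.add (Nat.add (Nat.add (Nat.add (Nat.add (Nat.add C x29012) x11516) x14432) x16376) x15728) x15836) x15908) x15884) x15896) x15892) (Nat.mul x15890 (nat_lit 3))) x35572)
    (Nat.sub (Nat.sub (Nat.add (Nat.add (Nat.add (Nat.add (Nat.add (Nat.add (Nat.add (Nat.add (Nat.add C x29014) x11518) x14434) x16378) x15730) x15838) x15910) x15898) x15890) (Nat.mul x15892 (nat_lit 2))) x35574)
    (Nat.sub (Nat.sub (Nat.add (Nat.add (Nat.add (Nat.add (Nat.add (Nat.add (Nat.add (Nat.add (Nat.add C x29018) x11522) x14438) x16382) x15734) x15842) x15914) x15890) x15898) (Nat.mul x15896 (nat_lit 6))) x35578)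
    (Nat.sub (Nat.sub (Nat.add (Nat.add (Nat.add (Nat.add (Nat.add (Nat.add (Nat.add (Nat.add (Nat.add (Nat.add C x29020) x11524) x14440) x16384) x15736) x15844) x15916) x15892) x15896) x15900) (Nat.mul x15898 (nat_lit 3))) x35580)
    (Nat.sub (Nat.add (Nat.add (Nat.add (Nat.add (Nat.add (Nat.add (Nat.add (Nat.add C x29022) x11526) x14442) x16386) x15738) x15846) x15918) x15898) (Nat.mul x15900 (nat_lit 2)))
    (Nat.sub (Nat.sub (Nat.add (Nat.add (Nat.add (Nat.add (Nat.add (Nat.add (Nat.add (Nat.add (Nat.add (Nat.add C x29030) x11534) x14450) x16394) x15746) x15854) x15962) x15890) x15914) x15910) (Nat.mul x15908 (nat_lit 3))) x35590)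
    (Nat.sub (Nat.sub (Nat.add (Nat.add (Nat.add (Nat.add (Nat.add (Nat.add (Nat.add (Nat.add (Nat.add (Nat.add C x29032) x11536) x14452) x16396) x15748) x15856) x15964) x15892) x15916) x15908) (Nat.mul x15910 (nat_lit 3))) x35592)
    (Nat.sub (Nat.sub (Nat.add (Nat.add (Nat.add (Nat.add (Nat.add (Nat.add (Nat.add (Nat.add (Nat.add (Nat.add (Nat.add C x29036) x11540) x14456) x16400) x15752) x15860) x15968) x15896) x15932) x15908) x15916) (Nat.mul x15914 (nat_lit 4))) x35596)
    (Nat.sub (Nat.sub (Nat.add (Nat.add (Nat.add (Nat.add (Nat.add (Nat.add (Nat.add (Nat.add (Nat.add (Nat.add (Nat.add (Nat.add (Nat.add C x29038) x11542) x14458) x16402) x15754) x15862) x15970) x15898) x15934) x15910) x15922) x15914) x15918) (Nat.mul x15916 (nat_lit 2))) x35598)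
    (Nat.sub (Nat.add (Nat.add (Nat.add (Nat.add (Nat.add (Nat.add (Nat.add (Nat.add (Nat.add (Nat.add (Nat.add C x29040) x11544) x14460) x16404) x15756) x15864) x15972) x15900) x15936) x15924) x15916) (Nat.mul x15918 (nat_lit 2)))
    (Nat.sub (Nat.sub (Nat.add (Nat.add (Nat.add (Nat.add (Nat.add (Nat.add (Nat.add (Nat.add (Nat.add (Nat.add C x29044) x11548) x14464) x16408) x15760) x15868) x15976) x15940) x15916) x15924) (Nat.mul x15922 (nat_lit 3))) x35604)
    (Nat.sub (Nat.add (Nat.add (Nat.add (Nat.add (Nat.add (Nat.add (Nat.add (Nat.add (Nat.add (Nat.add C x29046) x11550) x14466) x16410) x15762) x15870) x15978) x15942) x15918) x15922) x15924)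
    (Nat.sub (Nat.sub (Nat.add (Nat.add (Nat.add (Nat.add (Nat.add (Nat.add (Nat.add (Nat.add C x29054) x11558) x14474) x16418) x15770) x15986) x15914) x15934) (Nat.mul x15932 (nat_lit 4))) x35614)
    (Nat.sub (Nat.sub (Nat.add (Nat.add (Nat.add (Nat.add (Nat.add (Nat.add (Nat.add (Nat.add (Nat.add (Nat.add C x29056) x11560) x14476) x16420) x15772) x15988) x15916) x15940) x15932) x15936) (Nat.mul x15934 (nat_lit 3))) x35616)
    (Nat.sub (Nat.add (Nat.add (Nat.add (Nat.add (Nat.add (Nat.add (Nat.add (Nat.add (Nat.add C x29058) x11562) x14478) x16422) x15774) x15990) x15918) x15942) x15934) (Nat.mul x15936 (nat_lit 4)))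
    (Nat.sub (Nat.sub (Nat.add (Nat.add (Nat.add (Nat.add (Nat.add (Nat.add (Nat.add (Nat.add (Nat.add C x29062) x11566) x14482) x16426) x15778) x15994) x15922) x15934) x15942) (Nat.mul x15940 (nat_lit 2))) x35622)
    (Nat.sub (Nat.add (Nat.add (Nat.add (Nat.add (Nat.add (Nat.add (Nat.add (Nat.add (Nat.add (Nat.add C x29064) x11568) x14484) x16428) x15780) x15996) x15924) x15936) x15948) x15940) x15942)
    (Nat.add (Nat.add (Nat.add (Nat.add (Nat.add (Nat.add (Nat.add C x29070) x11574) x14490) x16434) x15786) x16002) x15942)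
    (Nat.sub (Nat.sub (Nat.add (Nat.add (Nat.add (Nat.add (Nat.add (Nat.add (Nat.add C x29084) x11588) x14504) x16448) x15908) x15968) x15964) (Nat.mul x15962 (nat_lit 2))) x35644)
    (Nat.sub (Nat.sub (Nat.add (Nat.add (Nat.add (Nat.add (Nat.add (Nat.add (Nat.add C x29086) x11590) x14506) x16450) x15910) x15970) x15962) (Nat.mul x15964 (nat_lit 2))) x35646)
    (Nat.sub (Nat.sub (Nat.add (Nat.add (Nat.add (Nat.add (Nat.add (Nat.add (Nat.add (Nat.add C x29090) x11594) x14510) x16454) x15914) x15986) x15962) x15970) (Nat.mul x15968 (nat_lit 4))) x35650)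
    (Nat.sub (Nat.sub (Nat.add (Nat.add (Nat.add (Nat.add (Nat.add (Nat.add (Nat.add (Nat.add (Nat.add (Nat.add C x29092) x11596) x14512) x16456) x15916) x15988) x15964) x15976) x15968) x15972) (Nat.mul x15970 (nat_lit 2))) x35652)
    (Nat.sub (Nat.add (Nat.add (Nat.add (Nat.add (Nat.add (Nat.add (Nat.add (Nat.add C x29094) x11598) x14514) x16458) x15918) x15990) x15978) x15970) (Nat.mul x15972 (nat_lit 2)))
    (Nat.sub (Nat.sub (Nat.add (Nat.add (Nat.add (Nat.add (Nat.add (Nat.add (Nat.add (Nat.add C x29098) x11602) x14518) x16462) x15922) x15994) x15970) x15978) (Nat.mul x15976 (nat_lit 4))) x35658)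
    (Nat.sub (Nat.add (Nat.add (Nat.add (Nat.add (Nat.add (Nat.add (Nat.add (Nat.add C x29100) x11604) x14520) x16464) x15924) x15996) x15972) x15976) (Nat.mul x15978 (nat_lit 2)))
    (Nat.sub (Nat.sub (Nat.add (Nat.add (Nat.add (Nat.add (Nat.add (Nat.add (Nat.add C x29108) x11612) x14528) x16472) x15932) x15968) x15988) (Nat.mul x15986 (nat_lit 2))) x35668)
    (Nat.sub (Nat.sub (Nat.add (Nat.add (Nat.add (Nat.add (Nat.add (Nat.add (Nat.add (Nat.add (Nat.add C x29110) x11614) x14530) x16474) x15934) x15970) x15994) x15986) x15990) x15988) x35670)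
    (Nat.sub (Nat.add (Nat.add (Nat.add (Nat.add (Nat.add (Nat.add (Nat.add (Nat.add C x29112) x11616) x14532) x16476) x15936) x15972) x15996) x15988) (Nat.mul x15990 (nat_lit 2)))
    (Nat.sub (Nat.sub (Nat.add (Nat.add (Nat.add (Nat.add (Nat.add (Nat.add (Nat.add (Nat.add (Nat.add C x29116) x11620) x14536) x16480) x15940) x15976) x16012) x15988) x15996) x15994) x35676)
    (Nat.add (Nat.add (Nat.add (Nat.add (Nat.add (Nat.add (Nat.add (Nat.add (Nat.add (Nat.add C x29118) x11622) x14538) x16482) x15942) x15978) x16014) x15990) x16002) x15994)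
    (Nat.add (Nat.add (Nat.add (Nat.add (Nat.add (Nat.add (Nat.add C x29124) x11628) x14544) x16488) x15948) x16020) x15996)
    (Nat.sub (Nat.add (Nat.add (Nat.add (Nat.add (Nat.add (Nat.add C x29134) x11638) x14554) x16498) x15994) x16014) x35694)
    (Nat.add (Nat.add (Nat.add (Nat.add (Nat.add (Nat.add (Nat.add C x29136) x11640) x14556) x16500) x15996) x16020) x16012)
    (Nat.add (Nat.add (Nat.add (Nat.add (Nat.add (Nat.add (Nat.add C (Nat.mul x16020 (nat_lit 2))) x29142) x11646) x14562) x16506) x16002) x16014)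
    (Nat.sub (Nat.add (Nat.add (Nat.add (Nat.add (Nat.add (Nat.add (Nat.add C x16064) x29186) x11690) x14606) x17522) x15578) x16082) x35746)
    (Nat.sub (Nat.add (Nat.add (Nat.add (Nat.add (Nat.add (Nat.add (Nat.add (Nat.add (Nat.add C x29204) x11708) x14624) x17540) x15596) x16136) x16064) x16100) x16088) x35764)
    (Nat.sub (Nat.sub (Nat.add (Nat.add (Nat.add (Nat.add (Nat.add (Nat.add (Nat.add (Nat.add (Nat.add C x29210) x11714) x14630) x17546) x15602) x16142) x16106) x16082) x16090) x16088) x35770)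
    (Nat.sub (Nat.add (Nat.add (Nat.add (Nat.add (Nat.add (Nat.add (Nat.add (Nat.add (Nat.add C x16090) x29212) x11716) x14632) x17548) x15604) x16144) x16108) x16088) x35772)
    (Nat.sub (Nat.sub (Nat.add (Nat.add (Nat.add (Nat.add (Nat.add (Nat.add (Nat.add (Nat.add C x29222) x11726) x14642) x17558) x15614) x16154) x16082) x16106) (Nat.mul x16100 (nat_lit 3))) x35782)
    (Nat.sub (Nat.sub (Nat.add (Nat.add (Nat.add (Nat.add (Nat.add (Nat.add (Nat.add (Nat.add (Nat.add (Nat.add C x29228) x11732) x14648) x17564) x15620) x16160) x16088) x16100) x16112) x16108) (Nat.mul x16106 (nat_lit 2))) x35788)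
    (Nat.sub (Nat.sub (Nat.add (Nat.add (Nat.add (Nat.add (Nat.add (Nat.add (Nat.add (Nat.add (Nat.add C x29230) x11734) x14650) x17566) x15622) x16162) x16090) x16114) x16106) x16108) x35790)
    (Nat.sub (Nat.sub (Nat.add (Nat.add (Nat.add (Nat.add (Nat.add (Nat.add (Nat.add (Nat.add C x29234) x11738) x14654) x17570) x15626) x16166) x16106) x16114) (Nat.mul x16112 (nat_lit 3))) x35794)
    (Nat.sub (Nat.add (Nat.add (Nat.add (Nat.add (Nat.add (Nat.add (Nat.add (Nat.add (Nat.add C x29236) x11740) x14656) x17572) x15628) x16168) x16108) x16112) x16116) x35796)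
    (Nat.add (Nat.add (Nat.add (Nat.add (Nat.add (Nat.add (Nat.add (Nat.add C x16116) x29238) x11742) x14658) x17574) x15630) x16170) x16114)
    (Nat.sub (Nat.sub (Nat.add (Nat.add (Nat.add (Nat.add (Nat.add (Nat.add (Nat.add (Nat.add (Nat.add C x29258) x11762) x14678) x17594) x15650) x16298) x16082) x16154) x16142) x16136) x35818)
    (Nat.sub (Nat.sub (Nat.add (Nat.add (Nat.add (Nat.add (Nat.add (Nat.add (Nat.add (Nat.add (Nat.add (Nat.add C x29264) x11768) x14684) x17600) x15656) x16304) x16088) x16160) x16136) x16144) (Nat.mul x16142 (nat_lit 3))) x35824)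
    (Nat.sub (Nat.sub (Nat.add (Nat.add (Nat.add (Nat.add (Nat.add (Nat.add (Nat.add (Nat.add (Nat.add C x29266) x11770) x14686) x17602) x15658) x16306) x16090) x16162) x16142) x16144) x35826)
    (Nat.sub (Nat.sub (Nat.add (Nat.add (Nat.add (Nat.add (Nat.add (Nat.add (Nat.add (Nat.add (Nat.add (Nat.add C x29276) x11780) x14696) x17612) x15668) x16316) x16100) x16208) x16136) x16160) (Nat.mul x16154 (nat_lit 2))) x35836)
    (Nat.sub (Nat.sub (Nat.add (Nat.add (Nat.add (Nat.add (Nat.add (Nat.add (Nat.add (Nat.add (Nat.add (Nat.add (Nat.add (Nat.add (Nat.add C x29282) x11786) x14702) x17618) x15674) x16322) x16106) x16214) x16142) x16178) x16154) x16166) x16162) (Nat.mul x16160 (nat_lit 2))) x35842)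
    (Nat.sub (Nat.sub (Nat.add (Nat.add (Nat.add (Nat.add (Nat.add (Nat.add (Nat.add (Nat.add (Nat.add (Nat.add (Nat.add (Nat.add C x29284) x11788) x14704) x17620) x15676) x16324) x16108) x16216) x16144) x16180) x16168) x16160) x16162) x35844)
    (Nat.sub (Nat.sub (Nat.add (Nat.add (Nat.add (Nat.add (Nat.add (Nat.add (Nat.add (Nat.add (Nat.add (Nat.add (Nat.add C x29288) x11792) x14708) x17624) x15680) x16328) x16112) x16220) x16184) x16160) x16168) (Nat.mul x16166 (nat_lit 4))) x35848)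
    (Nat.sub (Nat.sub (Nat.add (Nat.add (Nat.add (Nat.add (Nat.add (Nat.add (Nat.add (Nat.add (Nat.add (Nat.add (Nat.add (Nat.add C x29290) x11794) x14710) x17626) x15682) x16330) x16114) x16222) x16186) x16162) x16166) x16170) x16168) x35850)
    (Nat.add (Nat.add (Nat.add (Nat.add (Nat.add (Nat.add (Nat.add (Nat.add (Nat.add (Nat.add C x29292) x11796) x14712) x17628) x15684) x16332) x16116) x16224) x16188) x16168)
    (Nat.sub (Nat.sub (Nat.add (Nat.add (Nat.add (Nat.add (Nat.add (Nat.add (Nat.add (Nat.add (Nat.add (Nat.add C x29300) x11804) x14720) x17636) x15692) x16340) x16232) x16160) x16184) x16180) (Nat.mul x16178 (nat_lit 3))) x35860)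
    (Nat.sub (Nat.sub (Nat.add (Nat.add (Nat.add (Nat.add (Nat.add (Nat.add (Nat.add (Nat.add (Nat.add (Nat.add C x29302) x11806) x14722) x17638) x15694) x16342) x16234) x16162) x16186) x16178) (Nat.mul x16180 (nat_lit 3))) x35862)
    (Nat.sub (Nat.sub (Nat.add (Nat.add (Nat.add (Nat.add (Nat.add (Nat.add (Nat.add (Nat.add (Nat.add (Nat.add C x29306) x11810) x14726) x17642) x15698) x16346) x16238) x16166) x16178) x16186) (Nat.mul x16184 (nat_lit 3))) x35866)
    (Nat.sub (Nat.sub (Nat.add (Nat.add (Nat.add (Nat.add (Nat.add (Nat.add (Nat.add (Nat.add (Nat.add (Nat.add (Nat.add (Nat.add C x29308) x11812) x14728) x17644) x15700) x16348) x16240) x16168) x16180) x16192) x16184) x16188) x16186) x35868)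
    (Nat.sub (Nat.add (Nat.add (Nat.add (Nat.add (Nat.add (Nat.add (Nat.add (Nat.add (Nat.add (Nat.add C x29310) x11814) x14730) x17646) x15702) x16350) x16242) x16170) x16194) x16186) x16188)
    (Nat.sub (Nat.sub (Nat.add (Nat.add (Nat.add (Nat.add (Nat.add (Nat.add (Nat.add (Nat.add (Nat.add C x29314) x11818) x14734) x17650) x15706) x16354) x16246) x16186) x16194) x16192) x35874)
    (Nat.add (Nat.add (Nat.add (Nat.add (Nat.add (Nat.add (Nat.add (Nat.add (Nat.add (Nat.add C x16194) x29316) x11820) x14736) x17652) x15708) x16356) x16248) x16188) x16192)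
    (Nat.sub (Nat.sub (Nat.add (Nat.add (Nat.add (Nat.add (Nat.add (Nat.add (Nat.add (Nat.add C x29330) x11834) x14750) x17666) x15722) x16370) x16154) x16214) (Nat.mul x16208 (nat_lit 3))) x35890)
    (Nat.sub (Nat.sub (Nat.add (Nat.add (Nat.add (Nat.add (Nat.add (Nat.add (Nat.add (Nat.add (Nat.add (Nat.add (Nat.add C x29336) x11840) x14756) x17672) x15728) x16376) x16160) x16232) x16208) x16220) x16216) (Nat.mul x16214 (nat_lit 4))) x35896)
    (Nat.sub (Nat.sub (Nat.add (Nat.add (Nat.add (Nat.add (Nat.add (Nat.add (Nat.add (Nat.add (Nat.add (Nat.add C x29338) x11842) x14758) x17674) x15730) x16378) x16162) x16234) x16222) x16214) (Nat.mul x16216 (nat_lit 3))) x35898)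
    (Nat.sub (Nat.sub (Nat.add (Nat.add (Nat.add (Nat.add (Nat.add (Nat.add (Nat.add (Nat.add (Nat.add (Nat.add C x29342) x11846) x14762) x17678) x15734) x16382) x16166) x16238) x16214) x16222) (Nat.mul x16220 (nat_lit 7))) x35902)
    (Nat.sub (Nat.sub (Nat.add (Nat.add (Nat.add (Nat.add (Nat.add (Nat.add (Nat.add (Nat.add (Nat.add (Nat.add (Nat.add C x29344) x11848) x14764) x17680) x15736) x16384) x16168) x16240) x16216) x16220) x16224) (Nat.mul x16222 (nat_lit 4))) x35904)
    (Nat.sub (Nat.add (Nat.add (Nat.add (Nat.add (Nat.add (Nat.add (Nat.add (Nat.add (Nat.add C x29346) x11850) x14766) x17682) x15738) x16386) x16170) x16242) x16222) (Nat.mul x16224 (nat_lit 3)))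
    (Nat.sub (Nat.sub (Nat.add (Nat.add (Nat.add (Nat.add (Nat.add (Nat.add (Nat.add (Nat.add (Nat.add (Nat.add C x29354) x11858) x14774) x17690) x15746) x16394) x16178) x16214) x16238) x16234) (Nat.mul x16232 (nat_lit 3))) x35914)
    (Nat.sub (Nat.sub (Nat.add (Nat.add (Nat.add (Nat.add (Nat.add (Nat.add (Nat.add (Nat.add (Nat.add (Nat.add C x29356) x11860) x14776) x17692) x15748) x16396) x16180) x16216) x16240) x16232) (Nat.mul x16234 (nat_lit 3))) x35916)
    (Nat.sub (Nat.sub (Nat.add (Nat.add (Nat.add (Nat.add (Nat.add (Nat.add (Nat.add (Nat.add (Nat.add (Nat.add (Nat.add C x29360) x11864) x14780) x17696) x15752) x16400) x16184) x16220) x16256) x16232) x16240) (Nat.mul x16238 (nat_lit 4))) x35920)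
    (Nat.sub (Nat.sub (Nat.add (Nat.add (Nat.add (Nat.add (Nat.add (Nat.add (Nat.add (Nat.add (Nat.add (Nat.add (Nat.add (Nat.add (Nat.add C x29362) x11866) x14782) x17698) x15754) x16402) x16186) x16222) x16258) x16234) x16246) x16238) x16242) (Nat.mul x16240 (nat_lit 2))) x35922)
    (Nat.sub (Nat.add (Nat.add (Nat.add (Nat.add (Nat.add (Nat.add (Nat.add (Nat.add (Nat.add (Nat.add (Nat.add C x29364) x11868) x14784) x17700) x15756) x16404) x16188) x16224) x16260) x16248) x16240) (Nat.mul x16242 (nat_lit 2)))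
    (Nat.sub (Nat.sub (Nat.add (Nat.add (Nat.add (Nat.add (Nat.add (Nat.add (Nat.add (Nat.add (Nat.add (Nat.add C x29368) x11872) x14788) x17704) x15760) x16408) x16192) x16264) x16240) x16248) (Nat.mul x16246 (nat_lit 3))) x35928)
    (Nat.sub (Nat.add (Nat.add (Nat.add (Nat.add (Nat.add (Nat.add (Nat.add (Nat.add (Nat.add (Nat.add C x29370) x11874) x14790) x17706) x15762) x16410) x16194) x16266) x16242) x16246) x16248)
    (Nat.sub (Nat.sub (Nat.add (Nat.add (Nat.add (Nat.add (Nat.add (Nat.add (Nat.add (Nat.add C x29378) x11882) x14798) x17714) x15770) x16418) x16238) x16258) (Nat.mul x16256 (nat_lit 3))) x35938)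
    (Nat.sub (Nat.sub (Nat.add (Nat.add (Nat.add (Nat.add (Nat.add (Nat.add (Nat.add (Nat.add (Nat.add (Nat.add C x29380) x11884) x14800) x17716) x15772) x16420) x16240) x16264) x16256) x16260) (Nat.mul x16258 (nat_lit 2))) x35940)
    (Nat.sub (Nat.add (Nat.add (Nat.add (Nat.add (Nat.add (Nat.add (Nat.add (Nat.add (Nat.add C x29382) x11886) x14802) x17718) x15774) x16422) x16242) x16266) x16258) (Nat.mul x16260 (nat_lit 3)))
    (Nat.sub (Nat.sub (Nat.add (Nat.add (Nat.add (Nat.add (Nat.add (Nat.add (Nat.add (Nat.add (Nat.add C x29386) x11890) x14806) x17722) x15778) x16426) x16246) x16258) x16266) x16264) x35946)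
    (Nat.add (Nat.add (Nat.add (Nat.add (Nat.add (Nat.add (Nat.add (Nat.add (Nat.add (Nat.add C x29388) x11892) x14808) x17724) x15780) x16428) x16248) x16260) x16272) x16264)
    (Nat.add (Nat.add (Nat.add (Nat.add (Nat.add (Nat.add (Nat.add (Nat.add C x16272) x29394) x11898) x14814) x17730) x15786) x16434) x16266)
    (Nat.sub (Nat.add (Nat.add (Nat.add (Nat.add (Nat.add (Nat.add (Nat.add (Nat.add (Nat.add C x29420) x11924) x14840) x17756) x15812) x16784) x16136) x16316) x16304) x35980)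
    (Nat.sub (Nat.sub (Nat.add (Nat.add (Nat.add (Nat.add (Nat.add (Nat.add (Nat.add (Nat.add (Nat.add (Nat.add C x29426) x11930) x14846) x17762) x15818) x16790) x16142) x16322) x16298) x16306) (Nat.mul x16304 (nat_lit 2))) x35986)
    (Nat.sub (Nat.add (Nat.add (Nat.add (Nat.add (Nat.add (Nat.add (Nat.add (Nat.add (Nat.add C x29428) x11932) x14848) x17764) x15820) x16792) x16144) x16324) x16304) x35988)
    (Nat.sub (Nat.sub (Nat.add (Nat.add (Nat.add (Nat.add (Nat.add (Nat.add (Nat.add (Nat.add (Nat.add (Nat.add C x29438) x11942) x14858) x17774) x15830) x16802) x16154) x16370) x16298) x16322) (Nat.mul x16316 (nat_lit 2))) x35998)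
    (Nat.sub (Nat.sub (Nat.add (Nat.add (Nat.add (Nat.add (Nat.add (Nat.add (Nat.add (Nat.add (Nat.add (Nat.add (Nat.add (Nat.add (Nat.add C x29444) x11948) x14864) x17780) x15836) x16808) x16160) x16376) x16304) x16340) x16316) x16328) x16324) (Nat.mul x16322 (nat_lit 2))) x36004)
    (Nat.sub (Nat.sub (Nat.add (Nat.add (Nat.add (Nat.add (Nat.add (Nat.add (Nat.add (Nat.add (Nat.add (Nat.add (Nat.add (Nat.add C x29446) x11950) x14866) x17782) x15838) x16810) x16162) x16378) x16306) x16342) x16330) x16322) x16324) x36006)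
    (Nat.sub (Nat.sub (Nat.add (Nat.add (Nat.add (Nat.add (Nat.add (Nat.add (Nat.add (Nat.add (Nat.add (Nat.add (Nat.add C x29450) x11954) x14870) x17786) x15842) x16814) x16166) x16382) x16346) x16322) x16330) (Nat.mul x16328 (nat_lit 4))) x36010)
    (Nat.sub (Nat.sub (Nat.add (Nat.add (Nat.add (Nat.add (Nat.add (Nat.add (Nat.add (Nat.add (Nat.add (Nat.add (Nat.add (Nat.add C x29452) x11956) x14872) x17788) x15844) x16816) x16168) x16384) x16348) x16324) x16328) x16332) x16330) x36012)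
    (Nat.add (Nat.add (Nat.add (Nat.add (Nat.add (Nat.add (Nat.add (Nat.add (Nat.add (Nat.add C x29454) x11958) x14874) x17790) x15846) x16818) x16170) x16386) x16350) x16330)
    (Nat.sub (Nat.sub (Nat.add (Nat.add (Nat.add (Nat.add (Nat.add (Nat.add (Nat.add (Nat.add (Nat.add (Nat.add (Nat.add C x29462) x11966) x14882) x17798) x15854) x16826) x16178) x16394) x16322) x16346) x16342) (Nat.mul x16340 (nat_lit 4))) x36022)
    (Nat.sub (Nat.sub (Nat.add (Nat.add (Nat.add (Nat.add (Nat.add (Nat.add (Nat.add (Nat.add (Nat.add (Nat.add (Nat.add C x29464) x11968) x14884) x17800) x15856) x16828) x16180) x16396) x16324) x16348) x16340) (Nat.mul x16342 (nat_lit 4))) x36024)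
    (Nat.sub (Nat.sub (Nat.add (Nat.add (Nat.add (Nat.add (Nat.add (Nat.add (Nat.add (Nat.add (Nat.add (Nat.add (Nat.add C x29468) x11972) x14888) x17804) x15860) x16832) x16184) x16400) x16328) x16340) x16348) (Nat.mul x16346 (nat_lit 4))) x36028)
    (Nat.sub (Nat.sub (Nat.add (Nat.add (Nat.add (Nat.add (Nat.add (Nat.add (Nat.add (Nat.add (Nat.add (Nat.add (Nat.add (Nat.add (Nat.add C x29470) x11974) x14890) x17806) x15862) x16834) x16186) x16402) x16330) x16342) x16354) x16346) x16350) (Nat.mul x16348 (nat_lit 2))) x36030)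
    (Nat.sub (Nat.add (Nat.add (Nat.add (Nat.add (Nat.add (Nat.add (Nat.add (Nat.add (Nat.add (Nat.add (Nat.add C x29472) x11976) x14892) x17808) x15864) x16836) x16188) x16404) x16332) x16356) x16348) (Nat.mul x16350 (nat_lit 2)))
    (Nat.sub (Nat.sub (Nat.add (Nat.add (Nat.add (Nat.add (Nat.add (Nat.add (Nat.add (Nat.add (Nat.add (Nat.add C x29476) x11980) x14896) x17812) x15868) x16840) x16192) x16408) x16348) x16356) (Nat.mul x16354 (nat_lit 2))) x36036)
    (Nat.add (Nat.add (Nat.add (Nat.add (Nat.add (Nat.add (Nat.add (Nat.add (Nat.add (Nat.add C x29478) x11982) x14898) x17814) x15870) x16842) x16194) x16410) x16350) x16354)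
    (Nat.sub (Nat.sub (Nat.add (Nat.add (Nat.add (Nat.add (Nat.add (Nat.add (Nat.add (Nat.add (Nat.add (Nat.add C x29492) x11996) x14912) x17828) x15884) x16856) x16208) x16532) x16316) x16376) x16370) x36052)
    (Nat.sub (Nat.sub (Nat.add (Nat.add (Nat.add (Nat.add (Nat.add (Nat.add (Nat.add (Nat.add (Nat.add (Nat.add (Nat.add (Nat.add (Nat.add C x29498) x12002) x14918) x17834) x15890) x16862) x16214) x16538) x16322) x16394) x16370) x16382) x16378) (Nat.mul x16376 (nat_lit 2))) x36058)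
    (Nat.sub (Nat.sub (Nat.add (Nat.add (Nat.add (Nat.add (Nat.add (Nat.add (Nat.add (Nat.add (Nat.add (Nat.add (Nat.add (Nat.add C x29500) x12004) x14920) x17836) x15892) x16864) x16216) x16540) x16324) x16396) x16384) x16376) x16378) x36060)
    (Nat.sub (Nat.sub (Nat.add (Nat.add (Nat.add (Nat.add (Nat.add (Nat.add (Nat.add (Nat.add (Nat.add (Nat.add (Nat.add (Nat.add C x29504) x12008) x14924) x17840) x15896) x16868) x16220) x16544) x16328) x16400) x16376) x16384) (Nat.mul x16382 (nat_lit 5))) x36064)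
    (Nat.sub (Nat.sub (Nat.add (Nat.add (Nat.add (Nat.add (Nat.add (Nat.add (Nat.add (Nat.add (Nat.add (Nat.add (Nat.add (Nat.add (Nat.add C x29506) x12010) x14926) x17842) x15898) x16870) x16222) x16546) x16330) x16402) x16378) x16382) x16386) (Nat.mul x16384 (nat_lit 2))) x36066)
    (Nat.sub (Nat.add (Nat.add (Nat.add (Nat.add (Nat.add (Nat.add (Nat.add (Nat.add (Nat.add (Nat.add (Nat.add C x29508) x12012) x14928) x17844) x15900) x16872) x16224) x16548) x16332) x16404) x16384) x16386)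
    (Nat.sub (Nat.sub (Nat.add (Nat.add (Nat.add (Nat.add (Nat.add (Nat.add (Nat.add (Nat.add (Nat.add (Nat.add (Nat.add (Nat.add (Nat.add C x29516) x12020) x14936) x17852) x15908) x16880) x16232) x16556) x16340) x16448) x16376) x16400) x16396) (Nat.mul x16394 (nat_lit 2))) x36076)
    (Nat.sub (Nat.sub (Nat.add (Nat.add (Nat.add (Nat.add (Nat.add (Nat.add (Nat.add (Nat.add (Nat.add (Nat.add (Nat.add (Nat.add (Nat.add C x29518) x12022) x14938) x17854) x15910) x16882) x16234) x16558) x16342) x16450) x16378) x16402) x16394) (Nat.mul x16396 (nat_lit 2))) x36078)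
    (Nat.sub (Nat.sub (Nat.add (Nat.add (Nat.add (Nat.add (Nat.add (Nat.add (Nat.add (Nat.add (Nat.add (Nat.add (Nat.add (Nat.add (Nat.add (Nat.add C x29522) x12026) x14942) x17858) x15914) x16886) x16238) x16562) x16346) x16454) x16382) x16418) x16394) x16402) (Nat.mul x16400 (nat_lit 3))) x36082)
    (Nat.sub (Nat.sub (Nat.add (Nat.add (Nat.add (Nat.add (Nat.add (Nat.add (Nat.add (Nat.add (Nat.add (Nat.add (Nat.add (Nat.add (Nat.add (Nat.add (Nat.add (Nat.add C x29524) x12028) x14944) x17860) x15916) x16888) x16240) x16564) x16348) x16456) x16384) x16420) x16396) x16408) x16400) x16404) x16402) x36084)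
    (Nat.sub (Nat.add (Nat.add (Nat.add (Nat.add (Nat.add (Nat.add (Nat.add (Nat.add (Nat.add (Nat.add (Nat.add (Nat.add (Nat.add (Nat.add C x29526) x12030) x14946) x17862) x15918) x16890) x16242) x16566) x16350) x16458) x16386) x16422) x16410) x16402) x16404)
    (Nat.sub (Nat.sub (Nat.add (Nat.add (Nat.add (Nat.add (Nat.add (Nat.add (Nat.add (Nat.add (Nat.add (Nat.add (Nat.add (Nat.add (Nat.add C x29530) x12034) x14950) x17866) x15922) x16894) x16246) x16570) x16354) x16462) x16426) x16402) x16410) (Nat.mul x16408 (nat_lit 2))) x36090)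
    (Nat.add (Nat.add (Nat.add (Nat.add (Nat.add (Nat.add (Nat.add (Nat.add (Nat.add (Nat.add (Nat.add (Nat.add (Nat.add C x29532) x12036) x14952) x17868) x15924) x16896) x16248) x16572) x16356) x16464) x16428) x16404) x16408)
    (Nat.sub (Nat.sub (Nat.add (Nat.add (Nat.add (Nat.add (Nat.add (Nat.add (Nat.add (Nat.add (Nat.add (Nat.add (Nat.add C x29540) x12044) x14960) x17876) x15932) x16904) x16256) x16580) x16472) x16400) x16420) (Nat.mul x16418 (nat_lit 3))) x36100)
    (Nat.sub (Nat.sub (Nat.add (Nat.add (Nat.add (Nat.add (Nat.add (Nat.add (Nat.add (Nat.add (Nat.add (Nat.add (Nat.add (Nat.add (Nat.add C x29542) x12046) x14962) x17878) x15934) x16906) x16258) x16582) x16474) x16402) x16426) x16418) x16422) (Nat.mul x16420 (nat_lit 2))) x36102)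
    (Nat.sub (Nat.add (Nat.add (Nat.add (Nat.add (Nat.add (Nat.add (Nat.add (Nat.add (Nat.add (Nat.add (Nat.add (Nat.add C x29544) x12048) x14964) x17880) x15936) x16908) x16260) x16584) x16476) x16404) x16428) x16420) (Nat.mul x16422 (nat_lit 3)))
    (Nat.sub (Nat.sub (Nat.add (Nat.add (Nat.add (Nat.add (Nat.add (Nat.add (Nat.add (Nat.add (Nat.add (Nat.add (Nat.add (Nat.add C x29548) x12052) x14968) x17884) x15940) x16912) x16264) x16588) x16480) x16408) x16420) x16428) x16426) x36108)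
    (Nat.add (Nat.add (Nat.add (Nat.add (Nat.add (Nat.add (Nat.add (Nat.add (Nat.add (Nat.add (Nat.add (Nat.add (Nat.add C x29550) x12054) x14970) x17886) x15942) x16914) x16266) x16590) x16482) x16410) x16422) x16434) x16426)
    (Nat.add (Nat.add (Nat.add (Nat.add (Nat.add (Nat.add (Nat.add (Nat.add (Nat.add (Nat.add (Nat.add C x16434) x29556) x12060) x14976) x17892) x15948) x16920) x16272) x16596) x16488) x16428)
    (Nat.sub (Nat.sub (Nat.add (Nat.add (Nat.add (Nat.add (Nat.add (Nat.add (Nat.add (Nat.add (Nat.add (Nat.add C x29570) x12074) x14990) x17906) x15962) x16934) x16610) x16394) x16454) x16450) (Nat.mul x16448 (nat_lit 2))) x36130)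
    (Nat.sub (Nat.sub (Nat.add (Nat.add (Nat.add (Nat.add (Nat.add (Nat.add (Nat.add (Nat.add (Nat.add (Nat.add C x29572) x12076) x14992) x17908) x15964) x16936) x16612) x16396) x16456) x16448) (Nat.mul x16450 (nat_lit 2))) x36132)
    (Nat.sub (Nat.sub (Nat.add (Nat.add (Nat.add (Nat.add (Nat.add (Nat.add (Nat.add (Nat.add (Nat.add (Nat.add (Nat.add C x29576) x12080) x14996) x17912) x15968) x16940) x16616) x16400) x16472) x16448) x16456) (Nat.mul x16454 (nat_lit 4))) x36136)
    (Nat.sub (Nat.sub (Nat.add (Nat.add (Nat.add (Nat.add (Nat.add (Nat.add (Nat.add (Nat.add (Nat.add (Nat.add (Nat.add (Nat.add (Nat.add C x29578) x12082) x14998) x17914) x15970) x16942) x16618) x16402) x16474) x16450) x16462) x16454) x16458) (Nat.mul x16456 (nat_lit 2))) x36138)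
    (Nat.sub (Nat.add (Nat.add (Nat.add (Nat.add (Nat.add (Nat.add (Nat.add (Nat.add (Nat.add (Nat.add (Nat.add C x29580) x12084) x15000) x17916) x15972) x16944) x16620) x16404) x16476) x16464) x16456) (Nat.mul x16458 (nat_lit 2)))
    (Nat.sub (Nat.sub (Nat.add (Nat.add (Nat.add (Nat.add (Nat.add (Nat.add (Nat.add (Nat.add (Nat.add (Nat.add (Nat.add C x29584) x12088) x15004) x17920) x15976) x16948) x16624) x16408) x16480) x16456) x16464) (Nat.mul x16462 (nat_lit 4))) x36144)
    (Nat.sub (Nat.add (Nat.add (Nat.add (Nat.add (Nat.add (Nat.add (Nat.add (Nat.add (Nat.add (Nat.add (Nat.add C x29586) x12090) x15006) x17922) x15978) x16950) x16626) x16410) x16482) x16458) x16462) (Nat.mul x16464 (nat_lit 2)))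
    (Nat.sub (Nat.sub (Nat.add (Nat.add (Nat.add (Nat.add (Nat.add (Nat.add (Nat.add (Nat.add (Nat.add (Nat.add C x29594) x12098) x15014) x17930) x15986) x16958) x16634) x16418) x16454) x16474) (Nat.mul x16472 (nat_lit 2))) x36154)
    (Nat.sub (Nat.sub (Nat.add (Nat.add (Nat.add (Nat.add (Nat.add (Nat.add (Nat.add (Nat.add (Nat.add (Nat.add (Nat.add (Nat.add C x29596) x12100) x15016) x17932) x15988) x16960) x16636) x16420) x16456) x16480) x16472) x16476) x16474) x36156)
    (Nat.sub (Nat.add (Nat.add (Nat.add (Nat.add (Nat.add (Nat.add (Nat.add (Nat.add (Nat.add (Nat.add (Nat.add C x29598) x12102) x15018) x17934) x15990) x16962) x16638) x16422) x16458) x16482) x16474) (Nat.mul x16476 (nat_lit 2)))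
    (Nat.sub (Nat.sub (Nat.add (Nat.add (Nat.add (Nat.add (Nat.add (Nat.add (Nat.add (Nat.add (Nat.add (Nat.add (Nat.add (Nat.add C x29602) x12106) x15022) x17938) x15994) x16966) x16642) x16426) x16462) x16498) x16474) x16482) x16480) x36162)
    (Nat.add (Nat.add (Nat.add (Nat.add (Nat.add (Nat.add (Nat.add (Nat.add (Nat.add (Nat.add (Nat.add (Nat.add (Nat.add C x29604) x12108) x15024) x17940) x15996) x16968) x16644) x16428) x16464) x16500) x16476) x16488) x16480)
    (Nat.add (Nat.add (Nat.add (Nat.add (Nat.add (Nat.add (Nat.add (Nat.add (Nat.add (Nat.add C x29610) x12114) x15030) x17946) x16002) x16974) x16650) x16434) x16506) x16482)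
    (Nat.sub (Nat.add (Nat.add (Nat.add (Nat.add (Nat.add (Nat.add (Nat.add (Nat.add (Nat.add C x29620) x12124) x15040) x17956) x16012) x16984) x16660) x16480) x16500) x36180)
    (Nat.add (Nat.add (Nat.add (Nat.add (Nat.add (Nat.add (Nat.add (Nat.add (Nat.add (Nat.add C x29622) x12126) x15042) x17958) x16014) x16986) x16662) x16482) x16506) x16498)
    (Nat.add (Nat.add (Nat.add (Nat.add (Nat.add (Nat.add (Nat.add (Nat.add (Nat.add (Nat.add C (Nat.mul x16506 (nat_lit 2))) x29628) x12132) x15048) x17964) x16020) x16992) x16668) x16488) x16500)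
    (Nat.sub (Nat.sub (Nat.add (Nat.add (Nat.add (Nat.add (Nat.add (Nat.add (Nat.add C x29654) x12158) x15074) x17990) x17018) x16370) x16538) x16532) x36214)
    (Nat.sub (Nat.sub (Nat.add (Nat.add (Nat.add (Nat.add (Nat.add (Nat.add (Nat.add (Nat.add (Nat.add (Nat.add C x29660) x12164) x15080) x17996) x17024) x16376) x16556) x16532) x16544) x16540) (Nat.mul x16538 (nat_lit 2))) x36220)
    (Nat.sub (Nat.sub (Nat.add (Nat.add (Nat.add (Nat.add (Nat.add (Nat.add (Nat.add (Nat.add (Nat.add C x29662) x12166) x15082) x17998) x17026) x16378) x16558) x16546) x16538) x16540) x36222)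
    (Nat.sub (Nat.sub (Nat.add (Nat.add (Nat.add (Nat.add (Nat.add (Nat.add (Nat.add (Nat.add (Nat.add C x29666) x12170) x15086) x18002) x17030) x16382) x16562) x16538) x16546) (Nat.mul x16544 (nat_lit 5))) x36226)
    (Nat.sub (Nat.sub (Nat.add (Nat.add (Nat.add (Nat.add (Nat.add (Nat.add (Nat.add (Nat.add (Nat.add (Nat.add C x29668) x12172) x15088) x18004) x17032) x16384) x16564) x16540) x16544) x16548) (Nat.mul x16546 (nat_lit 2))) x36228)
    (Nat.sub (Nat.add (Nat.add (Nat.add (Nat.add (Nat.add (Nat.add (Nat.add (Nat.add C x29670) x12174) x15090) x18006) x17034) x16386) x16566) x16546) x16548)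
    (Nat.sub (Nat.sub (Nat.add (Nat.add (Nat.add (Nat.add (Nat.add (Nat.add (Nat.add (Nat.add (Nat.add (Nat.add C x29678) x12182) x15098) x18014) x17042) x16394) x16610) x16538) x16562) x16558) (Nat.mul x16556 (nat_lit 3))) x36238)
    (Nat.sub (Nat.sub (Nat.add (Nat.add (Nat.add (Nat.add (Nat.add (Nat.add (Nat.add (Nat.add (Nat.add (Nat.add C x29680) x12184) x15100) x18016) x17044) x16396) x16612) x16540) x16564) x16556) (Nat.mul x16558 (nat_lit 3))) x36240)
    (Nat.sub (Nat.sub (Nat.add (Nat.add (Nat.add (Nat.add (Nat.add (Nat.add (Nat.add (Nat.add (Nat.add (Nat.add (Nat.add C x29684) x12188) x15104) x18020) x17048) x16400) x16616) x16544) x16580) x16556) x16564) (Nat.mul x16562 (nat_lit 4))) x36244)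
    (Nat.sub (Nat.sub (Nat.add (Nat.add (Nat.add (Nat.add (Nat.add (Nat.add (Nat.add (Nat.add (Nat.add (Nat.add (Nat.add (Nat.add (Nat.add C x29686) x12190) x15106) x18022) x17050) x16402) x16618) x16546) x16582) x16558) x16570) x16562) x16566) (Nat.mul x16564 (nat_lit 2))) x36246)
    (Nat.sub (Nat.add (Nat.add (Nat.add (Nat.add (Nat.add (Nat.add (Nat.add (Nat.add (Nat.add (Nat.add (Nat.add C x29688) x12192) x15108) x18024) x17052) x16404) x16620) x16548) x16584) x16572) x16564) (Nat.mul x16566 (nat_lit 2)))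
    (Nat.sub (Nat.sub (Nat.add (Nat.add (Nat.add (Nat.add (Nat.add (Nat.add (Nat.add (Nat.add (Nat.add (Nat.add C x29692) x12196) x15112) x18028) x17056) x16408) x16624) x16588) x16564) x16572) (Nat.mul x16570 (nat_lit 3))) x36252)
    (Nat.sub (Nat.add (Nat.add (Nat.add (Nat.add (Nat.add (Nat.add (Nat.add (Nat.add (Nat.add (Nat.add C x29694) x12198) x15114) x18030) x17058) x16410) x16626) x16590) x16566) x16570) x16572)
    (Nat.sub (Nat.sub (Nat.add (Nat.add (Nat.add (Nat.add (Nat.add (Nat.add (Nat.add (Nat.add (Nat.add C x29702) x12206) x15122) x18038) x17066) x16418) x16634) x16562) x16582) (Nat.mul x16580 (nat_lit 5))) x36262)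
    (Nat.sub (Nat.sub (Nat.add (Nat.add (Nat.add (Nat.add (Nat.add (Nat.add (Nat.add (Nat.add (Nat.add (Nat.add (Nat.add C x29704) x12208) x15124) x18040) x17068) x16420) x16636) x16564) x16588) x16580) x16584) (Nat.mul x16582 (nat_lit 4))) x36264)
    (Nat.sub (Nat.add (Nat.add (Nat.add (Nat.add (Nat.add (Nat.add (Nat.add (Nat.add (Nat.add (Nat.add C x29706) x12210) x15126) x18042) x17070) x16422) x16638) x16566) x16590) x16582) (Nat.mul x16584 (nat_lit 5)))
    (Nat.sub (Nat.sub (Nat.add (Nat.add (Nat.add (Nat.add (Nat.add (Nat.add (Nat.add (Nat.add (Nat.add (Nat.add C x29710) x12214) x15130) x18046) x17074) x16426) x16642) x16570) x16582) x16590) (Nat.mul x16588 (nat_lit 3))) x36270)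
    (Nat.sub (Nat.add (Nat.add (Nat.add (Nat.add (Nat.add (Nat.add (Nat.add (Nat.add (Nat.add (Nat.add (Nat.add C x29712) x12216) x15132) x18048) x17076) x16428) x16644) x16572) x16584) x16596) x16588) (Nat.mul x16590 (nat_lit 2)))
    (Nat.sub (Nat.add (Nat.add (Nat.add (Nat.add (Nat.add (Nat.add (Nat.add (Nat.add C x29718) x12222) x15138) x18054) x17082) x16434) x16650) x16590) x16596)
    (Nat.sub (Nat.sub (Nat.add (Nat.add (Nat.add (Nat.add (Nat.add (Nat.add (Nat.add (Nat.add (Nat.add C x29732) x12236) x15152) x18068) x17096) x16448) x16556) x16616) x16612) x16610) x36292)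
    (Nat.sub (Nat.sub (Nat.add (Nat.add (Nat.add (Nat.add (Nat.add (Nat.add (Nat.add (Nat.add (Nat.add C x29734) x12238) x15154) x18070) x17098) x16450) x16558) x16618) x16610) x16612) x36294)
    (Nat.sub (Nat.sub (Nat.add (Nat.add (Nat.add (Nat.add (Nat.add (Nat.add (Nat.add (Nat.add (Nat.add (Nat.add C x29738) x12242) x15158) x18074) x17102) x16454) x16562) x16634) x16610) x16618) (Nat.mul x16616 (nat_lit 3))) x36298)
    (Nat.sub (Nat.sub (Nat.add (Nat.add (Nat.add (Nat.add (Nat.add (Nat.add (Nat.add (Nat.add (Nat.add (Nat.add (Nat.add (Nat.add C x29740) x12244) x15160) x18076) x17104) x16456) x16564) x16636) x16612) x16624) x16616) x16620) x16618) x36300)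
    (Nat.sub (Nat.add (Nat.add (Nat.add (Nat.add (Nat.add (Nat.add (Nat.add (Nat.add (Nat.add (Nat.add C x29742) x12246) x15162) x18078) x17106) x16458) x16566) x16638) x16626) x16618) x16620)
    (Nat.sub (Nat.sub (Nat.add (Nat.add (Nat.add (Nat.add (Nat.add (Nat.add (Nat.add (Nat.add (Nat.add (Nat.add C x29746) x12250) x15166) x18082) x17110) x16462) x16570) x16642) x16618) x16626) (Nat.mul x16624 (nat_lit 3))) x36306)
    (Nat.sub (Nat.add (Nat.add (Nat.add (Nat.add (Nat.add (Nat.add (Nat.add (Nat.add (Nat.add (Nat.add C x29748) x12252) x15168) x18084) x17112) x16464) x16572) x16644) x16620) x16624) x16626)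
    (Nat.sub (Nat.sub (Nat.add (Nat.add (Nat.add (Nat.add (Nat.add (Nat.add (Nat.add (Nat.add (Nat.add (Nat.add C x29756) x12260) x15176) x18092) x17120) x16472) x16580) x16688) x16616) x16636) (Nat.mul x16634 (nat_lit 2))) x36316)
    (Nat.sub (Nat.sub (Nat.add (Nat.add (Nat.add (Nat.add (Nat.add (Nat.add (Nat.add (Nat.add (Nat.add (Nat.add (Nat.add (Nat.add C x29758) x12262) x15178) x18094) x17122) x16474) x16582) x16690) x16618) x16642) x16634) x16638) x16636) x36318)
    (Nat.sub (Nat.add (Nat.add (Nat.add (Nat.add (Nat.add (Nat.add (Nat.add (Nat.add (Nat.add (Nat.add (Nat.add C x29760) x12264) x15180) x18096) x17124) x16476) x16584) x16692) x16620) x16644) x16636) (Nat.mul x16638 (nat_lit 2)))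
    (Nat.sub (Nat.sub (Nat.add (Nat.add (Nat.add (Nat.add (Nat.add (Nat.add (Nat.add (Nat.add (Nat.add (Nat.add (Nat.add (Nat.add C x29764) x12268) x15184) x18100) x17128) x16480) x16588) x16696) x16624) x16660) x16636) x16644) x16642) x36324)
    (Nat.add (Nat.add (Nat.add (Nat.add (Nat.add (Nat.add (Nat.add (Nat.add (Nat.add (Nat.add (Nat.add (Nat.add (Nat.add C x29766) x12270) x15186) x18102) x17130) x16482) x16590) x16698) x16626) x16662) x16638) x16650) x16642)
    (Nat.add (Nat.add (Nat.add (Nat.add (Nat.add (Nat.add (Nat.add (Nat.add (Nat.add (Nat.add C x29772) x12276) x15192) x18108) x17136) x16488) x16596) x16704) x16668) x16644)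
    (Nat.sub (Nat.sub (Nat.add (Nat.add (Nat.add (Nat.add (Nat.add (Nat.add (Nat.add (Nat.add (Nat.add C x29782) x12286) x15202) x18118) x17146) x16498) x16714) x16642) x16662) x16660) x36342)
    (Nat.sub (Nat.add (Nat.add (Nat.add (Nat.add (Nat.add (Nat.add (Nat.add (Nat.add (Nat.add (Nat.add C x29784) x12288) x15204) x18120) x17148) x16500) x16716) x16644) x16668) x16660) x16662)
    (Nat.add (Nat.add (Nat.add (Nat.add (Nat.add (Nat.add (Nat.add (Nat.add (Nat.add (Nat.add C x16668) x29790) x12294) x15210) x18126) x17154) x16506) x16722) x16650) x16662)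
    (Nat.sub (Nat.sub (Nat.add (Nat.add (Nat.add (Nat.add (Nat.add (Nat.add (Nat.add C x29810) x12314) x15230) x18146) x17174) x16634) x16690) x16688) x36370)
    (Nat.sub (Nat.add (Nat.add (Nat.add (Nat.add (Nat.add (Nat.add (Nat.add (Nat.add (Nat.add C x29812) x12316) x15232) x18148) x17176) x16636) x16696) x16688) x16692) x36372)
    (Nat.sub (Nat.add (Nat.add (Nat.add (Nat.add (Nat.add (Nat.add (Nat.add (Nat.add C x29814) x12318) x15234) x18150) x17178) x16638) x16698) x16690) x16692)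
    (Nat.sub (Nat.sub (Nat.add (Nat.add (Nat.add (Nat.add (Nat.add (Nat.add (Nat.add (Nat.add (Nat.add C x29818) x12322) x15238) x18154) x17182) x16642) x16714) x16690) x16698) x16696) x36378)
    (Nat.add (Nat.add (Nat.add (Nat.add (Nat.add (Nat.add (Nat.add (Nat.add (Nat.add (Nat.add C x29820) x12324) x15240) x18156) x17184) x16644) x16716) x16692) x16704) x16696)
    (Nat.sub (Nat.add (Nat.add (Nat.add (Nat.add (Nat.add (Nat.add (Nat.add (Nat.add C x29826) x12330) x15246) x18162) x17190) x16650) x16722) x16698) x16704)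
    (Nat.sub (Nat.add (Nat.add (Nat.add (Nat.add (Nat.add (Nat.add (Nat.add (Nat.add (Nat.add C x16714) x29836) x12340) x15256) x18172) x17200) x16660) x16696) x16716) x36396)
    (Nat.add (Nat.add (Nat.add (Nat.add (Nat.add (Nat.add (Nat.add (Nat.add (Nat.add (Nat.add C x16716) x29838) x12342) x15258) x18174) x17202) x16662) x16698) x16722) x16714)
    (Nat.add (Nat.add (Nat.add (Nat.add (Nat.add (Nat.add (Nat.add (Nat.add (Nat.add (Nat.add C (Nat.mul x16722 (nat_lit 2))) x29844) x12348) x15264) x18180) x17208) x16668) x16704) x16740) x16716)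
    (Nat.add (Nat.add (Nat.add (Nat.add (Nat.add (Nat.add (Nat.add C (Nat.mul x16740 (nat_lit 3))) x29862) x12366) x15282) x18198) x17226) x16722)
    (Nat.sub (Nat.add (Nat.add (Nat.add (Nat.add (Nat.add (Nat.add C x29906) x12410) x18242) x16298) x16802) x16790) x36466)
    (Nat.sub (Nat.sub (Nat.add (Nat.add (Nat.add (Nat.add (Nat.add (Nat.add (Nat.add C x29912) x12416) x18248) x16304) x16808) x16784) x16792) (Nat.mul x16790 (nat_lit 2))) x36472)
    (Nat.sub (Nat.add (Nat.add (Nat.add (Nat.add (Nat.add (Nat.add C x29914) x12418) x18250) x16306) x16810) x16790) x36474)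
    (Nat.sub (Nat.sub (Nat.add (Nat.add (Nat.add (Nat.add (Nat.add (Nat.add (Nat.add C x29924) x12428) x18260) x16316) x16856) x16784) x16808) (Nat.mul x16802 (nat_lit 2))) x36484)
    (Nat.sub (Nat.sub (Nat.add (Nat.add (Nat.add (Nat.add (Nat.add (Nat.add (Nat.add (Nat.add (Nat.add (Nat.add C x29930) x12434) x18266) x16322) x16862) x16790) x16826) x16802) x16814) x16810) (Nat.mul x16808 (nat_lit 2))) x36490)
    (Nat.sub (Nat.sub (Nat.add (Nat.add (Nat.add (Nat.add (Nat.add (Nat.add (Nat.add (Nat.add (Nat.add C x29932) x12436) x18268) x16324) x16864) x16792) x16828) x16816) x16808) x16810) x36492)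
    (Nat.sub (Nat.sub (Nat.add (Nat.add (Nat.add (Nat.add (Nat.add (Nat.add (Nat.add (Nat.add C x29936) x12440) x18272) x16328) x16868) x16832) x16808) x16816) (Nat.mul x16814 (nat_lit 4))) x36496)
    (Nat.sub (Nat.sub (Nat.add (Nat.add (Nat.add (Nat.add (Nat.add (Nat.add (Nat.add (Nat.add (Nat.add C x29938) x12442) x18274) x16330) x16870) x16834) x16810) x16814) x16818) x16816) x36498)
    (Nat.add (Nat.add (Nat.add (Nat.add (Nat.add (Nat.add (Nat.add C x29940) x12444) x18276) x16332) x16872) x16836) x16816)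
    (Nat.sub (Nat.sub (Nat.add (Nat.add (Nat.add (Nat.add (Nat.add (Nat.add (Nat.add (Nat.add C x29948) x12452) x18284) x16340) x16880) x16808) x16832) x16828) (Nat.mul x16826 (nat_lit 4))) x36508)
    (Nat.sub (Nat.sub (Nat.add (Nat.add (Nat.add (Nat.add (Nat.add (Nat.add (Nat.add (Nat.add C x29950) x12454) x18286) x16342) x16882) x16810) x16834) x16826) (Nat.mul x16828 (nat_lit 4))) x36510)
    (Nat.sub (Nat.sub (Nat.add (Nat.add (Nat.add (Nat.add (Nat.add (Nat.add (Nat.add (Nat.add C x29954) x12458) x18290) x16346) x16886) x16814) x16826) x16834) (Nat.mul x16832 (nat_lit 4))) x36514)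
    (Nat.sub (Nat.sub (Nat.add (Nat.add (Nat.add (Nat.add (Nat.add (Nat.add (Nat.add (Nat.add (Nat.add (Nat.add C x29956) x12460) x18292) x16348) x16888) x16816) x16828) x16840) x16832) x16836) (Nat.mul x16834 (nat_lit 2))) x36516)
    (Nat.sub (Nat.add (Nat.add (Nat.add (Nat.add (Nat.add (Nat.add (Nat.add (Nat.add C x29958) x12462) x18294) x16350) x16890) x16818) x16842) x16834) (Nat.mul x16836 (nat_lit 2)))
    (Nat.sub (Nat.sub (Nat.add (Nat.add (Nat.add (Nat.add (Nat.add (Nat.add (Nat.add C x29962) x12466) x18298) x16354) x16894) x16834) x16842) (Nat.mul x16840 (nat_lit 2))) x36522)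
    (Nat.add (Nat.add (Nat.add (Nat.add (Nat.add (Nat.add (Nat.add C x29964) x12468) x18300) x16356) x16896) x16836) x16840)
    (Nat.sub (Nat.sub (Nat.add (Nat.add (Nat.add (Nat.add (Nat.add (Nat.add (Nat.add C x29978) x12482) x18314) x16370) x17018) x16802) x16862) (Nat.mul x16856 (nat_lit 2))) x36538)
    (Nat.sub (Nat.sub (Nat.add (Nat.add (Nat.add (Nat.add (Nat.add (Nat.add (Nat.add (Nat.add (Nat.add (Nat.add C x29984) x12488) x18320) x16376) x17024) x16808) x16880) x16856) x16868) x16864) (Nat.mul x16862 (nat_lit 3))) x36544)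
    (Nat.sub (Nat.sub (Nat.add (Nat.add (Nat.add (Nat.add (Nat.add (Nat.add (Nat.add (Nat.add (Nat.add C x29986) x12490) x18322) x16378) x17026) x16810) x16882) x16870) x16862) (Nat.mul x16864 (nat_lit 2))) x36546)
    (Nat.sub (Nat.sub (Nat.add (Nat.add (Nat.add (Nat.add (Nat.add (Nat.add (Nat.add (Nat.add (Nat.add C x29990) x12494) x18326) x16382) x17030) x16814) x16886) x16862) x16870) (Nat.mul x16868 (nat_lit 6))) x36550)
    (Nat.sub (Nat.sub (Nat.add (Nat.add (Nat.add (Nat.add (Nat.add (Nat.add (Nat.add (Nat.add (Nat.add (Nat.add C x29992) x12496) x18328) x16384) x17032) x16816) x16888) x16864) x16868) x16872) (Nat.mul x16870 (nat_lit 3))) x36552)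
    (Nat.sub (Nat.add (Nat.add (Nat.add (Nat.add (Nat.add (Nat.add (Nat.add (Nat.add C x29994) x12498) x18330) x16386) x17034) x16818) x16890) x16870) (Nat.mul x16872 (nat_lit 2)))
    (Nat.sub (Nat.sub (Nat.add (Nat.add (Nat.add (Nat.add (Nat.add (Nat.add (Nat.add (Nat.add (Nat.add (Nat.add C x30002) x12506) x18338) x16394) x17042) x16826) x16934) x16862) x16886) x16882) (Nat.mul x16880 (nat_lit 3))) x36562)
    (Nat.sub (Nat.sub (Nat.add (Nat.add (Nat.add (Nat.add (Nat.add (Nat.add (Nat.add (Nat.add (Nat.add (Nat.add C x30004) x12508) x18340) x16396) x17044) x16828) x16936) x16864) x16888) x16880) (Nat.mul x16882 (nat_lit 3))) x36564)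
    (Nat.sub (Nat.sub (Nat.add (Nat.add (Nat.add (Nat.add (Nat.add (Nat.add (Nat.add (Nat.add (Nat.add (Nat.add (Nat.add C x30008) x12512) x18344) x16400) x17048) x16832) x16940) x16868) x16904) x16880) x16888) (Nat.mul x16886 (nat_lit 4))) x36568)
    (Nat.sub (Nat.sub (Nat.add (Nat.add (Nat.add (Nat.add (Nat.add (Nat.add (Nat.add (Nat.add (Nat.add (Nat.add (Nat.add (Nat.add (Nat.add C x30010) x12514) x18346) x16402) x17050) x16834) x16942) x16870) x16906) x16882) x16894) x16886) x16890) (Nat.mul x16888 (nat_lit 2))) x36570)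
    (Nat.sub (Nat.add (Nat.add (Nat.add (Nat.add (Nat.add (Nat.add (Nat.add (Nat.add (Nat.add (Nat.add (Nat.add C x30012) x12516) x18348) x16404) x17052) x16836) x16944) x16872) x16908) x16896) x16888) (Nat.mul x16890 (nat_lit 2)))
    (Nat.sub (Nat.sub (Nat.add (Nat.add (Nat.add (Nat.add (Nat.add (Nat.add (Nat.add (Nat.add (Nat.add (Nat.add C x30016) x12520) x18352) x16408) x17056) x16840) x16948) x16912) x16888) x16896) (Nat.mul x16894 (nat_lit 3))) x36576)
    (Nat.sub (Nat.add (Nat.add (Nat.add (Nat.add (Nat.add (Nat.add (Nat.add (Nat.add (Nat.add (Nat.add C x30018) x12522) x18354) x16410) x17058) x16842) x16950) x16914) x16890) x16894) x16896)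
    (Nat.sub (Nat.sub (Nat.add (Nat.add (Nat.add (Nat.add (Nat.add (Nat.add (Nat.add (Nat.add C x30026) x12530) x18362) x16418) x17066) x16958) x16886) x16906) (Nat.mul x16904 (nat_lit 4))) x36586)
    (Nat.sub (Nat.sub (Nat.add (Nat.add (Nat.add (Nat.add (Nat.add (Nat.add (Nat.add (Nat.add (Nat.add (Nat.add C x30028) x12532) x18364) x16420) x17068) x16960) x16888) x16912) x16904) x16908) (Nat.mul x16906 (nat_lit 3))) x36588)
    (Nat.sub (Nat.add (Nat.add (Nat.add (Nat.add (Nat.add (Nat.add (Nat.add (Nat.add (Nat.add C x30030) x12534) x18366) x16422) x17070) x16962) x16890) x16914) x16906) (Nat.mul x16908 (nat_lit 4)))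
    (Nat.sub (Nat.sub (Nat.add (Nat.add (Nat.add (Nat.add (Nat.add (Nat.add (Nat.add (Nat.add (Nat.add C x30034) x12538) x18370) x16426) x17074) x16966) x16894) x16906) x16914) (Nat.mul x16912 (nat_lit 2))) x36594)
    (Nat.sub (Nat.add (Nat.add (Nat.add (Nat.add (Nat.add (Nat.add (Nat.add (Nat.add (Nat.add (Nat.add C x30036) x12540) x18372) x16428) x17076) x16968) x16896) x16908) x16920) x16912) x16914)
    (Nat.add (Nat.add (Nat.add (Nat.add (Nat.add (Nat.add (Nat.add C x30042) x12546) x18378) x16434) x17082) x16974) x16914)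
    (Nat.sub (Nat.sub (Nat.add (Nat.add (Nat.add (Nat.add (Nat.add (Nat.add (Nat.add (Nat.add C x30056) x12560) x18392) x16448) x17096) x16880) x16940) x16936) (Nat.mul x16934 (nat_lit 4))) x36616)
    (Nat.sub (Nat.sub (Nat.add (Nat.add (Nat.add (Nat.add (Nat.add (Nat.add (Nat.add (Nat.add C x30058) x12562) x18394) x16450) x17098) x16882) x16942) x16934) (Nat.mul x16936 (nat_lit 4))) x36618)
    (Nat.sub (Nat.sub (Nat.add (Nat.add (Nat.add (Nat.add (Nat.add (Nat.add (Nat.add (Nat.add (Nat.add C x30062) x12566) x18398) x16454) x17102) x16886) x16958) x16934) x16942) (Nat.mul x16940 (nat_lit 6))) x36622)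
    (Nat.sub (Nat.sub (Nat.add (Nat.add (Nat.add (Nat.add (Nat.add (Nat.add (Nat.add (Nat.add (Nat.add (Nat.add (Nat.add C x30064) x12568) x18400) x16456) x17104) x16888) x16960) x16936) x16948) x16940) x16944) (Nat.mul x16942 (nat_lit 4))) x36624)
    (Nat.sub (Nat.add (Nat.add (Nat.add (Nat.add (Nat.add (Nat.add (Nat.add (Nat.add (Nat.add C x30066) x12570) x18402) x16458) x17106) x16890) x16962) x16950) x16942) (Nat.mul x16944 (nat_lit 4)))
    (Nat.sub (Nat.sub (Nat.add (Nat.add (Nat.add (Nat.add (Nat.add (Nat.add (Nat.add (Nat.add (Nat.add C x30070) x12574) x18406) x16462) x17110) x16894) x16966) x16942) x16950) (Nat.mul x16948 (nat_lit 6))) x36630)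
    (Nat.sub (Nat.add (Nat.add (Nat.add (Nat.add (Nat.add (Nat.add (Nat.add (Nat.add (Nat.add C x30072) x12576) x18408) x16464) x17112) x16896) x16968) x16944) x16948) (Nat.mul x16950 (nat_lit 4)))
    (Nat.sub (Nat.sub (Nat.add (Nat.add (Nat.add (Nat.add (Nat.add (Nat.add (Nat.add (Nat.add C x30080) x12584) x18416) x16472) x17120) x16904) x16940) x16960) (Nat.mul x16958 (nat_lit 4))) x36640)
    (Nat.sub (Nat.sub (Nat.add (Nat.add (Nat.add (Nat.add (Nat.add (Nat.add (Nat.add (Nat.add (Nat.add (Nat.add C x30082) x12586) x18418) x16474) x17122) x16906) x16942) x16966) x16958) x16962) (Nat.mul x16960 (nat_lit 3))) x36642)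
    (Nat.sub (Nat.add (Nat.add (Nat.add (Nat.add (Nat.add (Nat.add (Nat.add (Nat.add (Nat.add C x30084) x12588) x18420) x16476) x17124) x16908) x16944) x16968) x16960) (Nat.mul x16962 (nat_lit 4)))
    (Nat.sub (Nat.sub (Nat.add (Nat.add (Nat.add (Nat.add (Nat.add (Nat.add (Nat.add (Nat.add (Nat.add (Nat.add C x30088) x12592) x18424) x16480) x17128) x16912) x16948) x16984) x16960) x16968) (Nat.mul x16966 (nat_lit 3))) x36648)
    (Nat.sub (Nat.add (Nat.add (Nat.add (Nat.add (Nat.add (Nat.add (Nat.add (Nat.add (Nat.add (Nat.add (Nat.add C x30090) x12594) x18426) x16482) x17130) x16914) x16950) x16986) x16962) x16974) x16966) (Nat.mul x16968 (nat_lit 2)))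
    (Nat.sub (Nat.add (Nat.add (Nat.add (Nat.add (Nat.add (Nat.add (Nat.add (Nat.add C x30096) x12600) x18432) x16488) x17136) x16920) x16992) x16968) (Nat.mul x16974 (nat_lit 2)))
    (Nat.sub (Nat.sub (Nat.add (Nat.add (Nat.add (Nat.add (Nat.add (Nat.add (Nat.add C x30106) x12610) x18442) x16498) x17146) x16966) x16986) (Nat.mul x16984 (nat_lit 2))) x36666)
    (Nat.sub (Nat.add (Nat.add (Nat.add (Nat.add (Nat.add (Nat.add (Nat.add (Nat.add C x30108) x12612) x18444) x16500) x17148) x16968) x16992) x16984) (Nat.mul x16986 (nat_lit 2)))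
    (Nat.add (Nat.add (Nat.add (Nat.add (Nat.add (Nat.add (Nat.add C x30114) x12618) x18450) x16506) x17154) x16974) x16986)
    (Nat.sub (Nat.add (Nat.add (Nat.add (Nat.add (Nat.add (Nat.add C x30140) x12644) x18476) x16532) x16856) x17024) x36700)
    (Nat.sub (Nat.sub (Nat.add (Nat.add (Nat.add (Nat.add (Nat.add (Nat.add (Nat.add (Nat.add (Nat.add C x30146) x12650) x18482) x16538) x16862) x17042) x17018) x17030) x17026) x17024) x36706)
    (Nat.sub (Nat.add (Nat.add (Nat.add (Nat.add (Nat.add (Nat.add (Nat.add (Nat.add C x30148) x12652) x18484) x16540) x16864) x17044) x17032) x17024) x36708)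
    (Nat.sub (Nat.sub (Nat.add (Nat.add (Nat.add (Nat.add (Nat.add (Nat.add (Nat.add (Nat.add C x30152) x12656) x18488) x16544) x16868) x17048) x17024) x17032) (Nat.mul x17030 (nat_lit 4))) x36712)
    (Nat.sub (Nat.sub (Nat.add (Nat.add (Nat.add (Nat.add (Nat.add (Nat.add (Nat.add (Nat.add (Nat.add C x30154) x12658) x18490) x16546) x16870) x17050) x17026) x17030) x17034) x17032) x36714)
    (Nat.add (Nat.add (Nat.add (Nat.add (Nat.add (Nat.add (Nat.add C x30156) x12660) x18492) x16548) x16872) x17052) x17032)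
    (Nat.sub (Nat.sub (Nat.add (Nat.add (Nat.add (Nat.add (Nat.add (Nat.add (Nat.add (Nat.add (Nat.add C x30164) x12668) x18500) x16556) x16880) x17096) x17024) x17048) x17044) (Nat.mul x17042 (nat_lit 2))) x36724)
    (Nat.sub (Nat.sub (Nat.add (Nat.add (Nat.add (Nat.add (Nat.add (Nat.add (Nat.add (Nat.add (Nat.add C x30166) x12670) x18502) x16558) x16882) x17098) x17026) x17050) x17042) (Nat.mul x17044 (nat_lit 2))) x36726)
    (Nat.sub (Nat.sub (Nat.add (Nat.add (Nat.add (Nat.add (Nat.add (Nat.add (Nat.add (Nat.add (Nat.add (Nat.add C x30170) x12674) x18506) x16562) x16886) x17102) x17030) x17066) x17042) x17050) (Nat.mul x17048 (nat_lit 3))) x36730)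
    (Nat.sub (Nat.sub (Nat.add (Nat.add (Nat.add (Nat.add (Nat.add (Nat.add (Nat.add (Nat.add (Nat.add (Nat.add (Nat.add (Nat.add C x30172) x12676) x18508) x16564) x16888) x17104) x17032) x17068) x17044) x17056) x17048) x17052) x17050) x36732)
    (Nat.sub (Nat.add (Nat.add (Nat.add (Nat.add (Nat.add (Nat.add (Nat.add (Nat.add (Nat.add (Nat.add C x30174) x12678) x18510) x16566) x16890) x17106) x17034) x17070) x17058) x17050) x17052)
    (Nat.sub (Nat.sub (Nat.add (Nat.add (Nat.add (Nat.add (Nat.add (Nat.add (Nat.add (Nat.add (Nat.add C x30178) x12682) x18514) x16570) x16894) x17110) x17074) x17050) x17058) (Nat.mul x17056 (nat_lit 2))) x36738)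
    (Nat.add (Nat.add (Nat.add (Nat.add (Nat.add (Nat.add (Nat.add (Nat.add (Nat.add C x30180) x12684) x18516) x16572) x16896) x17112) x17076) x17052) x17056)
    (Nat.sub (Nat.sub (Nat.add (Nat.add (Nat.add (Nat.add (Nat.add (Nat.add (Nat.add (Nat.add C x30188) x12692) x18524) x16580) x16904) x17120) x17048) x17068) (Nat.mul x17066 (nat_lit 4))) x36748)
    (Nat.sub (Nat.sub (Nat.add (Nat.add (Nat.add (Nat.add (Nat.add (Nat.add (Nat.add (Nat.add (Nat.add (Nat.add C x30190) x12694) x18526) x16582) x16906) x17122) x17050) x17074) x17066) x17070) (Nat.mul x17068 (nat_lit 3))) x36750)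
    (Nat.sub (Nat.add (Nat.add (Nat.add (Nat.add (Nat.add (Nat.add (Nat.add (Nat.add (Nat.add C x30192) x12696) x18528) x16584) x16908) x17124) x17052) x17076) x17068) (Nat.mul x17070 (nat_lit 4)))
    (Nat.sub (Nat.sub (Nat.add (Nat.add (Nat.add (Nat.add (Nat.add (Nat.add (Nat.add (Nat.add (Nat.add C x30196) x12700) x18532) x16588) x16912) x17128) x17056) x17068) x17076) (Nat.mul x17074 (nat_lit 2))) x36756)
    (Nat.sub (Nat.add (Nat.add (Nat.add (Nat.add (Nat.add (Nat.add (Nat.add (Nat.add (Nat.add (Nat.add C x30198) x12702) x18534) x16590) x16914) x17130) x17058) x17070) x17082) x17074) x17076)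
    (Nat.add (Nat.add (Nat.add (Nat.add (Nat.add (Nat.add (Nat.add C x30204) x12708) x18540) x16596) x16920) x17136) x17076)
    (Nat.sub (Nat.sub (Nat.add (Nat.add (Nat.add (Nat.add (Nat.add (Nat.add (Nat.add (Nat.add (Nat.add C x30218) x12722) x18554) x16610) x16934) x17258) x17042) x17102) x17098) x17096) x36778)
    (Nat.sub (Nat.sub (Nat.add (Nat.add (Nat.add (Nat.add (Nat.add (Nat.add (Nat.add (Nat.add (Nat.add C x30220) x12724) x18556) x16612) x16936) x17260) x17044) x17104) x17096) x17098) x36780)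
    (Nat.sub (Nat.sub (Nat.add (Nat.add (Nat.add (Nat.add (Nat.add (Nat.add (Nat.add (Nat.add (Nat.add (Nat.add C x30224) x12728) x18560) x16616) x16940) x17264) x17048) x17120) x17096) x17104) (Nat.mul x17102 (nat_lit 3))) x36784)
    (Nat.sub (Nat.sub (Nat.add (Nat.add (Nat.add (Nat.add (Nat.add (Nat.add (Nat.add (Nat.add (Nat.add (Nat.add (Nat.add (Nat.add C x30226) x12730) x18562) x16618) x16942) x17266) x17050) x17122) x17098) x17110) x17102) x17106) x17104) x36786)
    (Nat.sub (Nat.add (Nat.add (Nat.add (Nat.add (Nat.add (Nat.add (Nat.add (Nat.add (Nat.add (Nat.add C x30228) x12732) x18564) x16620) x16944) x17268) x17052) x17124) x17112) x17104) x17106)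
    (Nat.sub (Nat.sub (Nat.add (Nat.add (Nat.add (Nat.add (Nat.add (Nat.add (Nat.add (Nat.add (Nat.add (Nat.add C x30232) x12736) x18568) x16624) x16948) x17272) x17056) x17128) x17104) x17112) (Nat.mul x17110 (nat_lit 3))) x36792)
    (Nat.sub (Nat.add (Nat.add (Nat.add (Nat.add (Nat.add (Nat.add (Nat.add (Nat.add (Nat.add (Nat.add C x30234) x12738) x18570) x16626) x16950) x17274) x17058) x17130) x17106) x17110) x17112)
    (Nat.sub (Nat.sub (Nat.add (Nat.add (Nat.add (Nat.add (Nat.add (Nat.add (Nat.add (Nat.add (Nat.add (Nat.add C x30242) x12746) x18578) x16634) x16958) x17282) x17066) x17174) x17102) x17122) (Nat.mul x17120 (nat_lit 2))) x36802)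
    (Nat.sub (Nat.sub (Nat.add (Nat.add (Nat.add (Nat.add (Nat.add (Nat.add (Nat.add (Nat.add (Nat.add (Nat.add (Nat.add (Nat.add C x30244) x12748) x18580) x16636) x16960) x17284) x17068) x17176) x17104) x17128) x17120) x17124) x17122) x36804)
    (Nat.sub (Nat.add (Nat.add (Nat.add (Nat.add (Nat.add (Nat.add (Nat.add (Nat.add (Nat.add (Nat.add (Nat.add C x30246) x12750) x18582) x16638) x16962) x17286) x17070) x17178) x17106) x17130) x17122) (Nat.mul x17124 (nat_lit 2)))
    (Nat.sub (Nat.sub (Nat.add (Nat.add (Nat.add (Nat.add (Nat.add (Nat.add (Nat.add (Nat.add (Nat.add (Nat.add (Nat.add (Nat.add C x30250) x12754) x18586) x16642) x16966) x17290) x17074) x17182) x17110) x17146) x17122) x17130) x17128) x36810)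
    (Nat.add (Nat.add (Nat.add (Nat.add (Nat.add (Nat.add (Nat.add (Nat.add (Nat.add (Nat.add (Nat.add (Nat.add (Nat.add C x30252) x12756) x18588) x16644) x16968) x17292) x17076) x17184) x17112) x17148) x17124) x17136) x17128)
    (Nat.add (Nat.add (Nat.add (Nat.add (Nat.add (Nat.add (Nat.add (Nat.add (Nat.add (Nat.add C x30258) x12762) x18594) x16650) x16974) x17298) x17082) x17190) x17154) x17130)
    (Nat.sub (Nat.sub (Nat.add (Nat.add (Nat.add (Nat.add (Nat.add (Nat.add (Nat.add (Nat.add (Nat.add C x30268) x12772) x18604) x16660) x16984) x17308) x17200) x17128) x17148) x17146) x36828)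
    (Nat.sub (Nat.add (Nat.add (Nat.add (Nat.add (Nat.add (Nat.add (Nat.add (Nat.add (Nat.add (Nat.add C x30270) x12774) x18606) x16662) x16986) x17310) x17202) x17130) x17154) x17146) x17148)
    (Nat.add (Nat.add (Nat.add (Nat.add (Nat.add (Nat.add (Nat.add (Nat.add (Nat.add (Nat.add C x17154) x30276) x12780) x18612) x16668) x16992) x17316) x17208) x17136) x17148)
    (Nat.sub (Nat.sub (Nat.add (Nat.add (Nat.add (Nat.add (Nat.add (Nat.add (Nat.add C x30296) x12800) x18632) x16688) x17336) x17120) x17176) (Nat.mul x17174 (nat_lit 2))) x36856)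
    (Nat.sub (Nat.sub (Nat.add (Nat.add (Nat.add (Nat.add (Nat.add (Nat.add (Nat.add (Nat.add (Nat.add C x30298) x12802) x18634) x16690) x17338) x17122) x17182) x17174) x17178) x17176) x36858)
    (Nat.sub (Nat.add (Nat.add (Nat.add (Nat.add (Nat.add (Nat.add (Nat.add (Nat.add C x30300) x12804) x18636) x16692) x17340) x17124) x17184) x17176) (Nat.mul x17178 (nat_lit 2)))
    (Nat.sub (Nat.sub (Nat.add (Nat.add (Nat.add (Nat.add (Nat.add (Nat.add (Nat.add (Nat.add (Nat.add C x30304) x12808) x18640) x16696) x17344) x17128) x17200) x17176) x17184) (Nat.mul x17182 (nat_lit 2))) x36864)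
    (Nat.sub (Nat.add (Nat.add (Nat.add (Nat.add (Nat.add (Nat.add (Nat.add (Nat.add (Nat.add (Nat.add C x30306) x12810) x18642) x16698) x17346) x17130) x17202) x17178) x17190) x17182) x17184)
    (Nat.sub (Nat.add (Nat.add (Nat.add (Nat.add (Nat.add (Nat.add (Nat.add (Nat.add C x30312) x12816) x18648) x16704) x17352) x17136) x17208) x17184) (Nat.mul x17190 (nat_lit 2)))
    (Nat.sub (Nat.add (Nat.add (Nat.add (Nat.add (Nat.add (Nat.add (Nat.add (Nat.add C x30322) x12826) x18658) x16714) x17362) x17146) x17182) x17202) x36882)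
    (Nat.add (Nat.add (Nat.add (Nat.add (Nat.add (Nat.add (Nat.add (Nat.add (Nat.add C x30324) x12828) x18660) x16716) x17364) x17148) x17184) x17208) x17200)
    (Nat.add (Nat.add (Nat.add (Nat.add (Nat.add (Nat.add (Nat.add (Nat.add (Nat.add (Nat.add C x17208) x30330) x12834) x18666) x16722) x17370) x17154) x17190) x17226) x17202)
    (Nat.add (Nat.add (Nat.add (Nat.add (Nat.add (Nat.add (Nat.add C (Nat.mul x17226 (nat_lit 2))) x30348) x12852) x18684) x16740) x17388) x17208)
    (Nat.sub (Nat.add (Nat.add (Nat.add (Nat.add (Nat.add (Nat.add C x30380) x12884) x18716) x17096) x17264) x17260) x36940)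
    (Nat.sub (Nat.add (Nat.add (Nat.add (Nat.add (Nat.add (Nat.add C x30382) x12886) x18718) x17098) x17266) x17258) x36942)
    (Nat.sub (Nat.sub (Nat.add (Nat.add (Nat.add (Nat.add (Nat.add (Nat.add (Nat.add C x30386) x12890) x18722) x17102) x17282) x17258) x17266) (Nat.mul x17264 (nat_lit 2))) x36946)
    (Nat.sub (Nat.add (Nat.add (Nat.add (Nat.add (Nat.add (Nat.add (Nat.add (Nat.add (Nat.add C x30388) x12892) x18724) x17104) x17284) x17260) x17272) x17264) x17268) x36948)
    (Nat.add (Nat.add (Nat.add (Nat.add (Nat.add (Nat.add (Nat.add C x30390) x12894) x18726) x17106) x17286) x17274) x17266)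
    (Nat.sub (Nat.sub (Nat.add (Nat.add (Nat.add (Nat.add (Nat.add (Nat.add (Nat.add C x30394) x12898) x18730) x17110) x17290) x17266) x17274) (Nat.mul x17272 (nat_lit 2))) x36954)
    (Nat.add (Nat.add (Nat.add (Nat.add (Nat.add (Nat.add (Nat.add C x30396) x12900) x18732) x17112) x17292) x17268) x17272)
    (Nat.sub (Nat.sub (Nat.add (Nat.add (Nat.add (Nat.add (Nat.add (Nat.add (Nat.add C x30404) x12908) x18740) x17120) x17336) x17264) x17284) (Nat.mul x17282 (nat_lit 2))) x36964)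
    (Nat.sub (Nat.sub (Nat.add (Nat.add (Nat.add (Nat.add (Nat.add (Nat.add (Nat.add (Nat.add (Nat.add C x30406) x12910) x18742) x17122) x17338) x17266) x17290) x17282) x17286) x17284) x36966)
    (Nat.sub (Nat.add (Nat.add (Nat.add (Nat.add (Nat.add (Nat.add (Nat.add (Nat.add C x30408) x12912) x18744) x17124) x17340) x17268) x17292) x17284) (Nat.mul x17286 (nat_lit 2)))
    (Nat.sub (Nat.sub (Nat.add (Nat.add (Nat.add (Nat.add (Nat.add (Nat.add (Nat.add (Nat.add (Nat.add C x30412) x12916) x18748) x17128) x17344) x17272) x17308) x17284) x17292) x17290) x36972)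
    (Nat.add (Nat.add (Nat.add (Nat.add (Nat.add (Nat.add (Nat.add (Nat.add (Nat.add (Nat.add C x30414) x12918) x18750) x17130) x17346) x17274) x17310) x17286) x17298) x17290)
    (Nat.add (Nat.add (Nat.add (Nat.add (Nat.add (Nat.add (Nat.add C x30420) x12924) x18756) x17136) x17352) x17316) x17292)
    (Nat.sub (Nat.sub (Nat.add (Nat.add (Nat.add (Nat.add (Nat.add (Nat.add (Nat.add C x30430) x12934) x18766) x17146) x17362) x17290) x17310) (Nat.mul x17308 (nat_lit 2))) x36990)
    (Nat.sub (Nat.add (Nat.add (Nat.add (Nat.add (Nat.add (Nat.add (Nat.add (Nat.add C x30432) x12936) x18768) x17148) x17364) x17292) x17316) x17308) (Nat.mul x17310 (nat_lit 2)))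
    (Nat.add (Nat.add (Nat.add (Nat.add (Nat.add (Nat.add (Nat.add C x30438) x12942) x18774) x17154) x17370) x17298) x17310)
    (Nat.sub (Nat.add (Nat.add (Nat.add (Nat.add (Nat.add (Nat.add C x30458) x12962) x18794) x17174) x17282) x17338) x37018)
    (Nat.sub (Nat.add (Nat.add (Nat.add (Nat.add (Nat.add (Nat.add (Nat.add (Nat.add (Nat.add C x17338) x30460) x12964) x18796) x17176) x17284) x17344) x17336) x17340) x37020)
    (Nat.add (Nat.add (Nat.add (Nat.add (Nat.add (Nat.add (Nat.add C x30462) x12966) x18798) x17178) x17286) x17346) x17338)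
    (Nat.sub (Nat.add (Nat.add (Nat.add (Nat.add (Nat.add (Nat.add (Nat.add (Nat.add C x30466) x12970) x18802) x17182) x17290) x17362) x17338) x17346) x37026)
    (Nat.add (Nat.add (Nat.add (Nat.add (Nat.add (Nat.add (Nat.add (Nat.add (Nat.add (Nat.add C x17346) x30468) x12972) x18804) x17184) x17292) x17364) x17340) x17352) x17344)
    (Nat.add (Nat.add (Nat.add (Nat.add (Nat.add (Nat.add (Nat.add C x30474) x12978) x18810) x17190) x17298) x17370) x17346)
    (Nat.sub (Nat.add (Nat.add (Nat.add (Nat.add (Nat.add (Nat.add (Nat.add (Nat.add (Nat.add C x17362) x30484) x12988) x18820) x17200) x17308) x17416) x17344) x17364) x37044)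
    (Nat.add (Nat.add (Nat.add (Nat.add (Nat.add (Nat.add (Nat.add (Nat.add (Nat.add (Nat.add C x17364) x30486) x12990) x18822) x17202) x17310) x17418) x17346) x17370) x17362)
    (Nat.add (Nat.add (Nat.add (Nat.add (Nat.add (Nat.add (Nat.add (Nat.add (Nat.add (Nat.add C (Nat.mul x17370 (nat_lit 2))) x30492) x12996) x18828) x17208) x17316) x17424) x17352) x17388) x17364)
    (Nat.add (Nat.add (Nat.add (Nat.add (Nat.add (Nat.add (Nat.add C (Nat.mul x17388 (nat_lit 2))) x30510) x13014) x18846) x17226) x17442) x17370)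
    (Nat.sub (Nat.add (Nat.add (Nat.add (Nat.add (Nat.add (Nat.add C (Nat.mul x17416 (nat_lit 2))) x30538) x13042) x18874) x17362) x17418) x37098)
    (Nat.add (Nat.add (Nat.add (Nat.add (Nat.add (Nat.add (Nat.add C (Nat.mul x17418 (nat_lit 2))) x30540) x13044) x18876) x17364) x17424) x17416)
    (Nat.add (Nat.add (Nat.add (Nat.add (Nat.add (Nat.add (Nat.add C (Nat.mul x17424 (nat_lit 2))) x30546) x13050) x18882) x17370) x17442) x17418)
    (Nat.add (Nat.add (Nat.add (Nat.add (Nat.add (Nat.add C (Nat.mul x17442 (nat_lit 4))) x30564) x13068) x18900) x17388) x17424)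
    (Nat.sub (Nat.add (Nat.add (Nat.add (Nat.add C (Nat.mul x17522 (nat_lit 2))) x30644) x16064) x17540) x37204)
    (Nat.sub (Nat.add (Nat.add (Nat.add (Nat.add (Nat.add (Nat.add (Nat.add C x17540) x30662) x16082) x17594) x17522) x17558) x17546) x37222)
    (Nat.sub (Nat.add (Nat.add (Nat.add (Nat.add (Nat.add (Nat.add C x30668) x16088) x17600) x17564) x17540) x17548) x37228)
    (Nat.sub (Nat.add (Nat.add (Nat.add (Nat.add (Nat.add (Nat.add C (Nat.mul x17548 (nat_lit 2))) x30670) x16090) x17602) x17566) x17546) x37230)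
    (Nat.sub (Nat.sub (Nat.add (Nat.add (Nat.add (Nat.add (Nat.add C x30680) x16100) x17612) x17540) x17564) (Nat.mul x17558 (nat_lit 2))) x37240)
    (Nat.sub (Nat.sub (Nat.add (Nat.add (Nat.add (Nat.add (Nat.add (Nat.add (Nat.add C x30686) x16106) x17618) x17546) x17558) x17570) x17566) x17564) x37246)
    (Nat.sub (Nat.add (Nat.add (Nat.add (Nat.add (Nat.add (Nat.add C x30688) x16108) x17620) x17548) x17572) x17564) x37248)
    (Nat.sub (Nat.sub (Nat.add (Nat.add (Nat.add (Nat.add (Nat.add C x30692) x16112) x17624) x17564) x17572) (Nat.mul x17570 (nat_lit 2))) x37252)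
    (Nat.sub (Nat.add (Nat.add (Nat.add (Nat.add (Nat.add (Nat.add (Nat.add C x17572) x30694) x16114) x17626) x17566) x17570) x17574) x37254)
    (Nat.add (Nat.add (Nat.add (Nat.add (Nat.add C (Nat.mul x17574 (nat_lit 2))) x30696) x16116) x17628) x17572)
    (Nat.sub (Nat.add (Nat.add (Nat.add (Nat.add (Nat.add (Nat.add C x30716) x16136) x17756) x17540) x17612) x17600) x37276)
    (Nat.sub (Nat.sub (Nat.add (Nat.add (Nat.add (Nat.add (Nat.add (Nat.add (Nat.add C x30722) x16142) x17762) x17546) x17618) x17594) x17602) (Nat.mul x17600 (nat_lit 2))) x37282)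
    (Nat.sub (Nat.add (Nat.add (Nat.add (Nat.add (Nat.add (Nat.add C x30724) x16144) x17764) x17548) x17620) x17600) x37284)
    (Nat.sub (Nat.sub (Nat.add (Nat.add (Nat.add (Nat.add (Nat.add (Nat.add (Nat.add C x30734) x16154) x17774) x17558) x17666) x17594) x17618) x17612) x37294)
    (Nat.sub (Nat.sub (Nat.add (Nat.add (Nat.add (Nat.add (Nat.add (Nat.add (Nat.add (Nat.add (Nat.add (Nat.add C x30740) x16160) x17780) x17564) x17672) x17600) x17636) x17612) x17624) x17620) x17618) x37300)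
    (Nat.sub (Nat.add (Nat.add (Nat.add (Nat.add (Nat.add (Nat.add (Nat.add (Nat.add (Nat.add C x30742) x16162) x17782) x17566) x17674) x17602) x17638) x17626) x17618) x37302)
    (Nat.sub (Nat.sub (Nat.add (Nat.add (Nat.add (Nat.add (Nat.add (Nat.add (Nat.add (Nat.add C x30746) x16166) x17786) x17570) x17678) x17642) x17618) x17626) (Nat.mul x17624 (nat_lit 3))) x37306)
    (Nat.sub (Nat.add (Nat.add (Nat.add (Nat.add (Nat.add (Nat.add (Nat.add (Nat.add (Nat.add C x30748) x16168) x17788) x17572) x17680) x17644) x17620) x17624) x17628) x37308)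
    (Nat.add (Nat.add (Nat.add (Nat.add (Nat.add (Nat.add (Nat.add (Nat.add C x17628) x30750) x16170) x17790) x17574) x17682) x17646) x17626)
    (Nat.sub (Nat.sub (Nat.add (Nat.add (Nat.add (Nat.add (Nat.add (Nat.add (Nat.add C x30758) x16178) x17798) x17690) x17618) x17642) x17638) (Nat.mul x17636 (nat_lit 2))) x37318)
    (Nat.sub (Nat.sub (Nat.add (Nat.add (Nat.add (Nat.add (Nat.add (Nat.add (Nat.add C x30760) x16180) x17800) x17692) x17620) x17644) x17636) (Nat.mul x17638 (nat_lit 2))) x37320)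
    (Nat.sub (Nat.sub (Nat.add (Nat.add (Nat.add (Nat.add (Nat.add (Nat.add (Nat.add C x30764) x16184) x17804) x17696) x17624) x17636) x17644) (Nat.mul x17642 (nat_lit 2))) x37324)
    (Nat.sub (Nat.add (Nat.add (Nat.add (Nat.add (Nat.add (Nat.add (Nat.add (Nat.add (Nat.add C x30766) x16186) x17806) x17698) x17626) x17638) x17650) x17642) x17646) x37326)
    (Nat.add (Nat.add (Nat.add (Nat.add (Nat.add (Nat.add (Nat.add C x30768) x16188) x17808) x17700) x17628) x17652) x17644)
    (Nat.sub (Nat.add (Nat.add (Nat.add (Nat.add (Nat.add (Nat.add C x30772) x16192) x17812) x17704) x17644) x17652) x37332)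
    (Nat.add (Nat.add (Nat.add (Nat.add (Nat.add (Nat.add (Nat.add C (Nat.mul x17652 (nat_lit 2))) x30774) x16194) x17814) x17706) x17646) x17650)
    (Nat.sub (Nat.sub (Nat.add (Nat.add (Nat.add (Nat.add (Nat.add C x30788) x16208) x17828) x17612) x17672) (Nat.mul x17666 (nat_lit 2))) x37348)
    (Nat.sub (Nat.sub (Nat.add (Nat.add (Nat.add (Nat.add (Nat.add (Nat.add (Nat.add (Nat.add C x30794) x16214) x17834) x17618) x17690) x17666) x17678) x17674) (Nat.mul x17672 (nat_lit 3))) x37354)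
    (Nat.sub (Nat.sub (Nat.add (Nat.add (Nat.add (Nat.add (Nat.add (Nat.add (Nat.add C x30796) x16216) x17836) x17620) x17692) x17680) x17672) (Nat.mul x17674 (nat_lit 2))) x37356)
    (Nat.sub (Nat.sub (Nat.add (Nat.add (Nat.add (Nat.add (Nat.add (Nat.add (Nat.add C x30800) x16220) x17840) x17624) x17696) x17672) x17680) (Nat.mul x17678 (nat_lit 6))) x37360)
    (Nat.sub (Nat.sub (Nat.add (Nat.add (Nat.add (Nat.add (Nat.add (Nat.add (Nat.add (Nat.add C x30802) x16222) x17842) x17626) x17698) x17674) x17678) x17682) (Nat.mul x17680 (nat_lit 3))) x37362)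
    (Nat.sub (Nat.add (Nat.add (Nat.add (Nat.add (Nat.add (Nat.add C x30804) x16224) x17844) x17628) x17700) x17680) (Nat.mul x17682 (nat_lit 2)))
    (Nat.sub (Nat.sub (Nat.add (Nat.add (Nat.add (Nat.add (Nat.add (Nat.add (Nat.add C x30812) x16232) x17852) x17636) x17672) x17696) x17692) (Nat.mul x17690 (nat_lit 2))) x37372)
    (Nat.sub (Nat.sub (Nat.add (Nat.add (Nat.add (Nat.add (Nat.add (Nat.add (Nat.add C x30814) x16234) x17854) x17638) x17674) x17698) x17690) (Nat.mul x17692 (nat_lit 2))) x37374)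
    (Nat.sub (Nat.sub (Nat.add (Nat.add (Nat.add (Nat.add (Nat.add (Nat.add (Nat.add (Nat.add C x30818) x16238) x17858) x17642) x17678) x17714) x17690) x17698) (Nat.mul x17696 (nat_lit 3))) x37378)
    (Nat.sub (Nat.sub (Nat.add (Nat.add (Nat.add (Nat.add (Nat.add (Nat.add (Nat.add (Nat.add (Nat.add (Nat.add C x30820) x16240) x17860) x17644) x17680) x17716) x17692) x17704) x17696) x17700) x17698) x37380)
    (Nat.sub (Nat.add (Nat.add (Nat.add (Nat.add (Nat.add (Nat.add (Nat.add (Nat.add C x30822) x16242) x17862) x17646) x17682) x17718) x17706) x17698) x17700)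
    (Nat.sub (Nat.sub (Nat.add (Nat.add (Nat.add (Nat.add (Nat.add (Nat.add (Nat.add C x30826) x16246) x17866) x17650) x17722) x17698) x17706) (Nat.mul x17704 (nat_lit 2))) x37386)
    (Nat.add (Nat.add (Nat.add (Nat.add (Nat.add (Nat.add (Nat.add C x30828) x16248) x17868) x17652) x17724) x17700) x17704)
    (Nat.sub (Nat.sub (Nat.add (Nat.add (Nat.add (Nat.add (Nat.add C x30836) x16256) x17876) x17696) x17716) (Nat.mul x17714 (nat_lit 2))) x37396)
    (Nat.sub (Nat.sub (Nat.add (Nat.add (Nat.add (Nat.add (Nat.add (Nat.add (Nat.add C x30838) x16258) x17878) x17698) x17722) x17714) x17718) x17716) x37398)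
    (Nat.sub (Nat.add (Nat.add (Nat.add (Nat.add (Nat.add (Nat.add C x30840) x16260) x17880) x17700) x17724) x17716) (Nat.mul x17718 (nat_lit 2)))
    (Nat.sub (Nat.add (Nat.add (Nat.add (Nat.add (Nat.add (Nat.add C x30844) x16264) x17884) x17704) x17716) x17724) x37404)
    (Nat.add (Nat.add (Nat.add (Nat.add (Nat.add (Nat.add (Nat.add (Nat.add C x17724) x30846) x16266) x17886) x17706) x17718) x17730) x17722)
    (Nat.add (Nat.add (Nat.add (Nat.add (Nat.add C (Nat.mul x17730 (nat_lit 2))) x30852) x16272) x17892) x17724)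
    (Nat.sub (Nat.add (Nat.add (Nat.add (Nat.add (Nat.add (Nat.add C x30878) x16298) x18242) x17594) x17774) x17762) x37438)
    (Nat.sub (Nat.sub (Nat.add (Nat.add (Nat.add (Nat.add (Nat.add (Nat.add (Nat.add C x30884) x16304) x18248) x17600) x17780) x17756) x17764) (Nat.mul x17762 (nat_lit 2))) x37444)
    (Nat.sub (Nat.add (Nat.add (Nat.add (Nat.add (Nat.add (Nat.add C x30886) x16306) x18250) x17602) x17782) x17762) x37446)
    (Nat.sub (Nat.sub (Nat.add (Nat.add (Nat.add (Nat.add (Nat.add (Nat.add (Nat.add C x30896) x16316) x18260) x17612) x17828) x17756) x17780) (Nat.mul x17774 (nat_lit 2))) x37456)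
    (Nat.sub (Nat.sub (Nat.add (Nat.add (Nat.add (Nat.add (Nat.add (Nat.add (Nat.add (Nat.add (Nat.add (Nat.add C x30902) x16322) x18266) x17618) x17834) x17762) x17798) x17774) x17786) x17782) (Nat.mul x17780 (nat_lit 2))) x37462)
    (Nat.sub (Nat.sub (Nat.add (Nat.add (Nat.add (Nat.add (Nat.add (Nat.add (Nat.add (Nat.add (Nat.add C x30904) x16324) x18268) x17620) x17836) x17764) x17800) x17788) x17780) x17782) x37464)
    (Nat.sub (Nat.sub (Nat.add (Nat.add (Nat.add (Nat.add (Nat.add (Nat.add (Nat.add (Nat.add C x30908) x16328) x18272) x17624) x17840) x17804) x17780) x17788) (Nat.mul x17786 (nat_lit 4))) x37468)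
    (Nat.sub (Nat.sub (Nat.add (Nat.add (Nat.add (Nat.add (Nat.add (Nat.add (Nat.add (Nat.add (Nat.add C x30910) x16330) x18274) x17626) x17842) x17806) x17782) x17786) x17790) x17788) x37470)
    (Nat.add (Nat.add (Nat.add (Nat.add (Nat.add (Nat.add (Nat.add C x30912) x16332) x18276) x17628) x17844) x17808) x17788)
    (Nat.sub (Nat.sub (Nat.add (Nat.add (Nat.add (Nat.add (Nat.add (Nat.add (Nat.add (Nat.add C x30920) x16340) x18284) x17636) x17852) x17780) x17804) x17800) (Nat.mul x17798 (nat_lit 4))) x37480)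
    (Nat.sub (Nat.sub (Nat.add (Nat.add (Nat.add (Nat.add (Nat.add (Nat.add (Nat.add (Nat.add C x30922) x16342) x18286) x17638) x17854) x17782) x17806) x17798) (Nat.mul x17800 (nat_lit 4))) x37482)
    (Nat.sub (Nat.sub (Nat.add (Nat.add (Nat.add (Nat.add (Nat.add (Nat.add (Nat.add (Nat.add C x30926) x16346) x18290) x17642) x17858) x17786) x17798) x17806) (Nat.mul x17804 (nat_lit 4))) x37486)
    (Nat.sub (Nat.sub (Nat.add (Nat.add (Nat.add (Nat.add (Nat.add (Nat.add (Nat.add (Nat.add (Nat.add (Nat.add C x30928) x16348) x18292) x17644) x17860) x17788) x17800) x17812) x17804) x17808) (Nat.mul x17806 (nat_lit 2))) x37488)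
    (Nat.sub (Nat.add (Nat.add (Nat.add (Nat.add (Nat.add (Nat.add (Nat.add (Nat.add C x30930) x16350) x18294) x17646) x17862) x17790) x17814) x17806) (Nat.mul x17808 (nat_lit 2)))
    (Nat.sub (Nat.sub (Nat.add (Nat.add (Nat.add (Nat.add (Nat.add (Nat.add (Nat.add C x30934) x16354) x18298) x17650) x17866) x17806) x17814) (Nat.mul x17812 (nat_lit 2))) x37494)
    (Nat.add (Nat.add (Nat.add (Nat.add (Nat.add (Nat.add (Nat.add C x30936) x16356) x18300) x17652) x17868) x17808) x17812)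
    (Nat.sub (Nat.sub (Nat.add (Nat.add (Nat.add (Nat.add (Nat.add (Nat.add (Nat.add C x30950) x16370) x18314) x17666) x17990) x17774) x17834) x17828) x37510)
    (Nat.sub (Nat.sub (Nat.add (Nat.add (Nat.add (Nat.add (Nat.add (Nat.add (Nat.add (Nat.add (Nat.add (Nat.add C x30956) x16376) x18320) x17672) x17996) x17780) x17852) x17828) x17840) x17836) (Nat.mul x17834 (nat_lit 2))) x37516)
    (Nat.sub (Nat.sub (Nat.add (Nat.add (Nat.add (Nat.add (Nat.add (Nat.add (Nat.add (Nat.add (Nat.add C x30958) x16378) x18322) x17674) x17998) x17782) x17854) x17842) x17834) x17836) x37518)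
    (Nat.sub (Nat.sub (Nat.add (Nat.add (Nat.add (Nat.add (Nat.add (Nat.add (Nat.add (Nat.add (Nat.add C x30962) x16382) x18326) x17678) x18002) x17786) x17858) x17834) x17842) (Nat.mul x17840 (nat_lit 5))) x37522)
    (Nat.sub (Nat.sub (Nat.add (Nat.add (Nat.add (Nat.add (Nat.add (Nat.add (Nat.add (Nat.add (Nat.add (Nat.add C x30964) x16384) x18328) x17680) x18004) x17788) x17860) x17836) x17840) x17844) (Nat.mul x17842 (nat_lit 2))) x37524)
    (Nat.sub (Nat.add (Nat.add (Nat.add (Nat.add (Nat.add (Nat.add (Nat.add (Nat.add C x30966) x16386) x18330) x17682) x18006) x17790) x17862) x17842) x17844)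
    (Nat.sub (Nat.sub (Nat.add (Nat.add (Nat.add (Nat.add (Nat.add (Nat.add (Nat.add (Nat.add (Nat.add (Nat.add C x30974) x16394) x18338) x17690) x18014) x17798) x17906) x17834) x17858) x17854) (Nat.mul x17852 (nat_lit 2))) x37534)
    (Nat.sub (Nat.sub (Nat.add (Nat.add (Nat.add (Nat.add (Nat.add (Nat.add (Nat.add (Nat.add (Nat.add (Nat.add C x30976) x16396) x18340) x17692) x18016) x17800) x17908) x17836) x17860) x17852) (Nat.mul x17854 (nat_lit 2))) x37536)
    (Nat.sub (Nat.sub (Nat.add (Nat.add (Nat.add (Nat.add (Nat.add (Nat.add (Nat.add (Nat.add (Nat.add (Nat.add (Nat.add C x30980) x16400) x18344) x17696) x18020) x17804) x17912) x17840) x17876) x17852) x17860) (Nat.mul x17858 (nat_lit 3))) x37540)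
    (Nat.sub (Nat.sub (Nat.add (Nat.add (Nat.add (Nat.add (Nat.add (Nat.add (Nat.add (Nat.add (Nat.add (Nat.add (Nat.add (Nat.add (Nat.add C x30982) x16402) x18346) x17698) x18022) x17806) x17914) x17842) x17878) x17854) x17866) x17858) x17862) x17860) x37542)
    (Nat.sub (Nat.add (Nat.add (Nat.add (Nat.add (Nat.add (Nat.add (Nat.add (Nat.add (Nat.add (Nat.add (Nat.add C x30984) x16404) x18348) x17700) x18024) x17808) x17916) x17844) x17880) x17868) x17860) x17862)
    (Nat.sub (Nat.sub (Nat.add (Nat.add (Nat.add (Nat.add (Nat.add (Nat.add (Nat.add (Nat.add (Nat.add (Nat.add C x30988) x16408) x18352) x17704) x18028) x17812) x17920) x17884) x17860) x17868) (Nat.mul x17866 (nat_lit 2))) x37548)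
    (Nat.add (Nat.add (Nat.add (Nat.add (Nat.add (Nat.add (Nat.add (Nat.add (Nat.add (Nat.add C x30990) x16410) x18354) x17706) x18030) x17814) x17922) x17886) x17862) x17866)
    (Nat.sub (Nat.sub (Nat.add (Nat.add (Nat.add (Nat.add (Nat.add (Nat.add (Nat.add (Nat.add C x30998) x16418) x18362) x17714) x18038) x17930) x17858) x17878) (Nat.mul x17876 (nat_lit 3))) x37558)
    (Nat.sub (Nat.sub (Nat.add (Nat.add (Nat.add (Nat.add (Nat.add (Nat.add (Nat.add (Nat.add (Nat.add (Nat.add C x31000) x16420) x18364) x17716) x18040) x17932) x17860) x17884) x17876) x17880) (Nat.mul x17878 (nat_lit 2))) x37560)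
    (Nat.sub (Nat.add (Nat.add (Nat.add (Nat.add (Nat.add (Nat.add (Nat.add (Nat.add (Nat.add C x31002) x16422) x18366) x17718) x18042) x17934) x17862) x17886) x17878) (Nat.mul x17880 (nat_lit 3)))
    (Nat.sub (Nat.sub (Nat.add (Nat.add (Nat.add (Nat.add (Nat.add (Nat.add (Nat.add (Nat.add (Nat.add C x31006) x16426) x18370) x17722) x18046) x17938) x17866) x17878) x17886) x17884) x37566)
    (Nat.add (Nat.add (Nat.add (Nat.add (Nat.add (Nat.add (Nat.add (Nat.add (Nat.add (Nat.add C x31008) x16428) x18372) x17724) x18048) x17940) x17868) x17880) x17892) x17884)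
    (Nat.add (Nat.add (Nat.add (Nat.add (Nat.add (Nat.add (Nat.add (Nat.add C x17892) x31014) x16434) x18378) x17730) x18054) x17946) x17886)
    (Nat.sub (Nat.sub (Nat.add (Nat.add (Nat.add (Nat.add (Nat.add (Nat.add (Nat.add C x31028) x16448) x18392) x18068) x17852) x17912) x17908) (Nat.mul x17906 (nat_lit 2))) x37588)
    (Nat.sub (Nat.sub (Nat.add (Nat.add (Nat.add (Nat.add (Nat.add (Nat.add (Nat.add C x31030) x16450) x18394) x18070) x17854) x17914) x17906) (Nat.mul x17908 (nat_lit 2))) x37590)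
    (Nat.sub (Nat.sub (Nat.add (Nat.add (Nat.add (Nat.add (Nat.add (Nat.add (Nat.add (Nat.add C x31034) x16454) x18398) x18074) x17858) x17930) x17906) x17914) (Nat.mul x17912 (nat_lit 4))) x37594)
    (Nat.sub (Nat.sub (Nat.add (Nat.add (Nat.add (Nat.add (Nat.add (Nat.add (Nat.add (Nat.add (Nat.add (Nat.add C x31036) x16456) x18400) x18076) x17860) x17932) x17908) x17920) x17912) x17916) (Nat.mul x17914 (nat_lit 2))) x37596)
    (Nat.sub (Nat.add (Nat.add (Nat.add (Nat.add (Nat.add (Nat.add (Nat.add (Nat.add C x31038) x16458) x18402) x18078) x17862) x17934) x17922) x17914) (Nat.mul x17916 (nat_lit 2)))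
    (Nat.sub (Nat.sub (Nat.add (Nat.add (Nat.add (Nat.add (Nat.add (Nat.add (Nat.add (Nat.add C x31042) x16462) x18406) x18082) x17866) x17938) x17914) x17922) (Nat.mul x17920 (nat_lit 4))) x37602)
    (Nat.sub (Nat.add (Nat.add (Nat.add (Nat.add (Nat.add (Nat.add (Nat.add (Nat.add C x31044) x16464) x18408) x18084) x17868) x17940) x17916) x17920) (Nat.mul x17922 (nat_lit 2)))
    (Nat.sub (Nat.sub (Nat.add (Nat.add (Nat.add (Nat.add (Nat.add (Nat.add (Nat.add C x31052) x16472) x18416) x18092) x17876) x17912) x17932) (Nat.mul x17930 (nat_lit 2))) x37612)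
    (Nat.sub (Nat.sub (Nat.add (Nat.add (Nat.add (Nat.add (Nat.add (Nat.add (Nat.add (Nat.add (Nat.add C x31054) x16474) x18418) x18094) x17878) x17914) x17938) x17930) x17934) x17932) x37614)
    (Nat.sub (Nat.add (Nat.add (Nat.add (Nat.add (Nat.add (Nat.add (Nat.add (Nat.add C x31056) x16476) x18420) x18096) x17880) x17916) x17940) x17932) (Nat.mul x17934 (nat_lit 2)))
    (Nat.sub (Nat.sub (Nat.add (Nat.add (Nat.add (Nat.add (Nat.add (Nat.add (Nat.add (Nat.add (Nat.add C x31060) x16480) x18424) x18100) x17884) x17920) x17956) x17932) x17940) x17938) x37620)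
    (Nat.add (Nat.add (Nat.add (Nat.add (Nat.add (Nat.add (Nat.add (Nat.add (Nat.add (Nat.add C x31062) x16482) x18426) x18102) x17886) x17922) x17958) x17934) x17946) x17938)
    (Nat.add (Nat.add (Nat.add (Nat.add (Nat.add (Nat.add (Nat.add C x31068) x16488) x18432) x18108) x17892) x17964) x17940)
    (Nat.sub (Nat.add (Nat.add (Nat.add (Nat.add (Nat.add (Nat.add C x31078) x16498) x18442) x18118) x17938) x17958) x37638)
    (Nat.add (Nat.add (Nat.add (Nat.add (Nat.add (Nat.add (Nat.add C x31080) x16500) x18444) x18120) x17940) x17964) x17956)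
    (Nat.add (Nat.add (Nat.add (Nat.add (Nat.add (Nat.add (Nat.add C (Nat.mul x17964 (nat_lit 2))) x31086) x16506) x18450) x18126) x17946) x17958)
    (Nat.sub (Nat.sub (Nat.add (Nat.add (Nat.add (Nat.add (Nat.add C x31112) x16532) x18476) x17828) x17996) (Nat.mul x17990 (nat_lit 2))) x37672)
    (Nat.sub (Nat.sub (Nat.add (Nat.add (Nat.add (Nat.add (Nat.add (Nat.add (Nat.add (Nat.add C x31118) x16538) x18482) x17834) x18014) x17990) x18002) x17998) (Nat.mul x17996 (nat_lit 3))) x37678)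
    (Nat.sub (Nat.sub (Nat.add (Nat.add (Nat.add (Nat.add (Nat.add (Nat.add (Nat.add C x31120) x16540) x18484) x17836) x18016) x18004) x17996) (Nat.mul x17998 (nat_lit 2))) x37680)
    (Nat.sub (Nat.sub (Nat.add (Nat.add (Nat.add (Nat.add (Nat.add (Nat.add (Nat.add C x31124) x16544) x18488) x17840) x18020) x17996) x18004) (Nat.mul x18002 (nat_lit 6))) x37684)
    (Nat.sub (Nat.sub (Nat.add (Nat.add (Nat.add (Nat.add (Nat.add (Nat.add (Nat.add (Nat.add C x31126) x16546) x18490) x17842) x18022) x17998) x18002) x18006) (Nat.mul x18004 (nat_lit 3))) x37686)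
    (Nat.sub (Nat.add (Nat.add (Nat.add (Nat.add (Nat.add (Nat.add C x31128) x16548) x18492) x17844) x18024) x18004) (Nat.mul x18006 (nat_lit 2)))
    (Nat.sub (Nat.sub (Nat.add (Nat.add (Nat.add (Nat.add (Nat.add (Nat.add (Nat.add (Nat.add C x31136) x16556) x18500) x17852) x18068) x17996) x18020) x18016) (Nat.mul x18014 (nat_lit 4))) x37696)
    (Nat.sub (Nat.sub (Nat.add (Nat.add (Nat.add (Nat.add (Nat.add (Nat.add (Nat.add (Nat.add C x31138) x16558) x18502) x17854) x18070) x17998) x18022) x18014) (Nat.mul x18016 (nat_lit 4))) x37698)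
    (Nat.sub (Nat.sub (Nat.add (Nat.add (Nat.add (Nat.add (Nat.add (Nat.add (Nat.add (Nat.add (Nat.add C x31142) x16562) x18506) x17858) x18074) x18002) x18038) x18014) x18022) (Nat.mul x18020 (nat_lit 5))) x37702)
    (Nat.sub (Nat.sub (Nat.add (Nat.add (Nat.add (Nat.add (Nat.add (Nat.add (Nat.add (Nat.add (Nat.add (Nat.add (Nat.add C x31144) x16564) x18508) x17860) x18076) x18004) x18040) x18016) x18028) x18020) x18024) (Nat.mul x18022 (nat_lit 3))) x37704)
    (Nat.sub (Nat.add (Nat.add (Nat.add (Nat.add (Nat.add (Nat.add (Nat.add (Nat.add (Nat.add C x31146) x16566) x18510) x17862) x18078) x18006) x18042) x18030) x18022) (Nat.mul x18024 (nat_lit 3)))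
    (Nat.sub (Nat.sub (Nat.add (Nat.add (Nat.add (Nat.add (Nat.add (Nat.add (Nat.add (Nat.add C x31150) x16570) x18514) x17866) x18082) x18046) x18022) x18030) (Nat.mul x18028 (nat_lit 4))) x37710)
    (Nat.sub (Nat.add (Nat.add (Nat.add (Nat.add (Nat.add (Nat.add (Nat.add (Nat.add C x31152) x16572) x18516) x17868) x18084) x18048) x18024) x18028) (Nat.mul x18030 (nat_lit 2)))
    (Nat.sub (Nat.sub (Nat.add (Nat.add (Nat.add (Nat.add (Nat.add (Nat.add (Nat.add C x31160) x16580) x18524) x17876) x18092) x18020) x18040) (Nat.mul x18038 (nat_lit 6))) x37720)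
    (Nat.sub (Nat.sub (Nat.add (Nat.add (Nat.add (Nat.add (Nat.add (Nat.add (Nat.add (Nat.add (Nat.add C x31162) x16582) x18526) x17878) x18094) x18022) x18046) x18038) x18042) (Nat.mul x18040 (nat_lit 5))) x37722)
    (Nat.sub (Nat.add (Nat.add (Nat.add (Nat.add (Nat.add (Nat.add (Nat.add (Nat.add C x31164) x16584) x18528) x17880) x18096) x18024) x18048) x18040) (Nat.mul x18042 (nat_lit 6)))
    (Nat.sub (Nat.sub (Nat.add (Nat.add (Nat.add (Nat.add (Nat.add (Nat.add (Nat.add (Nat.add C x31168) x16588) x18532) x17884) x18100) x18028) x18040) x18048) (Nat.mul x18046 (nat_lit 4))) x37728)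
    (Nat.sub (Nat.add (Nat.add (Nat.add (Nat.add (Nat.add (Nat.add (Nat.add (Nat.add (Nat.add C x31170) x16590) x18534) x17886) x18102) x18030) x18042) x18054) x18046) (Nat.mul x18048 (nat_lit 3)))
    (Nat.sub (Nat.add (Nat.add (Nat.add (Nat.add (Nat.add (Nat.add C x31176) x16596) x18540) x17892) x18108) x18048) (Nat.mul x18054 (nat_lit 2)))
    (Nat.sub (Nat.sub (Nat.add (Nat.add (Nat.add (Nat.add (Nat.add (Nat.add (Nat.add C x31190) x16610) x18554) x17906) x18014) x18074) x18070) (Nat.mul x18068 (nat_lit 2))) x37750)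
    (Nat.sub (Nat.sub (Nat.add (Nat.add (Nat.add (Nat.add (Nat.add (Nat.add (Nat.add C x31192) x16612) x18556) x17908) x18016) x18076) x18068) (Nat.mul x18070 (nat_lit 2))) x37752)
    (Nat.sub (Nat.sub (Nat.add (Nat.add (Nat.add (Nat.add (Nat.add (Nat.add (Nat.add (Nat.add C x31196) x16616) x18560) x17912) x18020) x18092) x18068) x18076) (Nat.mul x18074 (nat_lit 4))) x37756)
    (Nat.sub (Nat.sub (Nat.add (Nat.add (Nat.add (Nat.add (Nat.add (Nat.add (Nat.add (Nat.add (Nat.add (Nat.add C x31198) x16618) x18562) x17914) x18022) x18094) x18070) x18082) x18074) x18078) (Nat.mul x18076 (nat_lit 2))) x37758)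
    (Nat.sub (Nat.add (Nat.add (Nat.add (Nat.add (Nat.add (Nat.add (Nat.add (Nat.add C x31200) x16620) x18564) x17916) x18024) x18096) x18084) x18076) (Nat.mul x18078 (nat_lit 2)))
    (Nat.sub (Nat.sub (Nat.add (Nat.add (Nat.add (Nat.add (Nat.add (Nat.add (Nat.add (Nat.add C x31204) x16624) x18568) x17920) x18028) x18100) x18076) x18084) (Nat.mul x18082 (nat_lit 4))) x37764)
    (Nat.sub (Nat.add (Nat.add (Nat.add (Nat.add (Nat.add (Nat.add (Nat.add (Nat.add C x31206) x16626) x18570) x17922) x18030) x18102) x18078) x18082) (Nat.mul x18084 (nat_lit 2)))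
    (Nat.sub (Nat.sub (Nat.add (Nat.add (Nat.add (Nat.add (Nat.add (Nat.add (Nat.add (Nat.add C x31214) x16634) x18578) x17930) x18038) x18146) x18074) x18094) (Nat.mul x18092 (nat_lit 3))) x37774)
    (Nat.sub (Nat.sub (Nat.add (Nat.add (Nat.add (Nat.add (Nat.add (Nat.add (Nat.add (Nat.add (Nat.add (Nat.add C x31216) x16636) x18580) x17932) x18040) x18148) x18076) x18100) x18092) x18096) (Nat.mul x18094 (nat_lit 2))) x37776)
    (Nat.sub (Nat.add (Nat.add (Nat.add (Nat.add (Nat.add (Nat.add (Nat.add (Nat.add (Nat.add C x31218) x16638) x18582) x17934) x18042) x18150) x18078) x18102) x18094) (Nat.mul x18096 (nat_lit 3)))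
    (Nat.sub (Nat.sub (Nat.add (Nat.add (Nat.add (Nat.add (Nat.add (Nat.add (Nat.add (Nat.add (Nat.add (Nat.add C x31222) x16642) x18586) x17938) x18046) x18154) x18082) x18118) x18094) x18102) (Nat.mul x18100 (nat_lit 2))) x37782)
    (Nat.sub (Nat.add (Nat.add (Nat.add (Nat.add (Nat.add (Nat.add (Nat.add (Nat.add (Nat.add (Nat.add (Nat.add C x31224) x16644) x18588) x17940) x18048) x18156) x18084) x18120) x18096) x18108) x18100) x18102)
    (Nat.sub (Nat.add (Nat.add (Nat.add (Nat.add (Nat.add (Nat.add (Nat.add (Nat.add C x31230) x16650) x18594) x17946) x18054) x18162) x18126) x18102) x18108)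
    (Nat.sub (Nat.sub (Nat.add (Nat.add (Nat.add (Nat.add (Nat.add (Nat.add (Nat.add C x31240) x16660) x18604) x17956) x18172) x18100) x18120) (Nat.mul x18118 (nat_lit 2))) x37800)
    (Nat.sub (Nat.add (Nat.add (Nat.add (Nat.add (Nat.add (Nat.add (Nat.add (Nat.add C x31242) x16662) x18606) x17958) x18174) x18102) x18126) x18118) (Nat.mul x18120 (nat_lit 2)))
    (Nat.add (Nat.add (Nat.add (Nat.add (Nat.add (Nat.add (Nat.add C x31248) x16668) x18612) x17964) x18180) x18108) x18120)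
    (Nat.sub (Nat.sub (Nat.add (Nat.add (Nat.add (Nat.add (Nat.add C x31268) x16688) x18632) x18092) x18148) (Nat.mul x18146 (nat_lit 2))) x37828)
    (Nat.sub (Nat.sub (Nat.add (Nat.add (Nat.add (Nat.add (Nat.add (Nat.add (Nat.add C x31270) x16690) x18634) x18094) x18154) x18146) x18150) x18148) x37830)
    (Nat.sub (Nat.add (Nat.add (Nat.add (Nat.add (Nat.add (Nat.add C x31272) x16692) x18636) x18096) x18156) x18148) (Nat.mul x18150 (nat_lit 2)))
    (Nat.sub (Nat.sub (Nat.add (Nat.add (Nat.add (Nat.add (Nat.add (Nat.add (Nat.add C x31276) x16696) x18640) x18100) x18172) x18148) x18156) (Nat.mul x18154 (nat_lit 2))) x37836)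
    (Nat.sub (Nat.add (Nat.add (Nat.add (Nat.add (Nat.add (Nat.add (Nat.add (Nat.add C x31278) x16698) x18642) x18102) x18174) x18150) x18162) x18154) x18156)
    (Nat.sub (Nat.add (Nat.add (Nat.add (Nat.add (Nat.add (Nat.add C x31284) x16704) x18648) x18108) x18180) x18156) (Nat.mul x18162 (nat_lit 2)))
    (Nat.sub (Nat.add (Nat.add (Nat.add (Nat.add (Nat.add (Nat.add C x31294) x16714) x18658) x18118) x18154) x18174) x37854)
    (Nat.add (Nat.add (Nat.add (Nat.add (Nat.add (Nat.add (Nat.add C x31296) x16716) x18660) x18120) x18156) x18180) x18172)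
    (Nat.add (Nat.add (Nat.add (Nat.add (Nat.add (Nat.add (Nat.add (Nat.add C x18180) x31302) x16722) x18666) x18126) x18162) x18198) x18174)
    (Nat.add (Nat.add (Nat.add (Nat.add (Nat.add C (Nat.mul x18198 (nat_lit 2))) x31320) x16740) x18684) x18180)
    (Nat.sub (Nat.add (Nat.add (Nat.add (Nat.add (Nat.add (Nat.add C (Nat.mul x18242 (nat_lit 2))) x31364) x16784) x17756) x18260) x18248) x37924)
    (Nat.sub (Nat.add (Nat.add (Nat.add (Nat.add (Nat.add (Nat.add C x31370) x16790) x17762) x18266) x18242) x18250) x37930)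
    (Nat.sub (Nat.add (Nat.add (Nat.add (Nat.add (Nat.add (Nat.add C (Nat.mul x18250 (nat_lit 2))) x31372) x16792) x17764) x18268) x18248) x37932)
    (Nat.sub (Nat.add (Nat.add (Nat.add (Nat.add (Nat.add (Nat.add C x31382) x16802) x17774) x18314) x18242) x18266) x37942)
    (Nat.sub (Nat.add (Nat.add (Nat.add (Nat.add (Nat.add (Nat.add (Nat.add (Nat.add (Nat.add C x31388) x16808) x17780) x18320) x18248) x18284) x18260) x18272) x18268) x37948)
    (Nat.sub (Nat.add (Nat.add (Nat.add (Nat.add (Nat.add (Nat.add (Nat.add (Nat.add (Nat.add C x18268) x31390) x16810) x17782) x18322) x18250) x18286) x18274) x18266) x37950)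
    (Nat.sub (Nat.sub (Nat.add (Nat.add (Nat.add (Nat.add (Nat.add (Nat.add (Nat.add C x31394) x16814) x17786) x18326) x18290) x18266) x18274) (Nat.mul x18272 (nat_lit 2))) x37954)
    (Nat.sub (Nat.add (Nat.add (Nat.add (Nat.add (Nat.add (Nat.add (Nat.add (Nat.add (Nat.add C x18274) x31396) x16816) x17788) x18328) x18292) x18268) x18272) x18276) x37956)
    (Nat.add (Nat.add (Nat.add (Nat.add (Nat.add (Nat.add (Nat.add C (Nat.mul x18276 (nat_lit 2))) x31398) x16818) x17790) x18330) x18294) x18274)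
    (Nat.sub (Nat.sub (Nat.add (Nat.add (Nat.add (Nat.add (Nat.add (Nat.add (Nat.add C x31406) x16826) x17798) x18338) x18266) x18290) x18286) (Nat.mul x18284 (nat_lit 2))) x37966)
    (Nat.sub (Nat.sub (Nat.add (Nat.add (Nat.add (Nat.add (Nat.add (Nat.add (Nat.add C x31408) x16828) x17800) x18340) x18268) x18292) x18284) (Nat.mul x18286 (nat_lit 2))) x37968)
    (Nat.sub (Nat.sub (Nat.add (Nat.add (Nat.add (Nat.add (Nat.add (Nat.add (Nat.add C x31412) x16832) x17804) x18344) x18272) x18284) x18292) (Nat.mul x18290 (nat_lit 2))) x37972)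
    (Nat.sub (Nat.add (Nat.add (Nat.add (Nat.add (Nat.add (Nat.add (Nat.add (Nat.add (Nat.add C x31414) x16834) x17806) x18346) x18274) x18286) x18298) x18290) x18294) x37974)
    (Nat.add (Nat.add (Nat.add (Nat.add (Nat.add (Nat.add (Nat.add C x31416) x16836) x17808) x18348) x18276) x18300) x18292)
    (Nat.sub (Nat.add (Nat.add (Nat.add (Nat.add (Nat.add (Nat.add C x31420) x16840) x17812) x18352) x18292) x18300) x37980)
    (Nat.add (Nat.add (Nat.add (Nat.add (Nat.add (Nat.add (Nat.add C (Nat.mul x18300 (nat_lit 2))) x31422) x16842) x17814) x18354) x18294) x18298)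
    (Nat.sub (Nat.add (Nat.add (Nat.add (Nat.add (Nat.add (Nat.add C x31436) x16856) x17828) x18476) x18260) x18320) x37996)
    (Nat.sub (Nat.sub (Nat.add (Nat.add (Nat.add (Nat.add (Nat.add (Nat.add (Nat.add (Nat.add (Nat.add C x31442) x16862) x17834) x18482) x18266) x18338) x18314) x18326) x18322) x18320) x38002)
    (Nat.sub (Nat.add (Nat.add (Nat.add (Nat.add (Nat.add (Nat.add (Nat.add (Nat.add C x31444) x16864) x17836) x18484) x18268) x18340) x18328) x18320) x38004)
    (Nat.sub (Nat.sub (Nat.add (Nat.add (Nat.add (Nat.add (Nat.add (Nat.add (Nat.add (Nat.add C x31448) x16868) x17840) x18488) x18272) x18344) x18320) x18328) (Nat.mul x18326 (nat_lit 4))) x38008)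
    (Nat.sub (Nat.sub (Nat.add (Nat.add (Nat.add (Nat.add (Nat.add (Nat.add (Nat.add (Nat.add (Nat.add C x31450) x16870) x17842) x18490) x18274) x18346) x18322) x18326) x18330) x18328) x38010)
    (Nat.add (Nat.add (Nat.add (Nat.add (Nat.add (Nat.add (Nat.add C x31452) x16872) x17844) x18492) x18276) x18348) x18328)
    (Nat.sub (Nat.sub (Nat.add (Nat.add (Nat.add (Nat.add (Nat.add (Nat.add (Nat.add (Nat.add (Nat.add C x31460) x16880) x17852) x18500) x18284) x18392) x18320) x18344) x18340) x18338) x38020)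
    (Nat.sub (Nat.sub (Nat.add (Nat.add (Nat.add (Nat.add (Nat.add (Nat.add (Nat.add (Nat.add (Nat.add C x31462) x16882) x17854) x18502) x18286) x18394) x18322) x18346) x18338) x18340) x38022)
    (Nat.sub (Nat.sub (Nat.add (Nat.add (Nat.add (Nat.add (Nat.add (Nat.add (Nat.add (Nat.add (Nat.add (Nat.add C x31466) x16886) x17858) x18506) x18290) x18398) x18326) x18362) x18338) x18346) (Nat.mul x18344 (nat_lit 2))) x38026)
    (Nat.sub (Nat.add (Nat.add (Nat.add (Nat.add (Nat.add (Nat.add (Nat.add (Nat.add (Nat.add (Nat.add (Nat.add (Nat.add C x31468) x16888) x17860) x18508) x18292) x18400) x18328) x18364) x18340) x18352) x18344) x18348) x38028)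
    (Nat.add (Nat.add (Nat.add (Nat.add (Nat.add (Nat.add (Nat.add (Nat.add (Nat.add (Nat.add C x31470) x16890) x17862) x18510) x18294) x18402) x18330) x18366) x18354) x18346)
    (Nat.sub (Nat.sub (Nat.add (Nat.add (Nat.add (Nat.add (Nat.add (Nat.add (Nat.add (Nat.add (Nat.add C x31474) x16894) x17866) x18514) x18298) x18406) x18370) x18346) x18354) x18352) x38034)
    (Nat.add (Nat.add (Nat.add (Nat.add (Nat.add (Nat.add (Nat.add (Nat.add (Nat.add (Nat.add C x18354) x31476) x16896) x17868) x18516) x18300) x18408) x18372) x18348) x18352)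
    (Nat.sub (Nat.sub (Nat.add (Nat.add (Nat.add (Nat.add (Nat.add (Nat.add (Nat.add C x31484) x16904) x17876) x18524) x18416) x18344) x18364) (Nat.mul x18362 (nat_lit 2))) x38044)
    (Nat.sub (Nat.sub (Nat.add (Nat.add (Nat.add (Nat.add (Nat.add (Nat.add (Nat.add (Nat.add (Nat.add C x31486) x16906) x17878) x18526) x18418) x18346) x18370) x18362) x18366) x18364) x38046)
    (Nat.sub (Nat.add (Nat.add (Nat.add (Nat.add (Nat.add (Nat.add (Nat.add (Nat.add C x31488) x16908) x17880) x18528) x18420) x18348) x18372) x18364) (Nat.mul x18366 (nat_lit 2)))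
    (Nat.sub (Nat.add (Nat.add (Nat.add (Nat.add (Nat.add (Nat.add (Nat.add (Nat.add C x31492) x16912) x17884) x18532) x18424) x18352) x18364) x18372) x38052)
    (Nat.add (Nat.add (Nat.add (Nat.add (Nat.add (Nat.add (Nat.add (Nat.add (Nat.add (Nat.add C x18372) x31494) x16914) x17886) x18534) x18426) x18354) x18366) x18378) x18370)
    (Nat.add (Nat.add (Nat.add (Nat.add (Nat.add (Nat.add (Nat.add C (Nat.mul x18378 (nat_lit 2))) x31500) x16920) x17892) x18540) x18432) x18372)
    (Nat.sub (Nat.sub (Nat.add (Nat.add (Nat.add (Nat.add (Nat.add (Nat.add (Nat.add C x31514) x16934) x17906) x18554) x18338) x18398) x18394) (Nat.mul x18392 (nat_lit 2))) x38074)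
    (Nat.sub (Nat.sub (Nat.add (Nat.add (Nat.add (Nat.add (Nat.add (Nat.add (Nat.add C x31516) x16936) x17908) x18556) x18340) x18400) x18392) (Nat.mul x18394 (nat_lit 2))) x38076)
    (Nat.sub (Nat.sub (Nat.add (Nat.add (Nat.add (Nat.add (Nat.add (Nat.add (Nat.add (Nat.add C x31520) x16940) x17912) x18560) x18344) x18416) x18392) x18400) (Nat.mul x18398 (nat_lit 4))) x38080)
    (Nat.sub (Nat.sub (Nat.add (Nat.add (Nat.add (Nat.add (Nat.add (Nat.add (Nat.add (Nat.add (Nat.add (Nat.add C x31522) x16942) x17914) x18562) x18346) x18418) x18394) x18406) x18398) x18402) (Nat.mul x18400 (nat_lit 2))) x38082)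
    (Nat.sub (Nat.add (Nat.add (Nat.add (Nat.add (Nat.add (Nat.add (Nat.add (Nat.add C x31524) x16944) x17916) x18564) x18348) x18420) x18408) x18400) (Nat.mul x18402 (nat_lit 2)))
    (Nat.sub (Nat.sub (Nat.add (Nat.add (Nat.add (Nat.add (Nat.add (Nat.add (Nat.add (Nat.add C x31528) x16948) x17920) x18568) x18352) x18424) x18400) x18408) (Nat.mul x18406 (nat_lit 4))) x38088)
    (Nat.sub (Nat.add (Nat.add (Nat.add (Nat.add (Nat.add (Nat.add (Nat.add (Nat.add C x31530) x16950) x17922) x18570) x18354) x18426) x18402) x18406) (Nat.mul x18408 (nat_lit 2)))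
    (Nat.sub (Nat.sub (Nat.add (Nat.add (Nat.add (Nat.add (Nat.add (Nat.add (Nat.add C x31538) x16958) x17930) x18578) x18362) x18398) x18418) (Nat.mul x18416 (nat_lit 2))) x38098)
    (Nat.sub (Nat.sub (Nat.add (Nat.add (Nat.add (Nat.add (Nat.add (Nat.add (Nat.add (Nat.add (Nat.add C x31540) x16960) x17932) x18580) x18364) x18400) x18424) x18416) x18420) x18418) x38100)
    (Nat.sub (Nat.add (Nat.add (Nat.add (Nat.add (Nat.add (Nat.add (Nat.add (Nat.add C x31542) x16962) x17934) x18582) x18366) x18402) x18426) x18418) (Nat.mul x18420 (nat_lit 2)))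
    (Nat.sub (Nat.sub (Nat.add (Nat.add (Nat.add (Nat.add (Nat.add (Nat.add (Nat.add (Nat.add (Nat.add C x31546) x16966) x17938) x18586) x18370) x18406) x18442) x18418) x18426) x18424) x38106)
    (Nat.add (Nat.add (Nat.add (Nat.add (Nat.add (Nat.add (Nat.add (Nat.add (Nat.add (Nat.add C x31548) x16968) x17940) x18588) x18372) x18408) x18444) x18420) x18432) x18424)
    (Nat.add (Nat.add (Nat.add (Nat.add (Nat.add (Nat.add (Nat.add C x31554) x16974) x17946) x18594) x18378) x18450) x18426)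
    (Nat.sub (Nat.add (Nat.add (Nat.add (Nat.add (Nat.add (Nat.add C x31564) x16984) x17956) x18604) x18424) x18444) x38124)
    (Nat.add (Nat.add (Nat.add (Nat.add (Nat.add (Nat.add (Nat.add C x31566) x16986) x17958) x18606) x18426) x18450) x18442)
    (Nat.add (Nat.add (Nat.add (Nat.add (Nat.add (Nat.add (Nat.add C (Nat.mul x18450 (nat_lit 2))) x31572) x16992) x17964) x18612) x18432) x18444)
    (Nat.sub (Nat.add (Nat.add (Nat.add (Nat.add (Nat.add (Nat.add (Nat.add C x18476) x31598) x17018) x17990) x18962) x18314) x18482) x38158)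
    (Nat.sub (Nat.add (Nat.add (Nat.add (Nat.add (Nat.add (Nat.add (Nat.add (Nat.add (Nat.add C x31604) x17024) x17996) x18968) x18320) x18500) x18476) x18488) x18484) x38164)
    (Nat.sub (Nat.add (Nat.add (Nat.add (Nat.add (Nat.add (Nat.add (Nat.add (Nat.add (Nat.add C x18484) x31606) x17026) x17998) x18970) x18322) x18502) x18490) x18482) x38166)
    (Nat.sub (Nat.sub (Nat.add (Nat.add (Nat.add (Nat.add (Nat.add (Nat.add (Nat.add (Nat.add C x31610) x17030) x18002) x18974) x18326) x18506) x18482) x18490) (Nat.mul x18488 (nat_lit 3))) x38170)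
    (Nat.sub (Nat.add (Nat.add (Nat.add (Nat.add (Nat.add (Nat.add (Nat.add (Nat.add (Nat.add C x31612) x17032) x18004) x18976) x18328) x18508) x18484) x18488) x18492) x38172)
    (Nat.add (Nat.add (Nat.add (Nat.add (Nat.add (Nat.add (Nat.add (Nat.add C x18492) x31614) x17034) x18006) x18978) x18330) x18510) x18490)
    (Nat.sub (Nat.sub (Nat.add (Nat.add (Nat.add (Nat.add (Nat.add (Nat.add (Nat.add (Nat.add (Nat.add C x31622) x17042) x18014) x18986) x18338) x18554) x18482) x18506) x18502) x18500) x38182)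
    (Nat.sub (Nat.sub (Nat.add (Nat.add (Nat.add (Nat.add (Nat.add (Nat.add (Nat.add (Nat.add (Nat.add C x31624) x17044) x18016) x18988) x18340) x18556) x18484) x18508) x18500) x18502) x38184)
    (Nat.sub (Nat.sub (Nat.add (Nat.add (Nat.add (Nat.add (Nat.add (Nat.add (Nat.add (Nat.add (Nat.add (Nat.add C x31628) x17048) x18020) x18992) x18344) x18560) x18488) x18524) x18500) x18508) (Nat.mul x18506 (nat_lit 2))) x38188)
    (Nat.sub (Nat.add (Nat.add (Nat.add (Nat.add (Nat.add (Nat.add (Nat.add (Nat.add (Nat.add (Nat.add (Nat.add (Nat.add C x31630) x17050) x18022) x18994) x18346) x18562) x18490) x18526) x18502) x18514) x18506) x18510) x38190)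
    (Nat.add (Nat.add (Nat.add (Nat.add (Nat.add (Nat.add (Nat.add (Nat.add (Nat.add (Nat.add C x31632) x17052) x18024) x18996) x18348) x18564) x18492) x18528) x18516) x18508)
    (Nat.sub (Nat.sub (Nat.add (Nat.add (Nat.add (Nat.add (Nat.add (Nat.add (Nat.add (Nat.add (Nat.add C x31636) x17056) x18028) x19000) x18352) x18568) x18532) x18508) x18516) x18514) x38196)
    (Nat.add (Nat.add (Nat.add (Nat.add (Nat.add (Nat.add (Nat.add (Nat.add (Nat.add (Nat.add C x18516) x31638) x17058) x18030) x19002) x18354) x18570) x18534) x18510) x18514)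
    (Nat.sub (Nat.sub (Nat.add (Nat.add (Nat.add (Nat.add (Nat.add (Nat.add (Nat.add (Nat.add C x31646) x17066) x18038) x19010) x18362) x18578) x18506) x18526) (Nat.mul x18524 (nat_lit 3))) x38206)
    (Nat.sub (Nat.sub (Nat.add (Nat.add (Nat.add (Nat.add (Nat.add (Nat.add (Nat.add (Nat.add (Nat.add (Nat.add C x31648) x17068) x18040) x19012) x18364) x18580) x18508) x18532) x18524) x18528) (Nat.mul x18526 (nat_lit 2))) x38208)
    (Nat.sub (Nat.add (Nat.add (Nat.add (Nat.add (Nat.add (Nat.add (Nat.add (Nat.add (Nat.add C x31650) x17070) x18042) x19014) x18366) x18582) x18510) x18534) x18526) (Nat.mul x18528 (nat_lit 3)))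
    (Nat.sub (Nat.sub (Nat.add (Nat.add (Nat.add (Nat.add (Nat.add (Nat.add (Nat.add (Nat.add (Nat.add C x31654) x17074) x18046) x19018) x18370) x18586) x18514) x18526) x18534) x18532) x38214)
    (Nat.add (Nat.add (Nat.add (Nat.add (Nat.add (Nat.add (Nat.add (Nat.add (Nat.add (Nat.add C x31656) x17076) x18048) x19020) x18372) x18588) x18516) x18528) x18540) x18532)
    (Nat.add (Nat.add (Nat.add (Nat.add (Nat.add (Nat.add (Nat.add (Nat.add C x18540) x31662) x17082) x18054) x19026) x18378) x18594) x18534)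
    (Nat.sub (Nat.add (Nat.add (Nat.add (Nat.add (Nat.add (Nat.add (Nat.add (Nat.add (Nat.add C x31676) x17096) x18068) x19040) x18392) x18716) x18500) x18560) x18556) x38236)
    (Nat.sub (Nat.add (Nat.add (Nat.add (Nat.add (Nat.add (Nat.add (Nat.add (Nat.add (Nat.add C x31678) x17098) x18070) x19042) x18394) x18718) x18502) x18562) x18554) x38238)
    (Nat.sub (Nat.sub (Nat.add (Nat.add (Nat.add (Nat.add (Nat.add (Nat.add (Nat.add (Nat.add (Nat.add (Nat.add C x31682) x17102) x18074) x19046) x18398) x18722) x18506) x18578) x18554) x18562) (Nat.mul x18560 (nat_lit 2))) x38242)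
    (Nat.sub (Nat.add (Nat.add (Nat.add (Nat.add (Nat.add (Nat.add (Nat.add (Nat.add (Nat.add (Nat.add (Nat.add (Nat.add C x31684) x17104) x18076) x19048) x18400) x18724) x18508) x18580) x18556) x18568) x18560) x18564) x38244)
    (Nat.add (Nat.add (Nat.add (Nat.add (Nat.add (Nat.add (Nat.add (Nat.add (Nat.add (Nat.add C x31686) x17106) x18078) x19050) x18402) x18726) x18510) x18582) x18570) x18562)
    (Nat.sub (Nat.sub (Nat.add (Nat.add (Nat.add (Nat.add (Nat.add (Nat.add (Nat.add (Nat.add (Nat.add (Nat.add C x31690) x17110) x18082) x19054) x18406) x18730) x18514) x18586) x18562) x18570) (Nat.mul x18568 (nat_lit 2))) x38250)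
    (Nat.add (Nat.add (Nat.add (Nat.add (Nat.add (Nat.add (Nat.add (Nat.add (Nat.add (Nat.add C x31692) x17112) x18084) x19056) x18408) x18732) x18516) x18588) x18564) x18568)
    (Nat.sub (Nat.sub (Nat.add (Nat.add (Nat.add (Nat.add (Nat.add (Nat.add (Nat.add (Nat.add (Nat.add (Nat.add C x31700) x17120) x18092) x19064) x18416) x18740) x18524) x18632) x18560) x18580) x18578) x38260)
    (Nat.sub (Nat.add (Nat.add (Nat.add (Nat.add (Nat.add (Nat.add (Nat.add (Nat.add (Nat.add (Nat.add (Nat.add (Nat.add C x31702) x17122) x18094) x19066) x18418) x18742) x18526) x18634) x18562) x18586) x18578) x18582) x38262)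
    (Nat.sub (Nat.add (Nat.add (Nat.add (Nat.add (Nat.add (Nat.add (Nat.add (Nat.add (Nat.add (Nat.add (Nat.add C x31704) x17124) x18096) x19068) x18420) x18744) x18528) x18636) x18564) x18588) x18580) x18582)
    (Nat.sub (Nat.add (Nat.add (Nat.add (Nat.add (Nat.add (Nat.add (Nat.add (Nat.add (Nat.add (Nat.add (Nat.add (Nat.add C x31708) x17128) x18100) x19072) x18424) x18748) x18532) x18640) x18568) x18604) x18580) x18588) x38268)
    (Nat.add (Nat.add (Nat.add (Nat.add (Nat.add (Nat.add (Nat.add (Nat.add (Nat.add (Nat.add (Nat.add (Nat.add (Nat.add (Nat.add C x18588) x31710) x17130) x18102) x19074) x18426) x18750) x18534) x18642) x18570) x18606) x18582) x18594) x18586)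
    (Nat.add (Nat.add (Nat.add (Nat.add (Nat.add (Nat.add (Nat.add (Nat.add (Nat.add (Nat.add (Nat.add C x18594) x31716) x17136) x18108) x19080) x18432) x18756) x18540) x18648) x18612) x18588)
    (Nat.sub (Nat.add (Nat.add (Nat.add (Nat.add (Nat.add (Nat.add (Nat.add (Nat.add (Nat.add C x31726) x17146) x18118) x19090) x18442) x18766) x18658) x18586) x18606) x38286)
    (Nat.add (Nat.add (Nat.add (Nat.add (Nat.add (Nat.add (Nat.add (Nat.add (Nat.add (Nat.add C x31728) x17148) x18120) x19092) x18444) x18768) x18660) x18588) x18612) x18604)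
    (Nat.add (Nat.add (Nat.add (Nat.add (Nat.add (Nat.add (Nat.add (Nat.add (Nat.add (Nat.add C (Nat.mul x18612 (nat_lit 2))) x31734) x17154) x18126) x19098) x18450) x18774) x18666) x18594) x18606)
    (Nat.sub (Nat.sub (Nat.add (Nat.add (Nat.add (Nat.add (Nat.add (Nat.add (Nat.add C x31754) x17174) x18146) x19118) x18794) x18578) x18634) x18632) x38314)
    (Nat.sub (Nat.add (Nat.add (Nat.add (Nat.add (Nat.add (Nat.add (Nat.add (Nat.add (Nat.add C x31756) x17176) x18148) x19120) x18796) x18580) x18640) x18632) x18636) x38316)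
    (Nat.sub (Nat.add (Nat.add (Nat.add (Nat.add (Nat.add (Nat.add (Nat.add (Nat.add C x31758) x17178) x18150) x19122) x18798) x18582) x18642) x18634) x18636)
    (Nat.sub (Nat.sub (Nat.add (Nat.add (Nat.add (Nat.add (Nat.add (Nat.add (Nat.add (Nat.add (Nat.add C x31762) x17182) x18154) x19126) x18802) x18586) x18658) x18634) x18642) x18640) x38322)
    (Nat.add (Nat.add (Nat.add (Nat.add (Nat.add (Nat.add (Nat.add (Nat.add (Nat.add (Nat.add C x31764) x17184) x18156) x19128) x18804) x18588) x18660) x18636) x18648) x18640)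
    (Nat.sub (Nat.add (Nat.add (Nat.add (Nat.add (Nat.add (Nat.add (Nat.add (Nat.add C x31770) x17190) x18162) x19134) x18810) x18594) x18666) x18642) x18648)
    (Nat.sub (Nat.add (Nat.add (Nat.add (Nat.add (Nat.add (Nat.add (Nat.add (Nat.add (Nat.add C x18658) x31780) x17200) x18172) x19144) x18820) x18604) x18640) x18660) x38340)
    (Nat.add (Nat.add (Nat.add (Nat.add (Nat.add (Nat.add (Nat.add (Nat.add (Nat.add (Nat.add C x18660) x31782) x17202) x18174) x19146) x18822) x18606) x18642) x18666) x18658)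
    (Nat.add (Nat.add (Nat.add (Nat.add (Nat.add (Nat.add (Nat.add (Nat.add (Nat.add (Nat.add C (Nat.mul x18666 (nat_lit 2))) x31788) x17208) x18180) x19152) x18828) x18612) x18648) x18684) x18660)
    (Nat.add (Nat.add (Nat.add (Nat.add (Nat.add (Nat.add (Nat.add C (Nat.mul x18684 (nat_lit 3))) x31806) x17226) x18198) x19170) x18846) x18666)
    (Nat.sub (Nat.add (Nat.add (Nat.add (Nat.add (Nat.add (Nat.add C x31838) x17258) x19202) x18554) x18722) x18718) x38398)
    (Nat.sub (Nat.add (Nat.add (Nat.add (Nat.add (Nat.add (Nat.add C x31840) x17260) x19204) x18556) x18724) x18716) x38400)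
    (Nat.sub (Nat.sub (Nat.add (Nat.add (Nat.add (Nat.add (Nat.add (Nat.add (Nat.add C x31844) x17264) x19208) x18560) x18740) x18716) x18724) (Nat.mul x18722 (nat_lit 2))) x38404)
    (Nat.sub (Nat.add (Nat.add (Nat.add (Nat.add (Nat.add (Nat.add (Nat.add (Nat.add (Nat.add C x31846) x17266) x19210) x18562) x18742) x18718) x18730) x18722) x18726) x38406)
    (Nat.add (Nat.add (Nat.add (Nat.add (Nat.add (Nat.add (Nat.add C x31848) x17268) x19212) x18564) x18744) x18732) x18724)
    (Nat.sub (Nat.sub (Nat.add (Nat.add (Nat.add (Nat.add (Nat.add (Nat.add (Nat.add C x31852) x17272) x19216) x18568) x18748) x18724) x18732) (Nat.mul x18730 (nat_lit 2))) x38412)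
    (Nat.add (Nat.add (Nat.add (Nat.add (Nat.add (Nat.add (Nat.add C x31854) x17274) x19218) x18570) x18750) x18726) x18730)
    (Nat.sub (Nat.sub (Nat.add (Nat.add (Nat.add (Nat.add (Nat.add (Nat.add (Nat.add C x31862) x17282) x19226) x18578) x18794) x18722) x18742) (Nat.mul x18740 (nat_lit 2))) x38422)
    (Nat.sub (Nat.sub (Nat.add (Nat.add (Nat.add (Nat.add (Nat.add (Nat.add (Nat.add (Nat.add (Nat.add C x31864) x17284) x19228) x18580) x18796) x18724) x18748) x18740) x18744) x18742) x38424)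
    (Nat.sub (Nat.add (Nat.add (Nat.add (Nat.add (Nat.add (Nat.add (Nat.add (Nat.add C x31866) x17286) x19230) x18582) x18798) x18726) x18750) x18742) (Nat.mul x18744 (nat_lit 2)))
    (Nat.sub (Nat.sub (Nat.add (Nat.add (Nat.add (Nat.add (Nat.add (Nat.add (Nat.add (Nat.add (Nat.add C x31870) x17290) x19234) x18586) x18802) x18730) x18766) x18742) x18750) x18748) x38430)
    (Nat.add (Nat.add (Nat.add (Nat.add (Nat.add (Nat.add (Nat.add (Nat.add (Nat.add (Nat.add C x31872) x17292) x19236) x18588) x18804) x18732) x18768) x18744) x18756) x18748)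
    (Nat.add (Nat.add (Nat.add (Nat.add (Nat.add (Nat.add (Nat.add C x31878) x17298) x19242) x18594) x18810) x18774) x18750)
    (Nat.sub (Nat.sub (Nat.add (Nat.add (Nat.add (Nat.add (Nat.add (Nat.add (Nat.add C x31888) x17308) x19252) x18604) x18820) x18748) x18768) (Nat.mul x18766 (nat_lit 2))) x38448)
    (Nat.sub (Nat.add (Nat.add (Nat.add (Nat.add (Nat.add (Nat.add (Nat.add (Nat.add C x31890) x17310) x19254) x18606) x18822) x18750) x18774) x18766) (Nat.mul x18768 (nat_lit 2)))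
    (Nat.add (Nat.add (Nat.add (Nat.add (Nat.add (Nat.add (Nat.add C x31896) x17316) x19260) x18612) x18828) x18756) x18768)
    (Nat.sub (Nat.add (Nat.add (Nat.add (Nat.add (Nat.add (Nat.add C x31916) x17336) x19280) x18632) x18740) x18796) x38476)
    (Nat.sub (Nat.add (Nat.add (Nat.add (Nat.add (Nat.add (Nat.add (Nat.add (Nat.add (Nat.add C x18796) x31918) x17338) x19282) x18634) x18742) x18802) x18794) x18798) x38478)
    (Nat.add (Nat.add (Nat.add (Nat.add (Nat.add (Nat.add (Nat.add C x31920) x17340) x19284) x18636) x18744) x18804) x18796)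
    (Nat.sub (Nat.add (Nat.add (Nat.add (Nat.add (Nat.add (Nat.add (Nat.add (Nat.add C x31924) x17344) x19288) x18640) x18748) x18820) x18796) x18804) x38484)
    (Nat.add (Nat.add (Nat.add (Nat.add (Nat.add (Nat.add (Nat.add (Nat.add (Nat.add (Nat.add C x18804) x31926) x17346) x19290) x18642) x18750) x18822) x18798) x18810) x18802)
    (Nat.add (Nat.add (Nat.add (Nat.add (Nat.add (Nat.add (Nat.add C x31932) x17352) x19296) x18648) x18756) x18828) x18804)
    (Nat.sub (Nat.add (Nat.add (Nat.add (Nat.add (Nat.add (Nat.add (Nat.add (Nat.add (Nat.add C x18820) x31942) x17362) x19306) x18658) x18766) x18874) x18802) x18822) x38502)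
    (Nat.add (Nat.add (Nat.add (Nat.add (Nat.add (Nat.add (Nat.add (Nat.add (Nat.add (Nat.add C x18822) x31944) x17364) x19308) x18660) x18768) x18876) x18804) x18828) x18820)
    (Nat.add (Nat.add (Nat.add (Nat.add (Nat.add (Nat.add (Nat.add (Nat.add (Nat.add (Nat.add C (Nat.mul x18828 (nat_lit 2))) x31950) x17370) x19314) x18666) x18774) x18882) x18810) x18846) x18822)
    (Nat.add (Nat.add (Nat.add (Nat.add (Nat.add (Nat.add (Nat.add C (Nat.mul x18846 (nat_lit 2))) x31968) x17388) x19332) x18684) x18900) x18828)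
    (Nat.sub (Nat.add (Nat.add (Nat.add (Nat.add (Nat.add (Nat.add C (Nat.mul x18874 (nat_lit 2))) x31996) x17416) x19360) x18820) x18876) x38556)
    (Nat.add (Nat.add (Nat.add (Nat.add (Nat.add (Nat.add (Nat.add C (Nat.mul x18876 (nat_lit 2))) x31998) x17418) x19362) x18822) x18882) x18874)
    (Nat.add (Nat.add (Nat.add (Nat.add (Nat.add (Nat.add (Nat.add C (Nat.mul x18882 (nat_lit 2))) x32004) x17424) x19368) x18828) x18900) x18876)
    (Nat.add (Nat.add (Nat.add (Nat.add (Nat.add (Nat.add C (Nat.mul x18900 (nat_lit 4))) x32022) x17442) x19386) x18846) x18882)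
    (Nat.sub (Nat.add (Nat.add (Nat.add (Nat.add C (Nat.mul x18962 (nat_lit 2))) x32084) x18476) x18968) x38644)
    (Nat.sub (Nat.add (Nat.add (Nat.add (Nat.add (Nat.add (Nat.add (Nat.add C x18968) x32090) x18482) x18986) x18962) x18974) x18970) x38650)
    (Nat.sub (Nat.add (Nat.add (Nat.add (Nat.add (Nat.add (Nat.add C (Nat.mul x18970 (nat_lit 2))) x32092) x18484) x18988) x18976) x18968) x38652)
    (Nat.sub (Nat.sub (Nat.add (Nat.add (Nat.add (Nat.add (Nat.add C x32096) x18488) x18992) x18968) x18976) (Nat.mul x18974 (nat_lit 2))) x38656)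
    (Nat.sub (Nat.add (Nat.add (Nat.add (Nat.add (Nat.add (Nat.add (Nat.add C x18976) x32098) x18490) x18994) x18970) x18974) x18978) x38658)
    (Nat.add (Nat.add (Nat.add (Nat.add (Nat.add C (Nat.mul x18978 (nat_lit 2))) x32100) x18492) x18996) x18976)
    (Nat.sub (Nat.add (Nat.add (Nat.add (Nat.add (Nat.add (Nat.add C x32108) x18500) x19040) x18968) x18992) x18988) x38668)
    (Nat.sub (Nat.add (Nat.add (Nat.add (Nat.add (Nat.add (Nat.add C x32110) x18502) x19042) x18970) x18994) x18986) x38670)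
    (Nat.sub (Nat.sub (Nat.add (Nat.add (Nat.add (Nat.add (Nat.add (Nat.add (Nat.add C x32114) x18506) x19046) x18974) x19010) x18986) x18994) x18992) x38674)
    (Nat.sub (Nat.add (Nat.add (Nat.add (Nat.add (Nat.add (Nat.add (Nat.add (Nat.add (Nat.add (Nat.add C x18994) x32116) x18508) x19048) x18976) x19012) x18988) x19000) x18992) x18996) x38676)
    (Nat.add (Nat.add (Nat.add (Nat.add (Nat.add (Nat.add (Nat.add (Nat.add C x18996) x32118) x18510) x19050) x18978) x19014) x19002) x18994)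
    (Nat.sub (Nat.add (Nat.add (Nat.add (Nat.add (Nat.add (Nat.add C x32122) x18514) x19054) x19018) x18994) x19002) x38682)
    (Nat.add (Nat.add (Nat.add (Nat.add (Nat.add (Nat.add (Nat.add C (Nat.mul x19002 (nat_lit 2))) x32124) x18516) x19056) x19020) x18996) x19000)
    (Nat.sub (Nat.sub (Nat.add (Nat.add (Nat.add (Nat.add (Nat.add C x32132) x18524) x19064) x18992) x19012) (Nat.mul x19010 (nat_lit 2))) x38692)
    (Nat.sub (Nat.sub (Nat.add (Nat.add (Nat.add (Nat.add (Nat.add (Nat.add (Nat.add C x32134) x18526) x19066) x18994) x19018) x19010) x19014) x19012) x38694)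
    (Nat.sub (Nat.add (Nat.add (Nat.add (Nat.add (Nat.add (Nat.add C x32136) x18528) x19068) x18996) x19020) x19012) (Nat.mul x19014 (nat_lit 2)))
    (Nat.sub (Nat.add (Nat.add (Nat.add (Nat.add (Nat.add (Nat.add C x32140) x18532) x19072) x19000) x19012) x19020) x38700)
    (Nat.add (Nat.add (Nat.add (Nat.add (Nat.add (Nat.add (Nat.add (Nat.add C x19020) x32142) x18534) x19074) x19002) x19014) x19026) x19018)
    (Nat.add (Nat.add (Nat.add (Nat.add (Nat.add C (Nat.mul x19026 (nat_lit 2))) x32148) x18540) x19080) x19020)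
    (Nat.sub (Nat.add (Nat.add (Nat.add (Nat.add (Nat.add (Nat.add C x32162) x18554) x19202) x18986) x19046) x19042) x38722)
    (Nat.sub (Nat.add (Nat.add (Nat.add (Nat.add (Nat.add (Nat.add C x32164) x18556) x19204) x18988) x19048) x19040) x38724)
    (Nat.sub (Nat.sub (Nat.add (Nat.add (Nat.add (Nat.add (Nat.add (Nat.add (Nat.add C x32168) x18560) x19208) x18992) x19064) x19040) x19048) (Nat.mul x19046 (nat_lit 2))) x38728)
    (Nat.sub (Nat.add (Nat.add (Nat.add (Nat.add (Nat.add (Nat.add (Nat.add (Nat.add (Nat.add C x32170) x18562) x19210) x18994) x19066) x19042) x19054) x19046) x19050) x38730)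
    (Nat.add (Nat.add (Nat.add (Nat.add (Nat.add (Nat.add (Nat.add C x32172) x18564) x19212) x18996) x19068) x19056) x19048)
    (Nat.sub (Nat.sub (Nat.add (Nat.add (Nat.add (Nat.add (Nat.add (Nat.add (Nat.add C x32176) x18568) x19216) x19000) x19072) x19048) x19056) (Nat.mul x19054 (nat_lit 2))) x38736)
    (Nat.add (Nat.add (Nat.add (Nat.add (Nat.add (Nat.add (Nat.add C x32178) x18570) x19218) x19002) x19074) x19050) x19054)
    (Nat.sub (Nat.sub (Nat.add (Nat.add (Nat.add (Nat.add (Nat.add (Nat.add (Nat.add C x32186) x18578) x19226) x19010) x19118) x19046) x19066) x19064) x38746)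
    (Nat.sub (Nat.add (Nat.add (Nat.add (Nat.add (Nat.add (Nat.add (Nat.add (Nat.add (Nat.add C x32188) x18580) x19228) x19012) x19120) x19048) x19072) x19064) x19068) x38748)
    (Nat.sub (Nat.add (Nat.add (Nat.add (Nat.add (Nat.add (Nat.add (Nat.add (Nat.add C x32190) x18582) x19230) x19014) x19122) x19050) x19074) x19066) x19068)
    (Nat.sub (Nat.add (Nat.add (Nat.add (Nat.add (Nat.add (Nat.add (Nat.add (Nat.add (Nat.add C x32194) x18586) x19234) x19018) x19126) x19054) x19090) x19066) x19074) x38754)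
    (Nat.add (Nat.add (Nat.add (Nat.add (Nat.add (Nat.add (Nat.add (Nat.add (Nat.add (Nat.add (Nat.add C x19074) x32196) x18588) x19236) x19020) x19128) x19056) x19092) x19068) x19080) x19072)
    (Nat.add (Nat.add (Nat.add (Nat.add (Nat.add (Nat.add (Nat.add (Nat.add C x19080) x32202) x18594) x19242) x19026) x19134) x19098) x19074)
    (Nat.sub (Nat.add (Nat.add (Nat.add (Nat.add (Nat.add (Nat.add C x32212) x18604) x19252) x19144) x19072) x19092) x38772)
    (Nat.add (Nat.add (Nat.add (Nat.add (Nat.add (Nat.add (Nat.add C x32214) x18606) x19254) x19146) x19074) x19098) x19090)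
    (Nat.add (Nat.add (Nat.add (Nat.add (Nat.add (Nat.add (Nat.add C (Nat.mul x19098 (nat_lit 2))) x32220) x18612) x19260) x19152) x19080) x19092)
    (Nat.sub (Nat.sub (Nat.add (Nat.add (Nat.add (Nat.add (Nat.add C x32240) x18632) x19280) x19064) x19120) (Nat.mul x19118 (nat_lit 2))) x38800)
    (Nat.sub (Nat.sub (Nat.add (Nat.add (Nat.add (Nat.add (Nat.add (Nat.add (Nat.add C x32242) x18634) x19282) x19066) x19126) x19118) x19122) x19120) x38802)
    (Nat.sub (Nat.add (Nat.add (Nat.add (Nat.add (Nat.add (Nat.add C x32244) x18636) x19284) x19068) x19128) x19120) (Nat.mul x19122 (nat_lit 2)))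
    (Nat.sub (Nat.sub (Nat.add (Nat.add (Nat.add (Nat.add (Nat.add (Nat.add (Nat.add C x32248) x18640) x19288) x19072) x19144) x19120) x19128) (Nat.mul x19126 (nat_lit 2))) x38808)
    (Nat.sub (Nat.add (Nat.add (Nat.add (Nat.add (Nat.add (Nat.add (Nat.add (Nat.add C x32250) x18642) x19290) x19074) x19146) x19122) x19134) x19126) x19128)
    (Nat.sub (Nat.add (Nat.add (Nat.add (Nat.add (Nat.add (Nat.add C x32256) x18648) x19296) x19080) x19152) x19128) (Nat.mul x19134 (nat_lit 2)))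
    (Nat.sub (Nat.add (Nat.add (Nat.add (Nat.add (Nat.add (Nat.add C x32266) x18658) x19306) x19090) x19126) x19146) x38826)
    (Nat.add (Nat.add (Nat.add (Nat.add (Nat.add (Nat.add (Nat.add C x32268) x18660) x19308) x19092) x19128) x19152) x19144)
    (Nat.add (Nat.add (Nat.add (Nat.add (Nat.add (Nat.add (Nat.add (Nat.add C x19152) x32274) x18666) x19314) x19098) x19134) x19170) x19146)
    (Nat.add (Nat.add (Nat.add (Nat.add (Nat.add C (Nat.mul x19170 (nat_lit 2))) x32292) x18684) x19332) x19152)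
    (Nat.sub (Nat.add (Nat.add (Nat.add (Nat.add (Nat.add (Nat.add C (Nat.mul x19202 (nat_lit 2))) x32324) x18716) x19040) x19208) x19204) x38884)
    (Nat.sub (Nat.add (Nat.add (Nat.add (Nat.add (Nat.add (Nat.add C (Nat.mul x19204 (nat_lit 2))) x32326) x18718) x19042) x19210) x19202) x38886)
    (Nat.sub (Nat.add (Nat.add (Nat.add (Nat.add (Nat.add (Nat.add C x32330) x18722) x19046) x19226) x19202) x19210) x38890)
    (Nat.sub (Nat.add (Nat.add (Nat.add (Nat.add (Nat.add (Nat.add (Nat.add (Nat.add (Nat.add C (Nat.mul x19210 (nat_lit 2))) x32332) x18724) x19048) x19228) x19204) x19216) x19208) x19212) x38892)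
    (Nat.add (Nat.add (Nat.add (Nat.add (Nat.add (Nat.add (Nat.add C (Nat.mul x19212 (nat_lit 2))) x32334) x18726) x19050) x19230) x19218) x19210)
    (Nat.sub (Nat.add (Nat.add (Nat.add (Nat.add (Nat.add (Nat.add C x32338) x18730) x19054) x19234) x19210) x19218) x38898)
    (Nat.add (Nat.add (Nat.add (Nat.add (Nat.add (Nat.add (Nat.add C (Nat.mul x19218 (nat_lit 2))) x32340) x18732) x19056) x19236) x19212) x19216)
    (Nat.sub (Nat.add (Nat.add (Nat.add (Nat.add (Nat.add (Nat.add C x32348) x18740) x19064) x19280) x19208) x19228) x38908)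
    (Nat.sub (Nat.add (Nat.add (Nat.add (Nat.add (Nat.add (Nat.add (Nat.add (Nat.add (Nat.add C x19228) x32350) x18742) x19066) x19282) x19210) x19234) x19226) x19230) x38910)
    (Nat.add (Nat.add (Nat.add (Nat.add (Nat.add (Nat.add (Nat.add C x32352) x18744) x19068) x19284) x19212) x19236) x19228)
    (Nat.sub (Nat.add (Nat.add (Nat.add (Nat.add (Nat.add (Nat.add (Nat.add (Nat.add (Nat.add C x19234) x32356) x18748) x19072) x19288) x19216) x19252) x19228) x19236) x38916)
    (Nat.add (Nat.add (Nat.add (Nat.add (Nat.add (Nat.add (Nat.add (Nat.add (Nat.add (Nat.add C (Nat.mul x19236 (nat_lit 2))) x32358) x18750) x19074) x19290) x19218) x19254) x19230) x19242) x19234)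
    (Nat.add (Nat.add (Nat.add (Nat.add (Nat.add (Nat.add (Nat.add C (Nat.mul x19242 (nat_lit 2))) x32364) x18756) x19080) x19296) x19260) x19236)
    (Nat.sub (Nat.add (Nat.add (Nat.add (Nat.add (Nat.add (Nat.add C x32374) x18766) x19090) x19306) x19234) x19254) x38934)
    (Nat.add (Nat.add (Nat.add (Nat.add (Nat.add (Nat.add (Nat.add C x32376) x18768) x19092) x19308) x19236) x19260) x19252)
    (Nat.add (Nat.add (Nat.add (Nat.add (Nat.add (Nat.add (Nat.add C (Nat.mul x19260 (nat_lit 2))) x32382) x18774) x19098) x19314) x19242) x19254)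
    (Nat.sub (Nat.add (Nat.add (Nat.add (Nat.add (Nat.add (Nat.add (Nat.add C x19280) x32402) x18794) x19118) x19442) x19226) x19282) x38962)
    (Nat.sub (Nat.add (Nat.add (Nat.add (Nat.add (Nat.add (Nat.add (Nat.add (Nat.add (Nat.add C (Nat.mul x19282 (nat_lit 2))) x32404) x18796) x19120) x19444) x19228) x19288) x19280) x19284) x38964)
    (Nat.add (Nat.add (Nat.add (Nat.add (Nat.add (Nat.add (Nat.add (Nat.add C x19284) x32406) x18798) x19122) x19446) x19230) x19290) x19282)
    (Nat.sub (Nat.add (Nat.add (Nat.add (Nat.add (Nat.add (Nat.add (Nat.add (Nat.add (Nat.add C x19288) x32410) x18802) x19126) x19450) x19234) x19306) x19282) x19290) x38970)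
    (Nat.add (Nat.add (Nat.add (Nat.add (Nat.add (Nat.add (Nat.add (Nat.add (Nat.add (Nat.add C (Nat.mul x19290 (nat_lit 2))) x32412) x18804) x19128) x19452) x19236) x19308) x19284) x19296) x19288)
    (Nat.add (Nat.add (Nat.add (Nat.add (Nat.add (Nat.add (Nat.add (Nat.add C x19296) x32418) x18810) x19134) x19458) x19242) x19314) x19290)
    (Nat.sub (Nat.add (Nat.add (Nat.add (Nat.add (Nat.add (Nat.add (Nat.add (Nat.add (Nat.add C (Nat.mul x19306 (nat_lit 2))) x32428) x18820) x19144) x19468) x19252) x19360) x19288) x19308) x38988)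
    (Nat.add (Nat.add (Nat.add (Nat.add (Nat.add (Nat.add (Nat.add (Nat.add (Nat.add (Nat.add C (Nat.mul x19308 (nat_lit 2))) x32430) x18822) x19146) x19470) x19254) x19362) x19290) x19314) x19306)
    (Nat.add (Nat.add (Nat.add (Nat.add (Nat.add (Nat.add (Nat.add (Nat.add (Nat.add (Nat.add C (Nat.mul x19314 (nat_lit 3))) x32436) x18828) x19152) x19476) x19260) x19368) x19296) x19332) x19308)
    (Nat.add (Nat.add (Nat.add (Nat.add (Nat.add (Nat.add (Nat.add C (Nat.mul x19332 (nat_lit 3))) x32454) x18846) x19170) x19494) x19386) x19314)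
    (Nat.sub (Nat.add (Nat.add (Nat.add (Nat.add (Nat.add (Nat.add C (Nat.mul x19360 (nat_lit 2))) x32482) x18874) x19522) x19306) x19362) x39042)
    (Nat.add (Nat.add (Nat.add (Nat.add (Nat.add (Nat.add (Nat.add C (Nat.mul x19362 (nat_lit 2))) x32484) x18876) x19524) x19308) x19368) x19360)
    (Nat.add (Nat.add (Nat.add (Nat.add (Nat.add (Nat.add (Nat.add C (Nat.mul x19368 (nat_lit 2))) x32490) x18882) x19530) x19314) x19386) x19362)
    (Nat.add (Nat.add (Nat.add (Nat.add (Nat.add (Nat.add C (Nat.mul x19386 (nat_lit 4))) x32508) x18900) x19548) x19332) x19368)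
    (Nat.sub (Nat.add (Nat.add (Nat.add (Nat.add C (Nat.mul x19442 (nat_lit 2))) x32564) x19280) x19444) x39124)
    (Nat.sub (Nat.add (Nat.add (Nat.add (Nat.add (Nat.add (Nat.add C (Nat.mul x19444 (nat_lit 3))) x32566) x19282) x19450) x19442) x19446) x39126)
    (Nat.add (Nat.add (Nat.add (Nat.add (Nat.add C (Nat.mul x19446 (nat_lit 2))) x32568) x19284) x19452) x19444)
    (Nat.sub (Nat.add (Nat.add (Nat.add (Nat.add (Nat.add (Nat.add C (Nat.mul x19450 (nat_lit 2))) x32572) x19288) x19468) x19444) x19452) x39132)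
    (Nat.add (Nat.add (Nat.add (Nat.add (Nat.add (Nat.add (Nat.add C (Nat.mul x19452 (nat_lit 3))) x32574) x19290) x19470) x19446) x19458) x19450)
    (Nat.add (Nat.add (Nat.add (Nat.add (Nat.add C (Nat.mul x19458 (nat_lit 2))) x32580) x19296) x19476) x19452)
    (Nat.sub (Nat.add (Nat.add (Nat.add (Nat.add (Nat.add (Nat.add C (Nat.mul x19468 (nat_lit 2))) x32590) x19306) x19522) x19450) x19470) x39150)
    (Nat.add (Nat.add (Nat.add (Nat.add (Nat.add (Nat.add (Nat.add C (Nat.mul x19470 (nat_lit 2))) x32592) x19308) x19524) x19452) x19476) x19468)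
    (Nat.add (Nat.add (Nat.add (Nat.add (Nat.add (Nat.add (Nat.add C (Nat.mul x19476 (nat_lit 3))) x32598) x19314) x19530) x19458) x19494) x19470)
    (Nat.add (Nat.add (Nat.add (Nat.add (Nat.add C (Nat.mul x19494 (nat_lit 2))) x32616) x19332) x19548) x19476)
    (Nat.sub (Nat.add (Nat.add (Nat.add (Nat.add (Nat.add C (Nat.mul x19522 (nat_lit 4))) x32644) x19360) x19468) x19524) x39204)
    (Nat.add (Nat.add (Nat.add (Nat.add (Nat.add (Nat.add C (Nat.mul x19524 (nat_lit 4))) x32646) x19362) x19470) x19530) x19522)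
    (Nat.add (Nat.add (Nat.add (Nat.add (Nat.add (Nat.add C (Nat.mul x19530 (nat_lit 4))) x32652) x19368) x19476) x19548) x19524)
    (Nat.add (Nat.add (Nat.add (Nat.add (Nat.add (Nat.add C (Nat.mul x19548 (nat_lit 5))) x32670) x19386) x19494) x19602) x19530)
    (Nat.add (Nat.add (Nat.add C (Nat.mul x19602 (nat_lit 6))) x32724) x19548)
    (Nat.sub (Nat.add (Nat.add (Nat.add (Nat.add C (Nat.mul x19844 (nat_lit 6))) x6722) x20006) x19898) x39526)
    (Nat.sub (Nat.add (Nat.add (Nat.add (Nat.add (Nat.add C (Nat.mul x19898 (nat_lit 4))) x6776) x20060) x19844) x19916) x39580)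
    (Nat.sub (Nat.add (Nat.add (Nat.add (Nat.add (Nat.add C (Nat.mul x19916 (nat_lit 4))) x6794) x20078) x19898) x19922) x39598)
    (Nat.sub (Nat.add (Nat.add (Nat.add (Nat.add (Nat.add C (Nat.mul x19922 (nat_lit 4))) x6800) x20084) x19916) x19924) x39604)
    (Nat.sub (Nat.sub (Nat.add (Nat.add (Nat.add (Nat.add C (Nat.mul x19924 (nat_lit 5))) x6802) x20086) x19922) x39606) x242)
    (Nat.sub (Nat.add (Nat.add (Nat.add (Nat.add (Nat.add C (Nat.mul x20006 (nat_lit 4))) x6884) x20492) x19844) x20060) x39688)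
    (Nat.sub (Nat.add (Nat.add (Nat.add (Nat.add (Nat.add (Nat.add (Nat.add (Nat.add C (Nat.mul x20060 (nat_lit 4))) x6938) x20546) x19898) x20222) x20006) x20114) x20078) x39742)
    (Nat.sub (Nat.add (Nat.add (Nat.add (Nat.add (Nat.add (Nat.add (Nat.add (Nat.add C (Nat.mul x20078 (nat_lit 3))) x6956) x20564) x19916) x20240) x20132) x20060) x20084) x39760)
    (Nat.sub (Nat.add (Nat.add (Nat.add (Nat.add (Nat.add (Nat.add (Nat.add (Nat.add C (Nat.mul x20084 (nat_lit 3))) x6962) x20570) x19922) x20246) x20138) x20078) x20086) x39766)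
    (Nat.sub (Nat.sub (Nat.add (Nat.add (Nat.add (Nat.add (Nat.add (Nat.add (Nat.add C (Nat.mul x20086 (nat_lit 4))) x6964) x20572) x19924) x20248) x20140) x20084) x39768) x404)
    (Nat.sub (Nat.add (Nat.add (Nat.add (Nat.add (Nat.add (Nat.add C (Nat.mul x20114 (nat_lit 2))) x6992) x20600) x20276) x20060) x20132) x39796)
    (Nat.sub (Nat.add (Nat.add (Nat.add (Nat.add (Nat.add (Nat.add (Nat.add (Nat.add C (Nat.mul x20132 (nat_lit 3))) x7010) x20618) x20294) x20078) x20114) x20150) x20138) x39814)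
    (Nat.sub (Nat.add (Nat.add (Nat.add (Nat.add (Nat.add (Nat.add (Nat.add (Nat.add C (Nat.mul x20138 (nat_lit 2))) x7016) x20624) x20300) x20084) x20156) x20132) x20140) x39820)
    (Nat.sub (Nat.sub (Nat.add (Nat.add (Nat.add (Nat.add (Nat.add (Nat.add (Nat.add C (Nat.mul x20140 (nat_lit 3))) x7018) x20626) x20302) x20086) x20158) x20138) x39822) x458)
    (Nat.sub (Nat.add (Nat.add (Nat.add (Nat.add (Nat.add (Nat.add C (Nat.mul x20150 (nat_lit 2))) x7028) x20636) x20312) x20132) x20156) x39832)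
    (Nat.sub (Nat.add (Nat.add (Nat.add (Nat.add (Nat.add (Nat.add (Nat.add (Nat.add C (Nat.mul x20156 (nat_lit 3))) x7034) x20642) x20318) x20138) x20150) x20162) x20158) x39838)
    (Nat.sub (Nat.sub (Nat.add (Nat.add (Nat.add (Nat.add (Nat.add (Nat.add (Nat.add C (Nat.mul x20158 (nat_lit 3))) x7036) x20644) x20320) x20140) x20164) x20156) x39840) x476)
    (Nat.sub (Nat.add (Nat.add (Nat.add (Nat.add (Nat.add (Nat.add C (Nat.mul x20162 (nat_lit 2))) x7040) x20648) x20324) x20156) x20164) x39844)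
    (Nat.sub (Nat.sub (Nat.add (Nat.add (Nat.add (Nat.add (Nat.add (Nat.add (Nat.add C (Nat.mul x20164 (nat_lit 4))) x7042) x20650) x20326) x20158) x20162) x20166) x39846) x482)
    (Nat.sub (Nat.add (Nat.add (Nat.add (Nat.add (Nat.add C (Nat.mul x20166 (nat_lit 4))) x7044) x20652) x20328) x20164) x484)
    (Nat.sub (Nat.add (Nat.add (Nat.add (Nat.add (Nat.add (Nat.add C (Nat.mul x20222 (nat_lit 2))) x7100) x20708) x20060) x20276) x20240) x39904)
    (Nat.sub (Nat.add (Nat.add (Nat.add (Nat.add (Nat.add (Nat.add C x7118) x20726) x20078) x20294) x20222) x20246) x39922)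
    (Nat.sub (Nat.add (Nat.add (Nat.add (Nat.add (Nat.add (Nat.add C x7124) x20732) x20084) x20300) x20240) x20248) x39928)
    (Nat.sub (Nat.sub (Nat.add (Nat.add (Nat.add (Nat.add (Nat.add (Nat.add C x20248) x7126) x20734) x20086) x20302) x20246) x39930) x566)
    (Nat.sub (Nat.add (Nat.add (Nat.add (Nat.add (Nat.add (Nat.add C (Nat.mul x20276 (nat_lit 2))) x7154) x20762) x20114) x20222) x20294) x39958)
    (Nat.sub (Nat.add (Nat.add (Nat.add (Nat.add (Nat.add (Nat.add (Nat.add (Nat.add (Nat.add C (Nat.mul x20294 (nat_lit 2))) x7172) x20780) x20132) x20240) x20348) x20276) x20312) x20300) x39976)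
    (Nat.sub (Nat.add (Nat.add (Nat.add (Nat.add (Nat.add (Nat.add (Nat.add (Nat.add (Nat.add C x20300) x7178) x20786) x20138) x20246) x20354) x20318) x20294) x20302) x39982)
    (Nat.sub (Nat.sub (Nat.add (Nat.add (Nat.add (Nat.add (Nat.add (Nat.add (Nat.add (Nat.add C (Nat.mul x20302 (nat_lit 2))) x7180) x20788) x20140) x20248) x20356) x20320) x20300) x39984) x620)
    (Nat.sub (Nat.add (Nat.add (Nat.add (Nat.add (Nat.add (Nat.add C x7190) x20798) x20150) x20366) x20294) x20318) x39994)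
    (Nat.sub (Nat.add (Nat.add (Nat.add (Nat.add (Nat.add (Nat.add (Nat.add (Nat.add (Nat.add C x20318) x7196) x20804) x20156) x20372) x20300) x20312) x20324) x20320) x40000)
    (Nat.sub (Nat.sub (Nat.add (Nat.add (Nat.add (Nat.add (Nat.add (Nat.add (Nat.add (Nat.add C x20320) x7198) x20806) x20158) x20374) x20302) x20326) x20318) x40002) x638)
    (Nat.sub (Nat.add (Nat.add (Nat.add (Nat.add (Nat.add (Nat.add C x7202) x20810) x20162) x20378) x20318) x20326) x40006)
    (Nat.sub (Nat.sub (Nat.add (Nat.add (Nat.add (Nat.add (Nat.add (Nat.add (Nat.add (Nat.add C (Nat.mul x20326 (nat_lit 2))) x7204) x20812) x20164) x20380) x20320) x20324) x20328) x40008) x644)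
    (Nat.sub (Nat.add (Nat.add (Nat.add (Nat.add (Nat.add (Nat.add C (Nat.mul x20328 (nat_lit 2))) x7206) x20814) x20166) x20382) x20326) x646)
    (Nat.sub (Nat.add (Nat.add (Nat.add (Nat.add (Nat.add (Nat.add C (Nat.mul x20348 (nat_lit 2))) x7226) x20834) x20294) x20366) x20354) x40030)
    (Nat.sub (Nat.add (Nat.add (Nat.add (Nat.add (Nat.add (Nat.add C x7232) x20840) x20300) x20372) x20348) x20356) x40036)
    (Nat.sub (Nat.sub (Nat.add (Nat.add (Nat.add (Nat.add (Nat.add (Nat.add C x20356) x7234) x20842) x20302) x20374) x20354) x40038) x674)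
    (Nat.sub (Nat.add (Nat.add (Nat.add (Nat.add (Nat.add (Nat.add C (Nat.mul x20366 (nat_lit 2))) x7244) x20852) x20312) x20348) x20372) x40048)
    (Nat.sub (Nat.add (Nat.add (Nat.add (Nat.add (Nat.add (Nat.add (Nat.add (Nat.add (Nat.add C (Nat.mul x20372 (nat_lit 2))) x7250) x20858) x20318) x20354) x20390) x20366) x20378) x20374) x40054)
    (Nat.sub (Nat.sub (Nat.add (Nat.add (Nat.add (Nat.add (Nat.add (Nat.add (Nat.add (Nat.add C (Nat.mul x20374 (nat_lit 2))) x7252) x20860) x20320) x20356) x20392) x20380) x20372) x40056) x692)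
    (Nat.sub (Nat.add (Nat.add (Nat.add (Nat.add (Nat.add (Nat.add C x7256) x20864) x20324) x20396) x20372) x20380) x40060)
    (Nat.sub (Nat.sub (Nat.add (Nat.add (Nat.add (Nat.add (Nat.add (Nat.add (Nat.add (Nat.add C (Nat.mul x20380 (nat_lit 2))) x7258) x20866) x20326) x20398) x20374) x20378) x20382) x40062) x698)
    (Nat.sub (Nat.add (Nat.add (Nat.add (Nat.add (Nat.add (Nat.add C (Nat.mul x20382 (nat_lit 2))) x7260) x20868) x20328) x20400) x20380) x700)
    (Nat.sub (Nat.add (Nat.add (Nat.add (Nat.add (Nat.add (Nat.add C (Nat.mul x20390 (nat_lit 2))) x7268) x20876) x20372) x20396) x20392) x40072)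
    (Nat.sub (Nat.sub (Nat.add (Nat.add (Nat.add (Nat.add (Nat.add (Nat.add C x20392) x7270) x20878) x20374) x20398) x20390) x40074) x710)
    (Nat.sub (Nat.add (Nat.add (Nat.add (Nat.add (Nat.add (Nat.add C (Nat.mul x20396 (nat_lit 2))) x7274) x20882) x20378) x20390) x20398) x40078)
    (Nat.sub (Nat.sub (Nat.add (Nat.add (Nat.add (Nat.add (Nat.add (Nat.add (Nat.add (Nat.add C (Nat.mul x20398 (nat_lit 3))) x7276) x20884) x20380) x20392) x20404) x20396) x20400) x40080) x716)
    (Nat.sub (Nat.add (Nat.add (Nat.add (Nat.add (Nat.add (Nat.add C (Nat.mul x20400 (nat_lit 2))) x7278) x20886) x20382) x20406) x20398) x718)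
    (Nat.sub (Nat.sub (Nat.add (Nat.add (Nat.add (Nat.add (Nat.add C (Nat.mul x20404 (nat_lit 3))) x7282) x20890) x20398) x20406) x40086) x722)
    (Nat.sub (Nat.add (Nat.add (Nat.add (Nat.add (Nat.add C (Nat.mul x20406 (nat_lit 4))) x7284) x20892) x20400) x20404) x724)
    (Nat.sub (Nat.add (Nat.add (Nat.add (Nat.add (Nat.add C (Nat.mul x20492 (nat_lit 4))) x7370) x21950) x20006) x20546) x40174)
    (Nat.sub (Nat.add (Nat.add (Nat.add (Nat.add (Nat.add (Nat.add (Nat.add (Nat.add C (Nat.mul x20546 (nat_lit 3))) x7424) x22004) x20060) x20708) x20492) x20600) x20564) x40228)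
    (Nat.sub (Nat.add (Nat.add (Nat.add (Nat.add (Nat.add (Nat.add (Nat.add (Nat.add C (Nat.mul x20564 (nat_lit 2))) x7442) x22022) x20078) x20726) x20618) x20546) x20570) x40246)
    (Nat.sub (Nat.add (Nat.add (Nat.add (Nat.add (Nat.add (Nat.add (Nat.add (Nat.add C (Nat.mul x20570 (nat_lit 2))) x7448) x22028) x20084) x20732) x20624) x20564) x20572) x40252)
    (Nat.sub (Nat.sub (Nat.add (Nat.add (Nat.add (Nat.add (Nat.add (Nat.add (Nat.add C (Nat.mul x20572 (nat_lit 3))) x7450) x22030) x20086) x20734) x20626) x20570) x40254) x890)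
    (Nat.sub (Nat.add (Nat.add (Nat.add (Nat.add (Nat.add (Nat.add C x7478) x22058) x20114) x20762) x20546) x20618) x40282)
    (Nat.sub (Nat.add (Nat.add (Nat.add (Nat.add (Nat.add (Nat.add (Nat.add (Nat.add (Nat.add C x20618) x7496) x22076) x20132) x20780) x20564) x20600) x20636) x20624) x40300)
    (Nat.sub (Nat.add (Nat.add (Nat.add (Nat.add (Nat.add (Nat.add (Nat.add (Nat.add C x7502) x22082) x20138) x20786) x20570) x20642) x20618) x20626) x40306)
    (Nat.sub (Nat.sub (Nat.add (Nat.add (Nat.add (Nat.add (Nat.add (Nat.add (Nat.add (Nat.add C x20626) x7504) x22084) x20140) x20788) x20572) x20644) x20624) x40308) x944)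
    (Nat.sub (Nat.add (Nat.add (Nat.add (Nat.add (Nat.add (Nat.add C x7514) x22094) x20150) x20798) x20618) x20642) x40318)
    (Nat.sub (Nat.add (Nat.add (Nat.add (Nat.add (Nat.add (Nat.add (Nat.add (Nat.add (Nat.add C x20642) x7520) x22100) x20156) x20804) x20624) x20636) x20648) x20644) x40324)
    (Nat.sub (Nat.sub (Nat.add (Nat.add (Nat.add (Nat.add (Nat.add (Nat.add (Nat.add (Nat.add C x20644) x7522) x22102) x20158) x20806) x20626) x20650) x20642) x40326) x962)
    (Nat.sub (Nat.add (Nat.add (Nat.add (Nat.add (Nat.add (Nat.add C x7526) x22106) x20162) x20810) x20642) x20650) x40330)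
    (Nat.sub (Nat.sub (Nat.add (Nat.add (Nat.add (Nat.add (Nat.add (Nat.add (Nat.add (Nat.add C (Nat.mul x20650 (nat_lit 2))) x7528) x22108) x20164) x20812) x20644) x20648) x20652) x40332) x968)
    (Nat.sub (Nat.add (Nat.add (Nat.add (Nat.add (Nat.add (Nat.add C (Nat.mul x20652 (nat_lit 2))) x7530) x22110) x20166) x20814) x20650) x970)
    (Nat.sub (Nat.add (Nat.add (Nat.add (Nat.add (Nat.add (Nat.add (Nat.add (Nat.add C (Nat.mul x20708 (nat_lit 3))) x7586) x22166) x20222) x21194) x20546) x20762) x20726) x40390)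
    (Nat.sub (Nat.add (Nat.add (Nat.add (Nat.add (Nat.add (Nat.add (Nat.add (Nat.add (Nat.add C x20726) x7604) x22184) x20240) x21212) x20564) x20780) x20708) x20732) x40408)
    (Nat.sub (Nat.add (Nat.add (Nat.add (Nat.add (Nat.add (Nat.add (Nat.add (Nat.add (Nat.add C x20732) x7610) x22190) x20246) x21218) x20570) x20786) x20726) x20734) x40414)
    (Nat.sub (Nat.sub (Nat.add (Nat.add (Nat.add (Nat.add (Nat.add (Nat.add (Nat.add (Nat.add C (Nat.mul x20734 (nat_lit 2))) x7612) x22192) x20248) x21220) x20572) x20788) x20732) x40416) x1052)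
    (Nat.sub (Nat.add (Nat.add (Nat.add (Nat.add (Nat.add (Nat.add (Nat.add (Nat.add (Nat.add C (Nat.mul x20762 (nat_lit 2))) x7640) x22220) x20276) x21248) x20600) x20924) x20708) x20780) x40444)
    (Nat.sub (Nat.add (Nat.add (Nat.add (Nat.add (Nat.add (Nat.add (Nat.add (Nat.add (Nat.add (Nat.add (Nat.add (Nat.add C (Nat.mul x20780 (nat_lit 2))) x7658) x22238) x20294) x21266) x20618) x20942) x20726) x20834) x20762) x20798) x20786) x40462)
    (Nat.sub (Nat.add (Nat.add (Nat.add (Nat.add (Nat.add (Nat.add (Nat.add (Nat.add (Nat.add (Nat.add (Nat.add (Nat.add C x20786) x7664) x22244) x20300) x21272) x20624) x20948) x20732) x20840) x20804) x20780) x20788) x40468)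
    (Nat.sub (Nat.sub (Nat.add (Nat.add (Nat.add (Nat.add (Nat.add (Nat.add (Nat.add (Nat.add (Nat.add (Nat.add (Nat.add C (Nat.mul x20788 (nat_lit 2))) x7666) x22246) x20302) x21274) x20626) x20950) x20734) x20842) x20806) x20786) x40470) x1106)
    (Nat.sub (Nat.add (Nat.add (Nat.add (Nat.add (Nat.add (Nat.add (Nat.add (Nat.add (Nat.add C x7676) x22256) x20312) x21284) x20636) x20960) x20852) x20780) x20804) x40480)
    (Nat.sub (Nat.add (Nat.add (Nat.add (Nat.add (Nat.add (Nat.add (Nat.add (Nat.add (Nat.add (Nat.add (Nat.add (Nat.add C x20804) x7682) x22262) x20318) x21290) x20642) x20966) x20858) x20786) x20798) x20810) x20806) x40486)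
    (Nat.sub (Nat.sub (Nat.add (Nat.add (Nat.add (Nat.add (Nat.add (Nat.add (Nat.add (Nat.add (Nat.add (Nat.add (Nat.add C x20806) x7684) x22264) x20320) x21292) x20644) x20968) x20860) x20788) x20812) x20804) x40488) x1124)
    (Nat.sub (Nat.add (Nat.add (Nat.add (Nat.add (Nat.add (Nat.add (Nat.add (Nat.add (Nat.add C x7688) x22268) x20324) x21296) x20648) x20972) x20864) x20804) x20812) x40492)
    (Nat.sub (Nat.sub (Nat.add (Nat.add (Nat.add (Nat.add (Nat.add (Nat.add (Nat.add (Nat.add (Nat.add (Nat.add (Nat.add C (Nat.mul x20812 (nat_lit 2))) x7690) x22270) x20326) x21298) x20650) x20974) x20866) x20806) x20810) x20814) x40494) x1130)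
    (Nat.sub (Nat.add (Nat.add (Nat.add (Nat.add (Nat.add (Nat.add (Nat.add (Nat.add (Nat.add C (Nat.mul x20814 (nat_lit 2))) x7692) x22272) x20328) x21300) x20652) x20976) x20868) x20812) x1132)
    (Nat.sub (Nat.add (Nat.add (Nat.add (Nat.add (Nat.add (Nat.add (Nat.add (Nat.add (Nat.add C x20834) x7712) x22292) x20348) x21320) x20996) x20780) x20852) x20840) x40516)
    (Nat.sub (Nat.sub (Nat.add (Nat.add (Nat.add (Nat.add (Nat.add (Nat.add (Nat.add (Nat.add (Nat.add C x7718) x22298) x20354) x21326) x21002) x20786) x20858) x20834) x20842) x20840) x40522)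
    (Nat.sub (Nat.sub (Nat.add (Nat.add (Nat.add (Nat.add (Nat.add (Nat.add (Nat.add (Nat.add C x7720) x22300) x20356) x21328) x21004) x20788) x20860) x20840) x40524) x1160)
    (Nat.sub (Nat.add (Nat.add (Nat.add (Nat.add (Nat.add (Nat.add (Nat.add (Nat.add (Nat.add C x20852) x7730) x22310) x20366) x21338) x21014) x20798) x20834) x20858) x40534)
    (Nat.sub (Nat.add (Nat.add (Nat.add (Nat.add (Nat.add (Nat.add (Nat.add (Nat.add (Nat.add (Nat.add (Nat.add (Nat.add C x20858) x7736) x22316) x20372) x21344) x21020) x20804) x20840) x20876) x20852) x20864) x20860) x40540)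
    (Nat.sub (Nat.sub (Nat.add (Nat.add (Nat.add (Nat.add (Nat.add (Nat.add (Nat.add (Nat.add (Nat.add (Nat.add (Nat.add C x20860) x7738) x22318) x20374) x21346) x21022) x20806) x20842) x20878) x20866) x20858) x40542) x1178)
    (Nat.sub (Nat.sub (Nat.add (Nat.add (Nat.add (Nat.add (Nat.add (Nat.add (Nat.add (Nat.add (Nat.add C x7742) x22322) x20378) x21350) x21026) x20810) x20882) x20858) x20866) x20864) x40546)
    (Nat.sub (Nat.sub (Nat.add (Nat.add (Nat.add (Nat.add (Nat.add (Nat.add (Nat.add (Nat.add (Nat.add (Nat.add (Nat.add C x20866) x7744) x22324) x20380) x21352) x21028) x20812) x20884) x20860) x20864) x20868) x40548) x1184)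
    (Nat.sub (Nat.add (Nat.add (Nat.add (Nat.add (Nat.add (Nat.add (Nat.add (Nat.add (Nat.add C x20868) x7746) x22326) x20382) x21354) x21030) x20814) x20886) x20866) x1186)
    (Nat.sub (Nat.add (Nat.add (Nat.add (Nat.add (Nat.add (Nat.add (Nat.add (Nat.add (Nat.add C x20876) x7754) x22334) x20390) x21362) x21038) x20858) x20882) x20878) x40558)
    (Nat.sub (Nat.sub (Nat.add (Nat.add (Nat.add (Nat.add (Nat.add (Nat.add (Nat.add (Nat.add C x7756) x22336) x20392) x21364) x21040) x20860) x20884) x20876) x40560) x1196)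
    (Nat.sub (Nat.add (Nat.add (Nat.add (Nat.add (Nat.add (Nat.add (Nat.add (Nat.add (Nat.add C x20882) x7760) x22340) x20396) x21368) x21044) x20864) x20876) x20884) x40564)
    (Nat.sub (Nat.sub (Nat.add (Nat.add (Nat.add (Nat.add (Nat.add (Nat.add (Nat.add (Nat.add (Nat.add (Nat.add (Nat.add C (Nat.mul x20884 (nat_lit 2))) x7762) x22342) x20398) x21370) x21046) x20866) x20878) x20890) x20882) x20886) x40566) x1202)
    (Nat.sub (Nat.add (Nat.add (Nat.add (Nat.add (Nat.add (Nat.add (Nat.add (Nat.add (Nat.add C x20886) x7764) x22344) x20400) x21372) x21048) x20868) x20892) x20884) x1204)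
    (Nat.sub (Nat.sub (Nat.add (Nat.add (Nat.add (Nat.add (Nat.add (Nat.add (Nat.add (Nat.add C (Nat.mul x20890 (nat_lit 2))) x7768) x22348) x20404) x21376) x21052) x20884) x20892) x40572) x1208)
    (Nat.sub (Nat.add (Nat.add (Nat.add (Nat.add (Nat.add (Nat.add (Nat.add (Nat.add C (Nat.mul x20892 (nat_lit 3))) x7770) x22350) x20406) x21378) x21054) x20886) x20890) x1210)
    (Nat.sub (Nat.add (Nat.add (Nat.add (Nat.add (Nat.add (Nat.add C (Nat.mul x20924 (nat_lit 2))) x7802) x22382) x21410) x20762) x20942) x40606)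
    (Nat.sub (Nat.add (Nat.add (Nat.add (Nat.add (Nat.add (Nat.add (Nat.add (Nat.add (Nat.add C x20942) x7820) x22400) x21428) x20780) x20996) x20924) x20960) x20948) x40624)
    (Nat.sub (Nat.add (Nat.add (Nat.add (Nat.add (Nat.add (Nat.add (Nat.add (Nat.add C x7826) x22406) x21434) x20786) x21002) x20966) x20942) x20950) x40630)
    (Nat.sub (Nat.sub (Nat.add (Nat.add (Nat.add (Nat.add (Nat.add (Nat.add (Nat.add (Nat.add C x20950) x7828) x22408) x21436) x20788) x21004) x20968) x20948) x40632) x1268)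
    (Nat.sub (Nat.sub (Nat.add (Nat.add (Nat.add (Nat.add (Nat.add (Nat.add (Nat.add C x7838) x22418) x21446) x20798) x21014) x20942) x20966) (Nat.mul x20960 (nat_lit 2))) x40642)
    (Nat.sub (Nat.sub (Nat.add (Nat.add (Nat.add (Nat.add (Nat.add (Nat.add (Nat.add (Nat.add (Nat.add C x7844) x22424) x21452) x20804) x21020) x20948) x20960) x20972) x20968) x20966) x40648)
    (Nat.sub (Nat.sub (Nat.sub (Nat.add (Nat.add (Nat.add (Nat.add (Nat.add (Nat.add (Nat.add (Nat.add C x7846) x22426) x21454) x20806) x21022) x20950) x20974) x20966) x20968) x40650) x1286)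
    (Nat.sub (Nat.sub (Nat.add (Nat.add (Nat.add (Nat.add (Nat.add (Nat.add (Nat.add C x7850) x22430) x21458) x20810) x21026) x20966) x20974) (Nat.mul x20972 (nat_lit 2))) x40654)
    (Nat.sub (Nat.sub (Nat.add (Nat.add (Nat.add (Nat.add (Nat.add (Nat.add (Nat.add (Nat.add C x7852) x22432) x21460) x20812) x21028) x20968) x20972) x20976) x40656) x1292)
    (Nat.sub (Nat.add (Nat.add (Nat.add (Nat.add (Nat.add (Nat.add C x7854) x22434) x21462) x20814) x21030) x20974) x1294)
    (Nat.sub (Nat.add (Nat.add (Nat.add (Nat.add (Nat.add (Nat.add (Nat.add (Nat.add C (Nat.mul x20996 (nat_lit 2))) x7874) x22454) x21482) x20834) x20942) x21014) x21002) x40678)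
    (Nat.sub (Nat.add (Nat.add (Nat.add (Nat.add (Nat.add (Nat.add (Nat.add (Nat.add C x7880) x22460) x21488) x20840) x20948) x21020) x20996) x21004) x40684)
    (Nat.sub (Nat.sub (Nat.add (Nat.add (Nat.add (Nat.add (Nat.add (Nat.add (Nat.add (Nat.add C x21004) x7882) x22462) x21490) x20842) x20950) x21022) x21002) x40686) x1322)
    (Nat.sub (Nat.add (Nat.add (Nat.add (Nat.add (Nat.add (Nat.add (Nat.add (Nat.add (Nat.add C x21014) x7892) x22472) x21500) x20852) x20960) x21068) x20996) x21020) x40696)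
    (Nat.sub (Nat.add (Nat.add (Nat.add (Nat.add (Nat.add (Nat.add (Nat.add (Nat.add (Nat.add (Nat.add (Nat.add (Nat.add C x21020) x7898) x22478) x21506) x20858) x20966) x21074) x21002) x21038) x21014) x21026) x21022) x40702)
    (Nat.sub (Nat.sub (Nat.add (Nat.add (Nat.add (Nat.add (Nat.add (Nat.add (Nat.add (Nat.add (Nat.add (Nat.add (Nat.add C x21022) x7900) x22480) x21508) x20860) x20968) x21076) x21004) x21040) x21028) x21020) x40704) x1340)
    (Nat.sub (Nat.sub (Nat.add (Nat.add (Nat.add (Nat.add (Nat.add (Nat.add (Nat.add (Nat.add (Nat.add C x7904) x22484) x21512) x20864) x20972) x21080) x21044) x21020) x21028) x21026) x40708)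
    (Nat.sub (Nat.sub (Nat.add (Nat.add (Nat.add (Nat.add (Nat.add (Nat.add (Nat.add (Nat.add (Nat.add (Nat.add (Nat.add C x21028) x7906) x22486) x21514) x20866) x20974) x21082) x21046) x21022) x21026) x21030) x40710) x1346)
    (Nat.sub (Nat.add (Nat.add (Nat.add (Nat.add (Nat.add (Nat.add (Nat.add (Nat.add (Nat.add C x21030) x7908) x22488) x21516) x20868) x20976) x21084) x21048) x21028) x1348)
    (Nat.sub (Nat.add (Nat.add (Nat.add (Nat.add (Nat.add (Nat.add (Nat.add (Nat.add C x7916) x22496) x21524) x20876) x21092) x21020) x21044) x21040) x40720)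
    (Nat.sub (Nat.sub (Nat.sub (Nat.add (Nat.add (Nat.add (Nat.add (Nat.add (Nat.add (Nat.add (Nat.add C x7918) x22498) x21526) x20878) x21094) x21022) x21046) x21038) x21040) x40722) x1358)
    (Nat.sub (Nat.add (Nat.add (Nat.add (Nat.add (Nat.add (Nat.add (Nat.add (Nat.add C x7922) x22502) x21530) x20882) x21098) x21026) x21038) x21046) x40726)
    (Nat.sub (Nat.sub (Nat.add (Nat.add (Nat.add (Nat.add (Nat.add (Nat.add (Nat.add (Nat.add (Nat.add (Nat.add (Nat.add C x21046) x7924) x22504) x21532) x20884) x21100) x21028) x21040) x21052) x21044) x21048) x40728) x1364)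
    (Nat.sub (Nat.add (Nat.add (Nat.add (Nat.add (Nat.add (Nat.add (Nat.add (Nat.add C x7926) x22506) x21534) x20886) x21102) x21030) x21054) x21046) x1366)
    (Nat.sub (Nat.sub (Nat.add (Nat.add (Nat.add (Nat.add (Nat.add (Nat.add (Nat.add (Nat.add C x21052) x7930) x22510) x21538) x20890) x21106) x21046) x21054) x40734) x1370)
    (Nat.sub (Nat.add (Nat.add (Nat.add (Nat.add (Nat.add (Nat.add (Nat.add (Nat.add C (Nat.mul x21054 (nat_lit 2))) x7932) x22512) x21540) x20892) x21108) x21048) x21052) x1372)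
    (Nat.sub (Nat.add (Nat.add (Nat.add (Nat.add (Nat.add (Nat.add C (Nat.mul x21068 (nat_lit 2))) x7946) x22526) x21554) x21014) x21074) x40750)
    (Nat.sub (Nat.add (Nat.add (Nat.add (Nat.add (Nat.add (Nat.add (Nat.add (Nat.add (Nat.add C x21074) x7952) x22532) x21560) x21020) x21092) x21068) x21080) x21076) x40756)
    (Nat.sub (Nat.sub (Nat.add (Nat.add (Nat.add (Nat.add (Nat.add (Nat.add (Nat.add (Nat.add C x21076) x7954) x22534) x21562) x21022) x21094) x21082) x21074) x40758) x1394)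
    (Nat.sub (Nat.sub (Nat.add (Nat.add (Nat.add (Nat.add (Nat.add (Nat.add (Nat.add C x7958) x22538) x21566) x21026) x21098) x21074) x21082) (Nat.mul x21080 (nat_lit 2))) x40762)
    (Nat.sub (Nat.sub (Nat.add (Nat.add (Nat.add (Nat.add (Nat.add (Nat.add (Nat.add (Nat.add C x7960) x22540) x21568) x21028) x21100) x21076) x21080) x21084) x40764) x1400)
    (Nat.sub (Nat.add (Nat.add (Nat.add (Nat.add (Nat.add (Nat.add C x7962) x22542) x21570) x21030) x21102) x21082) x1402)
    (Nat.sub (Nat.add (Nat.add (Nat.add (Nat.add (Nat.add (Nat.add (Nat.add (Nat.add C (Nat.mul x21092 (nat_lit 2))) x7970) x22550) x21578) x21038) x21074) x21098) x21094) x40774)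
    (Nat.sub (Nat.sub (Nat.add (Nat.add (Nat.add (Nat.add (Nat.add (Nat.add (Nat.add (Nat.add C x21094) x7972) x22552) x21580) x21040) x21076) x21100) x21092) x40776) x1412)
    (Nat.sub (Nat.add (Nat.add (Nat.add (Nat.add (Nat.add (Nat.add (Nat.add (Nat.add (Nat.add C x21098) x7976) x22556) x21584) x21044) x21080) x21116) x21092) x21100) x40780)
    (Nat.sub (Nat.sub (Nat.add (Nat.add (Nat.add (Nat.add (Nat.add (Nat.add (Nat.add (Nat.add (Nat.add (Nat.add (Nat.add C (Nat.mul x21100 (nat_lit 2))) x7978) x22558) x21586) x21046) x21082) x21118) x21094) x21106) x21098) x21102) x40782) x1418)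
    (Nat.sub (Nat.add (Nat.add (Nat.add (Nat.add (Nat.add (Nat.add (Nat.add (Nat.add (Nat.add C x21102) x7980) x22560) x21588) x21048) x21084) x21120) x21108) x21100) x1420)
    (Nat.sub (Nat.sub (Nat.add (Nat.add (Nat.add (Nat.add (Nat.add (Nat.add (Nat.add (Nat.add C x21106) x7984) x22564) x21592) x21052) x21124) x21100) x21108) x40788) x1424)
    (Nat.sub (Nat.add (Nat.add (Nat.add (Nat.add (Nat.add (Nat.add (Nat.add (Nat.add C (Nat.mul x21108 (nat_lit 2))) x7986) x22566) x21594) x21054) x21126) x21102) x21106) x1426)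
    (Nat.sub (Nat.add (Nat.add (Nat.add (Nat.add (Nat.add (Nat.add C (Nat.mul x21116 (nat_lit 2))) x7994) x22574) x21602) x21098) x21118) x40798)
    (Nat.sub (Nat.sub (Nat.add (Nat.add (Nat.add (Nat.add (Nat.add (Nat.add (Nat.add (Nat.add C (Nat.mul x21118 (nat_lit 2))) x7996) x22576) x21604) x21100) x21124) x21116) x21120) x40800) x1436)
    (Nat.sub (Nat.add (Nat.add (Nat.add (Nat.add (Nat.add (Nat.add C x7998) x22578) x21606) x21102) x21126) x21118) x1438)
    (Nat.sub (Nat.sub (Nat.add (Nat.add (Nat.add (Nat.add (Nat.add (Nat.add (Nat.add C (Nat.mul x21124 (nat_lit 3))) x8002) x22582) x21610) x21106) x21118) x21126) x40806) x1442)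
    (Nat.sub (Nat.add (Nat.add (Nat.add (Nat.add (Nat.add (Nat.add (Nat.add (Nat.add C (Nat.mul x21126 (nat_lit 3))) x8004) x22584) x21612) x21108) x21120) x21132) x21124) x1444)
    (Nat.sub (Nat.add (Nat.add (Nat.add (Nat.add (Nat.add C (Nat.mul x21132 (nat_lit 4))) x8010) x22590) x21618) x21126) x1450)
    (Nat.sub (Nat.add (Nat.add (Nat.add (Nat.add (Nat.add (Nat.add C (Nat.mul x21194 (nat_lit 2))) x8072) x22652) x20708) x21248) x21212) x40876)
    (Nat.sub (Nat.add (Nat.add (Nat.add (Nat.add (Nat.add (Nat.add C x8090) x22670) x20726) x21266) x21194) x21218) x40894)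
    (Nat.sub (Nat.add (Nat.add (Nat.add (Nat.add (Nat.add (Nat.add C x8096) x22676) x20732) x21272) x21212) x21220) x40900)
    (Nat.sub (Nat.sub (Nat.add (Nat.add (Nat.add (Nat.add (Nat.add (Nat.add C x21220) x8098) x22678) x20734) x21274) x21218) x40902) x1538)
    (Nat.sub (Nat.add (Nat.add (Nat.add (Nat.add (Nat.add (Nat.add C x8126) x22706) x20762) x21410) x21194) x21266) x40930)
    (Nat.sub (Nat.add (Nat.add (Nat.add (Nat.add (Nat.add (Nat.add (Nat.add (Nat.add (Nat.add C x8144) x22724) x20780) x21428) x21212) x21320) x21248) x21284) x21272) x40948)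
    (Nat.sub (Nat.sub (Nat.add (Nat.add (Nat.add (Nat.add (Nat.add (Nat.add (Nat.add (Nat.add (Nat.add C x8150) x22730) x20786) x21434) x21218) x21326) x21290) x21266) x21274) x21272) x40954)
    (Nat.sub (Nat.sub (Nat.add (Nat.add (Nat.add (Nat.add (Nat.add (Nat.add (Nat.add (Nat.add C x8152) x22732) x20788) x21436) x21220) x21328) x21292) x21272) x40956) x1592)
    (Nat.sub (Nat.sub (Nat.add (Nat.add (Nat.add (Nat.add (Nat.add (Nat.add (Nat.add C x8162) x22742) x20798) x21446) x21338) x21266) x21290) (Nat.mul x21284 (nat_lit 2))) x40966)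
    (Nat.sub (Nat.sub (Nat.add (Nat.add (Nat.add (Nat.add (Nat.add (Nat.add (Nat.add (Nat.add (Nat.add C x8168) x22748) x20804) x21452) x21344) x21272) x21284) x21296) x21292) x21290) x40972)
    (Nat.sub (Nat.sub (Nat.sub (Nat.add (Nat.add (Nat.add (Nat.add (Nat.add (Nat.add (Nat.add (Nat.add C x8170) x22750) x20806) x21454) x21346) x21274) x21298) x21290) x21292) x40974) x1610)
    (Nat.sub (Nat.sub (Nat.add (Nat.add (Nat.add (Nat.add (Nat.add (Nat.add (Nat.add C x8174) x22754) x20810) x21458) x21350) x21290) x21298) (Nat.mul x21296 (nat_lit 2))) x40978)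
    (Nat.sub (Nat.sub (Nat.add (Nat.add (Nat.add (Nat.add (Nat.add (Nat.add (Nat.add (Nat.add C x8176) x22756) x20812) x21460) x21352) x21292) x21296) x21300) x40980) x1616)
    (Nat.sub (Nat.add (Nat.add (Nat.add (Nat.add (Nat.add (Nat.add C x8178) x22758) x20814) x21462) x21354) x21298) x1618)
    (Nat.sub (Nat.sub (Nat.add (Nat.add (Nat.add (Nat.add (Nat.add (Nat.add (Nat.add C x8198) x22778) x20834) x21482) x21266) x21338) x21326) (Nat.mul x21320 (nat_lit 2))) x41002)
    (Nat.sub (Nat.sub (Nat.add (Nat.add (Nat.add (Nat.add (Nat.add (Nat.add (Nat.add (Nat.add C x8204) x22784) x20840) x21488) x21272) x21344) x21320) x21328) (Nat.mul x21326 (nat_lit 4))) x41008)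
    (Nat.sub (Nat.sub (Nat.sub (Nat.add (Nat.add (Nat.add (Nat.add (Nat.add (Nat.add (Nat.add C x8206) x22786) x20842) x21490) x21274) x21346) x21326) (Nat.mul x21328 (nat_lit 3))) x41010) x1646)
    (Nat.sub (Nat.sub (Nat.add (Nat.add (Nat.add (Nat.add (Nat.add (Nat.add (Nat.add C x8216) x22796) x20852) x21500) x21284) x21320) x21344) (Nat.mul x21338 (nat_lit 2))) x41020)
    (Nat.sub (Nat.sub (Nat.add (Nat.add (Nat.add (Nat.add (Nat.add (Nat.add (Nat.add (Nat.add (Nat.add (Nat.add C x8222) x22802) x20858) x21506) x21290) x21326) x21362) x21338) x21350) x21346) (Nat.mul x21344 (nat_lit 2))) x41026)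
    (Nat.sub (Nat.sub (Nat.sub (Nat.add (Nat.add (Nat.add (Nat.add (Nat.add (Nat.add (Nat.add (Nat.add (Nat.add C x8224) x22804) x20860) x21508) x21292) x21328) x21364) x21352) x21344) (Nat.mul x21346 (nat_lit 2))) x41028) x1664)
    (Nat.sub (Nat.sub (Nat.add (Nat.add (Nat.add (Nat.add (Nat.add (Nat.add (Nat.add (Nat.add C x8228) x22808) x20864) x21512) x21296) x21368) x21344) x21352) (Nat.mul x21350 (nat_lit 4))) x41032)
    (Nat.sub (Nat.sub (Nat.sub (Nat.add (Nat.add (Nat.add (Nat.add (Nat.add (Nat.add (Nat.add (Nat.add (Nat.add C x8230) x22810) x20866) x21514) x21298) x21370) x21346) x21350) x21354) (Nat.mul x21352 (nat_lit 2))) x41034) x1670)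
    (Nat.sub (Nat.sub (Nat.add (Nat.add (Nat.add (Nat.add (Nat.add (Nat.add (Nat.add C x8232) x22812) x20868) x21516) x21300) x21372) x21352) (Nat.mul x21354 (nat_lit 2))) x1672)
    (Nat.sub (Nat.sub (Nat.add (Nat.add (Nat.add (Nat.add (Nat.add (Nat.add (Nat.add C x8240) x22820) x20876) x21524) x21344) x21368) x21364) (Nat.mul x21362 (nat_lit 2))) x41044)
    (Nat.sub (Nat.sub (Nat.sub (Nat.add (Nat.add (Nat.add (Nat.add (Nat.add (Nat.add (Nat.add C x8242) x22822) x20878) x21526) x21346) x21370) x21362) (Nat.mul x21364 (nat_lit 3))) x41046) x1682)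
    (Nat.sub (Nat.sub (Nat.add (Nat.add (Nat.add (Nat.add (Nat.add (Nat.add (Nat.add C x8246) x22826) x20882) x21530) x21350) x21362) x21370) (Nat.mul x21368 (nat_lit 2))) x41050)
    (Nat.sub (Nat.sub (Nat.sub (Nat.add (Nat.add (Nat.add (Nat.add (Nat.add (Nat.add (Nat.add (Nat.add (Nat.add C x8248) x22828) x20884) x21532) x21352) x21364) x21376) x21368) x21372) x21370) x41052) x1688)
    (Nat.sub (Nat.sub (Nat.add (Nat.add (Nat.add (Nat.add (Nat.add (Nat.add (Nat.add C x8250) x22830) x20886) x21534) x21354) x21378) x21370) (Nat.mul x21372 (nat_lit 2))) x1690)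
    (Nat.sub (Nat.sub (Nat.sub (Nat.add (Nat.add (Nat.add (Nat.add (Nat.add (Nat.add C x8254) x22834) x20890) x21538) x21370) x21378) x21376) x41058) x1694)
    (Nat.sub (Nat.add (Nat.add (Nat.add (Nat.add (Nat.add (Nat.add C x8256) x22836) x20892) x21540) x21372) x21376) x1696)
    (Nat.sub (Nat.add (Nat.add (Nat.add (Nat.add (Nat.add (Nat.add C (Nat.mul x21410 (nat_lit 2))) x8288) x22868) x20924) x21248) x21428) x41092)
    (Nat.sub (Nat.add (Nat.add (Nat.add (Nat.add (Nat.add (Nat.add (Nat.add (Nat.add (Nat.add C x21428) x8306) x22886) x20942) x21266) x21482) x21410) x21446) x21434) x41110)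
    (Nat.sub (Nat.add (Nat.add (Nat.add (Nat.add (Nat.add (Nat.add (Nat.add (Nat.add C x8312) x22892) x20948) x21272) x21488) x21452) x21428) x21436) x41116)
    (Nat.sub (Nat.sub (Nat.add (Nat.add (Nat.add (Nat.add (Nat.add (Nat.add (Nat.add (Nat.add C x21436) x8314) x22894) x20950) x21274) x21490) x21454) x21434) x41118) x1754)
    (Nat.sub (Nat.sub (Nat.add (Nat.add (Nat.add (Nat.add (Nat.add (Nat.add (Nat.add C x8324) x22904) x20960) x21284) x21500) x21428) x21452) (Nat.mul x21446 (nat_lit 2))) x41128)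
    (Nat.sub (Nat.sub (Nat.add (Nat.add (Nat.add (Nat.add (Nat.add (Nat.add (Nat.add (Nat.add (Nat.add C x8330) x22910) x20966) x21290) x21506) x21434) x21446) x21458) x21454) x21452) x41134)
    (Nat.sub (Nat.sub (Nat.sub (Nat.add (Nat.add (Nat.add (Nat.add (Nat.add (Nat.add (Nat.add (Nat.add C x8332) x22912) x20968) x21292) x21508) x21436) x21460) x21452) x21454) x41136) x1772)
    (Nat.sub (Nat.sub (Nat.add (Nat.add (Nat.add (Nat.add (Nat.add (Nat.add (Nat.add C x8336) x22916) x20972) x21296) x21512) x21452) x21460) (Nat.mul x21458 (nat_lit 2))) x41140)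
    (Nat.sub (Nat.sub (Nat.add (Nat.add (Nat.add (Nat.add (Nat.add (Nat.add (Nat.add (Nat.add C x8338) x22918) x20974) x21298) x21514) x21454) x21458) x21462) x41142) x1778)
    (Nat.sub (Nat.add (Nat.add (Nat.add (Nat.add (Nat.add (Nat.add C x8340) x22920) x20976) x21300) x21516) x21460) x1780)
    (Nat.sub (Nat.add (Nat.add (Nat.add (Nat.add (Nat.add (Nat.add (Nat.add (Nat.add (Nat.add C x21482) x8360) x22940) x20996) x21320) x21644) x21428) x21500) x21488) x41164)
    (Nat.sub (Nat.sub (Nat.add (Nat.add (Nat.add (Nat.add (Nat.add (Nat.add (Nat.add (Nat.add (Nat.add C x8366) x22946) x21002) x21326) x21650) x21434) x21506) x21482) x21490) x21488) x41170)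
    (Nat.sub (Nat.sub (Nat.add (Nat.add (Nat.add (Nat.add (Nat.add (Nat.add (Nat.add (Nat.add C x8368) x22948) x21004) x21328) x21652) x21436) x21508) x21488) x41172) x1808)
    (Nat.sub (Nat.add (Nat.add (Nat.add (Nat.add (Nat.add (Nat.add (Nat.add (Nat.add (Nat.add C x8378) x22958) x21014) x21338) x21662) x21446) x21554) x21482) x21506) x41182)
    (Nat.sub (Nat.add (Nat.add (Nat.add (Nat.add (Nat.add (Nat.add (Nat.add (Nat.add (Nat.add (Nat.add (Nat.add (Nat.add C x8384) x22964) x21020) x21344) x21668) x21452) x21560) x21488) x21524) x21500) x21512) x21508) x41188)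
    (Nat.sub (Nat.sub (Nat.add (Nat.add (Nat.add (Nat.add (Nat.add (Nat.add (Nat.add (Nat.add (Nat.add (Nat.add (Nat.add C x8386) x22966) x21022) x21346) x21670) x21454) x21562) x21490) x21526) x21514) x21506) x41190) x1826)
    (Nat.sub (Nat.sub (Nat.add (Nat.add (Nat.add (Nat.add (Nat.add (Nat.add (Nat.add (Nat.add (Nat.add (Nat.add C x8390) x22970) x21026) x21350) x21674) x21458) x21566) x21530) x21506) x21514) (Nat.mul x21512 (nat_lit 2))) x41194)
    (Nat.sub (Nat.sub (Nat.add (Nat.add (Nat.add (Nat.add (Nat.add (Nat.add (Nat.add (Nat.add (Nat.add (Nat.add (Nat.add C x8392) x22972) x21028) x21352) x21676) x21460) x21568) x21532) x21508) x21512) x21516) x41196) x1832)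
    (Nat.sub (Nat.add (Nat.add (Nat.add (Nat.add (Nat.add (Nat.add (Nat.add (Nat.add (Nat.add C x8394) x22974) x21030) x21354) x21678) x21462) x21570) x21534) x21514) x1834)
    (Nat.sub (Nat.sub (Nat.add (Nat.add (Nat.add (Nat.add (Nat.add (Nat.add (Nat.add (Nat.add (Nat.add C x8402) x22982) x21038) x21362) x21686) x21578) x21506) x21530) x21526) x21524) x41206)
    (Nat.sub (Nat.sub (Nat.sub (Nat.add (Nat.add (Nat.add (Nat.add (Nat.add (Nat.add (Nat.add (Nat.add (Nat.add C x8404) x22984) x21040) x21364) x21688) x21580) x21508) x21532) x21524) (Nat.mul x21526 (nat_lit 2))) x41208) x1844)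
    (Nat.sub (Nat.sub (Nat.add (Nat.add (Nat.add (Nat.add (Nat.add (Nat.add (Nat.add (Nat.add (Nat.add C x8408) x22988) x21044) x21368) x21692) x21584) x21512) x21524) x21532) x21530) x41212)
    (Nat.sub (Nat.sub (Nat.add (Nat.add (Nat.add (Nat.add (Nat.add (Nat.add (Nat.add (Nat.add (Nat.add (Nat.add (Nat.add C x8410) x22990) x21046) x21370) x21694) x21586) x21514) x21526) x21538) x21530) x21534) x41214) x1850)
    (Nat.sub (Nat.sub (Nat.add (Nat.add (Nat.add (Nat.add (Nat.add (Nat.add (Nat.add (Nat.add (Nat.add C x8412) x22992) x21048) x21372) x21696) x21588) x21516) x21540) x21532) x21534) x1852)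
    (Nat.sub (Nat.sub (Nat.add (Nat.add (Nat.add (Nat.add (Nat.add (Nat.add (Nat.add (Nat.add C x8416) x22996) x21052) x21376) x21700) x21592) x21532) x21540) x41220) x1856)
    (Nat.sub (Nat.add (Nat.add (Nat.add (Nat.add (Nat.add (Nat.add (Nat.add (Nat.add (Nat.add C x21540) x8418) x22998) x21054) x21378) x21702) x21594) x21534) x21538) x1858)
    (Nat.sub (Nat.add (Nat.add (Nat.add (Nat.add (Nat.add (Nat.add C x8432) x23012) x21068) x21716) x21500) x21560) x41236)
    (Nat.sub (Nat.sub (Nat.add (Nat.add (Nat.add (Nat.add (Nat.add (Nat.add (Nat.add (Nat.add (Nat.add C x8438) x23018) x21074) x21722) x21506) x21578) x21554) x21566) x21562) x21560) x41242)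
    (Nat.sub (Nat.sub (Nat.sub (Nat.add (Nat.add (Nat.add (Nat.add (Nat.add (Nat.add (Nat.add (Nat.add C x8440) x23020) x21076) x21724) x21508) x21580) x21568) x21560) x21562) x41244) x1880)
    (Nat.sub (Nat.sub (Nat.add (Nat.add (Nat.add (Nat.add (Nat.add (Nat.add (Nat.add (Nat.add C x8444) x23024) x21080) x21728) x21512) x21584) x21560) x21568) (Nat.mul x21566 (nat_lit 4))) x41248)
    (Nat.sub (Nat.sub (Nat.sub (Nat.add (Nat.add (Nat.add (Nat.add (Nat.add (Nat.add (Nat.add (Nat.add (Nat.add C x8446) x23026) x21082) x21730) x21514) x21586) x21562) x21566) x21570) (Nat.mul x21568 (nat_lit 2))) x41250) x1886)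
    (Nat.sub (Nat.sub (Nat.add (Nat.add (Nat.add (Nat.add (Nat.add (Nat.add (Nat.add C x8448) x23028) x21084) x21732) x21516) x21588) x21568) (Nat.mul x21570 (nat_lit 2))) x1888)
    (Nat.sub (Nat.add (Nat.add (Nat.add (Nat.add (Nat.add (Nat.add (Nat.add (Nat.add C x8456) x23036) x21092) x21740) x21524) x21560) x21584) x21580) x41260)
    (Nat.sub (Nat.sub (Nat.sub (Nat.add (Nat.add (Nat.add (Nat.add (Nat.add (Nat.add (Nat.add (Nat.add C x8458) x23038) x21094) x21742) x21526) x21562) x21586) x21578) x21580) x41262) x1898)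
    (Nat.sub (Nat.sub (Nat.add (Nat.add (Nat.add (Nat.add (Nat.add (Nat.add (Nat.add (Nat.add (Nat.add C x8462) x23042) x21098) x21746) x21530) x21566) x21602) x21578) x21586) x21584) x41266)
    (Nat.sub (Nat.sub (Nat.add (Nat.add (Nat.add (Nat.add (Nat.add (Nat.add (Nat.add (Nat.add (Nat.add (Nat.add (Nat.add C x8464) x23044) x21100) x21748) x21532) x21568) x21604) x21580) x21592) x21584) x21588) x41268) x1904)
    (Nat.sub (Nat.sub (Nat.add (Nat.add (Nat.add (Nat.add (Nat.add (Nat.add (Nat.add (Nat.add (Nat.add C x8466) x23046) x21102) x21750) x21534) x21570) x21606) x21594) x21586) x21588) x1906)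
    (Nat.sub (Nat.sub (Nat.sub (Nat.add (Nat.add (Nat.add (Nat.add (Nat.add (Nat.add (Nat.add (Nat.add C x8470) x23050) x21106) x21754) x21538) x21610) x21586) x21594) x21592) x41274) x1910)
    (Nat.sub (Nat.add (Nat.add (Nat.add (Nat.add (Nat.add (Nat.add (Nat.add (Nat.add C x8472) x23052) x21108) x21756) x21540) x21612) x21588) x21592) x1912)
    (Nat.sub (Nat.add (Nat.add (Nat.add (Nat.add (Nat.add (Nat.add C x8480) x23060) x21116) x21764) x21584) x21604) x41284)
    (Nat.sub (Nat.sub (Nat.add (Nat.add (Nat.add (Nat.add (Nat.add (Nat.add (Nat.add (Nat.add C x8482) x23062) x21118) x21766) x21586) x21610) x21602) x21606) x41286) x1922)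
    (Nat.sub (Nat.sub (Nat.add (Nat.add (Nat.add (Nat.add (Nat.add (Nat.add (Nat.add C x8484) x23064) x21120) x21768) x21588) x21612) x21604) (Nat.mul x21606 (nat_lit 2))) x1924)
    (Nat.sub (Nat.sub (Nat.add (Nat.add (Nat.add (Nat.add (Nat.add (Nat.add (Nat.add (Nat.add C x21610) x8488) x23068) x21124) x21772) x21592) x21604) x21612) x41292) x1928)
    (Nat.sub (Nat.add (Nat.add (Nat.add (Nat.add (Nat.add (Nat.add (Nat.add (Nat.add (Nat.add C x21612) x8490) x23070) x21126) x21774) x21594) x21606) x21618) x21610) x1930)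
    (Nat.sub (Nat.add (Nat.add (Nat.add (Nat.add (Nat.add (Nat.add C (Nat.mul x21618 (nat_lit 2))) x8496) x23076) x21132) x21780) x21612) x1936)
    (Nat.sub (Nat.add (Nat.add (Nat.add (Nat.add (Nat.add (Nat.add C (Nat.mul x21644 (nat_lit 2))) x8522) x23102) x21482) x21662) x21650) x41326)
    (Nat.sub (Nat.add (Nat.add (Nat.add (Nat.add (Nat.add (Nat.add C x8528) x23108) x21488) x21668) x21644) x21652) x41332)
    (Nat.sub (Nat.sub (Nat.add (Nat.add (Nat.add (Nat.add (Nat.add (Nat.add C x21652) x8530) x23110) x21490) x21670) x21650) x41334) x1970)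
    (Nat.sub (Nat.add (Nat.add (Nat.add (Nat.add (Nat.add (Nat.add C x8540) x23120) x21500) x21716) x21644) x21668) x41344)
    (Nat.sub (Nat.add (Nat.add (Nat.add (Nat.add (Nat.add (Nat.add (Nat.add (Nat.add (Nat.add C x8546) x23126) x21506) x21722) x21650) x21686) x21662) x21674) x21670) x41350)
    (Nat.sub (Nat.sub (Nat.add (Nat.add (Nat.add (Nat.add (Nat.add (Nat.add (Nat.add (Nat.add C x8548) x23128) x21508) x21724) x21652) x21688) x21676) x21668) x41352) x1988)
    (Nat.sub (Nat.sub (Nat.add (Nat.add (Nat.add (Nat.add (Nat.add (Nat.add (Nat.add C x8552) x23132) x21512) x21728) x21692) x21668) x21676) (Nat.mul x21674 (nat_lit 2))) x41356)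
    (Nat.sub (Nat.sub (Nat.add (Nat.add (Nat.add (Nat.add (Nat.add (Nat.add (Nat.add (Nat.add C x8554) x23134) x21514) x21730) x21694) x21670) x21674) x21678) x41358) x1994)
    (Nat.sub (Nat.add (Nat.add (Nat.add (Nat.add (Nat.add (Nat.add C x8556) x23136) x21516) x21732) x21696) x21676) x1996)
    (Nat.sub (Nat.sub (Nat.add (Nat.add (Nat.add (Nat.add (Nat.add (Nat.add (Nat.add C x8564) x23144) x21524) x21740) x21668) x21692) x21688) (Nat.mul x21686 (nat_lit 2))) x41368)
    (Nat.sub (Nat.sub (Nat.sub (Nat.add (Nat.add (Nat.add (Nat.add (Nat.add (Nat.add (Nat.add C x8566) x23146) x21526) x21742) x21670) x21694) x21686) (Nat.mul x21688 (nat_lit 3))) x41370) x2006)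
    (Nat.sub (Nat.sub (Nat.add (Nat.add (Nat.add (Nat.add (Nat.add (Nat.add (Nat.add C x8570) x23150) x21530) x21746) x21674) x21686) x21694) (Nat.mul x21692 (nat_lit 2))) x41374)
    (Nat.sub (Nat.sub (Nat.sub (Nat.add (Nat.add (Nat.add (Nat.add (Nat.add (Nat.add (Nat.add (Nat.add (Nat.add C x8572) x23152) x21532) x21748) x21676) x21688) x21700) x21692) x21696) x21694) x41376) x2012)
    (Nat.sub (Nat.sub (Nat.add (Nat.add (Nat.add (Nat.add (Nat.add (Nat.add (Nat.add C x8574) x23154) x21534) x21750) x21678) x21702) x21694) (Nat.mul x21696 (nat_lit 2))) x2014)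
    (Nat.sub (Nat.sub (Nat.sub (Nat.add (Nat.add (Nat.add (Nat.add (Nat.add (Nat.add C x8578) x23158) x21538) x21754) x21694) x21702) x21700) x41382) x2018)
    (Nat.sub (Nat.add (Nat.add (Nat.add (Nat.add (Nat.add (Nat.add C x8580) x23160) x21540) x21756) x21696) x21700) x2020)
    (Nat.sub (Nat.add (Nat.add (Nat.add (Nat.add (Nat.add (Nat.add C (Nat.mul x21716 (nat_lit 2))) x8594) x23174) x21554) x21662) x21722) x41398)
    (Nat.sub (Nat.add (Nat.add (Nat.add (Nat.add (Nat.add (Nat.add (Nat.add (Nat.add (Nat.add C x21722) x8600) x23180) x21560) x21668) x21740) x21716) x21728) x21724) x41404)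
    (Nat.sub (Nat.sub (Nat.add (Nat.add (Nat.add (Nat.add (Nat.add (Nat.add (Nat.add (Nat.add C x21724) x8602) x23182) x21562) x21670) x21742) x21730) x21722) x41406) x2042)
    (Nat.sub (Nat.sub (Nat.add (Nat.add (Nat.add (Nat.add (Nat.add (Nat.add (Nat.add C x8606) x23186) x21566) x21674) x21746) x21722) x21730) (Nat.mul x21728 (nat_lit 2))) x41410)
    (Nat.sub (Nat.sub (Nat.add (Nat.add (Nat.add (Nat.add (Nat.add (Nat.add (Nat.add (Nat.add C x8608) x23188) x21568) x21676) x21748) x21724) x21728) x21732) x41412) x2048)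
    (Nat.sub (Nat.add (Nat.add (Nat.add (Nat.add (Nat.add (Nat.add C x8610) x23190) x21570) x21678) x21750) x21730) x2050)
    (Nat.sub (Nat.add (Nat.add (Nat.add (Nat.add (Nat.add (Nat.add (Nat.add (Nat.add (Nat.add C x21740) x8618) x23198) x21578) x21686) x21794) x21722) x21746) x21742) x41422)
    (Nat.sub (Nat.sub (Nat.add (Nat.add (Nat.add (Nat.add (Nat.add (Nat.add (Nat.add (Nat.add C x8620) x23200) x21580) x21688) x21796) x21724) x21748) x21740) x41424) x2060)
    (Nat.sub (Nat.add (Nat.add (Nat.add (Nat.add (Nat.add (Nat.add (Nat.add (Nat.add (Nat.add C x8624) x23204) x21584) x21692) x21800) x21728) x21764) x21740) x21748) x41428)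
    (Nat.sub (Nat.sub (Nat.add (Nat.add (Nat.add (Nat.add (Nat.add (Nat.add (Nat.add (Nat.add (Nat.add (Nat.add (Nat.add (Nat.add C x21748) x8626) x23206) x21586) x21694) x21802) x21730) x21766) x21742) x21754) x21746) x21750) x41430) x2066)
    (Nat.sub (Nat.add (Nat.add (Nat.add (Nat.add (Nat.add (Nat.add (Nat.add (Nat.add (Nat.add C x8628) x23208) x21588) x21696) x21804) x21732) x21768) x21756) x21748) x2068)
    (Nat.sub (Nat.sub (Nat.add (Nat.add (Nat.add (Nat.add (Nat.add (Nat.add (Nat.add (Nat.add C x8632) x23212) x21592) x21700) x21808) x21772) x21748) x21756) x41436) x2072)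
    (Nat.sub (Nat.add (Nat.add (Nat.add (Nat.add (Nat.add (Nat.add (Nat.add (Nat.add (Nat.add C x21756) x8634) x23214) x21594) x21702) x21810) x21774) x21750) x21754) x2074)
    (Nat.sub (Nat.add (Nat.add (Nat.add (Nat.add (Nat.add (Nat.add C x8642) x23222) x21602) x21818) x21746) x21766) x41446)
    (Nat.sub (Nat.sub (Nat.add (Nat.add (Nat.add (Nat.add (Nat.add (Nat.add (Nat.add (Nat.add C x8644) x23224) x21604) x21820) x21748) x21772) x21764) x21768) x41448) x2084)
    (Nat.sub (Nat.sub (Nat.add (Nat.add (Nat.add (Nat.add (Nat.add (Nat.add (Nat.add C x8646) x23226) x21606) x21822) x21750) x21774) x21766) (Nat.mul x21768 (nat_lit 2))) x2086)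
    (Nat.sub (Nat.sub (Nat.add (Nat.add (Nat.add (Nat.add (Nat.add (Nat.add (Nat.add (Nat.add C x21772) x8650) x23230) x21610) x21826) x21754) x21766) x21774) x41454) x2090)
    (Nat.sub (Nat.add (Nat.add (Nat.add (Nat.add (Nat.add (Nat.add (Nat.add (Nat.add (Nat.add C x21774) x8652) x23232) x21612) x21828) x21756) x21768) x21780) x21772) x2092)
    (Nat.sub (Nat.add (Nat.add (Nat.add (Nat.add (Nat.add (Nat.add C (Nat.mul x21780 (nat_lit 2))) x8658) x23238) x21618) x21834) x21774) x2098)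
    (Nat.sub (Nat.add (Nat.add (Nat.add (Nat.add (Nat.add (Nat.add C (Nat.mul x21794 (nat_lit 2))) x8672) x23252) x21740) x21800) x21796) x41476)
    (Nat.sub (Nat.sub (Nat.add (Nat.add (Nat.add (Nat.add (Nat.add (Nat.add C x21796) x8674) x23254) x21742) x21802) x21794) x41478) x2114)
    (Nat.sub (Nat.add (Nat.add (Nat.add (Nat.add (Nat.add (Nat.add C x8678) x23258) x21746) x21818) x21794) x21802) x41482)
    (Nat.sub (Nat.sub (Nat.add (Nat.add (Nat.add (Nat.add (Nat.add (Nat.add (Nat.add (Nat.add (Nat.add C x21802) x8680) x23260) x21748) x21820) x21796) x21808) x21800) x21804) x41484) x2120)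
    (Nat.sub (Nat.add (Nat.add (Nat.add (Nat.add (Nat.add (Nat.add C x8682) x23262) x21750) x21822) x21810) x21802) x2122)
    (Nat.sub (Nat.sub (Nat.sub (Nat.add (Nat.add (Nat.add (Nat.add (Nat.add (Nat.add C x8686) x23266) x21754) x21826) x21802) x21810) x21808) x41490) x2126)
    (Nat.sub (Nat.add (Nat.add (Nat.add (Nat.add (Nat.add (Nat.add C x8688) x23268) x21756) x21828) x21804) x21808) x2128)
    (Nat.sub (Nat.add (Nat.add (Nat.add (Nat.add (Nat.add (Nat.add C (Nat.mul x21818 (nat_lit 2))) x8696) x23276) x21764) x21800) x21820) x41500)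
    (Nat.sub (Nat.sub (Nat.add (Nat.add (Nat.add (Nat.add (Nat.add (Nat.add (Nat.add (Nat.add C (Nat.mul x21820 (nat_lit 2))) x8698) x23278) x21766) x21802) x21826) x21818) x21822) x41502) x2138)
    (Nat.sub (Nat.add (Nat.add (Nat.add (Nat.add (Nat.add (Nat.add C x8700) x23280) x21768) x21804) x21828) x21820) x2140)
    (Nat.sub (Nat.sub (Nat.add (Nat.add (Nat.add (Nat.add (Nat.add (Nat.add (Nat.add (Nat.add C (Nat.mul x21826 (nat_lit 2))) x8704) x23284) x21772) x21808) x21844) x21820) x21828) x41508) x2144)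
    (Nat.sub (Nat.add (Nat.add (Nat.add (Nat.add (Nat.add (Nat.add (Nat.add (Nat.add (Nat.add C (Nat.mul x21828 (nat_lit 2))) x8706) x23286) x21774) x21810) x21846) x21822) x21834) x21826) x2146)
    (Nat.sub (Nat.add (Nat.add (Nat.add (Nat.add (Nat.add (Nat.add C (Nat.mul x21834 (nat_lit 2))) x8712) x23292) x21780) x21852) x21828) x2152)
    (Nat.sub (Nat.sub (Nat.add (Nat.add (Nat.add (Nat.add (Nat.add C (Nat.mul x21844 (nat_lit 3))) x8722) x23302) x21826) x21846) x41526) x2162)
    (Nat.sub (Nat.add (Nat.add (Nat.add (Nat.add (Nat.add (Nat.add C (Nat.mul x21846 (nat_lit 2))) x8724) x23304) x21828) x21852) x21844) x2164)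
    (Nat.sub (Nat.add (Nat.add (Nat.add (Nat.add (Nat.add C (Nat.mul x21852 (nat_lit 4))) x8730) x23310) x21834) x21846) x2170)
    (Nat.sub (Nat.add (Nat.add (Nat.add (Nat.add (Nat.add C (Nat.mul x21950 (nat_lit 4))) x8828) x26324) x20492) x22004) x41632)
    (Nat.sub (Nat.add (Nat.add (Nat.add (Nat.add (Nat.add (Nat.add (Nat.add (Nat.add C (Nat.mul x22004 (nat_lit 3))) x8882) x26378) x20546) x22166) x21950) x22058) x22022) x41686)
    (Nat.sub (Nat.add (Nat.add (Nat.add (Nat.add (Nat.add (Nat.add (Nat.add (Nat.add C (Nat.mul x22022 (nat_lit 2))) x8900) x26396) x20564) x22184) x22076) x22004) x22028) x41704)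
    (Nat.sub (Nat.add (Nat.add (Nat.add (Nat.add (Nat.add (Nat.add (Nat.add (Nat.add C (Nat.mul x22028 (nat_lit 2))) x8906) x26402) x20570) x22190) x22082) x22022) x22030) x41710)
    (Nat.sub (Nat.sub (Nat.add (Nat.add (Nat.add (Nat.add (Nat.add (Nat.add (Nat.add C (Nat.mul x22030 (nat_lit 3))) x8908) x26404) x20572) x22192) x22084) x22028) x41712) x2348)
    (Nat.sub (Nat.add (Nat.add (Nat.add (Nat.add (Nat.add (Nat.add C x8936) x26432) x20600) x22220) x22004) x22076) x41740)
    (Nat.sub (Nat.add (Nat.add (Nat.add (Nat.add (Nat.add (Nat.add (Nat.add (Nat.add (Nat.add C x22076) x8954) x26450) x20618) x22238) x22022) x22058) x22094) x22082) x41758)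
    (Nat.sub (Nat.add (Nat.add (Nat.add (Nat.add (Nat.add (Nat.add (Nat.add (Nat.add C x8960) x26456) x20624) x22244) x22028) x22100) x22076) x22084) x41764)
    (Nat.sub (Nat.sub (Nat.add (Nat.add (Nat.add (Nat.add (Nat.add (Nat.add (Nat.add (Nat.add C x22084) x8962) x26458) x20626) x22246) x22030) x22102) x22082) x41766) x2402)
    (Nat.sub (Nat.add (Nat.add (Nat.add (Nat.add (Nat.add (Nat.add C x8972) x26468) x20636) x22256) x22076) x22100) x41776)
    (Nat.sub (Nat.add (Nat.add (Nat.add (Nat.add (Nat.add (Nat.add (Nat.add (Nat.add (Nat.add C x22100) x8978) x26474) x20642) x22262) x22082) x22094) x22106) x22102) x41782)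
    (Nat.sub (Nat.sub (Nat.add (Nat.add (Nat.add (Nat.add (Nat.add (Nat.add (Nat.add (Nat.add C x22102) x8980) x26476) x20644) x22264) x22084) x22108) x22100) x41784) x2420)
    (Nat.sub (Nat.add (Nat.add (Nat.add (Nat.add (Nat.add (Nat.add C x8984) x26480) x20648) x22268) x22100) x22108) x41788)
    (Nat.sub (Nat.sub (Nat.add (Nat.add (Nat.add (Nat.add (Nat.add (Nat.add (Nat.add (Nat.add C (Nat.mul x22108 (nat_lit 2))) x8986) x26482) x20650) x22270) x22102) x22106) x22110) x41790) x2426)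
    (Nat.sub (Nat.add (Nat.add (Nat.add (Nat.add (Nat.add (Nat.add C (Nat.mul x22110 (nat_lit 2))) x8988) x26484) x20652) x22272) x22108) x2428)
    (Nat.sub (Nat.add (Nat.add (Nat.add (Nat.add (Nat.add (Nat.add (Nat.add (Nat.add C (Nat.mul x22166 (nat_lit 2))) x9044) x26540) x20708) x22652) x22004) x22220) x22184) x41848)
    (Nat.sub (Nat.add (Nat.add (Nat.add (Nat.add (Nat.add (Nat.add (Nat.add (Nat.add C x9062) x26558) x20726) x22670) x22022) x22238) x22166) x22190) x41866)
    (Nat.sub (Nat.add (Nat.add (Nat.add (Nat.add (Nat.add (Nat.add (Nat.add (Nat.add C x9068) x26564) x20732) x22676) x22028) x22244) x22184) x22192) x41872)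
    (Nat.sub (Nat.sub (Nat.add (Nat.add (Nat.add (Nat.add (Nat.add (Nat.add (Nat.add (Nat.add C x22192) x9070) x26566) x20734) x22678) x22030) x22246) x22190) x41874) x2510)
    (Nat.sub (Nat.add (Nat.add (Nat.add (Nat.add (Nat.add (Nat.add (Nat.add (Nat.add (Nat.add C x22220) x9098) x26594) x20762) x22706) x22058) x22382) x22166) x22238) x41902)
    (Nat.sub (Nat.add (Nat.add (Nat.add (Nat.add (Nat.add (Nat.add (Nat.add (Nat.add (Nat.add (Nat.add (Nat.add (Nat.add C x22238) x9116) x26612) x20780) x22724) x22076) x22400) x22184) x22292) x22220) x22256) x22244) x41920)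
    (Nat.sub (Nat.add (Nat.add (Nat.add (Nat.add (Nat.add (Nat.add (Nat.add (Nat.add (Nat.add (Nat.add (Nat.add C x9122) x26618) x20786) x22730) x22082) x22406) x22190) x22298) x22262) x22238) x22246) x41926)
    (Nat.sub (Nat.sub (Nat.add (Nat.add (Nat.add (Nat.add (Nat.add (Nat.add (Nat.add (Nat.add (Nat.add (Nat.add (Nat.add C x22246) x9124) x26620) x20788) x22732) x22084) x22408) x22192) x22300) x22264) x22244) x41928) x2564)
    (Nat.sub (Nat.sub (Nat.add (Nat.add (Nat.add (Nat.add (Nat.add (Nat.add (Nat.add (Nat.add (Nat.add C x9134) x26630) x20798) x22742) x22094) x22418) x22310) x22238) x22262) x22256) x41938)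
    (Nat.sub (Nat.add (Nat.add (Nat.add (Nat.add (Nat.add (Nat.add (Nat.add (Nat.add (Nat.add (Nat.add (Nat.add C x9140) x26636) x20804) x22748) x22100) x22424) x22316) x22244) x22256) x22268) x22264) x41944)
    (Nat.sub (Nat.sub (Nat.add (Nat.add (Nat.add (Nat.add (Nat.add (Nat.add (Nat.add (Nat.add (Nat.add (Nat.add C x9142) x26638) x20806) x22750) x22102) x22426) x22318) x22246) x22270) x22262) x41946) x2582)
    (Nat.sub (Nat.sub (Nat.add (Nat.add (Nat.add (Nat.add (Nat.add (Nat.add (Nat.add (Nat.add (Nat.add C x9146) x26642) x20810) x22754) x22106) x22430) x22322) x22262) x22270) x22268) x41950)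
    (Nat.sub (Nat.sub (Nat.add (Nat.add (Nat.add (Nat.add (Nat.add (Nat.add (Nat.add (Nat.add (Nat.add (Nat.add (Nat.add C x22270) x9148) x26644) x20812) x22756) x22108) x22432) x22324) x22264) x22268) x22272) x41952) x2588)
    (Nat.sub (Nat.add (Nat.add (Nat.add (Nat.add (Nat.add (Nat.add (Nat.add (Nat.add (Nat.add C x22272) x9150) x26646) x20814) x22758) x22110) x22434) x22326) x22270) x2590)
    (Nat.sub (Nat.add (Nat.add (Nat.add (Nat.add (Nat.add (Nat.add (Nat.add (Nat.add C x9170) x26666) x20834) x22778) x22454) x22238) x22310) x22298) x41974)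
    (Nat.sub (Nat.sub (Nat.add (Nat.add (Nat.add (Nat.add (Nat.add (Nat.add (Nat.add (Nat.add (Nat.add C x9176) x26672) x20840) x22784) x22460) x22244) x22316) x22292) x22300) (Nat.mul x22298 (nat_lit 2))) x41980)
    (Nat.sub (Nat.sub (Nat.sub (Nat.add (Nat.add (Nat.add (Nat.add (Nat.add (Nat.add (Nat.add (Nat.add C x9178) x26674) x20842) x22786) x22462) x22246) x22318) x22298) x22300) x41982) x2618)
    (Nat.sub (Nat.add (Nat.add (Nat.add (Nat.add (Nat.add (Nat.add (Nat.add (Nat.add C x9188) x26684) x20852) x22796) x22472) x22256) x22292) x22316) x41992)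
    (Nat.sub (Nat.add (Nat.add (Nat.add (Nat.add (Nat.add (Nat.add (Nat.add (Nat.add (Nat.add (Nat.add (Nat.add C x9194) x26690) x20858) x22802) x22478) x22262) x22298) x22334) x22310) x22322) x22318) x41998)
    (Nat.sub (Nat.sub (Nat.add (Nat.add (Nat.add (Nat.add (Nat.add (Nat.add (Nat.add (Nat.add (Nat.add (Nat.add C x9196) x26692) x20860) x22804) x22480) x22264) x22300) x22336) x22324) x22316) x42000) x2636)
    (Nat.sub (Nat.sub (Nat.add (Nat.add (Nat.add (Nat.add (Nat.add (Nat.add (Nat.add (Nat.add (Nat.add C x9200) x26696) x20864) x22808) x22484) x22268) x22340) x22316) x22324) (Nat.mul x22322 (nat_lit 2))) x42004)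
    (Nat.sub (Nat.sub (Nat.add (Nat.add (Nat.add (Nat.add (Nat.add (Nat.add (Nat.add (Nat.add (Nat.add (Nat.add C x9202) x26698) x20866) x22810) x22486) x22270) x22342) x22318) x22322) x22326) x42006) x2642)
    (Nat.sub (Nat.add (Nat.add (Nat.add (Nat.add (Nat.add (Nat.add (Nat.add (Nat.add C x9204) x26700) x20868) x22812) x22488) x22272) x22344) x22324) x2644)
    (Nat.sub (Nat.add (Nat.add (Nat.add (Nat.add (Nat.add (Nat.add (Nat.add (Nat.add C x9212) x26708) x20876) x22820) x22496) x22316) x22340) x22336) x42016)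
    (Nat.sub (Nat.sub (Nat.sub (Nat.add (Nat.add (Nat.add (Nat.add (Nat.add (Nat.add (Nat.add (Nat.add C x9214) x26710) x20878) x22822) x22498) x22318) x22342) x22334) x22336) x42018) x2654)
    (Nat.sub (Nat.add (Nat.add (Nat.add (Nat.add (Nat.add (Nat.add (Nat.add (Nat.add C x9218) x26714) x20882) x22826) x22502) x22322) x22334) x22342) x42022)
    (Nat.sub (Nat.sub (Nat.add (Nat.add (Nat.add (Nat.add (Nat.add (Nat.add (Nat.add (Nat.add (Nat.add (Nat.add (Nat.add C x22342) x9220) x26716) x20884) x22828) x22504) x22324) x22336) x22348) x22340) x22344) x42024) x2660)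
    (Nat.sub (Nat.add (Nat.add (Nat.add (Nat.add (Nat.add (Nat.add (Nat.add (Nat.add C x9222) x26718) x20886) x22830) x22506) x22326) x22350) x22342) x2662)
    (Nat.sub (Nat.sub (Nat.add (Nat.add (Nat.add (Nat.add (Nat.add (Nat.add (Nat.add (Nat.add C x22348) x9226) x26722) x20890) x22834) x22510) x22342) x22350) x42030) x2666)
    (Nat.sub (Nat.add (Nat.add (Nat.add (Nat.add (Nat.add (Nat.add (Nat.add (Nat.add C (Nat.mul x22350 (nat_lit 2))) x9228) x26724) x20892) x22836) x22512) x22344) x22348) x2668)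
    (Nat.sub (Nat.add (Nat.add (Nat.add (Nat.add (Nat.add (Nat.add C x9260) x26756) x20924) x22868) x22220) x22400) x42064)
    (Nat.sub (Nat.sub (Nat.add (Nat.add (Nat.add (Nat.add (Nat.add (Nat.add (Nat.add (Nat.add (Nat.add C x9278) x26774) x20942) x22886) x22238) x22454) x22382) x22418) x22406) x22400) x42082)
    (Nat.sub (Nat.sub (Nat.add (Nat.add (Nat.add (Nat.add (Nat.add (Nat.add (Nat.add (Nat.add (Nat.add C x9284) x26780) x20948) x22892) x22244) x22460) x22424) x22400) x22408) (Nat.mul x22406 (nat_lit 2))) x42088)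
    (Nat.sub (Nat.sub (Nat.sub (Nat.add (Nat.add (Nat.add (Nat.add (Nat.add (Nat.add (Nat.add (Nat.add C x9286) x26782) x20950) x22894) x22246) x22462) x22426) x22406) x22408) x42090) x2726)
    (Nat.sub (Nat.sub (Nat.add (Nat.add (Nat.add (Nat.add (Nat.add (Nat.add (Nat.add (Nat.add C x9296) x26792) x20960) x22904) x22256) x22472) x22400) x22424) (Nat.mul x22418 (nat_lit 4))) x42100)
    (Nat.sub (Nat.sub (Nat.add (Nat.add (Nat.add (Nat.add (Nat.add (Nat.add (Nat.add (Nat.add (Nat.add (Nat.add C x9302) x26798) x20966) x22910) x22262) x22478) x22406) x22418) x22430) x22426) (Nat.mul x22424 (nat_lit 3))) x42106)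
    (Nat.sub (Nat.sub (Nat.sub (Nat.add (Nat.add (Nat.add (Nat.add (Nat.add (Nat.add (Nat.add (Nat.add (Nat.add C x9304) x26800) x20968) x22912) x22264) x22480) x22408) x22432) x22424) (Nat.mul x22426 (nat_lit 3))) x42108) x2744)
    (Nat.sub (Nat.sub (Nat.add (Nat.add (Nat.add (Nat.add (Nat.add (Nat.add (Nat.add (Nat.add C x9308) x26804) x20972) x22916) x22268) x22484) x22424) x22432) (Nat.mul x22430 (nat_lit 4))) x42112)
    (Nat.sub (Nat.sub (Nat.sub (Nat.add (Nat.add (Nat.add (Nat.add (Nat.add (Nat.add (Nat.add (Nat.add (Nat.add C x9310) x26806) x20974) x22918) x22270) x22486) x22426) x22430) x22434) (Nat.mul x22432 (nat_lit 2))) x42114) x2750)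
    (Nat.sub (Nat.sub (Nat.add (Nat.add (Nat.add (Nat.add (Nat.add (Nat.add (Nat.add C x9312) x26808) x20976) x22920) x22272) x22488) x22432) (Nat.mul x22434 (nat_lit 2))) x2752)
    (Nat.sub (Nat.add (Nat.add (Nat.add (Nat.add (Nat.add (Nat.add (Nat.add (Nat.add C x9332) x26828) x20996) x22940) x22292) x22400) x22472) x22460) x42136)
    (Nat.sub (Nat.sub (Nat.add (Nat.add (Nat.add (Nat.add (Nat.add (Nat.add (Nat.add (Nat.add (Nat.add C x9338) x26834) x21002) x22946) x22298) x22406) x22478) x22454) x22462) (Nat.mul x22460 (nat_lit 2))) x42142)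
    (Nat.sub (Nat.sub (Nat.sub (Nat.add (Nat.add (Nat.add (Nat.add (Nat.add (Nat.add (Nat.add (Nat.add C x9340) x26836) x21004) x22948) x22300) x22408) x22480) x22460) x22462) x42144) x2780)
    (Nat.sub (Nat.sub (Nat.add (Nat.add (Nat.add (Nat.add (Nat.add (Nat.add (Nat.add (Nat.add (Nat.add C x9350) x26846) x21014) x22958) x22310) x22418) x22526) x22454) x22478) x22472) x42154)
    (Nat.sub (Nat.sub (Nat.add (Nat.add (Nat.add (Nat.add (Nat.add (Nat.add (Nat.add (Nat.add (Nat.add (Nat.add (Nat.add (Nat.add C x9356) x26852) x21020) x22964) x22316) x22424) x22532) x22460) x22496) x22472) x22484) x22480) x22478) x42160)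
    (Nat.sub (Nat.sub (Nat.sub (Nat.add (Nat.add (Nat.add (Nat.add (Nat.add (Nat.add (Nat.add (Nat.add (Nat.add (Nat.add (Nat.add C x9358) x26854) x21022) x22966) x22318) x22426) x22534) x22462) x22498) x22486) x22478) x22480) x42162) x2798)
    (Nat.sub (Nat.sub (Nat.add (Nat.add (Nat.add (Nat.add (Nat.add (Nat.add (Nat.add (Nat.add (Nat.add (Nat.add C x9362) x26858) x21026) x22970) x22322) x22430) x22538) x22502) x22478) x22486) (Nat.mul x22484 (nat_lit 3))) x42166)
    (Nat.sub (Nat.sub (Nat.sub (Nat.add (Nat.add (Nat.add (Nat.add (Nat.add (Nat.add (Nat.add (Nat.add (Nat.add (Nat.add (Nat.add C x9364) x26860) x21028) x22972) x22324) x22432) x22540) x22504) x22480) x22484) x22488) x22486) x42168) x2804)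
    (Nat.sub (Nat.sub (Nat.add (Nat.add (Nat.add (Nat.add (Nat.add (Nat.add (Nat.add (Nat.add (Nat.add C x9366) x26862) x21030) x22974) x22326) x22434) x22542) x22506) x22486) x22488) x2806)
    (Nat.sub (Nat.sub (Nat.add (Nat.add (Nat.add (Nat.add (Nat.add (Nat.add (Nat.add (Nat.add (Nat.add C x9374) x26870) x21038) x22982) x22334) x22550) x22478) x22502) x22498) (Nat.mul x22496 (nat_lit 2))) x42178)
    (Nat.sub (Nat.sub (Nat.sub (Nat.add (Nat.add (Nat.add (Nat.add (Nat.add (Nat.add (Nat.add (Nat.add (Nat.add C x9376) x26872) x21040) x22984) x22336) x22552) x22480) x22504) x22496) (Nat.mul x22498 (nat_lit 3))) x42180) x2816)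
    (Nat.sub (Nat.sub (Nat.add (Nat.add (Nat.add (Nat.add (Nat.add (Nat.add (Nat.add (Nat.add (Nat.add C x9380) x26876) x21044) x22988) x22340) x22556) x22484) x22496) x22504) (Nat.mul x22502 (nat_lit 2))) x42184)
    (Nat.sub (Nat.sub (Nat.sub (Nat.add (Nat.add (Nat.add (Nat.add (Nat.add (Nat.add (Nat.add (Nat.add (Nat.add (Nat.add (Nat.add C x9382) x26878) x21046) x22990) x22342) x22558) x22486) x22498) x22510) x22502) x22506) x22504) x42186) x2822)
    (Nat.sub (Nat.sub (Nat.add (Nat.add (Nat.add (Nat.add (Nat.add (Nat.add (Nat.add (Nat.add (Nat.add C x9384) x26880) x21048) x22992) x22344) x22560) x22488) x22512) x22504) (Nat.mul x22506 (nat_lit 2))) x2824)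
    (Nat.sub (Nat.sub (Nat.sub (Nat.add (Nat.add (Nat.add (Nat.add (Nat.add (Nat.add (Nat.add (Nat.add C x9388) x26884) x21052) x22996) x22348) x22564) x22504) x22512) x22510) x42192) x2828)
    (Nat.sub (Nat.add (Nat.add (Nat.add (Nat.add (Nat.add (Nat.add (Nat.add (Nat.add C x9390) x26886) x21054) x22998) x22350) x22566) x22506) x22510) x2830)
    (Nat.sub (Nat.add (Nat.add (Nat.add (Nat.add (Nat.add (Nat.add C x9404) x26900) x21068) x23012) x22472) x22532) x42208)
    (Nat.sub (Nat.sub (Nat.add (Nat.add (Nat.add (Nat.add (Nat.add (Nat.add (Nat.add (Nat.add (Nat.add C x9410) x26906) x21074) x23018) x22478) x22550) x22526) x22538) x22534) x22532) x42214)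
    (Nat.sub (Nat.sub (Nat.sub (Nat.add (Nat.add (Nat.add (Nat.add (Nat.add (Nat.add (Nat.add (Nat.add C x9412) x26908) x21076) x23020) x22480) x22552) x22540) x22532) x22534) x42216) x2852)
    (Nat.sub (Nat.sub (Nat.add (Nat.add (Nat.add (Nat.add (Nat.add (Nat.add (Nat.add (Nat.add C x9416) x26912) x21080) x23024) x22484) x22556) x22532) x22540) (Nat.mul x22538 (nat_lit 4))) x42220)
    (Nat.sub (Nat.sub (Nat.sub (Nat.add (Nat.add (Nat.add (Nat.add (Nat.add (Nat.add (Nat.add (Nat.add (Nat.add C x9418) x26914) x21082) x23026) x22486) x22558) x22534) x22538) x22542) (Nat.mul x22540 (nat_lit 2))) x42222) x2858)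
    (Nat.sub (Nat.sub (Nat.add (Nat.add (Nat.add (Nat.add (Nat.add (Nat.add (Nat.add C x9420) x26916) x21084) x23028) x22488) x22560) x22540) (Nat.mul x22542 (nat_lit 2))) x2860)
    (Nat.sub (Nat.add (Nat.add (Nat.add (Nat.add (Nat.add (Nat.add (Nat.add (Nat.add C x9428) x26924) x21092) x23036) x22496) x22532) x22556) x22552) x42232)
    (Nat.sub (Nat.sub (Nat.sub (Nat.add (Nat.add (Nat.add (Nat.add (Nat.add (Nat.add (Nat.add (Nat.add C x9430) x26926) x21094) x23038) x22498) x22534) x22558) x22550) x22552) x42234) x2870)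
    (Nat.sub (Nat.sub (Nat.add (Nat.add (Nat.add (Nat.add (Nat.add (Nat.add (Nat.add (Nat.add (Nat.add C x9434) x26930) x21098) x23042) x22502) x22538) x22574) x22550) x22558) x22556) x42238)
    (Nat.sub (Nat.sub (Nat.add (Nat.add (Nat.add (Nat.add (Nat.add (Nat.add (Nat.add (Nat.add (Nat.add (Nat.add (Nat.add C x9436) x26932) x21100) x23044) x22504) x22540) x22576) x22552) x22564) x22556) x22560) x42240) x2876)
    (Nat.sub (Nat.sub (Nat.add (Nat.add (Nat.add (Nat.add (Nat.add (Nat.add (Nat.add (Nat.add (Nat.add C x9438) x26934) x21102) x23046) x22506) x22542) x22578) x22566) x22558) x22560) x2878)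
    (Nat.sub (Nat.sub (Nat.sub (Nat.add (Nat.add (Nat.add (Nat.add (Nat.add (Nat.add (Nat.add (Nat.add C x9442) x26938) x21106) x23050) x22510) x22582) x22558) x22566) x22564) x42246) x2882)
    (Nat.sub (Nat.add (Nat.add (Nat.add (Nat.add (Nat.add (Nat.add (Nat.add (Nat.add C x9444) x26940) x21108) x23052) x22512) x22584) x22560) x22564) x2884)
    (Nat.sub (Nat.add (Nat.add (Nat.add (Nat.add (Nat.add (Nat.add C x9452) x26948) x21116) x23060) x22556) x22576) x42256)
    (Nat.sub (Nat.sub (Nat.add (Nat.add (Nat.add (Nat.add (Nat.add (Nat.add (Nat.add (Nat.add C x9454) x26950) x21118) x23062) x22558) x22582) x22574) x22578) x42258) x2894)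
    (Nat.sub (Nat.sub (Nat.add (Nat.add (Nat.add (Nat.add (Nat.add (Nat.add (Nat.add C x9456) x26952) x21120) x23064) x22560) x22584) x22576) (Nat.mul x22578 (nat_lit 2))) x2896)
    (Nat.sub (Nat.sub (Nat.add (Nat.add (Nat.add (Nat.add (Nat.add (Nat.add (Nat.add (Nat.add C x22582) x9460) x26956) x21124) x23068) x22564) x22576) x22584) x42264) x2900)
    (Nat.sub (Nat.add (Nat.add (Nat.add (Nat.add (Nat.add (Nat.add (Nat.add (Nat.add (Nat.add C x22584) x9462) x26958) x21126) x23070) x22566) x22578) x22590) x22582) x2902)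
    (Nat.sub (Nat.add (Nat.add (Nat.add (Nat.add (Nat.add (Nat.add C (Nat.mul x22590 (nat_lit 2))) x9468) x26964) x21132) x23076) x22584) x2908)
    (Nat.sub (Nat.add (Nat.add (Nat.add (Nat.add (Nat.add (Nat.add (Nat.add (Nat.add C (Nat.mul x22652 (nat_lit 3))) x9530) x27026) x21194) x24110) x22166) x22706) x22670) x42334)
    (Nat.sub (Nat.add (Nat.add (Nat.add (Nat.add (Nat.add (Nat.add (Nat.add (Nat.add (Nat.add C x22670) x9548) x27044) x21212) x24128) x22184) x22724) x22652) x22676) x42352)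
    (Nat.sub (Nat.add (Nat.add (Nat.add (Nat.add (Nat.add (Nat.add (Nat.add (Nat.add (Nat.add C x22676) x9554) x27050) x21218) x24134) x22190) x22730) x22670) x22678) x42358)
    (Nat.sub (Nat.sub (Nat.add (Nat.add (Nat.add (Nat.add (Nat.add (Nat.add (Nat.add (Nat.add C (Nat.mul x22678 (nat_lit 2))) x9556) x27052) x21220) x24136) x22192) x22732) x22676) x42360) x2996)
    (Nat.sub (Nat.add (Nat.add (Nat.add (Nat.add (Nat.add (Nat.add (Nat.add (Nat.add (Nat.add C x22706) x9584) x27080) x21248) x24164) x22220) x22868) x22652) x22724) x42388)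
    (Nat.sub (Nat.add (Nat.add (Nat.add (Nat.add (Nat.add (Nat.add (Nat.add (Nat.add (Nat.add (Nat.add (Nat.add (Nat.add C x22724) x9602) x27098) x21266) x24182) x22238) x22886) x22670) x22778) x22706) x22742) x22730) x42406)
    (Nat.sub (Nat.add (Nat.add (Nat.add (Nat.add (Nat.add (Nat.add (Nat.add (Nat.add (Nat.add (Nat.add (Nat.add C x9608) x27104) x21272) x24188) x22244) x22892) x22676) x22784) x22748) x22724) x22732) x42412)
    (Nat.sub (Nat.sub (Nat.add (Nat.add (Nat.add (Nat.add (Nat.add (Nat.add (Nat.add (Nat.add (Nat.add (Nat.add (Nat.add C x22732) x9610) x27106) x21274) x24190) x22246) x22894) x22678) x22786) x22750) x22730) x42414) x3050)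
    (Nat.sub (Nat.sub (Nat.add (Nat.add (Nat.add (Nat.add (Nat.add (Nat.add (Nat.add (Nat.add (Nat.add C x9620) x27116) x21284) x24200) x22256) x22904) x22796) x22724) x22748) x22742) x42424)
    (Nat.sub (Nat.add (Nat.add (Nat.add (Nat.add (Nat.add (Nat.add (Nat.add (Nat.add (Nat.add (Nat.add (Nat.add C x9626) x27122) x21290) x24206) x22262) x22910) x22802) x22730) x22742) x22754) x22750) x42430)
    (Nat.sub (Nat.sub (Nat.add (Nat.add (Nat.add (Nat.add (Nat.add (Nat.add (Nat.add (Nat.add (Nat.add (Nat.add C x9628) x27124) x21292) x24208) x22264) x22912) x22804) x22732) x22756) x22748) x42432) x3068)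
    (Nat.sub (Nat.sub (Nat.add (Nat.add (Nat.add (Nat.add (Nat.add (Nat.add (Nat.add (Nat.add (Nat.add C x9632) x27128) x21296) x24212) x22268) x22916) x22808) x22748) x22756) x22754) x42436)
    (Nat.sub (Nat.sub (Nat.add (Nat.add (Nat.add (Nat.add (Nat.add (Nat.add (Nat.add (Nat.add (Nat.add (Nat.add (Nat.add C x22756) x9634) x27130) x21298) x24214) x22270) x22918) x22810) x22750) x22754) x22758) x42438) x3074)
    (Nat.sub (Nat.add (Nat.add (Nat.add (Nat.add (Nat.add (Nat.add (Nat.add (Nat.add (Nat.add C x22758) x9636) x27132) x21300) x24216) x22272) x22920) x22812) x22756) x3076)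
    (Nat.sub (Nat.sub (Nat.add (Nat.add (Nat.add (Nat.add (Nat.add (Nat.add (Nat.add (Nat.add (Nat.add C x9656) x27152) x21320) x24236) x22292) x22940) x22724) x22796) x22784) x22778) x42460)
    (Nat.sub (Nat.sub (Nat.add (Nat.add (Nat.add (Nat.add (Nat.add (Nat.add (Nat.add (Nat.add (Nat.add (Nat.add C x9662) x27158) x21326) x24242) x22298) x22946) x22730) x22802) x22778) x22786) (Nat.mul x22784 (nat_lit 3))) x42466)
    (Nat.sub (Nat.sub (Nat.sub (Nat.add (Nat.add (Nat.add (Nat.add (Nat.add (Nat.add (Nat.add (Nat.add (Nat.add C x9664) x27160) x21328) x24244) x22300) x22948) x22732) x22804) x22784) (Nat.mul x22786 (nat_lit 2))) x42468) x3104)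
    (Nat.sub (Nat.sub (Nat.add (Nat.add (Nat.add (Nat.add (Nat.add (Nat.add (Nat.add (Nat.add (Nat.add C x9674) x27170) x21338) x24254) x22310) x22958) x22742) x22778) x22802) x22796) x42478)
    (Nat.sub (Nat.sub (Nat.add (Nat.add (Nat.add (Nat.add (Nat.add (Nat.add (Nat.add (Nat.add (Nat.add (Nat.add (Nat.add (Nat.add C x9680) x27176) x21344) x24260) x22316) x22964) x22748) x22784) x22820) x22796) x22808) x22804) x22802) x42484)
    (Nat.sub (Nat.sub (Nat.sub (Nat.add (Nat.add (Nat.add (Nat.add (Nat.add (Nat.add (Nat.add (Nat.add (Nat.add (Nat.add (Nat.add C x9682) x27178) x21346) x24262) x22318) x22966) x22750) x22786) x22822) x22810) x22802) x22804) x42486) x3122)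
    (Nat.sub (Nat.sub (Nat.add (Nat.add (Nat.add (Nat.add (Nat.add (Nat.add (Nat.add (Nat.add (Nat.add (Nat.add C x9686) x27182) x21350) x24266) x22322) x22970) x22754) x22826) x22802) x22810) (Nat.mul x22808 (nat_lit 3))) x42490)
    (Nat.sub (Nat.sub (Nat.sub (Nat.add (Nat.add (Nat.add (Nat.add (Nat.add (Nat.add (Nat.add (Nat.add (Nat.add (Nat.add (Nat.add C x9688) x27184) x21352) x24268) x22324) x22972) x22756) x22828) x22804) x22808) x22812) x22810) x42492) x3128)
    (Nat.sub (Nat.sub (Nat.add (Nat.add (Nat.add (Nat.add (Nat.add (Nat.add (Nat.add (Nat.add (Nat.add C x9690) x27186) x21354) x24270) x22326) x22974) x22758) x22830) x22810) x22812) x3130)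
    (Nat.sub (Nat.sub (Nat.add (Nat.add (Nat.add (Nat.add (Nat.add (Nat.add (Nat.add (Nat.add (Nat.add C x9698) x27194) x21362) x24278) x22334) x22982) x22802) x22826) x22822) x22820) x42502)
    (Nat.sub (Nat.sub (Nat.sub (Nat.add (Nat.add (Nat.add (Nat.add (Nat.add (Nat.add (Nat.add (Nat.add (Nat.add C x9700) x27196) x21364) x24280) x22336) x22984) x22804) x22828) x22820) (Nat.mul x22822 (nat_lit 2))) x42504) x3140)
    (Nat.sub (Nat.sub (Nat.add (Nat.add (Nat.add (Nat.add (Nat.add (Nat.add (Nat.add (Nat.add (Nat.add C x9704) x27200) x21368) x24284) x22340) x22988) x22808) x22820) x22828) x22826) x42508)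
    (Nat.sub (Nat.sub (Nat.add (Nat.add (Nat.add (Nat.add (Nat.add (Nat.add (Nat.add (Nat.add (Nat.add (Nat.add (Nat.add C x9706) x27202) x21370) x24286) x22342) x22990) x22810) x22822) x22834) x22826) x22830) x42510) x3146)
    (Nat.sub (Nat.sub (Nat.add (Nat.add (Nat.add (Nat.add (Nat.add (Nat.add (Nat.add (Nat.add (Nat.add C x9708) x27204) x21372) x24288) x22344) x22992) x22812) x22836) x22828) x22830) x3148)
    (Nat.sub (Nat.sub (Nat.add (Nat.add (Nat.add (Nat.add (Nat.add (Nat.add (Nat.add (Nat.add C x9712) x27208) x21376) x24292) x22348) x22996) x22828) x22836) x42516) x3152)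
    (Nat.sub (Nat.add (Nat.add (Nat.add (Nat.add (Nat.add (Nat.add (Nat.add (Nat.add (Nat.add C x22836) x9714) x27210) x21378) x24294) x22350) x22998) x22830) x22834) x3154)
    (Nat.sub (Nat.add (Nat.add (Nat.add (Nat.add (Nat.add (Nat.add (Nat.add (Nat.add (Nat.add C (Nat.mul x22868 (nat_lit 2))) x9746) x27242) x21410) x24326) x22382) x23354) x22706) x22886) x42550)
    (Nat.sub (Nat.add (Nat.add (Nat.add (Nat.add (Nat.add (Nat.add (Nat.add (Nat.add (Nat.add (Nat.add (Nat.add (Nat.add C x22886) x9764) x27260) x21428) x24344) x22400) x23372) x22724) x22940) x22868) x22904) x22892) x42568)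
    (Nat.sub (Nat.add (Nat.add (Nat.add (Nat.add (Nat.add (Nat.add (Nat.add (Nat.add (Nat.add (Nat.add (Nat.add C x9770) x27266) x21434) x24350) x22406) x23378) x22730) x22946) x22910) x22886) x22894) x42574)
    (Nat.sub (Nat.sub (Nat.add (Nat.add (Nat.add (Nat.add (Nat.add (Nat.add (Nat.add (Nat.add (Nat.add (Nat.add (Nat.add C x22894) x9772) x27268) x21436) x24352) x22408) x23380) x22732) x22948) x22912) x22892) x42576) x3212)
    (Nat.sub (Nat.sub (Nat.add (Nat.add (Nat.add (Nat.add (Nat.add (Nat.add (Nat.add (Nat.add (Nat.add (Nat.add C x9782) x27278) x21446) x24362) x22418) x23390) x22742) x22958) x22886) x22910) (Nat.mul x22904 (nat_lit 2))) x42586)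
    (Nat.sub (Nat.sub (Nat.add (Nat.add (Nat.add (Nat.add (Nat.add (Nat.add (Nat.add (Nat.add (Nat.add (Nat.add (Nat.add (Nat.add C x9788) x27284) x21452) x24368) x22424) x23396) x22748) x22964) x22892) x22904) x22916) x22912) x22910) x42592)
    (Nat.sub (Nat.sub (Nat.sub (Nat.add (Nat.add (Nat.add (Nat.add (Nat.add (Nat.add (Nat.add (Nat.add (Nat.add (Nat.add (Nat.add C x9790) x27286) x21454) x24370) x22426) x23398) x22750) x22966) x22894) x22918) x22910) x22912) x42594) x3230)
    (Nat.sub (Nat.sub (Nat.add (Nat.add (Nat.add (Nat.add (Nat.add (Nat.add (Nat.add (Nat.add (Nat.add (Nat.add C x9794) x27290) x21458) x24374) x22430) x23402) x22754) x22970) x22910) x22918) (Nat.mul x22916 (nat_lit 2))) x42598)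
    (Nat.sub (Nat.sub (Nat.add (Nat.add (Nat.add (Nat.add (Nat.add (Nat.add (Nat.add (Nat.add (Nat.add (Nat.add (Nat.add C x9796) x27292) x21460) x24376) x22432) x23404) x22756) x22972) x22912) x22916) x22920) x42600) x3236)
    (Nat.sub (Nat.add (Nat.add (Nat.add (Nat.add (Nat.add (Nat.add (Nat.add (Nat.add (Nat.add C x9798) x27294) x21462) x24378) x22434) x23406) x22758) x22974) x22918) x3238)
    (Nat.sub (Nat.add (Nat.add (Nat.add (Nat.add (Nat.add (Nat.add (Nat.add (Nat.add (Nat.add (Nat.add (Nat.add (Nat.add C x22940) x9818) x27314) x21482) x24398) x22454) x23426) x22778) x23102) x22886) x22958) x22946) x42622)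
    (Nat.sub (Nat.sub (Nat.add (Nat.add (Nat.add (Nat.add (Nat.add (Nat.add (Nat.add (Nat.add (Nat.add (Nat.add (Nat.add (Nat.add C x9824) x27320) x21488) x24404) x22460) x23432) x22784) x23108) x22892) x22964) x22940) x22948) x22946) x42628)
    (Nat.sub (Nat.sub (Nat.add (Nat.add (Nat.add (Nat.add (Nat.add (Nat.add (Nat.add (Nat.add (Nat.add (Nat.add (Nat.add C x9826) x27322) x21490) x24406) x22462) x23434) x22786) x23110) x22894) x22966) x22946) x42630) x3266)
    (Nat.sub (Nat.add (Nat.add (Nat.add (Nat.add (Nat.add (Nat.add (Nat.add (Nat.add (Nat.add (Nat.add (Nat.add (Nat.add C x9836) x27332) x21500) x24416) x22472) x23444) x22796) x23120) x22904) x23012) x22940) x22964) x42640)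
    (Nat.sub (Nat.add (Nat.add (Nat.add (Nat.add (Nat.add (Nat.add (Nat.add (Nat.add (Nat.add (Nat.add (Nat.add (Nat.add (Nat.add (Nat.add (Nat.add C x9842) x27338) x21506) x24422) x22478) x23450) x22802) x23126) x22910) x23018) x22946) x22982) x22958) x22970) x22966) x42646)
    (Nat.sub (Nat.sub (Nat.add (Nat.add (Nat.add (Nat.add (Nat.add (Nat.add (Nat.add (Nat.add (Nat.add (Nat.add (Nat.add (Nat.add (Nat.add (Nat.add C x9844) x27340) x21508) x24424) x22480) x23452) x22804) x23128) x22912) x23020) x22948) x22984) x22972) x22964) x42648) x3284)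
    (Nat.sub (Nat.sub (Nat.add (Nat.add (Nat.add (Nat.add (Nat.add (Nat.add (Nat.add (Nat.add (Nat.add (Nat.add (Nat.add (Nat.add (Nat.add C x9848) x27344) x21512) x24428) x22484) x23456) x22808) x23132) x22916) x23024) x22988) x22964) x22972) (Nat.mul x22970 (nat_lit 2))) x42652)
    (Nat.sub (Nat.sub (Nat.add (Nat.add (Nat.add (Nat.add (Nat.add (Nat.add (Nat.add (Nat.add (Nat.add (Nat.add (Nat.add (Nat.add (Nat.add (Nat.add C x9850) x27346) x21514) x24430) x22486) x23458) x22810) x23134) x22918) x23026) x22990) x22966) x22970) x22974) x42654) x3290)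
    (Nat.sub (Nat.add (Nat.add (Nat.add (Nat.add (Nat.add (Nat.add (Nat.add (Nat.add (Nat.add (Nat.add (Nat.add (Nat.add C x9852) x27348) x21516) x24432) x22488) x23460) x22812) x23136) x22920) x23028) x22992) x22972) x3292)
    (Nat.sub (Nat.sub (Nat.add (Nat.add (Nat.add (Nat.add (Nat.add (Nat.add (Nat.add (Nat.add (Nat.add (Nat.add (Nat.add (Nat.add C x9860) x27356) x21524) x24440) x22496) x23468) x22820) x23144) x23036) x22964) x22988) x22984) x22982) x42664)
    (Nat.sub (Nat.sub (Nat.sub (Nat.add (Nat.add (Nat.add (Nat.add (Nat.add (Nat.add (Nat.add (Nat.add (Nat.add (Nat.add (Nat.add (Nat.add C x9862) x27358) x21526) x24442) x22498) x23470) x22822) x23146) x23038) x22966) x22990) x22982) (Nat.mul x22984 (nat_lit 2))) x42666) x3302)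
    (Nat.sub (Nat.sub (Nat.add (Nat.add (Nat.add (Nat.add (Nat.add (Nat.add (Nat.add (Nat.add (Nat.add (Nat.add (Nat.add (Nat.add C x9866) x27362) x21530) x24446) x22502) x23474) x22826) x23150) x23042) x22970) x22982) x22990) x22988) x42670)
    (Nat.sub (Nat.sub (Nat.add (Nat.add (Nat.add (Nat.add (Nat.add (Nat.add (Nat.add (Nat.add (Nat.add (Nat.add (Nat.add (Nat.add (Nat.add (Nat.add C x9868) x27364) x21532) x24448) x22504) x23476) x22828) x23152) x23044) x22972) x22984) x22996) x22988) x22992) x42672) x3308)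
    (Nat.sub (Nat.sub (Nat.add (Nat.add (Nat.add (Nat.add (Nat.add (Nat.add (Nat.add (Nat.add (Nat.add (Nat.add (Nat.add (Nat.add C x9870) x27366) x21534) x24450) x22506) x23478) x22830) x23154) x23046) x22974) x22998) x22990) x22992) x3310)
    (Nat.sub (Nat.sub (Nat.add (Nat.add (Nat.add (Nat.add (Nat.add (Nat.add (Nat.add (Nat.add (Nat.add (Nat.add (Nat.add C x9874) x27370) x21538) x24454) x22510) x23482) x22834) x23158) x23050) x22990) x22998) x42678) x3314)
    (Nat.sub (Nat.add (Nat.add (Nat.add (Nat.add (Nat.add (Nat.add (Nat.add (Nat.add (Nat.add (Nat.add (Nat.add (Nat.add C x22998) x9876) x27372) x21540) x24456) x22512) x23484) x22836) x23160) x23052) x22992) x22996) x3316)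
    (Nat.sub (Nat.add (Nat.add (Nat.add (Nat.add (Nat.add (Nat.add (Nat.add (Nat.add (Nat.add C x9890) x27386) x21554) x24470) x22526) x23498) x23174) x22958) x23018) x42694)
    (Nat.sub (Nat.sub (Nat.add (Nat.add (Nat.add (Nat.add (Nat.add (Nat.add (Nat.add (Nat.add (Nat.add (Nat.add (Nat.add (Nat.add C x9896) x27392) x21560) x24476) x22532) x23504) x23180) x22964) x23036) x23012) x23024) x23020) x23018) x42700)
    (Nat.sub (Nat.sub (Nat.sub (Nat.add (Nat.add (Nat.add (Nat.add (Nat.add (Nat.add (Nat.add (Nat.add (Nat.add (Nat.add (Nat.add C x9898) x27394) x21562) x24478) x22534) x23506) x23182) x22966) x23038) x23026) x23018) x23020) x42702) x3338)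
    (Nat.sub (Nat.sub (Nat.add (Nat.add (Nat.add (Nat.add (Nat.add (Nat.add (Nat.add (Nat.add (Nat.add (Nat.add (Nat.add C x9902) x27398) x21566) x24482) x22538) x23510) x23186) x22970) x23042) x23018) x23026) (Nat.mul x23024 (nat_lit 4))) x42706)
    (Nat.sub (Nat.sub (Nat.sub (Nat.add (Nat.add (Nat.add (Nat.add (Nat.add (Nat.add (Nat.add (Nat.add (Nat.add (Nat.add (Nat.add (Nat.add C x9904) x27400) x21568) x24484) x22540) x23512) x23188) x22972) x23044) x23020) x23024) x23028) (Nat.mul x23026 (nat_lit 2))) x42708) x3344)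
    (Nat.sub (Nat.sub (Nat.add (Nat.add (Nat.add (Nat.add (Nat.add (Nat.add (Nat.add (Nat.add (Nat.add (Nat.add C x9906) x27402) x21570) x24486) x22542) x23514) x23190) x22974) x23046) x23026) (Nat.mul x23028 (nat_lit 2))) x3346)
    (Nat.sub (Nat.add (Nat.add (Nat.add (Nat.add (Nat.add (Nat.add (Nat.add (Nat.add (Nat.add (Nat.add (Nat.add C x9914) x27410) x21578) x24494) x22550) x23522) x23198) x22982) x23018) x23042) x23038) x42718)
    (Nat.sub (Nat.sub (Nat.sub (Nat.add (Nat.add (Nat.add (Nat.add (Nat.add (Nat.add (Nat.add (Nat.add (Nat.add (Nat.add (Nat.add C x9916) x27412) x21580) x24496) x22552) x23524) x23200) x22984) x23020) x23044) x23036) x23038) x42720) x3356)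
    (Nat.sub (Nat.sub (Nat.add (Nat.add (Nat.add (Nat.add (Nat.add (Nat.add (Nat.add (Nat.add (Nat.add (Nat.add (Nat.add (Nat.add C x9920) x27416) x21584) x24500) x22556) x23528) x23204) x22988) x23024) x23060) x23036) x23044) x23042) x42724)
    (Nat.sub (Nat.sub (Nat.add (Nat.add (Nat.add (Nat.add (Nat.add (Nat.add (Nat.add (Nat.add (Nat.add (Nat.add (Nat.add (Nat.add (Nat.add (Nat.add C x9922) x27418) x21586) x24502) x22558) x23530) x23206) x22990) x23026) x23062) x23038) x23050) x23042) x23046) x42726) x3362)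
    (Nat.sub (Nat.sub (Nat.add (Nat.add (Nat.add (Nat.add (Nat.add (Nat.add (Nat.add (Nat.add (Nat.add (Nat.add (Nat.add (Nat.add C x9924) x27420) x21588) x24504) x22560) x23532) x23208) x22992) x23028) x23064) x23052) x23044) x23046) x3364)
    (Nat.sub (Nat.sub (Nat.sub (Nat.add (Nat.add (Nat.add (Nat.add (Nat.add (Nat.add (Nat.add (Nat.add (Nat.add (Nat.add (Nat.add C x9928) x27424) x21592) x24508) x22564) x23536) x23212) x22996) x23068) x23044) x23052) x23050) x42732) x3368)
    (Nat.sub (Nat.add (Nat.add (Nat.add (Nat.add (Nat.add (Nat.add (Nat.add (Nat.add (Nat.add (Nat.add (Nat.add C x9930) x27426) x21594) x24510) x22566) x23538) x23214) x22998) x23070) x23046) x23050) x3370)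
    (Nat.sub (Nat.add (Nat.add (Nat.add (Nat.add (Nat.add (Nat.add (Nat.add (Nat.add (Nat.add C x9938) x27434) x21602) x24518) x22574) x23546) x23222) x23042) x23062) x42742)
    (Nat.sub (Nat.sub (Nat.add (Nat.add (Nat.add (Nat.add (Nat.add (Nat.add (Nat.add (Nat.add (Nat.add (Nat.add (Nat.add C x9940) x27436) x21604) x24520) x22576) x23548) x23224) x23044) x23068) x23060) x23064) x42744) x3380)
    (Nat.sub (Nat.sub (Nat.add (Nat.add (Nat.add (Nat.add (Nat.add (Nat.add (Nat.add (Nat.add (Nat.add (Nat.add C x9942) x27438) x21606) x24522) x22578) x23550) x23226) x23046) x23070) x23062) (Nat.mul x23064 (nat_lit 2))) x3382)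
    (Nat.sub (Nat.sub (Nat.add (Nat.add (Nat.add (Nat.add (Nat.add (Nat.add (Nat.add (Nat.add (Nat.add (Nat.add (Nat.add C x23068) x9946) x27442) x21610) x24526) x22582) x23554) x23230) x23050) x23062) x23070) x42750) x3386)
    (Nat.sub (Nat.add (Nat.add (Nat.add (Nat.add (Nat.add (Nat.add (Nat.add (Nat.add (Nat.add (Nat.add (Nat.add (Nat.add C x23070) x9948) x27444) x21612) x24528) x22584) x23556) x23232) x23052) x23064) x23076) x23068) x3388)
    (Nat.sub (Nat.add (Nat.add (Nat.add (Nat.add (Nat.add (Nat.add (Nat.add (Nat.add (Nat.add C (Nat.mul x23076 (nat_lit 2))) x9954) x27450) x21618) x24534) x22590) x23562) x23238) x23070) x3394)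
    (Nat.sub (Nat.add (Nat.add (Nat.add (Nat.add (Nat.add (Nat.add (Nat.add (Nat.add (Nat.add C x23102) x9980) x27476) x21644) x24560) x23588) x22940) x23120) x23108) x42784)
    (Nat.sub (Nat.sub (Nat.add (Nat.add (Nat.add (Nat.add (Nat.add (Nat.add (Nat.add (Nat.add (Nat.add C x9986) x27482) x21650) x24566) x23594) x22946) x23126) x23102) x23110) x23108) x42790)
    (Nat.sub (Nat.sub (Nat.add (Nat.add (Nat.add (Nat.add (Nat.add (Nat.add (Nat.add (Nat.add C x9988) x27484) x21652) x24568) x23596) x22948) x23128) x23108) x42792) x3428)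
    (Nat.sub (Nat.sub (Nat.add (Nat.add (Nat.add (Nat.add (Nat.add (Nat.add (Nat.add (Nat.add (Nat.add C x9998) x27494) x21662) x24578) x23606) x22958) x23174) x23102) x23126) x23120) x42802)
    (Nat.sub (Nat.sub (Nat.add (Nat.add (Nat.add (Nat.add (Nat.add (Nat.add (Nat.add (Nat.add (Nat.add (Nat.add (Nat.add (Nat.add C x10004) x27500) x21668) x24584) x23612) x22964) x23180) x23108) x23144) x23120) x23132) x23128) x23126) x42808)
    (Nat.sub (Nat.sub (Nat.sub (Nat.add (Nat.add (Nat.add (Nat.add (Nat.add (Nat.add (Nat.add (Nat.add (Nat.add (Nat.add (Nat.add C x10006) x27502) x21670) x24586) x23614) x22966) x23182) x23110) x23146) x23134) x23126) x23128) x42810) x3446)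
    (Nat.sub (Nat.sub (Nat.add (Nat.add (Nat.add (Nat.add (Nat.add (Nat.add (Nat.add (Nat.add (Nat.add (Nat.add C x10010) x27506) x21674) x24590) x23618) x22970) x23186) x23150) x23126) x23134) (Nat.mul x23132 (nat_lit 3))) x42814)
    (Nat.sub (Nat.sub (Nat.sub (Nat.add (Nat.add (Nat.add (Nat.add (Nat.add (Nat.add (Nat.add (Nat.add (Nat.add (Nat.add (Nat.add C x10012) x27508) x21676) x24592) x23620) x22972) x23188) x23152) x23128) x23132) x23136) x23134) x42816) x3452)
    (Nat.sub (Nat.sub (Nat.add (Nat.add (Nat.add (Nat.add (Nat.add (Nat.add (Nat.add (Nat.add (Nat.add C x10014) x27510) x21678) x24594) x23622) x22974) x23190) x23154) x23134) x23136) x3454)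
    (Nat.sub (Nat.sub (Nat.add (Nat.add (Nat.add (Nat.add (Nat.add (Nat.add (Nat.add (Nat.add (Nat.add (Nat.add C x10022) x27518) x21686) x24602) x23630) x22982) x23198) x23126) x23150) x23146) (Nat.mul x23144 (nat_lit 3))) x42826)
    (Nat.sub (Nat.sub (Nat.sub (Nat.add (Nat.add (Nat.add (Nat.add (Nat.add (Nat.add (Nat.add (Nat.add (Nat.add (Nat.add C x10024) x27520) x21688) x24604) x23632) x22984) x23200) x23128) x23152) x23144) (Nat.mul x23146 (nat_lit 4))) x42828) x3464)
    (Nat.sub (Nat.sub (Nat.add (Nat.add (Nat.add (Nat.add (Nat.add (Nat.add (Nat.add (Nat.add (Nat.add (Nat.add C x10028) x27524) x21692) x24608) x23636) x22988) x23204) x23132) x23144) x23152) (Nat.mul x23150 (nat_lit 3))) x42832)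
    (Nat.sub (Nat.sub (Nat.sub (Nat.add (Nat.add (Nat.add (Nat.add (Nat.add (Nat.add (Nat.add (Nat.add (Nat.add (Nat.add (Nat.add (Nat.add C x10030) x27526) x21694) x24610) x23638) x22990) x23206) x23134) x23146) x23158) x23150) x23154) (Nat.mul x23152 (nat_lit 2))) x42834) x3470)
    (Nat.sub (Nat.sub (Nat.add (Nat.add (Nat.add (Nat.add (Nat.add (Nat.add (Nat.add (Nat.add (Nat.add (Nat.add C x10032) x27528) x21696) x24612) x23640) x22992) x23208) x23136) x23160) x23152) (Nat.mul x23154 (nat_lit 3))) x3472)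
    (Nat.sub (Nat.sub (Nat.sub (Nat.add (Nat.add (Nat.add (Nat.add (Nat.add (Nat.add (Nat.add (Nat.add (Nat.add C x10036) x27532) x21700) x24616) x23644) x22996) x23212) x23152) x23160) (Nat.mul x23158 (nat_lit 2))) x42840) x3476)
    (Nat.sub (Nat.sub (Nat.add (Nat.add (Nat.add (Nat.add (Nat.add (Nat.add (Nat.add (Nat.add (Nat.add C x10038) x27534) x21702) x24618) x23646) x22998) x23214) x23154) x23158) x23160) x3478)
    (Nat.sub (Nat.add (Nat.add (Nat.add (Nat.add (Nat.add (Nat.add (Nat.add (Nat.add (Nat.add C x23174) x10052) x27548) x21716) x24632) x23660) x23012) x23120) x23180) x42856)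
    (Nat.sub (Nat.add (Nat.add (Nat.add (Nat.add (Nat.add (Nat.add (Nat.add (Nat.add (Nat.add (Nat.add (Nat.add C x10058) x27554) x21722) x24638) x23666) x23018) x23126) x23198) x23174) x23186) x23182) x42862)
    (Nat.sub (Nat.sub (Nat.add (Nat.add (Nat.add (Nat.add (Nat.add (Nat.add (Nat.add (Nat.add (Nat.add (Nat.add C x10060) x27556) x21724) x24640) x23668) x23020) x23128) x23200) x23188) x23180) x42864) x3500)
    (Nat.sub (Nat.sub (Nat.add (Nat.add (Nat.add (Nat.add (Nat.add (Nat.add (Nat.add (Nat.add (Nat.add (Nat.add C x10064) x27560) x21728) x24644) x23672) x23024) x23132) x23204) x23180) x23188) (Nat.mul x23186 (nat_lit 3))) x42868)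
    (Nat.sub (Nat.sub (Nat.sub (Nat.add (Nat.add (Nat.add (Nat.add (Nat.add (Nat.add (Nat.add (Nat.add (Nat.add (Nat.add (Nat.add C x10066) x27562) x21730) x24646) x23674) x23026) x23134) x23206) x23182) x23186) x23190) x23188) x42870) x3506)
    (Nat.sub (Nat.sub (Nat.add (Nat.add (Nat.add (Nat.add (Nat.add (Nat.add (Nat.add (Nat.add (Nat.add C x10068) x27564) x21732) x24648) x23676) x23028) x23136) x23208) x23188) x23190) x3508)
    (Nat.sub (Nat.add (Nat.add (Nat.add (Nat.add (Nat.add (Nat.add (Nat.add (Nat.add (Nat.add (Nat.add (Nat.add C x10076) x27572) x21740) x24656) x23684) x23036) x23144) x23252) x23180) x23204) x23200) x42880)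
    (Nat.sub (Nat.sub (Nat.sub (Nat.add (Nat.add (Nat.add (Nat.add (Nat.add (Nat.add (Nat.add (Nat.add (Nat.add (Nat.add (Nat.add C x10078) x27574) x21742) x24658) x23686) x23038) x23146) x23254) x23182) x23206) x23198) x23200) x42882) x3518)
    (Nat.sub (Nat.sub (Nat.add (Nat.add (Nat.add (Nat.add (Nat.add (Nat.add (Nat.add (Nat.add (Nat.add (Nat.add (Nat.add (Nat.add C x10082) x27578) x21746) x24662) x23690) x23042) x23150) x23258) x23186) x23222) x23198) x23206) x23204) x42886)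
    (Nat.sub (Nat.sub (Nat.add (Nat.add (Nat.add (Nat.add (Nat.add (Nat.add (Nat.add (Nat.add (Nat.add (Nat.add (Nat.add (Nat.add (Nat.add (Nat.add C x10084) x27580) x21748) x24664) x23692) x23044) x23152) x23260) x23188) x23224) x23200) x23212) x23204) x23208) x42888) x3524)
    (Nat.sub (Nat.sub (Nat.add (Nat.add (Nat.add (Nat.add (Nat.add (Nat.add (Nat.add (Nat.add (Nat.add (Nat.add (Nat.add (Nat.add C x10086) x27582) x21750) x24666) x23694) x23046) x23154) x23262) x23190) x23226) x23214) x23206) x23208) x3526)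
    (Nat.sub (Nat.sub (Nat.sub (Nat.add (Nat.add (Nat.add (Nat.add (Nat.add (Nat.add (Nat.add (Nat.add (Nat.add (Nat.add (Nat.add C x10090) x27586) x21754) x24670) x23698) x23050) x23158) x23266) x23230) x23206) x23214) x23212) x42894) x3530)
    (Nat.sub (Nat.add (Nat.add (Nat.add (Nat.add (Nat.add (Nat.add (Nat.add (Nat.add (Nat.add (Nat.add (Nat.add C x10092) x27588) x21756) x24672) x23700) x23052) x23160) x23268) x23232) x23208) x23212) x3532)
    (Nat.sub (Nat.sub (Nat.add (Nat.add (Nat.add (Nat.add (Nat.add (Nat.add (Nat.add (Nat.add (Nat.add C x10100) x27596) x21764) x24680) x23708) x23060) x23276) x23204) x23224) x23222) x42904)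
    (Nat.sub (Nat.sub (Nat.sub (Nat.add (Nat.add (Nat.add (Nat.add (Nat.add (Nat.add (Nat.add (Nat.add (Nat.add (Nat.add (Nat.add C x10102) x27598) x21766) x24682) x23710) x23062) x23278) x23206) x23230) x23222) x23226) x23224) x42906) x3542)
    (Nat.sub (Nat.sub (Nat.add (Nat.add (Nat.add (Nat.add (Nat.add (Nat.add (Nat.add (Nat.add (Nat.add (Nat.add C x10104) x27600) x21768) x24684) x23712) x23064) x23280) x23208) x23232) x23224) (Nat.mul x23226 (nat_lit 3))) x3544)
    (Nat.sub (Nat.sub (Nat.add (Nat.add (Nat.add (Nat.add (Nat.add (Nat.add (Nat.add (Nat.add (Nat.add (Nat.add C x10108) x27604) x21772) x24688) x23716) x23068) x23284) x23212) x23224) x23232) x42912) x3548)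
    (Nat.sub (Nat.add (Nat.add (Nat.add (Nat.add (Nat.add (Nat.add (Nat.add (Nat.add (Nat.add (Nat.add (Nat.add C x10110) x27606) x21774) x24690) x23718) x23070) x23286) x23214) x23226) x23238) x23230) x3550)
    (Nat.sub (Nat.add (Nat.add (Nat.add (Nat.add (Nat.add (Nat.add (Nat.add (Nat.add (Nat.add C x23238) x10116) x27612) x21780) x24696) x23724) x23076) x23292) x23232) x3556)
    (Nat.sub (Nat.add (Nat.add (Nat.add (Nat.add (Nat.add (Nat.add (Nat.add (Nat.add (Nat.add C x23252) x10130) x27626) x21794) x24710) x23738) x23198) x23258) x23254) x42934)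
    (Nat.sub (Nat.sub (Nat.add (Nat.add (Nat.add (Nat.add (Nat.add (Nat.add (Nat.add (Nat.add C x10132) x27628) x21796) x24712) x23740) x23200) x23260) x23252) x42936) x3572)
    (Nat.sub (Nat.sub (Nat.add (Nat.add (Nat.add (Nat.add (Nat.add (Nat.add (Nat.add (Nat.add (Nat.add C x10136) x27632) x21800) x24716) x23744) x23204) x23276) x23252) x23260) x23258) x42940)
    (Nat.sub (Nat.sub (Nat.add (Nat.add (Nat.add (Nat.add (Nat.add (Nat.add (Nat.add (Nat.add (Nat.add (Nat.add (Nat.add C x10138) x27634) x21802) x24718) x23746) x23206) x23278) x23254) x23266) x23258) x23262) x42942) x3578)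
    (Nat.sub (Nat.sub (Nat.add (Nat.add (Nat.add (Nat.add (Nat.add (Nat.add (Nat.add (Nat.add (Nat.add C x10140) x27636) x21804) x24720) x23748) x23208) x23280) x23268) x23260) x23262) x3580)
    (Nat.sub (Nat.sub (Nat.sub (Nat.add (Nat.add (Nat.add (Nat.add (Nat.add (Nat.add (Nat.add (Nat.add (Nat.add C x10144) x27640) x21808) x24724) x23752) x23212) x23284) x23260) x23268) (Nat.mul x23266 (nat_lit 2))) x42948) x3584)
    (Nat.sub (Nat.sub (Nat.add (Nat.add (Nat.add (Nat.add (Nat.add (Nat.add (Nat.add (Nat.add (Nat.add C x10146) x27642) x21810) x24726) x23754) x23214) x23286) x23262) x23266) x23268) x3586)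
    (Nat.sub (Nat.add (Nat.add (Nat.add (Nat.add (Nat.add (Nat.add (Nat.add (Nat.add (Nat.add C x23276) x10154) x27650) x21818) x24734) x23762) x23222) x23258) x23278) x42958)
    (Nat.sub (Nat.sub (Nat.add (Nat.add (Nat.add (Nat.add (Nat.add (Nat.add (Nat.add (Nat.add (Nat.add (Nat.add (Nat.add C x23278) x10156) x27652) x21820) x24736) x23764) x23224) x23260) x23284) x23276) x23280) x42960) x3596)
    (Nat.sub (Nat.sub (Nat.add (Nat.add (Nat.add (Nat.add (Nat.add (Nat.add (Nat.add (Nat.add (Nat.add C x10158) x27654) x21822) x24738) x23766) x23226) x23262) x23286) x23278) x23280) x3598)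
    (Nat.sub (Nat.sub (Nat.add (Nat.add (Nat.add (Nat.add (Nat.add (Nat.add (Nat.add (Nat.add (Nat.add (Nat.add (Nat.add C x23284) x10162) x27658) x21826) x24742) x23770) x23230) x23266) x23302) x23278) x23286) x42966) x3602)
    (Nat.sub (Nat.add (Nat.add (Nat.add (Nat.add (Nat.add (Nat.add (Nat.add (Nat.add (Nat.add (Nat.add (Nat.add (Nat.add C x23286) x10164) x27660) x21828) x24744) x23772) x23232) x23268) x23304) x23280) x23292) x23284) x3604)
    (Nat.sub (Nat.add (Nat.add (Nat.add (Nat.add (Nat.add (Nat.add (Nat.add (Nat.add (Nat.add C x23292) x10170) x27666) x21834) x24750) x23778) x23238) x23310) x23286) x3610)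
    (Nat.sub (Nat.sub (Nat.add (Nat.add (Nat.add (Nat.add (Nat.add (Nat.add (Nat.add (Nat.add C (Nat.mul x23302 (nat_lit 2))) x10180) x27676) x21844) x24760) x23788) x23284) x23304) x42984) x3620)
    (Nat.sub (Nat.add (Nat.add (Nat.add (Nat.add (Nat.add (Nat.add (Nat.add (Nat.add (Nat.add C x23304) x10182) x27678) x21846) x24762) x23790) x23286) x23310) x23302) x3622)
    (Nat.sub (Nat.add (Nat.add (Nat.add (Nat.add (Nat.add (Nat.add (Nat.add (Nat.add C (Nat.mul x23310 (nat_lit 3))) x10188) x27684) x21852) x24768) x23796) x23292) x23304) x3628)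
    (Nat.sub (Nat.add (Nat.add (Nat.add (Nat.add (Nat.add (Nat.add C (Nat.mul x23354 (nat_lit 2))) x10232) x27728) x24812) x22868) x23372) x43036)
    (Nat.sub (Nat.add (Nat.add (Nat.add (Nat.add (Nat.add (Nat.add (Nat.add (Nat.add (Nat.add C x23372) x10250) x27746) x24830) x22886) x23426) x23354) x23390) x23378) x43054)
    (Nat.sub (Nat.add (Nat.add (Nat.add (Nat.add (Nat.add (Nat.add (Nat.add (Nat.add C x10256) x27752) x24836) x22892) x23432) x23396) x23372) x23380) x43060)
    (Nat.sub (Nat.sub (Nat.add (Nat.add (Nat.add (Nat.add (Nat.add (Nat.add (Nat.add (Nat.add C x23380) x10258) x27754) x24838) x22894) x23434) x23398) x23378) x43062) x3698)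
    (Nat.sub (Nat.sub (Nat.add (Nat.add (Nat.add (Nat.add (Nat.add (Nat.add (Nat.add C x10268) x27764) x24848) x22904) x23444) x23372) x23396) (Nat.mul x23390 (nat_lit 2))) x43072)
    (Nat.sub (Nat.sub (Nat.add (Nat.add (Nat.add (Nat.add (Nat.add (Nat.add (Nat.add (Nat.add (Nat.add C x10274) x27770) x24854) x22910) x23450) x23378) x23390) x23402) x23398) x23396) x43078)
    (Nat.sub (Nat.sub (Nat.sub (Nat.add (Nat.add (Nat.add (Nat.add (Nat.add (Nat.add (Nat.add (Nat.add C x10276) x27772) x24856) x22912) x23452) x23380) x23404) x23396) x23398) x43080) x3716)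
    (Nat.sub (Nat.sub (Nat.add (Nat.add (Nat.add (Nat.add (Nat.add (Nat.add (Nat.add C x10280) x27776) x24860) x22916) x23456) x23396) x23404) (Nat.mul x23402 (nat_lit 2))) x43084)
    (Nat.sub (Nat.sub (Nat.add (Nat.add (Nat.add (Nat.add (Nat.add (Nat.add (Nat.add (Nat.add C x10282) x27778) x24862) x22918) x23458) x23398) x23402) x23406) x43086) x3722)
    (Nat.sub (Nat.add (Nat.add (Nat.add (Nat.add (Nat.add (Nat.add C x10284) x27780) x24864) x22920) x23460) x23404) x3724)
    (Nat.sub (Nat.add (Nat.add (Nat.add (Nat.add (Nat.add (Nat.add (Nat.add (Nat.add C x10304) x27800) x24884) x22940) x23588) x23372) x23444) x23432) x43108)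
    (Nat.sub (Nat.sub (Nat.add (Nat.add (Nat.add (Nat.add (Nat.add (Nat.add (Nat.add (Nat.add (Nat.add C x10310) x27806) x24890) x22946) x23594) x23378) x23450) x23426) x23434) (Nat.mul x23432 (nat_lit 2))) x43114)
    (Nat.sub (Nat.sub (Nat.sub (Nat.add (Nat.add (Nat.add (Nat.add (Nat.add (Nat.add (Nat.add (Nat.add C x10312) x27808) x24892) x22948) x23596) x23380) x23452) x23432) x23434) x43116) x3752)
    (Nat.sub (Nat.sub (Nat.add (Nat.add (Nat.add (Nat.add (Nat.add (Nat.add (Nat.add (Nat.add (Nat.add C x10322) x27818) x24902) x22958) x23606) x23390) x23498) x23426) x23450) x23444) x43126)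
    (Nat.sub (Nat.sub (Nat.add (Nat.add (Nat.add (Nat.add (Nat.add (Nat.add (Nat.add (Nat.add (Nat.add (Nat.add (Nat.add (Nat.add C x10328) x27824) x24908) x22964) x23612) x23396) x23504) x23432) x23468) x23444) x23456) x23452) x23450) x43132)
    (Nat.sub (Nat.sub (Nat.sub (Nat.add (Nat.add (Nat.add (Nat.add (Nat.add (Nat.add (Nat.add (Nat.add (Nat.add (Nat.add (Nat.add C x10330) x27826) x24910) x22966) x23614) x23398) x23506) x23434) x23470) x23458) x23450) x23452) x43134) x3770)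
    (Nat.sub (Nat.sub (Nat.add (Nat.add (Nat.add (Nat.add (Nat.add (Nat.add (Nat.add (Nat.add (Nat.add (Nat.add C x10334) x27830) x24914) x22970) x23618) x23402) x23510) x23474) x23450) x23458) (Nat.mul x23456 (nat_lit 3))) x43138)
    (Nat.sub (Nat.sub (Nat.sub (Nat.add (Nat.add (Nat.add (Nat.add (Nat.add (Nat.add (Nat.add (Nat.add (Nat.add (Nat.add (Nat.add C x10336) x27832) x24916) x22972) x23620) x23404) x23512) x23476) x23452) x23456) x23460) x23458) x43140) x3776)
    (Nat.sub (Nat.sub (Nat.add (Nat.add (Nat.add (Nat.add (Nat.add (Nat.add (Nat.add (Nat.add (Nat.add C x10338) x27834) x24918) x22974) x23622) x23406) x23514) x23478) x23458) x23460) x3778)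
    (Nat.sub (Nat.sub (Nat.add (Nat.add (Nat.add (Nat.add (Nat.add (Nat.add (Nat.add (Nat.add (Nat.add C x10346) x27842) x24926) x22982) x23630) x23522) x23450) x23474) x23470) (Nat.mul x23468 (nat_lit 2))) x43150)
    (Nat.sub (Nat.sub (Nat.sub (Nat.add (Nat.add (Nat.add (Nat.add (Nat.add (Nat.add (Nat.add (Nat.add (Nat.add C x10348) x27844) x24928) x22984) x23632) x23524) x23452) x23476) x23468) (Nat.mul x23470 (nat_lit 3))) x43152) x3788)
    (Nat.sub (Nat.sub (Nat.add (Nat.add (Nat.add (Nat.add (Nat.add (Nat.add (Nat.add (Nat.add (Nat.add C x10352) x27848) x24932) x22988) x23636) x23528) x23456) x23468) x23476) (Nat.mul x23474 (nat_lit 2))) x43156)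
    (Nat.sub (Nat.sub (Nat.sub (Nat.add (Nat.add (Nat.add (Nat.add (Nat.add (Nat.add (Nat.add (Nat.add (Nat.add (Nat.add (Nat.add C x10354) x27850) x24934) x22990) x23638) x23530) x23458) x23470) x23482) x23474) x23478) x23476) x43158) x3794)
    (Nat.sub (Nat.sub (Nat.add (Nat.add (Nat.add (Nat.add (Nat.add (Nat.add (Nat.add (Nat.add (Nat.add C x10356) x27852) x24936) x22992) x23640) x23532) x23460) x23484) x23476) (Nat.mul x23478 (nat_lit 2))) x3796)
    (Nat.sub (Nat.sub (Nat.sub (Nat.add (Nat.add (Nat.add (Nat.add (Nat.add (Nat.add (Nat.add (Nat.add C x10360) x27856) x24940) x22996) x23644) x23536) x23476) x23484) x23482) x43164) x3800)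
    (Nat.sub (Nat.add (Nat.add (Nat.add (Nat.add (Nat.add (Nat.add (Nat.add (Nat.add C x10362) x27858) x24942) x22998) x23646) x23538) x23478) x23482) x3802)
    (Nat.sub (Nat.sub (Nat.add (Nat.add (Nat.add (Nat.add (Nat.add (Nat.add (Nat.add C x10376) x27872) x24956) x23012) x23660) x23444) x23504) (Nat.mul x23498 (nat_lit 2))) x43180)
    (Nat.sub (Nat.sub (Nat.add (Nat.add (Nat.add (Nat.add (Nat.add (Nat.add (Nat.add (Nat.add (Nat.add (Nat.add C x10382) x27878) x24962) x23018) x23666) x23450) x23522) x23498) x23510) x23506) (Nat.mul x23504 (nat_lit 3))) x43186)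
    (Nat.sub (Nat.sub (Nat.sub (Nat.add (Nat.add (Nat.add (Nat.add (Nat.add (Nat.add (Nat.add (Nat.add (Nat.add C x10384) x27880) x24964) x23020) x23668) x23452) x23524) x23512) x23504) (Nat.mul x23506 (nat_lit 3))) x43188) x3824)
    (Nat.sub (Nat.sub (Nat.add (Nat.add (Nat.add (Nat.add (Nat.add (Nat.add (Nat.add (Nat.add (Nat.add C x10388) x27884) x24968) x23024) x23672) x23456) x23528) x23504) x23512) (Nat.mul x23510 (nat_lit 6))) x43192)
    (Nat.sub (Nat.sub (Nat.sub (Nat.add (Nat.add (Nat.add (Nat.add (Nat.add (Nat.add (Nat.add (Nat.add (Nat.add (Nat.add C x10390) x27886) x24970) x23026) x23674) x23458) x23530) x23506) x23510) x23514) (Nat.mul x23512 (nat_lit 4))) x43194) x3830)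
    (Nat.sub (Nat.sub (Nat.add (Nat.add (Nat.add (Nat.add (Nat.add (Nat.add (Nat.add (Nat.add C x10392) x27888) x24972) x23028) x23676) x23460) x23532) x23512) (Nat.mul x23514 (nat_lit 4))) x3832)
    (Nat.sub (Nat.sub (Nat.add (Nat.add (Nat.add (Nat.add (Nat.add (Nat.add (Nat.add (Nat.add (Nat.add C x10400) x27896) x24980) x23036) x23684) x23468) x23504) x23528) x23524) (Nat.mul x23522 (nat_lit 2))) x43204)
    (Nat.sub (Nat.sub (Nat.sub (Nat.add (Nat.add (Nat.add (Nat.add (Nat.add (Nat.add (Nat.add (Nat.add (Nat.add C x10402) x27898) x24982) x23038) x23686) x23470) x23506) x23530) x23522) (Nat.mul x23524 (nat_lit 3))) x43206) x3842)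
    (Nat.sub (Nat.sub (Nat.add (Nat.add (Nat.add (Nat.add (Nat.add (Nat.add (Nat.add (Nat.add (Nat.add (Nat.add C x10406) x27902) x24986) x23042) x23690) x23474) x23510) x23546) x23522) x23530) (Nat.mul x23528 (nat_lit 3))) x43210)
    (Nat.sub (Nat.sub (Nat.sub (Nat.add (Nat.add (Nat.add (Nat.add (Nat.add (Nat.add (Nat.add (Nat.add (Nat.add (Nat.add (Nat.add (Nat.add C x10408) x27904) x24988) x23044) x23692) x23476) x23512) x23548) x23524) x23536) x23528) x23532) (Nat.mul x23530 (nat_lit 2))) x43212) x3848)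
    (Nat.sub (Nat.sub (Nat.add (Nat.add (Nat.add (Nat.add (Nat.add (Nat.add (Nat.add (Nat.add (Nat.add (Nat.add C x10410) x27906) x24990) x23046) x23694) x23478) x23514) x23550) x23538) x23530) (Nat.mul x23532 (nat_lit 3))) x3850)
    (Nat.sub (Nat.sub (Nat.sub (Nat.add (Nat.add (Nat.add (Nat.add (Nat.add (Nat.add (Nat.add (Nat.add (Nat.add C x10414) x27910) x24994) x23050) x23698) x23482) x23554) x23530) x23538) (Nat.mul x23536 (nat_lit 3))) x43218) x3854)
    (Nat.sub (Nat.sub (Nat.add (Nat.add (Nat.add (Nat.add (Nat.add (Nat.add (Nat.add (Nat.add (Nat.add C x10416) x27912) x24996) x23052) x23700) x23484) x23556) x23532) x23536) (Nat.mul x23538 (nat_lit 2))) x3856)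
    (Nat.sub (Nat.sub (Nat.add (Nat.add (Nat.add (Nat.add (Nat.add (Nat.add (Nat.add C x10424) x27920) x25004) x23060) x23708) x23528) x23548) (Nat.mul x23546 (nat_lit 2))) x43228)
    (Nat.sub (Nat.sub (Nat.sub (Nat.add (Nat.add (Nat.add (Nat.add (Nat.add (Nat.add (Nat.add (Nat.add (Nat.add C x10426) x27922) x25006) x23062) x23710) x23530) x23554) x23546) x23550) (Nat.mul x23548 (nat_lit 2))) x43230) x3866)
    (Nat.sub (Nat.sub (Nat.add (Nat.add (Nat.add (Nat.add (Nat.add (Nat.add (Nat.add (Nat.add C x10428) x27924) x25008) x23064) x23712) x23532) x23556) x23548) (Nat.mul x23550 (nat_lit 4))) x3868)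
    (Nat.sub (Nat.sub (Nat.sub (Nat.add (Nat.add (Nat.add (Nat.add (Nat.add (Nat.add (Nat.add (Nat.add C x10432) x27928) x25012) x23068) x23716) x23536) x23548) x23556) x23554) x43236) x3872)
    (Nat.sub (Nat.sub (Nat.add (Nat.add (Nat.add (Nat.add (Nat.add (Nat.add (Nat.add (Nat.add (Nat.add C x10434) x27930) x25014) x23070) x23718) x23538) x23550) x23562) x23554) x23556) x3874)
    (Nat.sub (Nat.add (Nat.add (Nat.add (Nat.add (Nat.add (Nat.add C x10440) x27936) x25020) x23076) x23724) x23556) x3880)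
    (Nat.sub (Nat.add (Nat.add (Nat.add (Nat.add (Nat.add (Nat.add (Nat.add (Nat.add C (Nat.mul x23588 (nat_lit 2))) x10466) x27962) x25046) x23102) x23426) x23606) x23594) x43270)
    (Nat.sub (Nat.add (Nat.add (Nat.add (Nat.add (Nat.add (Nat.add (Nat.add (Nat.add C x10472) x27968) x25052) x23108) x23432) x23612) x23588) x23596) x43276)
    (Nat.sub (Nat.sub (Nat.add (Nat.add (Nat.add (Nat.add (Nat.add (Nat.add (Nat.add (Nat.add C x23596) x10474) x27970) x25054) x23110) x23434) x23614) x23594) x43278) x3914)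
    (Nat.sub (Nat.add (Nat.add (Nat.add (Nat.add (Nat.add (Nat.add (Nat.add (Nat.add C x10484) x27980) x25064) x23120) x23444) x23660) x23588) x23612) x43288)
    (Nat.sub (Nat.add (Nat.add (Nat.add (Nat.add (Nat.add (Nat.add (Nat.add (Nat.add (Nat.add (Nat.add (Nat.add C x10490) x27986) x25070) x23126) x23450) x23666) x23594) x23630) x23606) x23618) x23614) x43294)
    (Nat.sub (Nat.sub (Nat.add (Nat.add (Nat.add (Nat.add (Nat.add (Nat.add (Nat.add (Nat.add (Nat.add (Nat.add C x10492) x27988) x25072) x23128) x23452) x23668) x23596) x23632) x23620) x23612) x43296) x3932)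
    (Nat.sub (Nat.sub (Nat.add (Nat.add (Nat.add (Nat.add (Nat.add (Nat.add (Nat.add (Nat.add (Nat.add C x10496) x27992) x25076) x23132) x23456) x23672) x23636) x23612) x23620) (Nat.mul x23618 (nat_lit 2))) x43300)
    (Nat.sub (Nat.sub (Nat.add (Nat.add (Nat.add (Nat.add (Nat.add (Nat.add (Nat.add (Nat.add (Nat.add (Nat.add C x10498) x27994) x25078) x23134) x23458) x23674) x23638) x23614) x23618) x23622) x43302) x3938)
    (Nat.sub (Nat.add (Nat.add (Nat.add (Nat.add (Nat.add (Nat.add (Nat.add (Nat.add C x10500) x27996) x25080) x23136) x23460) x23676) x23640) x23620) x3940)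
    (Nat.sub (Nat.sub (Nat.add (Nat.add (Nat.add (Nat.add (Nat.add (Nat.add (Nat.add (Nat.add (Nat.add C x10508) x28004) x25088) x23144) x23468) x23684) x23612) x23636) x23632) (Nat.mul x23630 (nat_lit 2))) x43312)
    (Nat.sub (Nat.sub (Nat.sub (Nat.add (Nat.add (Nat.add (Nat.add (Nat.add (Nat.add (Nat.add (Nat.add (Nat.add C x10510) x28006) x25090) x23146) x23470) x23686) x23614) x23638) x23630) (Nat.mul x23632 (nat_lit 3))) x43314) x3950)
    (Nat.sub (Nat.sub (Nat.add (Nat.add (Nat.add (Nat.add (Nat.add (Nat.add (Nat.add (Nat.add (Nat.add C x10514) x28010) x25094) x23150) x23474) x23690) x23618) x23630) x23638) (Nat.mul x23636 (nat_lit 2))) x43318)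
    (Nat.sub (Nat.sub (Nat.sub (Nat.add (Nat.add (Nat.add (Nat.add (Nat.add (Nat.add (Nat.add (Nat.add (Nat.add (Nat.add (Nat.add C x10516) x28012) x25096) x23152) x23476) x23692) x23620) x23632) x23644) x23636) x23640) x23638) x43320) x3956)
    (Nat.sub (Nat.sub (Nat.add (Nat.add (Nat.add (Nat.add (Nat.add (Nat.add (Nat.add (Nat.add (Nat.add C x10518) x28014) x25098) x23154) x23478) x23694) x23622) x23646) x23638) (Nat.mul x23640 (nat_lit 2))) x3958)
    (Nat.sub (Nat.sub (Nat.sub (Nat.add (Nat.add (Nat.add (Nat.add (Nat.add (Nat.add (Nat.add (Nat.add C x10522) x28018) x25102) x23158) x23482) x23698) x23638) x23646) x23644) x43326) x3962)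
    (Nat.sub (Nat.add (Nat.add (Nat.add (Nat.add (Nat.add (Nat.add (Nat.add (Nat.add C x10524) x28020) x25104) x23160) x23484) x23700) x23640) x23644) x3964)
    (Nat.sub (Nat.add (Nat.add (Nat.add (Nat.add (Nat.add (Nat.add (Nat.add (Nat.add (Nat.add C x23660) x10538) x28034) x25118) x23174) x23498) x23822) x23606) x23666) x43342)
    (Nat.sub (Nat.add (Nat.add (Nat.add (Nat.add (Nat.add (Nat.add (Nat.add (Nat.add (Nat.add (Nat.add (Nat.add C x10544) x28040) x25124) x23180) x23504) x23828) x23612) x23684) x23660) x23672) x23668) x43348)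
    (Nat.sub (Nat.sub (Nat.add (Nat.add (Nat.add (Nat.add (Nat.add (Nat.add (Nat.add (Nat.add (Nat.add (Nat.add C x10546) x28042) x25126) x23182) x23506) x23830) x23614) x23686) x23674) x23666) x43350) x3986)
    (Nat.sub (Nat.sub (Nat.add (Nat.add (Nat.add (Nat.add (Nat.add (Nat.add (Nat.add (Nat.add (Nat.add (Nat.add C x10550) x28046) x25130) x23186) x23510) x23834) x23618) x23690) x23666) x23674) (Nat.mul x23672 (nat_lit 3))) x43354)
    (Nat.sub (Nat.sub (Nat.sub (Nat.add (Nat.add (Nat.add (Nat.add (Nat.add (Nat.add (Nat.add (Nat.add (Nat.add (Nat.add (Nat.add C x10552) x28048) x25132) x23188) x23512) x23836) x23620) x23692) x23668) x23672) x23676) x23674) x43356) x3992)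
    (Nat.sub (Nat.sub (Nat.add (Nat.add (Nat.add (Nat.add (Nat.add (Nat.add (Nat.add (Nat.add (Nat.add C x10554) x28050) x25134) x23190) x23514) x23838) x23622) x23694) x23674) x23676) x3994)
    (Nat.sub (Nat.add (Nat.add (Nat.add (Nat.add (Nat.add (Nat.add (Nat.add (Nat.add (Nat.add (Nat.add (Nat.add C x10562) x28058) x25142) x23198) x23522) x23846) x23630) x23738) x23666) x23690) x23686) x43366)
    (Nat.sub (Nat.sub (Nat.sub (Nat.add (Nat.add (Nat.add (Nat.add (Nat.add (Nat.add (Nat.add (Nat.add (Nat.add (Nat.add (Nat.add C x10564) x28060) x25144) x23200) x23524) x23848) x23632) x23740) x23668) x23692) x23684) x23686) x43368) x4004)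
    (Nat.sub (Nat.sub (Nat.add (Nat.add (Nat.add (Nat.add (Nat.add (Nat.add (Nat.add (Nat.add (Nat.add (Nat.add (Nat.add (Nat.add C x10568) x28064) x25148) x23204) x23528) x23852) x23636) x23744) x23672) x23708) x23684) x23692) x23690) x43372)
    (Nat.sub (Nat.sub (Nat.add (Nat.add (Nat.add (Nat.add (Nat.add (Nat.add (Nat.add (Nat.add (Nat.add (Nat.add (Nat.add (Nat.add (Nat.add (Nat.add C x10570) x28066) x25150) x23206) x23530) x23854) x23638) x23746) x23674) x23710) x23686) x23698) x23690) x23694) x43374) x4010)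
    (Nat.sub (Nat.sub (Nat.add (Nat.add (Nat.add (Nat.add (Nat.add (Nat.add (Nat.add (Nat.add (Nat.add (Nat.add (Nat.add (Nat.add C x10572) x28068) x25152) x23208) x23532) x23856) x23640) x23748) x23676) x23712) x23700) x23692) x23694) x4012)
    (Nat.sub (Nat.sub (Nat.sub (Nat.add (Nat.add (Nat.add (Nat.add (Nat.add (Nat.add (Nat.add (Nat.add (Nat.add (Nat.add (Nat.add C x10576) x28072) x25156) x23212) x23536) x23860) x23644) x23752) x23716) x23692) x23700) x23698) x43380) x4016)
    (Nat.sub (Nat.add (Nat.add (Nat.add (Nat.add (Nat.add (Nat.add (Nat.add (Nat.add (Nat.add (Nat.add (Nat.add C x10578) x28074) x25158) x23214) x23538) x23862) x23646) x23754) x23718) x23694) x23698) x4018)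
    (Nat.sub (Nat.sub (Nat.add (Nat.add (Nat.add (Nat.add (Nat.add (Nat.add (Nat.add (Nat.add (Nat.add C x10586) x28082) x25166) x23222) x23546) x23870) x23762) x23690) x23710) x23708) x43390)
    (Nat.sub (Nat.sub (Nat.sub (Nat.add (Nat.add (Nat.add (Nat.add (Nat.add (Nat.add (Nat.add (Nat.add (Nat.add (Nat.add (Nat.add C x10588) x28084) x25168) x23224) x23548) x23872) x23764) x23692) x23716) x23708) x23712) x23710) x43392) x4028)
    (Nat.sub (Nat.sub (Nat.add (Nat.add (Nat.add (Nat.add (Nat.add (Nat.add (Nat.add (Nat.add (Nat.add (Nat.add C x10590) x28086) x25170) x23226) x23550) x23874) x23766) x23694) x23718) x23710) (Nat.mul x23712 (nat_lit 3))) x4030)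
    (Nat.sub (Nat.sub (Nat.add (Nat.add (Nat.add (Nat.add (Nat.add (Nat.add (Nat.add (Nat.add (Nat.add (Nat.add C x10594) x28090) x25174) x23230) x23554) x23878) x23770) x23698) x23710) x23718) x43398) x4034)
    (Nat.sub (Nat.add (Nat.add (Nat.add (Nat.add (Nat.add (Nat.add (Nat.add (Nat.add (Nat.add (Nat.add (Nat.add C x10596) x28092) x25176) x23232) x23556) x23880) x23772) x23700) x23712) x23724) x23716) x4036)
    (Nat.sub (Nat.add (Nat.add (Nat.add (Nat.add (Nat.add (Nat.add (Nat.add (Nat.add (Nat.add C x23724) x10602) x28098) x25182) x23238) x23562) x23886) x23778) x23718) x4042)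
    (Nat.sub (Nat.add (Nat.add (Nat.add (Nat.add (Nat.add (Nat.add (Nat.add (Nat.add C x10616) x28112) x25196) x23252) x23900) x23684) x23744) x23740) x43420)
    (Nat.sub (Nat.sub (Nat.sub (Nat.add (Nat.add (Nat.add (Nat.add (Nat.add (Nat.add (Nat.add (Nat.add C x10618) x28114) x25198) x23254) x23902) x23686) x23746) x23738) x23740) x43422) x4058)
    (Nat.sub (Nat.sub (Nat.add (Nat.add (Nat.add (Nat.add (Nat.add (Nat.add (Nat.add (Nat.add (Nat.add C x10622) x28118) x25202) x23258) x23906) x23690) x23762) x23738) x23746) (Nat.mul x23744 (nat_lit 2))) x43426)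
    (Nat.sub (Nat.sub (Nat.sub (Nat.add (Nat.add (Nat.add (Nat.add (Nat.add (Nat.add (Nat.add (Nat.add (Nat.add (Nat.add (Nat.add C x10624) x28120) x25204) x23260) x23908) x23692) x23764) x23740) x23752) x23744) x23748) x23746) x43428) x4064)
    (Nat.sub (Nat.sub (Nat.add (Nat.add (Nat.add (Nat.add (Nat.add (Nat.add (Nat.add (Nat.add (Nat.add C x10626) x28122) x25206) x23262) x23910) x23694) x23766) x23754) x23746) (Nat.mul x23748 (nat_lit 2))) x4066)
    (Nat.sub (Nat.sub (Nat.sub (Nat.add (Nat.add (Nat.add (Nat.add (Nat.add (Nat.add (Nat.add (Nat.add (Nat.add C x10630) x28126) x25210) x23266) x23914) x23698) x23770) x23746) x23754) (Nat.mul x23752 (nat_lit 3))) x43434) x4070)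
    (Nat.sub (Nat.sub (Nat.add (Nat.add (Nat.add (Nat.add (Nat.add (Nat.add (Nat.add (Nat.add (Nat.add C x10632) x28128) x25212) x23268) x23916) x23700) x23772) x23748) x23752) (Nat.mul x23754 (nat_lit 2))) x4072)
    (Nat.sub (Nat.add (Nat.add (Nat.add (Nat.add (Nat.add (Nat.add (Nat.add (Nat.add C x10640) x28136) x25220) x23276) x23924) x23708) x23744) x23764) x43444)
    (Nat.sub (Nat.sub (Nat.add (Nat.add (Nat.add (Nat.add (Nat.add (Nat.add (Nat.add (Nat.add (Nat.add (Nat.add C x10642) x28138) x25222) x23278) x23926) x23710) x23746) x23770) x23762) x23766) x43446) x4082)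
    (Nat.sub (Nat.sub (Nat.add (Nat.add (Nat.add (Nat.add (Nat.add (Nat.add (Nat.add (Nat.add (Nat.add C x10644) x28140) x25224) x23280) x23928) x23712) x23748) x23772) x23764) (Nat.mul x23766 (nat_lit 2))) x4084)
    (Nat.sub (Nat.sub (Nat.add (Nat.add (Nat.add (Nat.add (Nat.add (Nat.add (Nat.add (Nat.add (Nat.add (Nat.add C x10648) x28144) x25228) x23284) x23932) x23716) x23752) x23788) x23764) x23772) x43452) x4088)
    (Nat.sub (Nat.add (Nat.add (Nat.add (Nat.add (Nat.add (Nat.add (Nat.add (Nat.add (Nat.add (Nat.add (Nat.add C x10650) x28146) x25230) x23286) x23934) x23718) x23754) x23790) x23766) x23778) x23770) x4090)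
    (Nat.sub (Nat.add (Nat.add (Nat.add (Nat.add (Nat.add (Nat.add (Nat.add (Nat.add C x10656) x28152) x25236) x23292) x23940) x23724) x23796) x23772) x4096)
    (Nat.sub (Nat.sub (Nat.add (Nat.add (Nat.add (Nat.add (Nat.add (Nat.add (Nat.add (Nat.add C x23788) x10666) x28162) x25246) x23302) x23950) x23770) x23790) x43470) x4106)
    (Nat.sub (Nat.add (Nat.add (Nat.add (Nat.add (Nat.add (Nat.add (Nat.add (Nat.add C x10668) x28164) x25248) x23304) x23952) x23772) x23796) x23788) x4108)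
    (Nat.sub (Nat.add (Nat.add (Nat.add (Nat.add (Nat.add (Nat.add (Nat.add (Nat.add C (Nat.mul x23796 (nat_lit 2))) x10674) x28170) x25254) x23310) x23958) x23778) x23790) x4114)
    (Nat.sub (Nat.add (Nat.add (Nat.add (Nat.add (Nat.add (Nat.add C (Nat.mul x23822 (nat_lit 2))) x10700) x28196) x25280) x23660) x23828) x43504)
    (Nat.sub (Nat.add (Nat.add (Nat.add (Nat.add (Nat.add (Nat.add (Nat.add (Nat.add (Nat.add C x23828) x10706) x28202) x25286) x23666) x23846) x23822) x23834) x23830) x43510)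
    (Nat.sub (Nat.sub (Nat.add (Nat.add (Nat.add (Nat.add (Nat.add (Nat.add (Nat.add (Nat.add C x23830) x10708) x28204) x25288) x23668) x23848) x23836) x23828) x43512) x4148)
    (Nat.sub (Nat.sub (Nat.add (Nat.add (Nat.add (Nat.add (Nat.add (Nat.add (Nat.add C x10712) x28208) x25292) x23672) x23852) x23828) x23836) (Nat.mul x23834 (nat_lit 2))) x43516)
    (Nat.sub (Nat.sub (Nat.add (Nat.add (Nat.add (Nat.add (Nat.add (Nat.add (Nat.add (Nat.add C x10714) x28210) x25294) x23674) x23854) x23830) x23834) x23838) x43518) x4154)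
    (Nat.sub (Nat.add (Nat.add (Nat.add (Nat.add (Nat.add (Nat.add C x10716) x28212) x25296) x23676) x23856) x23836) x4156)
    (Nat.sub (Nat.add (Nat.add (Nat.add (Nat.add (Nat.add (Nat.add (Nat.add (Nat.add C x10724) x28220) x25304) x23684) x23900) x23828) x23852) x23848) x43528)
    (Nat.sub (Nat.sub (Nat.sub (Nat.add (Nat.add (Nat.add (Nat.add (Nat.add (Nat.add (Nat.add (Nat.add C x10726) x28222) x25306) x23686) x23902) x23830) x23854) x23846) x23848) x43530) x4166)
    (Nat.sub (Nat.sub (Nat.add (Nat.add (Nat.add (Nat.add (Nat.add (Nat.add (Nat.add (Nat.add (Nat.add C x10730) x28226) x25310) x23690) x23906) x23834) x23870) x23846) x23854) x23852) x43534)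
    (Nat.sub (Nat.sub (Nat.add (Nat.add (Nat.add (Nat.add (Nat.add (Nat.add (Nat.add (Nat.add (Nat.add (Nat.add (Nat.add C x10732) x28228) x25312) x23692) x23908) x23836) x23872) x23848) x23860) x23852) x23856) x43536) x4172)
    (Nat.sub (Nat.sub (Nat.add (Nat.add (Nat.add (Nat.add (Nat.add (Nat.add (Nat.add (Nat.add (Nat.add C x10734) x28230) x25314) x23694) x23910) x23838) x23874) x23862) x23854) x23856) x4174)
    (Nat.sub (Nat.sub (Nat.sub (Nat.add (Nat.add (Nat.add (Nat.add (Nat.add (Nat.add (Nat.add (Nat.add C x10738) x28234) x25318) x23698) x23914) x23878) x23854) x23862) x23860) x43542) x4178)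
    (Nat.sub (Nat.add (Nat.add (Nat.add (Nat.add (Nat.add (Nat.add (Nat.add (Nat.add C x10740) x28236) x25320) x23700) x23916) x23880) x23856) x23860) x4180)
    (Nat.sub (Nat.sub (Nat.add (Nat.add (Nat.add (Nat.add (Nat.add (Nat.add (Nat.add C x10748) x28244) x25328) x23708) x23924) x23852) x23872) (Nat.mul x23870 (nat_lit 2))) x43552)
    (Nat.sub (Nat.sub (Nat.sub (Nat.add (Nat.add (Nat.add (Nat.add (Nat.add (Nat.add (Nat.add (Nat.add (Nat.add C x10750) x28246) x25330) x23710) x23926) x23854) x23878) x23870) x23874) (Nat.mul x23872 (nat_lit 2))) x43554) x4190)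
    (Nat.sub (Nat.sub (Nat.add (Nat.add (Nat.add (Nat.add (Nat.add (Nat.add (Nat.add (Nat.add C x10752) x28248) x25332) x23712) x23928) x23856) x23880) x23872) (Nat.mul x23874 (nat_lit 4))) x4192)
    (Nat.sub (Nat.sub (Nat.sub (Nat.add (Nat.add (Nat.add (Nat.add (Nat.add (Nat.add (Nat.add (Nat.add C x10756) x28252) x25336) x23716) x23932) x23860) x23872) x23880) x23878) x43560) x4196)
    (Nat.sub (Nat.sub (Nat.add (Nat.add (Nat.add (Nat.add (Nat.add (Nat.add (Nat.add (Nat.add (Nat.add C x10758) x28254) x25338) x23718) x23934) x23862) x23874) x23886) x23878) x23880) x4198)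
    (Nat.sub (Nat.add (Nat.add (Nat.add (Nat.add (Nat.add (Nat.add C x10764) x28260) x25344) x23724) x23940) x23880) x4204)
    (Nat.sub (Nat.add (Nat.add (Nat.add (Nat.add (Nat.add (Nat.add (Nat.add (Nat.add C (Nat.mul x23900 (nat_lit 2))) x10778) x28274) x25358) x23738) x23846) x23906) x23902) x43582)
    (Nat.sub (Nat.sub (Nat.add (Nat.add (Nat.add (Nat.add (Nat.add (Nat.add (Nat.add (Nat.add C x23902) x10780) x28276) x25360) x23740) x23848) x23908) x23900) x43584) x4220)
    (Nat.sub (Nat.add (Nat.add (Nat.add (Nat.add (Nat.add (Nat.add (Nat.add (Nat.add C x10784) x28280) x25364) x23744) x23852) x23924) x23900) x23908) x43588)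
    (Nat.sub (Nat.sub (Nat.add (Nat.add (Nat.add (Nat.add (Nat.add (Nat.add (Nat.add (Nat.add (Nat.add (Nat.add (Nat.add C x23908) x10786) x28282) x25366) x23746) x23854) x23926) x23902) x23914) x23906) x23910) x43590) x4226)
    (Nat.sub (Nat.add (Nat.add (Nat.add (Nat.add (Nat.add (Nat.add (Nat.add (Nat.add C x10788) x28284) x25368) x23748) x23856) x23928) x23916) x23908) x4228)
    (Nat.sub (Nat.sub (Nat.sub (Nat.add (Nat.add (Nat.add (Nat.add (Nat.add (Nat.add (Nat.add (Nat.add C x10792) x28288) x25372) x23752) x23860) x23932) x23908) x23916) x23914) x43596) x4232)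
    (Nat.sub (Nat.add (Nat.add (Nat.add (Nat.add (Nat.add (Nat.add (Nat.add (Nat.add C x10794) x28290) x25374) x23754) x23862) x23934) x23910) x23914) x4234)
    (Nat.sub (Nat.add (Nat.add (Nat.add (Nat.add (Nat.add (Nat.add (Nat.add (Nat.add (Nat.add C x23924) x10802) x28298) x25382) x23762) x23870) x23978) x23906) x23926) x43606)
    (Nat.sub (Nat.sub (Nat.add (Nat.add (Nat.add (Nat.add (Nat.add (Nat.add (Nat.add (Nat.add (Nat.add (Nat.add (Nat.add C x23926) x10804) x28300) x25384) x23764) x23872) x23980) x23908) x23932) x23924) x23928) x43608) x4244)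
    (Nat.sub (Nat.sub (Nat.add (Nat.add (Nat.add (Nat.add (Nat.add (Nat.add (Nat.add (Nat.add (Nat.add C x10806) x28302) x25386) x23766) x23874) x23982) x23910) x23934) x23926) x23928) x4246)
    (Nat.sub (Nat.sub (Nat.add (Nat.add (Nat.add (Nat.add (Nat.add (Nat.add (Nat.add (Nat.add (Nat.add (Nat.add (Nat.add C x23932) x10810) x28306) x25390) x23770) x23878) x23986) x23914) x23950) x23926) x23934) x43614) x4250)
    (Nat.sub (Nat.add (Nat.add (Nat.add (Nat.add (Nat.add (Nat.add (Nat.add (Nat.add (Nat.add (Nat.add (Nat.add (Nat.add C x23934) x10812) x28308) x25392) x23772) x23880) x23988) x23916) x23952) x23928) x23940) x23932) x4252)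
    (Nat.sub (Nat.add (Nat.add (Nat.add (Nat.add (Nat.add (Nat.add (Nat.add (Nat.add (Nat.add C x23940) x10818) x28314) x25398) x23778) x23886) x23994) x23958) x23934) x4258)
    (Nat.sub (Nat.sub (Nat.add (Nat.add (Nat.add (Nat.add (Nat.add (Nat.add (Nat.add (Nat.add C x23950) x10828) x28324) x25408) x23788) x24004) x23932) x23952) x43632) x4268)
    (Nat.sub (Nat.add (Nat.add (Nat.add (Nat.add (Nat.add (Nat.add (Nat.add (Nat.add C x10830) x28326) x25410) x23790) x24006) x23934) x23958) x23950) x4270)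
    (Nat.sub (Nat.add (Nat.add (Nat.add (Nat.add (Nat.add (Nat.add (Nat.add (Nat.add C (Nat.mul x23958 (nat_lit 2))) x10836) x28332) x25416) x23796) x24012) x23940) x23952) x4276)
    (Nat.sub (Nat.add (Nat.add (Nat.add (Nat.add (Nat.add (Nat.add C (Nat.mul x23978 (nat_lit 2))) x10856) x28352) x25436) x23924) x23980) x43660)
    (Nat.sub (Nat.sub (Nat.add (Nat.add (Nat.add (Nat.add (Nat.add (Nat.add (Nat.add (Nat.add C (Nat.mul x23980 (nat_lit 2))) x10858) x28354) x25438) x23926) x23986) x23978) x23982) x43662) x4298)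
    (Nat.sub (Nat.add (Nat.add (Nat.add (Nat.add (Nat.add (Nat.add C x10860) x28356) x25440) x23928) x23988) x23980) x4300)
    (Nat.sub (Nat.sub (Nat.add (Nat.add (Nat.add (Nat.add (Nat.add (Nat.add (Nat.add (Nat.add C x23986) x10864) x28360) x25444) x23932) x24004) x23980) x23988) x43668) x4304)
    (Nat.sub (Nat.add (Nat.add (Nat.add (Nat.add (Nat.add (Nat.add (Nat.add (Nat.add (Nat.add C x23988) x10866) x28362) x25446) x23934) x24006) x23982) x23994) x23986) x4306)
    (Nat.sub (Nat.add (Nat.add (Nat.add (Nat.add (Nat.add (Nat.add C x10872) x28368) x25452) x23940) x24012) x23988) x4312)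
    (Nat.sub (Nat.sub (Nat.add (Nat.add (Nat.add (Nat.add (Nat.add (Nat.add (Nat.add C (Nat.mul x24004 (nat_lit 3))) x10882) x28378) x25462) x23950) x23986) x24006) x43686) x4322)
    (Nat.sub (Nat.add (Nat.add (Nat.add (Nat.add (Nat.add (Nat.add (Nat.add (Nat.add C (Nat.mul x24006 (nat_lit 2))) x10884) x28380) x25464) x23952) x23988) x24012) x24004) x4324)
    (Nat.sub (Nat.add (Nat.add (Nat.add (Nat.add (Nat.add (Nat.add (Nat.add (Nat.add C (Nat.mul x24012 (nat_lit 3))) x10890) x28386) x25470) x23958) x23994) x24030) x24006) x4330)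
    (Nat.sub (Nat.add (Nat.add (Nat.add (Nat.add (Nat.add C (Nat.mul x24030 (nat_lit 4))) x10908) x28404) x25488) x24012) x4348)
    (Nat.sub (Nat.add (Nat.add (Nat.add (Nat.add (Nat.add (Nat.add C (Nat.mul x24110 (nat_lit 2))) x10988) x28484) x22652) x24164) x24128) x43792)
    (Nat.sub (Nat.add (Nat.add (Nat.add (Nat.add (Nat.add (Nat.add C x11006) x28502) x22670) x24182) x24110) x24134) x43810)
    (Nat.sub (Nat.add (Nat.add (Nat.add (Nat.add (Nat.add (Nat.add C x11012) x28508) x22676) x24188) x24128) x24136) x43816)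
    (Nat.sub (Nat.sub (Nat.add (Nat.add (Nat.add (Nat.add (Nat.add (Nat.add C x24136) x11014) x28510) x22678) x24190) x24134) x43818) x4454)
    (Nat.sub (Nat.add (Nat.add (Nat.add (Nat.add (Nat.add (Nat.add C x11042) x28538) x22706) x24326) x24110) x24182) x43846)
    (Nat.sub (Nat.add (Nat.add (Nat.add (Nat.add (Nat.add (Nat.add (Nat.add (Nat.add (Nat.add C x11060) x28556) x22724) x24344) x24128) x24236) x24164) x24200) x24188) x43864)
    (Nat.sub (Nat.sub (Nat.add (Nat.add (Nat.add (Nat.add (Nat.add (Nat.add (Nat.add (Nat.add (Nat.add C x11066) x28562) x22730) x24350) x24134) x24242) x24206) x24182) x24190) x24188) x43870)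
    (Nat.sub (Nat.sub (Nat.add (Nat.add (Nat.add (Nat.add (Nat.add (Nat.add (Nat.add (Nat.add C x11068) x28564) x22732) x24352) x24136) x24244) x24208) x24188) x43872) x4508)
    (Nat.sub (Nat.sub (Nat.add (Nat.add (Nat.add (Nat.add (Nat.add (Nat.add (Nat.add C x11078) x28574) x22742) x24362) x24254) x24182) x24206) (Nat.mul x24200 (nat_lit 2))) x43882)
    (Nat.sub (Nat.sub (Nat.add (Nat.add (Nat.add (Nat.add (Nat.add (Nat.add (Nat.add (Nat.add (Nat.add C x11084) x28580) x22748) x24368) x24260) x24188) x24200) x24212) x24208) x24206) x43888)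
    (Nat.sub (Nat.sub (Nat.sub (Nat.add (Nat.add (Nat.add (Nat.add (Nat.add (Nat.add (Nat.add (Nat.add C x11086) x28582) x22750) x24370) x24262) x24190) x24214) x24206) x24208) x43890) x4526)
    (Nat.sub (Nat.sub (Nat.add (Nat.add (Nat.add (Nat.add (Nat.add (Nat.add (Nat.add C x11090) x28586) x22754) x24374) x24266) x24206) x24214) (Nat.mul x24212 (nat_lit 2))) x43894)
    (Nat.sub (Nat.sub (Nat.add (Nat.add (Nat.add (Nat.add (Nat.add (Nat.add (Nat.add (Nat.add C x11092) x28588) x22756) x24376) x24268) x24208) x24212) x24216) x43896) x4532)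
    (Nat.sub (Nat.add (Nat.add (Nat.add (Nat.add (Nat.add (Nat.add C x11094) x28590) x22758) x24378) x24270) x24214) x4534)
    (Nat.sub (Nat.sub (Nat.add (Nat.add (Nat.add (Nat.add (Nat.add (Nat.add (Nat.add C x11114) x28610) x22778) x24398) x24182) x24254) x24242) (Nat.mul x24236 (nat_lit 2))) x43918)
    (Nat.sub (Nat.sub (Nat.add (Nat.add (Nat.add (Nat.add (Nat.add (Nat.add (Nat.add (Nat.add C x11120) x28616) x22784) x24404) x24188) x24260) x24236) x24244) (Nat.mul x24242 (nat_lit 4))) x43924)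
    (Nat.sub (Nat.sub (Nat.sub (Nat.add (Nat.add (Nat.add (Nat.add (Nat.add (Nat.add (Nat.add C x11122) x28618) x22786) x24406) x24190) x24262) x24242) (Nat.mul x24244 (nat_lit 3))) x43926) x4562)
    (Nat.sub (Nat.sub (Nat.add (Nat.add (Nat.add (Nat.add (Nat.add (Nat.add (Nat.add C x11132) x28628) x22796) x24416) x24200) x24236) x24260) (Nat.mul x24254 (nat_lit 2))) x43936)
    (Nat.sub (Nat.sub (Nat.add (Nat.add (Nat.add (Nat.add (Nat.add (Nat.add (Nat.add (Nat.add (Nat.add (Nat.add C x11138) x28634) x22802) x24422) x24206) x24242) x24278) x24254) x24266) x24262) (Nat.mul x24260 (nat_lit 2))) x43942)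
    (Nat.sub (Nat.sub (Nat.sub (Nat.add (Nat.add (Nat.add (Nat.add (Nat.add (Nat.add (Nat.add (Nat.add (Nat.add C x11140) x28636) x22804) x24424) x24208) x24244) x24280) x24268) x24260) (Nat.mul x24262 (nat_lit 2))) x43944) x4580)
    (Nat.sub (Nat.sub (Nat.add (Nat.add (Nat.add (Nat.add (Nat.add (Nat.add (Nat.add (Nat.add C x11144) x28640) x22808) x24428) x24212) x24284) x24260) x24268) (Nat.mul x24266 (nat_lit 4))) x43948)
    (Nat.sub (Nat.sub (Nat.sub (Nat.add (Nat.add (Nat.add (Nat.add (Nat.add (Nat.add (Nat.add (Nat.add (Nat.add C x11146) x28642) x22810) x24430) x24214) x24286) x24262) x24266) x24270) (Nat.mul x24268 (nat_lit 2))) x43950) x4586)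
    (Nat.sub (Nat.sub (Nat.add (Nat.add (Nat.add (Nat.add (Nat.add (Nat.add (Nat.add C x11148) x28644) x22812) x24432) x24216) x24288) x24268) (Nat.mul x24270 (nat_lit 2))) x4588)
    (Nat.sub (Nat.sub (Nat.add (Nat.add (Nat.add (Nat.add (Nat.add (Nat.add (Nat.add C x11156) x28652) x22820) x24440) x24260) x24284) x24280) (Nat.mul x24278 (nat_lit 2))) x43960)
    (Nat.sub (Nat.sub (Nat.sub (Nat.add (Nat.add (Nat.add (Nat.add (Nat.add (Nat.add (Nat.add C x11158) x28654) x22822) x24442) x24262) x24286) x24278) (Nat.mul x24280 (nat_lit 3))) x43962) x4598)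
    (Nat.sub (Nat.sub (Nat.add (Nat.add (Nat.add (Nat.add (Nat.add (Nat.add (Nat.add C x11162) x28658) x22826) x24446) x24266) x24278) x24286) (Nat.mul x24284 (nat_lit 2))) x43966)
    (Nat.sub (Nat.sub (Nat.sub (Nat.add (Nat.add (Nat.add (Nat.add (Nat.add (Nat.add (Nat.add (Nat.add (Nat.add C x11164) x28660) x22828) x24448) x24268) x24280) x24292) x24284) x24288) x24286) x43968) x4604)
    (Nat.sub (Nat.sub (Nat.add (Nat.add (Nat.add (Nat.add (Nat.add (Nat.add (Nat.add C x11166) x28662) x22830) x24450) x24270) x24294) x24286) (Nat.mul x24288 (nat_lit 2))) x4606)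
    (Nat.sub (Nat.sub (Nat.sub (Nat.add (Nat.add (Nat.add (Nat.add (Nat.add (Nat.add C x11170) x28666) x22834) x24454) x24286) x24294) x24292) x43974) x4610)
    (Nat.sub (Nat.add (Nat.add (Nat.add (Nat.add (Nat.add (Nat.add C x11172) x28668) x22836) x24456) x24288) x24292) x4612)
    (Nat.sub (Nat.add (Nat.add (Nat.add (Nat.add (Nat.add (Nat.add C x11204) x28700) x22868) x24812) x24164) x24344) x44008)
    (Nat.sub (Nat.sub (Nat.add (Nat.add (Nat.add (Nat.add (Nat.add (Nat.add (Nat.add (Nat.add (Nat.add C x11222) x28718) x22886) x24830) x24182) x24398) x24326) x24362) x24350) x24344) x44026)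
    (Nat.sub (Nat.sub (Nat.add (Nat.add (Nat.add (Nat.add (Nat.add (Nat.add (Nat.add (Nat.add (Nat.add C x11228) x28724) x22892) x24836) x24188) x24404) x24368) x24344) x24352) (Nat.mul x24350 (nat_lit 2))) x44032)
    (Nat.sub (Nat.sub (Nat.sub (Nat.add (Nat.add (Nat.add (Nat.add (Nat.add (Nat.add (Nat.add (Nat.add C x11230) x28726) x22894) x24838) x24190) x24406) x24370) x24350) x24352) x44034) x4670)
    (Nat.sub (Nat.sub (Nat.add (Nat.add (Nat.add (Nat.add (Nat.add (Nat.add (Nat.add (Nat.add C x11240) x28736) x22904) x24848) x24200) x24416) x24344) x24368) (Nat.mul x24362 (nat_lit 4))) x44044)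
    (Nat.sub (Nat.sub (Nat.add (Nat.add (Nat.add (Nat.add (Nat.add (Nat.add (Nat.add (Nat.add (Nat.add (Nat.add C x11246) x28742) x22910) x24854) x24206) x24422) x24350) x24362) x24374) x24370) (Nat.mul x24368 (nat_lit 3))) x44050)
    (Nat.sub (Nat.sub (Nat.sub (Nat.add (Nat.add (Nat.add (Nat.add (Nat.add (Nat.add (Nat.add (Nat.add (Nat.add C x11248) x28744) x22912) x24856) x24208) x24424) x24352) x24376) x24368) (Nat.mul x24370 (nat_lit 3))) x44052) x4688)
    (Nat.sub (Nat.sub (Nat.add (Nat.add (Nat.add (Nat.add (Nat.add (Nat.add (Nat.add (Nat.add C x11252) x28748) x22916) x24860) x24212) x24428) x24368) x24376) (Nat.mul x24374 (nat_lit 4))) x44056)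
    (Nat.sub (Nat.sub (Nat.sub (Nat.add (Nat.add (Nat.add (Nat.add (Nat.add (Nat.add (Nat.add (Nat.add (Nat.add C x11254) x28750) x22918) x24862) x24214) x24430) x24370) x24374) x24378) (Nat.mul x24376 (nat_lit 2))) x44058) x4694)
    (Nat.sub (Nat.sub (Nat.add (Nat.add (Nat.add (Nat.add (Nat.add (Nat.add (Nat.add C x11256) x28752) x22920) x24864) x24216) x24432) x24376) (Nat.mul x24378 (nat_lit 2))) x4696)
    (Nat.sub (Nat.sub (Nat.add (Nat.add (Nat.add (Nat.add (Nat.add (Nat.add (Nat.add (Nat.add (Nat.add C x11276) x28772) x22940) x24884) x24236) x24560) x24344) x24416) x24404) x24398) x44080)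
    (Nat.sub (Nat.sub (Nat.add (Nat.add (Nat.add (Nat.add (Nat.add (Nat.add (Nat.add (Nat.add (Nat.add (Nat.add C x11282) x28778) x22946) x24890) x24242) x24566) x24350) x24422) x24398) x24406) (Nat.mul x24404 (nat_lit 3))) x44086)
    (Nat.sub (Nat.sub (Nat.sub (Nat.add (Nat.add (Nat.add (Nat.add (Nat.add (Nat.add (Nat.add (Nat.add (Nat.add C x11284) x28780) x22948) x24892) x24244) x24568) x24352) x24424) x24404) (Nat.mul x24406 (nat_lit 2))) x44088) x4724)
    (Nat.sub (Nat.sub (Nat.add (Nat.add (Nat.add (Nat.add (Nat.add (Nat.add (Nat.add (Nat.add (Nat.add (Nat.add C x11294) x28790) x22958) x24902) x24254) x24578) x24362) x24470) x24398) x24422) (Nat.mul x24416 (nat_lit 2))) x44098)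
    (Nat.sub (Nat.sub (Nat.add (Nat.add (Nat.add (Nat.add (Nat.add (Nat.add (Nat.add (Nat.add (Nat.add (Nat.add (Nat.add (Nat.add (Nat.add C x11300) x28796) x22964) x24908) x24260) x24584) x24368) x24476) x24404) x24440) x24416) x24428) x24424) (Nat.mul x24422 (nat_lit 2))) x44104)
    (Nat.sub (Nat.sub (Nat.sub (Nat.add (Nat.add (Nat.add (Nat.add (Nat.add (Nat.add (Nat.add (Nat.add (Nat.add (Nat.add (Nat.add (Nat.add C x11302) x28798) x22966) x24910) x24262) x24586) x24370) x24478) x24406) x24442) x24430) x24422) (Nat.mul x24424 (nat_lit 2))) x44106) x4742)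
    (Nat.sub (Nat.sub (Nat.add (Nat.add (Nat.add (Nat.add (Nat.add (Nat.add (Nat.add (Nat.add (Nat.add (Nat.add (Nat.add C x11306) x28802) x22970) x24914) x24266) x24590) x24374) x24482) x24446) x24422) x24430) (Nat.mul x24428 (nat_lit 4))) x44110)
    (Nat.sub (Nat.sub (Nat.sub (Nat.add (Nat.add (Nat.add (Nat.add (Nat.add (Nat.add (Nat.add (Nat.add (Nat.add (Nat.add (Nat.add (Nat.add C x11308) x28804) x22972) x24916) x24268) x24592) x24376) x24484) x24448) x24424) x24428) x24432) (Nat.mul x24430 (nat_lit 2))) x44112) x4748)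
    (Nat.sub (Nat.sub (Nat.add (Nat.add (Nat.add (Nat.add (Nat.add (Nat.add (Nat.add (Nat.add (Nat.add (Nat.add C x11310) x28806) x22974) x24918) x24270) x24594) x24378) x24486) x24450) x24430) (Nat.mul x24432 (nat_lit 2))) x4750)
    (Nat.sub (Nat.sub (Nat.add (Nat.add (Nat.add (Nat.add (Nat.add (Nat.add (Nat.add (Nat.add (Nat.add (Nat.add C x11318) x28814) x22982) x24926) x24278) x24602) x24494) x24422) x24446) x24442) (Nat.mul x24440 (nat_lit 3))) x44122)
    (Nat.sub (Nat.sub (Nat.sub (Nat.add (Nat.add (Nat.add (Nat.add (Nat.add (Nat.add (Nat.add (Nat.add (Nat.add (Nat.add C x11320) x28816) x22984) x24928) x24280) x24604) x24496) x24424) x24448) x24440) (Nat.mul x24442 (nat_lit 4))) x44124) x4760)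
    (Nat.sub (Nat.sub (Nat.add (Nat.add (Nat.add (Nat.add (Nat.add (Nat.add (Nat.add (Nat.add (Nat.add (Nat.add C x11324) x28820) x22988) x24932) x24284) x24608) x24500) x24428) x24440) x24448) (Nat.mul x24446 (nat_lit 3))) x44128)
    (Nat.sub (Nat.sub (Nat.sub (Nat.add (Nat.add (Nat.add (Nat.add (Nat.add (Nat.add (Nat.add (Nat.add (Nat.add (Nat.add (Nat.add (Nat.add C x11326) x28822) x22990) x24934) x24286) x24610) x24502) x24430) x24442) x24454) x24446) x24450) (Nat.mul x24448 (nat_lit 2))) x44130) x4766)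
    (Nat.sub (Nat.sub (Nat.add (Nat.add (Nat.add (Nat.add (Nat.add (Nat.add (Nat.add (Nat.add (Nat.add (Nat.add C x11328) x28824) x22992) x24936) x24288) x24612) x24504) x24432) x24456) x24448) (Nat.mul x24450 (nat_lit 3))) x4768)
    (Nat.sub (Nat.sub (Nat.sub (Nat.add (Nat.add (Nat.add (Nat.add (Nat.add (Nat.add (Nat.add (Nat.add (Nat.add C x11332) x28828) x22996) x24940) x24292) x24616) x24508) x24448) x24456) (Nat.mul x24454 (nat_lit 2))) x44136) x4772)
    (Nat.sub (Nat.sub (Nat.add (Nat.add (Nat.add (Nat.add (Nat.add (Nat.add (Nat.add (Nat.add (Nat.add C x11334) x28830) x22998) x24942) x24294) x24618) x24510) x24450) x24454) x24456) x4774)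
    (Nat.sub (Nat.sub (Nat.add (Nat.add (Nat.add (Nat.add (Nat.add (Nat.add (Nat.add C x11348) x28844) x23012) x24956) x24632) x24416) x24476) (Nat.mul x24470 (nat_lit 2))) x44152)
    (Nat.sub (Nat.sub (Nat.add (Nat.add (Nat.add (Nat.add (Nat.add (Nat.add (Nat.add (Nat.add (Nat.add (Nat.add C x11354) x28850) x23018) x24962) x24638) x24422) x24494) x24470) x24482) x24478) (Nat.mul x24476 (nat_lit 3))) x44158)
    (Nat.sub (Nat.sub (Nat.sub (Nat.add (Nat.add (Nat.add (Nat.add (Nat.add (Nat.add (Nat.add (Nat.add (Nat.add C x11356) x28852) x23020) x24964) x24640) x24424) x24496) x24484) x24476) (Nat.mul x24478 (nat_lit 3))) x44160) x4796)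
    (Nat.sub (Nat.sub (Nat.add (Nat.add (Nat.add (Nat.add (Nat.add (Nat.add (Nat.add (Nat.add (Nat.add C x11360) x28856) x23024) x24968) x24644) x24428) x24500) x24476) x24484) (Nat.mul x24482 (nat_lit 6))) x44164)
    (Nat.sub (Nat.sub (Nat.sub (Nat.add (Nat.add (Nat.add (Nat.add (Nat.add (Nat.add (Nat.add (Nat.add (Nat.add (Nat.add C x11362) x28858) x23026) x24970) x24646) x24430) x24502) x24478) x24482) x24486) (Nat.mul x24484 (nat_lit 4))) x44166) x4802)
    (Nat.sub (Nat.sub (Nat.add (Nat.add (Nat.add (Nat.add (Nat.add (Nat.add (Nat.add (Nat.add C x11364) x28860) x23028) x24972) x24648) x24432) x24504) x24484) (Nat.mul x24486 (nat_lit 4))) x4804)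
    (Nat.sub (Nat.sub (Nat.add (Nat.add (Nat.add (Nat.add (Nat.add (Nat.add (Nat.add (Nat.add (Nat.add C x11372) x28868) x23036) x24980) x24656) x24440) x24476) x24500) x24496) (Nat.mul x24494 (nat_lit 2))) x44176)
    (Nat.sub (Nat.sub (Nat.sub (Nat.add (Nat.add (Nat.add (Nat.add (Nat.add (Nat.add (Nat.add (Nat.add (Nat.add C x11374) x28870) x23038) x24982) x24658) x24442) x24478) x24502) x24494) (Nat.mul x24496 (nat_lit 3))) x44178) x4814)
    (Nat.sub (Nat.sub (Nat.add (Nat.add (Nat.add (Nat.add (Nat.add (Nat.add (Nat.add (Nat.add (Nat.add (Nat.add C x11378) x28874) x23042) x24986) x24662) x24446) x24482) x24518) x24494) x24502) (Nat.mul x24500 (nat_lit 3))) x44182)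
    (Nat.sub (Nat.sub (Nat.sub (Nat.add (Nat.add (Nat.add (Nat.add (Nat.add (Nat.add (Nat.add (Nat.add (Nat.add (Nat.add (Nat.add (Nat.add C x11380) x28876) x23044) x24988) x24664) x24448) x24484) x24520) x24496) x24508) x24500) x24504) (Nat.mul x24502 (nat_lit 2))) x44184) x4820)
    (Nat.sub (Nat.sub (Nat.add (Nat.add (Nat.add (Nat.add (Nat.add (Nat.add (Nat.add (Nat.add (Nat.add (Nat.add C x11382) x28878) x23046) x24990) x24666) x24450) x24486) x24522) x24510) x24502) (Nat.mul x24504 (nat_lit 3))) x4822)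
    (Nat.sub (Nat.sub (Nat.sub (Nat.add (Nat.add (Nat.add (Nat.add (Nat.add (Nat.add (Nat.add (Nat.add (Nat.add C x11386) x28882) x23050) x24994) x24670) x24454) x24526) x24502) x24510) (Nat.mul x24508 (nat_lit 3))) x44190) x4826)
    (Nat.sub (Nat.sub (Nat.add (Nat.add (Nat.add (Nat.add (Nat.add (Nat.add (Nat.add (Nat.add (Nat.add C x11388) x28884) x23052) x24996) x24672) x24456) x24528) x24504) x24508) (Nat.mul x24510 (nat_lit 2))) x4828)
    (Nat.sub (Nat.sub (Nat.add (Nat.add (Nat.add (Nat.add (Nat.add (Nat.add (Nat.add C x11396) x28892) x23060) x25004) x24680) x24500) x24520) (Nat.mul x24518 (nat_lit 2))) x44200)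
    (Nat.sub (Nat.sub (Nat.sub (Nat.add (Nat.add (Nat.add (Nat.add (Nat.add (Nat.add (Nat.add (Nat.add (Nat.add C x11398) x28894) x23062) x25006) x24682) x24502) x24526) x24518) x24522) (Nat.mul x24520 (nat_lit 2))) x44202) x4838)
    (Nat.sub (Nat.sub (Nat.add (Nat.add (Nat.add (Nat.add (Nat.add (Nat.add (Nat.add (Nat.add C x11400) x28896) x23064) x25008) x24684) x24504) x24528) x24520) (Nat.mul x24522 (nat_lit 4))) x4840)
    (Nat.sub (Nat.sub (Nat.sub (Nat.add (Nat.add (Nat.add (Nat.add (Nat.add (Nat.add (Nat.add (Nat.add C x11404) x28900) x23068) x25012) x24688) x24508) x24520) x24528) x24526) x44208) x4844)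
    (Nat.sub (Nat.sub (Nat.add (Nat.add (Nat.add (Nat.add (Nat.add (Nat.add (Nat.add (Nat.add (Nat.add C x11406) x28902) x23070) x25014) x24690) x24510) x24522) x24534) x24526) x24528) x4846)
    (Nat.sub (Nat.add (Nat.add (Nat.add (Nat.add (Nat.add (Nat.add C x11412) x28908) x23076) x25020) x24696) x24528) x4852)
    (Nat.sub (Nat.sub (Nat.add (Nat.add (Nat.add (Nat.add (Nat.add (Nat.add (Nat.add C x11438) x28934) x23102) x25046) x24398) x24578) x24566) (Nat.mul x24560 (nat_lit 2))) x44242)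
    (Nat.sub (Nat.sub (Nat.add (Nat.add (Nat.add (Nat.add (Nat.add (Nat.add (Nat.add (Nat.add C x11444) x28940) x23108) x25052) x24404) x24584) x24560) x24568) (Nat.mul x24566 (nat_lit 4))) x44248)
    (Nat.sub (Nat.sub (Nat.sub (Nat.add (Nat.add (Nat.add (Nat.add (Nat.add (Nat.add (Nat.add C x11446) x28942) x23110) x25054) x24406) x24586) x24566) (Nat.mul x24568 (nat_lit 3))) x44250) x4886)
    (Nat.sub (Nat.sub (Nat.add (Nat.add (Nat.add (Nat.add (Nat.add (Nat.add (Nat.add (Nat.add C x11456) x28952) x23120) x25064) x24416) x24632) x24560) x24584) (Nat.mul x24578 (nat_lit 4))) x44260)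
    (Nat.sub (Nat.sub (Nat.add (Nat.add (Nat.add (Nat.add (Nat.add (Nat.add (Nat.add (Nat.add (Nat.add (Nat.add (Nat.add C x11462) x28958) x23126) x25070) x24422) x24638) x24566) x24602) x24578) x24590) x24586) (Nat.mul x24584 (nat_lit 4))) x44266)
    (Nat.sub (Nat.sub (Nat.sub (Nat.add (Nat.add (Nat.add (Nat.add (Nat.add (Nat.add (Nat.add (Nat.add (Nat.add (Nat.add C x11464) x28960) x23128) x25072) x24424) x24640) x24568) x24604) x24592) x24584) (Nat.mul x24586 (nat_lit 4))) x44268) x4904)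
    (Nat.sub (Nat.sub (Nat.add (Nat.add (Nat.add (Nat.add (Nat.add (Nat.add (Nat.add (Nat.add (Nat.add C x11468) x28964) x23132) x25076) x24428) x24644) x24608) x24584) x24592) (Nat.mul x24590 (nat_lit 6))) x44272)
    (Nat.sub (Nat.sub (Nat.sub (Nat.add (Nat.add (Nat.add (Nat.add (Nat.add (Nat.add (Nat.add (Nat.add (Nat.add (Nat.add C x11470) x28966) x23134) x25078) x24430) x24646) x24610) x24586) x24590) x24594) (Nat.mul x24592 (nat_lit 4))) x44274) x4910)
    (Nat.sub (Nat.sub (Nat.add (Nat.add (Nat.add (Nat.add (Nat.add (Nat.add (Nat.add (Nat.add C x11472) x28968) x23136) x25080) x24432) x24648) x24612) x24592) (Nat.mul x24594 (nat_lit 4))) x4912)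
    (Nat.sub (Nat.sub (Nat.add (Nat.add (Nat.add (Nat.add (Nat.add (Nat.add (Nat.add (Nat.add (Nat.add C x11480) x28976) x23144) x25088) x24440) x24656) x24584) x24608) x24604) (Nat.mul x24602 (nat_lit 6))) x44284)
    (Nat.sub (Nat.sub (Nat.sub (Nat.add (Nat.add (Nat.add (Nat.add (Nat.add (Nat.add (Nat.add (Nat.add (Nat.add C x11482) x28978) x23146) x25090) x24442) x24658) x24586) x24610) x24602) (Nat.mul x24604 (nat_lit 7))) x44286) x4922)
    (Nat.sub (Nat.sub (Nat.add (Nat.add (Nat.add (Nat.add (Nat.add (Nat.add (Nat.add (Nat.add (Nat.add C x11486) x28982) x23150) x25094) x24446) x24662) x24590) x24602) x24610) (Nat.mul x24608 (nat_lit 6))) x44290)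
    (Nat.sub (Nat.sub (Nat.sub (Nat.add (Nat.add (Nat.add (Nat.add (Nat.add (Nat.add (Nat.add (Nat.add (Nat.add (Nat.add (Nat.add C x11488) x28984) x23152) x25096) x24448) x24664) x24592) x24604) x24616) x24608) x24612) (Nat.mul x24610 (nat_lit 5))) x44292) x4928)
    (Nat.sub (Nat.sub (Nat.add (Nat.add (Nat.add (Nat.add (Nat.add (Nat.add (Nat.add (Nat.add (Nat.add C x11490) x28986) x23154) x25098) x24450) x24666) x24594) x24618) x24610) (Nat.mul x24612 (nat_lit 6))) x4930)
    (Nat.sub (Nat.sub (Nat.sub (Nat.add (Nat.add (Nat.add (Nat.add (Nat.add (Nat.add (Nat.add (Nat.add C x11494) x28990) x23158) x25102) x24454) x24670) x24610) x24618) (Nat.mul x24616 (nat_lit 5))) x44298) x4934)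
    (Nat.sub (Nat.sub (Nat.add (Nat.add (Nat.add (Nat.add (Nat.add (Nat.add (Nat.add (Nat.add C x11496) x28992) x23160) x25104) x24456) x24672) x24612) x24616) (Nat.mul x24618 (nat_lit 4))) x4936)
    (Nat.sub (Nat.sub (Nat.add (Nat.add (Nat.add (Nat.add (Nat.add (Nat.add (Nat.add C x11510) x29006) x23174) x25118) x24470) x24578) x24638) (Nat.mul x24632 (nat_lit 2))) x44314)
    (Nat.sub (Nat.sub (Nat.add (Nat.add (Nat.add (Nat.add (Nat.add (Nat.add (Nat.add (Nat.add (Nat.add (Nat.add C x11516) x29012) x23180) x25124) x24476) x24584) x24656) x24632) x24644) x24640) (Nat.mul x24638 (nat_lit 3))) x44320)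
    (Nat.sub (Nat.sub (Nat.sub (Nat.add (Nat.add (Nat.add (Nat.add (Nat.add (Nat.add (Nat.add (Nat.add (Nat.add C x11518) x29014) x23182) x25126) x24478) x24586) x24658) x24646) x24638) (Nat.mul x24640 (nat_lit 3))) x44322) x4958)
    (Nat.sub (Nat.sub (Nat.add (Nat.add (Nat.add (Nat.add (Nat.add (Nat.add (Nat.add (Nat.add (Nat.add C x11522) x29018) x23186) x25130) x24482) x24590) x24662) x24638) x24646) (Nat.mul x24644 (nat_lit 6))) x44326)
    (Nat.sub (Nat.sub (Nat.sub (Nat.add (Nat.add (Nat.add (Nat.add (Nat.add (Nat.add (Nat.add (Nat.add (Nat.add (Nat.add C x11524) x29020) x23188) x25132) x24484) x24592) x24664) x24640) x24644) x24648) (Nat.mul x24646 (nat_lit 4))) x44328) x4964)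
    (Nat.sub (Nat.sub (Nat.add (Nat.add (Nat.add (Nat.add (Nat.add (Nat.add (Nat.add (Nat.add C x11526) x29022) x23190) x25134) x24486) x24594) x24666) x24646) (Nat.mul x24648 (nat_lit 4))) x4966)
    (Nat.sub (Nat.sub (Nat.add (Nat.add (Nat.add (Nat.add (Nat.add (Nat.add (Nat.add (Nat.add (Nat.add (Nat.add C x11534) x29030) x23198) x25142) x24494) x24602) x24710) x24638) x24662) x24658) (Nat.mul x24656 (nat_lit 3))) x44338)
    (Nat.sub (Nat.sub (Nat.sub (Nat.add (Nat.add (Nat.add (Nat.add (Nat.add (Nat.add (Nat.add (Nat.add (Nat.add (Nat.add C x11536) x29032) x23200) x25144) x24496) x24604) x24712) x24640) x24664) x24656) (Nat.mul x24658 (nat_lit 4))) x44340) x4976)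
    (Nat.sub (Nat.sub (Nat.add (Nat.add (Nat.add (Nat.add (Nat.add (Nat.add (Nat.add (Nat.add (Nat.add (Nat.add (Nat.add C x11540) x29036) x23204) x25148) x24500) x24608) x24716) x24644) x24680) x24656) x24664) (Nat.mul x24662 (nat_lit 4))) x44344)
    (Nat.sub (Nat.sub (Nat.sub (Nat.add (Nat.add (Nat.add (Nat.add (Nat.add (Nat.add (Nat.add (Nat.add (Nat.add (Nat.add (Nat.add (Nat.add (Nat.add C x11542) x29038) x23206) x25150) x24502) x24610) x24718) x24646) x24682) x24658) x24670) x24662) x24666) (Nat.mul x24664 (nat_lit 3))) x44346) x4982)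
    (Nat.sub (Nat.sub (Nat.add (Nat.add (Nat.add (Nat.add (Nat.add (Nat.add (Nat.add (Nat.add (Nat.add (Nat.add (Nat.add C x11544) x29040) x23208) x25152) x24504) x24612) x24720) x24648) x24684) x24672) x24664) (Nat.mul x24666 (nat_lit 4))) x4984)
    (Nat.sub (Nat.sub (Nat.sub (Nat.add (Nat.add (Nat.add (Nat.add (Nat.add (Nat.add (Nat.add (Nat.add (Nat.add (Nat.add C x11548) x29044) x23212) x25156) x24508) x24616) x24724) x24688) x24664) x24672) (Nat.mul x24670 (nat_lit 4))) x44352) x4988)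
    (Nat.sub (Nat.sub (Nat.add (Nat.add (Nat.add (Nat.add (Nat.add (Nat.add (Nat.add (Nat.add (Nat.add (Nat.add C x11550) x29046) x23214) x25158) x24510) x24618) x24726) x24690) x24666) x24670) (Nat.mul x24672 (nat_lit 3))) x4990)
    (Nat.sub (Nat.sub (Nat.add (Nat.add (Nat.add (Nat.add (Nat.add (Nat.add (Nat.add (Nat.add C x11558) x29054) x23222) x25166) x24518) x24734) x24662) x24682) (Nat.mul x24680 (nat_lit 4))) x44362)
    (Nat.sub (Nat.sub (Nat.sub (Nat.add (Nat.add (Nat.add (Nat.add (Nat.add (Nat.add (Nat.add (Nat.add (Nat.add (Nat.add C x11560) x29056) x23224) x25168) x24520) x24736) x24664) x24688) x24680) x24684) (Nat.mul x24682 (nat_lit 4))) x44364) x5000)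
    (Nat.sub (Nat.sub (Nat.add (Nat.add (Nat.add (Nat.add (Nat.add (Nat.add (Nat.add (Nat.add (Nat.add C x11562) x29058) x23226) x25170) x24522) x24738) x24666) x24690) x24682) (Nat.mul x24684 (nat_lit 6))) x5002)
    (Nat.sub (Nat.sub (Nat.sub (Nat.add (Nat.add (Nat.add (Nat.add (Nat.add (Nat.add (Nat.add (Nat.add (Nat.add C x11566) x29062) x23230) x25174) x24526) x24742) x24670) x24682) x24690) (Nat.mul x24688 (nat_lit 3))) x44370) x5006)
    (Nat.sub (Nat.sub (Nat.add (Nat.add (Nat.add (Nat.add (Nat.add (Nat.add (Nat.add (Nat.add (Nat.add (Nat.add C x11568) x29064) x23232) x25176) x24528) x24744) x24672) x24684) x24696) x24688) (Nat.mul x24690 (nat_lit 3))) x5008)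
    (Nat.sub (Nat.sub (Nat.add (Nat.add (Nat.add (Nat.add (Nat.add (Nat.add (Nat.add C x11574) x29070) x23238) x25182) x24534) x24750) x24690) (Nat.mul x24696 (nat_lit 2))) x5014)
    (Nat.sub (Nat.sub (Nat.add (Nat.add (Nat.add (Nat.add (Nat.add (Nat.add (Nat.add C x11588) x29084) x23252) x25196) x24656) x24716) x24712) (Nat.mul x24710 (nat_lit 2))) x44392)
    (Nat.sub (Nat.sub (Nat.sub (Nat.add (Nat.add (Nat.add (Nat.add (Nat.add (Nat.add (Nat.add C x11590) x29086) x23254) x25198) x24658) x24718) x24710) (Nat.mul x24712 (nat_lit 3))) x44394) x5030)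
    (Nat.sub (Nat.sub (Nat.add (Nat.add (Nat.add (Nat.add (Nat.add (Nat.add (Nat.add (Nat.add C x11594) x29090) x23258) x25202) x24662) x24734) x24710) x24718) (Nat.mul x24716 (nat_lit 4))) x44398)
    (Nat.sub (Nat.sub (Nat.sub (Nat.add (Nat.add (Nat.add (Nat.add (Nat.add (Nat.add (Nat.add (Nat.add (Nat.add (Nat.add C x11596) x29092) x23260) x25204) x24664) x24736) x24712) x24724) x24716) x24720) (Nat.mul x24718 (nat_lit 3))) x44400) x5036)
    (Nat.sub (Nat.sub (Nat.add (Nat.add (Nat.add (Nat.add (Nat.add (Nat.add (Nat.add (Nat.add C x11598) x29094) x23262) x25206) x24666) x24738) x24726) x24718) (Nat.mul x24720 (nat_lit 4))) x5038)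
    (Nat.sub (Nat.sub (Nat.sub (Nat.add (Nat.add (Nat.add (Nat.add (Nat.add (Nat.add (Nat.add (Nat.add C x11602) x29098) x23266) x25210) x24670) x24742) x24718) x24726) (Nat.mul x24724 (nat_lit 5))) x44406) x5042)
    (Nat.sub (Nat.sub (Nat.add (Nat.add (Nat.add (Nat.add (Nat.add (Nat.add (Nat.add (Nat.add C x11604) x29100) x23268) x25212) x24672) x24744) x24720) x24724) (Nat.mul x24726 (nat_lit 4))) x5044)
    (Nat.sub (Nat.sub (Nat.add (Nat.add (Nat.add (Nat.add (Nat.add (Nat.add (Nat.add C x11612) x29108) x23276) x25220) x24680) x24716) x24736) (Nat.mul x24734 (nat_lit 2))) x44416)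
    (Nat.sub (Nat.sub (Nat.sub (Nat.add (Nat.add (Nat.add (Nat.add (Nat.add (Nat.add (Nat.add (Nat.add (Nat.add C x11614) x29110) x23278) x25222) x24682) x24718) x24742) x24734) x24738) (Nat.mul x24736 (nat_lit 2))) x44418) x5054)
    (Nat.sub (Nat.sub (Nat.add (Nat.add (Nat.add (Nat.add (Nat.add (Nat.add (Nat.add (Nat.add C x11616) x29112) x23280) x25224) x24684) x24720) x24744) x24736) (Nat.mul x24738 (nat_lit 4))) x5056)
    (Nat.sub (Nat.sub (Nat.sub (Nat.add (Nat.add (Nat.add (Nat.add (Nat.add (Nat.add (Nat.add (Nat.add (Nat.add C x11620) x29116) x23284) x25228) x24688) x24724) x24760) x24736) x24744) (Nat.mul x24742 (nat_lit 2))) x44424) x5060)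
    (Nat.sub (Nat.sub (Nat.add (Nat.add (Nat.add (Nat.add (Nat.add (Nat.add (Nat.add (Nat.add (Nat.add (Nat.add C x11622) x29118) x23286) x25230) x24690) x24726) x24762) x24738) x24750) x24742) (Nat.mul x24744 (nat_lit 2))) x5062)
    (Nat.sub (Nat.sub (Nat.add (Nat.add (Nat.add (Nat.add (Nat.add (Nat.add (Nat.add C x11628) x29124) x23292) x25236) x24696) x24768) x24744) (Nat.mul x24750 (nat_lit 2))) x5068)
    (Nat.sub (Nat.sub (Nat.sub (Nat.add (Nat.add (Nat.add (Nat.add (Nat.add (Nat.add C x11638) x29134) x23302) x25246) x24742) x24762) x24760) x44442) x5078)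
    (Nat.sub (Nat.sub (Nat.add (Nat.add (Nat.add (Nat.add (Nat.add (Nat.add (Nat.add C x11640) x29136) x23304) x25248) x24744) x24768) x24760) (Nat.mul x24762 (nat_lit 2))) x5080)
    (Nat.sub (Nat.add (Nat.add (Nat.add (Nat.add (Nat.add (Nat.add C x11646) x29142) x23310) x25254) x24750) x24762) x5086)
    (Nat.sub (Nat.add (Nat.add (Nat.add (Nat.add (Nat.add (Nat.add C (Nat.mul x24812 (nat_lit 2))) x11690) x29186) x23354) x24326) x24830) x44494)
    (Nat.sub (Nat.add (Nat.add (Nat.add (Nat.add (Nat.add (Nat.add (Nat.add (Nat.add (Nat.add C x24830) x11708) x29204) x23372) x24344) x24884) x24812) x24848) x24836) x44512)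
    (Nat.sub (Nat.add (Nat.add (Nat.add (Nat.add (Nat.add (Nat.add (Nat.add (Nat.add C x11714) x29210) x23378) x24350) x24890) x24854) x24830) x24838) x44518)
    (Nat.sub (Nat.sub (Nat.add (Nat.add (Nat.add (Nat.add (Nat.add (Nat.add (Nat.add (Nat.add C x24838) x11716) x29212) x23380) x24352) x24892) x24856) x24836) x44520) x5156)
    (Nat.sub (Nat.sub (Nat.add (Nat.add (Nat.add (Nat.add (Nat.add (Nat.add (Nat.add C x11726) x29222) x23390) x24362) x24902) x24830) x24854) (Nat.mul x24848 (nat_lit 2))) x44530)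
    (Nat.sub (Nat.sub (Nat.add (Nat.add (Nat.add (Nat.add (Nat.add (Nat.add (Nat.add (Nat.add (Nat.add C x11732) x29228) x23396) x24368) x24908) x24836) x24848) x24860) x24856) x24854) x44536)
    (Nat.sub (Nat.sub (Nat.sub (Nat.add (Nat.add (Nat.add (Nat.add (Nat.add (Nat.add (Nat.add (Nat.add C x11734) x29230) x23398) x24370) x24910) x24838) x24862) x24854) x24856) x44538) x5174)
    (Nat.sub (Nat.sub (Nat.add (Nat.add (Nat.add (Nat.add (Nat.add (Nat.add (Nat.add C x11738) x29234) x23402) x24374) x24914) x24854) x24862) (Nat.mul x24860 (nat_lit 2))) x44542)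
    (Nat.sub (Nat.sub (Nat.add (Nat.add (Nat.add (Nat.add (Nat.add (Nat.add (Nat.add (Nat.add C x11740) x29236) x23404) x24376) x24916) x24856) x24860) x24864) x44544) x5180)
    (Nat.sub (Nat.add (Nat.add (Nat.add (Nat.add (Nat.add (Nat.add C x11742) x29238) x23406) x24378) x24918) x24862) x5182)
    (Nat.sub (Nat.add (Nat.add (Nat.add (Nat.add (Nat.add (Nat.add (Nat.add (Nat.add C x11762) x29258) x23426) x24398) x25046) x24830) x24902) x24890) x44566)
    (Nat.sub (Nat.sub (Nat.add (Nat.add (Nat.add (Nat.add (Nat.add (Nat.add (Nat.add (Nat.add (Nat.add C x11768) x29264) x23432) x24404) x25052) x24836) x24908) x24884) x24892) (Nat.mul x24890 (nat_lit 2))) x44572)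
    (Nat.sub (Nat.sub (Nat.sub (Nat.add (Nat.add (Nat.add (Nat.add (Nat.add (Nat.add (Nat.add (Nat.add C x11770) x29266) x23434) x24406) x25054) x24838) x24910) x24890) x24892) x44574) x5210)
    (Nat.sub (Nat.sub (Nat.add (Nat.add (Nat.add (Nat.add (Nat.add (Nat.add (Nat.add (Nat.add (Nat.add C x11780) x29276) x23444) x24416) x25064) x24848) x24956) x24884) x24908) x24902) x44584)
    (Nat.sub (Nat.sub (Nat.add (Nat.add (Nat.add (Nat.add (Nat.add (Nat.add (Nat.add (Nat.add (Nat.add (Nat.add (Nat.add (Nat.add C x11786) x29282) x23450) x24422) x25070) x24854) x24962) x24890) x24926) x24902) x24914) x24910) x24908) x44590)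
    (Nat.sub (Nat.sub (Nat.sub (Nat.add (Nat.add (Nat.add (Nat.add (Nat.add (Nat.add (Nat.add (Nat.add (Nat.add (Nat.add (Nat.add C x11788) x29284) x23452) x24424) x25072) x24856) x24964) x24892) x24928) x24916) x24908) x24910) x44592) x5228)
    (Nat.sub (Nat.sub (Nat.add (Nat.add (Nat.add (Nat.add (Nat.add (Nat.add (Nat.add (Nat.add (Nat.add (Nat.add C x11792) x29288) x23456) x24428) x25076) x24860) x24968) x24932) x24908) x24916) (Nat.mul x24914 (nat_lit 3))) x44596)
    (Nat.sub (Nat.sub (Nat.sub (Nat.add (Nat.add (Nat.add (Nat.add (Nat.add (Nat.add (Nat.add (Nat.add (Nat.add (Nat.add (Nat.add C x11794) x29290) x23458) x24430) x25078) x24862) x24970) x24934) x24910) x24914) x24918) x24916) x44598) x5234)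
    (Nat.sub (Nat.sub (Nat.add (Nat.add (Nat.add (Nat.add (Nat.add (Nat.add (Nat.add (Nat.add (Nat.add C x11796) x29292) x23460) x24432) x25080) x24864) x24972) x24936) x24916) x24918) x5236)
    (Nat.sub (Nat.sub (Nat.add (Nat.add (Nat.add (Nat.add (Nat.add (Nat.add (Nat.add (Nat.add (Nat.add C x11804) x29300) x23468) x24440) x25088) x24980) x24908) x24932) x24928) (Nat.mul x24926 (nat_lit 2))) x44608)
    (Nat.sub (Nat.sub (Nat.sub (Nat.add (Nat.add (Nat.add (Nat.add (Nat.add (Nat.add (Nat.add (Nat.add (Nat.add C x11806) x29302) x23470) x24442) x25090) x24982) x24910) x24934) x24926) (Nat.mul x24928 (nat_lit 3))) x44610) x5246)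
    (Nat.sub (Nat.sub (Nat.add (Nat.add (Nat.add (Nat.add (Nat.add (Nat.add (Nat.add (Nat.add (Nat.add C x11810) x29306) x23474) x24446) x25094) x24986) x24914) x24926) x24934) (Nat.mul x24932 (nat_lit 2))) x44614)
    (Nat.sub (Nat.sub (Nat.sub (Nat.add (Nat.add (Nat.add (Nat.add (Nat.add (Nat.add (Nat.add (Nat.add (Nat.add (Nat.add (Nat.add C x11812) x29308) x23476) x24448) x25096) x24988) x24916) x24928) x24940) x24932) x24936) x24934) x44616) x5252)
    (Nat.sub (Nat.sub (Nat.add (Nat.add (Nat.add (Nat.add (Nat.add (Nat.add (Nat.add (Nat.add (Nat.add C x11814) x29310) x23478) x24450) x25098) x24990) x24918) x24942) x24934) (Nat.mul x24936 (nat_lit 2))) x5254)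
    (Nat.sub (Nat.sub (Nat.sub (Nat.add (Nat.add (Nat.add (Nat.add (Nat.add (Nat.add (Nat.add (Nat.add C x11818) x29314) x23482) x24454) x25102) x24994) x24934) x24942) x24940) x44622) x5258)
    (Nat.sub (Nat.add (Nat.add (Nat.add (Nat.add (Nat.add (Nat.add (Nat.add (Nat.add C x11820) x29316) x23484) x24456) x25104) x24996) x24936) x24940) x5260)
    (Nat.sub (Nat.sub (Nat.add (Nat.add (Nat.add (Nat.add (Nat.add (Nat.add (Nat.add C x11834) x29330) x23498) x24470) x25118) x24902) x24962) (Nat.mul x24956 (nat_lit 2))) x44638)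
    (Nat.sub (Nat.sub (Nat.add (Nat.add (Nat.add (Nat.add (Nat.add (Nat.add (Nat.add (Nat.add (Nat.add (Nat.add C x11840) x29336) x23504) x24476) x25124) x24908) x24980) x24956) x24968) x24964) (Nat.mul x24962 (nat_lit 3))) x44644)
    (Nat.sub (Nat.sub (Nat.sub (Nat.add (Nat.add (Nat.add (Nat.add (Nat.add (Nat.add (Nat.add (Nat.add (Nat.add C x11842) x29338) x23506) x24478) x25126) x24910) x24982) x24970) x24962) (Nat.mul x24964 (nat_lit 3))) x44646) x5282)
    (Nat.sub (Nat.sub (Nat.add (Nat.add (Nat.add (Nat.add (Nat.add (Nat.add (Nat.add (Nat.add (Nat.add C x11846) x29342) x23510) x24482) x25130) x24914) x24986) x24962) x24970) (Nat.mul x24968 (nat_lit 6))) x44650)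
    (Nat.sub (Nat.sub (Nat.sub (Nat.add (Nat.add (Nat.add (Nat.add (Nat.add (Nat.add (Nat.add (Nat.add (Nat.add (Nat.add C x11848) x29344) x23512) x24484) x25132) x24916) x24988) x24964) x24968) x24972) (Nat.mul x24970 (nat_lit 4))) x44652) x5288)
    (Nat.sub (Nat.sub (Nat.add (Nat.add (Nat.add (Nat.add (Nat.add (Nat.add (Nat.add (Nat.add C x11850) x29346) x23514) x24486) x25134) x24918) x24990) x24970) (Nat.mul x24972 (nat_lit 4))) x5290)
    (Nat.sub (Nat.sub (Nat.add (Nat.add (Nat.add (Nat.add (Nat.add (Nat.add (Nat.add (Nat.add (Nat.add C x11858) x29354) x23522) x24494) x25142) x24926) x24962) x24986) x24982) (Nat.mul x24980 (nat_lit 2))) x44662)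
    (Nat.sub (Nat.sub (Nat.sub (Nat.add (Nat.add (Nat.add (Nat.add (Nat.add (Nat.add (Nat.add (Nat.add (Nat.add C x11860) x29356) x23524) x24496) x25144) x24928) x24964) x24988) x24980) (Nat.mul x24982 (nat_lit 3))) x44664) x5300)
    (Nat.sub (Nat.sub (Nat.add (Nat.add (Nat.add (Nat.add (Nat.add (Nat.add (Nat.add (Nat.add (Nat.add (Nat.add C x11864) x29360) x23528) x24500) x25148) x24932) x24968) x25004) x24980) x24988) (Nat.mul x24986 (nat_lit 3))) x44668)
    (Nat.sub (Nat.sub (Nat.sub (Nat.add (Nat.add (Nat.add (Nat.add (Nat.add (Nat.add (Nat.add (Nat.add (Nat.add (Nat.add (Nat.add (Nat.add C x11866) x29362) x23530) x24502) x25150) x24934) x24970) x25006) x24982) x24994) x24986) x24990) (Nat.mul x24988 (nat_lit 2))) x44670) x5306)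
    (Nat.sub (Nat.sub (Nat.add (Nat.add (Nat.add (Nat.add (Nat.add (Nat.add (Nat.add (Nat.add (Nat.add (Nat.add C x11868) x29364) x23532) x24504) x25152) x24936) x24972) x25008) x24996) x24988) (Nat.mul x24990 (nat_lit 3))) x5308)
    (Nat.sub (Nat.sub (Nat.sub (Nat.add (Nat.add (Nat.add (Nat.add (Nat.add (Nat.add (Nat.add (Nat.add (Nat.add C x11872) x29368) x23536) x24508) x25156) x24940) x25012) x24988) x24996) (Nat.mul x24994 (nat_lit 3))) x44676) x5312)
    (Nat.sub (Nat.sub (Nat.add (Nat.add (Nat.add (Nat.add (Nat.add (Nat.add (Nat.add (Nat.add (Nat.add C x11874) x29370) x23538) x24510) x25158) x24942) x25014) x24990) x24994) (Nat.mul x24996 (nat_lit 2))) x5314)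
    (Nat.sub (Nat.sub (Nat.add (Nat.add (Nat.add (Nat.add (Nat.add (Nat.add (Nat.add C x11882) x29378) x23546) x24518) x25166) x24986) x25006) (Nat.mul x25004 (nat_lit 2))) x44686)
    (Nat.sub (Nat.sub (Nat.sub (Nat.add (Nat.add (Nat.add (Nat.add (Nat.add (Nat.add (Nat.add (Nat.add (Nat.add C x11884) x29380) x23548) x24520) x25168) x24988) x25012) x25004) x25008) (Nat.mul x25006 (nat_lit 2))) x44688) x5324)
    (Nat.sub (Nat.sub (Nat.add (Nat.add (Nat.add (Nat.add (Nat.add (Nat.add (Nat.add (Nat.add C x11886) x29382) x23550) x24522) x25170) x24990) x25014) x25006) (Nat.mul x25008 (nat_lit 4))) x5326)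
    (Nat.sub (Nat.sub (Nat.sub (Nat.add (Nat.add (Nat.add (Nat.add (Nat.add (Nat.add (Nat.add (Nat.add C x11890) x29386) x23554) x24526) x25174) x24994) x25006) x25014) x25012) x44694) x5330)
    (Nat.sub (Nat.sub (Nat.add (Nat.add (Nat.add (Nat.add (Nat.add (Nat.add (Nat.add (Nat.add (Nat.add C x11892) x29388) x23556) x24528) x25176) x24996) x25008) x25020) x25012) x25014) x5332)
    (Nat.sub (Nat.add (Nat.add (Nat.add (Nat.add (Nat.add (Nat.add C x11898) x29394) x23562) x24534) x25182) x25014) x5338)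
    (Nat.sub (Nat.add (Nat.add (Nat.add (Nat.add (Nat.add (Nat.add (Nat.add (Nat.add (Nat.add C x25046) x11924) x29420) x23588) x24560) x25532) x24884) x25064) x25052) x44728)
    (Nat.sub (Nat.sub (Nat.add (Nat.add (Nat.add (Nat.add (Nat.add (Nat.add (Nat.add (Nat.add (Nat.add C x11930) x29426) x23594) x24566) x25538) x24890) x25070) x25046) x25054) x25052) x44734)
    (Nat.sub (Nat.sub (Nat.add (Nat.add (Nat.add (Nat.add (Nat.add (Nat.add (Nat.add (Nat.add C x11932) x29428) x23596) x24568) x25540) x24892) x25072) x25052) x44736) x5372)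
    (Nat.sub (Nat.sub (Nat.add (Nat.add (Nat.add (Nat.add (Nat.add (Nat.add (Nat.add (Nat.add (Nat.add C x11942) x29438) x23606) x24578) x25550) x24902) x25118) x25046) x25070) x25064) x44746)
    (Nat.sub (Nat.sub (Nat.add (Nat.add (Nat.add (Nat.add (Nat.add (Nat.add (Nat.add (Nat.add (Nat.add (Nat.add (Nat.add (Nat.add C x11948) x29444) x23612) x24584) x25556) x24908) x25124) x25052) x25088) x25064) x25076) x25072) x25070) x44752)
    (Nat.sub (Nat.sub (Nat.sub (Nat.add (Nat.add (Nat.add (Nat.add (Nat.add (Nat.add (Nat.add (Nat.add (Nat.add (Nat.add (Nat.add C x11950) x29446) x23614) x24586) x25558) x24910) x25126) x25054) x25090) x25078) x25070) x25072) x44754) x5390)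
    (Nat.sub (Nat.sub (Nat.add (Nat.add (Nat.add (Nat.add (Nat.add (Nat.add (Nat.add (Nat.add (Nat.add (Nat.add C x11954) x29450) x23618) x24590) x25562) x24914) x25130) x25094) x25070) x25078) (Nat.mul x25076 (nat_lit 3))) x44758)
    (Nat.sub (Nat.sub (Nat.sub (Nat.add (Nat.add (Nat.add (Nat.add (Nat.add (Nat.add (Nat.add (Nat.add (Nat.add (Nat.add (Nat.add C x11956) x29452) x23620) x24592) x25564) x24916) x25132) x25096) x25072) x25076) x25080) x25078) x44760) x5396)
    (Nat.sub (Nat.sub (Nat.add (Nat.add (Nat.add (Nat.add (Nat.add (Nat.add (Nat.add (Nat.add (Nat.add C x11958) x29454) x23622) x24594) x25566) x24918) x25134) x25098) x25078) x25080) x5398)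
    (Nat.sub (Nat.sub (Nat.add (Nat.add (Nat.add (Nat.add (Nat.add (Nat.add (Nat.add (Nat.add (Nat.add (Nat.add C x11966) x29462) x23630) x24602) x25574) x24926) x25142) x25070) x25094) x25090) (Nat.mul x25088 (nat_lit 3))) x44770)
    (Nat.sub (Nat.sub (Nat.sub (Nat.add (Nat.add (Nat.add (Nat.add (Nat.add (Nat.add (Nat.add (Nat.add (Nat.add (Nat.add C x11968) x29464) x23632) x24604) x25576) x24928) x25144) x25072) x25096) x25088) (Nat.mul x25090 (nat_lit 4))) x44772) x5408)
    (Nat.sub (Nat.sub (Nat.add (Nat.add (Nat.add (Nat.add (Nat.add (Nat.add (Nat.add (Nat.add (Nat.add (Nat.add C x11972) x29468) x23636) x24608) x25580) x24932) x25148) x25076) x25088) x25096) (Nat.mul x25094 (nat_lit 3))) x44776)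
    (Nat.sub (Nat.sub (Nat.sub (Nat.add (Nat.add (Nat.add (Nat.add (Nat.add (Nat.add (Nat.add (Nat.add (Nat.add (Nat.add (Nat.add (Nat.add C x11974) x29470) x23638) x24610) x25582) x24934) x25150) x25078) x25090) x25102) x25094) x25098) (Nat.mul x25096 (nat_lit 2))) x44778) x5414)
    (Nat.sub (Nat.sub (Nat.add (Nat.add (Nat.add (Nat.add (Nat.add (Nat.add (Nat.add (Nat.add (Nat.add (Nat.add C x11976) x29472) x23640) x24612) x25584) x24936) x25152) x25080) x25104) x25096) (Nat.mul x25098 (nat_lit 3))) x5416)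
    (Nat.sub (Nat.sub (Nat.sub (Nat.add (Nat.add (Nat.add (Nat.add (Nat.add (Nat.add (Nat.add (Nat.add (Nat.add C x11980) x29476) x23644) x24616) x25588) x24940) x25156) x25096) x25104) (Nat.mul x25102 (nat_lit 2))) x44784) x5420)
    (Nat.sub (Nat.sub (Nat.add (Nat.add (Nat.add (Nat.add (Nat.add (Nat.add (Nat.add (Nat.add (Nat.add C x11982) x29478) x23646) x24618) x25590) x24942) x25158) x25098) x25102) x25104) x5422)
    (Nat.sub (Nat.add (Nat.add (Nat.add (Nat.add (Nat.add (Nat.add (Nat.add (Nat.add (Nat.add C x11996) x29492) x23660) x24632) x25604) x24956) x25280) x25064) x25124) x44800)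
    (Nat.sub (Nat.sub (Nat.add (Nat.add (Nat.add (Nat.add (Nat.add (Nat.add (Nat.add (Nat.add (Nat.add (Nat.add (Nat.add (Nat.add C x12002) x29498) x23666) x24638) x25610) x24962) x25286) x25070) x25142) x25118) x25130) x25126) x25124) x44806)
    (Nat.sub (Nat.sub (Nat.sub (Nat.add (Nat.add (Nat.add (Nat.add (Nat.add (Nat.add (Nat.add (Nat.add (Nat.add (Nat.add (Nat.add C x12004) x29500) x23668) x24640) x25612) x24964) x25288) x25072) x25144) x25132) x25124) x25126) x44808) x5444)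
    (Nat.sub (Nat.sub (Nat.add (Nat.add (Nat.add (Nat.add (Nat.add (Nat.add (Nat.add (Nat.add (Nat.add (Nat.add (Nat.add C x12008) x29504) x23672) x24644) x25616) x24968) x25292) x25076) x25148) x25124) x25132) (Nat.mul x25130 (nat_lit 4))) x44812)
    (Nat.sub (Nat.sub (Nat.sub (Nat.add (Nat.add (Nat.add (Nat.add (Nat.add (Nat.add (Nat.add (Nat.add (Nat.add (Nat.add (Nat.add (Nat.add C x12010) x29506) x23674) x24646) x25618) x24970) x25294) x25078) x25150) x25126) x25130) x25134) (Nat.mul x25132 (nat_lit 2))) x44814) x5450)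
    (Nat.sub (Nat.sub (Nat.add (Nat.add (Nat.add (Nat.add (Nat.add (Nat.add (Nat.add (Nat.add (Nat.add (Nat.add C x12012) x29508) x23676) x24648) x25620) x24972) x25296) x25080) x25152) x25132) (Nat.mul x25134 (nat_lit 2))) x5452)
    (Nat.sub (Nat.sub (Nat.add (Nat.add (Nat.add (Nat.add (Nat.add (Nat.add (Nat.add (Nat.add (Nat.add (Nat.add (Nat.add (Nat.add C x12020) x29516) x23684) x24656) x25628) x24980) x25304) x25088) x25196) x25124) x25148) x25144) x25142) x44824)
    (Nat.sub (Nat.sub (Nat.sub (Nat.add (Nat.add (Nat.add (Nat.add (Nat.add (Nat.add (Nat.add (Nat.add (Nat.add (Nat.add (Nat.add (Nat.add C x12022) x29518) x23686) x24658) x25630) x24982) x25306) x25090) x25198) x25126) x25150) x25142) (Nat.mul x25144 (nat_lit 2))) x44826) x5462)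
    (Nat.sub (Nat.sub (Nat.add (Nat.add (Nat.add (Nat.add (Nat.add (Nat.add (Nat.add (Nat.add (Nat.add (Nat.add (Nat.add (Nat.add (Nat.add C x12026) x29522) x23690) x24662) x25634) x24986) x25310) x25094) x25202) x25130) x25166) x25142) x25150) (Nat.mul x25148 (nat_lit 2))) x44830)
    (Nat.sub (Nat.sub (Nat.sub (Nat.add (Nat.add (Nat.add (Nat.add (Nat.add (Nat.add (Nat.add (Nat.add (Nat.add (Nat.add (Nat.add (Nat.add (Nat.add (Nat.add (Nat.add C x12028) x29524) x23692) x24664) x25636) x24988) x25312) x25096) x25204) x25132) x25168) x25144) x25156) x25148) x25152) x25150) x44832) x5468)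
    (Nat.sub (Nat.sub (Nat.add (Nat.add (Nat.add (Nat.add (Nat.add (Nat.add (Nat.add (Nat.add (Nat.add (Nat.add (Nat.add (Nat.add (Nat.add C x12030) x29526) x23694) x24666) x25638) x24990) x25314) x25098) x25206) x25134) x25170) x25158) x25150) (Nat.mul x25152 (nat_lit 2))) x5470)
    (Nat.sub (Nat.sub (Nat.sub (Nat.add (Nat.add (Nat.add (Nat.add (Nat.add (Nat.add (Nat.add (Nat.add (Nat.add (Nat.add (Nat.add (Nat.add C x12034) x29530) x23698) x24670) x25642) x24994) x25318) x25102) x25210) x25174) x25150) x25158) (Nat.mul x25156 (nat_lit 2))) x44838) x5474)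
    (Nat.sub (Nat.sub (Nat.add (Nat.add (Nat.add (Nat.add (Nat.add (Nat.add (Nat.add (Nat.add (Nat.add (Nat.add (Nat.add (Nat.add C x12036) x29532) x23700) x24672) x25644) x24996) x25320) x25104) x25212) x25176) x25152) x25156) x25158) x5476)
    (Nat.sub (Nat.sub (Nat.add (Nat.add (Nat.add (Nat.add (Nat.add (Nat.add (Nat.add (Nat.add (Nat.add (Nat.add C x12044) x29540) x23708) x24680) x25652) x25004) x25328) x25220) x25148) x25168) (Nat.mul x25166 (nat_lit 2))) x44848)
    (Nat.sub (Nat.sub (Nat.sub (Nat.add (Nat.add (Nat.add (Nat.add (Nat.add (Nat.add (Nat.add (Nat.add (Nat.add (Nat.add (Nat.add (Nat.add C x12046) x29542) x23710) x24682) x25654) x25006) x25330) x25222) x25150) x25174) x25166) x25170) (Nat.mul x25168 (nat_lit 2))) x44850) x5486)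
    (Nat.sub (Nat.sub (Nat.add (Nat.add (Nat.add (Nat.add (Nat.add (Nat.add (Nat.add (Nat.add (Nat.add (Nat.add (Nat.add C x12048) x29544) x23712) x24684) x25656) x25008) x25332) x25224) x25152) x25176) x25168) (Nat.mul x25170 (nat_lit 4))) x5488)
    (Nat.sub (Nat.sub (Nat.sub (Nat.add (Nat.add (Nat.add (Nat.add (Nat.add (Nat.add (Nat.add (Nat.add (Nat.add (Nat.add (Nat.add C x12052) x29548) x23716) x24688) x25660) x25012) x25336) x25228) x25156) x25168) x25176) x25174) x44856) x5492)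
    (Nat.sub (Nat.sub (Nat.add (Nat.add (Nat.add (Nat.add (Nat.add (Nat.add (Nat.add (Nat.add (Nat.add (Nat.add (Nat.add (Nat.add C x12054) x29550) x23718) x24690) x25662) x25014) x25338) x25230) x25158) x25170) x25182) x25174) x25176) x5494)
    (Nat.sub (Nat.add (Nat.add (Nat.add (Nat.add (Nat.add (Nat.add (Nat.add (Nat.add (Nat.add C x12060) x29556) x23724) x24696) x25668) x25020) x25344) x25236) x25176) x5500)
    (Nat.sub (Nat.sub (Nat.add (Nat.add (Nat.add (Nat.add (Nat.add (Nat.add (Nat.add (Nat.add (Nat.add C x12074) x29570) x23738) x24710) x25682) x25358) x25142) x25202) x25198) x25196) x44878)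
    (Nat.sub (Nat.sub (Nat.sub (Nat.add (Nat.add (Nat.add (Nat.add (Nat.add (Nat.add (Nat.add (Nat.add (Nat.add C x12076) x29572) x23740) x24712) x25684) x25360) x25144) x25204) x25196) (Nat.mul x25198 (nat_lit 2))) x44880) x5516)
    (Nat.sub (Nat.sub (Nat.add (Nat.add (Nat.add (Nat.add (Nat.add (Nat.add (Nat.add (Nat.add (Nat.add (Nat.add C x12080) x29576) x23744) x24716) x25688) x25364) x25148) x25220) x25196) x25204) (Nat.mul x25202 (nat_lit 3))) x44884)
    (Nat.sub (Nat.sub (Nat.sub (Nat.add (Nat.add (Nat.add (Nat.add (Nat.add (Nat.add (Nat.add (Nat.add (Nat.add (Nat.add (Nat.add (Nat.add C x12082) x29578) x23746) x24718) x25690) x25366) x25150) x25222) x25198) x25210) x25202) x25206) (Nat.mul x25204 (nat_lit 2))) x44886) x5522)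
    (Nat.sub (Nat.sub (Nat.add (Nat.add (Nat.add (Nat.add (Nat.add (Nat.add (Nat.add (Nat.add (Nat.add (Nat.add C x12084) x29580) x23748) x24720) x25692) x25368) x25152) x25224) x25212) x25204) (Nat.mul x25206 (nat_lit 3))) x5524)
    (Nat.sub (Nat.sub (Nat.sub (Nat.add (Nat.add (Nat.add (Nat.add (Nat.add (Nat.add (Nat.add (Nat.add (Nat.add (Nat.add C x12088) x29584) x23752) x24724) x25696) x25372) x25156) x25228) x25204) x25212) (Nat.mul x25210 (nat_lit 4))) x44892) x5528)
    (Nat.sub (Nat.sub (Nat.add (Nat.add (Nat.add (Nat.add (Nat.add (Nat.add (Nat.add (Nat.add (Nat.add (Nat.add C x12090) x29586) x23754) x24726) x25698) x25374) x25158) x25230) x25206) x25210) (Nat.mul x25212 (nat_lit 3))) x5530)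
    (Nat.sub (Nat.sub (Nat.add (Nat.add (Nat.add (Nat.add (Nat.add (Nat.add (Nat.add (Nat.add (Nat.add C x12098) x29594) x23762) x24734) x25706) x25382) x25166) x25202) x25222) x25220) x44902)
    (Nat.sub (Nat.sub (Nat.sub (Nat.add (Nat.add (Nat.add (Nat.add (Nat.add (Nat.add (Nat.add (Nat.add (Nat.add (Nat.add (Nat.add C x12100) x29596) x23764) x24736) x25708) x25384) x25168) x25204) x25228) x25220) x25224) x25222) x44904) x5540)
    (Nat.sub (Nat.sub (Nat.add (Nat.add (Nat.add (Nat.add (Nat.add (Nat.add (Nat.add (Nat.add (Nat.add (Nat.add C x12102) x29598) x23766) x24738) x25710) x25386) x25170) x25206) x25230) x25222) (Nat.mul x25224 (nat_lit 3))) x5542)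
    (Nat.sub (Nat.sub (Nat.sub (Nat.add (Nat.add (Nat.add (Nat.add (Nat.add (Nat.add (Nat.add (Nat.add (Nat.add (Nat.add (Nat.add C x12106) x29602) x23770) x24742) x25714) x25390) x25174) x25210) x25246) x25222) x25230) x25228) x44910) x5546)
    (Nat.sub (Nat.sub (Nat.add (Nat.add (Nat.add (Nat.add (Nat.add (Nat.add (Nat.add (Nat.add (Nat.add (Nat.add (Nat.add (Nat.add C x12108) x29604) x23772) x24744) x25716) x25392) x25176) x25212) x25248) x25224) x25236) x25228) x25230) x5548)
    (Nat.sub (Nat.sub (Nat.add (Nat.add (Nat.add (Nat.add (Nat.add (Nat.add (Nat.add (Nat.add (Nat.add C x12114) x29610) x23778) x24750) x25722) x25398) x25182) x25254) x25230) x25236) x5554)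
    (Nat.sub (Nat.sub (Nat.add (Nat.add (Nat.add (Nat.add (Nat.add (Nat.add (Nat.add (Nat.add C x12124) x29620) x23788) x24760) x25732) x25408) x25228) x25248) x44928) x5564)
    (Nat.sub (Nat.sub (Nat.add (Nat.add (Nat.add (Nat.add (Nat.add (Nat.add (Nat.add (Nat.add (Nat.add C x12126) x29622) x23790) x24762) x25734) x25410) x25230) x25254) x25246) x25248) x5566)
    (Nat.sub (Nat.add (Nat.add (Nat.add (Nat.add (Nat.add (Nat.add (Nat.add (Nat.add (Nat.add C x25254) x12132) x29628) x23796) x24768) x25740) x25416) x25236) x25248) x5572)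
    (Nat.sub (Nat.add (Nat.add (Nat.add (Nat.add (Nat.add (Nat.add C x12158) x29654) x23822) x25766) x25118) x25286) x44962)
    (Nat.sub (Nat.sub (Nat.add (Nat.add (Nat.add (Nat.add (Nat.add (Nat.add (Nat.add (Nat.add (Nat.add C x12164) x29660) x23828) x25772) x25124) x25304) x25280) x25292) x25288) x25286) x44968)
    (Nat.sub (Nat.sub (Nat.sub (Nat.add (Nat.add (Nat.add (Nat.add (Nat.add (Nat.add (Nat.add (Nat.add C x12166) x29662) x23830) x25774) x25126) x25306) x25294) x25286) x25288) x44970) x5606)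
    (Nat.sub (Nat.sub (Nat.add (Nat.add (Nat.add (Nat.add (Nat.add (Nat.add (Nat.add (Nat.add C x12170) x29666) x23834) x25778) x25130) x25310) x25286) x25294) (Nat.mul x25292 (nat_lit 4))) x44974)
    (Nat.sub (Nat.sub (Nat.sub (Nat.add (Nat.add (Nat.add (Nat.add (Nat.add (Nat.add (Nat.add (Nat.add (Nat.add C x12172) x29668) x23836) x25780) x25132) x25312) x25288) x25292) x25296) (Nat.mul x25294 (nat_lit 2))) x44976) x5612)
    (Nat.sub (Nat.sub (Nat.add (Nat.add (Nat.add (Nat.add (Nat.add (Nat.add (Nat.add C x12174) x29670) x23838) x25782) x25134) x25314) x25294) (Nat.mul x25296 (nat_lit 2))) x5614)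
    (Nat.sub (Nat.sub (Nat.add (Nat.add (Nat.add (Nat.add (Nat.add (Nat.add (Nat.add (Nat.add (Nat.add C x12182) x29678) x23846) x25790) x25142) x25358) x25286) x25310) x25306) (Nat.mul x25304 (nat_lit 2))) x44986)
    (Nat.sub (Nat.sub (Nat.sub (Nat.add (Nat.add (Nat.add (Nat.add (Nat.add (Nat.add (Nat.add (Nat.add (Nat.add C x12184) x29680) x23848) x25792) x25144) x25360) x25288) x25312) x25304) (Nat.mul x25306 (nat_lit 3))) x44988) x5624)
    (Nat.sub (Nat.sub (Nat.add (Nat.add (Nat.add (Nat.add (Nat.add (Nat.add (Nat.add (Nat.add (Nat.add (Nat.add C x12188) x29684) x23852) x25796) x25148) x25364) x25292) x25328) x25304) x25312) (Nat.mul x25310 (nat_lit 3))) x44992)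
    (Nat.sub (Nat.sub (Nat.sub (Nat.add (Nat.add (Nat.add (Nat.add (Nat.add (Nat.add (Nat.add (Nat.add (Nat.add (Nat.add (Nat.add (Nat.add C x12190) x29686) x23854) x25798) x25150) x25366) x25294) x25330) x25306) x25318) x25310) x25314) (Nat.mul x25312 (nat_lit 2))) x44994) x5630)
    (Nat.sub (Nat.sub (Nat.add (Nat.add (Nat.add (Nat.add (Nat.add (Nat.add (Nat.add (Nat.add (Nat.add (Nat.add C x12192) x29688) x23856) x25800) x25152) x25368) x25296) x25332) x25320) x25312) (Nat.mul x25314 (nat_lit 3))) x5632)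
    (Nat.sub (Nat.sub (Nat.sub (Nat.add (Nat.add (Nat.add (Nat.add (Nat.add (Nat.add (Nat.add (Nat.add (Nat.add C x12196) x29692) x23860) x25804) x25156) x25372) x25336) x25312) x25320) (Nat.mul x25318 (nat_lit 3))) x45000) x5636)
    (Nat.sub (Nat.sub (Nat.add (Nat.add (Nat.add (Nat.add (Nat.add (Nat.add (Nat.add (Nat.add (Nat.add C x12198) x29694) x23862) x25806) x25158) x25374) x25338) x25314) x25318) (Nat.mul x25320 (nat_lit 2))) x5638)
    (Nat.sub (Nat.sub (Nat.add (Nat.add (Nat.add (Nat.add (Nat.add (Nat.add (Nat.add (Nat.add C x12206) x29702) x23870) x25814) x25166) x25382) x25310) x25330) (Nat.mul x25328 (nat_lit 4))) x45010)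
    (Nat.sub (Nat.sub (Nat.sub (Nat.add (Nat.add (Nat.add (Nat.add (Nat.add (Nat.add (Nat.add (Nat.add (Nat.add (Nat.add C x12208) x29704) x23872) x25816) x25168) x25384) x25312) x25336) x25328) x25332) (Nat.mul x25330 (nat_lit 4))) x45012) x5648)
    (Nat.sub (Nat.sub (Nat.add (Nat.add (Nat.add (Nat.add (Nat.add (Nat.add (Nat.add (Nat.add (Nat.add C x12210) x29706) x23874) x25818) x25170) x25386) x25314) x25338) x25330) (Nat.mul x25332 (nat_lit 6))) x5650)
    (Nat.sub (Nat.sub (Nat.sub (Nat.add (Nat.add (Nat.add (Nat.add (Nat.add (Nat.add (Nat.add (Nat.add (Nat.add C x12214) x29710) x23878) x25822) x25174) x25390) x25318) x25330) x25338) (Nat.mul x25336 (nat_lit 3))) x45018) x5654)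
    (Nat.sub (Nat.sub (Nat.add (Nat.add (Nat.add (Nat.add (Nat.add (Nat.add (Nat.add (Nat.add (Nat.add (Nat.add C x12216) x29712) x23880) x25824) x25176) x25392) x25320) x25332) x25344) x25336) (Nat.mul x25338 (nat_lit 3))) x5656)
    (Nat.sub (Nat.sub (Nat.add (Nat.add (Nat.add (Nat.add (Nat.add (Nat.add (Nat.add C x12222) x29718) x23886) x25830) x25182) x25398) x25338) (Nat.mul x25344 (nat_lit 2))) x5662)
    (Nat.sub (Nat.add (Nat.add (Nat.add (Nat.add (Nat.add (Nat.add (Nat.add (Nat.add C x12236) x29732) x23900) x25844) x25196) x25304) x25364) x25360) x45040)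
    (Nat.sub (Nat.sub (Nat.sub (Nat.add (Nat.add (Nat.add (Nat.add (Nat.add (Nat.add (Nat.add (Nat.add C x12238) x29734) x23902) x25846) x25198) x25306) x25366) x25358) x25360) x45042) x5678)
    (Nat.sub (Nat.sub (Nat.add (Nat.add (Nat.add (Nat.add (Nat.add (Nat.add (Nat.add (Nat.add (Nat.add C x12242) x29738) x23906) x25850) x25202) x25310) x25382) x25358) x25366) (Nat.mul x25364 (nat_lit 2))) x45046)
    (Nat.sub (Nat.sub (Nat.sub (Nat.add (Nat.add (Nat.add (Nat.add (Nat.add (Nat.add (Nat.add (Nat.add (Nat.add (Nat.add (Nat.add C x12244) x29740) x23908) x25852) x25204) x25312) x25384) x25360) x25372) x25364) x25368) x25366) x45048) x5684)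
    (Nat.sub (Nat.sub (Nat.add (Nat.add (Nat.add (Nat.add (Nat.add (Nat.add (Nat.add (Nat.add (Nat.add C x12246) x29742) x23910) x25854) x25206) x25314) x25386) x25374) x25366) (Nat.mul x25368 (nat_lit 2))) x5686)
    (Nat.sub (Nat.sub (Nat.sub (Nat.add (Nat.add (Nat.add (Nat.add (Nat.add (Nat.add (Nat.add (Nat.add (Nat.add C x12250) x29746) x23914) x25858) x25210) x25318) x25390) x25366) x25374) (Nat.mul x25372 (nat_lit 3))) x45054) x5690)
    (Nat.sub (Nat.sub (Nat.add (Nat.add (Nat.add (Nat.add (Nat.add (Nat.add (Nat.add (Nat.add (Nat.add C x12252) x29748) x23916) x25860) x25212) x25320) x25392) x25368) x25372) (Nat.mul x25374 (nat_lit 2))) x5692)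
    (Nat.sub (Nat.sub (Nat.add (Nat.add (Nat.add (Nat.add (Nat.add (Nat.add (Nat.add (Nat.add (Nat.add C x12260) x29756) x23924) x25868) x25220) x25328) x25436) x25364) x25384) x25382) x45064)
    (Nat.sub (Nat.sub (Nat.sub (Nat.add (Nat.add (Nat.add (Nat.add (Nat.add (Nat.add (Nat.add (Nat.add (Nat.add (Nat.add (Nat.add C x12262) x29758) x23926) x25870) x25222) x25330) x25438) x25366) x25390) x25382) x25386) x25384) x45066) x5702)
    (Nat.sub (Nat.sub (Nat.add (Nat.add (Nat.add (Nat.add (Nat.add (Nat.add (Nat.add (Nat.add (Nat.add (Nat.add C x12264) x29760) x23928) x25872) x25224) x25332) x25440) x25368) x25392) x25384) (Nat.mul x25386 (nat_lit 3))) x5704)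
    (Nat.sub (Nat.sub (Nat.sub (Nat.add (Nat.add (Nat.add (Nat.add (Nat.add (Nat.add (Nat.add (Nat.add (Nat.add (Nat.add (Nat.add C x12268) x29764) x23932) x25876) x25228) x25336) x25444) x25372) x25408) x25384) x25392) x25390) x45072) x5708)
    (Nat.sub (Nat.sub (Nat.add (Nat.add (Nat.add (Nat.add (Nat.add (Nat.add (Nat.add (Nat.add (Nat.add (Nat.add (Nat.add (Nat.add C x12270) x29766) x23934) x25878) x25230) x25338) x25446) x25374) x25410) x25386) x25398) x25390) x25392) x5710)
    (Nat.sub (Nat.sub (Nat.add (Nat.add (Nat.add (Nat.add (Nat.add (Nat.add (Nat.add (Nat.add (Nat.add C x12276) x29772) x23940) x25884) x25236) x25344) x25452) x25416) x25392) x25398) x5716)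
    (Nat.sub (Nat.sub (Nat.sub (Nat.add (Nat.add (Nat.add (Nat.add (Nat.add (Nat.add (Nat.add (Nat.add C x12286) x29782) x23950) x25894) x25246) x25462) x25390) x25410) x25408) x45090) x5726)
    (Nat.sub (Nat.sub (Nat.add (Nat.add (Nat.add (Nat.add (Nat.add (Nat.add (Nat.add (Nat.add (Nat.add C x12288) x29784) x23952) x25896) x25248) x25464) x25392) x25416) x25408) (Nat.mul x25410 (nat_lit 2))) x5728)
    (Nat.sub (Nat.add (Nat.add (Nat.add (Nat.add (Nat.add (Nat.add (Nat.add (Nat.add C x12294) x29790) x23958) x25902) x25254) x25470) x25398) x25410) x5734)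
    (Nat.sub (Nat.add (Nat.add (Nat.add (Nat.add (Nat.add (Nat.add C x12314) x29810) x23978) x25922) x25382) x25438) x45118)
    (Nat.sub (Nat.sub (Nat.add (Nat.add (Nat.add (Nat.add (Nat.add (Nat.add (Nat.add (Nat.add C x12316) x29812) x23980) x25924) x25384) x25444) x25436) x25440) x45120) x5756)
    (Nat.sub (Nat.sub (Nat.add (Nat.add (Nat.add (Nat.add (Nat.add (Nat.add (Nat.add C x12318) x29814) x23982) x25926) x25386) x25446) x25438) (Nat.mul x25440 (nat_lit 2))) x5758)
    (Nat.sub (Nat.sub (Nat.sub (Nat.add (Nat.add (Nat.add (Nat.add (Nat.add (Nat.add (Nat.add (Nat.add C x12322) x29818) x23986) x25930) x25390) x25462) x25438) x25446) x25444) x45126) x5762)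
    (Nat.sub (Nat.sub (Nat.add (Nat.add (Nat.add (Nat.add (Nat.add (Nat.add (Nat.add (Nat.add (Nat.add C x12324) x29820) x23988) x25932) x25392) x25464) x25440) x25452) x25444) x25446) x5764)
    (Nat.sub (Nat.sub (Nat.add (Nat.add (Nat.add (Nat.add (Nat.add (Nat.add (Nat.add C x12330) x29826) x23994) x25938) x25398) x25470) x25446) (Nat.mul x25452 (nat_lit 2))) x5770)
    (Nat.sub (Nat.sub (Nat.add (Nat.add (Nat.add (Nat.add (Nat.add (Nat.add (Nat.add (Nat.add C x25462) x12340) x29836) x24004) x25948) x25408) x25444) x25464) x45144) x5780)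
    (Nat.sub (Nat.add (Nat.add (Nat.add (Nat.add (Nat.add (Nat.add (Nat.add (Nat.add C x12342) x29838) x24006) x25950) x25410) x25446) x25470) x25462) x5782)
    (Nat.sub (Nat.add (Nat.add (Nat.add (Nat.add (Nat.add (Nat.add (Nat.add (Nat.add (Nat.add C x25470) x12348) x29844) x24012) x25956) x25416) x25452) x25488) x25464) x5788)
    (Nat.sub (Nat.add (Nat.add (Nat.add (Nat.add (Nat.add (Nat.add C (Nat.mul x25488 (nat_lit 2))) x12366) x29862) x24030) x25974) x25470) x5806)
    (Nat.sub (Nat.add (Nat.add (Nat.add (Nat.add (Nat.add (Nat.add C (Nat.mul x25532 (nat_lit 2))) x12410) x29906) x25046) x25550) x25538) x45214)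
    (Nat.sub (Nat.add (Nat.add (Nat.add (Nat.add (Nat.add (Nat.add C x12416) x29912) x25052) x25556) x25532) x25540) x45220)
    (Nat.sub (Nat.sub (Nat.add (Nat.add (Nat.add (Nat.add (Nat.add (Nat.add C x25540) x12418) x29914) x25054) x25558) x25538) x45222) x5858)
    (Nat.sub (Nat.add (Nat.add (Nat.add (Nat.add (Nat.add (Nat.add C x12428) x29924) x25064) x25604) x25532) x25556) x45232)
    (Nat.sub (Nat.add (Nat.add (Nat.add (Nat.add (Nat.add (Nat.add (Nat.add (Nat.add (Nat.add C x12434) x29930) x25070) x25610) x25538) x25574) x25550) x25562) x25558) x45238)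
    (Nat.sub (Nat.sub (Nat.add (Nat.add (Nat.add (Nat.add (Nat.add (Nat.add (Nat.add (Nat.add C x12436) x29932) x25072) x25612) x25540) x25576) x25564) x25556) x45240) x5876)
    (Nat.sub (Nat.sub (Nat.add (Nat.add (Nat.add (Nat.add (Nat.add (Nat.add (Nat.add C x12440) x29936) x25076) x25616) x25580) x25556) x25564) (Nat.mul x25562 (nat_lit 2))) x45244)
    (Nat.sub (Nat.sub (Nat.add (Nat.add (Nat.add (Nat.add (Nat.add (Nat.add (Nat.add (Nat.add C x12442) x29938) x25078) x25618) x25582) x25558) x25562) x25566) x45246) x5882)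
    (Nat.sub (Nat.add (Nat.add (Nat.add (Nat.add (Nat.add (Nat.add C x12444) x29940) x25080) x25620) x25584) x25564) x5884)
    (Nat.sub (Nat.sub (Nat.add (Nat.add (Nat.add (Nat.add (Nat.add (Nat.add (Nat.add C x12452) x29948) x25088) x25628) x25556) x25580) x25576) (Nat.mul x25574 (nat_lit 2))) x45256)
    (Nat.sub (Nat.sub (Nat.sub (Nat.add (Nat.add (Nat.add (Nat.add (Nat.add (Nat.add (Nat.add C x12454) x29950) x25090) x25630) x25558) x25582) x25574) (Nat.mul x25576 (nat_lit 3))) x45258) x5894)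
    (Nat.sub (Nat.sub (Nat.add (Nat.add (Nat.add (Nat.add (Nat.add (Nat.add (Nat.add C x12458) x29954) x25094) x25634) x25562) x25574) x25582) (Nat.mul x25580 (nat_lit 2))) x45262)
    (Nat.sub (Nat.sub (Nat.sub (Nat.add (Nat.add (Nat.add (Nat.add (Nat.add (Nat.add (Nat.add (Nat.add (Nat.add C x12460) x29956) x25096) x25636) x25564) x25576) x25588) x25580) x25584) x25582) x45264) x5900)
    (Nat.sub (Nat.sub (Nat.add (Nat.add (Nat.add (Nat.add (Nat.add (Nat.add (Nat.add C x12462) x29958) x25098) x25638) x25566) x25590) x25582) (Nat.mul x25584 (nat_lit 2))) x5902)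
    (Nat.sub (Nat.sub (Nat.sub (Nat.add (Nat.add (Nat.add (Nat.add (Nat.add (Nat.add C x12466) x29962) x25102) x25642) x25582) x25590) x25588) x45270) x5906)
    (Nat.sub (Nat.add (Nat.add (Nat.add (Nat.add (Nat.add (Nat.add C x12468) x29964) x25104) x25644) x25584) x25588) x5908)
    (Nat.sub (Nat.add (Nat.add (Nat.add (Nat.add (Nat.add (Nat.add C x12482) x29978) x25118) x25766) x25550) x25610) x45286)
    (Nat.sub (Nat.sub (Nat.add (Nat.add (Nat.add (Nat.add (Nat.add (Nat.add (Nat.add (Nat.add (Nat.add C x12488) x29984) x25124) x25772) x25556) x25628) x25604) x25616) x25612) x25610) x45292)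
    (Nat.sub (Nat.sub (Nat.sub (Nat.add (Nat.add (Nat.add (Nat.add (Nat.add (Nat.add (Nat.add (Nat.add C x12490) x29986) x25126) x25774) x25558) x25630) x25618) x25610) x25612) x45294) x5930)
    (Nat.sub (Nat.sub (Nat.add (Nat.add (Nat.add (Nat.add (Nat.add (Nat.add (Nat.add (Nat.add C x12494) x29990) x25130) x25778) x25562) x25634) x25610) x25618) (Nat.mul x25616 (nat_lit 4))) x45298)
    (Nat.sub (Nat.sub (Nat.sub (Nat.add (Nat.add (Nat.add (Nat.add (Nat.add (Nat.add (Nat.add (Nat.add (Nat.add C x12496) x29992) x25132) x25780) x25564) x25636) x25612) x25616) x25620) (Nat.mul x25618 (nat_lit 2))) x45300) x5936)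
    (Nat.sub (Nat.sub (Nat.add (Nat.add (Nat.add (Nat.add (Nat.add (Nat.add (Nat.add C x12498) x29994) x25134) x25782) x25566) x25638) x25618) (Nat.mul x25620 (nat_lit 2))) x5938)
    (Nat.sub (Nat.sub (Nat.add (Nat.add (Nat.add (Nat.add (Nat.add (Nat.add (Nat.add (Nat.add (Nat.add C x12506) x30002) x25142) x25790) x25574) x25682) x25610) x25634) x25630) x25628) x45310)
    (Nat.sub (Nat.sub (Nat.sub (Nat.add (Nat.add (Nat.add (Nat.add (Nat.add (Nat.add (Nat.add (Nat.add (Nat.add C x12508) x30004) x25144) x25792) x25576) x25684) x25612) x25636) x25628) (Nat.mul x25630 (nat_lit 2))) x45312) x5948)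
    (Nat.sub (Nat.sub (Nat.add (Nat.add (Nat.add (Nat.add (Nat.add (Nat.add (Nat.add (Nat.add (Nat.add (Nat.add C x12512) x30008) x25148) x25796) x25580) x25688) x25616) x25652) x25628) x25636) (Nat.mul x25634 (nat_lit 2))) x45316)
    (Nat.sub (Nat.sub (Nat.sub (Nat.add (Nat.add (Nat.add (Nat.add (Nat.add (Nat.add (Nat.add (Nat.add (Nat.add (Nat.add (Nat.add (Nat.add C x12514) x30010) x25150) x25798) x25582) x25690) x25618) x25654) x25630) x25642) x25634) x25638) x25636) x45318) x5954)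
    (Nat.sub (Nat.sub (Nat.add (Nat.add (Nat.add (Nat.add (Nat.add (Nat.add (Nat.add (Nat.add (Nat.add (Nat.add C x12516) x30012) x25152) x25800) x25584) x25692) x25620) x25656) x25644) x25636) (Nat.mul x25638 (nat_lit 2))) x5956)
    (Nat.sub (Nat.sub (Nat.sub (Nat.add (Nat.add (Nat.add (Nat.add (Nat.add (Nat.add (Nat.add (Nat.add (Nat.add C x12520) x30016) x25156) x25804) x25588) x25696) x25660) x25636) x25644) (Nat.mul x25642 (nat_lit 2))) x45324) x5960)
    (Nat.sub (Nat.sub (Nat.add (Nat.add (Nat.add (Nat.add (Nat.add (Nat.add (Nat.add (Nat.add (Nat.add C x12522) x30018) x25158) x25806) x25590) x25698) x25662) x25638) x25642) x25644) x5962)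
    (Nat.sub (Nat.sub (Nat.add (Nat.add (Nat.add (Nat.add (Nat.add (Nat.add (Nat.add C x12530) x30026) x25166) x25814) x25706) x25634) x25654) (Nat.mul x25652 (nat_lit 2))) x45334)
    (Nat.sub (Nat.sub (Nat.sub (Nat.add (Nat.add (Nat.add (Nat.add (Nat.add (Nat.add (Nat.add (Nat.add (Nat.add C x12532) x30028) x25168) x25816) x25708) x25636) x25660) x25652) x25656) (Nat.mul x25654 (nat_lit 2))) x45336) x5972)
    (Nat.sub (Nat.sub (Nat.add (Nat.add (Nat.add (Nat.add (Nat.add (Nat.add (Nat.add (Nat.add C x12534) x30030) x25170) x25818) x25710) x25638) x25662) x25654) (Nat.mul x25656 (nat_lit 4))) x5974)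
    (Nat.sub (Nat.sub (Nat.sub (Nat.add (Nat.add (Nat.add (Nat.add (Nat.add (Nat.add (Nat.add (Nat.add C x12538) x30034) x25174) x25822) x25714) x25642) x25654) x25662) x25660) x45342) x5978)
    (Nat.sub (Nat.sub (Nat.add (Nat.add (Nat.add (Nat.add (Nat.add (Nat.add (Nat.add (Nat.add (Nat.add C x12540) x30036) x25176) x25824) x25716) x25644) x25656) x25668) x25660) x25662) x5980)
    (Nat.sub (Nat.add (Nat.add (Nat.add (Nat.add (Nat.add (Nat.add C x12546) x30042) x25182) x25830) x25722) x25662) x5986)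
    (Nat.sub (Nat.sub (Nat.add (Nat.add (Nat.add (Nat.add (Nat.add (Nat.add (Nat.add C x12560) x30056) x25196) x25844) x25628) x25688) x25684) (Nat.mul x25682 (nat_lit 2))) x45364)
    (Nat.sub (Nat.sub (Nat.sub (Nat.add (Nat.add (Nat.add (Nat.add (Nat.add (Nat.add (Nat.add C x12562) x30058) x25198) x25846) x25630) x25690) x25682) (Nat.mul x25684 (nat_lit 3))) x45366) x6002)
    (Nat.sub (Nat.sub (Nat.add (Nat.add (Nat.add (Nat.add (Nat.add (Nat.add (Nat.add (Nat.add C x12566) x30062) x25202) x25850) x25634) x25706) x25682) x25690) (Nat.mul x25688 (nat_lit 4))) x45370)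
    (Nat.sub (Nat.sub (Nat.sub (Nat.add (Nat.add (Nat.add (Nat.add (Nat.add (Nat.add (Nat.add (Nat.add (Nat.add (Nat.add C x12568) x30064) x25204) x25852) x25636) x25708) x25684) x25696) x25688) x25692) (Nat.mul x25690 (nat_lit 3))) x45372) x6008)
    (Nat.sub (Nat.sub (Nat.add (Nat.add (Nat.add (Nat.add (Nat.add (Nat.add (Nat.add (Nat.add C x12570) x30066) x25206) x25854) x25638) x25710) x25698) x25690) (Nat.mul x25692 (nat_lit 4))) x6010)
    (Nat.sub (Nat.sub (Nat.sub (Nat.add (Nat.add (Nat.add (Nat.add (Nat.add (Nat.add (Nat.add (Nat.add C x12574) x30070) x25210) x25858) x25642) x25714) x25690) x25698) (Nat.mul x25696 (nat_lit 5))) x45378) x6014)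
    (Nat.sub (Nat.sub (Nat.add (Nat.add (Nat.add (Nat.add (Nat.add (Nat.add (Nat.add (Nat.add C x12576) x30072) x25212) x25860) x25644) x25716) x25692) x25696) (Nat.mul x25698 (nat_lit 4))) x6016)
    (Nat.sub (Nat.sub (Nat.add (Nat.add (Nat.add (Nat.add (Nat.add (Nat.add (Nat.add C x12584) x30080) x25220) x25868) x25652) x25688) x25708) (Nat.mul x25706 (nat_lit 2))) x45388)
    (Nat.sub (Nat.sub (Nat.sub (Nat.add (Nat.add (Nat.add (Nat.add (Nat.add (Nat.add (Nat.add (Nat.add (Nat.add C x12586) x30082) x25222) x25870) x25654) x25690) x25714) x25706) x25710) (Nat.mul x25708 (nat_lit 2))) x45390) x6026)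
    (Nat.sub (Nat.sub (Nat.add (Nat.add (Nat.add (Nat.add (Nat.add (Nat.add (Nat.add (Nat.add C x12588) x30084) x25224) x25872) x25656) x25692) x25716) x25708) (Nat.mul x25710 (nat_lit 4))) x6028)
    (Nat.sub (Nat.sub (Nat.sub (Nat.add (Nat.add (Nat.add (Nat.add (Nat.add (Nat.add (Nat.add (Nat.add (Nat.add C x12592) x30088) x25228) x25876) x25660) x25696) x25732) x25708) x25716) (Nat.mul x25714 (nat_lit 2))) x45396) x6032)
    (Nat.sub (Nat.sub (Nat.add (Nat.add (Nat.add (Nat.add (Nat.add (Nat.add (Nat.add (Nat.add (Nat.add (Nat.add C x12594) x30090) x25230) x25878) x25662) x25698) x25734) x25710) x25722) x25714) (Nat.mul x25716 (nat_lit 2))) x6034)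
    (Nat.sub (Nat.sub (Nat.add (Nat.add (Nat.add (Nat.add (Nat.add (Nat.add (Nat.add C x12600) x30096) x25236) x25884) x25668) x25740) x25716) (Nat.mul x25722 (nat_lit 2))) x6040)
    (Nat.sub (Nat.sub (Nat.sub (Nat.add (Nat.add (Nat.add (Nat.add (Nat.add (Nat.add C x12610) x30106) x25246) x25894) x25714) x25734) x25732) x45414) x6050)
    (Nat.sub (Nat.sub (Nat.add (Nat.add (Nat.add (Nat.add (Nat.add (Nat.add (Nat.add C x12612) x30108) x25248) x25896) x25716) x25740) x25732) (Nat.mul x25734 (nat_lit 2))) x6052)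
    (Nat.sub (Nat.add (Nat.add (Nat.add (Nat.add (Nat.add (Nat.add C x12618) x30114) x25254) x25902) x25722) x25734) x6058)
    (Nat.sub (Nat.add (Nat.add (Nat.add (Nat.add (Nat.add (Nat.add C (Nat.mul x25766 (nat_lit 2))) x12644) x30140) x25280) x25604) x25772) x45448)
    (Nat.sub (Nat.add (Nat.add (Nat.add (Nat.add (Nat.add (Nat.add (Nat.add (Nat.add (Nat.add C x25772) x12650) x30146) x25286) x25610) x25790) x25766) x25778) x25774) x45454)
    (Nat.sub (Nat.sub (Nat.add (Nat.add (Nat.add (Nat.add (Nat.add (Nat.add (Nat.add (Nat.add C x25774) x12652) x30148) x25288) x25612) x25792) x25780) x25772) x45456) x6092)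
    (Nat.sub (Nat.sub (Nat.add (Nat.add (Nat.add (Nat.add (Nat.add (Nat.add (Nat.add C x12656) x30152) x25292) x25616) x25796) x25772) x25780) (Nat.mul x25778 (nat_lit 2))) x45460)
    (Nat.sub (Nat.sub (Nat.add (Nat.add (Nat.add (Nat.add (Nat.add (Nat.add (Nat.add (Nat.add C x12658) x30154) x25294) x25618) x25798) x25774) x25778) x25782) x45462) x6098)
    (Nat.sub (Nat.add (Nat.add (Nat.add (Nat.add (Nat.add (Nat.add C x12660) x30156) x25296) x25620) x25800) x25780) x6100)
    (Nat.sub (Nat.add (Nat.add (Nat.add (Nat.add (Nat.add (Nat.add (Nat.add (Nat.add C x12668) x30164) x25304) x25628) x25844) x25772) x25796) x25792) x45472)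
    (Nat.sub (Nat.sub (Nat.sub (Nat.add (Nat.add (Nat.add (Nat.add (Nat.add (Nat.add (Nat.add (Nat.add C x12670) x30166) x25306) x25630) x25846) x25774) x25798) x25790) x25792) x45474) x6110)
    (Nat.sub (Nat.sub (Nat.add (Nat.add (Nat.add (Nat.add (Nat.add (Nat.add (Nat.add (Nat.add (Nat.add C x12674) x30170) x25310) x25634) x25850) x25778) x25814) x25790) x25798) x25796) x45478)
    (Nat.sub (Nat.sub (Nat.add (Nat.add (Nat.add (Nat.add (Nat.add (Nat.add (Nat.add (Nat.add (Nat.add (Nat.add (Nat.add C x12676) x30172) x25312) x25636) x25852) x25780) x25816) x25792) x25804) x25796) x25800) x45480) x6116)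
    (Nat.sub (Nat.sub (Nat.add (Nat.add (Nat.add (Nat.add (Nat.add (Nat.add (Nat.add (Nat.add (Nat.add C x12678) x30174) x25314) x25638) x25854) x25782) x25818) x25806) x25798) x25800) x6118)
    (Nat.sub (Nat.sub (Nat.sub (Nat.add (Nat.add (Nat.add (Nat.add (Nat.add (Nat.add (Nat.add (Nat.add C x12682) x30178) x25318) x25642) x25858) x25822) x25798) x25806) x25804) x45486) x6122)
    (Nat.sub (Nat.add (Nat.add (Nat.add (Nat.add (Nat.add (Nat.add (Nat.add (Nat.add C x12684) x30180) x25320) x25644) x25860) x25824) x25800) x25804) x6124)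
    (Nat.sub (Nat.sub (Nat.add (Nat.add (Nat.add (Nat.add (Nat.add (Nat.add (Nat.add C x12692) x30188) x25328) x25652) x25868) x25796) x25816) (Nat.mul x25814 (nat_lit 2))) x45496)
    (Nat.sub (Nat.sub (Nat.sub (Nat.add (Nat.add (Nat.add (Nat.add (Nat.add (Nat.add (Nat.add (Nat.add (Nat.add C x12694) x30190) x25330) x25654) x25870) x25798) x25822) x25814) x25818) (Nat.mul x25816 (nat_lit 2))) x45498) x6134)
    (Nat.sub (Nat.sub (Nat.add (Nat.add (Nat.add (Nat.add (Nat.add (Nat.add (Nat.add (Nat.add C x12696) x30192) x25332) x25656) x25872) x25800) x25824) x25816) (Nat.mul x25818 (nat_lit 4))) x6136)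
    (Nat.sub (Nat.sub (Nat.sub (Nat.add (Nat.add (Nat.add (Nat.add (Nat.add (Nat.add (Nat.add (Nat.add C x12700) x30196) x25336) x25660) x25876) x25804) x25816) x25824) x25822) x45504) x6140)
    (Nat.sub (Nat.sub (Nat.add (Nat.add (Nat.add (Nat.add (Nat.add (Nat.add (Nat.add (Nat.add (Nat.add C x12702) x30198) x25338) x25662) x25878) x25806) x25818) x25830) x25822) x25824) x6142)
    (Nat.sub (Nat.add (Nat.add (Nat.add (Nat.add (Nat.add (Nat.add C x12708) x30204) x25344) x25668) x25884) x25824) x6148)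
    (Nat.sub (Nat.add (Nat.add (Nat.add (Nat.add (Nat.add (Nat.add (Nat.add (Nat.add (Nat.add C x25844) x12722) x30218) x25358) x25682) x26006) x25790) x25850) x25846) x45526)
    (Nat.sub (Nat.sub (Nat.add (Nat.add (Nat.add (Nat.add (Nat.add (Nat.add (Nat.add (Nat.add C x12724) x30220) x25360) x25684) x26008) x25792) x25852) x25844) x45528) x6164)
    (Nat.sub (Nat.sub (Nat.add (Nat.add (Nat.add (Nat.add (Nat.add (Nat.add (Nat.add (Nat.add (Nat.add C x12728) x30224) x25364) x25688) x26012) x25796) x25868) x25844) x25852) x25850) x45532)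
    (Nat.sub (Nat.sub (Nat.add (Nat.add (Nat.add (Nat.add (Nat.add (Nat.add (Nat.add (Nat.add (Nat.add (Nat.add (Nat.add C x12730) x30226) x25366) x25690) x26014) x25798) x25870) x25846) x25858) x25850) x25854) x45534) x6170)
    (Nat.sub (Nat.sub (Nat.add (Nat.add (Nat.add (Nat.add (Nat.add (Nat.add (Nat.add (Nat.add (Nat.add C x12732) x30228) x25368) x25692) x26016) x25800) x25872) x25860) x25852) x25854) x6172)
    (Nat.sub (Nat.sub (Nat.sub (Nat.add (Nat.add (Nat.add (Nat.add (Nat.add (Nat.add (Nat.add (Nat.add (Nat.add C x12736) x30232) x25372) x25696) x26020) x25804) x25876) x25852) x25860) (Nat.mul x25858 (nat_lit 2))) x45540) x6176)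
    (Nat.sub (Nat.sub (Nat.add (Nat.add (Nat.add (Nat.add (Nat.add (Nat.add (Nat.add (Nat.add (Nat.add C x12738) x30234) x25374) x25698) x26022) x25806) x25878) x25854) x25858) x25860) x6178)
    (Nat.sub (Nat.add (Nat.add (Nat.add (Nat.add (Nat.add (Nat.add (Nat.add (Nat.add (Nat.add C x12746) x30242) x25382) x25706) x26030) x25814) x25922) x25850) x25870) x45550)
    (Nat.sub (Nat.sub (Nat.add (Nat.add (Nat.add (Nat.add (Nat.add (Nat.add (Nat.add (Nat.add (Nat.add (Nat.add (Nat.add C x12748) x30244) x25384) x25708) x26032) x25816) x25924) x25852) x25876) x25868) x25872) x45552) x6188)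
    (Nat.sub (Nat.sub (Nat.add (Nat.add (Nat.add (Nat.add (Nat.add (Nat.add (Nat.add (Nat.add (Nat.add (Nat.add C x12750) x30246) x25386) x25710) x26034) x25818) x25926) x25854) x25878) x25870) (Nat.mul x25872 (nat_lit 2))) x6190)
    (Nat.sub (Nat.sub (Nat.add (Nat.add (Nat.add (Nat.add (Nat.add (Nat.add (Nat.add (Nat.add (Nat.add (Nat.add (Nat.add C x12754) x30250) x25390) x25714) x26038) x25822) x25930) x25858) x25894) x25870) x25878) x45558) x6194)
    (Nat.sub (Nat.add (Nat.add (Nat.add (Nat.add (Nat.add (Nat.add (Nat.add (Nat.add (Nat.add (Nat.add (Nat.add (Nat.add C x12756) x30252) x25392) x25716) x26040) x25824) x25932) x25860) x25896) x25872) x25884) x25876) x6196)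
    (Nat.sub (Nat.add (Nat.add (Nat.add (Nat.add (Nat.add (Nat.add (Nat.add (Nat.add (Nat.add C x12762) x30258) x25398) x25722) x26046) x25830) x25938) x25902) x25878) x6202)
    (Nat.sub (Nat.sub (Nat.add (Nat.add (Nat.add (Nat.add (Nat.add (Nat.add (Nat.add (Nat.add C x12772) x30268) x25408) x25732) x26056) x25948) x25876) x25896) x45576) x6212)
    (Nat.sub (Nat.sub (Nat.add (Nat.add (Nat.add (Nat.add (Nat.add (Nat.add (Nat.add (Nat.add (Nat.add C x12774) x30270) x25410) x25734) x26058) x25950) x25878) x25902) x25894) x25896) x6214)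
    (Nat.sub (Nat.add (Nat.add (Nat.add (Nat.add (Nat.add (Nat.add (Nat.add (Nat.add (Nat.add C x25902) x12780) x30276) x25416) x25740) x26064) x25956) x25884) x25896) x6220)
    (Nat.sub (Nat.add (Nat.add (Nat.add (Nat.add (Nat.add (Nat.add C x12800) x30296) x25436) x26084) x25868) x25924) x45604)
    (Nat.sub (Nat.sub (Nat.add (Nat.add (Nat.add (Nat.add (Nat.add (Nat.add (Nat.add (Nat.add C x12802) x30298) x25438) x26086) x25870) x25930) x25922) x25926) x45606) x6242)
    (Nat.sub (Nat.sub (Nat.add (Nat.add (Nat.add (Nat.add (Nat.add (Nat.add (Nat.add C x12804) x30300) x25440) x26088) x25872) x25932) x25924) (Nat.mul x25926 (nat_lit 2))) x6244)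
    (Nat.sub (Nat.sub (Nat.sub (Nat.add (Nat.add (Nat.add (Nat.add (Nat.add (Nat.add (Nat.add (Nat.add C x12808) x30304) x25444) x26092) x25876) x25948) x25924) x25932) x25930) x45612) x6248)
    (Nat.sub (Nat.sub (Nat.add (Nat.add (Nat.add (Nat.add (Nat.add (Nat.add (Nat.add (Nat.add (Nat.add C x12810) x30306) x25446) x26094) x25878) x25950) x25926) x25938) x25930) x25932) x6250)
    (Nat.sub (Nat.sub (Nat.add (Nat.add (Nat.add (Nat.add (Nat.add (Nat.add (Nat.add C x12816) x30312) x25452) x26100) x25884) x25956) x25932) (Nat.mul x25938 (nat_lit 2))) x6256)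
    (Nat.sub (Nat.sub (Nat.add (Nat.add (Nat.add (Nat.add (Nat.add (Nat.add (Nat.add (Nat.add C x25948) x12826) x30322) x25462) x26110) x25894) x25930) x25950) x45630) x6266)
    (Nat.sub (Nat.add (Nat.add (Nat.add (Nat.add (Nat.add (Nat.add (Nat.add (Nat.add C x12828) x30324) x25464) x26112) x25896) x25932) x25956) x25948) x6268)
    (Nat.sub (Nat.add (Nat.add (Nat.add (Nat.add (Nat.add (Nat.add (Nat.add (Nat.add (Nat.add C x25956) x12834) x30330) x25470) x26118) x25902) x25938) x25974) x25950) x6274)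
    (Nat.sub (Nat.add (Nat.add (Nat.add (Nat.add (Nat.add (Nat.add C (Nat.mul x25974 (nat_lit 2))) x12852) x30348) x25488) x26136) x25956) x6292)
    (Nat.sub (Nat.add (Nat.add (Nat.add (Nat.add (Nat.add (Nat.add C (Nat.mul x26006 (nat_lit 2))) x12884) x30380) x25844) x26012) x26008) x45688)
    (Nat.sub (Nat.sub (Nat.add (Nat.add (Nat.add (Nat.add (Nat.add (Nat.add C x26008) x12886) x30382) x25846) x26014) x26006) x45690) x6326)
    (Nat.sub (Nat.add (Nat.add (Nat.add (Nat.add (Nat.add (Nat.add C x12890) x30386) x25850) x26030) x26006) x26014) x45694)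
    (Nat.sub (Nat.sub (Nat.add (Nat.add (Nat.add (Nat.add (Nat.add (Nat.add (Nat.add (Nat.add (Nat.add C x26014) x12892) x30388) x25852) x26032) x26008) x26020) x26012) x26016) x45696) x6332)
    (Nat.sub (Nat.add (Nat.add (Nat.add (Nat.add (Nat.add (Nat.add C x12894) x30390) x25854) x26034) x26022) x26014) x6334)
    (Nat.sub (Nat.sub (Nat.sub (Nat.add (Nat.add (Nat.add (Nat.add (Nat.add (Nat.add C x12898) x30394) x25858) x26038) x26014) x26022) x26020) x45702) x6338)
    (Nat.sub (Nat.add (Nat.add (Nat.add (Nat.add (Nat.add (Nat.add C x12900) x30396) x25860) x26040) x26016) x26020) x6340)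
    (Nat.sub (Nat.add (Nat.add (Nat.add (Nat.add (Nat.add (Nat.add C x12908) x30404) x25868) x26084) x26012) x26032) x45712)
    (Nat.sub (Nat.sub (Nat.add (Nat.add (Nat.add (Nat.add (Nat.add (Nat.add (Nat.add (Nat.add C x12910) x30406) x25870) x26086) x26014) x26038) x26030) x26034) x45714) x6350)
    (Nat.sub (Nat.sub (Nat.add (Nat.add (Nat.add (Nat.add (Nat.add (Nat.add (Nat.add C x12912) x30408) x25872) x26088) x26016) x26040) x26032) (Nat.mul x26034 (nat_lit 2))) x6352)
    (Nat.sub (Nat.sub (Nat.add (Nat.add (Nat.add (Nat.add (Nat.add (Nat.add (Nat.add (Nat.add C x12916) x30412) x25876) x26092) x26020) x26056) x26032) x26040) x45720) x6356)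
    (Nat.sub (Nat.add (Nat.add (Nat.add (Nat.add (Nat.add (Nat.add (Nat.add (Nat.add (Nat.add C x12918) x30414) x25878) x26094) x26022) x26058) x26034) x26046) x26038) x6358)
    (Nat.sub (Nat.add (Nat.add (Nat.add (Nat.add (Nat.add (Nat.add C x12924) x30420) x25884) x26100) x26064) x26040) x6364)
    (Nat.sub (Nat.sub (Nat.sub (Nat.add (Nat.add (Nat.add (Nat.add (Nat.add (Nat.add C x12934) x30430) x25894) x26110) x26038) x26058) x26056) x45738) x6374)
    (Nat.sub (Nat.sub (Nat.add (Nat.add (Nat.add (Nat.add (Nat.add (Nat.add (Nat.add C x12936) x30432) x25896) x26112) x26040) x26064) x26056) (Nat.mul x26058 (nat_lit 2))) x6376)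
    (Nat.sub (Nat.add (Nat.add (Nat.add (Nat.add (Nat.add (Nat.add C x12942) x30438) x25902) x26118) x26046) x26058) x6382)
    (Nat.sub (Nat.add (Nat.add (Nat.add (Nat.add (Nat.add (Nat.add C (Nat.mul x26084 (nat_lit 2))) x12962) x30458) x25922) x26030) x26086) x45766)
    (Nat.sub (Nat.sub (Nat.add (Nat.add (Nat.add (Nat.add (Nat.add (Nat.add (Nat.add (Nat.add C (Nat.mul x26086 (nat_lit 2))) x12964) x30460) x25924) x26032) x26092) x26084) x26088) x45768) x6404)
    (Nat.sub (Nat.add (Nat.add (Nat.add (Nat.add (Nat.add (Nat.add C x12966) x30462) x25926) x26034) x26094) x26086) x6406)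
    (Nat.sub (Nat.sub (Nat.add (Nat.add (Nat.add (Nat.add (Nat.add (Nat.add (Nat.add (Nat.add C x26092) x12970) x30466) x25930) x26038) x26110) x26086) x26094) x45774) x6410)
    (Nat.sub (Nat.add (Nat.add (Nat.add (Nat.add (Nat.add (Nat.add (Nat.add (Nat.add (Nat.add C x26094) x12972) x30468) x25932) x26040) x26112) x26088) x26100) x26092) x6412)
    (Nat.sub (Nat.add (Nat.add (Nat.add (Nat.add (Nat.add (Nat.add C x12978) x30474) x25938) x26046) x26118) x26094) x6418)
    (Nat.sub (Nat.sub (Nat.add (Nat.add (Nat.add (Nat.add (Nat.add (Nat.add (Nat.add (Nat.add C (Nat.mul x26110 (nat_lit 2))) x12988) x30484) x25948) x26056) x26164) x26092) x26112) x45792) x6428)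
    (Nat.sub (Nat.add (Nat.add (Nat.add (Nat.add (Nat.add (Nat.add (Nat.add (Nat.add (Nat.add C x26112) x12990) x30486) x25950) x26058) x26166) x26094) x26118) x26110) x6430)
    (Nat.sub (Nat.add (Nat.add (Nat.add (Nat.add (Nat.add (Nat.add (Nat.add (Nat.add (Nat.add C (Nat.mul x26118 (nat_lit 2))) x12996) x30492) x25956) x26064) x26172) x26100) x26136) x26112) x6436)
    (Nat.sub (Nat.add (Nat.add (Nat.add (Nat.add (Nat.add (Nat.add C (Nat.mul x26136 (nat_lit 2))) x13014) x30510) x25974) x26190) x26118) x6454)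
    (Nat.sub (Nat.sub (Nat.add (Nat.add (Nat.add (Nat.add (Nat.add C (Nat.mul x26164 (nat_lit 3))) x13042) x30538) x26110) x26166) x45846) x6482)
    (Nat.sub (Nat.add (Nat.add (Nat.add (Nat.add (Nat.add (Nat.add C (Nat.mul x26166 (nat_lit 2))) x13044) x30540) x26112) x26172) x26164) x6484)
    (Nat.sub (Nat.add (Nat.add (Nat.add (Nat.add (Nat.add (Nat.add C (Nat.mul x26172 (nat_lit 2))) x13050) x30546) x26118) x26190) x26166) x6490)
    (Nat.sub (Nat.add (Nat.add (Nat.add (Nat.add (Nat.add C (Nat.mul x26190 (nat_lit 4))) x13068) x30564) x26136) x26172) x6508)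
    (Nat.sub (Nat.add (Nat.add (Nat.add (Nat.add (Nat.add C (Nat.mul x26324 (nat_lit 5))) x13202) x39446) x21950) x26378) x46006)
    (Nat.sub (Nat.add (Nat.add (Nat.add (Nat.add (Nat.add (Nat.add (Nat.add (Nat.add C (Nat.mul x26378 (nat_lit 4))) x13256) x39500) x22004) x26540) x26324) x26432) x26396) x46060)
    (Nat.sub (Nat.add (Nat.add (Nat.add (Nat.add (Nat.add (Nat.add (Nat.add (Nat.add C (Nat.mul x26396 (nat_lit 3))) x13274) x39518) x22022) x26558) x26450) x26378) x26402) x46078)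
    (Nat.sub (Nat.add (Nat.add (Nat.add (Nat.add (Nat.add (Nat.add (Nat.add (Nat.add C (Nat.mul x26402 (nat_lit 3))) x13280) x39524) x22028) x26564) x26456) x26396) x26404) x46084)
    (Nat.sub (Nat.sub (Nat.add (Nat.add (Nat.add (Nat.add (Nat.add (Nat.add (Nat.add C (Nat.mul x26404 (nat_lit 4))) x13282) x39526) x22030) x26566) x26458) x26402) x46086) x6722)
    (Nat.sub (Nat.add (Nat.add (Nat.add (Nat.add (Nat.add (Nat.add (Nat.add C x26432) x13310) x39554) x22058) x26594) x26378) x26450) x46114)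
    (Nat.sub (Nat.add (Nat.add (Nat.add (Nat.add (Nat.add (Nat.add (Nat.add (Nat.add (Nat.add C (Nat.mul x26450 (nat_lit 2))) x13328) x39572) x22076) x26612) x26396) x26432) x26468) x26456) x46132)
    (Nat.sub (Nat.add (Nat.add (Nat.add (Nat.add (Nat.add (Nat.add (Nat.add (Nat.add (Nat.add C x26456) x13334) x39578) x22082) x26618) x26402) x26474) x26450) x26458) x46138)
    (Nat.sub (Nat.sub (Nat.add (Nat.add (Nat.add (Nat.add (Nat.add (Nat.add (Nat.add (Nat.add C (Nat.mul x26458 (nat_lit 2))) x13336) x39580) x22084) x26620) x26404) x26476) x26456) x46140) x6776)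
    (Nat.sub (Nat.add (Nat.add (Nat.add (Nat.add (Nat.add (Nat.add (Nat.add C x26468) x13346) x39590) x22094) x26630) x26450) x26474) x46150)
    (Nat.sub (Nat.add (Nat.add (Nat.add (Nat.add (Nat.add (Nat.add (Nat.add (Nat.add (Nat.add C (Nat.mul x26474 (nat_lit 2))) x13352) x39596) x22100) x26636) x26456) x26468) x26480) x26476) x46156)
    (Nat.sub (Nat.sub (Nat.add (Nat.add (Nat.add (Nat.add (Nat.add (Nat.add (Nat.add (Nat.add C (Nat.mul x26476 (nat_lit 2))) x13354) x39598) x22102) x26638) x26458) x26482) x26474) x46158) x6794)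
    (Nat.sub (Nat.add (Nat.add (Nat.add (Nat.add (Nat.add (Nat.add (Nat.add C x26480) x13358) x39602) x22106) x26642) x26474) x26482) x46162)
    (Nat.sub (Nat.sub (Nat.add (Nat.add (Nat.add (Nat.add (Nat.add (Nat.add (Nat.add (Nat.add C (Nat.mul x26482 (nat_lit 3))) x13360) x39604) x22108) x26644) x26476) x26480) x26484) x46164) x6800)
    (Nat.sub (Nat.add (Nat.add (Nat.add (Nat.add (Nat.add (Nat.add C (Nat.mul x26484 (nat_lit 3))) x13362) x39606) x22110) x26646) x26482) x6802)
    (Nat.sub (Nat.add (Nat.add (Nat.add (Nat.add (Nat.add (Nat.add (Nat.add (Nat.add C (Nat.mul x26540 (nat_lit 3))) x13418) x39662) x22166) x27026) x26378) x26594) x26558) x46222)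
    (Nat.sub (Nat.add (Nat.add (Nat.add (Nat.add (Nat.add (Nat.add (Nat.add (Nat.add (Nat.add C x26558) x13436) x39680) x22184) x27044) x26396) x26612) x26540) x26564) x46240)
    (Nat.sub (Nat.add (Nat.add (Nat.add (Nat.add (Nat.add (Nat.add (Nat.add (Nat.add (Nat.add C x26564) x13442) x39686) x22190) x27050) x26402) x26618) x26558) x26566) x46246)
    (Nat.sub (Nat.sub (Nat.add (Nat.add (Nat.add (Nat.add (Nat.add (Nat.add (Nat.add (Nat.add C (Nat.mul x26566 (nat_lit 2))) x13444) x39688) x22192) x27052) x26404) x26620) x26564) x46248) x6884)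
    (Nat.sub (Nat.add (Nat.add (Nat.add (Nat.add (Nat.add (Nat.add (Nat.add (Nat.add (Nat.add C (Nat.mul x26594 (nat_lit 2))) x13472) x39716) x22220) x27080) x26432) x26756) x26540) x26612) x46276)
    (Nat.sub (Nat.add (Nat.add (Nat.add (Nat.add (Nat.add (Nat.add (Nat.add (Nat.add (Nat.add (Nat.add (Nat.add (Nat.add C (Nat.mul x26612 (nat_lit 2))) x13490) x39734) x22238) x27098) x26450) x26774) x26558) x26666) x26594) x26630) x26618) x46294)
    (Nat.sub (Nat.add (Nat.add (Nat.add (Nat.add (Nat.add (Nat.add (Nat.add (Nat.add (Nat.add (Nat.add (Nat.add (Nat.add C x26618) x13496) x39740) x22244) x27104) x26456) x26780) x26564) x26672) x26636) x26612) x26620) x46300)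
    (Nat.sub (Nat.sub (Nat.add (Nat.add (Nat.add (Nat.add (Nat.add (Nat.add (Nat.add (Nat.add (Nat.add (Nat.add (Nat.add C (Nat.mul x26620 (nat_lit 2))) x13498) x39742) x22246) x27106) x26458) x26782) x26566) x26674) x26638) x26618) x46302) x6938)
    (Nat.sub (Nat.add (Nat.add (Nat.add (Nat.add (Nat.add (Nat.add (Nat.add (Nat.add (Nat.add C x13508) x39752) x22256) x27116) x26468) x26792) x26684) x26612) x26636) x46312)
    (Nat.sub (Nat.add (Nat.add (Nat.add (Nat.add (Nat.add (Nat.add (Nat.add (Nat.add (Nat.add (Nat.add (Nat.add (Nat.add C x26636) x13514) x39758) x22262) x27122) x26474) x26798) x26690) x26618) x26630) x26642) x26638) x46318)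
    (Nat.sub (Nat.sub (Nat.add (Nat.add (Nat.add (Nat.add (Nat.add (Nat.add (Nat.add (Nat.add (Nat.add (Nat.add (Nat.add C x26638) x13516) x39760) x22264) x27124) x26476) x26800) x26692) x26620) x26644) x26636) x46320) x6956)
    (Nat.sub (Nat.add (Nat.add (Nat.add (Nat.add (Nat.add (Nat.add (Nat.add (Nat.add (Nat.add C x13520) x39764) x22268) x27128) x26480) x26804) x26696) x26636) x26644) x46324)
    (Nat.sub (Nat.sub (Nat.add (Nat.add (Nat.add (Nat.add (Nat.add (Nat.add (Nat.add (Nat.add (Nat.add (Nat.add (Nat.add C (Nat.mul x26644 (nat_lit 2))) x13522) x39766) x22270) x27130) x26482) x26806) x26698) x26638) x26642) x26646) x46326) x6962)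
    (Nat.sub (Nat.add (Nat.add (Nat.add (Nat.add (Nat.add (Nat.add (Nat.add (Nat.add (Nat.add C (Nat.mul x26646 (nat_lit 2))) x13524) x39768) x22272) x27132) x26484) x26808) x26700) x26644) x6964)
    (Nat.sub (Nat.add (Nat.add (Nat.add (Nat.add (Nat.add (Nat.add (Nat.add (Nat.add (Nat.add C x26666) x13544) x39788) x22292) x27152) x26828) x26612) x26684) x26672) x46348)
    (Nat.sub (Nat.sub (Nat.add (Nat.add (Nat.add (Nat.add (Nat.add (Nat.add (Nat.add (Nat.add (Nat.add C x13550) x39794) x22298) x27158) x26834) x26618) x26690) x26666) x26674) x26672) x46354)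
    (Nat.sub (Nat.sub (Nat.add (Nat.add (Nat.add (Nat.add (Nat.add (Nat.add (Nat.add (Nat.add C x13552) x39796) x22300) x27160) x26836) x26620) x26692) x26672) x46356) x6992)
    (Nat.sub (Nat.add (Nat.add (Nat.add (Nat.add (Nat.add (Nat.add (Nat.add (Nat.add (Nat.add C x26684) x13562) x39806) x22310) x27170) x26846) x26630) x26666) x26690) x46366)
    (Nat.sub (Nat.add (Nat.add (Nat.add (Nat.add (Nat.add (Nat.add (Nat.add (Nat.add (Nat.add (Nat.add (Nat.add (Nat.add C x26690) x13568) x39812) x22316) x27176) x26852) x26636) x26672) x26708) x26684) x26696) x26692) x46372)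
    (Nat.sub (Nat.sub (Nat.add (Nat.add (Nat.add (Nat.add (Nat.add (Nat.add (Nat.add (Nat.add (Nat.add (Nat.add (Nat.add C x26692) x13570) x39814) x22318) x27178) x26854) x26638) x26674) x26710) x26698) x26690) x46374) x7010)
    (Nat.sub (Nat.sub (Nat.add (Nat.add (Nat.add (Nat.add (Nat.add (Nat.add (Nat.add (Nat.add (Nat.add C x13574) x39818) x22322) x27182) x26858) x26642) x26714) x26690) x26698) x26696) x46378)
    (Nat.sub (Nat.sub (Nat.add (Nat.add (Nat.add (Nat.add (Nat.add (Nat.add (Nat.add (Nat.add (Nat.add (Nat.add (Nat.add C x26698) x13576) x39820) x22324) x27184) x26860) x26644) x26716) x26692) x26696) x26700) x46380) x7016)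
    (Nat.sub (Nat.add (Nat.add (Nat.add (Nat.add (Nat.add (Nat.add (Nat.add (Nat.add (Nat.add C x26700) x13578) x39822) x22326) x27186) x26862) x26646) x26718) x26698) x7018)
    (Nat.sub (Nat.add (Nat.add (Nat.add (Nat.add (Nat.add (Nat.add (Nat.add (Nat.add (Nat.add C x26708) x13586) x39830) x22334) x27194) x26870) x26690) x26714) x26710) x46390)
    (Nat.sub (Nat.sub (Nat.add (Nat.add (Nat.add (Nat.add (Nat.add (Nat.add (Nat.add (Nat.add C x13588) x39832) x22336) x27196) x26872) x26692) x26716) x26708) x46392) x7028)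
    (Nat.sub (Nat.add (Nat.add (Nat.add (Nat.add (Nat.add (Nat.add (Nat.add (Nat.add (Nat.add C x26714) x13592) x39836) x22340) x27200) x26876) x26696) x26708) x26716) x46396)
    (Nat.sub (Nat.sub (Nat.add (Nat.add (Nat.add (Nat.add (Nat.add (Nat.add (Nat.add (Nat.add (Nat.add (Nat.add (Nat.add C (Nat.mul x26716 (nat_lit 2))) x13594) x39838) x22342) x27202) x26878) x26698) x26710) x26722) x26714) x26718) x46398) x7034)
    (Nat.sub (Nat.add (Nat.add (Nat.add (Nat.add (Nat.add (Nat.add (Nat.add (Nat.add (Nat.add C x26718) x13596) x39840) x22344) x27204) x26880) x26700) x26724) x26716) x7036)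
    (Nat.sub (Nat.sub (Nat.add (Nat.add (Nat.add (Nat.add (Nat.add (Nat.add (Nat.add (Nat.add C (Nat.mul x26722 (nat_lit 2))) x13600) x39844) x22348) x27208) x26884) x26716) x26724) x46404) x7040)
    (Nat.sub (Nat.add (Nat.add (Nat.add (Nat.add (Nat.add (Nat.add (Nat.add (Nat.add C (Nat.mul x26724 (nat_lit 3))) x13602) x39846) x22350) x27210) x26886) x26718) x26722) x7042)
    (Nat.sub (Nat.add (Nat.add (Nat.add (Nat.add (Nat.add (Nat.add (Nat.add C x26756) x13634) x39878) x22382) x27242) x26594) x26774) x46438)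
    (Nat.sub (Nat.add (Nat.add (Nat.add (Nat.add (Nat.add (Nat.add (Nat.add (Nat.add (Nat.add C x13652) x39896) x22400) x27260) x26612) x26828) x26756) x26792) x26780) x46456)
    (Nat.sub (Nat.sub (Nat.add (Nat.add (Nat.add (Nat.add (Nat.add (Nat.add (Nat.add (Nat.add (Nat.add C x13658) x39902) x22406) x27266) x26618) x26834) x26798) x26774) x26782) x26780) x46462)
    (Nat.sub (Nat.sub (Nat.add (Nat.add (Nat.add (Nat.add (Nat.add (Nat.add (Nat.add (Nat.add C x13660) x39904) x22408) x27268) x26620) x26836) x26800) x26780) x46464) x7100)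
    (Nat.sub (Nat.sub (Nat.add (Nat.add (Nat.add (Nat.add (Nat.add (Nat.add (Nat.add (Nat.add C x13670) x39914) x22418) x27278) x26630) x26846) x26774) x26798) (Nat.mul x26792 (nat_lit 3))) x46474)
    (Nat.sub (Nat.sub (Nat.add (Nat.add (Nat.add (Nat.add (Nat.add (Nat.add (Nat.add (Nat.add (Nat.add (Nat.add C x13676) x39920) x22424) x27284) x26636) x26852) x26780) x26792) x26804) x26800) (Nat.mul x26798 (nat_lit 2))) x46480)
    (Nat.sub (Nat.sub (Nat.sub (Nat.add (Nat.add (Nat.add (Nat.add (Nat.add (Nat.add (Nat.add (Nat.add (Nat.add C x13678) x39922) x22426) x27286) x26638) x26854) x26782) x26806) x26798) (Nat.mul x26800 (nat_lit 2))) x46482) x7118)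
    (Nat.sub (Nat.sub (Nat.add (Nat.add (Nat.add (Nat.add (Nat.add (Nat.add (Nat.add (Nat.add C x13682) x39926) x22430) x27290) x26642) x26858) x26798) x26806) (Nat.mul x26804 (nat_lit 3))) x46486)
    (Nat.sub (Nat.sub (Nat.sub (Nat.add (Nat.add (Nat.add (Nat.add (Nat.add (Nat.add (Nat.add (Nat.add (Nat.add C x13684) x39928) x22432) x27292) x26644) x26860) x26800) x26804) x26808) x26806) x46488) x7124)
    (Nat.sub (Nat.sub (Nat.add (Nat.add (Nat.add (Nat.add (Nat.add (Nat.add (Nat.add C x13686) x39930) x22434) x27294) x26646) x26862) x26806) x26808) x7126)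
    (Nat.sub (Nat.add (Nat.add (Nat.add (Nat.add (Nat.add (Nat.add (Nat.add (Nat.add (Nat.add C x26828) x13706) x39950) x22454) x27314) x26666) x26774) x26846) x26834) x46510)
    (Nat.sub (Nat.sub (Nat.add (Nat.add (Nat.add (Nat.add (Nat.add (Nat.add (Nat.add (Nat.add (Nat.add C x13712) x39956) x22460) x27320) x26672) x26780) x26852) x26828) x26836) x26834) x46516)
    (Nat.sub (Nat.sub (Nat.add (Nat.add (Nat.add (Nat.add (Nat.add (Nat.add (Nat.add (Nat.add C x13714) x39958) x22462) x27322) x26674) x26782) x26854) x26834) x46518) x7154)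
    (Nat.sub (Nat.add (Nat.add (Nat.add (Nat.add (Nat.add (Nat.add (Nat.add (Nat.add (Nat.add C x13724) x39968) x22472) x27332) x26684) x26792) x26900) x26828) x26852) x46528)
    (Nat.sub (Nat.add (Nat.add (Nat.add (Nat.add (Nat.add (Nat.add (Nat.add (Nat.add (Nat.add (Nat.add (Nat.add (Nat.add C x13730) x39974) x22478) x27338) x26690) x26798) x26906) x26834) x26870) x26846) x26858) x26854) x46534)
    (Nat.sub (Nat.sub (Nat.add (Nat.add (Nat.add (Nat.add (Nat.add (Nat.add (Nat.add (Nat.add (Nat.add (Nat.add (Nat.add C x13732) x39976) x22480) x27340) x26692) x26800) x26908) x26836) x26872) x26860) x26852) x46536) x7172)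
    (Nat.sub (Nat.sub (Nat.add (Nat.add (Nat.add (Nat.add (Nat.add (Nat.add (Nat.add (Nat.add (Nat.add (Nat.add C x13736) x39980) x22484) x27344) x26696) x26804) x26912) x26876) x26852) x26860) (Nat.mul x26858 (nat_lit 2))) x46540)
    (Nat.sub (Nat.sub (Nat.add (Nat.add (Nat.add (Nat.add (Nat.add (Nat.add (Nat.add (Nat.add (Nat.add (Nat.add (Nat.add C x13738) x39982) x22486) x27346) x26698) x26806) x26914) x26878) x26854) x26858) x26862) x46542) x7178)
    (Nat.sub (Nat.add (Nat.add (Nat.add (Nat.add (Nat.add (Nat.add (Nat.add (Nat.add (Nat.add C x13740) x39984) x22488) x27348) x26700) x26808) x26916) x26880) x26860) x7180)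
    (Nat.sub (Nat.sub (Nat.add (Nat.add (Nat.add (Nat.add (Nat.add (Nat.add (Nat.add (Nat.add (Nat.add C x13748) x39992) x22496) x27356) x26708) x26924) x26852) x26876) x26872) x26870) x46552)
    (Nat.sub (Nat.sub (Nat.sub (Nat.add (Nat.add (Nat.add (Nat.add (Nat.add (Nat.add (Nat.add (Nat.add (Nat.add C x13750) x39994) x22498) x27358) x26710) x26926) x26854) x26878) x26870) (Nat.mul x26872 (nat_lit 2))) x46554) x7190)
    (Nat.sub (Nat.sub (Nat.add (Nat.add (Nat.add (Nat.add (Nat.add (Nat.add (Nat.add (Nat.add (Nat.add C x13754) x39998) x22502) x27362) x26714) x26930) x26858) x26870) x26878) x26876) x46558)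
    (Nat.sub (Nat.sub (Nat.add (Nat.add (Nat.add (Nat.add (Nat.add (Nat.add (Nat.add (Nat.add (Nat.add (Nat.add (Nat.add C x13756) x40000) x22504) x27364) x26716) x26932) x26860) x26872) x26884) x26876) x26880) x46560) x7196)
    (Nat.sub (Nat.sub (Nat.add (Nat.add (Nat.add (Nat.add (Nat.add (Nat.add (Nat.add (Nat.add (Nat.add C x13758) x40002) x22506) x27366) x26718) x26934) x26862) x26886) x26878) x26880) x7198)
    (Nat.sub (Nat.sub (Nat.add (Nat.add (Nat.add (Nat.add (Nat.add (Nat.add (Nat.add (Nat.add C x13762) x40006) x22510) x27370) x26722) x26938) x26878) x26886) x46566) x7202)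
    (Nat.sub (Nat.add (Nat.add (Nat.add (Nat.add (Nat.add (Nat.add (Nat.add (Nat.add (Nat.add C x26886) x13764) x40008) x22512) x27372) x26724) x26940) x26880) x26884) x7204)
    (Nat.sub (Nat.add (Nat.add (Nat.add (Nat.add (Nat.add (Nat.add (Nat.add C x26900) x13778) x40022) x22526) x27386) x26846) x26906) x46582)
    (Nat.sub (Nat.add (Nat.add (Nat.add (Nat.add (Nat.add (Nat.add (Nat.add (Nat.add (Nat.add C x13784) x40028) x22532) x27392) x26852) x26924) x26900) x26912) x26908) x46588)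
    (Nat.sub (Nat.sub (Nat.add (Nat.add (Nat.add (Nat.add (Nat.add (Nat.add (Nat.add (Nat.add C x13786) x40030) x22534) x27394) x26854) x26926) x26914) x26906) x46590) x7226)
    (Nat.sub (Nat.sub (Nat.add (Nat.add (Nat.add (Nat.add (Nat.add (Nat.add (Nat.add (Nat.add C x13790) x40034) x22538) x27398) x26858) x26930) x26906) x26914) (Nat.mul x26912 (nat_lit 3))) x46594)
    (Nat.sub (Nat.sub (Nat.sub (Nat.add (Nat.add (Nat.add (Nat.add (Nat.add (Nat.add (Nat.add (Nat.add (Nat.add C x13792) x40036) x22540) x27400) x26860) x26932) x26908) x26912) x26916) x26914) x46596) x7232)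
    (Nat.sub (Nat.sub (Nat.add (Nat.add (Nat.add (Nat.add (Nat.add (Nat.add (Nat.add C x13794) x40038) x22542) x27402) x26862) x26934) x26914) x26916) x7234)
    (Nat.sub (Nat.add (Nat.add (Nat.add (Nat.add (Nat.add (Nat.add (Nat.add (Nat.add (Nat.add C x26924) x13802) x40046) x22550) x27410) x26870) x26906) x26930) x26926) x46606)
    (Nat.sub (Nat.sub (Nat.add (Nat.add (Nat.add (Nat.add (Nat.add (Nat.add (Nat.add (Nat.add C x13804) x40048) x22552) x27412) x26872) x26908) x26932) x26924) x46608) x7244)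
    (Nat.sub (Nat.add (Nat.add (Nat.add (Nat.add (Nat.add (Nat.add (Nat.add (Nat.add (Nat.add C x13808) x40052) x22556) x27416) x26876) x26912) x26948) x26924) x26932) x46612)
    (Nat.sub (Nat.sub (Nat.add (Nat.add (Nat.add (Nat.add (Nat.add (Nat.add (Nat.add (Nat.add (Nat.add (Nat.add (Nat.add (Nat.add C x26932) x13810) x40054) x22558) x27418) x26878) x26914) x26950) x26926) x26938) x26930) x26934) x46614) x7250)
    (Nat.sub (Nat.add (Nat.add (Nat.add (Nat.add (Nat.add (Nat.add (Nat.add (Nat.add (Nat.add C x13812) x40056) x22560) x27420) x26880) x26916) x26952) x26940) x26932) x7252)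
    (Nat.sub (Nat.sub (Nat.add (Nat.add (Nat.add (Nat.add (Nat.add (Nat.add (Nat.add (Nat.add C x13816) x40060) x22564) x27424) x26884) x26956) x26932) x26940) x46620) x7256)
    (Nat.sub (Nat.add (Nat.add (Nat.add (Nat.add (Nat.add (Nat.add (Nat.add (Nat.add (Nat.add C x26940) x13818) x40062) x22566) x27426) x26886) x26958) x26934) x26938) x7258)
    (Nat.sub (Nat.add (Nat.add (Nat.add (Nat.add (Nat.add (Nat.add (Nat.add C x26948) x13826) x40070) x22574) x27434) x26930) x26950) x46630)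
    (Nat.sub (Nat.sub (Nat.add (Nat.add (Nat.add (Nat.add (Nat.add (Nat.add (Nat.add (Nat.add (Nat.add C x26950) x13828) x40072) x22576) x27436) x26932) x26956) x26948) x26952) x46632) x7268)
    (Nat.sub (Nat.sub (Nat.add (Nat.add (Nat.add (Nat.add (Nat.add (Nat.add (Nat.add C x13830) x40074) x22578) x27438) x26934) x26958) x26950) x26952) x7270)
    (Nat.sub (Nat.sub (Nat.add (Nat.add (Nat.add (Nat.add (Nat.add (Nat.add (Nat.add (Nat.add C (Nat.mul x26956 (nat_lit 2))) x13834) x40078) x22582) x27442) x26938) x26950) x26958) x46638) x7274)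
    (Nat.sub (Nat.add (Nat.add (Nat.add (Nat.add (Nat.add (Nat.add (Nat.add (Nat.add (Nat.add C (Nat.mul x26958 (nat_lit 2))) x13836) x40080) x22584) x27444) x26940) x26952) x26964) x26956) x7276)
    (Nat.sub (Nat.add (Nat.add (Nat.add (Nat.add (Nat.add (Nat.add C (Nat.mul x26964 (nat_lit 3))) x13842) x40086) x22590) x27450) x26958) x7282)
    (Nat.sub (Nat.add (Nat.add (Nat.add (Nat.add (Nat.add (Nat.add (Nat.add (Nat.add C (Nat.mul x27026 (nat_lit 3))) x13904) x40148) x22652) x28484) x26540) x27080) x27044) x46708)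
    (Nat.sub (Nat.add (Nat.add (Nat.add (Nat.add (Nat.add (Nat.add (Nat.add (Nat.add (Nat.add C x27044) x13922) x40166) x22670) x28502) x26558) x27098) x27026) x27050) x46726)
    (Nat.sub (Nat.add (Nat.add (Nat.add (Nat.add (Nat.add (Nat.add (Nat.add (Nat.add (Nat.add C x27050) x13928) x40172) x22676) x28508) x26564) x27104) x27044) x27052) x46732)
    (Nat.sub (Nat.sub (Nat.add (Nat.add (Nat.add (Nat.add (Nat.add (Nat.add (Nat.add (Nat.add C (Nat.mul x27052 (nat_lit 2))) x13930) x40174) x22678) x28510) x26566) x27106) x27050) x46734) x7370)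
    (Nat.sub (Nat.add (Nat.add (Nat.add (Nat.add (Nat.add (Nat.add (Nat.add (Nat.add (Nat.add C x27080) x13958) x40202) x22706) x28538) x26594) x27242) x27026) x27098) x46762)
    (Nat.sub (Nat.add (Nat.add (Nat.add (Nat.add (Nat.add (Nat.add (Nat.add (Nat.add (Nat.add (Nat.add (Nat.add (Nat.add C x27098) x13976) x40220) x22724) x28556) x26612) x27260) x27044) x27152) x27080) x27116) x27104) x46780)
    (Nat.sub (Nat.add (Nat.add (Nat.add (Nat.add (Nat.add (Nat.add (Nat.add (Nat.add (Nat.add (Nat.add (Nat.add C x13982) x40226) x22730) x28562) x26618) x27266) x27050) x27158) x27122) x27098) x27106) x46786)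
    (Nat.sub (Nat.sub (Nat.add (Nat.add (Nat.add (Nat.add (Nat.add (Nat.add (Nat.add (Nat.add (Nat.add (Nat.add (Nat.add C x27106) x13984) x40228) x22732) x28564) x26620) x27268) x27052) x27160) x27124) x27104) x46788) x7424)
    (Nat.sub (Nat.sub (Nat.add (Nat.add (Nat.add (Nat.add (Nat.add (Nat.add (Nat.add (Nat.add (Nat.add C x13994) x40238) x22742) x28574) x26630) x27278) x27170) x27098) x27122) x27116) x46798)
    (Nat.sub (Nat.add (Nat.add (Nat.add (Nat.add (Nat.add (Nat.add (Nat.add (Nat.add (Nat.add (Nat.add (Nat.add C x14000) x40244) x22748) x28580) x26636) x27284) x27176) x27104) x27116) x27128) x27124) x46804)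
    (Nat.sub (Nat.sub (Nat.add (Nat.add (Nat.add (Nat.add (Nat.add (Nat.add (Nat.add (Nat.add (Nat.add (Nat.add C x14002) x40246) x22750) x28582) x26638) x27286) x27178) x27106) x27130) x27122) x46806) x7442)
    (Nat.sub (Nat.sub (Nat.add (Nat.add (Nat.add (Nat.add (Nat.add (Nat.add (Nat.add (Nat.add (Nat.add C x14006) x40250) x22754) x28586) x26642) x27290) x27182) x27122) x27130) x27128) x46810)
    (Nat.sub (Nat.sub (Nat.add (Nat.add (Nat.add (Nat.add (Nat.add (Nat.add (Nat.add (Nat.add (Nat.add (Nat.add (Nat.add C x27130) x14008) x40252) x22756) x28588) x26644) x27292) x27184) x27124) x27128) x27132) x46812) x7448)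
    (Nat.sub (Nat.add (Nat.add (Nat.add (Nat.add (Nat.add (Nat.add (Nat.add (Nat.add (Nat.add C x27132) x14010) x40254) x22758) x28590) x26646) x27294) x27186) x27130) x7450)
    (Nat.sub (Nat.sub (Nat.add (Nat.add (Nat.add (Nat.add (Nat.add (Nat.add (Nat.add (Nat.add (Nat.add C x14030) x40274) x22778) x28610) x26666) x27314) x27098) x27170) x27158) x27152) x46834)
    (Nat.sub (Nat.sub (Nat.add (Nat.add (Nat.add (Nat.add (Nat.add (Nat.add (Nat.add (Nat.add (Nat.add (Nat.add C x14036) x40280) x22784) x28616) x26672) x27320) x27104) x27176) x27152) x27160) (Nat.mul x27158 (nat_lit 3))) x46840)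
    (Nat.sub (Nat.sub (Nat.sub (Nat.add (Nat.add (Nat.add (Nat.add (Nat.add (Nat.add (Nat.add (Nat.add (Nat.add C x14038) x40282) x22786) x28618) x26674) x27322) x27106) x27178) x27158) (Nat.mul x27160 (nat_lit 2))) x46842) x7478)
    (Nat.sub (Nat.sub (Nat.add (Nat.add (Nat.add (Nat.add (Nat.add (Nat.add (Nat.add (Nat.add (Nat.add C x14048) x40292) x22796) x28628) x26684) x27332) x27116) x27152) x27176) x27170) x46852)
    (Nat.sub (Nat.sub (Nat.add (Nat.add (Nat.add (Nat.add (Nat.add (Nat.add (Nat.add (Nat.add (Nat.add (Nat.add (Nat.add (Nat.add C x14054) x40298) x22802) x28634) x26690) x27338) x27122) x27158) x27194) x27170) x27182) x27178) x27176) x46858)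
    (Nat.sub (Nat.sub (Nat.sub (Nat.add (Nat.add (Nat.add (Nat.add (Nat.add (Nat.add (Nat.add (Nat.add (Nat.add (Nat.add (Nat.add C x14056) x40300) x22804) x28636) x26692) x27340) x27124) x27160) x27196) x27184) x27176) x27178) x46860) x7496)
    (Nat.sub (Nat.sub (Nat.add (Nat.add (Nat.add (Nat.add (Nat.add (Nat.add (Nat.add (Nat.add (Nat.add (Nat.add C x14060) x40304) x22808) x28640) x26696) x27344) x27128) x27200) x27176) x27184) (Nat.mul x27182 (nat_lit 3))) x46864)
    (Nat.sub (Nat.sub (Nat.sub (Nat.add (Nat.add (Nat.add (Nat.add (Nat.add (Nat.add (Nat.add (Nat.add (Nat.add (Nat.add (Nat.add C x14062) x40306) x22810) x28642) x26698) x27346) x27130) x27202) x27178) x27182) x27186) x27184) x46866) x7502)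
    (Nat.sub (Nat.sub (Nat.add (Nat.add (Nat.add (Nat.add (Nat.add (Nat.add (Nat.add (Nat.add (Nat.add C x14064) x40308) x22812) x28644) x26700) x27348) x27132) x27204) x27184) x27186) x7504)
    (Nat.sub (Nat.sub (Nat.add (Nat.add (Nat.add (Nat.add (Nat.add (Nat.add (Nat.add (Nat.add (Nat.add C x14072) x40316) x22820) x28652) x26708) x27356) x27176) x27200) x27196) x27194) x46876)
    (Nat.sub (Nat.sub (Nat.sub (Nat.add (Nat.add (Nat.add (Nat.add (Nat.add (Nat.add (Nat.add (Nat.add (Nat.add C x14074) x40318) x22822) x28654) x26710) x27358) x27178) x27202) x27194) (Nat.mul x27196 (nat_lit 2))) x46878) x7514)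
    (Nat.sub (Nat.sub (Nat.add (Nat.add (Nat.add (Nat.add (Nat.add (Nat.add (Nat.add (Nat.add (Nat.add C x14078) x40322) x22826) x28658) x26714) x27362) x27182) x27194) x27202) x27200) x46882)
    (Nat.sub (Nat.sub (Nat.add (Nat.add (Nat.add (Nat.add (Nat.add (Nat.add (Nat.add (Nat.add (Nat.add (Nat.add (Nat.add C x14080) x40324) x22828) x28660) x26716) x27364) x27184) x27196) x27208) x27200) x27204) x46884) x7520)
    (Nat.sub (Nat.sub (Nat.add (Nat.add (Nat.add (Nat.add (Nat.add (Nat.add (Nat.add (Nat.add (Nat.add C x14082) x40326) x22830) x28662) x26718) x27366) x27186) x27210) x27202) x27204) x7522)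
    (Nat.sub (Nat.sub (Nat.add (Nat.add (Nat.add (Nat.add (Nat.add (Nat.add (Nat.add (Nat.add C x14086) x40330) x22834) x28666) x26722) x27370) x27202) x27210) x46890) x7526)
    (Nat.sub (Nat.add (Nat.add (Nat.add (Nat.add (Nat.add (Nat.add (Nat.add (Nat.add (Nat.add C x27210) x14088) x40332) x22836) x28668) x26724) x27372) x27204) x27208) x7528)
    (Nat.sub (Nat.add (Nat.add (Nat.add (Nat.add (Nat.add (Nat.add (Nat.add (Nat.add (Nat.add C (Nat.mul x27242 (nat_lit 2))) x14120) x40364) x22868) x28700) x26756) x27728) x27080) x27260) x46924)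
    (Nat.sub (Nat.add (Nat.add (Nat.add (Nat.add (Nat.add (Nat.add (Nat.add (Nat.add (Nat.add (Nat.add (Nat.add (Nat.add C x27260) x14138) x40382) x22886) x28718) x26774) x27746) x27098) x27314) x27242) x27278) x27266) x46942)
    (Nat.sub (Nat.add (Nat.add (Nat.add (Nat.add (Nat.add (Nat.add (Nat.add (Nat.add (Nat.add (Nat.add (Nat.add C x14144) x40388) x22892) x28724) x26780) x27752) x27104) x27320) x27284) x27260) x27268) x46948)
    (Nat.sub (Nat.sub (Nat.add (Nat.add (Nat.add (Nat.add (Nat.add (Nat.add (Nat.add (Nat.add (Nat.add (Nat.add (Nat.add C x27268) x14146) x40390) x22894) x28726) x26782) x27754) x27106) x27322) x27286) x27266) x46950) x7586)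
    (Nat.sub (Nat.sub (Nat.add (Nat.add (Nat.add (Nat.add (Nat.add (Nat.add (Nat.add (Nat.add (Nat.add (Nat.add C x14156) x40400) x22904) x28736) x26792) x27764) x27116) x27332) x27260) x27284) (Nat.mul x27278 (nat_lit 2))) x46960)
    (Nat.sub (Nat.sub (Nat.add (Nat.add (Nat.add (Nat.add (Nat.add (Nat.add (Nat.add (Nat.add (Nat.add (Nat.add (Nat.add (Nat.add C x14162) x40406) x22910) x28742) x26798) x27770) x27122) x27338) x27266) x27278) x27290) x27286) x27284) x46966)
    (Nat.sub (Nat.sub (Nat.sub (Nat.add (Nat.add (Nat.add (Nat.add (Nat.add (Nat.add (Nat.add (Nat.add (Nat.add (Nat.add (Nat.add C x14164) x40408) x22912) x28744) x26800) x27772) x27124) x27340) x27268) x27292) x27284) x27286) x46968) x7604)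
    (Nat.sub (Nat.sub (Nat.add (Nat.add (Nat.add (Nat.add (Nat.add (Nat.add (Nat.add (Nat.add (Nat.add (Nat.add C x14168) x40412) x22916) x28748) x26804) x27776) x27128) x27344) x27284) x27292) (Nat.mul x27290 (nat_lit 2))) x46972)
    (Nat.sub (Nat.sub (Nat.add (Nat.add (Nat.add (Nat.add (Nat.add (Nat.add (Nat.add (Nat.add (Nat.add (Nat.add (Nat.add C x14170) x40414) x22918) x28750) x26806) x27778) x27130) x27346) x27286) x27290) x27294) x46974) x7610)
    (Nat.sub (Nat.add (Nat.add (Nat.add (Nat.add (Nat.add (Nat.add (Nat.add (Nat.add (Nat.add C x14172) x40416) x22920) x28752) x26808) x27780) x27132) x27348) x27292) x7612)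
    (Nat.sub (Nat.add (Nat.add (Nat.add (Nat.add (Nat.add (Nat.add (Nat.add (Nat.add (Nat.add (Nat.add (Nat.add (Nat.add C x27314) x14192) x40436) x22940) x28772) x26828) x27800) x27152) x27476) x27260) x27332) x27320) x46996)
    (Nat.sub (Nat.sub (Nat.add (Nat.add (Nat.add (Nat.add (Nat.add (Nat.add (Nat.add (Nat.add (Nat.add (Nat.add (Nat.add (Nat.add C x14198) x40442) x22946) x28778) x26834) x27806) x27158) x27482) x27266) x27338) x27314) x27322) x27320) x47002)
    (Nat.sub (Nat.sub (Nat.add (Nat.add (Nat.add (Nat.add (Nat.add (Nat.add (Nat.add (Nat.add (Nat.add (Nat.add (Nat.add C x14200) x40444) x22948) x28780) x26836) x27808) x27160) x27484) x27268) x27340) x27320) x47004) x7640)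
    (Nat.sub (Nat.add (Nat.add (Nat.add (Nat.add (Nat.add (Nat.add (Nat.add (Nat.add (Nat.add (Nat.add (Nat.add (Nat.add C x14210) x40454) x22958) x28790) x26846) x27818) x27170) x27494) x27278) x27386) x27314) x27338) x47014)
    (Nat.sub (Nat.add (Nat.add (Nat.add (Nat.add (Nat.add (Nat.add (Nat.add (Nat.add (Nat.add (Nat.add (Nat.add (Nat.add (Nat.add (Nat.add (Nat.add C x14216) x40460) x22964) x28796) x26852) x27824) x27176) x27500) x27284) x27392) x27320) x27356) x27332) x27344) x27340) x47020)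
    (Nat.sub (Nat.sub (Nat.add (Nat.add (Nat.add (Nat.add (Nat.add (Nat.add (Nat.add (Nat.add (Nat.add (Nat.add (Nat.add (Nat.add (Nat.add (Nat.add C x14218) x40462) x22966) x28798) x26854) x27826) x27178) x27502) x27286) x27394) x27322) x27358) x27346) x27338) x47022) x7658)
    (Nat.sub (Nat.sub (Nat.add (Nat.add (Nat.add (Nat.add (Nat.add (Nat.add (Nat.add (Nat.add (Nat.add (Nat.add (Nat.add (Nat.add (Nat.add C x14222) x40466) x22970) x28802) x26858) x27830) x27182) x27506) x27290) x27398) x27362) x27338) x27346) (Nat.mul x27344 (nat_lit 2))) x47026)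
    (Nat.sub (Nat.sub (Nat.add (Nat.add (Nat.add (Nat.add (Nat.add (Nat.add (Nat.add (Nat.add (Nat.add (Nat.add (Nat.add (Nat.add (Nat.add (Nat.add C x14224) x40468) x22972) x28804) x26860) x27832) x27184) x27508) x27292) x27400) x27364) x27340) x27344) x27348) x47028) x7664)
    (Nat.sub (Nat.add (Nat.add (Nat.add (Nat.add (Nat.add (Nat.add (Nat.add (Nat.add (Nat.add (Nat.add (Nat.add (Nat.add C x14226) x40470) x22974) x28806) x26862) x27834) x27186) x27510) x27294) x27402) x27366) x27346) x7666)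
    (Nat.sub (Nat.sub (Nat.add (Nat.add (Nat.add (Nat.add (Nat.add (Nat.add (Nat.add (Nat.add (Nat.add (Nat.add (Nat.add (Nat.add C x14234) x40478) x22982) x28814) x26870) x27842) x27194) x27518) x27410) x27338) x27362) x27358) x27356) x47038)
    (Nat.sub (Nat.sub (Nat.sub (Nat.add (Nat.add (Nat.add (Nat.add (Nat.add (Nat.add (Nat.add (Nat.add (Nat.add (Nat.add (Nat.add (Nat.add C x14236) x40480) x22984) x28816) x26872) x27844) x27196) x27520) x27412) x27340) x27364) x27356) (Nat.mul x27358 (nat_lit 2))) x47040) x7676)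
    (Nat.sub (Nat.sub (Nat.add (Nat.add (Nat.add (Nat.add (Nat.add (Nat.add (Nat.add (Nat.add (Nat.add (Nat.add (Nat.add (Nat.add C x14240) x40484) x22988) x28820) x26876) x27848) x27200) x27524) x27416) x27344) x27356) x27364) x27362) x47044)
    (Nat.sub (Nat.sub (Nat.add (Nat.add (Nat.add (Nat.add (Nat.add (Nat.add (Nat.add (Nat.add (Nat.add (Nat.add (Nat.add (Nat.add (Nat.add (Nat.add C x14242) x40486) x22990) x28822) x26878) x27850) x27202) x27526) x27418) x27346) x27358) x27370) x27362) x27366) x47046) x7682)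
    (Nat.sub (Nat.sub (Nat.add (Nat.add (Nat.add (Nat.add (Nat.add (Nat.add (Nat.add (Nat.add (Nat.add (Nat.add (Nat.add (Nat.add C x14244) x40488) x22992) x28824) x26880) x27852) x27204) x27528) x27420) x27348) x27372) x27364) x27366) x7684)
    (Nat.sub (Nat.sub (Nat.add (Nat.add (Nat.add (Nat.add (Nat.add (Nat.add (Nat.add (Nat.add (Nat.add (Nat.add (Nat.add C x14248) x40492) x22996) x28828) x26884) x27856) x27208) x27532) x27424) x27364) x27372) x47052) x7688)
    (Nat.sub (Nat.add (Nat.add (Nat.add (Nat.add (Nat.add (Nat.add (Nat.add (Nat.add (Nat.add (Nat.add (Nat.add (Nat.add C x27372) x14250) x40494) x22998) x28830) x26886) x27858) x27210) x27534) x27426) x27366) x27370) x7690)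
    (Nat.sub (Nat.add (Nat.add (Nat.add (Nat.add (Nat.add (Nat.add (Nat.add (Nat.add (Nat.add C x14264) x40508) x23012) x28844) x26900) x27872) x27548) x27332) x27392) x47068)
    (Nat.sub (Nat.sub (Nat.add (Nat.add (Nat.add (Nat.add (Nat.add (Nat.add (Nat.add (Nat.add (Nat.add (Nat.add (Nat.add (Nat.add C x14270) x40514) x23018) x28850) x26906) x27878) x27554) x27338) x27410) x27386) x27398) x27394) x27392) x47074)
    (Nat.sub (Nat.sub (Nat.sub (Nat.add (Nat.add (Nat.add (Nat.add (Nat.add (Nat.add (Nat.add (Nat.add (Nat.add (Nat.add (Nat.add C x14272) x40516) x23020) x28852) x26908) x27880) x27556) x27340) x27412) x27400) x27392) x27394) x47076) x7712)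
    (Nat.sub (Nat.sub (Nat.add (Nat.add (Nat.add (Nat.add (Nat.add (Nat.add (Nat.add (Nat.add (Nat.add (Nat.add (Nat.add C x14276) x40520) x23024) x28856) x26912) x27884) x27560) x27344) x27416) x27392) x27400) (Nat.mul x27398 (nat_lit 4))) x47080)
    (Nat.sub (Nat.sub (Nat.sub (Nat.add (Nat.add (Nat.add (Nat.add (Nat.add (Nat.add (Nat.add (Nat.add (Nat.add (Nat.add (Nat.add (Nat.add C x14278) x40522) x23026) x28858) x26914) x27886) x27562) x27346) x27418) x27394) x27398) x27402) (Nat.mul x27400 (nat_lit 2))) x47082) x7718)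
    (Nat.sub (Nat.sub (Nat.add (Nat.add (Nat.add (Nat.add (Nat.add (Nat.add (Nat.add (Nat.add (Nat.add (Nat.add C x14280) x40524) x23028) x28860) x26916) x27888) x27564) x27348) x27420) x27400) (Nat.mul x27402 (nat_lit 2))) x7720)
    (Nat.sub (Nat.add (Nat.add (Nat.add (Nat.add (Nat.add (Nat.add (Nat.add (Nat.add (Nat.add (Nat.add (Nat.add C x14288) x40532) x23036) x28868) x26924) x27896) x27572) x27356) x27392) x27416) x27412) x47092)
    (Nat.sub (Nat.sub (Nat.sub (Nat.add (Nat.add (Nat.add (Nat.add (Nat.add (Nat.add (Nat.add (Nat.add (Nat.add (Nat.add (Nat.add C x14290) x40534) x23038) x28870) x26926) x27898) x27574) x27358) x27394) x27418) x27410) x27412) x47094) x7730)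
    (Nat.sub (Nat.sub (Nat.add (Nat.add (Nat.add (Nat.add (Nat.add (Nat.add (Nat.add (Nat.add (Nat.add (Nat.add (Nat.add (Nat.add C x14294) x40538) x23042) x28874) x26930) x27902) x27578) x27362) x27398) x27434) x27410) x27418) x27416) x47098)
    (Nat.sub (Nat.sub (Nat.add (Nat.add (Nat.add (Nat.add (Nat.add (Nat.add (Nat.add (Nat.add (Nat.add (Nat.add (Nat.add (Nat.add (Nat.add (Nat.add C x14296) x40540) x23044) x28876) x26932) x27904) x27580) x27364) x27400) x27436) x27412) x27424) x27416) x27420) x47100) x7736)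
    (Nat.sub (Nat.sub (Nat.add (Nat.add (Nat.add (Nat.add (Nat.add (Nat.add (Nat.add (Nat.add (Nat.add (Nat.add (Nat.add (Nat.add C x14298) x40542) x23046) x28878) x26934) x27906) x27582) x27366) x27402) x27438) x27426) x27418) x27420) x7738)
    (Nat.sub (Nat.sub (Nat.sub (Nat.add (Nat.add (Nat.add (Nat.add (Nat.add (Nat.add (Nat.add (Nat.add (Nat.add (Nat.add (Nat.add C x14302) x40546) x23050) x28882) x26938) x27910) x27586) x27370) x27442) x27418) x27426) x27424) x47106) x7742)
    (Nat.sub (Nat.add (Nat.add (Nat.add (Nat.add (Nat.add (Nat.add (Nat.add (Nat.add (Nat.add (Nat.add (Nat.add C x14304) x40548) x23052) x28884) x26940) x27912) x27588) x27372) x27444) x27420) x27424) x7744)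
    (Nat.sub (Nat.add (Nat.add (Nat.add (Nat.add (Nat.add (Nat.add (Nat.add (Nat.add (Nat.add C x14312) x40556) x23060) x28892) x26948) x27920) x27596) x27416) x27436) x47116)
    (Nat.sub (Nat.sub (Nat.add (Nat.add (Nat.add (Nat.add (Nat.add (Nat.add (Nat.add (Nat.add (Nat.add (Nat.add (Nat.add C x14314) x40558) x23062) x28894) x26950) x27922) x27598) x27418) x27442) x27434) x27438) x47118) x7754)
    (Nat.sub (Nat.sub (Nat.add (Nat.add (Nat.add (Nat.add (Nat.add (Nat.add (Nat.add (Nat.add (Nat.add (Nat.add C x14316) x40560) x23064) x28896) x26952) x27924) x27600) x27420) x27444) x27436) (Nat.mul x27438 (nat_lit 2))) x7756)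
    (Nat.sub (Nat.sub (Nat.add (Nat.add (Nat.add (Nat.add (Nat.add (Nat.add (Nat.add (Nat.add (Nat.add (Nat.add (Nat.add C x27442) x14320) x40564) x23068) x28900) x26956) x27928) x27604) x27424) x27436) x27444) x47124) x7760)
    (Nat.sub (Nat.add (Nat.add (Nat.add (Nat.add (Nat.add (Nat.add (Nat.add (Nat.add (Nat.add (Nat.add (Nat.add (Nat.add C x27444) x14322) x40566) x23070) x28902) x26958) x27930) x27606) x27426) x27438) x27450) x27442) x7762)
    (Nat.sub (Nat.add (Nat.add (Nat.add (Nat.add (Nat.add (Nat.add (Nat.add (Nat.add (Nat.add C (Nat.mul x27450 (nat_lit 2))) x14328) x40572) x23076) x28908) x26964) x27936) x27612) x27444) x7768)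
    (Nat.sub (Nat.add (Nat.add (Nat.add (Nat.add (Nat.add (Nat.add (Nat.add (Nat.add (Nat.add C x27476) x14354) x40598) x23102) x28934) x27962) x27314) x27494) x27482) x47158)
    (Nat.sub (Nat.sub (Nat.add (Nat.add (Nat.add (Nat.add (Nat.add (Nat.add (Nat.add (Nat.add (Nat.add C x14360) x40604) x23108) x28940) x27968) x27320) x27500) x27476) x27484) x27482) x47164)
    (Nat.sub (Nat.sub (Nat.add (Nat.add (Nat.add (Nat.add (Nat.add (Nat.add (Nat.add (Nat.add C x14362) x40606) x23110) x28942) x27970) x27322) x27502) x27482) x47166) x7802)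
    (Nat.sub (Nat.sub (Nat.add (Nat.add (Nat.add (Nat.add (Nat.add (Nat.add (Nat.add (Nat.add (Nat.add C x14372) x40616) x23120) x28952) x27980) x27332) x27548) x27476) x27500) x27494) x47176)
    (Nat.sub (Nat.sub (Nat.add (Nat.add (Nat.add (Nat.add (Nat.add (Nat.add (Nat.add (Nat.add (Nat.add (Nat.add (Nat.add (Nat.add C x14378) x40622) x23126) x28958) x27986) x27338) x27554) x27482) x27518) x27494) x27506) x27502) x27500) x47182)
    (Nat.sub (Nat.sub (Nat.sub (Nat.add (Nat.add (Nat.add (Nat.add (Nat.add (Nat.add (Nat.add (Nat.add (Nat.add (Nat.add (Nat.add C x14380) x40624) x23128) x28960) x27988) x27340) x27556) x27484) x27520) x27508) x27500) x27502) x47184) x7820)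
    (Nat.sub (Nat.sub (Nat.add (Nat.add (Nat.add (Nat.add (Nat.add (Nat.add (Nat.add (Nat.add (Nat.add (Nat.add C x14384) x40628) x23132) x28964) x27992) x27344) x27560) x27524) x27500) x27508) (Nat.mul x27506 (nat_lit 3))) x47188)
    (Nat.sub (Nat.sub (Nat.sub (Nat.add (Nat.add (Nat.add (Nat.add (Nat.add (Nat.add (Nat.add (Nat.add (Nat.add (Nat.add (Nat.add C x14386) x40630) x23134) x28966) x27994) x27346) x27562) x27526) x27502) x27506) x27510) x27508) x47190) x7826)
    (Nat.sub (Nat.sub (Nat.add (Nat.add (Nat.add (Nat.add (Nat.add (Nat.add (Nat.add (Nat.add (Nat.add C x14388) x40632) x23136) x28968) x27996) x27348) x27564) x27528) x27508) x27510) x7828)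
    (Nat.sub (Nat.sub (Nat.add (Nat.add (Nat.add (Nat.add (Nat.add (Nat.add (Nat.add (Nat.add (Nat.add (Nat.add C x14396) x40640) x23144) x28976) x28004) x27356) x27572) x27500) x27524) x27520) (Nat.mul x27518 (nat_lit 3))) x47200)
    (Nat.sub (Nat.sub (Nat.sub (Nat.add (Nat.add (Nat.add (Nat.add (Nat.add (Nat.add (Nat.add (Nat.add (Nat.add (Nat.add C x14398) x40642) x23146) x28978) x28006) x27358) x27574) x27502) x27526) x27518) (Nat.mul x27520 (nat_lit 4))) x47202) x7838)
    (Nat.sub (Nat.sub (Nat.add (Nat.add (Nat.add (Nat.add (Nat.add (Nat.add (Nat.add (Nat.add (Nat.add (Nat.add C x14402) x40646) x23150) x28982) x28010) x27362) x27578) x27506) x27518) x27526) (Nat.mul x27524 (nat_lit 3))) x47206)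
    (Nat.sub (Nat.sub (Nat.sub (Nat.add (Nat.add (Nat.add (Nat.add (Nat.add (Nat.add (Nat.add (Nat.add (Nat.add (Nat.add (Nat.add (Nat.add C x14404) x40648) x23152) x28984) x28012) x27364) x27580) x27508) x27520) x27532) x27524) x27528) (Nat.mul x27526 (nat_lit 2))) x47208) x7844)
    (Nat.sub (Nat.sub (Nat.add (Nat.add (Nat.add (Nat.add (Nat.add (Nat.add (Nat.add (Nat.add (Nat.add (Nat.add C x14406) x40650) x23154) x28986) x28014) x27366) x27582) x27510) x27534) x27526) (Nat.mul x27528 (nat_lit 3))) x7846)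
    (Nat.sub (Nat.sub (Nat.sub (Nat.add (Nat.add (Nat.add (Nat.add (Nat.add (Nat.add (Nat.add (Nat.add (Nat.add C x14410) x40654) x23158) x28990) x28018) x27370) x27586) x27526) x27534) (Nat.mul x27532 (nat_lit 2))) x47214) x7850)
    (Nat.sub (Nat.sub (Nat.add (Nat.add (Nat.add (Nat.add (Nat.add (Nat.add (Nat.add (Nat.add (Nat.add C x14412) x40656) x23160) x28992) x28020) x27372) x27588) x27528) x27532) x27534) x7852)
    (Nat.sub (Nat.add (Nat.add (Nat.add (Nat.add (Nat.add (Nat.add (Nat.add (Nat.add (Nat.add C x27548) x14426) x40670) x23174) x29006) x28034) x27386) x27494) x27554) x47230)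
    (Nat.sub (Nat.add (Nat.add (Nat.add (Nat.add (Nat.add (Nat.add (Nat.add (Nat.add (Nat.add (Nat.add (Nat.add C x14432) x40676) x23180) x29012) x28040) x27392) x27500) x27572) x27548) x27560) x27556) x47236)
    (Nat.sub (Nat.sub (Nat.add (Nat.add (Nat.add (Nat.add (Nat.add (Nat.add (Nat.add (Nat.add (Nat.add (Nat.add C x14434) x40678) x23182) x29014) x28042) x27394) x27502) x27574) x27562) x27554) x47238) x7874)
    (Nat.sub (Nat.sub (Nat.add (Nat.add (Nat.add (Nat.add (Nat.add (Nat.add (Nat.add (Nat.add (Nat.add (Nat.add C x14438) x40682) x23186) x29018) x28046) x27398) x27506) x27578) x27554) x27562) (Nat.mul x27560 (nat_lit 3))) x47242)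
    (Nat.sub (Nat.sub (Nat.sub (Nat.add (Nat.add (Nat.add (Nat.add (Nat.add (Nat.add (Nat.add (Nat.add (Nat.add (Nat.add (Nat.add C x14440) x40684) x23188) x29020) x28048) x27400) x27508) x27580) x27556) x27560) x27564) x27562) x47244) x7880)
    (Nat.sub (Nat.sub (Nat.add (Nat.add (Nat.add (Nat.add (Nat.add (Nat.add (Nat.add (Nat.add (Nat.add C x14442) x40686) x23190) x29022) x28050) x27402) x27510) x27582) x27562) x27564) x7882)
    (Nat.sub (Nat.add (Nat.add (Nat.add (Nat.add (Nat.add (Nat.add (Nat.add (Nat.add (Nat.add (Nat.add (Nat.add C x14450) x40694) x23198) x29030) x28058) x27410) x27518) x27626) x27554) x27578) x27574) x47254)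
    (Nat.sub (Nat.sub (Nat.sub (Nat.add (Nat.add (Nat.add (Nat.add (Nat.add (Nat.add (Nat.add (Nat.add (Nat.add (Nat.add (Nat.add C x14452) x40696) x23200) x29032) x28060) x27412) x27520) x27628) x27556) x27580) x27572) x27574) x47256) x7892)
    (Nat.sub (Nat.sub (Nat.add (Nat.add (Nat.add (Nat.add (Nat.add (Nat.add (Nat.add (Nat.add (Nat.add (Nat.add (Nat.add (Nat.add C x14456) x40700) x23204) x29036) x28064) x27416) x27524) x27632) x27560) x27596) x27572) x27580) x27578) x47260)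
    (Nat.sub (Nat.sub (Nat.add (Nat.add (Nat.add (Nat.add (Nat.add (Nat.add (Nat.add (Nat.add (Nat.add (Nat.add (Nat.add (Nat.add (Nat.add (Nat.add C x14458) x40702) x23206) x29038) x28066) x27418) x27526) x27634) x27562) x27598) x27574) x27586) x27578) x27582) x47262) x7898)
    (Nat.sub (Nat.sub (Nat.add (Nat.add (Nat.add (Nat.add (Nat.add (Nat.add (Nat.add (Nat.add (Nat.add (Nat.add (Nat.add (Nat.add C x14460) x40704) x23208) x29040) x28068) x27420) x27528) x27636) x27564) x27600) x27588) x27580) x27582) x7900)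
    (Nat.sub (Nat.sub (Nat.sub (Nat.add (Nat.add (Nat.add (Nat.add (Nat.add (Nat.add (Nat.add (Nat.add (Nat.add (Nat.add (Nat.add C x14464) x40708) x23212) x29044) x28072) x27424) x27532) x27640) x27604) x27580) x27588) x27586) x47268) x7904)
    (Nat.sub (Nat.add (Nat.add (Nat.add (Nat.add (Nat.add (Nat.add (Nat.add (Nat.add (Nat.add (Nat.add (Nat.add C x14466) x40710) x23214) x29046) x28074) x27426) x27534) x27642) x27606) x27582) x27586) x7906)
    (Nat.sub (Nat.sub (Nat.add (Nat.add (Nat.add (Nat.add (Nat.add (Nat.add (Nat.add (Nat.add (Nat.add C x14474) x40718) x23222) x29054) x28082) x27434) x27650) x27578) x27598) x27596) x47278)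
    (Nat.sub (Nat.sub (Nat.sub (Nat.add (Nat.add (Nat.add (Nat.add (Nat.add (Nat.add (Nat.add (Nat.add (Nat.add (Nat.add (Nat.add C x14476) x40720) x23224) x29056) x28084) x27436) x27652) x27580) x27604) x27596) x27600) x27598) x47280) x7916)
    (Nat.sub (Nat.sub (Nat.add (Nat.add (Nat.add (Nat.add (Nat.add (Nat.add (Nat.add (Nat.add (Nat.add (Nat.add C x14478) x40722) x23226) x29058) x28086) x27438) x27654) x27582) x27606) x27598) (Nat.mul x27600 (nat_lit 3))) x7918)
    (Nat.sub (Nat.sub (Nat.add (Nat.add (Nat.add (Nat.add (Nat.add (Nat.add (Nat.add (Nat.add (Nat.add (Nat.add C x14482) x40726) x23230) x29062) x28090) x27442) x27658) x27586) x27598) x27606) x47286) x7922)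
    (Nat.sub (Nat.add (Nat.add (Nat.add (Nat.add (Nat.add (Nat.add (Nat.add (Nat.add (Nat.add (Nat.add (Nat.add C x14484) x40728) x23232) x29064) x28092) x27444) x27660) x27588) x27600) x27612) x27604) x7924)
    (Nat.sub (Nat.add (Nat.add (Nat.add (Nat.add (Nat.add (Nat.add (Nat.add (Nat.add (Nat.add C x27612) x14490) x40734) x23238) x29070) x28098) x27450) x27666) x27606) x7930)
    (Nat.sub (Nat.add (Nat.add (Nat.add (Nat.add (Nat.add (Nat.add (Nat.add (Nat.add (Nat.add C x27626) x14504) x40748) x23252) x29084) x28112) x27572) x27632) x27628) x47308)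
    (Nat.sub (Nat.sub (Nat.add (Nat.add (Nat.add (Nat.add (Nat.add (Nat.add (Nat.add (Nat.add C x14506) x40750) x23254) x29086) x28114) x27574) x27634) x27626) x47310) x7946)
    (Nat.sub (Nat.sub (Nat.add (Nat.add (Nat.add (Nat.add (Nat.add (Nat.add (Nat.add (Nat.add (Nat.add C x14510) x40754) x23258) x29090) x28118) x27578) x27650) x27626) x27634) x27632) x47314)
    (Nat.sub (Nat.sub (Nat.add (Nat.add (Nat.add (Nat.add (Nat.add (Nat.add (Nat.add (Nat.add (Nat.add (Nat.add (Nat.add C x14512) x40756) x23260) x29092) x28120) x27580) x27652) x27628) x27640) x27632) x27636) x47316) x7952)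
    (Nat.sub (Nat.sub (Nat.add (Nat.add (Nat.add (Nat.add (Nat.add (Nat.add (Nat.add (Nat.add (Nat.add C x14514) x40758) x23262) x29094) x28122) x27582) x27654) x27642) x27634) x27636) x7954)
    (Nat.sub (Nat.sub (Nat.sub (Nat.add (Nat.add (Nat.add (Nat.add (Nat.add (Nat.add (Nat.add (Nat.add (Nat.add C x14518) x40762) x23266) x29098) x28126) x27586) x27658) x27634) x27642) (Nat.mul x27640 (nat_lit 2))) x47322) x7958)
    (Nat.sub (Nat.sub (Nat.add (Nat.add (Nat.add (Nat.add (Nat.add (Nat.add (Nat.add (Nat.add (Nat.add C x14520) x40764) x23268) x29100) x28128) x27588) x27660) x27636) x27640) x27642) x7960)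
    (Nat.sub (Nat.add (Nat.add (Nat.add (Nat.add (Nat.add (Nat.add (Nat.add (Nat.add (Nat.add C x27650) x14528) x40772) x23276) x29108) x28136) x27596) x27632) x27652) x47332)
    (Nat.sub (Nat.sub (Nat.add (Nat.add (Nat.add (Nat.add (Nat.add (Nat.add (Nat.add (Nat.add (Nat.add (Nat.add (Nat.add C x27652) x14530) x40774) x23278) x29110) x28138) x27598) x27634) x27658) x27650) x27654) x47334) x7970)
    (Nat.sub (Nat.sub (Nat.add (Nat.add (Nat.add (Nat.add (Nat.add (Nat.add (Nat.add (Nat.add (Nat.add C x14532) x40776) x23280) x29112) x28140) x27600) x27636) x27660) x27652) x27654) x7972)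
    (Nat.sub (Nat.sub (Nat.add (Nat.add (Nat.add (Nat.add (Nat.add (Nat.add (Nat.add (Nat.add (Nat.add (Nat.add (Nat.add C x27658) x14536) x40780) x23284) x29116) x28144) x27604) x27640) x27676) x27652) x27660) x47340) x7976)
    (Nat.sub (Nat.add (Nat.add (Nat.add (Nat.add (Nat.add (Nat.add (Nat.add (Nat.add (Nat.add (Nat.add (Nat.add (Nat.add C x27660) x14538) x40782) x23286) x29118) x28146) x27606) x27642) x27678) x27654) x27666) x27658) x7978)
    (Nat.sub (Nat.add (Nat.add (Nat.add (Nat.add (Nat.add (Nat.add (Nat.add (Nat.add (Nat.add C x27666) x14544) x40788) x23292) x29124) x28152) x27612) x27684) x27660) x7984)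
    (Nat.sub (Nat.sub (Nat.add (Nat.add (Nat.add (Nat.add (Nat.add (Nat.add (Nat.add (Nat.add C (Nat.mul x27676 (nat_lit 2))) x14554) x40798) x23302) x29134) x28162) x27658) x27678) x47358) x7994)
    (Nat.sub (Nat.add (Nat.add (Nat.add (Nat.add (Nat.add (Nat.add (Nat.add (Nat.add (Nat.add C x27678) x14556) x40800) x23304) x29136) x28164) x27660) x27684) x27676) x7996)
    (Nat.sub (Nat.add (Nat.add (Nat.add (Nat.add (Nat.add (Nat.add (Nat.add (Nat.add C (Nat.mul x27684 (nat_lit 3))) x14562) x40806) x23310) x29142) x28170) x27666) x27678) x8002)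
    (Nat.sub (Nat.add (Nat.add (Nat.add (Nat.add (Nat.add (Nat.add (Nat.add C x27728) x14606) x40850) x23354) x29186) x27242) x27746) x47410)
    (Nat.sub (Nat.add (Nat.add (Nat.add (Nat.add (Nat.add (Nat.add (Nat.add (Nat.add (Nat.add C x14624) x40868) x23372) x29204) x27260) x27800) x27728) x27764) x27752) x47428)
    (Nat.sub (Nat.sub (Nat.add (Nat.add (Nat.add (Nat.add (Nat.add (Nat.add (Nat.add (Nat.add (Nat.add C x14630) x40874) x23378) x29210) x27266) x27806) x27770) x27746) x27754) x27752) x47434)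
    (Nat.sub (Nat.sub (Nat.add (Nat.add (Nat.add (Nat.add (Nat.add (Nat.add (Nat.add (Nat.add C x14632) x40876) x23380) x29212) x27268) x27808) x27772) x27752) x47436) x8072)
    (Nat.sub (Nat.sub (Nat.add (Nat.add (Nat.add (Nat.add (Nat.add (Nat.add (Nat.add (Nat.add C x14642) x40886) x23390) x29222) x27278) x27818) x27746) x27770) (Nat.mul x27764 (nat_lit 3))) x47446)
    (Nat.sub (Nat.sub (Nat.add (Nat.add (Nat.add (Nat.add (Nat.add (Nat.add (Nat.add (Nat.add (Nat.add (Nat.add C x14648) x40892) x23396) x29228) x27284) x27824) x27752) x27764) x27776) x27772) (Nat.mul x27770 (nat_lit 2))) x47452)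
    (Nat.sub (Nat.sub (Nat.sub (Nat.add (Nat.add (Nat.add (Nat.add (Nat.add (Nat.add (Nat.add (Nat.add (Nat.add C x14650) x40894) x23398) x29230) x27286) x27826) x27754) x27778) x27770) (Nat.mul x27772 (nat_lit 2))) x47454) x8090)
    (Nat.sub (Nat.sub (Nat.add (Nat.add (Nat.add (Nat.add (Nat.add (Nat.add (Nat.add (Nat.add C x14654) x40898) x23402) x29234) x27290) x27830) x27770) x27778) (Nat.mul x27776 (nat_lit 3))) x47458)
    (Nat.sub (Nat.sub (Nat.sub (Nat.add (Nat.add (Nat.add (Nat.add (Nat.add (Nat.add (Nat.add (Nat.add (Nat.add C x14656) x40900) x23404) x29236) x27292) x27832) x27772) x27776) x27780) x27778) x47460) x8096)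
    (Nat.sub (Nat.sub (Nat.add (Nat.add (Nat.add (Nat.add (Nat.add (Nat.add (Nat.add C x14658) x40902) x23406) x29238) x27294) x27834) x27778) x27780) x8098)
    (Nat.sub (Nat.sub (Nat.add (Nat.add (Nat.add (Nat.add (Nat.add (Nat.add (Nat.add (Nat.add (Nat.add C x14678) x40922) x23426) x29258) x27314) x27962) x27746) x27818) x27806) x27800) x47482)
    (Nat.sub (Nat.sub (Nat.add (Nat.add (Nat.add (Nat.add (Nat.add (Nat.add (Nat.add (Nat.add (Nat.add (Nat.add C x14684) x40928) x23432) x29264) x27320) x27968) x27752) x27824) x27800) x27808) (Nat.mul x27806 (nat_lit 3))) x47488)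
    (Nat.sub (Nat.sub (Nat.sub (Nat.add (Nat.add (Nat.add (Nat.add (Nat.add (Nat.add (Nat.add (Nat.add (Nat.add C x14686) x40930) x23434) x29266) x27322) x27970) x27754) x27826) x27806) (Nat.mul x27808 (nat_lit 2))) x47490) x8126)
    (Nat.sub (Nat.sub (Nat.add (Nat.add (Nat.add (Nat.add (Nat.add (Nat.add (Nat.add (Nat.add (Nat.add (Nat.add C x14696) x40940) x23444) x29276) x27332) x27980) x27764) x27872) x27800) x27824) (Nat.mul x27818 (nat_lit 2))) x47500)
    (Nat.sub (Nat.sub (Nat.add (Nat.add (Nat.add (Nat.add (Nat.add (Nat.add (Nat.add (Nat.add (Nat.add (Nat.add (Nat.add (Nat.add (Nat.add C x14702) x40946) x23450) x29282) x27338) x27986) x27770) x27878) x27806) x27842) x27818) x27830) x27826) (Nat.mul x27824 (nat_lit 2))) x47506)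
    (Nat.sub (Nat.sub (Nat.sub (Nat.add (Nat.add (Nat.add (Nat.add (Nat.add (Nat.add (Nat.add (Nat.add (Nat.add (Nat.add (Nat.add (Nat.add C x14704) x40948) x23452) x29284) x27340) x27988) x27772) x27880) x27808) x27844) x27832) x27824) (Nat.mul x27826 (nat_lit 2))) x47508) x8144)
    (Nat.sub (Nat.sub (Nat.add (Nat.add (Nat.add (Nat.add (Nat.add (Nat.add (Nat.add (Nat.add (Nat.add (Nat.add (Nat.add C x14708) x40952) x23456) x29288) x27344) x27992) x27776) x27884) x27848) x27824) x27832) (Nat.mul x27830 (nat_lit 4))) x47512)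
    (Nat.sub (Nat.sub (Nat.sub (Nat.add (Nat.add (Nat.add (Nat.add (Nat.add (Nat.add (Nat.add (Nat.add (Nat.add (Nat.add (Nat.add (Nat.add C x14710) x40954) x23458) x29290) x27346) x27994) x27778) x27886) x27850) x27826) x27830) x27834) (Nat.mul x27832 (nat_lit 2))) x47514) x8150)
    (Nat.sub (Nat.sub (Nat.add (Nat.add (Nat.add (Nat.add (Nat.add (Nat.add (Nat.add (Nat.add (Nat.add (Nat.add C x14712) x40956) x23460) x29292) x27348) x27996) x27780) x27888) x27852) x27832) (Nat.mul x27834 (nat_lit 2))) x8152)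
    (Nat.sub (Nat.sub (Nat.add (Nat.add (Nat.add (Nat.add (Nat.add (Nat.add (Nat.add (Nat.add (Nat.add (Nat.add C x14720) x40964) x23468) x29300) x27356) x28004) x27896) x27824) x27848) x27844) (Nat.mul x27842 (nat_lit 3))) x47524)
    (Nat.sub (Nat.sub (Nat.sub (Nat.add (Nat.add (Nat.add (Nat.add (Nat.add (Nat.add (Nat.add (Nat.add (Nat.add (Nat.add C x14722) x40966) x23470) x29302) x27358) x28006) x27898) x27826) x27850) x27842) (Nat.mul x27844 (nat_lit 4))) x47526) x8162)
    (Nat.sub (Nat.sub (Nat.add (Nat.add (Nat.add (Nat.add (Nat.add (Nat.add (Nat.add (Nat.add (Nat.add (Nat.add C x14726) x40970) x23474) x29306) x27362) x28010) x27902) x27830) x27842) x27850) (Nat.mul x27848 (nat_lit 3))) x47530)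
    (Nat.sub (Nat.sub (Nat.sub (Nat.add (Nat.add (Nat.add (Nat.add (Nat.add (Nat.add (Nat.add (Nat.add (Nat.add (Nat.add (Nat.add (Nat.add C x14728) x40972) x23476) x29308) x27364) x28012) x27904) x27832) x27844) x27856) x27848) x27852) (Nat.mul x27850 (nat_lit 2))) x47532) x8168)
    (Nat.sub (Nat.sub (Nat.add (Nat.add (Nat.add (Nat.add (Nat.add (Nat.add (Nat.add (Nat.add (Nat.add (Nat.add C x14730) x40974) x23478) x29310) x27366) x28014) x27906) x27834) x27858) x27850) (Nat.mul x27852 (nat_lit 3))) x8170)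
    (Nat.sub (Nat.sub (Nat.sub (Nat.add (Nat.add (Nat.add (Nat.add (Nat.add (Nat.add (Nat.add (Nat.add (Nat.add C x14734) x40978) x23482) x29314) x27370) x28018) x27910) x27850) x27858) (Nat.mul x27856 (nat_lit 2))) x47538) x8174)
    (Nat.sub (Nat.sub (Nat.add (Nat.add (Nat.add (Nat.add (Nat.add (Nat.add (Nat.add (Nat.add (Nat.add C x14736) x40980) x23484) x29316) x27372) x28020) x27912) x27852) x27856) x27858) x8176)
    (Nat.sub (Nat.sub (Nat.add (Nat.add (Nat.add (Nat.add (Nat.add (Nat.add (Nat.add (Nat.add C x14750) x40994) x23498) x29330) x27386) x28034) x27818) x27878) (Nat.mul x27872 (nat_lit 3))) x47554)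
    (Nat.sub (Nat.sub (Nat.add (Nat.add (Nat.add (Nat.add (Nat.add (Nat.add (Nat.add (Nat.add (Nat.add (Nat.add (Nat.add C x14756) x41000) x23504) x29336) x27392) x28040) x27824) x27896) x27872) x27884) x27880) (Nat.mul x27878 (nat_lit 4))) x47560)
    (Nat.sub (Nat.sub (Nat.sub (Nat.add (Nat.add (Nat.add (Nat.add (Nat.add (Nat.add (Nat.add (Nat.add (Nat.add (Nat.add C x14758) x41002) x23506) x29338) x27394) x28042) x27826) x27898) x27886) x27878) (Nat.mul x27880 (nat_lit 4))) x47562) x8198)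
    (Nat.sub (Nat.sub (Nat.add (Nat.add (Nat.add (Nat.add (Nat.add (Nat.add (Nat.add (Nat.add (Nat.add (Nat.add C x14762) x41006) x23510) x29342) x27398) x28046) x27830) x27902) x27878) x27886) (Nat.mul x27884 (nat_lit 7))) x47566)
    (Nat.sub (Nat.sub (Nat.sub (Nat.add (Nat.add (Nat.add (Nat.add (Nat.add (Nat.add (Nat.add (Nat.add (Nat.add (Nat.add (Nat.add C x14764) x41008) x23512) x29344) x27400) x28048) x27832) x27904) x27880) x27884) x27888) (Nat.mul x27886 (nat_lit 5))) x47568) x8204)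
    (Nat.sub (Nat.sub (Nat.add (Nat.add (Nat.add (Nat.add (Nat.add (Nat.add (Nat.add (Nat.add (Nat.add C x14766) x41010) x23514) x29346) x27402) x28050) x27834) x27906) x27886) (Nat.mul x27888 (nat_lit 5))) x8206)
    (Nat.sub (Nat.sub (Nat.add (Nat.add (Nat.add (Nat.add (Nat.add (Nat.add (Nat.add (Nat.add (Nat.add (Nat.add C x14774) x41018) x23522) x29354) x27410) x28058) x27842) x27878) x27902) x27898) (Nat.mul x27896 (nat_lit 3))) x47578)
    (Nat.sub (Nat.sub (Nat.sub (Nat.add (Nat.add (Nat.add (Nat.add (Nat.add (Nat.add (Nat.add (Nat.add (Nat.add (Nat.add C x14776) x41020) x23524) x29356) x27412) x28060) x27844) x27880) x27904) x27896) (Nat.mul x27898 (nat_lit 4))) x47580) x8216)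
    (Nat.sub (Nat.sub (Nat.add (Nat.add (Nat.add (Nat.add (Nat.add (Nat.add (Nat.add (Nat.add (Nat.add (Nat.add (Nat.add C x14780) x41024) x23528) x29360) x27416) x28064) x27848) x27884) x27920) x27896) x27904) (Nat.mul x27902 (nat_lit 4))) x47584)
    (Nat.sub (Nat.sub (Nat.sub (Nat.add (Nat.add (Nat.add (Nat.add (Nat.add (Nat.add (Nat.add (Nat.add (Nat.add (Nat.add (Nat.add (Nat.add (Nat.add C x14782) x41026) x23530) x29362) x27418) x28066) x27850) x27886) x27922) x27898) x27910) x27902) x27906) (Nat.mul x27904 (nat_lit 3))) x47586) x8222)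
    (Nat.sub (Nat.sub (Nat.add (Nat.add (Nat.add (Nat.add (Nat.add (Nat.add (Nat.add (Nat.add (Nat.add (Nat.add (Nat.add C x14784) x41028) x23532) x29364) x27420) x28068) x27852) x27888) x27924) x27912) x27904) (Nat.mul x27906 (nat_lit 4))) x8224)
    (Nat.sub (Nat.sub (Nat.sub (Nat.add (Nat.add (Nat.add (Nat.add (Nat.add (Nat.add (Nat.add (Nat.add (Nat.add (Nat.add C x14788) x41032) x23536) x29368) x27424) x28072) x27856) x27928) x27904) x27912) (Nat.mul x27910 (nat_lit 4))) x47592) x8228)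
    (Nat.sub (Nat.sub (Nat.add (Nat.add (Nat.add (Nat.add (Nat.add (Nat.add (Nat.add (Nat.add (Nat.add (Nat.add C x14790) x41034) x23538) x29370) x27426) x28074) x27858) x27930) x27906) x27910) (Nat.mul x27912 (nat_lit 3))) x8230)
    (Nat.sub (Nat.sub (Nat.add (Nat.add (Nat.add (Nat.add (Nat.add (Nat.add (Nat.add (Nat.add C x14798) x41042) x23546) x29378) x27434) x28082) x27902) x27922) (Nat.mul x27920 (nat_lit 3))) x47602)
    (Nat.sub (Nat.sub (Nat.sub (Nat.add (Nat.add (Nat.add (Nat.add (Nat.add (Nat.add (Nat.add (Nat.add (Nat.add (Nat.add C x14800) x41044) x23548) x29380) x27436) x28084) x27904) x27928) x27920) x27924) (Nat.mul x27922 (nat_lit 3))) x47604) x8240)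
    (Nat.sub (Nat.sub (Nat.add (Nat.add (Nat.add (Nat.add (Nat.add (Nat.add (Nat.add (Nat.add (Nat.add C x14802) x41046) x23550) x29382) x27438) x28086) x27906) x27930) x27922) (Nat.mul x27924 (nat_lit 5))) x8242)
    (Nat.sub (Nat.sub (Nat.sub (Nat.add (Nat.add (Nat.add (Nat.add (Nat.add (Nat.add (Nat.add (Nat.add (Nat.add C x14806) x41050) x23554) x29386) x27442) x28090) x27910) x27922) x27930) (Nat.mul x27928 (nat_lit 2))) x47610) x8246)
    (Nat.sub (Nat.sub (Nat.add (Nat.add (Nat.add (Nat.add (Nat.add (Nat.add (Nat.add (Nat.add (Nat.add (Nat.add C x14808) x41052) x23556) x29388) x27444) x28092) x27912) x27924) x27936) x27928) (Nat.mul x27930 (nat_lit 2))) x8248)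
    (Nat.sub (Nat.sub (Nat.add (Nat.add (Nat.add (Nat.add (Nat.add (Nat.add (Nat.add C x14814) x41058) x23562) x29394) x27450) x28098) x27930) x27936) x8254)
    (Nat.sub (Nat.add (Nat.add (Nat.add (Nat.add (Nat.add (Nat.add (Nat.add (Nat.add (Nat.add C x27962) x14840) x41084) x23588) x29420) x27476) x27800) x27980) x27968) x47644)
    (Nat.sub (Nat.sub (Nat.add (Nat.add (Nat.add (Nat.add (Nat.add (Nat.add (Nat.add (Nat.add (Nat.add C x14846) x41090) x23594) x29426) x27482) x27806) x27986) x27962) x27970) x27968) x47650)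
    (Nat.sub (Nat.sub (Nat.add (Nat.add (Nat.add (Nat.add (Nat.add (Nat.add (Nat.add (Nat.add C x14848) x41092) x23596) x29428) x27484) x27808) x27988) x27968) x47652) x8288)
    (Nat.sub (Nat.sub (Nat.add (Nat.add (Nat.add (Nat.add (Nat.add (Nat.add (Nat.add (Nat.add (Nat.add C x14858) x41102) x23606) x29438) x27494) x27818) x28034) x27962) x27986) x27980) x47662)
    (Nat.sub (Nat.sub (Nat.add (Nat.add (Nat.add (Nat.add (Nat.add (Nat.add (Nat.add (Nat.add (Nat.add (Nat.add (Nat.add (Nat.add C x14864) x41108) x23612) x29444) x27500) x27824) x28040) x27968) x28004) x27980) x27992) x27988) x27986) x47668)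
    (Nat.sub (Nat.sub (Nat.sub (Nat.add (Nat.add (Nat.add (Nat.add (Nat.add (Nat.add (Nat.add (Nat.add (Nat.add (Nat.add (Nat.add C x14866) x41110) x23614) x29446) x27502) x27826) x28042) x27970) x28006) x27994) x27986) x27988) x47670) x8306)
    (Nat.sub (Nat.sub (Nat.add (Nat.add (Nat.add (Nat.add (Nat.add (Nat.add (Nat.add (Nat.add (Nat.add (Nat.add C x14870) x41114) x23618) x29450) x27506) x27830) x28046) x28010) x27986) x27994) (Nat.mul x27992 (nat_lit 3))) x47674)
    (Nat.sub (Nat.sub (Nat.sub (Nat.add (Nat.add (Nat.add (Nat.add (Nat.add (Nat.add (Nat.add (Nat.add (Nat.add (Nat.add (Nat.add C x14872) x41116) x23620) x29452) x27508) x27832) x28048) x28012) x27988) x27992) x27996) x27994) x47676) x8312)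
    (Nat.sub (Nat.sub (Nat.add (Nat.add (Nat.add (Nat.add (Nat.add (Nat.add (Nat.add (Nat.add (Nat.add C x14874) x41118) x23622) x29454) x27510) x27834) x28050) x28014) x27994) x27996) x8314)
    (Nat.sub (Nat.sub (Nat.add (Nat.add (Nat.add (Nat.add (Nat.add (Nat.add (Nat.add (Nat.add (Nat.add (Nat.add C x14882) x41126) x23630) x29462) x27518) x27842) x28058) x27986) x28010) x28006) (Nat.mul x28004 (nat_lit 3))) x47686)
    (Nat.sub (Nat.sub (Nat.sub (Nat.add (Nat.add (Nat.add (Nat.add (Nat.add (Nat.add (Nat.add (Nat.add (Nat.add (Nat.add C x14884) x41128) x23632) x29464) x27520) x27844) x28060) x27988) x28012) x28004) (Nat.mul x28006 (nat_lit 4))) x47688) x8324)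
    (Nat.sub (Nat.sub (Nat.add (Nat.add (Nat.add (Nat.add (Nat.add (Nat.add (Nat.add (Nat.add (Nat.add (Nat.add C x14888) x41132) x23636) x29468) x27524) x27848) x28064) x27992) x28004) x28012) (Nat.mul x28010 (nat_lit 3))) x47692)
    (Nat.sub (Nat.sub (Nat.sub (Nat.add (Nat.add (Nat.add (Nat.add (Nat.add (Nat.add (Nat.add (Nat.add (Nat.add (Nat.add (Nat.add (Nat.add C x14890) x41134) x23638) x29470) x27526) x27850) x28066) x27994) x28006) x28018) x28010) x28014) (Nat.mul x28012 (nat_lit 2))) x47694) x8330)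
    (Nat.sub (Nat.sub (Nat.add (Nat.add (Nat.add (Nat.add (Nat.add (Nat.add (Nat.add (Nat.add (Nat.add (Nat.add C x14892) x41136) x23640) x29472) x27528) x27852) x28068) x27996) x28020) x28012) (Nat.mul x28014 (nat_lit 3))) x8332)
    (Nat.sub (Nat.sub (Nat.sub (Nat.add (Nat.add (Nat.add (Nat.add (Nat.add (Nat.add (Nat.add (Nat.add (Nat.add C x14896) x41140) x23644) x29476) x27532) x27856) x28072) x28012) x28020) (Nat.mul x28018 (nat_lit 2))) x47700) x8336)
    (Nat.sub (Nat.sub (Nat.add (Nat.add (Nat.add (Nat.add (Nat.add (Nat.add (Nat.add (Nat.add (Nat.add C x14898) x41142) x23646) x29478) x27534) x27858) x28074) x28014) x28018) x28020) x8338)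
    (Nat.sub (Nat.add (Nat.add (Nat.add (Nat.add (Nat.add (Nat.add (Nat.add (Nat.add (Nat.add C x14912) x41156) x23660) x29492) x27548) x27872) x28196) x27980) x28040) x47716)
    (Nat.sub (Nat.sub (Nat.add (Nat.add (Nat.add (Nat.add (Nat.add (Nat.add (Nat.add (Nat.add (Nat.add (Nat.add (Nat.add (Nat.add C x14918) x41162) x23666) x29498) x27554) x27878) x28202) x27986) x28058) x28034) x28046) x28042) x28040) x47722)
    (Nat.sub (Nat.sub (Nat.sub (Nat.add (Nat.add (Nat.add (Nat.add (Nat.add (Nat.add (Nat.add (Nat.add (Nat.add (Nat.add (Nat.add C x14920) x41164) x23668) x29500) x27556) x27880) x28204) x27988) x28060) x28048) x28040) x28042) x47724) x8360)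
    (Nat.sub (Nat.sub (Nat.add (Nat.add (Nat.add (Nat.add (Nat.add (Nat.add (Nat.add (Nat.add (Nat.add (Nat.add (Nat.add C x14924) x41168) x23672) x29504) x27560) x27884) x28208) x27992) x28064) x28040) x28048) (Nat.mul x28046 (nat_lit 4))) x47728)
    (Nat.sub (Nat.sub (Nat.sub (Nat.add (Nat.add (Nat.add (Nat.add (Nat.add (Nat.add (Nat.add (Nat.add (Nat.add (Nat.add (Nat.add (Nat.add C x14926) x41170) x23674) x29506) x27562) x27886) x28210) x27994) x28066) x28042) x28046) x28050) (Nat.mul x28048 (nat_lit 2))) x47730) x8366)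
    (Nat.sub (Nat.sub (Nat.add (Nat.add (Nat.add (Nat.add (Nat.add (Nat.add (Nat.add (Nat.add (Nat.add (Nat.add C x14928) x41172) x23676) x29508) x27564) x27888) x28212) x27996) x28068) x28048) (Nat.mul x28050 (nat_lit 2))) x8368)
    (Nat.sub (Nat.sub (Nat.add (Nat.add (Nat.add (Nat.add (Nat.add (Nat.add (Nat.add (Nat.add (Nat.add (Nat.add (Nat.add (Nat.add C x14936) x41180) x23684) x29516) x27572) x27896) x28220) x28004) x28112) x28040) x28064) x28060) x28058) x47740)
    (Nat.sub (Nat.sub (Nat.sub (Nat.add (Nat.add (Nat.add (Nat.add (Nat.add (Nat.add (Nat.add (Nat.add (Nat.add (Nat.add (Nat.add (Nat.add C x14938) x41182) x23686) x29518) x27574) x27898) x28222) x28006) x28114) x28042) x28066) x28058) (Nat.mul x28060 (nat_lit 2))) x47742) x8378)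
    (Nat.sub (Nat.sub (Nat.add (Nat.add (Nat.add (Nat.add (Nat.add (Nat.add (Nat.add (Nat.add (Nat.add (Nat.add (Nat.add (Nat.add (Nat.add C x14942) x41186) x23690) x29522) x27578) x27902) x28226) x28010) x28118) x28046) x28082) x28058) x28066) (Nat.mul x28064 (nat_lit 2))) x47746)
    (Nat.sub (Nat.sub (Nat.sub (Nat.add (Nat.add (Nat.add (Nat.add (Nat.add (Nat.add (Nat.add (Nat.add (Nat.add (Nat.add (Nat.add (Nat.add (Nat.add (Nat.add (Nat.add C x14944) x41188) x23692) x29524) x27580) x27904) x28228) x28012) x28120) x28048) x28084) x28060) x28072) x28064) x28068) x28066) x47748) x8384)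
    (Nat.sub (Nat.sub (Nat.add (Nat.add (Nat.add (Nat.add (Nat.add (Nat.add (Nat.add (Nat.add (Nat.add (Nat.add (Nat.add (Nat.add (Nat.add C x14946) x41190) x23694) x29526) x27582) x27906) x28230) x28014) x28122) x28050) x28086) x28074) x28066) (Nat.mul x28068 (nat_lit 2))) x8386)
    (Nat.sub (Nat.sub (Nat.sub (Nat.add (Nat.add (Nat.add (Nat.add (Nat.add (Nat.add (Nat.add (Nat.add (Nat.add (Nat.add (Nat.add (Nat.add C x14950) x41194) x23698) x29530) x27586) x27910) x28234) x28018) x28126) x28090) x28066) x28074) (Nat.mul x28072 (nat_lit 2))) x47754) x8390)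
    (Nat.sub (Nat.sub (Nat.add (Nat.add (Nat.add (Nat.add (Nat.add (Nat.add (Nat.add (Nat.add (Nat.add (Nat.add (Nat.add (Nat.add C x14952) x41196) x23700) x29532) x27588) x27912) x28236) x28020) x28128) x28092) x28068) x28072) x28074) x8392)
    (Nat.sub (Nat.sub (Nat.add (Nat.add (Nat.add (Nat.add (Nat.add (Nat.add (Nat.add (Nat.add (Nat.add (Nat.add C x14960) x41204) x23708) x29540) x27596) x27920) x28244) x28136) x28064) x28084) (Nat.mul x28082 (nat_lit 2))) x47764)
    (Nat.sub (Nat.sub (Nat.sub (Nat.add (Nat.add (Nat.add (Nat.add (Nat.add (Nat.add (Nat.add (Nat.add (Nat.add (Nat.add (Nat.add (Nat.add C x14962) x41206) x23710) x29542) x27598) x27922) x28246) x28138) x28066) x28090) x28082) x28086) (Nat.mul x28084 (nat_lit 2))) x47766) x8402)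
    (Nat.sub (Nat.sub (Nat.add (Nat.add (Nat.add (Nat.add (Nat.add (Nat.add (Nat.add (Nat.add (Nat.add (Nat.add (Nat.add C x14964) x41208) x23712) x29544) x27600) x27924) x28248) x28140) x28068) x28092) x28084) (Nat.mul x28086 (nat_lit 4))) x8404)
    (Nat.sub (Nat.sub (Nat.sub (Nat.add (Nat.add (Nat.add (Nat.add (Nat.add (Nat.add (Nat.add (Nat.add (Nat.add (Nat.add (Nat.add C x14968) x41212) x23716) x29548) x27604) x27928) x28252) x28144) x28072) x28084) x28092) x28090) x47772) x8408)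
    (Nat.sub (Nat.sub (Nat.add (Nat.add (Nat.add (Nat.add (Nat.add (Nat.add (Nat.add (Nat.add (Nat.add (Nat.add (Nat.add (Nat.add C x14970) x41214) x23718) x29550) x27606) x27930) x28254) x28146) x28074) x28086) x28098) x28090) x28092) x8410)
    (Nat.sub (Nat.add (Nat.add (Nat.add (Nat.add (Nat.add (Nat.add (Nat.add (Nat.add (Nat.add C x14976) x41220) x23724) x29556) x27612) x27936) x28260) x28152) x28092) x8416)
    (Nat.sub (Nat.sub (Nat.add (Nat.add (Nat.add (Nat.add (Nat.add (Nat.add (Nat.add (Nat.add (Nat.add C x14990) x41234) x23738) x29570) x27626) x28274) x28058) x28118) x28114) x28112) x47794)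
    (Nat.sub (Nat.sub (Nat.sub (Nat.add (Nat.add (Nat.add (Nat.add (Nat.add (Nat.add (Nat.add (Nat.add (Nat.add C x14992) x41236) x23740) x29572) x27628) x28276) x28060) x28120) x28112) (Nat.mul x28114 (nat_lit 2))) x47796) x8432)
    (Nat.sub (Nat.sub (Nat.add (Nat.add (Nat.add (Nat.add (Nat.add (Nat.add (Nat.add (Nat.add (Nat.add (Nat.add C x14996) x41240) x23744) x29576) x27632) x28280) x28064) x28136) x28112) x28120) (Nat.mul x28118 (nat_lit 3))) x47800)
    (Nat.sub (Nat.sub (Nat.sub (Nat.add (Nat.add (Nat.add (Nat.add (Nat.add (Nat.add (Nat.add (Nat.add (Nat.add (Nat.add (Nat.add (Nat.add C x14998) x41242) x23746) x29578) x27634) x28282) x28066) x28138) x28114) x28126) x28118) x28122) (Nat.mul x28120 (nat_lit 2))) x47802) x8438)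
    (Nat.sub (Nat.sub (Nat.add (Nat.add (Nat.add (Nat.add (Nat.add (Nat.add (Nat.add (Nat.add (Nat.add (Nat.add C x15000) x41244) x23748) x29580) x27636) x28284) x28068) x28140) x28128) x28120) (Nat.mul x28122 (nat_lit 3))) x8440)
    (Nat.sub (Nat.sub (Nat.sub (Nat.add (Nat.add (Nat.add (Nat.add (Nat.add (Nat.add (Nat.add (Nat.add (Nat.add (Nat.add C x15004) x41248) x23752) x29584) x27640) x28288) x28072) x28144) x28120) x28128) (Nat.mul x28126 (nat_lit 4))) x47808) x8444)
    (Nat.sub (Nat.sub (Nat.add (Nat.add (Nat.add (Nat.add (Nat.add (Nat.add (Nat.add (Nat.add (Nat.add (Nat.add C x15006) x41250) x23754) x29586) x27642) x28290) x28074) x28146) x28122) x28126) (Nat.mul x28128 (nat_lit 3))) x8446)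
    (Nat.sub (Nat.sub (Nat.add (Nat.add (Nat.add (Nat.add (Nat.add (Nat.add (Nat.add (Nat.add (Nat.add C x15014) x41258) x23762) x29594) x27650) x28298) x28082) x28118) x28138) x28136) x47818)
    (Nat.sub (Nat.sub (Nat.sub (Nat.add (Nat.add (Nat.add (Nat.add (Nat.add (Nat.add (Nat.add (Nat.add (Nat.add (Nat.add (Nat.add C x15016) x41260) x23764) x29596) x27652) x28300) x28084) x28120) x28144) x28136) x28140) x28138) x47820) x8456)
    (Nat.sub (Nat.sub (Nat.add (Nat.add (Nat.add (Nat.add (Nat.add (Nat.add (Nat.add (Nat.add (Nat.add (Nat.add C x15018) x41262) x23766) x29598) x27654) x28302) x28086) x28122) x28146) x28138) (Nat.mul x28140 (nat_lit 3))) x8458)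
    (Nat.sub (Nat.sub (Nat.sub (Nat.add (Nat.add (Nat.add (Nat.add (Nat.add (Nat.add (Nat.add (Nat.add (Nat.add (Nat.add (Nat.add C x15022) x41266) x23770) x29602) x27658) x28306) x28090) x28126) x28162) x28138) x28146) x28144) x47826) x8462)
    (Nat.sub (Nat.sub (Nat.add (Nat.add (Nat.add (Nat.add (Nat.add (Nat.add (Nat.add (Nat.add (Nat.add (Nat.add (Nat.add (Nat.add C x15024) x41268) x23772) x29604) x27660) x28308) x28092) x28128) x28164) x28140) x28152) x28144) x28146) x8464)
    (Nat.sub (Nat.sub (Nat.add (Nat.add (Nat.add (Nat.add (Nat.add (Nat.add (Nat.add (Nat.add (Nat.add C x15030) x41274) x23778) x29610) x27666) x28314) x28098) x28170) x28146) x28152) x8470)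
    (Nat.sub (Nat.sub (Nat.add (Nat.add (Nat.add (Nat.add (Nat.add (Nat.add (Nat.add (Nat.add C x15040) x41284) x23788) x29620) x27676) x28324) x28144) x28164) x47844) x8480)
    (Nat.sub (Nat.sub (Nat.add (Nat.add (Nat.add (Nat.add (Nat.add (Nat.add (Nat.add (Nat.add (Nat.add C x15042) x41286) x23790) x29622) x27678) x28326) x28146) x28170) x28162) x28164) x8482)
    (Nat.sub (Nat.add (Nat.add (Nat.add (Nat.add (Nat.add (Nat.add (Nat.add (Nat.add (Nat.add C x28170) x15048) x41292) x23796) x29628) x27684) x28332) x28152) x28164) x8488)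
    (Nat.sub (Nat.add (Nat.add (Nat.add (Nat.add (Nat.add (Nat.add (Nat.add C x28196) x15074) x41318) x23822) x29654) x28034) x28202) x47878)
    (Nat.sub (Nat.add (Nat.add (Nat.add (Nat.add (Nat.add (Nat.add (Nat.add (Nat.add (Nat.add C x15080) x41324) x23828) x29660) x28040) x28220) x28196) x28208) x28204) x47884)
    (Nat.sub (Nat.sub (Nat.add (Nat.add (Nat.add (Nat.add (Nat.add (Nat.add (Nat.add (Nat.add C x15082) x41326) x23830) x29662) x28042) x28222) x28210) x28202) x47886) x8522)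
    (Nat.sub (Nat.sub (Nat.add (Nat.add (Nat.add (Nat.add (Nat.add (Nat.add (Nat.add (Nat.add C x15086) x41330) x23834) x29666) x28046) x28226) x28202) x28210) (Nat.mul x28208 (nat_lit 3))) x47890)
    (Nat.sub (Nat.sub (Nat.sub (Nat.add (Nat.add (Nat.add (Nat.add (Nat.add (Nat.add (Nat.add (Nat.add (Nat.add C x15088) x41332) x23836) x29668) x28048) x28228) x28204) x28208) x28212) x28210) x47892) x8528)
    (Nat.sub (Nat.sub (Nat.add (Nat.add (Nat.add (Nat.add (Nat.add (Nat.add (Nat.add C x15090) x41334) x23838) x29670) x28050) x28230) x28210) x28212) x8530)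
    (Nat.sub (Nat.sub (Nat.add (Nat.add (Nat.add (Nat.add (Nat.add (Nat.add (Nat.add (Nat.add (Nat.add C x15098) x41342) x23846) x29678) x28058) x28274) x28202) x28226) x28222) x28220) x47902)
    (Nat.sub (Nat.sub (Nat.sub (Nat.add (Nat.add (Nat.add (Nat.add (Nat.add (Nat.add (Nat.add (Nat.add (Nat.add C x15100) x41344) x23848) x29680) x28060) x28276) x28204) x28228) x28220) (Nat.mul x28222 (nat_lit 2))) x47904) x8540)
    (Nat.sub (Nat.sub (Nat.add (Nat.add (Nat.add (Nat.add (Nat.add (Nat.add (Nat.add (Nat.add (Nat.add (Nat.add C x15104) x41348) x23852) x29684) x28064) x28280) x28208) x28244) x28220) x28228) (Nat.mul x28226 (nat_lit 2))) x47908)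
    (Nat.sub (Nat.sub (Nat.sub (Nat.add (Nat.add (Nat.add (Nat.add (Nat.add (Nat.add (Nat.add (Nat.add (Nat.add (Nat.add (Nat.add (Nat.add C x15106) x41350) x23854) x29686) x28066) x28282) x28210) x28246) x28222) x28234) x28226) x28230) x28228) x47910) x8546)
    (Nat.sub (Nat.sub (Nat.add (Nat.add (Nat.add (Nat.add (Nat.add (Nat.add (Nat.add (Nat.add (Nat.add (Nat.add C x15108) x41352) x23856) x29688) x28068) x28284) x28212) x28248) x28236) x28228) (Nat.mul x28230 (nat_lit 2))) x8548)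
    (Nat.sub (Nat.sub (Nat.sub (Nat.add (Nat.add (Nat.add (Nat.add (Nat.add (Nat.add (Nat.add (Nat.add (Nat.add C x15112) x41356) x23860) x29692) x28072) x28288) x28252) x28228) x28236) (Nat.mul x28234 (nat_lit 2))) x47916) x8552)
    (Nat.sub (Nat.sub (Nat.add (Nat.add (Nat.add (Nat.add (Nat.add (Nat.add (Nat.add (Nat.add (Nat.add C x15114) x41358) x23862) x29694) x28074) x28290) x28254) x28230) x28234) x28236) x8554)
    (Nat.sub (Nat.sub (Nat.add (Nat.add (Nat.add (Nat.add (Nat.add (Nat.add (Nat.add (Nat.add C x15122) x41366) x23870) x29702) x28082) x28298) x28226) x28246) (Nat.mul x28244 (nat_lit 3))) x47926)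
    (Nat.sub (Nat.sub (Nat.sub (Nat.add (Nat.add (Nat.add (Nat.add (Nat.add (Nat.add (Nat.add (Nat.add (Nat.add (Nat.add C x15124) x41368) x23872) x29704) x28084) x28300) x28228) x28252) x28244) x28248) (Nat.mul x28246 (nat_lit 3))) x47928) x8564)
    (Nat.sub (Nat.sub (Nat.add (Nat.add (Nat.add (Nat.add (Nat.add (Nat.add (Nat.add (Nat.add (Nat.add C x15126) x41370) x23874) x29706) x28086) x28302) x28230) x28254) x28246) (Nat.mul x28248 (nat_lit 5))) x8566)
    (Nat.sub (Nat.sub (Nat.sub (Nat.add (Nat.add (Nat.add (Nat.add (Nat.add (Nat.add (Nat.add (Nat.add (Nat.add C x15130) x41374) x23878) x29710) x28090) x28306) x28234) x28246) x28254) (Nat.mul x28252 (nat_lit 2))) x47934) x8570)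
    (Nat.sub (Nat.sub (Nat.add (Nat.add (Nat.add (Nat.add (Nat.add (Nat.add (Nat.add (Nat.add (Nat.add (Nat.add C x15132) x41376) x23880) x29712) x28092) x28308) x28236) x28248) x28260) x28252) (Nat.mul x28254 (nat_lit 2))) x8572)
    (Nat.sub (Nat.sub (Nat.add (Nat.add (Nat.add (Nat.add (Nat.add (Nat.add (Nat.add C x15138) x41382) x23886) x29718) x28098) x28314) x28254) x28260) x8578)
    (Nat.sub (Nat.add (Nat.add (Nat.add (Nat.add (Nat.add (Nat.add (Nat.add (Nat.add (Nat.add C x28274) x15152) x41396) x23900) x29732) x28112) x28220) x28280) x28276) x47956)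
    (Nat.sub (Nat.sub (Nat.add (Nat.add (Nat.add (Nat.add (Nat.add (Nat.add (Nat.add (Nat.add C x15154) x41398) x23902) x29734) x28114) x28222) x28282) x28274) x47958) x8594)
    (Nat.sub (Nat.sub (Nat.add (Nat.add (Nat.add (Nat.add (Nat.add (Nat.add (Nat.add (Nat.add (Nat.add C x15158) x41402) x23906) x29738) x28118) x28226) x28298) x28274) x28282) x28280) x47962)
    (Nat.sub (Nat.sub (Nat.add (Nat.add (Nat.add (Nat.add (Nat.add (Nat.add (Nat.add (Nat.add (Nat.add (Nat.add (Nat.add C x15160) x41404) x23908) x29740) x28120) x28228) x28300) x28276) x28288) x28280) x28284) x47964) x8600)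
    (Nat.sub (Nat.sub (Nat.add (Nat.add (Nat.add (Nat.add (Nat.add (Nat.add (Nat.add (Nat.add (Nat.add C x15162) x41406) x23910) x29742) x28122) x28230) x28302) x28290) x28282) x28284) x8602)
    (Nat.sub (Nat.sub (Nat.sub (Nat.add (Nat.add (Nat.add (Nat.add (Nat.add (Nat.add (Nat.add (Nat.add (Nat.add C x15166) x41410) x23914) x29746) x28126) x28234) x28306) x28282) x28290) (Nat.mul x28288 (nat_lit 2))) x47970) x8606)
    (Nat.sub (Nat.sub (Nat.add (Nat.add (Nat.add (Nat.add (Nat.add (Nat.add (Nat.add (Nat.add (Nat.add C x15168) x41412) x23916) x29748) x28128) x28236) x28308) x28284) x28288) x28290) x8608)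
    (Nat.sub (Nat.add (Nat.add (Nat.add (Nat.add (Nat.add (Nat.add (Nat.add (Nat.add (Nat.add C x15176) x41420) x23924) x29756) x28136) x28244) x28352) x28280) x28300) x47980)
    (Nat.sub (Nat.sub (Nat.add (Nat.add (Nat.add (Nat.add (Nat.add (Nat.add (Nat.add (Nat.add (Nat.add (Nat.add (Nat.add C x15178) x41422) x23926) x29758) x28138) x28246) x28354) x28282) x28306) x28298) x28302) x47982) x8618)
    (Nat.sub (Nat.sub (Nat.add (Nat.add (Nat.add (Nat.add (Nat.add (Nat.add (Nat.add (Nat.add (Nat.add (Nat.add C x15180) x41424) x23928) x29760) x28140) x28248) x28356) x28284) x28308) x28300) (Nat.mul x28302 (nat_lit 2))) x8620)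
    (Nat.sub (Nat.sub (Nat.add (Nat.add (Nat.add (Nat.add (Nat.add (Nat.add (Nat.add (Nat.add (Nat.add (Nat.add (Nat.add C x15184) x41428) x23932) x29764) x28144) x28252) x28360) x28288) x28324) x28300) x28308) x47988) x8624)
    (Nat.sub (Nat.add (Nat.add (Nat.add (Nat.add (Nat.add (Nat.add (Nat.add (Nat.add (Nat.add (Nat.add (Nat.add (Nat.add C x15186) x41430) x23934) x29766) x28146) x28254) x28362) x28290) x28326) x28302) x28314) x28306) x8626)
    (Nat.sub (Nat.add (Nat.add (Nat.add (Nat.add (Nat.add (Nat.add (Nat.add (Nat.add (Nat.add C x15192) x41436) x23940) x29772) x28152) x28260) x28368) x28332) x28308) x8632)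
    (Nat.sub (Nat.sub (Nat.add (Nat.add (Nat.add (Nat.add (Nat.add (Nat.add (Nat.add (Nat.add C x15202) x41446) x23950) x29782) x28162) x28378) x28306) x28326) x48006) x8642)
    (Nat.sub (Nat.sub (Nat.add (Nat.add (Nat.add (Nat.add (Nat.add (Nat.add (Nat.add (Nat.add (Nat.add C x15204) x41448) x23952) x29784) x28164) x28380) x28308) x28332) x28324) x28326) x8644)
    (Nat.sub (Nat.add (Nat.add (Nat.add (Nat.add (Nat.add (Nat.add (Nat.add (Nat.add (Nat.add C x28332) x15210) x41454) x23958) x29790) x28170) x28386) x28314) x28326) x8650)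
    (Nat.sub (Nat.add (Nat.add (Nat.add (Nat.add (Nat.add (Nat.add (Nat.add C x28352) x15230) x41474) x23978) x29810) x28298) x28354) x48034)
    (Nat.sub (Nat.sub (Nat.add (Nat.add (Nat.add (Nat.add (Nat.add (Nat.add (Nat.add (Nat.add (Nat.add C x28354) x15232) x41476) x23980) x29812) x28300) x28360) x28352) x28356) x48036) x8672)
    (Nat.sub (Nat.sub (Nat.add (Nat.add (Nat.add (Nat.add (Nat.add (Nat.add (Nat.add C x15234) x41478) x23982) x29814) x28302) x28362) x28354) x28356) x8674)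
    (Nat.sub (Nat.sub (Nat.add (Nat.add (Nat.add (Nat.add (Nat.add (Nat.add (Nat.add (Nat.add C x15238) x41482) x23986) x29818) x28306) x28378) x28354) x28362) x48042) x8678)
    (Nat.sub (Nat.add (Nat.add (Nat.add (Nat.add (Nat.add (Nat.add (Nat.add (Nat.add (Nat.add C x15240) x41484) x23988) x29820) x28308) x28380) x28356) x28368) x28360) x8680)
    (Nat.sub (Nat.sub (Nat.add (Nat.add (Nat.add (Nat.add (Nat.add (Nat.add (Nat.add C x15246) x41490) x23994) x29826) x28314) x28386) x28362) x28368) x8686)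
    (Nat.sub (Nat.sub (Nat.add (Nat.add (Nat.add (Nat.add (Nat.add (Nat.add (Nat.add (Nat.add C (Nat.mul x28378 (nat_lit 2))) x15256) x41500) x24004) x29836) x28324) x28360) x28380) x48060) x8696)
    (Nat.sub (Nat.add (Nat.add (Nat.add (Nat.add (Nat.add (Nat.add (Nat.add (Nat.add (Nat.add C x28380) x15258) x41502) x24006) x29838) x28326) x28362) x28386) x28378) x8698)
    (Nat.sub (Nat.add (Nat.add (Nat.add (Nat.add (Nat.add (Nat.add (Nat.add (Nat.add (Nat.add C (Nat.mul x28386 (nat_lit 2))) x15264) x41508) x24012) x29844) x28332) x28368) x28404) x28380) x8704)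
    (Nat.sub (Nat.add (Nat.add (Nat.add (Nat.add (Nat.add (Nat.add C (Nat.mul x28404 (nat_lit 3))) x15282) x41526) x24030) x29862) x28386) x8722)
    (Nat.sub (Nat.add (Nat.add (Nat.add (Nat.add (Nat.add (Nat.add (Nat.add (Nat.add C (Nat.mul x28484 (nat_lit 4))) x15362) x41606) x24110) x32858) x27026) x28538) x28502) x48166)
    (Nat.sub (Nat.add (Nat.add (Nat.add (Nat.add (Nat.add (Nat.add (Nat.add (Nat.add (Nat.add C (Nat.mul x28502 (nat_lit 2))) x15380) x41624) x24128) x32876) x27044) x28556) x28484) x28508) x48184)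
    (Nat.sub (Nat.add (Nat.add (Nat.add (Nat.add (Nat.add (Nat.add (Nat.add (Nat.add (Nat.add C (Nat.mul x28508 (nat_lit 2))) x15386) x41630) x24134) x32882) x27050) x28562) x28502) x28510) x48190)
    (Nat.sub (Nat.sub (Nat.add (Nat.add (Nat.add (Nat.add (Nat.add (Nat.add (Nat.add (Nat.add C (Nat.mul x28510 (nat_lit 3))) x15388) x41632) x24136) x32884) x27052) x28564) x28508) x48192) x8828)
    (Nat.sub (Nat.add (Nat.add (Nat.add (Nat.add (Nat.add (Nat.add (Nat.add (Nat.add (Nat.add C (Nat.mul x28538 (nat_lit 2))) x15416) x41660) x24164) x32912) x27080) x28700) x28484) x28556) x48220)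
    (Nat.sub (Nat.add (Nat.add (Nat.add (Nat.add (Nat.add (Nat.add (Nat.add (Nat.add (Nat.add (Nat.add (Nat.add (Nat.add C (Nat.mul x28556 (nat_lit 2))) x15434) x41678) x24182) x32930) x27098) x28718) x28502) x28610) x28538) x28574) x28562) x48238)
    (Nat.sub (Nat.add (Nat.add (Nat.add (Nat.add (Nat.add (Nat.add (Nat.add (Nat.add (Nat.add (Nat.add (Nat.add (Nat.add C x28562) x15440) x41684) x24188) x32936) x27104) x28724) x28508) x28616) x28580) x28556) x28564) x48244)
    (Nat.sub (Nat.sub (Nat.add (Nat.add (Nat.add (Nat.add (Nat.add (Nat.add (Nat.add (Nat.add (Nat.add (Nat.add (Nat.add C (Nat.mul x28564 (nat_lit 2))) x15442) x41686) x24190) x32938) x27106) x28726) x28510) x28618) x28582) x28562) x48246) x8882)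
    (Nat.sub (Nat.add (Nat.add (Nat.add (Nat.add (Nat.add (Nat.add (Nat.add (Nat.add (Nat.add C x15452) x41696) x24200) x32948) x27116) x28736) x28628) x28556) x28580) x48256)
    (Nat.sub (Nat.add (Nat.add (Nat.add (Nat.add (Nat.add (Nat.add (Nat.add (Nat.add (Nat.add (Nat.add (Nat.add (Nat.add C x28580) x15458) x41702) x24206) x32954) x27122) x28742) x28634) x28562) x28574) x28586) x28582) x48262)
    (Nat.sub (Nat.sub (Nat.add (Nat.add (Nat.add (Nat.add (Nat.add (Nat.add (Nat.add (Nat.add (Nat.add (Nat.add (Nat.add C x28582) x15460) x41704) x24208) x32956) x27124) x28744) x28636) x28564) x28588) x28580) x48264) x8900)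
    (Nat.sub (Nat.add (Nat.add (Nat.add (Nat.add (Nat.add (Nat.add (Nat.add (Nat.add (Nat.add C x15464) x41708) x24212) x32960) x27128) x28748) x28640) x28580) x28588) x48268)
    (Nat.sub (Nat.sub (Nat.add (Nat.add (Nat.add (Nat.add (Nat.add (Nat.add (Nat.add (Nat.add (Nat.add (Nat.add (Nat.add C (Nat.mul x28588 (nat_lit 2))) x15466) x41710) x24214) x32962) x27130) x28750) x28642) x28582) x28586) x28590) x48270) x8906)
    (Nat.sub (Nat.add (Nat.add (Nat.add (Nat.add (Nat.add (Nat.add (Nat.add (Nat.add (Nat.add C (Nat.mul x28590 (nat_lit 2))) x15468) x41712) x24216) x32964) x27132) x28752) x28644) x28588) x8908)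
    (Nat.sub (Nat.add (Nat.add (Nat.add (Nat.add (Nat.add (Nat.add (Nat.add (Nat.add (Nat.add C x15488) x41732) x24236) x32984) x27152) x28772) x28556) x28628) x28616) x48292)
    (Nat.sub (Nat.sub (Nat.add (Nat.add (Nat.add (Nat.add (Nat.add (Nat.add (Nat.add (Nat.add (Nat.add (Nat.add C x15494) x41738) x24242) x32990) x27158) x28778) x28562) x28634) x28610) x28618) (Nat.mul x28616 (nat_lit 2))) x48298)
    (Nat.sub (Nat.sub (Nat.sub (Nat.add (Nat.add (Nat.add (Nat.add (Nat.add (Nat.add (Nat.add (Nat.add (Nat.add C x15496) x41740) x24244) x32992) x27160) x28780) x28564) x28636) x28616) x28618) x48300) x8936)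
    (Nat.sub (Nat.add (Nat.add (Nat.add (Nat.add (Nat.add (Nat.add (Nat.add (Nat.add (Nat.add C x15506) x41750) x24254) x33002) x27170) x28790) x28574) x28610) x28634) x48310)
    (Nat.sub (Nat.add (Nat.add (Nat.add (Nat.add (Nat.add (Nat.add (Nat.add (Nat.add (Nat.add (Nat.add (Nat.add (Nat.add C x15512) x41756) x24260) x33008) x27176) x28796) x28580) x28616) x28652) x28628) x28640) x28636) x48316)
    (Nat.sub (Nat.sub (Nat.add (Nat.add (Nat.add (Nat.add (Nat.add (Nat.add (Nat.add (Nat.add (Nat.add (Nat.add (Nat.add C x15514) x41758) x24262) x33010) x27178) x28798) x28582) x28618) x28654) x28642) x28634) x48318) x8954)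
    (Nat.sub (Nat.sub (Nat.add (Nat.add (Nat.add (Nat.add (Nat.add (Nat.add (Nat.add (Nat.add (Nat.add (Nat.add C x15518) x41762) x24266) x33014) x27182) x28802) x28586) x28658) x28634) x28642) (Nat.mul x28640 (nat_lit 2))) x48322)
    (Nat.sub (Nat.sub (Nat.add (Nat.add (Nat.add (Nat.add (Nat.add (Nat.add (Nat.add (Nat.add (Nat.add (Nat.add (Nat.add C x15520) x41764) x24268) x33016) x27184) x28804) x28588) x28660) x28636) x28640) x28644) x48324) x8960)
    (Nat.sub (Nat.add (Nat.add (Nat.add (Nat.add (Nat.add (Nat.add (Nat.add (Nat.add (Nat.add C x15522) x41766) x24270) x33018) x27186) x28806) x28590) x28662) x28642) x8962)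
    (Nat.sub (Nat.add (Nat.add (Nat.add (Nat.add (Nat.add (Nat.add (Nat.add (Nat.add (Nat.add C x15530) x41774) x24278) x33026) x27194) x28814) x28634) x28658) x28654) x48334)
    (Nat.sub (Nat.sub (Nat.sub (Nat.add (Nat.add (Nat.add (Nat.add (Nat.add (Nat.add (Nat.add (Nat.add (Nat.add C x15532) x41776) x24280) x33028) x27196) x28816) x28636) x28660) x28652) x28654) x48336) x8972)
    (Nat.sub (Nat.add (Nat.add (Nat.add (Nat.add (Nat.add (Nat.add (Nat.add (Nat.add (Nat.add C x15536) x41780) x24284) x33032) x27200) x28820) x28640) x28652) x28660) x48340)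
    (Nat.sub (Nat.sub (Nat.add (Nat.add (Nat.add (Nat.add (Nat.add (Nat.add (Nat.add (Nat.add (Nat.add (Nat.add (Nat.add (Nat.add C x28660) x15538) x41782) x24286) x33034) x27202) x28822) x28642) x28654) x28666) x28658) x28662) x48342) x8978)
    (Nat.sub (Nat.add (Nat.add (Nat.add (Nat.add (Nat.add (Nat.add (Nat.add (Nat.add (Nat.add C x15540) x41784) x24288) x33036) x27204) x28824) x28644) x28668) x28660) x8980)
    (Nat.sub (Nat.sub (Nat.add (Nat.add (Nat.add (Nat.add (Nat.add (Nat.add (Nat.add (Nat.add (Nat.add C x28666) x15544) x41788) x24292) x33040) x27208) x28828) x28660) x28668) x48348) x8984)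
    (Nat.sub (Nat.add (Nat.add (Nat.add (Nat.add (Nat.add (Nat.add (Nat.add (Nat.add (Nat.add C (Nat.mul x28668 (nat_lit 2))) x15546) x41790) x24294) x33042) x27210) x28830) x28662) x28666) x8986)
    (Nat.sub (Nat.add (Nat.add (Nat.add (Nat.add (Nat.add (Nat.add (Nat.add (Nat.add (Nat.add C (Nat.mul x28700 (nat_lit 2))) x15578) x41822) x24326) x33074) x27242) x29186) x28538) x28718) x48382)
    (Nat.sub (Nat.add (Nat.add (Nat.add (Nat.add (Nat.add (Nat.add (Nat.add (Nat.add (Nat.add (Nat.add (Nat.add (Nat.add C x28718) x15596) x41840) x24344) x33092) x27260) x29204) x28556) x28772) x28700) x28736) x28724) x48400)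
    (Nat.sub (Nat.add (Nat.add (Nat.add (Nat.add (Nat.add (Nat.add (Nat.add (Nat.add (Nat.add (Nat.add (Nat.add C x15602) x41846) x24350) x33098) x27266) x29210) x28562) x28778) x28742) x28718) x28726) x48406)
    (Nat.sub (Nat.sub (Nat.add (Nat.add (Nat.add (Nat.add (Nat.add (Nat.add (Nat.add (Nat.add (Nat.add (Nat.add (Nat.add C x28726) x15604) x41848) x24352) x33100) x27268) x29212) x28564) x28780) x28744) x28724) x48408) x9044)
    (Nat.sub (Nat.sub (Nat.add (Nat.add (Nat.add (Nat.add (Nat.add (Nat.add (Nat.add (Nat.add (Nat.add (Nat.add C x15614) x41858) x24362) x33110) x27278) x29222) x28574) x28790) x28718) x28742) (Nat.mul x28736 (nat_lit 2))) x48418)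
    (Nat.sub (Nat.sub (Nat.add (Nat.add (Nat.add (Nat.add (Nat.add (Nat.add (Nat.add (Nat.add (Nat.add (Nat.add (Nat.add (Nat.add C x15620) x41864) x24368) x33116) x27284) x29228) x28580) x28796) x28724) x28736) x28748) x28744) x28742) x48424)
    (Nat.sub (Nat.sub (Nat.sub (Nat.add (Nat.add (Nat.add (Nat.add (Nat.add (Nat.add (Nat.add (Nat.add (Nat.add (Nat.add (Nat.add C x15622) x41866) x24370) x33118) x27286) x29230) x28582) x28798) x28726) x28750) x28742) x28744) x48426) x9062)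
    (Nat.sub (Nat.sub (Nat.add (Nat.add (Nat.add (Nat.add (Nat.add (Nat.add (Nat.add (Nat.add (Nat.add (Nat.add C x15626) x41870) x24374) x33122) x27290) x29234) x28586) x28802) x28742) x28750) (Nat.mul x28748 (nat_lit 2))) x48430)
    (Nat.sub (Nat.sub (Nat.add (Nat.add (Nat.add (Nat.add (Nat.add (Nat.add (Nat.add (Nat.add (Nat.add (Nat.add (Nat.add C x15628) x41872) x24376) x33124) x27292) x29236) x28588) x28804) x28744) x28748) x28752) x48432) x9068)
    (Nat.sub (Nat.add (Nat.add (Nat.add (Nat.add (Nat.add (Nat.add (Nat.add (Nat.add (Nat.add C x15630) x41874) x24378) x33126) x27294) x29238) x28590) x28806) x28750) x9070)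
    (Nat.sub (Nat.add (Nat.add (Nat.add (Nat.add (Nat.add (Nat.add (Nat.add (Nat.add (Nat.add (Nat.add (Nat.add (Nat.add C x28772) x15650) x41894) x24398) x33146) x27314) x29258) x28610) x28934) x28718) x28790) x28778) x48454)
    (Nat.sub (Nat.sub (Nat.add (Nat.add (Nat.add (Nat.add (Nat.add (Nat.add (Nat.add (Nat.add (Nat.add (Nat.add (Nat.add (Nat.add C x15656) x41900) x24404) x33152) x27320) x29264) x28616) x28940) x28724) x28796) x28772) x28780) x28778) x48460)
    (Nat.sub (Nat.sub (Nat.add (Nat.add (Nat.add (Nat.add (Nat.add (Nat.add (Nat.add (Nat.add (Nat.add (Nat.add (Nat.add C x15658) x41902) x24406) x33154) x27322) x29266) x28618) x28942) x28726) x28798) x28778) x48462) x9098)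
    (Nat.sub (Nat.add (Nat.add (Nat.add (Nat.add (Nat.add (Nat.add (Nat.add (Nat.add (Nat.add (Nat.add (Nat.add (Nat.add C x15668) x41912) x24416) x33164) x27332) x29276) x28628) x28952) x28736) x28844) x28772) x28796) x48472)
    (Nat.sub (Nat.add (Nat.add (Nat.add (Nat.add (Nat.add (Nat.add (Nat.add (Nat.add (Nat.add (Nat.add (Nat.add (Nat.add (Nat.add (Nat.add (Nat.add C x15674) x41918) x24422) x33170) x27338) x29282) x28634) x28958) x28742) x28850) x28778) x28814) x28790) x28802) x28798) x48478)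
    (Nat.sub (Nat.sub (Nat.add (Nat.add (Nat.add (Nat.add (Nat.add (Nat.add (Nat.add (Nat.add (Nat.add (Nat.add (Nat.add (Nat.add (Nat.add (Nat.add C x15676) x41920) x24424) x33172) x27340) x29284) x28636) x28960) x28744) x28852) x28780) x28816) x28804) x28796) x48480) x9116)
    (Nat.sub (Nat.sub (Nat.add (Nat.add (Nat.add (Nat.add (Nat.add (Nat.add (Nat.add (Nat.add (Nat.add (Nat.add (Nat.add (Nat.add (Nat.add C x15680) x41924) x24428) x33176) x27344) x29288) x28640) x28964) x28748) x28856) x28820) x28796) x28804) (Nat.mul x28802 (nat_lit 2))) x48484)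
    (Nat.sub (Nat.sub (Nat.add (Nat.add (Nat.add (Nat.add (Nat.add (Nat.add (Nat.add (Nat.add (Nat.add (Nat.add (Nat.add (Nat.add (Nat.add (Nat.add C x15682) x41926) x24430) x33178) x27346) x29290) x28642) x28966) x28750) x28858) x28822) x28798) x28802) x28806) x48486) x9122)
    (Nat.sub (Nat.add (Nat.add (Nat.add (Nat.add (Nat.add (Nat.add (Nat.add (Nat.add (Nat.add (Nat.add (Nat.add (Nat.add C x15684) x41928) x24432) x33180) x27348) x29292) x28644) x28968) x28752) x28860) x28824) x28804) x9124)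
    (Nat.sub (Nat.sub (Nat.add (Nat.add (Nat.add (Nat.add (Nat.add (Nat.add (Nat.add (Nat.add (Nat.add (Nat.add (Nat.add (Nat.add C x15692) x41936) x24440) x33188) x27356) x29300) x28652) x28976) x28868) x28796) x28820) x28816) x28814) x48496)
    (Nat.sub (Nat.sub (Nat.sub (Nat.add (Nat.add (Nat.add (Nat.add (Nat.add (Nat.add (Nat.add (Nat.add (Nat.add (Nat.add (Nat.add (Nat.add C x15694) x41938) x24442) x33190) x27358) x29302) x28654) x28978) x28870) x28798) x28822) x28814) (Nat.mul x28816 (nat_lit 2))) x48498) x9134)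
    (Nat.sub (Nat.sub (Nat.add (Nat.add (Nat.add (Nat.add (Nat.add (Nat.add (Nat.add (Nat.add (Nat.add (Nat.add (Nat.add (Nat.add C x15698) x41942) x24446) x33194) x27362) x29306) x28658) x28982) x28874) x28802) x28814) x28822) x28820) x48502)
    (Nat.sub (Nat.sub (Nat.add (Nat.add (Nat.add (Nat.add (Nat.add (Nat.add (Nat.add (Nat.add (Nat.add (Nat.add (Nat.add (Nat.add (Nat.add (Nat.add C x15700) x41944) x24448) x33196) x27364) x29308) x28660) x28984) x28876) x28804) x28816) x28828) x28820) x28824) x48504) x9140)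
    (Nat.sub (Nat.sub (Nat.add (Nat.add (Nat.add (Nat.add (Nat.add (Nat.add (Nat.add (Nat.add (Nat.add (Nat.add (Nat.add (Nat.add C x15702) x41946) x24450) x33198) x27366) x29310) x28662) x28986) x28878) x28806) x28830) x28822) x28824) x9142)
    (Nat.sub (Nat.sub (Nat.add (Nat.add (Nat.add (Nat.add (Nat.add (Nat.add (Nat.add (Nat.add (Nat.add (Nat.add (Nat.add C x15706) x41950) x24454) x33202) x27370) x29314) x28666) x28990) x28882) x28822) x28830) x48510) x9146)
    (Nat.sub (Nat.add (Nat.add (Nat.add (Nat.add (Nat.add (Nat.add (Nat.add (Nat.add (Nat.add (Nat.add (Nat.add (Nat.add C x28830) x15708) x41952) x24456) x33204) x27372) x29316) x28668) x28992) x28884) x28824) x28828) x9148)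
    (Nat.sub (Nat.add (Nat.add (Nat.add (Nat.add (Nat.add (Nat.add (Nat.add (Nat.add (Nat.add C x15722) x41966) x24470) x33218) x27386) x29330) x29006) x28790) x28850) x48526)
    (Nat.sub (Nat.sub (Nat.add (Nat.add (Nat.add (Nat.add (Nat.add (Nat.add (Nat.add (Nat.add (Nat.add (Nat.add (Nat.add (Nat.add C x15728) x41972) x24476) x33224) x27392) x29336) x29012) x28796) x28868) x28844) x28856) x28852) x28850) x48532)
    (Nat.sub (Nat.sub (Nat.sub (Nat.add (Nat.add (Nat.add (Nat.add (Nat.add (Nat.add (Nat.add (Nat.add (Nat.add (Nat.add (Nat.add C x15730) x41974) x24478) x33226) x27394) x29338) x29014) x28798) x28870) x28858) x28850) x28852) x48534) x9170)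
    (Nat.sub (Nat.sub (Nat.add (Nat.add (Nat.add (Nat.add (Nat.add (Nat.add (Nat.add (Nat.add (Nat.add (Nat.add (Nat.add C x15734) x41978) x24482) x33230) x27398) x29342) x29018) x28802) x28874) x28850) x28858) (Nat.mul x28856 (nat_lit 4))) x48538)
    (Nat.sub (Nat.sub (Nat.sub (Nat.add (Nat.add (Nat.add (Nat.add (Nat.add (Nat.add (Nat.add (Nat.add (Nat.add (Nat.add (Nat.add (Nat.add C x15736) x41980) x24484) x33232) x27400) x29344) x29020) x28804) x28876) x28852) x28856) x28860) (Nat.mul x28858 (nat_lit 2))) x48540) x9176)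
    (Nat.sub (Nat.sub (Nat.add (Nat.add (Nat.add (Nat.add (Nat.add (Nat.add (Nat.add (Nat.add (Nat.add (Nat.add C x15738) x41982) x24486) x33234) x27402) x29346) x29022) x28806) x28878) x28858) (Nat.mul x28860 (nat_lit 2))) x9178)
    (Nat.sub (Nat.add (Nat.add (Nat.add (Nat.add (Nat.add (Nat.add (Nat.add (Nat.add (Nat.add (Nat.add (Nat.add C x15746) x41990) x24494) x33242) x27410) x29354) x29030) x28814) x28850) x28874) x28870) x48550)
    (Nat.sub (Nat.sub (Nat.sub (Nat.add (Nat.add (Nat.add (Nat.add (Nat.add (Nat.add (Nat.add (Nat.add (Nat.add (Nat.add (Nat.add C x15748) x41992) x24496) x33244) x27412) x29356) x29032) x28816) x28852) x28876) x28868) x28870) x48552) x9188)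
    (Nat.sub (Nat.sub (Nat.add (Nat.add (Nat.add (Nat.add (Nat.add (Nat.add (Nat.add (Nat.add (Nat.add (Nat.add (Nat.add (Nat.add C x15752) x41996) x24500) x33248) x27416) x29360) x29036) x28820) x28856) x28892) x28868) x28876) x28874) x48556)
    (Nat.sub (Nat.sub (Nat.add (Nat.add (Nat.add (Nat.add (Nat.add (Nat.add (Nat.add (Nat.add (Nat.add (Nat.add (Nat.add (Nat.add (Nat.add (Nat.add C x15754) x41998) x24502) x33250) x27418) x29362) x29038) x28822) x28858) x28894) x28870) x28882) x28874) x28878) x48558) x9194)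
    (Nat.sub (Nat.sub (Nat.add (Nat.add (Nat.add (Nat.add (Nat.add (Nat.add (Nat.add (Nat.add (Nat.add (Nat.add (Nat.add (Nat.add C x15756) x42000) x24504) x33252) x27420) x29364) x29040) x28824) x28860) x28896) x28884) x28876) x28878) x9196)
    (Nat.sub (Nat.sub (Nat.sub (Nat.add (Nat.add (Nat.add (Nat.add (Nat.add (Nat.add (Nat.add (Nat.add (Nat.add (Nat.add (Nat.add C x15760) x42004) x24508) x33256) x27424) x29368) x29044) x28828) x28900) x28876) x28884) x28882) x48564) x9200)
    (Nat.sub (Nat.add (Nat.add (Nat.add (Nat.add (Nat.add (Nat.add (Nat.add (Nat.add (Nat.add (Nat.add (Nat.add C x15762) x42006) x24510) x33258) x27426) x29370) x29046) x28830) x28902) x28878) x28882) x9202)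
    (Nat.sub (Nat.add (Nat.add (Nat.add (Nat.add (Nat.add (Nat.add (Nat.add (Nat.add (Nat.add C x15770) x42014) x24518) x33266) x27434) x29378) x29054) x28874) x28894) x48574)
    (Nat.sub (Nat.sub (Nat.add (Nat.add (Nat.add (Nat.add (Nat.add (Nat.add (Nat.add (Nat.add (Nat.add (Nat.add (Nat.add C x15772) x42016) x24520) x33268) x27436) x29380) x29056) x28876) x28900) x28892) x28896) x48576) x9212)
    (Nat.sub (Nat.sub (Nat.add (Nat.add (Nat.add (Nat.add (Nat.add (Nat.add (Nat.add (Nat.add (Nat.add (Nat.add C x15774) x42018) x24522) x33270) x27438) x29382) x29058) x28878) x28902) x28894) (Nat.mul x28896 (nat_lit 2))) x9214)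
    (Nat.sub (Nat.sub (Nat.add (Nat.add (Nat.add (Nat.add (Nat.add (Nat.add (Nat.add (Nat.add (Nat.add (Nat.add (Nat.add C x28900) x15778) x42022) x24526) x33274) x27442) x29386) x29062) x28882) x28894) x28902) x48582) x9218)
    (Nat.sub (Nat.add (Nat.add (Nat.add (Nat.add (Nat.add (Nat.add (Nat.add (Nat.add (Nat.add (Nat.add (Nat.add (Nat.add C x28902) x15780) x42024) x24528) x33276) x27444) x29388) x29064) x28884) x28896) x28908) x28900) x9220)
    (Nat.sub (Nat.add (Nat.add (Nat.add (Nat.add (Nat.add (Nat.add (Nat.add (Nat.add (Nat.add C (Nat.mul x28908 (nat_lit 2))) x15786) x42030) x24534) x33282) x27450) x29394) x29070) x28902) x9226)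
    (Nat.sub (Nat.add (Nat.add (Nat.add (Nat.add (Nat.add (Nat.add (Nat.add (Nat.add (Nat.add C x15812) x42056) x24560) x33308) x27476) x29420) x28772) x28952) x28940) x48616)
    (Nat.sub (Nat.sub (Nat.add (Nat.add (Nat.add (Nat.add (Nat.add (Nat.add (Nat.add (Nat.add (Nat.add (Nat.add C x15818) x42062) x24566) x33314) x27482) x29426) x28778) x28958) x28934) x28942) (Nat.mul x28940 (nat_lit 2))) x48622)
    (Nat.sub (Nat.sub (Nat.sub (Nat.add (Nat.add (Nat.add (Nat.add (Nat.add (Nat.add (Nat.add (Nat.add (Nat.add C x15820) x42064) x24568) x33316) x27484) x29428) x28780) x28960) x28940) x28942) x48624) x9260)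
    (Nat.sub (Nat.sub (Nat.add (Nat.add (Nat.add (Nat.add (Nat.add (Nat.add (Nat.add (Nat.add (Nat.add (Nat.add C x15830) x42074) x24578) x33326) x27494) x29438) x28790) x29006) x28934) x28958) (Nat.mul x28952 (nat_lit 2))) x48634)
    (Nat.sub (Nat.sub (Nat.add (Nat.add (Nat.add (Nat.add (Nat.add (Nat.add (Nat.add (Nat.add (Nat.add (Nat.add (Nat.add (Nat.add (Nat.add C x15836) x42080) x24584) x33332) x27500) x29444) x28796) x29012) x28940) x28976) x28952) x28964) x28960) (Nat.mul x28958 (nat_lit 2))) x48640)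
    (Nat.sub (Nat.sub (Nat.sub (Nat.add (Nat.add (Nat.add (Nat.add (Nat.add (Nat.add (Nat.add (Nat.add (Nat.add (Nat.add (Nat.add (Nat.add C x15838) x42082) x24586) x33334) x27502) x29446) x28798) x29014) x28942) x28978) x28966) x28958) (Nat.mul x28960 (nat_lit 2))) x48642) x9278)
    (Nat.sub (Nat.sub (Nat.add (Nat.add (Nat.add (Nat.add (Nat.add (Nat.add (Nat.add (Nat.add (Nat.add (Nat.add (Nat.add C x15842) x42086) x24590) x33338) x27506) x29450) x28802) x29018) x28982) x28958) x28966) (Nat.mul x28964 (nat_lit 4))) x48646)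
    (Nat.sub (Nat.sub (Nat.sub (Nat.add (Nat.add (Nat.add (Nat.add (Nat.add (Nat.add (Nat.add (Nat.add (Nat.add (Nat.add (Nat.add (Nat.add C x15844) x42088) x24592) x33340) x27508) x29452) x28804) x29020) x28984) x28960) x28964) x28968) (Nat.mul x28966 (nat_lit 2))) x48648) x9284)
    (Nat.sub (Nat.sub (Nat.add (Nat.add (Nat.add (Nat.add (Nat.add (Nat.add (Nat.add (Nat.add (Nat.add (Nat.add C x15846) x42090) x24594) x33342) x27510) x29454) x28806) x29022) x28986) x28966) (Nat.mul x28968 (nat_lit 2))) x9286)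
    (Nat.sub (Nat.sub (Nat.add (Nat.add (Nat.add (Nat.add (Nat.add (Nat.add (Nat.add (Nat.add (Nat.add (Nat.add (Nat.add C x15854) x42098) x24602) x33350) x27518) x29462) x28814) x29030) x28958) x28982) x28978) (Nat.mul x28976 (nat_lit 4))) x48658)
    (Nat.sub (Nat.sub (Nat.sub (Nat.add (Nat.add (Nat.add (Nat.add (Nat.add (Nat.add (Nat.add (Nat.add (Nat.add (Nat.add (Nat.add C x15856) x42100) x24604) x33352) x27520) x29464) x28816) x29032) x28960) x28984) x28976) (Nat.mul x28978 (nat_lit 5))) x48660) x9296)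
    (Nat.sub (Nat.sub (Nat.add (Nat.add (Nat.add (Nat.add (Nat.add (Nat.add (Nat.add (Nat.add (Nat.add (Nat.add (Nat.add C x15860) x42104) x24608) x33356) x27524) x29468) x28820) x29036) x28964) x28976) x28984) (Nat.mul x28982 (nat_lit 4))) x48664)
    (Nat.sub (Nat.sub (Nat.sub (Nat.add (Nat.add (Nat.add (Nat.add (Nat.add (Nat.add (Nat.add (Nat.add (Nat.add (Nat.add (Nat.add (Nat.add (Nat.add C x15862) x42106) x24610) x33358) x27526) x29470) x28822) x29038) x28966) x28978) x28990) x28982) x28986) (Nat.mul x28984 (nat_lit 3))) x48666) x9302)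
    (Nat.sub (Nat.sub (Nat.add (Nat.add (Nat.add (Nat.add (Nat.add (Nat.add (Nat.add (Nat.add (Nat.add (Nat.add (Nat.add C x15864) x42108) x24612) x33360) x27528) x29472) x28824) x29040) x28968) x28992) x28984) (Nat.mul x28986 (nat_lit 4))) x9304)
    (Nat.sub (Nat.sub (Nat.sub (Nat.add (Nat.add (Nat.add (Nat.add (Nat.add (Nat.add (Nat.add (Nat.add (Nat.add (Nat.add C x15868) x42112) x24616) x33364) x27532) x29476) x28828) x29044) x28984) x28992) (Nat.mul x28990 (nat_lit 3))) x48672) x9308)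
    (Nat.sub (Nat.sub (Nat.add (Nat.add (Nat.add (Nat.add (Nat.add (Nat.add (Nat.add (Nat.add (Nat.add (Nat.add C x15870) x42114) x24618) x33366) x27534) x29478) x28830) x29046) x28986) x28990) (Nat.mul x28992 (nat_lit 2))) x9310)
    (Nat.sub (Nat.add (Nat.add (Nat.add (Nat.add (Nat.add (Nat.add (Nat.add (Nat.add (Nat.add C x15884) x42128) x24632) x33380) x27548) x29492) x28844) x28952) x29012) x48688)
    (Nat.sub (Nat.sub (Nat.add (Nat.add (Nat.add (Nat.add (Nat.add (Nat.add (Nat.add (Nat.add (Nat.add (Nat.add (Nat.add (Nat.add C x15890) x42134) x24638) x33386) x27554) x29498) x28850) x28958) x29030) x29006) x29018) x29014) x29012) x48694)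
    (Nat.sub (Nat.sub (Nat.sub (Nat.add (Nat.add (Nat.add (Nat.add (Nat.add (Nat.add (Nat.add (Nat.add (Nat.add (Nat.add (Nat.add C x15892) x42136) x24640) x33388) x27556) x29500) x28852) x28960) x29032) x29020) x29012) x29014) x48696) x9332)
    (Nat.sub (Nat.sub (Nat.add (Nat.add (Nat.add (Nat.add (Nat.add (Nat.add (Nat.add (Nat.add (Nat.add (Nat.add (Nat.add C x15896) x42140) x24644) x33392) x27560) x29504) x28856) x28964) x29036) x29012) x29020) (Nat.mul x29018 (nat_lit 4))) x48700)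
    (Nat.sub (Nat.sub (Nat.sub (Nat.add (Nat.add (Nat.add (Nat.add (Nat.add (Nat.add (Nat.add (Nat.add (Nat.add (Nat.add (Nat.add (Nat.add C x15898) x42142) x24646) x33394) x27562) x29506) x28858) x28966) x29038) x29014) x29018) x29022) (Nat.mul x29020 (nat_lit 2))) x48702) x9338)
    (Nat.sub (Nat.sub (Nat.add (Nat.add (Nat.add (Nat.add (Nat.add (Nat.add (Nat.add (Nat.add (Nat.add (Nat.add C x15900) x42144) x24648) x33396) x27564) x29508) x28860) x28968) x29040) x29020) (Nat.mul x29022 (nat_lit 2))) x9340)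
    (Nat.sub (Nat.sub (Nat.add (Nat.add (Nat.add (Nat.add (Nat.add (Nat.add (Nat.add (Nat.add (Nat.add (Nat.add (Nat.add (Nat.add C x15908) x42152) x24656) x33404) x27572) x29516) x28868) x28976) x29084) x29012) x29036) x29032) x29030) x48712)
    (Nat.sub (Nat.sub (Nat.sub (Nat.add (Nat.add (Nat.add (Nat.add (Nat.add (Nat.add (Nat.add (Nat.add (Nat.add (Nat.add (Nat.add (Nat.add C x15910) x42154) x24658) x33406) x27574) x29518) x28870) x28978) x29086) x29014) x29038) x29030) (Nat.mul x29032 (nat_lit 2))) x48714) x9350)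
    (Nat.sub (Nat.sub (Nat.add (Nat.add (Nat.add (Nat.add (Nat.add (Nat.add (Nat.add (Nat.add (Nat.add (Nat.add (Nat.add (Nat.add (Nat.add C x15914) x42158) x24662) x33410) x27578) x29522) x28874) x28982) x29090) x29018) x29054) x29030) x29038) (Nat.mul x29036 (nat_lit 2))) x48718)
    (Nat.sub (Nat.sub (Nat.sub (Nat.add (Nat.add (Nat.add (Nat.add (Nat.add (Nat.add (Nat.add (Nat.add (Nat.add (Nat.add (Nat.add (Nat.add (Nat.add (Nat.add (Nat.add C x15916) x42160) x24664) x33412) x27580) x29524) x28876) x28984) x29092) x29020) x29056) x29032) x29044) x29036) x29040) x29038) x48720) x9356)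
    (Nat.sub (Nat.sub (Nat.add (Nat.add (Nat.add (Nat.add (Nat.add (Nat.add (Nat.add (Nat.add (Nat.add (Nat.add (Nat.add (Nat.add (Nat.add C x15918) x42162) x24666) x33414) x27582) x29526) x28878) x28986) x29094) x29022) x29058) x29046) x29038) (Nat.mul x29040 (nat_lit 2))) x9358)
    (Nat.sub (Nat.sub (Nat.sub (Nat.add (Nat.add (Nat.add (Nat.add (Nat.add (Nat.add (Nat.add (Nat.add (Nat.add (Nat.add (Nat.add (Nat.add C x15922) x42166) x24670) x33418) x27586) x29530) x28882) x28990) x29098) x29062) x29038) x29046) (Nat.mul x29044 (nat_lit 2))) x48726) x9362)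
    (Nat.sub (Nat.sub (Nat.add (Nat.add (Nat.add (Nat.add (Nat.add (Nat.add (Nat.add (Nat.add (Nat.add (Nat.add (Nat.add (Nat.add C x15924) x42168) x24672) x33420) x27588) x29532) x28884) x28992) x29100) x29064) x29040) x29044) x29046) x9364)
    (Nat.sub (Nat.sub (Nat.add (Nat.add (Nat.add (Nat.add (Nat.add (Nat.add (Nat.add (Nat.add (Nat.add (Nat.add C x15932) x42176) x24680) x33428) x27596) x29540) x28892) x29108) x29036) x29056) (Nat.mul x29054 (nat_lit 2))) x48736)
    (Nat.sub (Nat.sub (Nat.sub (Nat.add (Nat.add (Nat.add (Nat.add (Nat.add (Nat.add (Nat.add (Nat.add (Nat.add (Nat.add (Nat.add (Nat.add C x15934) x42178) x24682) x33430) x27598) x29542) x28894) x29110) x29038) x29062) x29054) x29058) (Nat.mul x29056 (nat_lit 2))) x48738) x9374)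
    (Nat.sub (Nat.sub (Nat.add (Nat.add (Nat.add (Nat.add (Nat.add (Nat.add (Nat.add (Nat.add (Nat.add (Nat.add (Nat.add C x15936) x42180) x24684) x33432) x27600) x29544) x28896) x29112) x29040) x29064) x29056) (Nat.mul x29058 (nat_lit 4))) x9376)
    (Nat.sub (Nat.sub (Nat.sub (Nat.add (Nat.add (Nat.add (Nat.add (Nat.add (Nat.add (Nat.add (Nat.add (Nat.add (Nat.add (Nat.add C x15940) x42184) x24688) x33436) x27604) x29548) x28900) x29116) x29044) x29056) x29064) x29062) x48744) x9380)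
    (Nat.sub (Nat.sub (Nat.add (Nat.add (Nat.add (Nat.add (Nat.add (Nat.add (Nat.add (Nat.add (Nat.add (Nat.add (Nat.add (Nat.add C x15942) x42186) x24690) x33438) x27606) x29550) x28902) x29118) x29046) x29058) x29070) x29062) x29064) x9382)
    (Nat.sub (Nat.add (Nat.add (Nat.add (Nat.add (Nat.add (Nat.add (Nat.add (Nat.add (Nat.add C x15948) x42192) x24696) x33444) x27612) x29556) x28908) x29124) x29064) x9388)
    (Nat.sub (Nat.add (Nat.add (Nat.add (Nat.add (Nat.add (Nat.add (Nat.add (Nat.add (Nat.add C x15962) x42206) x24710) x33458) x27626) x29570) x29030) x29090) x29086) x48766)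
    (Nat.sub (Nat.sub (Nat.sub (Nat.add (Nat.add (Nat.add (Nat.add (Nat.add (Nat.add (Nat.add (Nat.add (Nat.add C x15964) x42208) x24712) x33460) x27628) x29572) x29032) x29092) x29084) x29086) x48768) x9404)
    (Nat.sub (Nat.sub (Nat.add (Nat.add (Nat.add (Nat.add (Nat.add (Nat.add (Nat.add (Nat.add (Nat.add (Nat.add C x15968) x42212) x24716) x33464) x27632) x29576) x29036) x29108) x29084) x29092) (Nat.mul x29090 (nat_lit 2))) x48772)
    (Nat.sub (Nat.sub (Nat.sub (Nat.add (Nat.add (Nat.add (Nat.add (Nat.add (Nat.add (Nat.add (Nat.add (Nat.add (Nat.add (Nat.add (Nat.add C x15970) x42214) x24718) x33466) x27634) x29578) x29038) x29110) x29086) x29098) x29090) x29094) x29092) x48774) x9410)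
    (Nat.sub (Nat.sub (Nat.add (Nat.add (Nat.add (Nat.add (Nat.add (Nat.add (Nat.add (Nat.add (Nat.add (Nat.add C x15972) x42216) x24720) x33468) x27636) x29580) x29040) x29112) x29100) x29092) (Nat.mul x29094 (nat_lit 2))) x9412)
    (Nat.sub (Nat.sub (Nat.sub (Nat.add (Nat.add (Nat.add (Nat.add (Nat.add (Nat.add (Nat.add (Nat.add (Nat.add (Nat.add C x15976) x42220) x24724) x33472) x27640) x29584) x29044) x29116) x29092) x29100) (Nat.mul x29098 (nat_lit 3))) x48780) x9416)
    (Nat.sub (Nat.sub (Nat.add (Nat.add (Nat.add (Nat.add (Nat.add (Nat.add (Nat.add (Nat.add (Nat.add (Nat.add C x15978) x42222) x24726) x33474) x27642) x29586) x29046) x29118) x29094) x29098) (Nat.mul x29100 (nat_lit 2))) x9418)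
    (Nat.sub (Nat.add (Nat.add (Nat.add (Nat.add (Nat.add (Nat.add (Nat.add (Nat.add (Nat.add C x15986) x42230) x24734) x33482) x27650) x29594) x29054) x29090) x29110) x48790)
    (Nat.sub (Nat.sub (Nat.add (Nat.add (Nat.add (Nat.add (Nat.add (Nat.add (Nat.add (Nat.add (Nat.add (Nat.add (Nat.add C x15988) x42232) x24736) x33484) x27652) x29596) x29056) x29092) x29116) x29108) x29112) x48792) x9428)
    (Nat.sub (Nat.sub (Nat.add (Nat.add (Nat.add (Nat.add (Nat.add (Nat.add (Nat.add (Nat.add (Nat.add (Nat.add C x15990) x42234) x24738) x33486) x27654) x29598) x29058) x29094) x29118) x29110) (Nat.mul x29112 (nat_lit 2))) x9430)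
    (Nat.sub (Nat.sub (Nat.add (Nat.add (Nat.add (Nat.add (Nat.add (Nat.add (Nat.add (Nat.add (Nat.add (Nat.add (Nat.add C x15994) x42238) x24742) x33490) x27658) x29602) x29062) x29098) x29134) x29110) x29118) x48798) x9434)
    (Nat.sub (Nat.add (Nat.add (Nat.add (Nat.add (Nat.add (Nat.add (Nat.add (Nat.add (Nat.add (Nat.add (Nat.add (Nat.add C x15996) x42240) x24744) x33492) x27660) x29604) x29064) x29100) x29136) x29112) x29124) x29116) x9436)
    (Nat.sub (Nat.add (Nat.add (Nat.add (Nat.add (Nat.add (Nat.add (Nat.add (Nat.add (Nat.add C x16002) x42246) x24750) x33498) x27666) x29610) x29070) x29142) x29118) x9442)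
    (Nat.sub (Nat.sub (Nat.add (Nat.add (Nat.add (Nat.add (Nat.add (Nat.add (Nat.add (Nat.add (Nat.add C x29134) x16012) x42256) x24760) x33508) x27676) x29620) x29116) x29136) x48816) x9452)
    (Nat.sub (Nat.add (Nat.add (Nat.add (Nat.add (Nat.add (Nat.add (Nat.add (Nat.add (Nat.add C x16014) x42258) x24762) x33510) x27678) x29622) x29118) x29142) x29134) x9454)
    (Nat.sub (Nat.add (Nat.add (Nat.add (Nat.add (Nat.add (Nat.add (Nat.add (Nat.add (Nat.add C (Nat.mul x29142 (nat_lit 2))) x16020) x42264) x24768) x33516) x27684) x29628) x29124) x29136) x9460)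
    (Nat.sub (Nat.add (Nat.add (Nat.add (Nat.add (Nat.add (Nat.add (Nat.add (Nat.add (Nat.add C (Nat.mul x29186 (nat_lit 3))) x16064) x42308) x24812) x33560) x27728) x30644) x28700) x29204) x48868)
    (Nat.sub (Nat.add (Nat.add (Nat.add (Nat.add (Nat.add (Nat.add (Nat.add (Nat.add (Nat.add (Nat.add (Nat.add (Nat.add C (Nat.mul x29204 (nat_lit 2))) x16082) x42326) x24830) x33578) x27746) x30662) x28718) x29258) x29186) x29222) x29210) x48886)
    (Nat.sub (Nat.add (Nat.add (Nat.add (Nat.add (Nat.add (Nat.add (Nat.add (Nat.add (Nat.add (Nat.add (Nat.add (Nat.add C x29210) x16088) x42332) x24836) x33584) x27752) x30668) x28724) x29264) x29228) x29204) x29212) x48892)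
    (Nat.sub (Nat.sub (Nat.add (Nat.add (Nat.add (Nat.add (Nat.add (Nat.add (Nat.add (Nat.add (Nat.add (Nat.add (Nat.add C (Nat.mul x29212 (nat_lit 2))) x16090) x42334) x24838) x33586) x27754) x30670) x28726) x29266) x29230) x29210) x48894) x9530)
    (Nat.sub (Nat.sub (Nat.add (Nat.add (Nat.add (Nat.add (Nat.add (Nat.add (Nat.add (Nat.add (Nat.add (Nat.add C x16100) x42344) x24848) x33596) x27764) x30680) x28736) x29276) x29204) x29228) x29222) x48904)
    (Nat.sub (Nat.add (Nat.add (Nat.add (Nat.add (Nat.add (Nat.add (Nat.add (Nat.add (Nat.add (Nat.add (Nat.add (Nat.add C x16106) x42350) x24854) x33602) x27770) x30686) x28742) x29282) x29210) x29222) x29234) x29230) x48910)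
    (Nat.sub (Nat.sub (Nat.add (Nat.add (Nat.add (Nat.add (Nat.add (Nat.add (Nat.add (Nat.add (Nat.add (Nat.add (Nat.add C x16108) x42352) x24856) x33604) x27772) x30688) x28744) x29284) x29212) x29236) x29228) x48912) x9548)
    (Nat.sub (Nat.sub (Nat.add (Nat.add (Nat.add (Nat.add (Nat.add (Nat.add (Nat.add (Nat.add (Nat.add (Nat.add C x16112) x42356) x24860) x33608) x27776) x30692) x28748) x29288) x29228) x29236) x29234) x48916)
    (Nat.sub (Nat.sub (Nat.add (Nat.add (Nat.add (Nat.add (Nat.add (Nat.add (Nat.add (Nat.add (Nat.add (Nat.add (Nat.add (Nat.add C x29236) x16114) x42358) x24862) x33610) x27778) x30694) x28750) x29290) x29230) x29234) x29238) x48918) x9554)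
    (Nat.sub (Nat.add (Nat.add (Nat.add (Nat.add (Nat.add (Nat.add (Nat.add (Nat.add (Nat.add (Nat.add C x29238) x16116) x42360) x24864) x33612) x27780) x30696) x28752) x29292) x29236) x9556)
    (Nat.sub (Nat.add (Nat.add (Nat.add (Nat.add (Nat.add (Nat.add (Nat.add (Nat.add (Nat.add (Nat.add (Nat.add (Nat.add C x29258) x16136) x42380) x24884) x33632) x27800) x30716) x28772) x29420) x29204) x29276) x29264) x48940)
    (Nat.sub (Nat.sub (Nat.add (Nat.add (Nat.add (Nat.add (Nat.add (Nat.add (Nat.add (Nat.add (Nat.add (Nat.add (Nat.add (Nat.add C x16142) x42386) x24890) x33638) x27806) x30722) x28778) x29426) x29210) x29282) x29258) x29266) x29264) x48946)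
    (Nat.sub (Nat.sub (Nat.add (Nat.add (Nat.add (Nat.add (Nat.add (Nat.add (Nat.add (Nat.add (Nat.add (Nat.add (Nat.add C x16144) x42388) x24892) x33640) x27808) x30724) x28780) x29428) x29212) x29284) x29264) x48948) x9584)
    (Nat.sub (Nat.add (Nat.add (Nat.add (Nat.add (Nat.add (Nat.add (Nat.add (Nat.add (Nat.add (Nat.add (Nat.add (Nat.add C x16154) x42398) x24902) x33650) x27818) x30734) x28790) x29438) x29222) x29330) x29258) x29282) x48958)
    (Nat.sub (Nat.add (Nat.add (Nat.add (Nat.add (Nat.add (Nat.add (Nat.add (Nat.add (Nat.add (Nat.add (Nat.add (Nat.add (Nat.add (Nat.add (Nat.add C x16160) x42404) x24908) x33656) x27824) x30740) x28796) x29444) x29228) x29336) x29264) x29300) x29276) x29288) x29284) x48964)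
    (Nat.sub (Nat.sub (Nat.add (Nat.add (Nat.add (Nat.add (Nat.add (Nat.add (Nat.add (Nat.add (Nat.add (Nat.add (Nat.add (Nat.add (Nat.add (Nat.add C x16162) x42406) x24910) x33658) x27826) x30742) x28798) x29446) x29230) x29338) x29266) x29302) x29290) x29282) x48966) x9602)
    (Nat.sub (Nat.sub (Nat.add (Nat.add (Nat.add (Nat.add (Nat.add (Nat.add (Nat.add (Nat.add (Nat.add (Nat.add (Nat.add (Nat.add (Nat.add C x16166) x42410) x24914) x33662) x27830) x30746) x28802) x29450) x29234) x29342) x29306) x29282) x29290) (Nat.mul x29288 (nat_lit 2))) x48970)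
    (Nat.sub (Nat.sub (Nat.add (Nat.add (Nat.add (Nat.add (Nat.add (Nat.add (Nat.add (Nat.add (Nat.add (Nat.add (Nat.add (Nat.add (Nat.add (Nat.add C x16168) x42412) x24916) x33664) x27832) x30748) x28804) x29452) x29236) x29344) x29308) x29284) x29288) x29292) x48972) x9608)
    (Nat.sub (Nat.add (Nat.add (Nat.add (Nat.add (Nat.add (Nat.add (Nat.add (Nat.add (Nat.add (Nat.add (Nat.add (Nat.add C x16170) x42414) x24918) x33666) x27834) x30750) x28806) x29454) x29238) x29346) x29310) x29290) x9610)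
    (Nat.sub (Nat.sub (Nat.add (Nat.add (Nat.add (Nat.add (Nat.add (Nat.add (Nat.add (Nat.add (Nat.add (Nat.add (Nat.add (Nat.add C x16178) x42422) x24926) x33674) x27842) x30758) x28814) x29462) x29354) x29282) x29306) x29302) x29300) x48982)
    (Nat.sub (Nat.sub (Nat.sub (Nat.add (Nat.add (Nat.add (Nat.add (Nat.add (Nat.add (Nat.add (Nat.add (Nat.add (Nat.add (Nat.add (Nat.add C x16180) x42424) x24928) x33676) x27844) x30760) x28816) x29464) x29356) x29284) x29308) x29300) (Nat.mul x29302 (nat_lit 2))) x48984) x9620)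
    (Nat.sub (Nat.sub (Nat.add (Nat.add (Nat.add (Nat.add (Nat.add (Nat.add (Nat.add (Nat.add (Nat.add (Nat.add (Nat.add (Nat.add C x16184) x42428) x24932) x33680) x27848) x30764) x28820) x29468) x29360) x29288) x29300) x29308) x29306) x48988)
    (Nat.sub (Nat.sub (Nat.add (Nat.add (Nat.add (Nat.add (Nat.add (Nat.add (Nat.add (Nat.add (Nat.add (Nat.add (Nat.add (Nat.add (Nat.add (Nat.add C x16186) x42430) x24934) x33682) x27850) x30766) x28822) x29470) x29362) x29290) x29302) x29314) x29306) x29310) x48990) x9626)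
    (Nat.sub (Nat.sub (Nat.add (Nat.add (Nat.add (Nat.add (Nat.add (Nat.add (Nat.add (Nat.add (Nat.add (Nat.add (Nat.add (Nat.add C x16188) x42432) x24936) x33684) x27852) x30768) x28824) x29472) x29364) x29292) x29316) x29308) x29310) x9628)
    (Nat.sub (Nat.sub (Nat.add (Nat.add (Nat.add (Nat.add (Nat.add (Nat.add (Nat.add (Nat.add (Nat.add (Nat.add (Nat.add C x16192) x42436) x24940) x33688) x27856) x30772) x28828) x29476) x29368) x29308) x29316) x48996) x9632)
    (Nat.sub (Nat.add (Nat.add (Nat.add (Nat.add (Nat.add (Nat.add (Nat.add (Nat.add (Nat.add (Nat.add (Nat.add (Nat.add C x29316) x16194) x42438) x24942) x33690) x27858) x30774) x28830) x29478) x29370) x29310) x29314) x9634)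
    (Nat.sub (Nat.sub (Nat.add (Nat.add (Nat.add (Nat.add (Nat.add (Nat.add (Nat.add (Nat.add (Nat.add (Nat.add C x16208) x42452) x24956) x33704) x27872) x30788) x28844) x29492) x29276) x29336) x29330) x49012)
    (Nat.sub (Nat.sub (Nat.add (Nat.add (Nat.add (Nat.add (Nat.add (Nat.add (Nat.add (Nat.add (Nat.add (Nat.add (Nat.add (Nat.add (Nat.add C x16214) x42458) x24962) x33710) x27878) x30794) x28850) x29498) x29282) x29354) x29330) x29342) x29338) (Nat.mul x29336 (nat_lit 2))) x49018)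
    (Nat.sub (Nat.sub (Nat.sub (Nat.add (Nat.add (Nat.add (Nat.add (Nat.add (Nat.add (Nat.add (Nat.add (Nat.add (Nat.add (Nat.add (Nat.add C x16216) x42460) x24964) x33712) x27880) x30796) x28852) x29500) x29284) x29356) x29344) x29336) (Nat.mul x29338 (nat_lit 2))) x49020) x9656)
    (Nat.sub (Nat.sub (Nat.add (Nat.add (Nat.add (Nat.add (Nat.add (Nat.add (Nat.add (Nat.add (Nat.add (Nat.add (Nat.add (Nat.add C x16220) x42464) x24968) x33716) x27884) x30800) x28856) x29504) x29288) x29360) x29336) x29344) (Nat.mul x29342 (nat_lit 5))) x49024)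
    (Nat.sub (Nat.sub (Nat.sub (Nat.add (Nat.add (Nat.add (Nat.add (Nat.add (Nat.add (Nat.add (Nat.add (Nat.add (Nat.add (Nat.add (Nat.add (Nat.add C x16222) x42466) x24970) x33718) x27886) x30802) x28858) x29506) x29290) x29362) x29338) x29342) x29346) (Nat.mul x29344 (nat_lit 3))) x49026) x9662)
    (Nat.sub (Nat.sub (Nat.add (Nat.add (Nat.add (Nat.add (Nat.add (Nat.add (Nat.add (Nat.add (Nat.add (Nat.add (Nat.add C x16224) x42468) x24972) x33720) x27888) x30804) x28860) x29508) x29292) x29364) x29344) (Nat.mul x29346 (nat_lit 3))) x9664)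
    (Nat.sub (Nat.sub (Nat.add (Nat.add (Nat.add (Nat.add (Nat.add (Nat.add (Nat.add (Nat.add (Nat.add (Nat.add (Nat.add (Nat.add C x16232) x42476) x24980) x33728) x27896) x30812) x28868) x29516) x29300) x29336) x29360) x29356) x29354) x49036)
    (Nat.sub (Nat.sub (Nat.sub (Nat.add (Nat.add (Nat.add (Nat.add (Nat.add (Nat.add (Nat.add (Nat.add (Nat.add (Nat.add (Nat.add (Nat.add C x16234) x42478) x24982) x33730) x27898) x30814) x28870) x29518) x29302) x29338) x29362) x29354) (Nat.mul x29356 (nat_lit 2))) x49038) x9674)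
    (Nat.sub (Nat.sub (Nat.add (Nat.add (Nat.add (Nat.add (Nat.add (Nat.add (Nat.add (Nat.add (Nat.add (Nat.add (Nat.add (Nat.add (Nat.add C x16238) x42482) x24986) x33734) x27902) x30818) x28874) x29522) x29306) x29342) x29378) x29354) x29362) (Nat.mul x29360 (nat_lit 2))) x49042)
    (Nat.sub (Nat.sub (Nat.sub (Nat.add (Nat.add (Nat.add (Nat.add (Nat.add (Nat.add (Nat.add (Nat.add (Nat.add (Nat.add (Nat.add (Nat.add (Nat.add (Nat.add (Nat.add C x16240) x42484) x24988) x33736) x27904) x30820) x28876) x29524) x29308) x29344) x29380) x29356) x29368) x29360) x29364) x29362) x49044) x9680)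
    (Nat.sub (Nat.sub (Nat.add (Nat.add (Nat.add (Nat.add (Nat.add (Nat.add (Nat.add (Nat.add (Nat.add (Nat.add (Nat.add (Nat.add (Nat.add C x16242) x42486) x24990) x33738) x27906) x30822) x28878) x29526) x29310) x29346) x29382) x29370) x29362) (Nat.mul x29364 (nat_lit 2))) x9682)
    (Nat.sub (Nat.sub (Nat.sub (Nat.add (Nat.add (Nat.add (Nat.add (Nat.add (Nat.add (Nat.add (Nat.add (Nat.add (Nat.add (Nat.add (Nat.add C x16246) x42490) x24994) x33742) x27910) x30826) x28882) x29530) x29314) x29386) x29362) x29370) (Nat.mul x29368 (nat_lit 2))) x49050) x9686)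
    (Nat.sub (Nat.sub (Nat.add (Nat.add (Nat.add (Nat.add (Nat.add (Nat.add (Nat.add (Nat.add (Nat.add (Nat.add (Nat.add (Nat.add C x16248) x42492) x24996) x33744) x27912) x30828) x28884) x29532) x29316) x29388) x29364) x29368) x29370) x9688)
    (Nat.sub (Nat.sub (Nat.add (Nat.add (Nat.add (Nat.add (Nat.add (Nat.add (Nat.add (Nat.add (Nat.add (Nat.add C x16256) x42500) x25004) x33752) x27920) x30836) x28892) x29540) x29360) x29380) x29378) x49060)
    (Nat.sub (Nat.sub (Nat.sub (Nat.add (Nat.add (Nat.add (Nat.add (Nat.add (Nat.add (Nat.add (Nat.add (Nat.add (Nat.add (Nat.add (Nat.add C x16258) x42502) x25006) x33754) x27922) x30838) x28894) x29542) x29362) x29386) x29378) x29382) x29380) x49062) x9698)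
    (Nat.sub (Nat.sub (Nat.add (Nat.add (Nat.add (Nat.add (Nat.add (Nat.add (Nat.add (Nat.add (Nat.add (Nat.add (Nat.add C x16260) x42504) x25008) x33756) x27924) x30840) x28896) x29544) x29364) x29388) x29380) (Nat.mul x29382 (nat_lit 3))) x9700)
    (Nat.sub (Nat.sub (Nat.add (Nat.add (Nat.add (Nat.add (Nat.add (Nat.add (Nat.add (Nat.add (Nat.add (Nat.add (Nat.add C x16264) x42508) x25012) x33760) x27928) x30844) x28900) x29548) x29368) x29380) x29388) x49068) x9704)
    (Nat.sub (Nat.add (Nat.add (Nat.add (Nat.add (Nat.add (Nat.add (Nat.add (Nat.add (Nat.add (Nat.add (Nat.add (Nat.add C x16266) x42510) x25014) x33762) x27930) x30846) x28902) x29550) x29370) x29382) x29394) x29386) x9706)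
    (Nat.sub (Nat.add (Nat.add (Nat.add (Nat.add (Nat.add (Nat.add (Nat.add (Nat.add (Nat.add (Nat.add C x29394) x16272) x42516) x25020) x33768) x27936) x30852) x28908) x29556) x29388) x9712)
    (Nat.sub (Nat.add (Nat.add (Nat.add (Nat.add (Nat.add (Nat.add (Nat.add (Nat.add (Nat.add (Nat.add (Nat.add (Nat.add C (Nat.mul x29420 (nat_lit 2))) x16298) x42542) x25046) x33794) x27962) x30878) x28934) x29906) x29258) x29438) x29426) x49102)
    (Nat.sub (Nat.add (Nat.add (Nat.add (Nat.add (Nat.add (Nat.add (Nat.add (Nat.add (Nat.add (Nat.add (Nat.add (Nat.add C x16304) x42548) x25052) x33800) x27968) x30884) x28940) x29912) x29264) x29444) x29420) x29428) x49108)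
    (Nat.sub (Nat.sub (Nat.add (Nat.add (Nat.add (Nat.add (Nat.add (Nat.add (Nat.add (Nat.add (Nat.add (Nat.add (Nat.add (Nat.add C x29428) x16306) x42550) x25054) x33802) x27970) x30886) x28942) x29914) x29266) x29446) x29426) x49110) x9746)
    (Nat.sub (Nat.add (Nat.add (Nat.add (Nat.add (Nat.add (Nat.add (Nat.add (Nat.add (Nat.add (Nat.add (Nat.add (Nat.add C x16316) x42560) x25064) x33812) x27980) x30896) x28952) x29924) x29276) x29492) x29420) x29444) x49120)
    (Nat.sub (Nat.add (Nat.add (Nat.add (Nat.add (Nat.add (Nat.add (Nat.add (Nat.add (Nat.add (Nat.add (Nat.add (Nat.add (Nat.add (Nat.add (Nat.add C x16322) x42566) x25070) x33818) x27986) x30902) x28958) x29930) x29282) x29498) x29426) x29462) x29438) x29450) x29446) x49126)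
    (Nat.sub (Nat.sub (Nat.add (Nat.add (Nat.add (Nat.add (Nat.add (Nat.add (Nat.add (Nat.add (Nat.add (Nat.add (Nat.add (Nat.add (Nat.add (Nat.add C x16324) x42568) x25072) x33820) x27988) x30904) x28960) x29932) x29284) x29500) x29428) x29464) x29452) x29444) x49128) x9764)
    (Nat.sub (Nat.sub (Nat.add (Nat.add (Nat.add (Nat.add (Nat.add (Nat.add (Nat.add (Nat.add (Nat.add (Nat.add (Nat.add (Nat.add (Nat.add C x16328) x42572) x25076) x33824) x27992) x30908) x28964) x29936) x29288) x29504) x29468) x29444) x29452) (Nat.mul x29450 (nat_lit 2))) x49132)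
    (Nat.sub (Nat.sub (Nat.add (Nat.add (Nat.add (Nat.add (Nat.add (Nat.add (Nat.add (Nat.add (Nat.add (Nat.add (Nat.add (Nat.add (Nat.add (Nat.add C x16330) x42574) x25078) x33826) x27994) x30910) x28966) x29938) x29290) x29506) x29470) x29446) x29450) x29454) x49134) x9770)
    (Nat.sub (Nat.add (Nat.add (Nat.add (Nat.add (Nat.add (Nat.add (Nat.add (Nat.add (Nat.add (Nat.add (Nat.add (Nat.add C x16332) x42576) x25080) x33828) x27996) x30912) x28968) x29940) x29292) x29508) x29472) x29452) x9772)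
    (Nat.sub (Nat.sub (Nat.add (Nat.add (Nat.add (Nat.add (Nat.add (Nat.add (Nat.add (Nat.add (Nat.add (Nat.add (Nat.add (Nat.add (Nat.add C x16340) x42584) x25088) x33836) x28004) x30920) x28976) x29948) x29300) x29516) x29444) x29468) x29464) (Nat.mul x29462 (nat_lit 2))) x49144)
    (Nat.sub (Nat.sub (Nat.sub (Nat.add (Nat.add (Nat.add (Nat.add (Nat.add (Nat.add (Nat.add (Nat.add (Nat.add (Nat.add (Nat.add (Nat.add (Nat.add C x16342) x42586) x25090) x33838) x28006) x30922) x28978) x29950) x29302) x29518) x29446) x29470) x29462) (Nat.mul x29464 (nat_lit 3))) x49146) x9782)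
    (Nat.sub (Nat.sub (Nat.add (Nat.add (Nat.add (Nat.add (Nat.add (Nat.add (Nat.add (Nat.add (Nat.add (Nat.add (Nat.add (Nat.add (Nat.add C x16346) x42590) x25094) x33842) x28010) x30926) x28982) x29954) x29306) x29522) x29450) x29462) x29470) (Nat.mul x29468 (nat_lit 2))) x49150)
    (Nat.sub (Nat.sub (Nat.sub (Nat.add (Nat.add (Nat.add (Nat.add (Nat.add (Nat.add (Nat.add (Nat.add (Nat.add (Nat.add (Nat.add (Nat.add (Nat.add (Nat.add (Nat.add C x16348) x42592) x25096) x33844) x28012) x30928) x28984) x29956) x29308) x29524) x29452) x29464) x29476) x29468) x29472) x29470) x49152) x9788)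
    (Nat.sub (Nat.sub (Nat.add (Nat.add (Nat.add (Nat.add (Nat.add (Nat.add (Nat.add (Nat.add (Nat.add (Nat.add (Nat.add (Nat.add (Nat.add C x16350) x42594) x25098) x33846) x28014) x30930) x28986) x29958) x29310) x29526) x29454) x29478) x29470) (Nat.mul x29472 (nat_lit 2))) x9790)
    (Nat.sub (Nat.sub (Nat.sub (Nat.add (Nat.add (Nat.add (Nat.add (Nat.add (Nat.add (Nat.add (Nat.add (Nat.add (Nat.add (Nat.add (Nat.add C x16354) x42598) x25102) x33850) x28018) x30934) x28990) x29962) x29314) x29530) x29470) x29478) x29476) x49158) x9794)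
    (Nat.sub (Nat.add (Nat.add (Nat.add (Nat.add (Nat.add (Nat.add (Nat.add (Nat.add (Nat.add (Nat.add (Nat.add (Nat.add C x16356) x42600) x25104) x33852) x28020) x30936) x28992) x29964) x29316) x29532) x29472) x29476) x9796)
    (Nat.sub (Nat.add (Nat.add (Nat.add (Nat.add (Nat.add (Nat.add (Nat.add (Nat.add (Nat.add (Nat.add (Nat.add (Nat.add (Nat.add C x29492) x16370) x42614) x25118) x33866) x28034) x30950) x29006) x29978) x29330) x29654) x29438) x29498) x49174)
    (Nat.sub (Nat.add (Nat.add (Nat.add (Nat.add (Nat.add (Nat.add (Nat.add (Nat.add (Nat.add (Nat.add (Nat.add (Nat.add (Nat.add (Nat.add (Nat.add C x16376) x42620) x25124) x33872) x28040) x30956) x29012) x29984) x29336) x29660) x29444) x29516) x29492) x29504) x29500) x49180)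
    (Nat.sub (Nat.sub (Nat.add (Nat.add (Nat.add (Nat.add (Nat.add (Nat.add (Nat.add (Nat.add (Nat.add (Nat.add (Nat.add (Nat.add (Nat.add (Nat.add C x16378) x42622) x25126) x33874) x28042) x30958) x29014) x29986) x29338) x29662) x29446) x29518) x29506) x29498) x49182) x9818)
    (Nat.sub (Nat.sub (Nat.add (Nat.add (Nat.add (Nat.add (Nat.add (Nat.add (Nat.add (Nat.add (Nat.add (Nat.add (Nat.add (Nat.add (Nat.add (Nat.add C x16382) x42626) x25130) x33878) x28046) x30962) x29018) x29990) x29342) x29666) x29450) x29522) x29498) x29506) (Nat.mul x29504 (nat_lit 3))) x49186)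
    (Nat.sub (Nat.sub (Nat.sub (Nat.add (Nat.add (Nat.add (Nat.add (Nat.add (Nat.add (Nat.add (Nat.add (Nat.add (Nat.add (Nat.add (Nat.add (Nat.add (Nat.add (Nat.add C x16384) x42628) x25132) x33880) x28048) x30964) x29020) x29992) x29344) x29668) x29452) x29524) x29500) x29504) x29508) x29506) x49188) x9824)
    (Nat.sub (Nat.sub (Nat.add (Nat.add (Nat.add (Nat.add (Nat.add (Nat.add (Nat.add (Nat.add (Nat.add (Nat.add (Nat.add (Nat.add (Nat.add C x16386) x42630) x25134) x33882) x28050) x30966) x29022) x29994) x29346) x29670) x29454) x29526) x29506) x29508) x9826)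
    (Nat.sub (Nat.add (Nat.add (Nat.add (Nat.add (Nat.add (Nat.add (Nat.add (Nat.add (Nat.add (Nat.add (Nat.add (Nat.add (Nat.add (Nat.add (Nat.add C x16394) x42638) x25142) x33890) x28058) x30974) x29030) x30002) x29354) x29678) x29462) x29570) x29498) x29522) x29518) x49198)
    (Nat.sub (Nat.sub (Nat.sub (Nat.add (Nat.add (Nat.add (Nat.add (Nat.add (Nat.add (Nat.add (Nat.add (Nat.add (Nat.add (Nat.add (Nat.add (Nat.add (Nat.add (Nat.add C x16396) x42640) x25144) x33892) x28060) x30976) x29032) x30004) x29356) x29680) x29464) x29572) x29500) x29524) x29516) x29518) x49200) x9836)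
    (Nat.sub (Nat.sub (Nat.add (Nat.add (Nat.add (Nat.add (Nat.add (Nat.add (Nat.add (Nat.add (Nat.add (Nat.add (Nat.add (Nat.add (Nat.add (Nat.add (Nat.add (Nat.add C x16400) x42644) x25148) x33896) x28064) x30980) x29036) x30008) x29360) x29684) x29468) x29576) x29504) x29540) x29516) x29524) x29522) x49204)
    (Nat.sub (Nat.sub (Nat.sub (Nat.add (Nat.add (Nat.add (Nat.add (Nat.add (Nat.add (Nat.add (Nat.add (Nat.add (Nat.add (Nat.add (Nat.add (Nat.add (Nat.add (Nat.add (Nat.add (Nat.add (Nat.add (Nat.add C x16402) x42646) x25150) x33898) x28066) x30982) x29038) x30010) x29362) x29686) x29470) x29578) x29506) x29542) x29518) x29530) x29522) x29526) (Nat.mul (e (nat_lit 29524)) ap)) x49206) x9842) (Nat.mul (e (nat_lit 29524)) an))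
    (Nat.sub (Nat.sub (Nat.add (Nat.add (Nat.add (Nat.add (Nat.add (Nat.add (Nat.add (Nat.add (Nat.add (Nat.add (Nat.add (Nat.add (Nat.add (Nat.add (Nat.add (Nat.add C x16404) x42648) x25152) x33900) x28068) x30984) x29040) x30012) x29364) x29688) x29472) x29580) x29508) x29544) x29532) x29524) x29526) x9844)
    (Nat.sub (Nat.sub (Nat.sub (Nat.add (Nat.add (Nat.add (Nat.add (Nat.add (Nat.add (Nat.add (Nat.add (Nat.add (Nat.add (Nat.add (Nat.add (Nat.add (Nat.add (Nat.add C x16408) x42652) x25156) x33904) x28072) x30988) x29044) x30016) x29368) x29692) x29476) x29584) x29548) x29524) x29532) x29530) x49212) x9848)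
    (Nat.sub (Nat.add (Nat.add (Nat.add (Nat.add (Nat.add (Nat.add (Nat.add (Nat.add (Nat.add (Nat.add (Nat.add (Nat.add (Nat.add (Nat.add (Nat.add C x16410) x42654) x25158) x33906) x28074) x30990) x29046) x30018) x29370) x29694) x29478) x29586) x29550) x29526) x29530) x9850)
    (Nat.sub (Nat.sub (Nat.add (Nat.add (Nat.add (Nat.add (Nat.add (Nat.add (Nat.add (Nat.add (Nat.add (Nat.add (Nat.add (Nat.add (Nat.add C x16418) x42662) x25166) x33914) x28082) x30998) x29054) x30026) x29378) x29702) x29594) x29522) x29542) x29540) x49222)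
    (Nat.sub (Nat.sub (Nat.sub (Nat.add (Nat.add (Nat.add (Nat.add (Nat.add (Nat.add (Nat.add (Nat.add (Nat.add (Nat.add (Nat.add (Nat.add (Nat.add (Nat.add (Nat.add C x16420) x42664) x25168) x33916) x28084) x31000) x29056) x30028) x29380) x29704) x29596) x29524) x29548) x29540) x29544) x29542) x49224) x9860)
    (Nat.sub (Nat.sub (Nat.add (Nat.add (Nat.add (Nat.add (Nat.add (Nat.add (Nat.add (Nat.add (Nat.add (Nat.add (Nat.add (Nat.add (Nat.add (Nat.add C x16422) x42666) x25170) x33918) x28086) x31002) x29058) x30030) x29382) x29706) x29598) x29526) x29550) x29542) (Nat.mul x29544 (nat_lit 3))) x9862)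
    (Nat.sub (Nat.sub (Nat.add (Nat.add (Nat.add (Nat.add (Nat.add (Nat.add (Nat.add (Nat.add (Nat.add (Nat.add (Nat.add (Nat.add (Nat.add (Nat.add C x16426) x42670) x25174) x33922) x28090) x31006) x29062) x30034) x29386) x29710) x29602) x29530) x29542) x29550) x49230) x9866)
    (Nat.sub (Nat.add (Nat.add (Nat.add (Nat.add (Nat.add (Nat.add (Nat.add (Nat.add (Nat.add (Nat.add (Nat.add (Nat.add (Nat.add (Nat.add (Nat.add C x16428) x42672) x25176) x33924) x28092) x31008) x29064) x30036) x29388) x29712) x29604) x29532) x29544) x29556) x29548) x9868)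
    (Nat.sub (Nat.add (Nat.add (Nat.add (Nat.add (Nat.add (Nat.add (Nat.add (Nat.add (Nat.add (Nat.add (Nat.add (Nat.add (Nat.add C x29556) x16434) x42678) x25182) x33930) x28098) x31014) x29070) x30042) x29394) x29718) x29610) x29550) x9874)
    (Nat.sub (Nat.add (Nat.add (Nat.add (Nat.add (Nat.add (Nat.add (Nat.add (Nat.add (Nat.add (Nat.add (Nat.add (Nat.add C x16448) x42692) x25196) x33944) x28112) x31028) x29084) x30056) x29732) x29516) x29576) x29572) x49252)
    (Nat.sub (Nat.sub (Nat.sub (Nat.add (Nat.add (Nat.add (Nat.add (Nat.add (Nat.add (Nat.add (Nat.add (Nat.add (Nat.add (Nat.add (Nat.add C x16450) x42694) x25198) x33946) x28114) x31030) x29086) x30058) x29734) x29518) x29578) x29570) x29572) x49254) x9890)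
    (Nat.sub (Nat.sub (Nat.add (Nat.add (Nat.add (Nat.add (Nat.add (Nat.add (Nat.add (Nat.add (Nat.add (Nat.add (Nat.add (Nat.add (Nat.add C x16454) x42698) x25202) x33950) x28118) x31034) x29090) x30062) x29738) x29522) x29594) x29570) x29578) (Nat.mul x29576 (nat_lit 2))) x49258)
    (Nat.sub (Nat.sub (Nat.sub (Nat.add (Nat.add (Nat.add (Nat.add (Nat.add (Nat.add (Nat.add (Nat.add (Nat.add (Nat.add (Nat.add (Nat.add (Nat.add (Nat.add (Nat.add C x16456) x42700) x25204) x33952) x28120) x31036) x29092) x30064) x29740) x29524) x29596) x29572) x29584) x29576) x29580) x29578) x49260) x9896)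
    (Nat.sub (Nat.sub (Nat.add (Nat.add (Nat.add (Nat.add (Nat.add (Nat.add (Nat.add (Nat.add (Nat.add (Nat.add (Nat.add (Nat.add (Nat.add C x16458) x42702) x25206) x33954) x28122) x31038) x29094) x30066) x29742) x29526) x29598) x29586) x29578) (Nat.mul x29580 (nat_lit 2))) x9898)
    (Nat.sub (Nat.sub (Nat.sub (Nat.add (Nat.add (Nat.add (Nat.add (Nat.add (Nat.add (Nat.add (Nat.add (Nat.add (Nat.add (Nat.add (Nat.add (Nat.add C x16462) x42706) x25210) x33958) x28126) x31042) x29098) x30070) x29746) x29530) x29602) x29578) x29586) (Nat.mul x29584 (nat_lit 3))) x49266) x9902)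
    (Nat.sub (Nat.sub (Nat.add (Nat.add (Nat.add (Nat.add (Nat.add (Nat.add (Nat.add (Nat.add (Nat.add (Nat.add (Nat.add (Nat.add (Nat.add C x16464) x42708) x25212) x33960) x28128) x31044) x29100) x30072) x29748) x29532) x29604) x29580) x29584) (Nat.mul x29586 (nat_lit 2))) x9904)
    (Nat.sub (Nat.add (Nat.add (Nat.add (Nat.add (Nat.add (Nat.add (Nat.add (Nat.add (Nat.add (Nat.add (Nat.add (Nat.add C x16472) x42716) x25220) x33968) x28136) x31052) x29108) x30080) x29756) x29540) x29576) x29596) x49276)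
    (Nat.sub (Nat.sub (Nat.add (Nat.add (Nat.add (Nat.add (Nat.add (Nat.add (Nat.add (Nat.add (Nat.add (Nat.add (Nat.add (Nat.add (Nat.add (Nat.add C x16474) x42718) x25222) x33970) x28138) x31054) x29110) x30082) x29758) x29542) x29578) x29602) x29594) x29598) x49278) x9914)
    (Nat.sub (Nat.sub (Nat.add (Nat.add (Nat.add (Nat.add (Nat.add (Nat.add (Nat.add (Nat.add (Nat.add (Nat.add (Nat.add (Nat.add (Nat.add C x16476) x42720) x25224) x33972) x28140) x31056) x29112) x30084) x29760) x29544) x29580) x29604) x29596) (Nat.mul x29598 (nat_lit 2))) x9916)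
    (Nat.sub (Nat.sub (Nat.add (Nat.add (Nat.add (Nat.add (Nat.add (Nat.add (Nat.add (Nat.add (Nat.add (Nat.add (Nat.add (Nat.add (Nat.add (Nat.add C x16480) x42724) x25228) x33976) x28144) x31060) x29116) x30088) x29764) x29548) x29584) x29620) x29596) x29604) x49284) x9920)
    (Nat.sub (Nat.add (Nat.add (Nat.add (Nat.add (Nat.add (Nat.add (Nat.add (Nat.add (Nat.add (Nat.add (Nat.add (Nat.add (Nat.add (Nat.add (Nat.add C x16482) x42726) x25230) x33978) x28146) x31062) x29118) x30090) x29766) x29550) x29586) x29622) x29598) x29610) x29602) x9922)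
    (Nat.sub (Nat.add (Nat.add (Nat.add (Nat.add (Nat.add (Nat.add (Nat.add (Nat.add (Nat.add (Nat.add (Nat.add (Nat.add C x16488) x42732) x25236) x33984) x28152) x31068) x29124) x30096) x29772) x29556) x29628) x29604) x9928)
    (Nat.sub (Nat.sub (Nat.add (Nat.add (Nat.add (Nat.add (Nat.add (Nat.add (Nat.add (Nat.add (Nat.add (Nat.add (Nat.add (Nat.add C x29620) x16498) x42742) x25246) x33994) x28162) x31078) x29134) x30106) x29782) x29602) x29622) x49302) x9938)
    (Nat.sub (Nat.add (Nat.add (Nat.add (Nat.add (Nat.add (Nat.add (Nat.add (Nat.add (Nat.add (Nat.add (Nat.add (Nat.add C x16500) x42744) x25248) x33996) x28164) x31080) x29136) x30108) x29784) x29604) x29628) x29620) x9940)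
    (Nat.sub (Nat.add (Nat.add (Nat.add (Nat.add (Nat.add (Nat.add (Nat.add (Nat.add (Nat.add (Nat.add (Nat.add (Nat.add C (Nat.mul x29628 (nat_lit 2))) x16506) x42750) x25254) x34002) x28170) x31086) x29142) x30114) x29790) x29610) x29622) x9946)
    (Nat.sub (Nat.add (Nat.add (Nat.add (Nat.add (Nat.add (Nat.add (Nat.add (Nat.add (Nat.add (Nat.add C x29654) x16532) x42776) x25280) x34028) x28196) x31112) x30140) x29492) x29660) x49336)
    (Nat.sub (Nat.add (Nat.add (Nat.add (Nat.add (Nat.add (Nat.add (Nat.add (Nat.add (Nat.add (Nat.add (Nat.add (Nat.add C x16538) x42782) x25286) x34034) x28202) x31118) x30146) x29498) x29678) x29654) x29666) x29662) x49342)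
    (Nat.sub (Nat.sub (Nat.add (Nat.add (Nat.add (Nat.add (Nat.add (Nat.add (Nat.add (Nat.add (Nat.add (Nat.add (Nat.add C x16540) x42784) x25288) x34036) x28204) x31120) x30148) x29500) x29680) x29668) x29660) x49344) x9980)
    (Nat.sub (Nat.sub (Nat.add (Nat.add (Nat.add (Nat.add (Nat.add (Nat.add (Nat.add (Nat.add (Nat.add (Nat.add (Nat.add C x16544) x42788) x25292) x34040) x28208) x31124) x30152) x29504) x29684) x29660) x29668) (Nat.mul x29666 (nat_lit 3))) x49348)
    (Nat.sub (Nat.sub (Nat.sub (Nat.add (Nat.add (Nat.add (Nat.add (Nat.add (Nat.add (Nat.add (Nat.add (Nat.add (Nat.add (Nat.add (Nat.add C x16546) x42790) x25294) x34042) x28210) x31126) x30154) x29506) x29686) x29662) x29666) x29670) x29668) x49350) x9986)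
    (Nat.sub (Nat.sub (Nat.add (Nat.add (Nat.add (Nat.add (Nat.add (Nat.add (Nat.add (Nat.add (Nat.add (Nat.add C x16548) x42792) x25296) x34044) x28212) x31128) x30156) x29508) x29688) x29668) x29670) x9988)
    (Nat.sub (Nat.sub (Nat.add (Nat.add (Nat.add (Nat.add (Nat.add (Nat.add (Nat.add (Nat.add (Nat.add (Nat.add (Nat.add (Nat.add C x16556) x42800) x25304) x34052) x28220) x31136) x30164) x29516) x29732) x29660) x29684) x29680) x29678) x49360)
    (Nat.sub (Nat.sub (Nat.sub (Nat.add (Nat.add (Nat.add (Nat.add (Nat.add (Nat.add (Nat.add (Nat.add (Nat.add (Nat.add (Nat.add (Nat.add C x16558) x42802) x25306) x34054) x28222) x31138) x30166) x29518) x29734) x29662) x29686) x29678) (Nat.mul x29680 (nat_lit 2))) x49362) x9998)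
    (Nat.sub (Nat.sub (Nat.add (Nat.add (Nat.add (Nat.add (Nat.add (Nat.add (Nat.add (Nat.add (Nat.add (Nat.add (Nat.add (Nat.add (Nat.add C x16562) x42806) x25310) x34058) x28226) x31142) x30170) x29522) x29738) x29666) x29702) x29678) x29686) (Nat.mul x29684 (nat_lit 2))) x49366)
    (Nat.sub (Nat.sub (Nat.sub (Nat.add (Nat.add (Nat.add (Nat.add (Nat.add (Nat.add (Nat.add (Nat.add (Nat.add (Nat.add (Nat.add (Nat.add (Nat.add (Nat.add (Nat.add C x16564) x42808) x25312) x34060) x28228) x31144) x30172) x29524) x29740) x29668) x29704) x29680) x29692) x29684) x29688) x29686) x49368) x10004)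
    (Nat.sub (Nat.sub (Nat.add (Nat.add (Nat.add (Nat.add (Nat.add (Nat.add (Nat.add (Nat.add (Nat.add (Nat.add (Nat.add (Nat.add (Nat.add C x16566) x42810) x25314) x34062) x28230) x31146) x30174) x29526) x29742) x29670) x29706) x29694) x29686) (Nat.mul x29688 (nat_lit 2))) x10006)
    (Nat.sub (Nat.sub (Nat.sub (Nat.add (Nat.add (Nat.add (Nat.add (Nat.add (Nat.add (Nat.add (Nat.add (Nat.add (Nat.add (Nat.add (Nat.add C x16570) x42814) x25318) x34066) x28234) x31150) x30178) x29530) x29746) x29710) x29686) x29694) (Nat.mul x29692 (nat_lit 2))) x49374) x10010)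
    (Nat.sub (Nat.sub (Nat.add (Nat.add (Nat.add (Nat.add (Nat.add (Nat.add (Nat.add (Nat.add (Nat.add (Nat.add (Nat.add (Nat.add C x16572) x42816) x25320) x34068) x28236) x31152) x30180) x29532) x29748) x29712) x29688) x29692) x29694) x10012)
    (Nat.sub (Nat.sub (Nat.add (Nat.add (Nat.add (Nat.add (Nat.add (Nat.add (Nat.add (Nat.add (Nat.add (Nat.add (Nat.add C x16580) x42824) x25328) x34076) x28244) x31160) x30188) x29540) x29756) x29684) x29704) (Nat.mul x29702 (nat_lit 3))) x49384)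
    (Nat.sub (Nat.sub (Nat.sub (Nat.add (Nat.add (Nat.add (Nat.add (Nat.add (Nat.add (Nat.add (Nat.add (Nat.add (Nat.add (Nat.add (Nat.add (Nat.add C x16582) x42826) x25330) x34078) x28246) x31162) x30190) x29542) x29758) x29686) x29710) x29702) x29706) (Nat.mul x29704 (nat_lit 3))) x49386) x10022)
    (Nat.sub (Nat.sub (Nat.add (Nat.add (Nat.add (Nat.add (Nat.add (Nat.add (Nat.add (Nat.add (Nat.add (Nat.add (Nat.add (Nat.add C x16584) x42828) x25332) x34080) x28248) x31164) x30192) x29544) x29760) x29688) x29712) x29704) (Nat.mul x29706 (nat_lit 5))) x10024)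
    (Nat.sub (Nat.sub (Nat.sub (Nat.add (Nat.add (Nat.add (Nat.add (Nat.add (Nat.add (Nat.add (Nat.add (Nat.add (Nat.add (Nat.add (Nat.add C x16588) x42832) x25336) x34084) x28252) x31168) x30196) x29548) x29764) x29692) x29704) x29712) (Nat.mul x29710 (nat_lit 2))) x49392) x10028)
    (Nat.sub (Nat.sub (Nat.add (Nat.add (Nat.add (Nat.add (Nat.add (Nat.add (Nat.add (Nat.add (Nat.add (Nat.add (Nat.add (Nat.add (Nat.add C x16590) x42834) x25338) x34086) x28254) x31170) x30198) x29550) x29766) x29694) x29706) x29718) x29710) (Nat.mul x29712 (nat_lit 2))) x10030)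
    (Nat.sub (Nat.sub (Nat.add (Nat.add (Nat.add (Nat.add (Nat.add (Nat.add (Nat.add (Nat.add (Nat.add (Nat.add C x16596) x42840) x25344) x34092) x28260) x31176) x30204) x29556) x29772) x29712) x29718) x10036)
    (Nat.sub (Nat.add (Nat.add (Nat.add (Nat.add (Nat.add (Nat.add (Nat.add (Nat.add (Nat.add (Nat.add (Nat.add (Nat.add C x29732) x16610) x42854) x25358) x34106) x28274) x31190) x30218) x29570) x29678) x29738) x29734) x49414)
    (Nat.sub (Nat.sub (Nat.add (Nat.add (Nat.add (Nat.add (Nat.add (Nat.add (Nat.add (Nat.add (Nat.add (Nat.add (Nat.add C x16612) x42856) x25360) x34108) x28276) x31192) x30220) x29572) x29680) x29740) x29732) x49416) x10052)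
    (Nat.sub (Nat.sub (Nat.add (Nat.add (Nat.add (Nat.add (Nat.add (Nat.add (Nat.add (Nat.add (Nat.add (Nat.add (Nat.add (Nat.add C x16616) x42860) x25364) x34112) x28280) x31196) x30224) x29576) x29684) x29756) x29732) x29740) x29738) x49420)
    (Nat.sub (Nat.sub (Nat.add (Nat.add (Nat.add (Nat.add (Nat.add (Nat.add (Nat.add (Nat.add (Nat.add (Nat.add (Nat.add (Nat.add (Nat.add (Nat.add C x16618) x42862) x25366) x34114) x28282) x31198) x30226) x29578) x29686) x29758) x29734) x29746) x29738) x29742) x49422) x10058)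
    (Nat.sub (Nat.sub (Nat.add (Nat.add (Nat.add (Nat.add (Nat.add (Nat.add (Nat.add (Nat.add (Nat.add (Nat.add (Nat.add (Nat.add C x16620) x42864) x25368) x34116) x28284) x31200) x30228) x29580) x29688) x29760) x29748) x29740) x29742) x10060)
    (Nat.sub (Nat.sub (Nat.sub (Nat.add (Nat.add (Nat.add (Nat.add (Nat.add (Nat.add (Nat.add (Nat.add (Nat.add (Nat.add (Nat.add (Nat.add C x16624) x42868) x25372) x34120) x28288) x31204) x30232) x29584) x29692) x29764) x29740) x29748) (Nat.mul x29746 (nat_lit 2))) x49428) x10064)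
    (Nat.sub (Nat.sub (Nat.add (Nat.add (Nat.add (Nat.add (Nat.add (Nat.add (Nat.add (Nat.add (Nat.add (Nat.add (Nat.add (Nat.add C x16626) x42870) x25374) x34122) x28290) x31206) x30234) x29586) x29694) x29766) x29742) x29746) x29748) x10066)
    (Nat.sub (Nat.add (Nat.add (Nat.add (Nat.add (Nat.add (Nat.add (Nat.add (Nat.add (Nat.add (Nat.add (Nat.add (Nat.add C x16634) x42878) x25382) x34130) x28298) x31214) x30242) x29594) x29702) x29810) x29738) x29758) x49438)
    (Nat.sub (Nat.sub (Nat.add (Nat.add (Nat.add (Nat.add (Nat.add (Nat.add (Nat.add (Nat.add (Nat.add (Nat.add (Nat.add (Nat.add (Nat.add (Nat.add C x16636) x42880) x25384) x34132) x28300) x31216) x30244) x29596) x29704) x29812) x29740) x29764) x29756) x29760) x49440) x10076)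
    (Nat.sub (Nat.sub (Nat.add (Nat.add (Nat.add (Nat.add (Nat.add (Nat.add (Nat.add (Nat.add (Nat.add (Nat.add (Nat.add (Nat.add (Nat.add C x16638) x42882) x25386) x34134) x28302) x31218) x30246) x29598) x29706) x29814) x29742) x29766) x29758) (Nat.mul x29760 (nat_lit 2))) x10078)
    (Nat.sub (Nat.sub (Nat.add (Nat.add (Nat.add (Nat.add (Nat.add (Nat.add (Nat.add (Nat.add (Nat.add (Nat.add (Nat.add (Nat.add (Nat.add (Nat.add C x16642) x42886) x25390) x34138) x28306) x31222) x30250) x29602) x29710) x29818) x29746) x29782) x29758) x29766) x49446) x10082)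
    (Nat.sub (Nat.add (Nat.add (Nat.add (Nat.add (Nat.add (Nat.add (Nat.add (Nat.add (Nat.add (Nat.add (Nat.add (Nat.add (Nat.add (Nat.add (Nat.add C x16644) x42888) x25392) x34140) x28308) x31224) x30252) x29604) x29712) x29820) x29748) x29784) x29760) x29772) x29764) x10084)
    (Nat.sub (Nat.add (Nat.add (Nat.add (Nat.add (Nat.add (Nat.add (Nat.add (Nat.add (Nat.add (Nat.add (Nat.add (Nat.add C x16650) x42894) x25398) x34146) x28314) x31230) x30258) x29610) x29718) x29826) x29790) x29766) x10090)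
    (Nat.sub (Nat.sub (Nat.add (Nat.add (Nat.add (Nat.add (Nat.add (Nat.add (Nat.add (Nat.add (Nat.add (Nat.add (Nat.add C x16660) x42904) x25408) x34156) x28324) x31240) x30268) x29620) x29836) x29764) x29784) x49464) x10100)
    (Nat.sub (Nat.sub (Nat.add (Nat.add (Nat.add (Nat.add (Nat.add (Nat.add (Nat.add (Nat.add (Nat.add (Nat.add (Nat.add (Nat.add C x16662) x42906) x25410) x34158) x28326) x31242) x30270) x29622) x29838) x29766) x29790) x29782) x29784) x10102)
    (Nat.sub (Nat.add (Nat.add (Nat.add (Nat.add (Nat.add (Nat.add (Nat.add (Nat.add (Nat.add (Nat.add (Nat.add (Nat.add C x29790) x16668) x42912) x25416) x34164) x28332) x31248) x30276) x29628) x29844) x29772) x29784) x10108)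
    (Nat.sub (Nat.add (Nat.add (Nat.add (Nat.add (Nat.add (Nat.add (Nat.add (Nat.add (Nat.add (Nat.add C x29810) x16688) x42932) x25436) x34184) x28352) x31268) x30296) x29756) x29812) x49492)
    (Nat.sub (Nat.sub (Nat.add (Nat.add (Nat.add (Nat.add (Nat.add (Nat.add (Nat.add (Nat.add (Nat.add (Nat.add (Nat.add (Nat.add C x29812) x16690) x42934) x25438) x34186) x28354) x31270) x30298) x29758) x29818) x29810) x29814) x49494) x10130)
    (Nat.sub (Nat.sub (Nat.add (Nat.add (Nat.add (Nat.add (Nat.add (Nat.add (Nat.add (Nat.add (Nat.add (Nat.add C x16692) x42936) x25440) x34188) x28356) x31272) x30300) x29760) x29820) x29812) x29814) x10132)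
    (Nat.sub (Nat.sub (Nat.add (Nat.add (Nat.add (Nat.add (Nat.add (Nat.add (Nat.add (Nat.add (Nat.add (Nat.add (Nat.add C x16696) x42940) x25444) x34192) x28360) x31276) x30304) x29764) x29836) x29812) x29820) x49500) x10136)
    (Nat.sub (Nat.add (Nat.add (Nat.add (Nat.add (Nat.add (Nat.add (Nat.add (Nat.add (Nat.add (Nat.add (Nat.add (Nat.add C x16698) x42942) x25446) x34194) x28362) x31278) x30306) x29766) x29838) x29814) x29826) x29818) x10138)
    (Nat.sub (Nat.sub (Nat.add (Nat.add (Nat.add (Nat.add (Nat.add (Nat.add (Nat.add (Nat.add (Nat.add (Nat.add C x16704) x42948) x25452) x34200) x28368) x31284) x30312) x29772) x29844) x29820) x29826) x10144)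
    (Nat.sub (Nat.sub (Nat.add (Nat.add (Nat.add (Nat.add (Nat.add (Nat.add (Nat.add (Nat.add (Nat.add (Nat.add (Nat.add C (Nat.mul x29836 (nat_lit 2))) x16714) x42958) x25462) x34210) x28378) x31294) x30322) x29782) x29818) x29838) x49518) x10154)
    (Nat.sub (Nat.add (Nat.add (Nat.add (Nat.add (Nat.add (Nat.add (Nat.add (Nat.add (Nat.add (Nat.add (Nat.add (Nat.add C x29838) x16716) x42960) x25464) x34212) x28380) x31296) x30324) x29784) x29820) x29844) x29836) x10156)
    (Nat.sub (Nat.add (Nat.add (Nat.add (Nat.add (Nat.add (Nat.add (Nat.add (Nat.add (Nat.add (Nat.add (Nat.add (Nat.add C (Nat.mul x29844 (nat_lit 2))) x16722) x42966) x25470) x34218) x28386) x31302) x30330) x29790) x29826) x29862) x29838) x10162)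
    (Nat.sub (Nat.add (Nat.add (Nat.add (Nat.add (Nat.add (Nat.add (Nat.add (Nat.add (Nat.add C (Nat.mul x29862 (nat_lit 3))) x16740) x42984) x25488) x34236) x28404) x31320) x30348) x29844) x10180)
    (Nat.sub (Nat.add (Nat.add (Nat.add (Nat.add (Nat.add (Nat.add (Nat.add (Nat.add (Nat.add C (Nat.mul x29906 (nat_lit 2))) x16784) x43028) x25532) x34280) x31364) x29420) x29924) x29912) x49588)
    (Nat.sub (Nat.add (Nat.add (Nat.add (Nat.add (Nat.add (Nat.add (Nat.add (Nat.add (Nat.add C x16790) x43034) x25538) x34286) x31370) x29426) x29930) x29906) x29914) x49594)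
    (Nat.sub (Nat.sub (Nat.add (Nat.add (Nat.add (Nat.add (Nat.add (Nat.add (Nat.add (Nat.add (Nat.add C x29914) x16792) x43036) x25540) x34288) x31372) x29428) x29932) x29912) x49596) x10232)
    (Nat.sub (Nat.add (Nat.add (Nat.add (Nat.add (Nat.add (Nat.add (Nat.add (Nat.add (Nat.add C x16802) x43046) x25550) x34298) x31382) x29438) x29978) x29906) x29930) x49606)
    (Nat.sub (Nat.add (Nat.add (Nat.add (Nat.add (Nat.add (Nat.add (Nat.add (Nat.add (Nat.add (Nat.add (Nat.add (Nat.add C x16808) x43052) x25556) x34304) x31388) x29444) x29984) x29912) x29948) x29924) x29936) x29932) x49612)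
    (Nat.sub (Nat.sub (Nat.add (Nat.add (Nat.add (Nat.add (Nat.add (Nat.add (Nat.add (Nat.add (Nat.add (Nat.add (Nat.add C x16810) x43054) x25558) x34306) x31390) x29446) x29986) x29914) x29950) x29938) x29930) x49614) x10250)
    (Nat.sub (Nat.sub (Nat.add (Nat.add (Nat.add (Nat.add (Nat.add (Nat.add (Nat.add (Nat.add (Nat.add (Nat.add C x16814) x43058) x25562) x34310) x31394) x29450) x29990) x29954) x29930) x29938) (Nat.mul x29936 (nat_lit 2))) x49618)
    (Nat.sub (Nat.sub (Nat.add (Nat.add (Nat.add (Nat.add (Nat.add (Nat.add (Nat.add (Nat.add (Nat.add (Nat.add (Nat.add C x16816) x43060) x25564) x34312) x31396) x29452) x29992) x29956) x29932) x29936) x29940) x49620) x10256)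
    (Nat.sub (Nat.add (Nat.add (Nat.add (Nat.add (Nat.add (Nat.add (Nat.add (Nat.add (Nat.add C x16818) x43062) x25566) x34314) x31398) x29454) x29994) x29958) x29938) x10258)
    (Nat.sub (Nat.sub (Nat.add (Nat.add (Nat.add (Nat.add (Nat.add (Nat.add (Nat.add (Nat.add (Nat.add (Nat.add C x16826) x43070) x25574) x34322) x31406) x29462) x30002) x29930) x29954) x29950) (Nat.mul x29948 (nat_lit 2))) x49630)
    (Nat.sub (Nat.sub (Nat.sub (Nat.add (Nat.add (Nat.add (Nat.add (Nat.add (Nat.add (Nat.add (Nat.add (Nat.add (Nat.add C x16828) x43072) x25576) x34324) x31408) x29464) x30004) x29932) x29956) x29948) (Nat.mul x29950 (nat_lit 3))) x49632) x10268)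
    (Nat.sub (Nat.sub (Nat.add (Nat.add (Nat.add (Nat.add (Nat.add (Nat.add (Nat.add (Nat.add (Nat.add (Nat.add C x16832) x43076) x25580) x34328) x31412) x29468) x30008) x29936) x29948) x29956) (Nat.mul x29954 (nat_lit 2))) x49636)
    (Nat.sub (Nat.sub (Nat.sub (Nat.add (Nat.add (Nat.add (Nat.add (Nat.add (Nat.add (Nat.add (Nat.add (Nat.add (Nat.add (Nat.add (Nat.add C x16834) x43078) x25582) x34330) x31414) x29470) x30010) x29938) x29950) x29962) x29954) x29958) x29956) x49638) x10274)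
    (Nat.sub (Nat.sub (Nat.add (Nat.add (Nat.add (Nat.add (Nat.add (Nat.add (Nat.add (Nat.add (Nat.add (Nat.add C x16836) x43080) x25584) x34332) x31416) x29472) x30012) x29940) x29964) x29956) (Nat.mul x29958 (nat_lit 2))) x10276)
    (Nat.sub (Nat.sub (Nat.sub (Nat.add (Nat.add (Nat.add (Nat.add (Nat.add (Nat.add (Nat.add (Nat.add (Nat.add C x16840) x43084) x25588) x34336) x31420) x29476) x30016) x29956) x29964) x29962) x49644) x10280)
    (Nat.sub (Nat.add (Nat.add (Nat.add (Nat.add (Nat.add (Nat.add (Nat.add (Nat.add (Nat.add C x16842) x43086) x25590) x34338) x31422) x29478) x30018) x29958) x29962) x10282)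
    (Nat.sub (Nat.add (Nat.add (Nat.add (Nat.add (Nat.add (Nat.add (Nat.add (Nat.add (Nat.add C x16856) x43100) x25604) x34352) x31436) x29492) x30140) x29924) x29984) x49660)
    (Nat.sub (Nat.sub (Nat.add (Nat.add (Nat.add (Nat.add (Nat.add (Nat.add (Nat.add (Nat.add (Nat.add (Nat.add (Nat.add (Nat.add C x16862) x43106) x25610) x34358) x31442) x29498) x30146) x29930) x30002) x29978) x29990) x29986) x29984) x49666)
    (Nat.sub (Nat.sub (Nat.sub (Nat.add (Nat.add (Nat.add (Nat.add (Nat.add (Nat.add (Nat.add (Nat.add (Nat.add (Nat.add (Nat.add C x16864) x43108) x25612) x34360) x31444) x29500) x30148) x29932) x30004) x29992) x29984) x29986) x49668) x10304)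
    (Nat.sub (Nat.sub (Nat.add (Nat.add (Nat.add (Nat.add (Nat.add (Nat.add (Nat.add (Nat.add (Nat.add (Nat.add (Nat.add C x16868) x43112) x25616) x34364) x31448) x29504) x30152) x29936) x30008) x29984) x29992) (Nat.mul x29990 (nat_lit 4))) x49672)
    (Nat.sub (Nat.sub (Nat.sub (Nat.add (Nat.add (Nat.add (Nat.add (Nat.add (Nat.add (Nat.add (Nat.add (Nat.add (Nat.add (Nat.add (Nat.add C x16870) x43114) x25618) x34366) x31450) x29506) x30154) x29938) x30010) x29986) x29990) x29994) (Nat.mul x29992 (nat_lit 2))) x49674) x10310)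
    (Nat.sub (Nat.sub (Nat.add (Nat.add (Nat.add (Nat.add (Nat.add (Nat.add (Nat.add (Nat.add (Nat.add (Nat.add C x16872) x43116) x25620) x34368) x31452) x29508) x30156) x29940) x30012) x29992) (Nat.mul x29994 (nat_lit 2))) x10312)
    (Nat.sub (Nat.sub (Nat.add (Nat.add (Nat.add (Nat.add (Nat.add (Nat.add (Nat.add (Nat.add (Nat.add (Nat.add (Nat.add (Nat.add C x16880) x43124) x25628) x34376) x31460) x29516) x30164) x29948) x30056) x29984) x30008) x30004) x30002) x49684)
    (Nat.sub (Nat.sub (Nat.sub (Nat.add (Nat.add (Nat.add (Nat.add (Nat.add (Nat.add (Nat.add (Nat.add (Nat.add (Nat.add (Nat.add (Nat.add C x16882) x43126) x25630) x34378) x31462) x29518) x30166) x29950) x30058) x29986) x30010) x30002) (Nat.mul x30004 (nat_lit 2))) x49686) x10322)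
    (Nat.sub (Nat.sub (Nat.add (Nat.add (Nat.add (Nat.add (Nat.add (Nat.add (Nat.add (Nat.add (Nat.add (Nat.add (Nat.add (Nat.add (Nat.add C x16886) x43130) x25634) x34382) x31466) x29522) x30170) x29954) x30062) x29990) x30026) x30002) x30010) (Nat.mul x30008 (nat_lit 2))) x49690)
    (Nat.sub (Nat.sub (Nat.sub (Nat.add (Nat.add (Nat.add (Nat.add (Nat.add (Nat.add (Nat.add (Nat.add (Nat.add (Nat.add (Nat.add (Nat.add (Nat.add (Nat.add (Nat.add C x16888) x43132) x25636) x34384) x31468) x29524) x30172) x29956) x30064) x29992) x30028) x30004) x30016) x30008) x30012) x30010) x49692) x10328)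
    (Nat.sub (Nat.sub (Nat.add (Nat.add (Nat.add (Nat.add (Nat.add (Nat.add (Nat.add (Nat.add (Nat.add (Nat.add (Nat.add (Nat.add (Nat.add C x16890) x43134) x25638) x34386) x31470) x29526) x30174) x29958) x30066) x29994) x30030) x30018) x30010) (Nat.mul x30012 (nat_lit 2))) x10330)
    (Nat.sub (Nat.sub (Nat.sub (Nat.add (Nat.add (Nat.add (Nat.add (Nat.add (Nat.add (Nat.add (Nat.add (Nat.add (Nat.add (Nat.add (Nat.add C x16894) x43138) x25642) x34390) x31474) x29530) x30178) x29962) x30070) x30034) x30010) x30018) (Nat.mul x30016 (nat_lit 2))) x49698) x10334)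
    (Nat.sub (Nat.sub (Nat.add (Nat.add (Nat.add (Nat.add (Nat.add (Nat.add (Nat.add (Nat.add (Nat.add (Nat.add (Nat.add (Nat.add C x16896) x43140) x25644) x34392) x31476) x29532) x30180) x29964) x30072) x30036) x30012) x30016) x30018) x10336)
    (Nat.sub (Nat.sub (Nat.add (Nat.add (Nat.add (Nat.add (Nat.add (Nat.add (Nat.add (Nat.add (Nat.add (Nat.add C x16904) x43148) x25652) x34400) x31484) x29540) x30188) x30080) x30008) x30028) (Nat.mul x30026 (nat_lit 2))) x49708)
    (Nat.sub (Nat.sub (Nat.sub (Nat.add (Nat.add (Nat.add (Nat.add (Nat.add (Nat.add (Nat.add (Nat.add (Nat.add (Nat.add (Nat.add (Nat.add C x16906) x43150) x25654) x34402) x31486) x29542) x30190) x30082) x30010) x30034) x30026) x30030) (Nat.mul x30028 (nat_lit 2))) x49710) x10346)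
    (Nat.sub (Nat.sub (Nat.add (Nat.add (Nat.add (Nat.add (Nat.add (Nat.add (Nat.add (Nat.add (Nat.add (Nat.add (Nat.add C x16908) x43152) x25656) x34404) x31488) x29544) x30192) x30084) x30012) x30036) x30028) (Nat.mul x30030 (nat_lit 4))) x10348)
    (Nat.sub (Nat.sub (Nat.sub (Nat.add (Nat.add (Nat.add (Nat.add (Nat.add (Nat.add (Nat.add (Nat.add (Nat.add (Nat.add (Nat.add C x16912) x43156) x25660) x34408) x31492) x29548) x30196) x30088) x30016) x30028) x30036) x30034) x49716) x10352)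
    (Nat.sub (Nat.sub (Nat.add (Nat.add (Nat.add (Nat.add (Nat.add (Nat.add (Nat.add (Nat.add (Nat.add (Nat.add (Nat.add (Nat.add C x16914) x43158) x25662) x34410) x31494) x29550) x30198) x30090) x30018) x30030) x30042) x30034) x30036) x10354)
    (Nat.sub (Nat.add (Nat.add (Nat.add (Nat.add (Nat.add (Nat.add (Nat.add (Nat.add (Nat.add C x16920) x43164) x25668) x34416) x31500) x29556) x30204) x30096) x30036) x10360)
    (Nat.sub (Nat.sub (Nat.add (Nat.add (Nat.add (Nat.add (Nat.add (Nat.add (Nat.add (Nat.add (Nat.add (Nat.add C x16934) x43178) x25682) x34430) x31514) x29570) x30218) x30002) x30062) x30058) (Nat.mul x30056 (nat_lit 2))) x49738)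
    (Nat.sub (Nat.sub (Nat.sub (Nat.add (Nat.add (Nat.add (Nat.add (Nat.add (Nat.add (Nat.add (Nat.add (Nat.add (Nat.add C x16936) x43180) x25684) x34432) x31516) x29572) x30220) x30004) x30064) x30056) (Nat.mul x30058 (nat_lit 3))) x49740) x10376)
    (Nat.sub (Nat.sub (Nat.add (Nat.add (Nat.add (Nat.add (Nat.add (Nat.add (Nat.add (Nat.add (Nat.add (Nat.add (Nat.add C x16940) x43184) x25688) x34436) x31520) x29576) x30224) x30008) x30080) x30056) x30064) (Nat.mul x30062 (nat_lit 4))) x49744)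
    (Nat.sub (Nat.sub (Nat.sub (Nat.add (Nat.add (Nat.add (Nat.add (Nat.add (Nat.add (Nat.add (Nat.add (Nat.add (Nat.add (Nat.add (Nat.add (Nat.add C x16942) x43186) x25690) x34438) x31522) x29578) x30226) x30010) x30082) x30058) x30070) x30062) x30066) (Nat.mul x30064 (nat_lit 3))) x49746) x10382)
    (Nat.sub (Nat.sub (Nat.add (Nat.add (Nat.add (Nat.add (Nat.add (Nat.add (Nat.add (Nat.add (Nat.add (Nat.add (Nat.add C x16944) x43188) x25692) x34440) x31524) x29580) x30228) x30012) x30084) x30072) x30064) (Nat.mul x30066 (nat_lit 4))) x10384)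
    (Nat.sub (Nat.sub (Nat.sub (Nat.add (Nat.add (Nat.add (Nat.add (Nat.add (Nat.add (Nat.add (Nat.add (Nat.add (Nat.add (Nat.add C x16948) x43192) x25696) x34444) x31528) x29584) x30232) x30016) x30088) x30064) x30072) (Nat.mul x30070 (nat_lit 5))) x49752) x10388)
    (Nat.sub (Nat.sub (Nat.add (Nat.add (Nat.add (Nat.add (Nat.add (Nat.add (Nat.add (Nat.add (Nat.add (Nat.add (Nat.add C x16950) x43194) x25698) x34446) x31530) x29586) x30234) x30018) x30090) x30066) x30070) (Nat.mul x30072 (nat_lit 4))) x10390)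
    (Nat.sub (Nat.sub (Nat.add (Nat.add (Nat.add (Nat.add (Nat.add (Nat.add (Nat.add (Nat.add (Nat.add (Nat.add C x16958) x43202) x25706) x34454) x31538) x29594) x30242) x30026) x30062) x30082) (Nat.mul x30080 (nat_lit 2))) x49762)
    (Nat.sub (Nat.sub (Nat.sub (Nat.add (Nat.add (Nat.add (Nat.add (Nat.add (Nat.add (Nat.add (Nat.add (Nat.add (Nat.add (Nat.add (Nat.add C x16960) x43204) x25708) x34456) x31540) x29596) x30244) x30028) x30064) x30088) x30080) x30084) (Nat.mul x30082 (nat_lit 2))) x49764) x10400)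
    (Nat.sub (Nat.sub (Nat.add (Nat.add (Nat.add (Nat.add (Nat.add (Nat.add (Nat.add (Nat.add (Nat.add (Nat.add (Nat.add C x16962) x43206) x25710) x34458) x31542) x29598) x30246) x30030) x30066) x30090) x30082) (Nat.mul x30084 (nat_lit 4))) x10402)
    (Nat.sub (Nat.sub (Nat.sub (Nat.add (Nat.add (Nat.add (Nat.add (Nat.add (Nat.add (Nat.add (Nat.add (Nat.add (Nat.add (Nat.add (Nat.add C x16966) x43210) x25714) x34462) x31546) x29602) x30250) x30034) x30070) x30106) x30082) x30090) (Nat.mul x30088 (nat_lit 2))) x49770) x10406)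
    (Nat.sub (Nat.sub (Nat.add (Nat.add (Nat.add (Nat.add (Nat.add (Nat.add (Nat.add (Nat.add (Nat.add (Nat.add (Nat.add (Nat.add (Nat.add C x16968) x43212) x25716) x34464) x31548) x29604) x30252) x30036) x30072) x30108) x30084) x30096) x30088) (Nat.mul x30090 (nat_lit 2))) x10408)
    (Nat.sub (Nat.sub (Nat.add (Nat.add (Nat.add (Nat.add (Nat.add (Nat.add (Nat.add (Nat.add (Nat.add (Nat.add C x16974) x43218) x25722) x34470) x31554) x29610) x30258) x30042) x30114) x30090) (Nat.mul x30096 (nat_lit 2))) x10414)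
    (Nat.sub (Nat.sub (Nat.sub (Nat.add (Nat.add (Nat.add (Nat.add (Nat.add (Nat.add (Nat.add (Nat.add (Nat.add C x16984) x43228) x25732) x34480) x31564) x29620) x30268) x30088) x30108) x30106) x49788) x10424)
    (Nat.sub (Nat.sub (Nat.add (Nat.add (Nat.add (Nat.add (Nat.add (Nat.add (Nat.add (Nat.add (Nat.add (Nat.add C x16986) x43230) x25734) x34482) x31566) x29622) x30270) x30090) x30114) x30106) (Nat.mul x30108 (nat_lit 2))) x10426)
    (Nat.sub (Nat.add (Nat.add (Nat.add (Nat.add (Nat.add (Nat.add (Nat.add (Nat.add (Nat.add C x16992) x43236) x25740) x34488) x31572) x29628) x30276) x30096) x30108) x10432)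
    (Nat.sub (Nat.add (Nat.add (Nat.add (Nat.add (Nat.add (Nat.add (Nat.add (Nat.add (Nat.add C (Nat.mul x30140 (nat_lit 2))) x17018) x43262) x25766) x34514) x31598) x29654) x29978) x30146) x49822)
    (Nat.sub (Nat.add (Nat.add (Nat.add (Nat.add (Nat.add (Nat.add (Nat.add (Nat.add (Nat.add (Nat.add (Nat.add (Nat.add C x30146) x17024) x43268) x25772) x34520) x31604) x29660) x29984) x30164) x30140) x30152) x30148) x49828)
    (Nat.sub (Nat.sub (Nat.add (Nat.add (Nat.add (Nat.add (Nat.add (Nat.add (Nat.add (Nat.add (Nat.add (Nat.add (Nat.add C x30148) x17026) x43270) x25774) x34522) x31606) x29662) x29986) x30166) x30154) x30146) x49830) x10466)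
    (Nat.sub (Nat.sub (Nat.add (Nat.add (Nat.add (Nat.add (Nat.add (Nat.add (Nat.add (Nat.add (Nat.add (Nat.add C x17030) x43274) x25778) x34526) x31610) x29666) x29990) x30170) x30146) x30154) (Nat.mul x30152 (nat_lit 2))) x49834)
    (Nat.sub (Nat.sub (Nat.add (Nat.add (Nat.add (Nat.add (Nat.add (Nat.add (Nat.add (Nat.add (Nat.add (Nat.add (Nat.add C x17032) x43276) x25780) x34528) x31612) x29668) x29992) x30172) x30148) x30152) x30156) x49836) x10472)
    (Nat.sub (Nat.add (Nat.add (Nat.add (Nat.add (Nat.add (Nat.add (Nat.add (Nat.add (Nat.add C x17034) x43278) x25782) x34530) x31614) x29670) x29994) x30174) x30154) x10474)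
    (Nat.sub (Nat.add (Nat.add (Nat.add (Nat.add (Nat.add (Nat.add (Nat.add (Nat.add (Nat.add (Nat.add (Nat.add C x17042) x43286) x25790) x34538) x31622) x29678) x30002) x30218) x30146) x30170) x30166) x49846)
    (Nat.sub (Nat.sub (Nat.sub (Nat.add (Nat.add (Nat.add (Nat.add (Nat.add (Nat.add (Nat.add (Nat.add (Nat.add (Nat.add (Nat.add C x17044) x43288) x25792) x34540) x31624) x29680) x30004) x30220) x30148) x30172) x30164) x30166) x49848) x10484)
    (Nat.sub (Nat.sub (Nat.add (Nat.add (Nat.add (Nat.add (Nat.add (Nat.add (Nat.add (Nat.add (Nat.add (Nat.add (Nat.add (Nat.add C x17048) x43292) x25796) x34544) x31628) x29684) x30008) x30224) x30152) x30188) x30164) x30172) x30170) x49852)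
    (Nat.sub (Nat.sub (Nat.add (Nat.add (Nat.add (Nat.add (Nat.add (Nat.add (Nat.add (Nat.add (Nat.add (Nat.add (Nat.add (Nat.add (Nat.add (Nat.add C x17050) x43294) x25798) x34546) x31630) x29686) x30010) x30226) x30154) x30190) x30166) x30178) x30170) x30174) x49854) x10490)
    (Nat.sub (Nat.sub (Nat.add (Nat.add (Nat.add (Nat.add (Nat.add (Nat.add (Nat.add (Nat.add (Nat.add (Nat.add (Nat.add (Nat.add C x17052) x43296) x25800) x34548) x31632) x29688) x30012) x30228) x30156) x30192) x30180) x30172) x30174) x10492)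
    (Nat.sub (Nat.sub (Nat.sub (Nat.add (Nat.add (Nat.add (Nat.add (Nat.add (Nat.add (Nat.add (Nat.add (Nat.add (Nat.add (Nat.add C x17056) x43300) x25804) x34552) x31636) x29692) x30016) x30232) x30196) x30172) x30180) x30178) x49860) x10496)
    (Nat.sub (Nat.add (Nat.add (Nat.add (Nat.add (Nat.add (Nat.add (Nat.add (Nat.add (Nat.add (Nat.add (Nat.add C x17058) x43302) x25806) x34554) x31638) x29694) x30018) x30234) x30198) x30174) x30178) x10498)
    (Nat.sub (Nat.sub (Nat.add (Nat.add (Nat.add (Nat.add (Nat.add (Nat.add (Nat.add (Nat.add (Nat.add (Nat.add C x17066) x43310) x25814) x34562) x31646) x29702) x30026) x30242) x30170) x30190) (Nat.mul x30188 (nat_lit 2))) x49870)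
    (Nat.sub (Nat.sub (Nat.sub (Nat.add (Nat.add (Nat.add (Nat.add (Nat.add (Nat.add (Nat.add (Nat.add (Nat.add (Nat.add (Nat.add (Nat.add C x17068) x43312) x25816) x34564) x31648) x29704) x30028) x30244) x30172) x30196) x30188) x30192) (Nat.mul x30190 (nat_lit 2))) x49872) x10508)
    (Nat.sub (Nat.sub (Nat.add (Nat.add (Nat.add (Nat.add (Nat.add (Nat.add (Nat.add (Nat.add (Nat.add (Nat.add (Nat.add C x17070) x43314) x25818) x34566) x31650) x29706) x30030) x30246) x30174) x30198) x30190) (Nat.mul x30192 (nat_lit 4))) x10510)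
    (Nat.sub (Nat.sub (Nat.sub (Nat.add (Nat.add (Nat.add (Nat.add (Nat.add (Nat.add (Nat.add (Nat.add (Nat.add (Nat.add (Nat.add C x17074) x43318) x25822) x34570) x31654) x29710) x30034) x30250) x30178) x30190) x30198) x30196) x49878) x10514)
    (Nat.sub (Nat.sub (Nat.add (Nat.add (Nat.add (Nat.add (Nat.add (Nat.add (Nat.add (Nat.add (Nat.add (Nat.add (Nat.add (Nat.add C x17076) x43320) x25824) x34572) x31656) x29712) x30036) x30252) x30180) x30192) x30204) x30196) x30198) x10516)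
    (Nat.sub (Nat.add (Nat.add (Nat.add (Nat.add (Nat.add (Nat.add (Nat.add (Nat.add (Nat.add C x17082) x43326) x25830) x34578) x31662) x29718) x30042) x30258) x30198) x10522)
    (Nat.sub (Nat.add (Nat.add (Nat.add (Nat.add (Nat.add (Nat.add (Nat.add (Nat.add (Nat.add (Nat.add (Nat.add (Nat.add C x30218) x17096) x43340) x25844) x34592) x31676) x29732) x30056) x30380) x30164) x30224) x30220) x49900)
    (Nat.sub (Nat.sub (Nat.add (Nat.add (Nat.add (Nat.add (Nat.add (Nat.add (Nat.add (Nat.add (Nat.add (Nat.add (Nat.add C x17098) x43342) x25846) x34594) x31678) x29734) x30058) x30382) x30166) x30226) x30218) x49902) x10538)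
    (Nat.sub (Nat.sub (Nat.add (Nat.add (Nat.add (Nat.add (Nat.add (Nat.add (Nat.add (Nat.add (Nat.add (Nat.add (Nat.add (Nat.add C x17102) x43346) x25850) x34598) x31682) x29738) x30062) x30386) x30170) x30242) x30218) x30226) x30224) x49906)
    (Nat.sub (Nat.sub (Nat.add (Nat.add (Nat.add (Nat.add (Nat.add (Nat.add (Nat.add (Nat.add (Nat.add (Nat.add (Nat.add (Nat.add (Nat.add (Nat.add C x17104) x43348) x25852) x34600) x31684) x29740) x30064) x30388) x30172) x30244) x30220) x30232) x30224) x30228) x49908) x10544)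
    (Nat.sub (Nat.sub (Nat.add (Nat.add (Nat.add (Nat.add (Nat.add (Nat.add (Nat.add (Nat.add (Nat.add (Nat.add (Nat.add (Nat.add C x17106) x43350) x25854) x34602) x31686) x29742) x30066) x30390) x30174) x30246) x30234) x30226) x30228) x10546)
    (Nat.sub (Nat.sub (Nat.sub (Nat.add (Nat.add (Nat.add (Nat.add (Nat.add (Nat.add (Nat.add (Nat.add (Nat.add (Nat.add (Nat.add (Nat.add C x17110) x43354) x25858) x34606) x31690) x29746) x30070) x30394) x30178) x30250) x30226) x30234) (Nat.mul x30232 (nat_lit 2))) x49914) x10550)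
    (Nat.sub (Nat.sub (Nat.add (Nat.add (Nat.add (Nat.add (Nat.add (Nat.add (Nat.add (Nat.add (Nat.add (Nat.add (Nat.add (Nat.add C x17112) x43356) x25860) x34608) x31692) x29748) x30072) x30396) x30180) x30252) x30228) x30232) x30234) x10552)
    (Nat.sub (Nat.add (Nat.add (Nat.add (Nat.add (Nat.add (Nat.add (Nat.add (Nat.add (Nat.add (Nat.add (Nat.add (Nat.add C x17120) x43364) x25868) x34616) x31700) x29756) x30080) x30404) x30188) x30296) x30224) x30244) x49924)
    (Nat.sub (Nat.sub (Nat.add (Nat.add (Nat.add (Nat.add (Nat.add (Nat.add (Nat.add (Nat.add (Nat.add (Nat.add (Nat.add (Nat.add (Nat.add (Nat.add C x17122) x43366) x25870) x34618) x31702) x29758) x30082) x30406) x30190) x30298) x30226) x30250) x30242) x30246) x49926) x10562)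
    (Nat.sub (Nat.sub (Nat.add (Nat.add (Nat.add (Nat.add (Nat.add (Nat.add (Nat.add (Nat.add (Nat.add (Nat.add (Nat.add (Nat.add (Nat.add C x17124) x43368) x25872) x34620) x31704) x29760) x30084) x30408) x30192) x30300) x30228) x30252) x30244) (Nat.mul x30246 (nat_lit 2))) x10564)
    (Nat.sub (Nat.sub (Nat.add (Nat.add (Nat.add (Nat.add (Nat.add (Nat.add (Nat.add (Nat.add (Nat.add (Nat.add (Nat.add (Nat.add (Nat.add (Nat.add C x17128) x43372) x25876) x34624) x31708) x29764) x30088) x30412) x30196) x30304) x30232) x30268) x30244) x30252) x49932) x10568)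
    (Nat.sub (Nat.add (Nat.add (Nat.add (Nat.add (Nat.add (Nat.add (Nat.add (Nat.add (Nat.add (Nat.add (Nat.add (Nat.add (Nat.add (Nat.add (Nat.add C x17130) x43374) x25878) x34626) x31710) x29766) x30090) x30414) x30198) x30306) x30234) x30270) x30246) x30258) x30250) x10570)
    (Nat.sub (Nat.add (Nat.add (Nat.add (Nat.add (Nat.add (Nat.add (Nat.add (Nat.add (Nat.add (Nat.add (Nat.add (Nat.add C x17136) x43380) x25884) x34632) x31716) x29772) x30096) x30420) x30204) x30312) x30276) x30252) x10576)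
    (Nat.sub (Nat.sub (Nat.add (Nat.add (Nat.add (Nat.add (Nat.add (Nat.add (Nat.add (Nat.add (Nat.add (Nat.add (Nat.add C x17146) x43390) x25894) x34642) x31726) x29782) x30106) x30430) x30322) x30250) x30270) x49950) x10586)
    (Nat.sub (Nat.sub (Nat.add (Nat.add (Nat.add (Nat.add (Nat.add (Nat.add (Nat.add (Nat.add (Nat.add (Nat.add (Nat.add (Nat.add C x17148) x43392) x25896) x34644) x31728) x29784) x30108) x30432) x30324) x30252) x30276) x30268) x30270) x10588)
    (Nat.sub (Nat.add (Nat.add (Nat.add (Nat.add (Nat.add (Nat.add (Nat.add (Nat.add (Nat.add (Nat.add (Nat.add (Nat.add C x30276) x17154) x43398) x25902) x34650) x31734) x29790) x30114) x30438) x30330) x30258) x30270) x10594)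
    (Nat.sub (Nat.add (Nat.add (Nat.add (Nat.add (Nat.add (Nat.add (Nat.add (Nat.add (Nat.add C x17174) x43418) x25922) x34670) x31754) x29810) x30458) x30242) x30298) x49978)
    (Nat.sub (Nat.sub (Nat.add (Nat.add (Nat.add (Nat.add (Nat.add (Nat.add (Nat.add (Nat.add (Nat.add (Nat.add (Nat.add C x17176) x43420) x25924) x34672) x31756) x29812) x30460) x30244) x30304) x30296) x30300) x49980) x10616)
    (Nat.sub (Nat.sub (Nat.add (Nat.add (Nat.add (Nat.add (Nat.add (Nat.add (Nat.add (Nat.add (Nat.add (Nat.add C x17178) x43422) x25926) x34674) x31758) x29814) x30462) x30246) x30306) x30298) (Nat.mul x30300 (nat_lit 2))) x10618)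
    (Nat.sub (Nat.sub (Nat.sub (Nat.add (Nat.add (Nat.add (Nat.add (Nat.add (Nat.add (Nat.add (Nat.add (Nat.add (Nat.add (Nat.add C x17182) x43426) x25930) x34678) x31762) x29818) x30466) x30250) x30322) x30298) x30306) x30304) x49986) x10622)
    (Nat.sub (Nat.sub (Nat.add (Nat.add (Nat.add (Nat.add (Nat.add (Nat.add (Nat.add (Nat.add (Nat.add (Nat.add (Nat.add (Nat.add C x17184) x43428) x25932) x34680) x31764) x29820) x30468) x30252) x30324) x30300) x30312) x30304) x30306) x10624)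
    (Nat.sub (Nat.sub (Nat.add (Nat.add (Nat.add (Nat.add (Nat.add (Nat.add (Nat.add (Nat.add (Nat.add (Nat.add C x17190) x43434) x25938) x34686) x31770) x29826) x30474) x30258) x30330) x30306) (Nat.mul x30312 (nat_lit 2))) x10630)
    (Nat.sub (Nat.sub (Nat.add (Nat.add (Nat.add (Nat.add (Nat.add (Nat.add (Nat.add (Nat.add (Nat.add (Nat.add (Nat.add C x30322) x17200) x43444) x25948) x34696) x31780) x29836) x30484) x30268) x30304) x30324) x50004) x10640)
    (Nat.sub (Nat.add (Nat.add (Nat.add (Nat.add (Nat.add (Nat.add (Nat.add (Nat.add (Nat.add (Nat.add (Nat.add C x17202) x43446) x25950) x34698) x31782) x29838) x30486) x30270) x30306) x30330) x30322) x10642)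
    (Nat.sub (Nat.add (Nat.add (Nat.add (Nat.add (Nat.add (Nat.add (Nat.add (Nat.add (Nat.add (Nat.add (Nat.add (Nat.add C x30330) x17208) x43452) x25956) x34704) x31788) x29844) x30492) x30276) x30312) x30348) x30324) x10648)
    (Nat.sub (Nat.add (Nat.add (Nat.add (Nat.add (Nat.add (Nat.add (Nat.add (Nat.add (Nat.add C (Nat.mul x30348 (nat_lit 2))) x17226) x43470) x25974) x34722) x31806) x29862) x30510) x30330) x10666)
    (Nat.sub (Nat.add (Nat.add (Nat.add (Nat.add (Nat.add (Nat.add (Nat.add (Nat.add (Nat.add C (Nat.mul x30380 (nat_lit 2))) x17258) x43502) x26006) x34754) x31838) x30218) x30386) x30382) x50062)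
    (Nat.sub (Nat.sub (Nat.add (Nat.add (Nat.add (Nat.add (Nat.add (Nat.add (Nat.add (Nat.add (Nat.add C x30382) x17260) x43504) x26008) x34756) x31840) x30220) x30388) x30380) x50064) x10700)
    (Nat.sub (Nat.add (Nat.add (Nat.add (Nat.add (Nat.add (Nat.add (Nat.add (Nat.add (Nat.add C x17264) x43508) x26012) x34760) x31844) x30224) x30404) x30380) x30388) x50068)
    (Nat.sub (Nat.sub (Nat.add (Nat.add (Nat.add (Nat.add (Nat.add (Nat.add (Nat.add (Nat.add (Nat.add (Nat.add (Nat.add (Nat.add C x30388) x17266) x43510) x26014) x34762) x31846) x30226) x30406) x30382) x30394) x30386) x30390) x50070) x10706)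
    (Nat.sub (Nat.add (Nat.add (Nat.add (Nat.add (Nat.add (Nat.add (Nat.add (Nat.add (Nat.add C x17268) x43512) x26016) x34764) x31848) x30228) x30408) x30396) x30388) x10708)
    (Nat.sub (Nat.sub (Nat.sub (Nat.add (Nat.add (Nat.add (Nat.add (Nat.add (Nat.add (Nat.add (Nat.add (Nat.add C x17272) x43516) x26020) x34768) x31852) x30232) x30412) x30388) x30396) x30394) x50076) x10712)
    (Nat.sub (Nat.add (Nat.add (Nat.add (Nat.add (Nat.add (Nat.add (Nat.add (Nat.add (Nat.add C x17274) x43518) x26022) x34770) x31854) x30234) x30414) x30390) x30394) x10714)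
    (Nat.sub (Nat.add (Nat.add (Nat.add (Nat.add (Nat.add (Nat.add (Nat.add (Nat.add (Nat.add C x17282) x43526) x26030) x34778) x31862) x30242) x30458) x30386) x30406) x50086)
    (Nat.sub (Nat.sub (Nat.add (Nat.add (Nat.add (Nat.add (Nat.add (Nat.add (Nat.add (Nat.add (Nat.add (Nat.add (Nat.add C x17284) x43528) x26032) x34780) x31864) x30244) x30460) x30388) x30412) x30404) x30408) x50088) x10724)
    (Nat.sub (Nat.sub (Nat.add (Nat.add (Nat.add (Nat.add (Nat.add (Nat.add (Nat.add (Nat.add (Nat.add (Nat.add C x17286) x43530) x26034) x34782) x31866) x30246) x30462) x30390) x30414) x30406) (Nat.mul x30408 (nat_lit 2))) x10726)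
    (Nat.sub (Nat.sub (Nat.add (Nat.add (Nat.add (Nat.add (Nat.add (Nat.add (Nat.add (Nat.add (Nat.add (Nat.add (Nat.add C x17290) x43534) x26038) x34786) x31870) x30250) x30466) x30394) x30430) x30406) x30414) x50094) x10730)
    (Nat.sub (Nat.add (Nat.add (Nat.add (Nat.add (Nat.add (Nat.add (Nat.add (Nat.add (Nat.add (Nat.add (Nat.add (Nat.add C x17292) x43536) x26040) x34788) x31872) x30252) x30468) x30396) x30432) x30408) x30420) x30412) x10732)
    (Nat.sub (Nat.add (Nat.add (Nat.add (Nat.add (Nat.add (Nat.add (Nat.add (Nat.add (Nat.add C x17298) x43542) x26046) x34794) x31878) x30258) x30474) x30438) x30414) x10738)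
    (Nat.sub (Nat.sub (Nat.sub (Nat.add (Nat.add (Nat.add (Nat.add (Nat.add (Nat.add (Nat.add (Nat.add (Nat.add C x17308) x43552) x26056) x34804) x31888) x30268) x30484) x30412) x30432) x30430) x50112) x10748)
    (Nat.sub (Nat.sub (Nat.add (Nat.add (Nat.add (Nat.add (Nat.add (Nat.add (Nat.add (Nat.add (Nat.add (Nat.add C x17310) x43554) x26058) x34806) x31890) x30270) x30486) x30414) x30438) x30430) (Nat.mul x30432 (nat_lit 2))) x10750)
    (Nat.sub (Nat.add (Nat.add (Nat.add (Nat.add (Nat.add (Nat.add (Nat.add (Nat.add (Nat.add C x17316) x43560) x26064) x34812) x31896) x30276) x30492) x30420) x30432) x10756)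
    (Nat.sub (Nat.add (Nat.add (Nat.add (Nat.add (Nat.add (Nat.add (Nat.add (Nat.add (Nat.add C (Nat.mul x30458 (nat_lit 2))) x17336) x43580) x26084) x34832) x31916) x30296) x30404) x30460) x50140)
    (Nat.sub (Nat.sub (Nat.add (Nat.add (Nat.add (Nat.add (Nat.add (Nat.add (Nat.add (Nat.add (Nat.add (Nat.add (Nat.add C (Nat.mul x30460 (nat_lit 2))) x17338) x43582) x26086) x34834) x31918) x30298) x30406) x30466) x30458) x30462) x50142) x10778)
    (Nat.sub (Nat.add (Nat.add (Nat.add (Nat.add (Nat.add (Nat.add (Nat.add (Nat.add (Nat.add C x17340) x43584) x26088) x34836) x31920) x30300) x30408) x30468) x30460) x10780)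
    (Nat.sub (Nat.sub (Nat.add (Nat.add (Nat.add (Nat.add (Nat.add (Nat.add (Nat.add (Nat.add (Nat.add (Nat.add (Nat.add C x30466) x17344) x43588) x26092) x34840) x31924) x30304) x30412) x30484) x30460) x30468) x50148) x10784)
    (Nat.sub (Nat.add (Nat.add (Nat.add (Nat.add (Nat.add (Nat.add (Nat.add (Nat.add (Nat.add (Nat.add (Nat.add (Nat.add C x30468) x17346) x43590) x26094) x34842) x31926) x30306) x30414) x30486) x30462) x30474) x30466) x10786)
    (Nat.sub (Nat.add (Nat.add (Nat.add (Nat.add (Nat.add (Nat.add (Nat.add (Nat.add (Nat.add C x17352) x43596) x26100) x34848) x31932) x30312) x30420) x30492) x30468) x10792)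
    (Nat.sub (Nat.sub (Nat.add (Nat.add (Nat.add (Nat.add (Nat.add (Nat.add (Nat.add (Nat.add (Nat.add (Nat.add (Nat.add C (Nat.mul x30484 (nat_lit 2))) x17362) x43606) x26110) x34858) x31942) x30322) x30430) x30538) x30466) x30486) x50166) x10802)
    (Nat.sub (Nat.add (Nat.add (Nat.add (Nat.add (Nat.add (Nat.add (Nat.add (Nat.add (Nat.add (Nat.add (Nat.add (Nat.add C x30486) x17364) x43608) x26112) x34860) x31944) x30324) x30432) x30540) x30468) x30492) x30484) x10804)
    (Nat.sub (Nat.add (Nat.add (Nat.add (Nat.add (Nat.add (Nat.add (Nat.add (Nat.add (Nat.add (Nat.add (Nat.add (Nat.add C (Nat.mul x30492 (nat_lit 2))) x17370) x43614) x26118) x34866) x31950) x30330) x30438) x30546) x30474) x30510) x30486) x10810)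
    (Nat.sub (Nat.add (Nat.add (Nat.add (Nat.add (Nat.add (Nat.add (Nat.add (Nat.add (Nat.add C (Nat.mul x30510 (nat_lit 2))) x17388) x43632) x26136) x34884) x31968) x30348) x30564) x30492) x10828)
    (Nat.sub (Nat.sub (Nat.add (Nat.add (Nat.add (Nat.add (Nat.add (Nat.add (Nat.add (Nat.add C (Nat.mul x30538 (nat_lit 3))) x17416) x43660) x26164) x34912) x31996) x30484) x30540) x50220) x10856)
    (Nat.sub (Nat.add (Nat.add (Nat.add (Nat.add (Nat.add (Nat.add (Nat.add (Nat.add (Nat.add C (Nat.mul x30540 (nat_lit 2))) x17418) x43662) x26166) x34914) x31998) x30486) x30546) x30538) x10858)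
    (Nat.sub (Nat.add (Nat.add (Nat.add (Nat.add (Nat.add (Nat.add (Nat.add (Nat.add (Nat.add C (Nat.mul x30546 (nat_lit 2))) x17424) x43668) x26172) x34920) x32004) x30492) x30564) x30540) x10864)
    (Nat.sub (Nat.add (Nat.add (Nat.add (Nat.add (Nat.add (Nat.add (Nat.add (Nat.add C (Nat.mul x30564 (nat_lit 4))) x17442) x43686) x26190) x34938) x32022) x30510) x30546) x10882)
    (Nat.sub (Nat.add (Nat.add (Nat.add (Nat.add (Nat.add (Nat.add C (Nat.mul x30644 (nat_lit 3))) x17522) x43766) x35018) x29186) x30662) x50326)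
    (Nat.sub (Nat.add (Nat.add (Nat.add (Nat.add (Nat.add (Nat.add (Nat.add (Nat.add (Nat.add C (Nat.mul x30662 (nat_lit 2))) x17540) x43784) x35036) x29204) x30716) x30644) x30680) x30668) x50344)
    (Nat.sub (Nat.add (Nat.add (Nat.add (Nat.add (Nat.add (Nat.add (Nat.add (Nat.add (Nat.add C x30668) x17546) x43790) x35042) x29210) x30722) x30686) x30662) x30670) x50350)
    (Nat.sub (Nat.sub (Nat.add (Nat.add (Nat.add (Nat.add (Nat.add (Nat.add (Nat.add (Nat.add C (Nat.mul x30670 (nat_lit 2))) x17548) x43792) x35044) x29212) x30724) x30688) x30668) x50352) x10988)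
    (Nat.sub (Nat.sub (Nat.add (Nat.add (Nat.add (Nat.add (Nat.add (Nat.add (Nat.add C x17558) x43802) x35054) x29222) x30734) x30662) x30686) x30680) x50362)
    (Nat.sub (Nat.add (Nat.add (Nat.add (Nat.add (Nat.add (Nat.add (Nat.add (Nat.add (Nat.add C x17564) x43808) x35060) x29228) x30740) x30668) x30680) x30692) x30688) x50368)
    (Nat.sub (Nat.sub (Nat.add (Nat.add (Nat.add (Nat.add (Nat.add (Nat.add (Nat.add (Nat.add C x17566) x43810) x35062) x29230) x30742) x30670) x30694) x30686) x50370) x11006)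
    (Nat.sub (Nat.sub (Nat.add (Nat.add (Nat.add (Nat.add (Nat.add (Nat.add (Nat.add C x17570) x43814) x35066) x29234) x30746) x30686) x30694) x30692) x50374)
    (Nat.sub (Nat.sub (Nat.add (Nat.add (Nat.add (Nat.add (Nat.add (Nat.add (Nat.add (Nat.add (Nat.add C x30694) x17572) x43816) x35068) x29236) x30748) x30688) x30692) x30696) x50376) x11012)
    (Nat.sub (Nat.add (Nat.add (Nat.add (Nat.add (Nat.add (Nat.add (Nat.add C x30696) x17574) x43818) x35070) x29238) x30750) x30694) x11014)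
    (Nat.sub (Nat.add (Nat.add (Nat.add (Nat.add (Nat.add (Nat.add (Nat.add (Nat.add (Nat.add C x30716) x17594) x43838) x35090) x29258) x30878) x30662) x30734) x30722) x50398)
    (Nat.sub (Nat.sub (Nat.add (Nat.add (Nat.add (Nat.add (Nat.add (Nat.add (Nat.add (Nat.add (Nat.add C x17600) x43844) x35096) x29264) x30884) x30668) x30740) x30716) x30724) x30722) x50404)
    (Nat.sub (Nat.sub (Nat.add (Nat.add (Nat.add (Nat.add (Nat.add (Nat.add (Nat.add (Nat.add C x17602) x43846) x35098) x29266) x30886) x30670) x30742) x30722) x50406) x11042)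
    (Nat.sub (Nat.add (Nat.add (Nat.add (Nat.add (Nat.add (Nat.add (Nat.add (Nat.add (Nat.add C x17612) x43856) x35108) x29276) x30896) x30680) x30788) x30716) x30740) x50416)
    (Nat.sub (Nat.add (Nat.add (Nat.add (Nat.add (Nat.add (Nat.add (Nat.add (Nat.add (Nat.add (Nat.add (Nat.add (Nat.add C x17618) x43862) x35114) x29282) x30902) x30686) x30794) x30722) x30758) x30734) x30746) x30742) x50422)
    (Nat.sub (Nat.sub (Nat.add (Nat.add (Nat.add (Nat.add (Nat.add (Nat.add (Nat.add (Nat.add (Nat.add (Nat.add (Nat.add C x17620) x43864) x35116) x29284) x30904) x30688) x30796) x30724) x30760) x30748) x30740) x50424) x11060)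
    (Nat.sub (Nat.sub (Nat.add (Nat.add (Nat.add (Nat.add (Nat.add (Nat.add (Nat.add (Nat.add (Nat.add (Nat.add C x17624) x43868) x35120) x29288) x30908) x30692) x30800) x30764) x30740) x30748) (Nat.mul x30746 (nat_lit 2))) x50428)
    (Nat.sub (Nat.sub (Nat.add (Nat.add (Nat.add (Nat.add (Nat.add (Nat.add (Nat.add (Nat.add (Nat.add (Nat.add (Nat.add C x17626) x43870) x35122) x29290) x30910) x30694) x30802) x30766) x30742) x30746) x30750) x50430) x11066)
    (Nat.sub (Nat.add (Nat.add (Nat.add (Nat.add (Nat.add (Nat.add (Nat.add (Nat.add (Nat.add C x17628) x43872) x35124) x29292) x30912) x30696) x30804) x30768) x30748) x11068)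
    (Nat.sub (Nat.sub (Nat.add (Nat.add (Nat.add (Nat.add (Nat.add (Nat.add (Nat.add (Nat.add (Nat.add C x17636) x43880) x35132) x29300) x30920) x30812) x30740) x30764) x30760) x30758) x50440)
    (Nat.sub (Nat.sub (Nat.sub (Nat.add (Nat.add (Nat.add (Nat.add (Nat.add (Nat.add (Nat.add (Nat.add (Nat.add C x17638) x43882) x35134) x29302) x30922) x30814) x30742) x30766) x30758) (Nat.mul x30760 (nat_lit 2))) x50442) x11078)
    (Nat.sub (Nat.sub (Nat.add (Nat.add (Nat.add (Nat.add (Nat.add (Nat.add (Nat.add (Nat.add (Nat.add C x17642) x43886) x35138) x29306) x30926) x30818) x30746) x30758) x30766) x30764) x50446)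
    (Nat.sub (Nat.sub (Nat.add (Nat.add (Nat.add (Nat.add (Nat.add (Nat.add (Nat.add (Nat.add (Nat.add (Nat.add (Nat.add C x17644) x43888) x35140) x29308) x30928) x30820) x30748) x30760) x30772) x30764) x30768) x50448) x11084)
    (Nat.sub (Nat.sub (Nat.add (Nat.add (Nat.add (Nat.add (Nat.add (Nat.add (Nat.add (Nat.add (Nat.add C x17646) x43890) x35142) x29310) x30930) x30822) x30750) x30774) x30766) x30768) x11086)
    (Nat.sub (Nat.sub (Nat.add (Nat.add (Nat.add (Nat.add (Nat.add (Nat.add (Nat.add (Nat.add C x17650) x43894) x35146) x29314) x30934) x30826) x30766) x30774) x50454) x11090)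
    (Nat.sub (Nat.add (Nat.add (Nat.add (Nat.add (Nat.add (Nat.add (Nat.add (Nat.add (Nat.add C x30774) x17652) x43896) x35148) x29316) x30936) x30828) x30768) x30772) x11092)
    (Nat.sub (Nat.sub (Nat.add (Nat.add (Nat.add (Nat.add (Nat.add (Nat.add (Nat.add C x17666) x43910) x35162) x29330) x30950) x30734) x30794) x30788) x50470)
    (Nat.sub (Nat.sub (Nat.add (Nat.add (Nat.add (Nat.add (Nat.add (Nat.add (Nat.add (Nat.add (Nat.add (Nat.add C x17672) x43916) x35168) x29336) x30956) x30740) x30812) x30788) x30800) x30796) (Nat.mul x30794 (nat_lit 2))) x50476)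
    (Nat.sub (Nat.sub (Nat.sub (Nat.add (Nat.add (Nat.add (Nat.add (Nat.add (Nat.add (Nat.add (Nat.add (Nat.add C x17674) x43918) x35170) x29338) x30958) x30742) x30814) x30802) x30794) (Nat.mul x30796 (nat_lit 2))) x50478) x11114)
    (Nat.sub (Nat.sub (Nat.add (Nat.add (Nat.add (Nat.add (Nat.add (Nat.add (Nat.add (Nat.add (Nat.add C x17678) x43922) x35174) x29342) x30962) x30746) x30818) x30794) x30802) (Nat.mul x30800 (nat_lit 5))) x50482)
    (Nat.sub (Nat.sub (Nat.sub (Nat.add (Nat.add (Nat.add (Nat.add (Nat.add (Nat.add (Nat.add (Nat.add (Nat.add (Nat.add C x17680) x43924) x35176) x29344) x30964) x30748) x30820) x30796) x30800) x30804) (Nat.mul x30802 (nat_lit 3))) x50484) x11120)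
    (Nat.sub (Nat.sub (Nat.add (Nat.add (Nat.add (Nat.add (Nat.add (Nat.add (Nat.add (Nat.add C x17682) x43926) x35178) x29346) x30966) x30750) x30822) x30802) (Nat.mul x30804 (nat_lit 3))) x11122)
    (Nat.sub (Nat.sub (Nat.add (Nat.add (Nat.add (Nat.add (Nat.add (Nat.add (Nat.add (Nat.add (Nat.add C x17690) x43934) x35186) x29354) x30974) x30758) x30794) x30818) x30814) x30812) x50494)
    (Nat.sub (Nat.sub (Nat.sub (Nat.add (Nat.add (Nat.add (Nat.add (Nat.add (Nat.add (Nat.add (Nat.add (Nat.add C x17692) x43936) x35188) x29356) x30976) x30760) x30796) x30820) x30812) (Nat.mul x30814 (nat_lit 2))) x50496) x11132)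
    (Nat.sub (Nat.sub (Nat.add (Nat.add (Nat.add (Nat.add (Nat.add (Nat.add (Nat.add (Nat.add (Nat.add (Nat.add C x17696) x43940) x35192) x29360) x30980) x30764) x30800) x30836) x30812) x30820) (Nat.mul x30818 (nat_lit 2))) x50500)
    (Nat.sub (Nat.sub (Nat.sub (Nat.add (Nat.add (Nat.add (Nat.add (Nat.add (Nat.add (Nat.add (Nat.add (Nat.add (Nat.add (Nat.add (Nat.add C x17698) x43942) x35194) x29362) x30982) x30766) x30802) x30838) x30814) x30826) x30818) x30822) x30820) x50502) x11138)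
    (Nat.sub (Nat.sub (Nat.add (Nat.add (Nat.add (Nat.add (Nat.add (Nat.add (Nat.add (Nat.add (Nat.add (Nat.add C x17700) x43944) x35196) x29364) x30984) x30768) x30804) x30840) x30828) x30820) (Nat.mul x30822 (nat_lit 2))) x11140)
    (Nat.sub (Nat.sub (Nat.sub (Nat.add (Nat.add (Nat.add (Nat.add (Nat.add (Nat.add (Nat.add (Nat.add (Nat.add C x17704) x43948) x35200) x29368) x30988) x30772) x30844) x30820) x30828) (Nat.mul x30826 (nat_lit 2))) x50508) x11144)
    (Nat.sub (Nat.sub (Nat.add (Nat.add (Nat.add (Nat.add (Nat.add (Nat.add (Nat.add (Nat.add (Nat.add C x17706) x43950) x35202) x29370) x30990) x30774) x30846) x30822) x30826) x30828) x11146)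
    (Nat.sub (Nat.sub (Nat.add (Nat.add (Nat.add (Nat.add (Nat.add (Nat.add (Nat.add C x17714) x43958) x35210) x29378) x30998) x30818) x30838) x30836) x50518)
    (Nat.sub (Nat.sub (Nat.sub (Nat.add (Nat.add (Nat.add (Nat.add (Nat.add (Nat.add (Nat.add (Nat.add (Nat.add C x17716) x43960) x35212) x29380) x31000) x30820) x30844) x30836) x30840) x30838) x50520) x11156)
    (Nat.sub (Nat.sub (Nat.add (Nat.add (Nat.add (Nat.add (Nat.add (Nat.add (Nat.add (Nat.add C x17718) x43962) x35214) x29382) x31002) x30822) x30846) x30838) (Nat.mul x30840 (nat_lit 3))) x11158)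
    (Nat.sub (Nat.sub (Nat.add (Nat.add (Nat.add (Nat.add (Nat.add (Nat.add (Nat.add (Nat.add C x17722) x43966) x35218) x29386) x31006) x30826) x30838) x30846) x50526) x11162)
    (Nat.sub (Nat.add (Nat.add (Nat.add (Nat.add (Nat.add (Nat.add (Nat.add (Nat.add (Nat.add C x17724) x43968) x35220) x29388) x31008) x30828) x30840) x30852) x30844) x11164)
    (Nat.sub (Nat.add (Nat.add (Nat.add (Nat.add (Nat.add (Nat.add (Nat.add C x30852) x17730) x43974) x35226) x29394) x31014) x30846) x11170)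
    (Nat.sub (Nat.add (Nat.add (Nat.add (Nat.add (Nat.add (Nat.add (Nat.add (Nat.add (Nat.add C x30878) x17756) x44000) x35252) x29420) x31364) x30716) x30896) x30884) x50560)
    (Nat.sub (Nat.sub (Nat.add (Nat.add (Nat.add (Nat.add (Nat.add (Nat.add (Nat.add (Nat.add (Nat.add C x17762) x44006) x35258) x29426) x31370) x30722) x30902) x30878) x30886) x30884) x50566)
    (Nat.sub (Nat.sub (Nat.add (Nat.add (Nat.add (Nat.add (Nat.add (Nat.add (Nat.add (Nat.add C x17764) x44008) x35260) x29428) x31372) x30724) x30904) x30884) x50568) x11204)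
    (Nat.sub (Nat.sub (Nat.add (Nat.add (Nat.add (Nat.add (Nat.add (Nat.add (Nat.add (Nat.add (Nat.add C x17774) x44018) x35270) x29438) x31382) x30734) x30950) x30878) x30902) x30896) x50578)
    (Nat.sub (Nat.sub (Nat.add (Nat.add (Nat.add (Nat.add (Nat.add (Nat.add (Nat.add (Nat.add (Nat.add (Nat.add (Nat.add (Nat.add C x17780) x44024) x35276) x29444) x31388) x30740) x30956) x30884) x30920) x30896) x30908) x30904) x30902) x50584)
    (Nat.sub (Nat.sub (Nat.sub (Nat.add (Nat.add (Nat.add (Nat.add (Nat.add (Nat.add (Nat.add (Nat.add (Nat.add (Nat.add (Nat.add C x17782) x44026) x35278) x29446) x31390) x30742) x30958) x30886) x30922) x30910) x30902) x30904) x50586) x11222)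
    (Nat.sub (Nat.sub (Nat.add (Nat.add (Nat.add (Nat.add (Nat.add (Nat.add (Nat.add (Nat.add (Nat.add (Nat.add C x17786) x44030) x35282) x29450) x31394) x30746) x30962) x30926) x30902) x30910) (Nat.mul x30908 (nat_lit 3))) x50590)
    (Nat.sub (Nat.sub (Nat.sub (Nat.add (Nat.add (Nat.add (Nat.add (Nat.add (Nat.add (Nat.add (Nat.add (Nat.add (Nat.add (Nat.add C x17788) x44032) x35284) x29452) x31396) x30748) x30964) x30928) x30904) x30908) x30912) x30910) x50592) x11228)
    (Nat.sub (Nat.sub (Nat.add (Nat.add (Nat.add (Nat.add (Nat.add (Nat.add (Nat.add (Nat.add (Nat.add C x17790) x44034) x35286) x29454) x31398) x30750) x30966) x30930) x30910) x30912) x11230)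
    (Nat.sub (Nat.sub (Nat.add (Nat.add (Nat.add (Nat.add (Nat.add (Nat.add (Nat.add (Nat.add (Nat.add (Nat.add C x17798) x44042) x35294) x29462) x31406) x30758) x30974) x30902) x30926) x30922) (Nat.mul x30920 (nat_lit 3))) x50602)
    (Nat.sub (Nat.sub (Nat.sub (Nat.add (Nat.add (Nat.add (Nat.add (Nat.add (Nat.add (Nat.add (Nat.add (Nat.add (Nat.add C x17800) x44044) x35296) x29464) x31408) x30760) x30976) x30904) x30928) x30920) (Nat.mul x30922 (nat_lit 4))) x50604) x11240)
    (Nat.sub (Nat.sub (Nat.add (Nat.add (Nat.add (Nat.add (Nat.add (Nat.add (Nat.add (Nat.add (Nat.add (Nat.add C x17804) x44048) x35300) x29468) x31412) x30764) x30980) x30908) x30920) x30928) (Nat.mul x30926 (nat_lit 3))) x50608)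
    (Nat.sub (Nat.sub (Nat.sub (Nat.add (Nat.add (Nat.add (Nat.add (Nat.add (Nat.add (Nat.add (Nat.add (Nat.add (Nat.add (Nat.add (Nat.add C x17806) x44050) x35302) x29470) x31414) x30766) x30982) x30910) x30922) x30934) x30926) x30930) (Nat.mul x30928 (nat_lit 2))) x50610) x11246)
    (Nat.sub (Nat.sub (Nat.add (Nat.add (Nat.add (Nat.add (Nat.add (Nat.add (Nat.add (Nat.add (Nat.add (Nat.add C x17808) x44052) x35304) x29472) x31416) x30768) x30984) x30912) x30936) x30928) (Nat.mul x30930 (nat_lit 3))) x11248)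
    (Nat.sub (Nat.sub (Nat.sub (Nat.add (Nat.add (Nat.add (Nat.add (Nat.add (Nat.add (Nat.add (Nat.add (Nat.add C x17812) x44056) x35308) x29476) x31420) x30772) x30988) x30928) x30936) (Nat.mul x30934 (nat_lit 2))) x50616) x11252)
    (Nat.sub (Nat.sub (Nat.add (Nat.add (Nat.add (Nat.add (Nat.add (Nat.add (Nat.add (Nat.add (Nat.add C x17814) x44058) x35310) x29478) x31422) x30774) x30990) x30930) x30934) x30936) x11254)
    (Nat.sub (Nat.add (Nat.add (Nat.add (Nat.add (Nat.add (Nat.add (Nat.add (Nat.add (Nat.add C x17828) x44072) x35324) x29492) x31436) x30788) x31112) x30896) x30956) x50632)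
    (Nat.sub (Nat.sub (Nat.add (Nat.add (Nat.add (Nat.add (Nat.add (Nat.add (Nat.add (Nat.add (Nat.add (Nat.add (Nat.add (Nat.add C x17834) x44078) x35330) x29498) x31442) x30794) x31118) x30902) x30974) x30950) x30962) x30958) x30956) x50638)
    (Nat.sub (Nat.sub (Nat.sub (Nat.add (Nat.add (Nat.add (Nat.add (Nat.add (Nat.add (Nat.add (Nat.add (Nat.add (Nat.add (Nat.add C x17836) x44080) x35332) x29500) x31444) x30796) x31120) x30904) x30976) x30964) x30956) x30958) x50640) x11276)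
    (Nat.sub (Nat.sub (Nat.add (Nat.add (Nat.add (Nat.add (Nat.add (Nat.add (Nat.add (Nat.add (Nat.add (Nat.add (Nat.add C x17840) x44084) x35336) x29504) x31448) x30800) x31124) x30908) x30980) x30956) x30964) (Nat.mul x30962 (nat_lit 4))) x50644)
    (Nat.sub (Nat.sub (Nat.sub (Nat.add (Nat.add (Nat.add (Nat.add (Nat.add (Nat.add (Nat.add (Nat.add (Nat.add (Nat.add (Nat.add (Nat.add C x17842) x44086) x35338) x29506) x31450) x30802) x31126) x30910) x30982) x30958) x30962) x30966) (Nat.mul x30964 (nat_lit 2))) x50646) x11282)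
    (Nat.sub (Nat.sub (Nat.add (Nat.add (Nat.add (Nat.add (Nat.add (Nat.add (Nat.add (Nat.add (Nat.add (Nat.add C x17844) x44088) x35340) x29508) x31452) x30804) x31128) x30912) x30984) x30964) (Nat.mul x30966 (nat_lit 2))) x11284)
    (Nat.sub (Nat.sub (Nat.add (Nat.add (Nat.add (Nat.add (Nat.add (Nat.add (Nat.add (Nat.add (Nat.add (Nat.add (Nat.add (Nat.add C x17852) x44096) x35348) x29516) x31460) x30812) x31136) x30920) x31028) x30956) x30980) x30976) x30974) x50656)
    (Nat.sub (Nat.sub (Nat.sub (Nat.add (Nat.add (Nat.add (Nat.add (Nat.add (Nat.add (Nat.add (Nat.add (Nat.add (Nat.add (Nat.add (Nat.add C x17854) x44098) x35350) x29518) x31462) x30814) x31138) x30922) x31030) x30958) x30982) x30974) (Nat.mul x30976 (nat_lit 2))) x50658) x11294)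
    (Nat.sub (Nat.sub (Nat.add (Nat.add (Nat.add (Nat.add (Nat.add (Nat.add (Nat.add (Nat.add (Nat.add (Nat.add (Nat.add (Nat.add (Nat.add C x17858) x44102) x35354) x29522) x31466) x30818) x31142) x30926) x31034) x30962) x30998) x30974) x30982) (Nat.mul x30980 (nat_lit 2))) x50662)
    (Nat.sub (Nat.sub (Nat.sub (Nat.add (Nat.add (Nat.add (Nat.add (Nat.add (Nat.add (Nat.add (Nat.add (Nat.add (Nat.add (Nat.add (Nat.add (Nat.add (Nat.add (Nat.add C x17860) x44104) x35356) x29524) x31468) x30820) x31144) x30928) x31036) x30964) x31000) x30976) x30988) x30980) x30984) x30982) x50664) x11300)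
    (Nat.sub (Nat.sub (Nat.add (Nat.add (Nat.add (Nat.add (Nat.add (Nat.add (Nat.add (Nat.add (Nat.add (Nat.add (Nat.add (Nat.add (Nat.add C x17862) x44106) x35358) x29526) x31470) x30822) x31146) x30930) x31038) x30966) x31002) x30990) x30982) (Nat.mul x30984 (nat_lit 2))) x11302)
    (Nat.sub (Nat.sub (Nat.sub (Nat.add (Nat.add (Nat.add (Nat.add (Nat.add (Nat.add (Nat.add (Nat.add (Nat.add (Nat.add (Nat.add (Nat.add C x17866) x44110) x35362) x29530) x31474) x30826) x31150) x30934) x31042) x31006) x30982) x30990) (Nat.mul x30988 (nat_lit 2))) x50670) x11306)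
    (Nat.sub (Nat.sub (Nat.add (Nat.add (Nat.add (Nat.add (Nat.add (Nat.add (Nat.add (Nat.add (Nat.add (Nat.add (Nat.add (Nat.add C x17868) x44112) x35364) x29532) x31476) x30828) x31152) x30936) x31044) x31008) x30984) x30988) x30990) x11308)
    (Nat.sub (Nat.sub (Nat.add (Nat.add (Nat.add (Nat.add (Nat.add (Nat.add (Nat.add (Nat.add (Nat.add (Nat.add C x17876) x44120) x35372) x29540) x31484) x30836) x31160) x31052) x30980) x31000) (Nat.mul x30998 (nat_lit 2))) x50680)
    (Nat.sub (Nat.sub (Nat.sub (Nat.add (Nat.add (Nat.add (Nat.add (Nat.add (Nat.add (Nat.add (Nat.add (Nat.add (Nat.add (Nat.add (Nat.add C x17878) x44122) x35374) x29542) x31486) x30838) x31162) x31054) x30982) x31006) x30998) x31002) (Nat.mul x31000 (nat_lit 2))) x50682) x11318)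
    (Nat.sub (Nat.sub (Nat.add (Nat.add (Nat.add (Nat.add (Nat.add (Nat.add (Nat.add (Nat.add (Nat.add (Nat.add (Nat.add C x17880) x44124) x35376) x29544) x31488) x30840) x31164) x31056) x30984) x31008) x31000) (Nat.mul x31002 (nat_lit 4))) x11320)
    (Nat.sub (Nat.sub (Nat.sub (Nat.add (Nat.add (Nat.add (Nat.add (Nat.add (Nat.add (Nat.add (Nat.add (Nat.add (Nat.add (Nat.add C x17884) x44128) x35380) x29548) x31492) x30844) x31168) x31060) x30988) x31000) x31008) x31006) x50688) x11324)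
    (Nat.sub (Nat.sub (Nat.add (Nat.add (Nat.add (Nat.add (Nat.add (Nat.add (Nat.add (Nat.add (Nat.add (Nat.add (Nat.add (Nat.add C x17886) x44130) x35382) x29550) x31494) x30846) x31170) x31062) x30990) x31002) x31014) x31006) x31008) x11326)
    (Nat.sub (Nat.add (Nat.add (Nat.add (Nat.add (Nat.add (Nat.add (Nat.add (Nat.add (Nat.add C x17892) x44136) x35388) x29556) x31500) x30852) x31176) x31068) x31008) x11332)
    (Nat.sub (Nat.sub (Nat.add (Nat.add (Nat.add (Nat.add (Nat.add (Nat.add (Nat.add (Nat.add (Nat.add C x17906) x44150) x35402) x29570) x31514) x31190) x30974) x31034) x31030) x31028) x50710)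
    (Nat.sub (Nat.sub (Nat.sub (Nat.add (Nat.add (Nat.add (Nat.add (Nat.add (Nat.add (Nat.add (Nat.add (Nat.add C x17908) x44152) x35404) x29572) x31516) x31192) x30976) x31036) x31028) (Nat.mul x31030 (nat_lit 2))) x50712) x11348)
    (Nat.sub (Nat.sub (Nat.add (Nat.add (Nat.add (Nat.add (Nat.add (Nat.add (Nat.add (Nat.add (Nat.add (Nat.add C x17912) x44156) x35408) x29576) x31520) x31196) x30980) x31052) x31028) x31036) (Nat.mul x31034 (nat_lit 3))) x50716)
    (Nat.sub (Nat.sub (Nat.sub (Nat.add (Nat.add (Nat.add (Nat.add (Nat.add (Nat.add (Nat.add (Nat.add (Nat.add (Nat.add (Nat.add (Nat.add C x17914) x44158) x35410) x29578) x31522) x31198) x30982) x31054) x31030) x31042) x31034) x31038) (Nat.mul x31036 (nat_lit 2))) x50718) x11354)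
    (Nat.sub (Nat.sub (Nat.add (Nat.add (Nat.add (Nat.add (Nat.add (Nat.add (Nat.add (Nat.add (Nat.add (Nat.add C x17916) x44160) x35412) x29580) x31524) x31200) x30984) x31056) x31044) x31036) (Nat.mul x31038 (nat_lit 3))) x11356)
    (Nat.sub (Nat.sub (Nat.sub (Nat.add (Nat.add (Nat.add (Nat.add (Nat.add (Nat.add (Nat.add (Nat.add (Nat.add (Nat.add C x17920) x44164) x35416) x29584) x31528) x31204) x30988) x31060) x31036) x31044) (Nat.mul x31042 (nat_lit 4))) x50724) x11360)
    (Nat.sub (Nat.sub (Nat.add (Nat.add (Nat.add (Nat.add (Nat.add (Nat.add (Nat.add (Nat.add (Nat.add (Nat.add C x17922) x44166) x35418) x29586) x31530) x31206) x30990) x31062) x31038) x31042) (Nat.mul x31044 (nat_lit 3))) x11362)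
    (Nat.sub (Nat.sub (Nat.add (Nat.add (Nat.add (Nat.add (Nat.add (Nat.add (Nat.add (Nat.add (Nat.add C x17930) x44174) x35426) x29594) x31538) x31214) x30998) x31034) x31054) x31052) x50734)
    (Nat.sub (Nat.sub (Nat.sub (Nat.add (Nat.add (Nat.add (Nat.add (Nat.add (Nat.add (Nat.add (Nat.add (Nat.add (Nat.add (Nat.add C x17932) x44176) x35428) x29596) x31540) x31216) x31000) x31036) x31060) x31052) x31056) x31054) x50736) x11372)
    (Nat.sub (Nat.sub (Nat.add (Nat.add (Nat.add (Nat.add (Nat.add (Nat.add (Nat.add (Nat.add (Nat.add (Nat.add C x17934) x44178) x35430) x29598) x31542) x31218) x31002) x31038) x31062) x31054) (Nat.mul x31056 (nat_lit 3))) x11374)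
    (Nat.sub (Nat.sub (Nat.sub (Nat.add (Nat.add (Nat.add (Nat.add (Nat.add (Nat.add (Nat.add (Nat.add (Nat.add (Nat.add (Nat.add C x17938) x44182) x35434) x29602) x31546) x31222) x31006) x31042) x31078) x31054) x31062) x31060) x50742) x11378)
    (Nat.sub (Nat.sub (Nat.add (Nat.add (Nat.add (Nat.add (Nat.add (Nat.add (Nat.add (Nat.add (Nat.add (Nat.add (Nat.add (Nat.add C x17940) x44184) x35436) x29604) x31548) x31224) x31008) x31044) x31080) x31056) x31068) x31060) x31062) x11380)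
    (Nat.sub (Nat.sub (Nat.add (Nat.add (Nat.add (Nat.add (Nat.add (Nat.add (Nat.add (Nat.add (Nat.add C x17946) x44190) x35442) x29610) x31554) x31230) x31014) x31086) x31062) x31068) x11386)
    (Nat.sub (Nat.sub (Nat.add (Nat.add (Nat.add (Nat.add (Nat.add (Nat.add (Nat.add (Nat.add C x17956) x44200) x35452) x29620) x31564) x31240) x31060) x31080) x50760) x11396)
    (Nat.sub (Nat.sub (Nat.add (Nat.add (Nat.add (Nat.add (Nat.add (Nat.add (Nat.add (Nat.add (Nat.add C x17958) x44202) x35454) x29622) x31566) x31242) x31062) x31086) x31078) x31080) x11398)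
    (Nat.sub (Nat.add (Nat.add (Nat.add (Nat.add (Nat.add (Nat.add (Nat.add (Nat.add (Nat.add C x31086) x17964) x44208) x35460) x29628) x31572) x31248) x31068) x31080) x11404)
    (Nat.sub (Nat.sub (Nat.add (Nat.add (Nat.add (Nat.add (Nat.add (Nat.add (Nat.add C x17990) x44234) x35486) x29654) x31598) x30950) x31118) x31112) x50794)
    (Nat.sub (Nat.sub (Nat.add (Nat.add (Nat.add (Nat.add (Nat.add (Nat.add (Nat.add (Nat.add (Nat.add (Nat.add C x17996) x44240) x35492) x29660) x31604) x30956) x31136) x31112) x31124) x31120) (Nat.mul x31118 (nat_lit 2))) x50800)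
    (Nat.sub (Nat.sub (Nat.sub (Nat.add (Nat.add (Nat.add (Nat.add (Nat.add (Nat.add (Nat.add (Nat.add (Nat.add C x17998) x44242) x35494) x29662) x31606) x30958) x31138) x31126) x31118) (Nat.mul x31120 (nat_lit 2))) x50802) x11438)
    (Nat.sub (Nat.sub (Nat.add (Nat.add (Nat.add (Nat.add (Nat.add (Nat.add (Nat.add (Nat.add (Nat.add C x18002) x44246) x35498) x29666) x31610) x30962) x31142) x31118) x31126) (Nat.mul x31124 (nat_lit 5))) x50806)
    (Nat.sub (Nat.sub (Nat.sub (Nat.add (Nat.add (Nat.add (Nat.add (Nat.add (Nat.add (Nat.add (Nat.add (Nat.add (Nat.add C x18004) x44248) x35500) x29668) x31612) x30964) x31144) x31120) x31124) x31128) (Nat.mul x31126 (nat_lit 3))) x50808) x11444)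
    (Nat.sub (Nat.sub (Nat.add (Nat.add (Nat.add (Nat.add (Nat.add (Nat.add (Nat.add (Nat.add C x18006) x44250) x35502) x29670) x31614) x30966) x31146) x31126) (Nat.mul x31128 (nat_lit 3))) x11446)
    (Nat.sub (Nat.sub (Nat.add (Nat.add (Nat.add (Nat.add (Nat.add (Nat.add (Nat.add (Nat.add (Nat.add (Nat.add C x18014) x44258) x35510) x29678) x31622) x30974) x31190) x31118) x31142) x31138) (Nat.mul x31136 (nat_lit 3))) x50818)
    (Nat.sub (Nat.sub (Nat.sub (Nat.add (Nat.add (Nat.add (Nat.add (Nat.add (Nat.add (Nat.add (Nat.add (Nat.add (Nat.add C x18016) x44260) x35512) x29680) x31624) x30976) x31192) x31120) x31144) x31136) (Nat.mul x31138 (nat_lit 4))) x50820) x11456)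
    (Nat.sub (Nat.sub (Nat.add (Nat.add (Nat.add (Nat.add (Nat.add (Nat.add (Nat.add (Nat.add (Nat.add (Nat.add (Nat.add C x18020) x44264) x35516) x29684) x31628) x30980) x31196) x31124) x31160) x31136) x31144) (Nat.mul x31142 (nat_lit 4))) x50824)
    (Nat.sub (Nat.sub (Nat.sub (Nat.add (Nat.add (Nat.add (Nat.add (Nat.add (Nat.add (Nat.add (Nat.add (Nat.add (Nat.add (Nat.add (Nat.add (Nat.add C x18022) x44266) x35518) x29686) x31630) x30982) x31198) x31126) x31162) x31138) x31150) x31142) x31146) (Nat.mul x31144 (nat_lit 3))) x50826) x11462)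
    (Nat.sub (Nat.sub (Nat.add (Nat.add (Nat.add (Nat.add (Nat.add (Nat.add (Nat.add (Nat.add (Nat.add (Nat.add (Nat.add C x18024) x44268) x35520) x29688) x31632) x30984) x31200) x31128) x31164) x31152) x31144) (Nat.mul x31146 (nat_lit 4))) x11464)
    (Nat.sub (Nat.sub (Nat.sub (Nat.add (Nat.add (Nat.add (Nat.add (Nat.add (Nat.add (Nat.add (Nat.add (Nat.add (Nat.add C x18028) x44272) x35524) x29692) x31636) x30988) x31204) x31168) x31144) x31152) (Nat.mul x31150 (nat_lit 4))) x50832) x11468)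
    (Nat.sub (Nat.sub (Nat.add (Nat.add (Nat.add (Nat.add (Nat.add (Nat.add (Nat.add (Nat.add (Nat.add (Nat.add C x18030) x44274) x35526) x29694) x31638) x30990) x31206) x31170) x31146) x31150) (Nat.mul x31152 (nat_lit 3))) x11470)
    (Nat.sub (Nat.sub (Nat.add (Nat.add (Nat.add (Nat.add (Nat.add (Nat.add (Nat.add (Nat.add (Nat.add C x18038) x44282) x35534) x29702) x31646) x30998) x31214) x31142) x31162) (Nat.mul x31160 (nat_lit 5))) x50842)
    (Nat.sub (Nat.sub (Nat.sub (Nat.add (Nat.add (Nat.add (Nat.add (Nat.add (Nat.add (Nat.add (Nat.add (Nat.add (Nat.add (Nat.add C x18040) x44284) x35536) x29704) x31648) x31000) x31216) x31144) x31168) x31160) x31164) (Nat.mul x31162 (nat_lit 5))) x50844) x11480)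
    (Nat.sub (Nat.sub (Nat.add (Nat.add (Nat.add (Nat.add (Nat.add (Nat.add (Nat.add (Nat.add (Nat.add (Nat.add C x18042) x44286) x35538) x29706) x31650) x31002) x31218) x31146) x31170) x31162) (Nat.mul x31164 (nat_lit 7))) x11482)
    (Nat.sub (Nat.sub (Nat.sub (Nat.add (Nat.add (Nat.add (Nat.add (Nat.add (Nat.add (Nat.add (Nat.add (Nat.add (Nat.add C x18046) x44290) x35542) x29710) x31654) x31006) x31222) x31150) x31162) x31170) (Nat.mul x31168 (nat_lit 4))) x50850) x11486)
    (Nat.sub (Nat.sub (Nat.add (Nat.add (Nat.add (Nat.add (Nat.add (Nat.add (Nat.add (Nat.add (Nat.add (Nat.add (Nat.add C x18048) x44292) x35544) x29712) x31656) x31008) x31224) x31152) x31164) x31176) x31168) (Nat.mul x31170 (nat_lit 4))) x11488)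
    (Nat.sub (Nat.sub (Nat.add (Nat.add (Nat.add (Nat.add (Nat.add (Nat.add (Nat.add (Nat.add C x18054) x44298) x35550) x29718) x31662) x31014) x31230) x31170) (Nat.mul x31176 (nat_lit 3))) x11494)
    (Nat.sub (Nat.sub (Nat.add (Nat.add (Nat.add (Nat.add (Nat.add (Nat.add (Nat.add (Nat.add (Nat.add C x18068) x44312) x35564) x29732) x31676) x31028) x31136) x31196) x31192) x31190) x50872)
    (Nat.sub (Nat.sub (Nat.sub (Nat.add (Nat.add (Nat.add (Nat.add (Nat.add (Nat.add (Nat.add (Nat.add (Nat.add C x18070) x44314) x35566) x29734) x31678) x31030) x31138) x31198) x31190) (Nat.mul x31192 (nat_lit 2))) x50874) x11510)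
    (Nat.sub (Nat.sub (Nat.add (Nat.add (Nat.add (Nat.add (Nat.add (Nat.add (Nat.add (Nat.add (Nat.add (Nat.add C x18074) x44318) x35570) x29738) x31682) x31034) x31142) x31214) x31190) x31198) (Nat.mul x31196 (nat_lit 3))) x50878)
    (Nat.sub (Nat.sub (Nat.sub (Nat.add (Nat.add (Nat.add (Nat.add (Nat.add (Nat.add (Nat.add (Nat.add (Nat.add (Nat.add (Nat.add (Nat.add C x18076) x44320) x35572) x29740) x31684) x31036) x31144) x31216) x31192) x31204) x31196) x31200) (Nat.mul x31198 (nat_lit 2))) x50880) x11516)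
    (Nat.sub (Nat.sub (Nat.add (Nat.add (Nat.add (Nat.add (Nat.add (Nat.add (Nat.add (Nat.add (Nat.add (Nat.add C x18078) x44322) x35574) x29742) x31686) x31038) x31146) x31218) x31206) x31198) (Nat.mul x31200 (nat_lit 3))) x11518)
    (Nat.sub (Nat.sub (Nat.sub (Nat.add (Nat.add (Nat.add (Nat.add (Nat.add (Nat.add (Nat.add (Nat.add (Nat.add (Nat.add C x18082) x44326) x35578) x29746) x31690) x31042) x31150) x31222) x31198) x31206) (Nat.mul x31204 (nat_lit 4))) x50886) x11522)
    (Nat.sub (Nat.sub (Nat.add (Nat.add (Nat.add (Nat.add (Nat.add (Nat.add (Nat.add (Nat.add (Nat.add (Nat.add C x18084) x44328) x35580) x29748) x31692) x31044) x31152) x31224) x31200) x31204) (Nat.mul x31206 (nat_lit 3))) x11524)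
    (Nat.sub (Nat.sub (Nat.add (Nat.add (Nat.add (Nat.add (Nat.add (Nat.add (Nat.add (Nat.add (Nat.add (Nat.add C x18092) x44336) x35588) x29756) x31700) x31052) x31160) x31268) x31196) x31216) (Nat.mul x31214 (nat_lit 2))) x50896)
    (Nat.sub (Nat.sub (Nat.sub (Nat.add (Nat.add (Nat.add (Nat.add (Nat.add (Nat.add (Nat.add (Nat.add (Nat.add (Nat.add (Nat.add (Nat.add C x18094) x44338) x35590) x29758) x31702) x31054) x31162) x31270) x31198) x31222) x31214) x31218) (Nat.mul x31216 (nat_lit 2))) x50898) x11534)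
    (Nat.sub (Nat.sub (Nat.add (Nat.add (Nat.add (Nat.add (Nat.add (Nat.add (Nat.add (Nat.add (Nat.add (Nat.add (Nat.add C x18096) x44340) x35592) x29760) x31704) x31056) x31164) x31272) x31200) x31224) x31216) (Nat.mul x31218 (nat_lit 4))) x11536)
    (Nat.sub (Nat.sub (Nat.sub (Nat.add (Nat.add (Nat.add (Nat.add (Nat.add (Nat.add (Nat.add (Nat.add (Nat.add (Nat.add (Nat.add (Nat.add C x18100) x44344) x35596) x29764) x31708) x31060) x31168) x31276) x31204) x31240) x31216) x31224) (Nat.mul x31222 (nat_lit 2))) x50904) x11540)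
    (Nat.sub (Nat.sub (Nat.add (Nat.add (Nat.add (Nat.add (Nat.add (Nat.add (Nat.add (Nat.add (Nat.add (Nat.add (Nat.add (Nat.add (Nat.add C x18102) x44346) x35598) x29766) x31710) x31062) x31170) x31278) x31206) x31242) x31218) x31230) x31222) (Nat.mul x31224 (nat_lit 2))) x11542)
    (Nat.sub (Nat.sub (Nat.add (Nat.add (Nat.add (Nat.add (Nat.add (Nat.add (Nat.add (Nat.add (Nat.add (Nat.add C x18108) x44352) x35604) x29772) x31716) x31068) x31176) x31284) x31248) x31224) (Nat.mul x31230 (nat_lit 2))) x11548)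
    (Nat.sub (Nat.sub (Nat.sub (Nat.add (Nat.add (Nat.add (Nat.add (Nat.add (Nat.add (Nat.add (Nat.add (Nat.add C x18118) x44362) x35614) x29782) x31726) x31078) x31294) x31222) x31242) (Nat.mul x31240 (nat_lit 2))) x50922) x11558)
    (Nat.sub (Nat.sub (Nat.add (Nat.add (Nat.add (Nat.add (Nat.add (Nat.add (Nat.add (Nat.add (Nat.add (Nat.add C x18120) x44364) x35616) x29784) x31728) x31080) x31296) x31224) x31248) x31240) (Nat.mul x31242 (nat_lit 3))) x11560)
    (Nat.sub (Nat.sub (Nat.add (Nat.add (Nat.add (Nat.add (Nat.add (Nat.add (Nat.add (Nat.add (Nat.add C x18126) x44370) x35622) x29790) x31734) x31086) x31302) x31230) x31242) x31248) x11566)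
    (Nat.sub (Nat.sub (Nat.add (Nat.add (Nat.add (Nat.add (Nat.add (Nat.add (Nat.add C x18146) x44390) x35642) x29810) x31754) x31214) x31270) x31268) x50950)
    (Nat.sub (Nat.sub (Nat.sub (Nat.add (Nat.add (Nat.add (Nat.add (Nat.add (Nat.add (Nat.add (Nat.add (Nat.add C x18148) x44392) x35644) x29812) x31756) x31216) x31276) x31268) x31272) x31270) x50952) x11588)
    (Nat.sub (Nat.sub (Nat.add (Nat.add (Nat.add (Nat.add (Nat.add (Nat.add (Nat.add (Nat.add C x18150) x44394) x35646) x29814) x31758) x31218) x31278) x31270) (Nat.mul x31272 (nat_lit 3))) x11590)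
    (Nat.sub (Nat.sub (Nat.sub (Nat.add (Nat.add (Nat.add (Nat.add (Nat.add (Nat.add (Nat.add (Nat.add (Nat.add C x18154) x44398) x35650) x29818) x31762) x31222) x31294) x31270) x31278) (Nat.mul x31276 (nat_lit 2))) x50958) x11594)
    (Nat.sub (Nat.sub (Nat.add (Nat.add (Nat.add (Nat.add (Nat.add (Nat.add (Nat.add (Nat.add (Nat.add (Nat.add C x18156) x44400) x35652) x29820) x31764) x31224) x31296) x31272) x31284) x31276) (Nat.mul x31278 (nat_lit 2))) x11596)
    (Nat.sub (Nat.sub (Nat.add (Nat.add (Nat.add (Nat.add (Nat.add (Nat.add (Nat.add (Nat.add C x18162) x44406) x35658) x29826) x31770) x31230) x31302) x31278) (Nat.mul x31284 (nat_lit 3))) x11602)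
    (Nat.sub (Nat.sub (Nat.add (Nat.add (Nat.add (Nat.add (Nat.add (Nat.add (Nat.add (Nat.add C x18172) x44416) x35668) x29836) x31780) x31240) x31276) x31296) x50976) x11612)
    (Nat.sub (Nat.sub (Nat.add (Nat.add (Nat.add (Nat.add (Nat.add (Nat.add (Nat.add (Nat.add (Nat.add C x18174) x44418) x35670) x29838) x31782) x31242) x31278) x31302) x31294) x31296) x11614)
    (Nat.sub (Nat.add (Nat.add (Nat.add (Nat.add (Nat.add (Nat.add (Nat.add (Nat.add (Nat.add C x18180) x44424) x35676) x29844) x31788) x31248) x31284) x31320) x31296) x11620)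
    (Nat.sub (Nat.add (Nat.add (Nat.add (Nat.add (Nat.add (Nat.add (Nat.add C x31320) x18198) x44442) x35694) x29862) x31806) x31302) x11638)
    (Nat.sub (Nat.add (Nat.add (Nat.add (Nat.add (Nat.add (Nat.add (Nat.add (Nat.add C (Nat.mul x31364 (nat_lit 3))) x18242) x44486) x35738) x29906) x30878) x31382) x31370) x51046)
    (Nat.sub (Nat.add (Nat.add (Nat.add (Nat.add (Nat.add (Nat.add (Nat.add (Nat.add (Nat.add C x31370) x18248) x44492) x35744) x29912) x30884) x31388) x31364) x31372) x51052)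
    (Nat.sub (Nat.sub (Nat.add (Nat.add (Nat.add (Nat.add (Nat.add (Nat.add (Nat.add (Nat.add C (Nat.mul x31372 (nat_lit 2))) x18250) x44494) x35746) x29914) x30886) x31390) x31370) x51054) x11690)
    (Nat.sub (Nat.add (Nat.add (Nat.add (Nat.add (Nat.add (Nat.add (Nat.add (Nat.add (Nat.add C x31382) x18260) x44504) x35756) x29924) x30896) x31436) x31364) x31388) x51064)
    (Nat.sub (Nat.add (Nat.add (Nat.add (Nat.add (Nat.add (Nat.add (Nat.add (Nat.add (Nat.add (Nat.add (Nat.add (Nat.add C x31388) x18266) x44510) x35762) x29930) x30902) x31442) x31370) x31406) x31382) x31394) x31390) x51070)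
    (Nat.sub (Nat.sub (Nat.add (Nat.add (Nat.add (Nat.add (Nat.add (Nat.add (Nat.add (Nat.add (Nat.add (Nat.add (Nat.add C x31390) x18268) x44512) x35764) x29932) x30904) x31444) x31372) x31408) x31396) x31388) x51072) x11708)
    (Nat.sub (Nat.sub (Nat.add (Nat.add (Nat.add (Nat.add (Nat.add (Nat.add (Nat.add (Nat.add (Nat.add C x18272) x44516) x35768) x29936) x30908) x31448) x31412) x31388) x31396) x31394) x51076)
    (Nat.sub (Nat.sub (Nat.add (Nat.add (Nat.add (Nat.add (Nat.add (Nat.add (Nat.add (Nat.add (Nat.add (Nat.add (Nat.add C x31396) x18274) x44518) x35770) x29938) x30910) x31450) x31414) x31390) x31394) x31398) x51078) x11714)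
    (Nat.sub (Nat.add (Nat.add (Nat.add (Nat.add (Nat.add (Nat.add (Nat.add (Nat.add (Nat.add C x31398) x18276) x44520) x35772) x29940) x30912) x31452) x31416) x31396) x11716)
    (Nat.sub (Nat.sub (Nat.add (Nat.add (Nat.add (Nat.add (Nat.add (Nat.add (Nat.add (Nat.add (Nat.add C x18284) x44528) x35780) x29948) x30920) x31460) x31388) x31412) x31408) x31406) x51088)
    (Nat.sub (Nat.sub (Nat.sub (Nat.add (Nat.add (Nat.add (Nat.add (Nat.add (Nat.add (Nat.add (Nat.add (Nat.add C x18286) x44530) x35782) x29950) x30922) x31462) x31390) x31414) x31406) (Nat.mul x31408 (nat_lit 2))) x51090) x11726)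
    (Nat.sub (Nat.sub (Nat.add (Nat.add (Nat.add (Nat.add (Nat.add (Nat.add (Nat.add (Nat.add (Nat.add C x18290) x44534) x35786) x29954) x30926) x31466) x31394) x31406) x31414) x31412) x51094)
    (Nat.sub (Nat.sub (Nat.add (Nat.add (Nat.add (Nat.add (Nat.add (Nat.add (Nat.add (Nat.add (Nat.add (Nat.add (Nat.add C x18292) x44536) x35788) x29956) x30928) x31468) x31396) x31408) x31420) x31412) x31416) x51096) x11732)
    (Nat.sub (Nat.sub (Nat.add (Nat.add (Nat.add (Nat.add (Nat.add (Nat.add (Nat.add (Nat.add (Nat.add C x18294) x44538) x35790) x29958) x30930) x31470) x31398) x31422) x31414) x31416) x11734)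
    (Nat.sub (Nat.sub (Nat.add (Nat.add (Nat.add (Nat.add (Nat.add (Nat.add (Nat.add (Nat.add C x18298) x44542) x35794) x29962) x30934) x31474) x31414) x31422) x51102) x11738)
    (Nat.sub (Nat.add (Nat.add (Nat.add (Nat.add (Nat.add (Nat.add (Nat.add (Nat.add (Nat.add C x31422) x18300) x44544) x35796) x29964) x30936) x31476) x31416) x31420) x11740)
    (Nat.sub (Nat.add (Nat.add (Nat.add (Nat.add (Nat.add (Nat.add (Nat.add (Nat.add (Nat.add C x31436) x18314) x44558) x35810) x29978) x30950) x31598) x31382) x31442) x51118)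
    (Nat.sub (Nat.add (Nat.add (Nat.add (Nat.add (Nat.add (Nat.add (Nat.add (Nat.add (Nat.add (Nat.add (Nat.add C x18320) x44564) x35816) x29984) x30956) x31604) x31388) x31460) x31436) x31448) x31444) x51124)
    (Nat.sub (Nat.sub (Nat.add (Nat.add (Nat.add (Nat.add (Nat.add (Nat.add (Nat.add (Nat.add (Nat.add (Nat.add C x18322) x44566) x35818) x29986) x30958) x31606) x31390) x31462) x31450) x31442) x51126) x11762)
    (Nat.sub (Nat.sub (Nat.add (Nat.add (Nat.add (Nat.add (Nat.add (Nat.add (Nat.add (Nat.add (Nat.add (Nat.add C x18326) x44570) x35822) x29990) x30962) x31610) x31394) x31466) x31442) x31450) (Nat.mul x31448 (nat_lit 3))) x51130)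
    (Nat.sub (Nat.sub (Nat.sub (Nat.add (Nat.add (Nat.add (Nat.add (Nat.add (Nat.add (Nat.add (Nat.add (Nat.add (Nat.add (Nat.add C x18328) x44572) x35824) x29992) x30964) x31612) x31396) x31468) x31444) x31448) x31452) x31450) x51132) x11768)
    (Nat.sub (Nat.sub (Nat.add (Nat.add (Nat.add (Nat.add (Nat.add (Nat.add (Nat.add (Nat.add (Nat.add C x18330) x44574) x35826) x29994) x30966) x31614) x31398) x31470) x31450) x31452) x11770)
    (Nat.sub (Nat.add (Nat.add (Nat.add (Nat.add (Nat.add (Nat.add (Nat.add (Nat.add (Nat.add (Nat.add (Nat.add C x18338) x44582) x35834) x30002) x30974) x31622) x31406) x31514) x31442) x31466) x31462) x51142)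
    (Nat.sub (Nat.sub (Nat.sub (Nat.add (Nat.add (Nat.add (Nat.add (Nat.add (Nat.add (Nat.add (Nat.add (Nat.add (Nat.add (Nat.add C x18340) x44584) x35836) x30004) x30976) x31624) x31408) x31516) x31444) x31468) x31460) x31462) x51144) x11780)
    (Nat.sub (Nat.sub (Nat.add (Nat.add (Nat.add (Nat.add (Nat.add (Nat.add (Nat.add (Nat.add (Nat.add (Nat.add (Nat.add (Nat.add C x18344) x44588) x35840) x30008) x30980) x31628) x31412) x31520) x31448) x31484) x31460) x31468) x31466) x51148)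
    (Nat.sub (Nat.sub (Nat.add (Nat.add (Nat.add (Nat.add (Nat.add (Nat.add (Nat.add (Nat.add (Nat.add (Nat.add (Nat.add (Nat.add (Nat.add (Nat.add C x18346) x44590) x35842) x30010) x30982) x31630) x31414) x31522) x31450) x31486) x31462) x31474) x31466) x31470) x51150) x11786)
    (Nat.sub (Nat.sub (Nat.add (Nat.add (Nat.add (Nat.add (Nat.add (Nat.add (Nat.add (Nat.add (Nat.add (Nat.add (Nat.add (Nat.add C x18348) x44592) x35844) x30012) x30984) x31632) x31416) x31524) x31452) x31488) x31476) x31468) x31470) x11788)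
    (Nat.sub (Nat.sub (Nat.sub (Nat.add (Nat.add (Nat.add (Nat.add (Nat.add (Nat.add (Nat.add (Nat.add (Nat.add (Nat.add (Nat.add C x18352) x44596) x35848) x30016) x30988) x31636) x31420) x31528) x31492) x31468) x31476) x31474) x51156) x11792)
    (Nat.sub (Nat.add (Nat.add (Nat.add (Nat.add (Nat.add (Nat.add (Nat.add (Nat.add (Nat.add (Nat.add (Nat.add C x18354) x44598) x35850) x30018) x30990) x31638) x31422) x31530) x31494) x31470) x31474) x11794)
    (Nat.sub (Nat.sub (Nat.add (Nat.add (Nat.add (Nat.add (Nat.add (Nat.add (Nat.add (Nat.add (Nat.add C x18362) x44606) x35858) x30026) x30998) x31646) x31538) x31466) x31486) x31484) x51166)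
    (Nat.sub (Nat.sub (Nat.sub (Nat.add (Nat.add (Nat.add (Nat.add (Nat.add (Nat.add (Nat.add (Nat.add (Nat.add (Nat.add (Nat.add C x18364) x44608) x35860) x30028) x31000) x31648) x31540) x31468) x31492) x31484) x31488) x31486) x51168) x11804)
    (Nat.sub (Nat.sub (Nat.add (Nat.add (Nat.add (Nat.add (Nat.add (Nat.add (Nat.add (Nat.add (Nat.add (Nat.add C x18366) x44610) x35862) x30030) x31002) x31650) x31542) x31470) x31494) x31486) (Nat.mul x31488 (nat_lit 3))) x11806)
    (Nat.sub (Nat.sub (Nat.add (Nat.add (Nat.add (Nat.add (Nat.add (Nat.add (Nat.add (Nat.add (Nat.add (Nat.add C x18370) x44614) x35866) x30034) x31006) x31654) x31546) x31474) x31486) x31494) x51174) x11810)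
    (Nat.sub (Nat.add (Nat.add (Nat.add (Nat.add (Nat.add (Nat.add (Nat.add (Nat.add (Nat.add (Nat.add (Nat.add C x18372) x44616) x35868) x30036) x31008) x31656) x31548) x31476) x31488) x31500) x31492) x11812)
    (Nat.sub (Nat.add (Nat.add (Nat.add (Nat.add (Nat.add (Nat.add (Nat.add (Nat.add (Nat.add C x31500) x18378) x44622) x35874) x30042) x31014) x31662) x31554) x31494) x11818)
    (Nat.sub (Nat.sub (Nat.add (Nat.add (Nat.add (Nat.add (Nat.add (Nat.add (Nat.add (Nat.add (Nat.add C x18392) x44636) x35888) x30056) x31028) x31676) x31460) x31520) x31516) x31514) x51196)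
    (Nat.sub (Nat.sub (Nat.sub (Nat.add (Nat.add (Nat.add (Nat.add (Nat.add (Nat.add (Nat.add (Nat.add (Nat.add C x18394) x44638) x35890) x30058) x31030) x31678) x31462) x31522) x31514) (Nat.mul x31516 (nat_lit 2))) x51198) x11834)
    (Nat.sub (Nat.sub (Nat.add (Nat.add (Nat.add (Nat.add (Nat.add (Nat.add (Nat.add (Nat.add (Nat.add (Nat.add C x18398) x44642) x35894) x30062) x31034) x31682) x31466) x31538) x31514) x31522) (Nat.mul x31520 (nat_lit 3))) x51202)
    (Nat.sub (Nat.sub (Nat.sub (Nat.add (Nat.add (Nat.add (Nat.add (Nat.add (Nat.add (Nat.add (Nat.add (Nat.add (Nat.add (Nat.add (Nat.add C x18400) x44644) x35896) x30064) x31036) x31684) x31468) x31540) x31516) x31528) x31520) x31524) (Nat.mul x31522 (nat_lit 2))) x51204) x11840)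
    (Nat.sub (Nat.sub (Nat.add (Nat.add (Nat.add (Nat.add (Nat.add (Nat.add (Nat.add (Nat.add (Nat.add (Nat.add C x18402) x44646) x35898) x30066) x31038) x31686) x31470) x31542) x31530) x31522) (Nat.mul x31524 (nat_lit 3))) x11842)
    (Nat.sub (Nat.sub (Nat.sub (Nat.add (Nat.add (Nat.add (Nat.add (Nat.add (Nat.add (Nat.add (Nat.add (Nat.add (Nat.add C x18406) x44650) x35902) x30070) x31042) x31690) x31474) x31546) x31522) x31530) (Nat.mul x31528 (nat_lit 4))) x51210) x11846)
    (Nat.sub (Nat.sub (Nat.add (Nat.add (Nat.add (Nat.add (Nat.add (Nat.add (Nat.add (Nat.add (Nat.add (Nat.add C x18408) x44652) x35904) x30072) x31044) x31692) x31476) x31548) x31524) x31528) (Nat.mul x31530 (nat_lit 3))) x11848)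
    (Nat.sub (Nat.sub (Nat.add (Nat.add (Nat.add (Nat.add (Nat.add (Nat.add (Nat.add (Nat.add (Nat.add C x18416) x44660) x35912) x30080) x31052) x31700) x31484) x31520) x31540) x31538) x51220)
    (Nat.sub (Nat.sub (Nat.sub (Nat.add (Nat.add (Nat.add (Nat.add (Nat.add (Nat.add (Nat.add (Nat.add (Nat.add (Nat.add (Nat.add C x18418) x44662) x35914) x30082) x31054) x31702) x31486) x31522) x31546) x31538) x31542) x31540) x51222) x11858)
    (Nat.sub (Nat.sub (Nat.add (Nat.add (Nat.add (Nat.add (Nat.add (Nat.add (Nat.add (Nat.add (Nat.add (Nat.add C x18420) x44664) x35916) x30084) x31056) x31704) x31488) x31524) x31548) x31540) (Nat.mul x31542 (nat_lit 3))) x11860)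
    (Nat.sub (Nat.sub (Nat.sub (Nat.add (Nat.add (Nat.add (Nat.add (Nat.add (Nat.add (Nat.add (Nat.add (Nat.add (Nat.add (Nat.add C x18424) x44668) x35920) x30088) x31060) x31708) x31492) x31528) x31564) x31540) x31548) x31546) x51228) x11864)
    (Nat.sub (Nat.sub (Nat.add (Nat.add (Nat.add (Nat.add (Nat.add (Nat.add (Nat.add (Nat.add (Nat.add (Nat.add (Nat.add (Nat.add C x18426) x44670) x35922) x30090) x31062) x31710) x31494) x31530) x31566) x31542) x31554) x31546) x31548) x11866)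
    (Nat.sub (Nat.sub (Nat.add (Nat.add (Nat.add (Nat.add (Nat.add (Nat.add (Nat.add (Nat.add (Nat.add C x18432) x44676) x35928) x30096) x31068) x31716) x31500) x31572) x31548) x31554) x11872)
    (Nat.sub (Nat.sub (Nat.add (Nat.add (Nat.add (Nat.add (Nat.add (Nat.add (Nat.add (Nat.add C x18442) x44686) x35938) x30106) x31078) x31726) x31546) x31566) x51246) x11882)
    (Nat.sub (Nat.sub (Nat.add (Nat.add (Nat.add (Nat.add (Nat.add (Nat.add (Nat.add (Nat.add (Nat.add C x18444) x44688) x35940) x30108) x31080) x31728) x31548) x31572) x31564) x31566) x11884)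
    (Nat.sub (Nat.add (Nat.add (Nat.add (Nat.add (Nat.add (Nat.add (Nat.add (Nat.add (Nat.add C x31572) x18450) x44694) x35946) x30114) x31086) x31734) x31554) x31566) x11890)
    (Nat.sub (Nat.add (Nat.add (Nat.add (Nat.add (Nat.add (Nat.add (Nat.add (Nat.add (Nat.add C (Nat.mul x31598 (nat_lit 2))) x18476) x44720) x35972) x30140) x31112) x32084) x31436) x31604) x51280)
    (Nat.sub (Nat.add (Nat.add (Nat.add (Nat.add (Nat.add (Nat.add (Nat.add (Nat.add (Nat.add (Nat.add (Nat.add (Nat.add C x31604) x18482) x44726) x35978) x30146) x31118) x32090) x31442) x31622) x31598) x31610) x31606) x51286)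
    (Nat.sub (Nat.sub (Nat.add (Nat.add (Nat.add (Nat.add (Nat.add (Nat.add (Nat.add (Nat.add (Nat.add (Nat.add (Nat.add C x31606) x18484) x44728) x35980) x30148) x31120) x32092) x31444) x31624) x31612) x31604) x51288) x11924)
    (Nat.sub (Nat.sub (Nat.add (Nat.add (Nat.add (Nat.add (Nat.add (Nat.add (Nat.add (Nat.add (Nat.add (Nat.add C x18488) x44732) x35984) x30152) x31124) x32096) x31448) x31628) x31604) x31612) (Nat.mul x31610 (nat_lit 2))) x51292)
    (Nat.sub (Nat.sub (Nat.add (Nat.add (Nat.add (Nat.add (Nat.add (Nat.add (Nat.add (Nat.add (Nat.add (Nat.add (Nat.add C x18490) x44734) x35986) x30154) x31126) x32098) x31450) x31630) x31606) x31610) x31614) x51294) x11930)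
    (Nat.sub (Nat.add (Nat.add (Nat.add (Nat.add (Nat.add (Nat.add (Nat.add (Nat.add (Nat.add C x18492) x44736) x35988) x30156) x31128) x32100) x31452) x31632) x31612) x11932)
    (Nat.sub (Nat.add (Nat.add (Nat.add (Nat.add (Nat.add (Nat.add (Nat.add (Nat.add (Nat.add (Nat.add (Nat.add C x18500) x44744) x35996) x30164) x31136) x32108) x31460) x31676) x31604) x31628) x31624) x51304)
    (Nat.sub (Nat.sub (Nat.sub (Nat.add (Nat.add (Nat.add (Nat.add (Nat.add (Nat.add (Nat.add (Nat.add (Nat.add (Nat.add (Nat.add C x18502) x44746) x35998) x30166) x31138) x32110) x31462) x31678) x31606) x31630) x31622) x31624) x51306) x11942)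
    (Nat.sub (Nat.sub (Nat.add (Nat.add (Nat.add (Nat.add (Nat.add (Nat.add (Nat.add (Nat.add (Nat.add (Nat.add (Nat.add (Nat.add C x18506) x44750) x36002) x30170) x31142) x32114) x31466) x31682) x31610) x31646) x31622) x31630) x31628) x51310)
    (Nat.sub (Nat.sub (Nat.add (Nat.add (Nat.add (Nat.add (Nat.add (Nat.add (Nat.add (Nat.add (Nat.add (Nat.add (Nat.add (Nat.add (Nat.add (Nat.add C x18508) x44752) x36004) x30172) x31144) x32116) x31468) x31684) x31612) x31648) x31624) x31636) x31628) x31632) x51312) x11948)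
    (Nat.sub (Nat.sub (Nat.add (Nat.add (Nat.add (Nat.add (Nat.add (Nat.add (Nat.add (Nat.add (Nat.add (Nat.add (Nat.add (Nat.add C x18510) x44754) x36006) x30174) x31146) x32118) x31470) x31686) x31614) x31650) x31638) x31630) x31632) x11950)
    (Nat.sub (Nat.sub (Nat.sub (Nat.add (Nat.add (Nat.add (Nat.add (Nat.add (Nat.add (Nat.add (Nat.add (Nat.add (Nat.add (Nat.add C x18514) x44758) x36010) x30178) x31150) x32122) x31474) x31690) x31654) x31630) x31638) x31636) x51318) x11954)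
    (Nat.sub (Nat.add (Nat.add (Nat.add (Nat.add (Nat.add (Nat.add (Nat.add (Nat.add (Nat.add (Nat.add (Nat.add C x18516) x44760) x36012) x30180) x31152) x32124) x31476) x31692) x31656) x31632) x31636) x11956)
    (Nat.sub (Nat.sub (Nat.add (Nat.add (Nat.add (Nat.add (Nat.add (Nat.add (Nat.add (Nat.add (Nat.add (Nat.add C x18524) x44768) x36020) x30188) x31160) x32132) x31484) x31700) x31628) x31648) (Nat.mul x31646 (nat_lit 2))) x51328)
    (Nat.sub (Nat.sub (Nat.sub (Nat.add (Nat.add (Nat.add (Nat.add (Nat.add (Nat.add (Nat.add (Nat.add (Nat.add (Nat.add (Nat.add (Nat.add C x18526) x44770) x36022) x30190) x31162) x32134) x31486) x31702) x31630) x31654) x31646) x31650) (Nat.mul x31648 (nat_lit 2))) x51330) x11966)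
    (Nat.sub (Nat.sub (Nat.add (Nat.add (Nat.add (Nat.add (Nat.add (Nat.add (Nat.add (Nat.add (Nat.add (Nat.add (Nat.add C x18528) x44772) x36024) x30192) x31164) x32136) x31488) x31704) x31632) x31656) x31648) (Nat.mul x31650 (nat_lit 4))) x11968)
    (Nat.sub (Nat.sub (Nat.sub (Nat.add (Nat.add (Nat.add (Nat.add (Nat.add (Nat.add (Nat.add (Nat.add (Nat.add (Nat.add (Nat.add C x18532) x44776) x36028) x30196) x31168) x32140) x31492) x31708) x31636) x31648) x31656) x31654) x51336) x11972)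
    (Nat.sub (Nat.sub (Nat.add (Nat.add (Nat.add (Nat.add (Nat.add (Nat.add (Nat.add (Nat.add (Nat.add (Nat.add (Nat.add (Nat.add C x18534) x44778) x36030) x30198) x31170) x32142) x31494) x31710) x31638) x31650) x31662) x31654) x31656) x11974)
    (Nat.sub (Nat.add (Nat.add (Nat.add (Nat.add (Nat.add (Nat.add (Nat.add (Nat.add (Nat.add C x18540) x44784) x36036) x30204) x31176) x32148) x31500) x31716) x31656) x11980)
    (Nat.sub (Nat.add (Nat.add (Nat.add (Nat.add (Nat.add (Nat.add (Nat.add (Nat.add (Nat.add (Nat.add (Nat.add (Nat.add C x31676) x18554) x44798) x36050) x30218) x31190) x32162) x31514) x31838) x31622) x31682) x31678) x51358)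
    (Nat.sub (Nat.sub (Nat.add (Nat.add (Nat.add (Nat.add (Nat.add (Nat.add (Nat.add (Nat.add (Nat.add (Nat.add (Nat.add C x18556) x44800) x36052) x30220) x31192) x32164) x31516) x31840) x31624) x31684) x31676) x51360) x11996)
    (Nat.sub (Nat.sub (Nat.add (Nat.add (Nat.add (Nat.add (Nat.add (Nat.add (Nat.add (Nat.add (Nat.add (Nat.add (Nat.add (Nat.add C x18560) x44804) x36056) x30224) x31196) x32168) x31520) x31844) x31628) x31700) x31676) x31684) x31682) x51364)
    (Nat.sub (Nat.sub (Nat.add (Nat.add (Nat.add (Nat.add (Nat.add (Nat.add (Nat.add (Nat.add (Nat.add (Nat.add (Nat.add (Nat.add (Nat.add (Nat.add C x18562) x44806) x36058) x30226) x31198) x32170) x31522) x31846) x31630) x31702) x31678) x31690) x31682) x31686) x51366) x12002)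
    (Nat.sub (Nat.sub (Nat.add (Nat.add (Nat.add (Nat.add (Nat.add (Nat.add (Nat.add (Nat.add (Nat.add (Nat.add (Nat.add (Nat.add C x18564) x44808) x36060) x30228) x31200) x32172) x31524) x31848) x31632) x31704) x31692) x31684) x31686) x12004)
    (Nat.sub (Nat.sub (Nat.sub (Nat.add (Nat.add (Nat.add (Nat.add (Nat.add (Nat.add (Nat.add (Nat.add (Nat.add (Nat.add (Nat.add (Nat.add C x18568) x44812) x36064) x30232) x31204) x32176) x31528) x31852) x31636) x31708) x31684) x31692) (Nat.mul x31690 (nat_lit 2))) x51372) x12008)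
    (Nat.sub (Nat.sub (Nat.add (Nat.add (Nat.add (Nat.add (Nat.add (Nat.add (Nat.add (Nat.add (Nat.add (Nat.add (Nat.add (Nat.add C x18570) x44814) x36066) x30234) x31206) x32178) x31530) x31854) x31638) x31710) x31686) x31690) x31692) x12010)
    (Nat.sub (Nat.add (Nat.add (Nat.add (Nat.add (Nat.add (Nat.add (Nat.add (Nat.add (Nat.add (Nat.add (Nat.add (Nat.add C x18578) x44822) x36074) x30242) x31214) x32186) x31538) x31862) x31646) x31754) x31682) x31702) x51382)
    (Nat.sub (Nat.sub (Nat.add (Nat.add (Nat.add (Nat.add (Nat.add (Nat.add (Nat.add (Nat.add (Nat.add (Nat.add (Nat.add (Nat.add (Nat.add (Nat.add C x18580) x44824) x36076) x30244) x31216) x32188) x31540) x31864) x31648) x31756) x31684) x31708) x31700) x31704) x51384) x12020)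
    (Nat.sub (Nat.sub (Nat.add (Nat.add (Nat.add (Nat.add (Nat.add (Nat.add (Nat.add (Nat.add (Nat.add (Nat.add (Nat.add (Nat.add (Nat.add C x18582) x44826) x36078) x30246) x31218) x32190) x31542) x31866) x31650) x31758) x31686) x31710) x31702) (Nat.mul x31704 (nat_lit 2))) x12022)
    (Nat.sub (Nat.sub (Nat.add (Nat.add (Nat.add (Nat.add (Nat.add (Nat.add (Nat.add (Nat.add (Nat.add (Nat.add (Nat.add (Nat.add (Nat.add (Nat.add C x18586) x44830) x36082) x30250) x31222) x32194) x31546) x31870) x31654) x31762) x31690) x31726) x31702) x31710) x51390) x12026)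
    (Nat.sub (Nat.add (Nat.add (Nat.add (Nat.add (Nat.add (Nat.add (Nat.add (Nat.add (Nat.add (Nat.add (Nat.add (Nat.add (Nat.add (Nat.add (Nat.add C x18588) x44832) x36084) x30252) x31224) x32196) x31548) x31872) x31656) x31764) x31692) x31728) x31704) x31716) x31708) x12028)
    (Nat.sub (Nat.add (Nat.add (Nat.add (Nat.add (Nat.add (Nat.add (Nat.add (Nat.add (Nat.add (Nat.add (Nat.add (Nat.add C x18594) x44838) x36090) x30258) x31230) x32202) x31554) x31878) x31662) x31770) x31734) x31710) x12034)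
    (Nat.sub (Nat.sub (Nat.add (Nat.add (Nat.add (Nat.add (Nat.add (Nat.add (Nat.add (Nat.add (Nat.add (Nat.add (Nat.add C x18604) x44848) x36100) x30268) x31240) x32212) x31564) x31888) x31780) x31708) x31728) x51408) x12044)
    (Nat.sub (Nat.sub (Nat.add (Nat.add (Nat.add (Nat.add (Nat.add (Nat.add (Nat.add (Nat.add (Nat.add (Nat.add (Nat.add (Nat.add C x18606) x44850) x36102) x30270) x31242) x32214) x31566) x31890) x31782) x31710) x31734) x31726) x31728) x12046)
    (Nat.sub (Nat.add (Nat.add (Nat.add (Nat.add (Nat.add (Nat.add (Nat.add (Nat.add (Nat.add (Nat.add (Nat.add (Nat.add C x31734) x18612) x44856) x36108) x30276) x31248) x32220) x31572) x31896) x31788) x31716) x31728) x12052)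
    (Nat.sub (Nat.add (Nat.add (Nat.add (Nat.add (Nat.add (Nat.add (Nat.add (Nat.add (Nat.add C x18632) x44876) x36128) x30296) x31268) x32240) x31916) x31700) x31756) x51436)
    (Nat.sub (Nat.sub (Nat.add (Nat.add (Nat.add (Nat.add (Nat.add (Nat.add (Nat.add (Nat.add (Nat.add (Nat.add (Nat.add C x18634) x44878) x36130) x30298) x31270) x32242) x31918) x31702) x31762) x31754) x31758) x51438) x12074)
    (Nat.sub (Nat.sub (Nat.add (Nat.add (Nat.add (Nat.add (Nat.add (Nat.add (Nat.add (Nat.add (Nat.add (Nat.add C x18636) x44880) x36132) x30300) x31272) x32244) x31920) x31704) x31764) x31756) (Nat.mul x31758 (nat_lit 2))) x12076)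
    (Nat.sub (Nat.sub (Nat.sub (Nat.add (Nat.add (Nat.add (Nat.add (Nat.add (Nat.add (Nat.add (Nat.add (Nat.add (Nat.add (Nat.add C x18640) x44884) x36136) x30304) x31276) x32248) x31924) x31708) x31780) x31756) x31764) x31762) x51444) x12080)
    (Nat.sub (Nat.sub (Nat.add (Nat.add (Nat.add (Nat.add (Nat.add (Nat.add (Nat.add (Nat.add (Nat.add (Nat.add (Nat.add (Nat.add C x18642) x44886) x36138) x30306) x31278) x32250) x31926) x31710) x31782) x31758) x31770) x31762) x31764) x12082)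
    (Nat.sub (Nat.sub (Nat.add (Nat.add (Nat.add (Nat.add (Nat.add (Nat.add (Nat.add (Nat.add (Nat.add (Nat.add C x18648) x44892) x36144) x30312) x31284) x32256) x31932) x31716) x31788) x31764) (Nat.mul x31770 (nat_lit 2))) x12088)
    (Nat.sub (Nat.sub (Nat.add (Nat.add (Nat.add (Nat.add (Nat.add (Nat.add (Nat.add (Nat.add (Nat.add (Nat.add (Nat.add C x31780) x18658) x44902) x36154) x30322) x31294) x32266) x31942) x31726) x31762) x31782) x51462) x12098)
    (Nat.sub (Nat.add (Nat.add (Nat.add (Nat.add (Nat.add (Nat.add (Nat.add (Nat.add (Nat.add (Nat.add (Nat.add C x18660) x44904) x36156) x30324) x31296) x32268) x31944) x31728) x31764) x31788) x31780) x12100)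
    (Nat.sub (Nat.add (Nat.add (Nat.add (Nat.add (Nat.add (Nat.add (Nat.add (Nat.add (Nat.add (Nat.add (Nat.add (Nat.add C x31788) x18666) x44910) x36162) x30330) x31302) x32274) x31950) x31734) x31770) x31806) x31782) x12106)
    (Nat.sub (Nat.add (Nat.add (Nat.add (Nat.add (Nat.add (Nat.add (Nat.add (Nat.add (Nat.add C (Nat.mul x31806 (nat_lit 2))) x18684) x44928) x36180) x30348) x31320) x32292) x31968) x31788) x12124)
    (Nat.sub (Nat.add (Nat.add (Nat.add (Nat.add (Nat.add (Nat.add (Nat.add (Nat.add (Nat.add C x31838) x18716) x44960) x36212) x30380) x32324) x31676) x31844) x31840) x51520)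
    (Nat.sub (Nat.sub (Nat.add (Nat.add (Nat.add (Nat.add (Nat.add (Nat.add (Nat.add (Nat.add C x18718) x44962) x36214) x30382) x32326) x31678) x31846) x31838) x51522) x12158)
    (Nat.sub (Nat.sub (Nat.add (Nat.add (Nat.add (Nat.add (Nat.add (Nat.add (Nat.add (Nat.add (Nat.add C x18722) x44966) x36218) x30386) x32330) x31682) x31862) x31838) x31846) x31844) x51526)
    (Nat.sub (Nat.sub (Nat.add (Nat.add (Nat.add (Nat.add (Nat.add (Nat.add (Nat.add (Nat.add (Nat.add (Nat.add (Nat.add C x18724) x44968) x36220) x30388) x32332) x31684) x31864) x31840) x31852) x31844) x31848) x51528) x12164)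
    (Nat.sub (Nat.sub (Nat.add (Nat.add (Nat.add (Nat.add (Nat.add (Nat.add (Nat.add (Nat.add (Nat.add C x18726) x44970) x36222) x30390) x32334) x31686) x31866) x31854) x31846) x31848) x12166)
    (Nat.sub (Nat.sub (Nat.sub (Nat.add (Nat.add (Nat.add (Nat.add (Nat.add (Nat.add (Nat.add (Nat.add (Nat.add C x18730) x44974) x36226) x30394) x32338) x31690) x31870) x31846) x31854) (Nat.mul x31852 (nat_lit 2))) x51534) x12170)
    (Nat.sub (Nat.sub (Nat.add (Nat.add (Nat.add (Nat.add (Nat.add (Nat.add (Nat.add (Nat.add (Nat.add C x18732) x44976) x36228) x30396) x32340) x31692) x31872) x31848) x31852) x31854) x12172)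
    (Nat.sub (Nat.sub (Nat.add (Nat.add (Nat.add (Nat.add (Nat.add (Nat.add (Nat.add (Nat.add (Nat.add C x18740) x44984) x36236) x30404) x32348) x31700) x31916) x31844) x31864) x31862) x51544)
    (Nat.sub (Nat.sub (Nat.sub (Nat.add (Nat.add (Nat.add (Nat.add (Nat.add (Nat.add (Nat.add (Nat.add (Nat.add (Nat.add (Nat.add C x18742) x44986) x36238) x30406) x32350) x31702) x31918) x31846) x31870) x31862) x31866) x31864) x51546) x12182)
    (Nat.sub (Nat.sub (Nat.add (Nat.add (Nat.add (Nat.add (Nat.add (Nat.add (Nat.add (Nat.add (Nat.add (Nat.add C x18744) x44988) x36240) x30408) x32352) x31704) x31920) x31848) x31872) x31864) (Nat.mul x31866 (nat_lit 3))) x12184)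
    (Nat.sub (Nat.sub (Nat.sub (Nat.add (Nat.add (Nat.add (Nat.add (Nat.add (Nat.add (Nat.add (Nat.add (Nat.add (Nat.add (Nat.add C x18748) x44992) x36244) x30412) x32356) x31708) x31924) x31852) x31888) x31864) x31872) x31870) x51552) x12188)
    (Nat.sub (Nat.sub (Nat.add (Nat.add (Nat.add (Nat.add (Nat.add (Nat.add (Nat.add (Nat.add (Nat.add (Nat.add (Nat.add (Nat.add C x18750) x44994) x36246) x30414) x32358) x31710) x31926) x31854) x31890) x31866) x31878) x31870) x31872) x12190)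
    (Nat.sub (Nat.sub (Nat.add (Nat.add (Nat.add (Nat.add (Nat.add (Nat.add (Nat.add (Nat.add (Nat.add C x18756) x45000) x36252) x30420) x32364) x31716) x31932) x31896) x31872) x31878) x12196)
    (Nat.sub (Nat.sub (Nat.sub (Nat.add (Nat.add (Nat.add (Nat.add (Nat.add (Nat.add (Nat.add (Nat.add (Nat.add C x18766) x45010) x36262) x30430) x32374) x31726) x31942) x31870) x31890) (Nat.mul x31888 (nat_lit 2))) x51570) x12206)
    (Nat.sub (Nat.sub (Nat.add (Nat.add (Nat.add (Nat.add (Nat.add (Nat.add (Nat.add (Nat.add (Nat.add (Nat.add C x18768) x45012) x36264) x30432) x32376) x31728) x31944) x31872) x31896) x31888) (Nat.mul x31890 (nat_lit 3))) x12208)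
    (Nat.sub (Nat.sub (Nat.add (Nat.add (Nat.add (Nat.add (Nat.add (Nat.add (Nat.add (Nat.add (Nat.add C x18774) x45018) x36270) x30438) x32382) x31734) x31950) x31878) x31890) x31896) x12214)
    (Nat.sub (Nat.add (Nat.add (Nat.add (Nat.add (Nat.add (Nat.add (Nat.add (Nat.add (Nat.add C x31916) x18794) x45038) x36290) x30458) x32402) x31754) x31862) x31918) x51598)
    (Nat.sub (Nat.sub (Nat.add (Nat.add (Nat.add (Nat.add (Nat.add (Nat.add (Nat.add (Nat.add (Nat.add (Nat.add (Nat.add C x31918) x18796) x45040) x36292) x30460) x32404) x31756) x31864) x31924) x31916) x31920) x51600) x12236)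
    (Nat.sub (Nat.sub (Nat.add (Nat.add (Nat.add (Nat.add (Nat.add (Nat.add (Nat.add (Nat.add (Nat.add C x18798) x45042) x36294) x30462) x32406) x31758) x31866) x31926) x31918) x31920) x12238)
    (Nat.sub (Nat.sub (Nat.add (Nat.add (Nat.add (Nat.add (Nat.add (Nat.add (Nat.add (Nat.add (Nat.add (Nat.add C x18802) x45046) x36298) x30466) x32410) x31762) x31870) x31942) x31918) x31926) x51606) x12242)
    (Nat.sub (Nat.add (Nat.add (Nat.add (Nat.add (Nat.add (Nat.add (Nat.add (Nat.add (Nat.add (Nat.add (Nat.add C x18804) x45048) x36300) x30468) x32412) x31764) x31872) x31944) x31920) x31932) x31924) x12244)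
    (Nat.sub (Nat.sub (Nat.add (Nat.add (Nat.add (Nat.add (Nat.add (Nat.add (Nat.add (Nat.add (Nat.add C x18810) x45054) x36306) x30474) x32418) x31770) x31878) x31950) x31926) x31932) x12250)
    (Nat.sub (Nat.sub (Nat.add (Nat.add (Nat.add (Nat.add (Nat.add (Nat.add (Nat.add (Nat.add (Nat.add (Nat.add (Nat.add C x31942) x18820) x45064) x36316) x30484) x32428) x31780) x31888) x31996) x31924) x31944) x51624) x12260)
    (Nat.sub (Nat.add (Nat.add (Nat.add (Nat.add (Nat.add (Nat.add (Nat.add (Nat.add (Nat.add (Nat.add (Nat.add C x18822) x45066) x36318) x30486) x32430) x31782) x31890) x31998) x31926) x31950) x31942) x12262)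
    (Nat.sub (Nat.add (Nat.add (Nat.add (Nat.add (Nat.add (Nat.add (Nat.add (Nat.add (Nat.add (Nat.add (Nat.add (Nat.add C x31950) x18828) x45072) x36324) x30492) x32436) x31788) x31896) x32004) x31932) x31968) x31944) x12268)
    (Nat.sub (Nat.add (Nat.add (Nat.add (Nat.add (Nat.add (Nat.add (Nat.add (Nat.add (Nat.add C x31968) x18846) x45090) x36342) x30510) x32454) x31806) x32022) x31950) x12286)
    (Nat.sub (Nat.sub (Nat.add (Nat.add (Nat.add (Nat.add (Nat.add (Nat.add (Nat.add (Nat.add C (Nat.mul x31996 (nat_lit 2))) x18874) x45118) x36370) x30538) x32482) x31942) x31998) x51678) x12314)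
    (Nat.sub (Nat.add (Nat.add (Nat.add (Nat.add (Nat.add (Nat.add (Nat.add (Nat.add (Nat.add C x31998) x18876) x45120) x36372) x30540) x32484) x31944) x32004) x31996) x12316)
    (Nat.sub (Nat.add (Nat.add (Nat.add (Nat.add (Nat.add (Nat.add (Nat.add (Nat.add (Nat.add C x32004) x18882) x45126) x36378) x30546) x32490) x31950) x32022) x31998) x12322)
    (Nat.sub (Nat.add (Nat.add (Nat.add (Nat.add (Nat.add (Nat.add (Nat.add (Nat.add C (Nat.mul x32022 (nat_lit 3))) x18900) x45144) x36396) x30564) x32508) x31968) x32004) x12340)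
    (Nat.sub (Nat.add (Nat.add (Nat.add (Nat.add (Nat.add (Nat.add C (Nat.mul x32084 (nat_lit 3))) x18962) x45206) x36458) x31598) x32090) x51766)
    (Nat.sub (Nat.add (Nat.add (Nat.add (Nat.add (Nat.add (Nat.add (Nat.add (Nat.add (Nat.add C (Nat.mul x32090 (nat_lit 2))) x18968) x45212) x36464) x31604) x32108) x32084) x32096) x32092) x51772)
    (Nat.sub (Nat.sub (Nat.add (Nat.add (Nat.add (Nat.add (Nat.add (Nat.add (Nat.add (Nat.add C (Nat.mul x32092 (nat_lit 2))) x18970) x45214) x36466) x31606) x32110) x32098) x32090) x51774) x12410)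
    (Nat.sub (Nat.sub (Nat.add (Nat.add (Nat.add (Nat.add (Nat.add (Nat.add (Nat.add C x18974) x45218) x36470) x31610) x32114) x32090) x32098) x32096) x51778)
    (Nat.sub (Nat.sub (Nat.add (Nat.add (Nat.add (Nat.add (Nat.add (Nat.add (Nat.add (Nat.add (Nat.add C x32098) x18976) x45220) x36472) x31612) x32116) x32092) x32096) x32100) x51780) x12416)
    (Nat.sub (Nat.add (Nat.add (Nat.add (Nat.add (Nat.add (Nat.add (Nat.add C x32100) x18978) x45222) x36474) x31614) x32118) x32098) x12418)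
    (Nat.sub (Nat.add (Nat.add (Nat.add (Nat.add (Nat.add (Nat.add (Nat.add (Nat.add (Nat.add C x32108) x18986) x45230) x36482) x31622) x32162) x32090) x32114) x32110) x51790)
    (Nat.sub (Nat.sub (Nat.add (Nat.add (Nat.add (Nat.add (Nat.add (Nat.add (Nat.add (Nat.add C x18988) x45232) x36484) x31624) x32164) x32092) x32116) x32108) x51792) x12428)
    (Nat.sub (Nat.add (Nat.add (Nat.add (Nat.add (Nat.add (Nat.add (Nat.add (Nat.add (Nat.add C x18992) x45236) x36488) x31628) x32168) x32096) x32132) x32108) x32116) x51796)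
    (Nat.sub (Nat.sub (Nat.add (Nat.add (Nat.add (Nat.add (Nat.add (Nat.add (Nat.add (Nat.add (Nat.add (Nat.add (Nat.add (Nat.add C x32116) x18994) x45238) x36490) x31630) x32170) x32098) x32134) x32110) x32122) x32114) x32118) x51798) x12434)
    (Nat.sub (Nat.add (Nat.add (Nat.add (Nat.add (Nat.add (Nat.add (Nat.add (Nat.add (Nat.add C x18996) x45240) x36492) x31632) x32172) x32100) x32136) x32124) x32116) x12436)
    (Nat.sub (Nat.sub (Nat.add (Nat.add (Nat.add (Nat.add (Nat.add (Nat.add (Nat.add (Nat.add C x19000) x45244) x36496) x31636) x32176) x32140) x32116) x32124) x51804) x12440)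
    (Nat.sub (Nat.add (Nat.add (Nat.add (Nat.add (Nat.add (Nat.add (Nat.add (Nat.add (Nat.add C x32124) x19002) x45246) x36498) x31638) x32178) x32142) x32118) x32122) x12442)
    (Nat.sub (Nat.sub (Nat.add (Nat.add (Nat.add (Nat.add (Nat.add (Nat.add (Nat.add C x19010) x45254) x36506) x31646) x32186) x32114) x32134) x32132) x51814)
    (Nat.sub (Nat.sub (Nat.sub (Nat.add (Nat.add (Nat.add (Nat.add (Nat.add (Nat.add (Nat.add (Nat.add (Nat.add C x19012) x45256) x36508) x31648) x32188) x32116) x32140) x32132) x32136) x32134) x51816) x12452)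
    (Nat.sub (Nat.sub (Nat.add (Nat.add (Nat.add (Nat.add (Nat.add (Nat.add (Nat.add (Nat.add C x19014) x45258) x36510) x31650) x32190) x32118) x32142) x32134) (Nat.mul x32136 (nat_lit 3))) x12454)
    (Nat.sub (Nat.sub (Nat.add (Nat.add (Nat.add (Nat.add (Nat.add (Nat.add (Nat.add (Nat.add C x19018) x45262) x36514) x31654) x32194) x32122) x32134) x32142) x51822) x12458)
    (Nat.sub (Nat.add (Nat.add (Nat.add (Nat.add (Nat.add (Nat.add (Nat.add (Nat.add (Nat.add C x19020) x45264) x36516) x31656) x32196) x32124) x32136) x32148) x32140) x12460)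
    (Nat.sub (Nat.add (Nat.add (Nat.add (Nat.add (Nat.add (Nat.add (Nat.add C x32148) x19026) x45270) x36522) x31662) x32202) x32142) x12466)
    (Nat.sub (Nat.add (Nat.add (Nat.add (Nat.add (Nat.add (Nat.add (Nat.add (Nat.add (Nat.add C x32162) x19040) x45284) x36536) x31676) x32324) x32108) x32168) x32164) x51844)
    (Nat.sub (Nat.sub (Nat.add (Nat.add (Nat.add (Nat.add (Nat.add (Nat.add (Nat.add (Nat.add C x19042) x45286) x36538) x31678) x32326) x32110) x32170) x32162) x51846) x12482)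
    (Nat.sub (Nat.sub (Nat.add (Nat.add (Nat.add (Nat.add (Nat.add (Nat.add (Nat.add (Nat.add (Nat.add C x19046) x45290) x36542) x31682) x32330) x32114) x32186) x32162) x32170) x32168) x51850)
    (Nat.sub (Nat.sub (Nat.add (Nat.add (Nat.add (Nat.add (Nat.add (Nat.add (Nat.add (Nat.add (Nat.add (Nat.add (Nat.add C x19048) x45292) x36544) x31684) x32332) x32116) x32188) x32164) x32176) x32168) x32172) x51852) x12488)
    (Nat.sub (Nat.sub (Nat.add (Nat.add (Nat.add (Nat.add (Nat.add (Nat.add (Nat.add (Nat.add (Nat.add C x19050) x45294) x36546) x31686) x32334) x32118) x32190) x32178) x32170) x32172) x12490)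
    (Nat.sub (Nat.sub (Nat.sub (Nat.add (Nat.add (Nat.add (Nat.add (Nat.add (Nat.add (Nat.add (Nat.add (Nat.add C x19054) x45298) x36550) x31690) x32338) x32122) x32194) x32170) x32178) (Nat.mul x32176 (nat_lit 2))) x51858) x12494)
    (Nat.sub (Nat.sub (Nat.add (Nat.add (Nat.add (Nat.add (Nat.add (Nat.add (Nat.add (Nat.add (Nat.add C x19056) x45300) x36552) x31692) x32340) x32124) x32196) x32172) x32176) x32178) x12496)
    (Nat.sub (Nat.add (Nat.add (Nat.add (Nat.add (Nat.add (Nat.add (Nat.add (Nat.add (Nat.add C x19064) x45308) x36560) x31700) x32348) x32132) x32240) x32168) x32188) x51868)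
    (Nat.sub (Nat.sub (Nat.add (Nat.add (Nat.add (Nat.add (Nat.add (Nat.add (Nat.add (Nat.add (Nat.add (Nat.add (Nat.add C x19066) x45310) x36562) x31702) x32350) x32134) x32242) x32170) x32194) x32186) x32190) x51870) x12506)
    (Nat.sub (Nat.sub (Nat.add (Nat.add (Nat.add (Nat.add (Nat.add (Nat.add (Nat.add (Nat.add (Nat.add (Nat.add C x19068) x45312) x36564) x31704) x32352) x32136) x32244) x32172) x32196) x32188) (Nat.mul x32190 (nat_lit 2))) x12508)
    (Nat.sub (Nat.sub (Nat.add (Nat.add (Nat.add (Nat.add (Nat.add (Nat.add (Nat.add (Nat.add (Nat.add (Nat.add (Nat.add C x19072) x45316) x36568) x31708) x32356) x32140) x32248) x32176) x32212) x32188) x32196) x51876) x12512)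
    (Nat.sub (Nat.add (Nat.add (Nat.add (Nat.add (Nat.add (Nat.add (Nat.add (Nat.add (Nat.add (Nat.add (Nat.add (Nat.add C x19074) x45318) x36570) x31710) x32358) x32142) x32250) x32178) x32214) x32190) x32202) x32194) x12514)
    (Nat.sub (Nat.add (Nat.add (Nat.add (Nat.add (Nat.add (Nat.add (Nat.add (Nat.add (Nat.add C x19080) x45324) x36576) x31716) x32364) x32148) x32256) x32220) x32196) x12520)
    (Nat.sub (Nat.sub (Nat.add (Nat.add (Nat.add (Nat.add (Nat.add (Nat.add (Nat.add (Nat.add C x19090) x45334) x36586) x31726) x32374) x32266) x32194) x32214) x51894) x12530)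
    (Nat.sub (Nat.sub (Nat.add (Nat.add (Nat.add (Nat.add (Nat.add (Nat.add (Nat.add (Nat.add (Nat.add C x19092) x45336) x36588) x31728) x32376) x32268) x32196) x32220) x32212) x32214) x12532)
    (Nat.sub (Nat.add (Nat.add (Nat.add (Nat.add (Nat.add (Nat.add (Nat.add (Nat.add (Nat.add C x32220) x19098) x45342) x36594) x31734) x32382) x32274) x32202) x32214) x12538)
    (Nat.sub (Nat.sub (Nat.add (Nat.add (Nat.add (Nat.add (Nat.add (Nat.add (Nat.add C x19118) x45362) x36614) x31754) x32402) x32186) x32242) x32240) x51922)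
    (Nat.sub (Nat.sub (Nat.sub (Nat.add (Nat.add (Nat.add (Nat.add (Nat.add (Nat.add (Nat.add (Nat.add (Nat.add C x19120) x45364) x36616) x31756) x32404) x32188) x32248) x32240) x32244) x32242) x51924) x12560)
    (Nat.sub (Nat.sub (Nat.add (Nat.add (Nat.add (Nat.add (Nat.add (Nat.add (Nat.add (Nat.add C x19122) x45366) x36618) x31758) x32406) x32190) x32250) x32242) (Nat.mul x32244 (nat_lit 3))) x12562)
    (Nat.sub (Nat.sub (Nat.sub (Nat.add (Nat.add (Nat.add (Nat.add (Nat.add (Nat.add (Nat.add (Nat.add (Nat.add C x19126) x45370) x36622) x31762) x32410) x32194) x32266) x32242) x32250) (Nat.mul x32248 (nat_lit 2))) x51930) x12566)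
    (Nat.sub (Nat.sub (Nat.add (Nat.add (Nat.add (Nat.add (Nat.add (Nat.add (Nat.add (Nat.add (Nat.add (Nat.add C x19128) x45372) x36624) x31764) x32412) x32196) x32268) x32244) x32256) x32248) (Nat.mul x32250 (nat_lit 2))) x12568)
    (Nat.sub (Nat.sub (Nat.add (Nat.add (Nat.add (Nat.add (Nat.add (Nat.add (Nat.add (Nat.add C x19134) x45378) x36630) x31770) x32418) x32202) x32274) x32250) (Nat.mul x32256 (nat_lit 3))) x12574)
    (Nat.sub (Nat.sub (Nat.add (Nat.add (Nat.add (Nat.add (Nat.add (Nat.add (Nat.add (Nat.add C x19144) x45388) x36640) x31780) x32428) x32212) x32248) x32268) x51948) x12584)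
    (Nat.sub (Nat.sub (Nat.add (Nat.add (Nat.add (Nat.add (Nat.add (Nat.add (Nat.add (Nat.add (Nat.add C x19146) x45390) x36642) x31782) x32430) x32214) x32250) x32274) x32266) x32268) x12586)
    (Nat.sub (Nat.add (Nat.add (Nat.add (Nat.add (Nat.add (Nat.add (Nat.add (Nat.add (Nat.add C x19152) x45396) x36648) x31788) x32436) x32220) x32256) x32292) x32268) x12592)
    (Nat.sub (Nat.add (Nat.add (Nat.add (Nat.add (Nat.add (Nat.add (Nat.add C x32292) x19170) x45414) x36666) x31806) x32454) x32274) x12610)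
    (Nat.sub (Nat.add (Nat.add (Nat.add (Nat.add (Nat.add (Nat.add (Nat.add (Nat.add C (Nat.mul x32324 (nat_lit 3))) x19202) x45446) x36698) x31838) x32162) x32330) x32326) x52006)
    (Nat.sub (Nat.sub (Nat.add (Nat.add (Nat.add (Nat.add (Nat.add (Nat.add (Nat.add (Nat.add C (Nat.mul x32326 (nat_lit 2))) x19204) x45448) x36700) x31840) x32164) x32332) x32324) x52008) x12644)
    (Nat.sub (Nat.add (Nat.add (Nat.add (Nat.add (Nat.add (Nat.add (Nat.add (Nat.add (Nat.add C x32330) x19208) x45452) x36704) x31844) x32168) x32348) x32324) x32332) x52012)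
    (Nat.sub (Nat.sub (Nat.add (Nat.add (Nat.add (Nat.add (Nat.add (Nat.add (Nat.add (Nat.add (Nat.add (Nat.add (Nat.add C (Nat.mul x32332 (nat_lit 2))) x19210) x45454) x36706) x31846) x32170) x32350) x32326) x32338) x32330) x32334) x52014) x12650)
    (Nat.sub (Nat.add (Nat.add (Nat.add (Nat.add (Nat.add (Nat.add (Nat.add (Nat.add (Nat.add C x32334) x19212) x45456) x36708) x31848) x32172) x32352) x32340) x32332) x12652)
    (Nat.sub (Nat.sub (Nat.add (Nat.add (Nat.add (Nat.add (Nat.add (Nat.add (Nat.add (Nat.add C x19216) x45460) x36712) x31852) x32176) x32356) x32332) x32340) x52020) x12656)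
    (Nat.sub (Nat.add (Nat.add (Nat.add (Nat.add (Nat.add (Nat.add (Nat.add (Nat.add (Nat.add C x32340) x19218) x45462) x36714) x31854) x32178) x32358) x32334) x32338) x12658)
    (Nat.sub (Nat.add (Nat.add (Nat.add (Nat.add (Nat.add (Nat.add (Nat.add (Nat.add (Nat.add C x32348) x19226) x45470) x36722) x31862) x32186) x32402) x32330) x32350) x52030)
    (Nat.sub (Nat.sub (Nat.add (Nat.add (Nat.add (Nat.add (Nat.add (Nat.add (Nat.add (Nat.add (Nat.add (Nat.add (Nat.add C x32350) x19228) x45472) x36724) x31864) x32188) x32404) x32332) x32356) x32348) x32352) x52032) x12668)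
    (Nat.sub (Nat.sub (Nat.add (Nat.add (Nat.add (Nat.add (Nat.add (Nat.add (Nat.add (Nat.add (Nat.add C x19230) x45474) x36726) x31866) x32190) x32406) x32334) x32358) x32350) x32352) x12670)
    (Nat.sub (Nat.sub (Nat.add (Nat.add (Nat.add (Nat.add (Nat.add (Nat.add (Nat.add (Nat.add (Nat.add (Nat.add (Nat.add C x32356) x19234) x45478) x36730) x31870) x32194) x32410) x32338) x32374) x32350) x32358) x52038) x12674)
    (Nat.sub (Nat.add (Nat.add (Nat.add (Nat.add (Nat.add (Nat.add (Nat.add (Nat.add (Nat.add (Nat.add (Nat.add (Nat.add C x32358) x19236) x45480) x36732) x31872) x32196) x32412) x32340) x32376) x32352) x32364) x32356) x12676)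
    (Nat.sub (Nat.add (Nat.add (Nat.add (Nat.add (Nat.add (Nat.add (Nat.add (Nat.add (Nat.add C x32364) x19242) x45486) x36738) x31878) x32202) x32418) x32382) x32358) x12682)
    (Nat.sub (Nat.sub (Nat.add (Nat.add (Nat.add (Nat.add (Nat.add (Nat.add (Nat.add (Nat.add C x19252) x45496) x36748) x31888) x32212) x32428) x32356) x32376) x52056) x12692)
    (Nat.sub (Nat.sub (Nat.add (Nat.add (Nat.add (Nat.add (Nat.add (Nat.add (Nat.add (Nat.add (Nat.add C x19254) x45498) x36750) x31890) x32214) x32430) x32358) x32382) x32374) x32376) x12694)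
    (Nat.sub (Nat.add (Nat.add (Nat.add (Nat.add (Nat.add (Nat.add (Nat.add (Nat.add (Nat.add C x32382) x19260) x45504) x36756) x31896) x32220) x32436) x32364) x32376) x12700)
    (Nat.sub (Nat.add (Nat.add (Nat.add (Nat.add (Nat.add (Nat.add (Nat.add (Nat.add (Nat.add C (Nat.mul x32402 (nat_lit 2))) x19280) x45524) x36776) x31916) x32240) x32564) x32348) x32404) x52084)
    (Nat.sub (Nat.sub (Nat.add (Nat.add (Nat.add (Nat.add (Nat.add (Nat.add (Nat.add (Nat.add (Nat.add (Nat.add (Nat.add C (Nat.mul x32404 (nat_lit 2))) x19282) x45526) x36778) x31918) x32242) x32566) x32350) x32410) x32402) x32406) x52086) x12722)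
    (Nat.sub (Nat.add (Nat.add (Nat.add (Nat.add (Nat.add (Nat.add (Nat.add (Nat.add (Nat.add C x19284) x45528) x36780) x31920) x32244) x32568) x32352) x32412) x32404) x12724)
    (Nat.sub (Nat.sub (Nat.add (Nat.add (Nat.add (Nat.add (Nat.add (Nat.add (Nat.add (Nat.add (Nat.add (Nat.add (Nat.add C x32410) x19288) x45532) x36784) x31924) x32248) x32572) x32356) x32428) x32404) x32412) x52092) x12728)
    (Nat.sub (Nat.add (Nat.add (Nat.add (Nat.add (Nat.add (Nat.add (Nat.add (Nat.add (Nat.add (Nat.add (Nat.add (Nat.add C x32412) x19290) x45534) x36786) x31926) x32250) x32574) x32358) x32430) x32406) x32418) x32410) x12730)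
    (Nat.sub (Nat.add (Nat.add (Nat.add (Nat.add (Nat.add (Nat.add (Nat.add (Nat.add (Nat.add C x19296) x45540) x36792) x31932) x32256) x32580) x32364) x32436) x32412) x12736)
    (Nat.sub (Nat.sub (Nat.add (Nat.add (Nat.add (Nat.add (Nat.add (Nat.add (Nat.add (Nat.add (Nat.add (Nat.add (Nat.add C (Nat.mul x32428 (nat_lit 2))) x19306) x45550) x36802) x31942) x32266) x32590) x32374) x32482) x32410) x32430) x52110) x12746)
    (Nat.sub (Nat.add (Nat.add (Nat.add (Nat.add (Nat.add (Nat.add (Nat.add (Nat.add (Nat.add (Nat.add (Nat.add (Nat.add C x32430) x19308) x45552) x36804) x31944) x32268) x32592) x32376) x32484) x32412) x32436) x32428) x12748)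
    (Nat.sub (Nat.add (Nat.add (Nat.add (Nat.add (Nat.add (Nat.add (Nat.add (Nat.add (Nat.add (Nat.add (Nat.add (Nat.add C (Nat.mul x32436 (nat_lit 2))) x19314) x45558) x36810) x31950) x32274) x32598) x32382) x32490) x32418) x32454) x32430) x12754)
    (Nat.sub (Nat.add (Nat.add (Nat.add (Nat.add (Nat.add (Nat.add (Nat.add (Nat.add (Nat.add C (Nat.mul x32454 (nat_lit 2))) x19332) x45576) x36828) x31968) x32292) x32616) x32508) x32436) x12772)
    (Nat.sub (Nat.sub (Nat.add (Nat.add (Nat.add (Nat.add (Nat.add (Nat.add (Nat.add (Nat.add C (Nat.mul x32482 (nat_lit 2))) x19360) x45604) x36856) x31996) x32644) x32428) x32484) x52164) x12800)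
    (Nat.sub (Nat.add (Nat.add (Nat.add (Nat.add (Nat.add (Nat.add (Nat.add (Nat.add (Nat.add C x32484) x19362) x45606) x36858) x31998) x32646) x32430) x32490) x32482) x12802)
    (Nat.sub (Nat.add (Nat.add (Nat.add (Nat.add (Nat.add (Nat.add (Nat.add (Nat.add (Nat.add C x32490) x19368) x45612) x36864) x32004) x32652) x32436) x32508) x32484) x12808)
    (Nat.sub (Nat.add (Nat.add (Nat.add (Nat.add (Nat.add (Nat.add (Nat.add (Nat.add C (Nat.mul x32508 (nat_lit 3))) x19386) x45630) x36882) x32022) x32670) x32454) x32490) x12826)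
    (Nat.sub (Nat.add (Nat.add (Nat.add (Nat.add (Nat.add (Nat.add C (Nat.mul x32564 (nat_lit 3))) x19442) x45686) x36938) x32402) x32566) x52246)
    (Nat.sub (Nat.sub (Nat.add (Nat.add (Nat.add (Nat.add (Nat.add (Nat.add (Nat.add (Nat.add C (Nat.mul x32566 (nat_lit 3))) x19444) x45688) x36940) x32404) x32572) x32564) x32568) x52248) x12884)
    (Nat.sub (Nat.add (Nat.add (Nat.add (Nat.add (Nat.add (Nat.add (Nat.add C x32568) x19446) x45690) x36942) x32406) x32574) x32566) x12886)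
    (Nat.sub (Nat.sub (Nat.add (Nat.add (Nat.add (Nat.add (Nat.add (Nat.add (Nat.add (Nat.add C (Nat.mul x32572 (nat_lit 2))) x19450) x45694) x36946) x32410) x32590) x32566) x32574) x52254) x12890)
    (Nat.sub (Nat.add (Nat.add (Nat.add (Nat.add (Nat.add (Nat.add (Nat.add (Nat.add (Nat.add C (Nat.mul x32574 (nat_lit 2))) x19452) x45696) x36948) x32412) x32592) x32568) x32580) x32572) x12892)
    (Nat.sub (Nat.add (Nat.add (Nat.add (Nat.add (Nat.add (Nat.add (Nat.add C x32580) x19458) x45702) x36954) x32418) x32598) x32574) x12898)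
    (Nat.sub (Nat.sub (Nat.add (Nat.add (Nat.add (Nat.add (Nat.add (Nat.add (Nat.add (Nat.add C (Nat.mul x32590 (nat_lit 2))) x19468) x45712) x36964) x32428) x32644) x32572) x32592) x52272) x12908)
    (Nat.sub (Nat.add (Nat.add (Nat.add (Nat.add (Nat.add (Nat.add (Nat.add (Nat.add (Nat.add C x32592) x19470) x45714) x36966) x32430) x32646) x32574) x32598) x32590) x12910)
    (Nat.sub (Nat.add (Nat.add (Nat.add (Nat.add (Nat.add (Nat.add (Nat.add (Nat.add (Nat.add C (Nat.mul x32598 (nat_lit 2))) x19476) x45720) x36972) x32436) x32652) x32580) x32616) x32592) x12916)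
    (Nat.sub (Nat.add (Nat.add (Nat.add (Nat.add (Nat.add (Nat.add (Nat.add C x32616) x19494) x45738) x36990) x32454) x32670) x32598) x12934)
    (Nat.sub (Nat.sub (Nat.add (Nat.add (Nat.add (Nat.add (Nat.add (Nat.add (Nat.add C (Nat.mul x32644 (nat_lit 4))) x19522) x45766) x37018) x32482) x32590) x32646) x52326) x12962)
    (Nat.sub (Nat.add (Nat.add (Nat.add (Nat.add (Nat.add (Nat.add (Nat.add (Nat.add C (Nat.mul x32646 (nat_lit 3))) x19524) x45768) x37020) x32484) x32592) x32652) x32644) x12964)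
    (Nat.sub (Nat.add (Nat.add (Nat.add (Nat.add (Nat.add (Nat.add (Nat.add (Nat.add C (Nat.mul x32652 (nat_lit 3))) x19530) x45774) x37026) x32490) x32598) x32670) x32646) x12970)
    (Nat.sub (Nat.add (Nat.add (Nat.add (Nat.add (Nat.add (Nat.add (Nat.add (Nat.add C (Nat.mul x32670 (nat_lit 4))) x19548) x45792) x37044) x32508) x32616) x32724) x32652) x12988)
    (Nat.sub (Nat.add (Nat.add (Nat.add (Nat.add (Nat.add C (Nat.mul x32724 (nat_lit 5))) x19602) x45846) x37098) x32670) x13042)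
    (Nat.sub (Nat.add (Nat.add (Nat.add (Nat.add (Nat.add C (Nat.mul x32858 (nat_lit 4))) x45980) x28484) x32912) x32876) x52540)
    (Nat.sub (Nat.add (Nat.add (Nat.add (Nat.add (Nat.add (Nat.add C (Nat.mul x32876 (nat_lit 2))) x45998) x28502) x32930) x32858) x32882) x52558)
    (Nat.sub (Nat.add (Nat.add (Nat.add (Nat.add (Nat.add (Nat.add C (Nat.mul x32882 (nat_lit 2))) x46004) x28508) x32936) x32876) x32884) x52564)
    (Nat.sub (Nat.sub (Nat.add (Nat.add (Nat.add (Nat.add (Nat.add C (Nat.mul x32884 (nat_lit 3))) x46006) x28510) x32938) x32882) x52566) x13202)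
    (Nat.sub (Nat.add (Nat.add (Nat.add (Nat.add (Nat.add (Nat.add C (Nat.mul x32912 (nat_lit 2))) x46034) x28538) x33074) x32858) x32930) x52594)
    (Nat.sub (Nat.add (Nat.add (Nat.add (Nat.add (Nat.add (Nat.add (Nat.add (Nat.add (Nat.add C (Nat.mul x32930 (nat_lit 2))) x46052) x28556) x33092) x32876) x32984) x32912) x32948) x32936) x52612)
    (Nat.sub (Nat.add (Nat.add (Nat.add (Nat.add (Nat.add (Nat.add (Nat.add (Nat.add (Nat.add C x32936) x46058) x28562) x33098) x32882) x32990) x32954) x32930) x32938) x52618)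
    (Nat.sub (Nat.sub (Nat.add (Nat.add (Nat.add (Nat.add (Nat.add (Nat.add (Nat.add (Nat.add C (Nat.mul x32938 (nat_lit 2))) x46060) x28564) x33100) x32884) x32992) x32956) x32936) x52620) x13256)
    (Nat.sub (Nat.add (Nat.add (Nat.add (Nat.add (Nat.add (Nat.add C x46070) x28574) x33110) x33002) x32930) x32954) x52630)
    (Nat.sub (Nat.add (Nat.add (Nat.add (Nat.add (Nat.add (Nat.add (Nat.add (Nat.add (Nat.add C x32954) x46076) x28580) x33116) x33008) x32936) x32948) x32960) x32956) x52636)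
    (Nat.sub (Nat.sub (Nat.add (Nat.add (Nat.add (Nat.add (Nat.add (Nat.add (Nat.add (Nat.add C x32956) x46078) x28582) x33118) x33010) x32938) x32962) x32954) x52638) x13274)
    (Nat.sub (Nat.add (Nat.add (Nat.add (Nat.add (Nat.add (Nat.add C x46082) x28586) x33122) x33014) x32954) x32962) x52642)
    (Nat.sub (Nat.sub (Nat.add (Nat.add (Nat.add (Nat.add (Nat.add (Nat.add (Nat.add (Nat.add C (Nat.mul x32962 (nat_lit 2))) x46084) x28588) x33124) x33016) x32956) x32960) x32964) x52644) x13280)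
    (Nat.sub (Nat.add (Nat.add (Nat.add (Nat.add (Nat.add (Nat.add C (Nat.mul x32964 (nat_lit 2))) x46086) x28590) x33126) x33018) x32962) x13282)
    (Nat.sub (Nat.add (Nat.add (Nat.add (Nat.add (Nat.add (Nat.add C x46106) x28610) x33146) x32930) x33002) x32990) x52666)
    (Nat.sub (Nat.sub (Nat.add (Nat.add (Nat.add (Nat.add (Nat.add (Nat.add (Nat.add C x46112) x28616) x33152) x32936) x33008) x32984) x32992) (Nat.mul x32990 (nat_lit 2))) x52672)
    (Nat.sub (Nat.sub (Nat.sub (Nat.add (Nat.add (Nat.add (Nat.add (Nat.add (Nat.add C x46114) x28618) x33154) x32938) x33010) x32990) x32992) x52674) x13310)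
    (Nat.sub (Nat.add (Nat.add (Nat.add (Nat.add (Nat.add (Nat.add C x46124) x28628) x33164) x32948) x32984) x33008) x52684)
    (Nat.sub (Nat.add (Nat.add (Nat.add (Nat.add (Nat.add (Nat.add (Nat.add (Nat.add (Nat.add C x46130) x28634) x33170) x32954) x32990) x33026) x33002) x33014) x33010) x52690)
    (Nat.sub (Nat.sub (Nat.add (Nat.add (Nat.add (Nat.add (Nat.add (Nat.add (Nat.add (Nat.add C x46132) x28636) x33172) x32956) x32992) x33028) x33016) x33008) x52692) x13328)
    (Nat.sub (Nat.sub (Nat.add (Nat.add (Nat.add (Nat.add (Nat.add (Nat.add (Nat.add C x46136) x28640) x33176) x32960) x33032) x33008) x33016) (Nat.mul x33014 (nat_lit 2))) x52696)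
    (Nat.sub (Nat.sub (Nat.add (Nat.add (Nat.add (Nat.add (Nat.add (Nat.add (Nat.add (Nat.add C x46138) x28642) x33178) x32962) x33034) x33010) x33014) x33018) x52698) x13334)
    (Nat.sub (Nat.add (Nat.add (Nat.add (Nat.add (Nat.add (Nat.add C x46140) x28644) x33180) x32964) x33036) x33016) x13336)
    (Nat.sub (Nat.add (Nat.add (Nat.add (Nat.add (Nat.add (Nat.add C x46148) x28652) x33188) x33008) x33032) x33028) x52708)
    (Nat.sub (Nat.sub (Nat.sub (Nat.add (Nat.add (Nat.add (Nat.add (Nat.add (Nat.add C x46150) x28654) x33190) x33010) x33034) x33026) x33028) x52710) x13346)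
    (Nat.sub (Nat.add (Nat.add (Nat.add (Nat.add (Nat.add (Nat.add C x46154) x28658) x33194) x33014) x33026) x33034) x52714)
    (Nat.sub (Nat.sub (Nat.add (Nat.add (Nat.add (Nat.add (Nat.add (Nat.add (Nat.add (Nat.add (Nat.add C x33034) x46156) x28660) x33196) x33016) x33028) x33040) x33032) x33036) x52716) x13352)
    (Nat.sub (Nat.add (Nat.add (Nat.add (Nat.add (Nat.add (Nat.add C x46158) x28662) x33198) x33018) x33042) x33034) x13354)
    (Nat.sub (Nat.sub (Nat.add (Nat.add (Nat.add (Nat.add (Nat.add (Nat.add C x33040) x46162) x28666) x33202) x33034) x33042) x52722) x13358)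
    (Nat.sub (Nat.add (Nat.add (Nat.add (Nat.add (Nat.add (Nat.add C (Nat.mul x33042 (nat_lit 2))) x46164) x28668) x33204) x33036) x33040) x13360)
    (Nat.sub (Nat.add (Nat.add (Nat.add (Nat.add (Nat.add (Nat.add C (Nat.mul x33074 (nat_lit 2))) x46196) x28700) x33560) x32912) x33092) x52756)
    (Nat.sub (Nat.add (Nat.add (Nat.add (Nat.add (Nat.add (Nat.add (Nat.add (Nat.add (Nat.add C x33092) x46214) x28718) x33578) x32930) x33146) x33074) x33110) x33098) x52774)
    (Nat.sub (Nat.add (Nat.add (Nat.add (Nat.add (Nat.add (Nat.add (Nat.add (Nat.add C x46220) x28724) x33584) x32936) x33152) x33116) x33092) x33100) x52780)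
    (Nat.sub (Nat.sub (Nat.add (Nat.add (Nat.add (Nat.add (Nat.add (Nat.add (Nat.add (Nat.add C x33100) x46222) x28726) x33586) x32938) x33154) x33118) x33098) x52782) x13418)
    (Nat.sub (Nat.sub (Nat.add (Nat.add (Nat.add (Nat.add (Nat.add (Nat.add (Nat.add C x46232) x28736) x33596) x32948) x33164) x33092) x33116) (Nat.mul x33110 (nat_lit 2))) x52792)
    (Nat.sub (Nat.sub (Nat.add (Nat.add (Nat.add (Nat.add (Nat.add (Nat.add (Nat.add (Nat.add (Nat.add C x46238) x28742) x33602) x32954) x33170) x33098) x33110) x33122) x33118) x33116) x52798)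
    (Nat.sub (Nat.sub (Nat.sub (Nat.add (Nat.add (Nat.add (Nat.add (Nat.add (Nat.add (Nat.add (Nat.add C x46240) x28744) x33604) x32956) x33172) x33100) x33124) x33116) x33118) x52800) x13436)
    (Nat.sub (Nat.sub (Nat.add (Nat.add (Nat.add (Nat.add (Nat.add (Nat.add (Nat.add C x46244) x28748) x33608) x32960) x33176) x33116) x33124) (Nat.mul x33122 (nat_lit 2))) x52804)
    (Nat.sub (Nat.sub (Nat.add (Nat.add (Nat.add (Nat.add (Nat.add (Nat.add (Nat.add (Nat.add C x46246) x28750) x33610) x32962) x33178) x33118) x33122) x33126) x52806) x13442)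
    (Nat.sub (Nat.add (Nat.add (Nat.add (Nat.add (Nat.add (Nat.add C x46248) x28752) x33612) x32964) x33180) x33124) x13444)
    (Nat.sub (Nat.add (Nat.add (Nat.add (Nat.add (Nat.add (Nat.add (Nat.add (Nat.add (Nat.add C x33146) x46268) x28772) x33632) x32984) x33308) x33092) x33164) x33152) x52828)
    (Nat.sub (Nat.sub (Nat.add (Nat.add (Nat.add (Nat.add (Nat.add (Nat.add (Nat.add (Nat.add (Nat.add C x46274) x28778) x33638) x32990) x33314) x33098) x33170) x33146) x33154) x33152) x52834)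
    (Nat.sub (Nat.sub (Nat.add (Nat.add (Nat.add (Nat.add (Nat.add (Nat.add (Nat.add (Nat.add C x46276) x28780) x33640) x32992) x33316) x33100) x33172) x33152) x52836) x13472)
    (Nat.sub (Nat.add (Nat.add (Nat.add (Nat.add (Nat.add (Nat.add (Nat.add (Nat.add (Nat.add C x46286) x28790) x33650) x33002) x33326) x33110) x33218) x33146) x33170) x52846)
    (Nat.sub (Nat.add (Nat.add (Nat.add (Nat.add (Nat.add (Nat.add (Nat.add (Nat.add (Nat.add (Nat.add (Nat.add (Nat.add C x46292) x28796) x33656) x33008) x33332) x33116) x33224) x33152) x33188) x33164) x33176) x33172) x52852)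
    (Nat.sub (Nat.sub (Nat.add (Nat.add (Nat.add (Nat.add (Nat.add (Nat.add (Nat.add (Nat.add (Nat.add (Nat.add (Nat.add C x46294) x28798) x33658) x33010) x33334) x33118) x33226) x33154) x33190) x33178) x33170) x52854) x13490)
    (Nat.sub (Nat.sub (Nat.add (Nat.add (Nat.add (Nat.add (Nat.add (Nat.add (Nat.add (Nat.add (Nat.add (Nat.add C x46298) x28802) x33662) x33014) x33338) x33122) x33230) x33194) x33170) x33178) (Nat.mul x33176 (nat_lit 2))) x52858)
    (Nat.sub (Nat.sub (Nat.add (Nat.add (Nat.add (Nat.add (Nat.add (Nat.add (Nat.add (Nat.add (Nat.add (Nat.add (Nat.add C x46300) x28804) x33664) x33016) x33340) x33124) x33232) x33196) x33172) x33176) x33180) x52860) x13496)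
    (Nat.sub (Nat.add (Nat.add (Nat.add (Nat.add (Nat.add (Nat.add (Nat.add (Nat.add (Nat.add C x46302) x28806) x33666) x33018) x33342) x33126) x33234) x33198) x33178) x13498)
    (Nat.sub (Nat.sub (Nat.add (Nat.add (Nat.add (Nat.add (Nat.add (Nat.add (Nat.add (Nat.add (Nat.add C x46310) x28814) x33674) x33026) x33350) x33242) x33170) x33194) x33190) x33188) x52870)
    (Nat.sub (Nat.sub (Nat.sub (Nat.add (Nat.add (Nat.add (Nat.add (Nat.add (Nat.add (Nat.add (Nat.add (Nat.add C x46312) x28816) x33676) x33028) x33352) x33244) x33172) x33196) x33188) (Nat.mul x33190 (nat_lit 2))) x52872) x13508)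
    (Nat.sub (Nat.sub (Nat.add (Nat.add (Nat.add (Nat.add (Nat.add (Nat.add (Nat.add (Nat.add (Nat.add C x46316) x28820) x33680) x33032) x33356) x33248) x33176) x33188) x33196) x33194) x52876)
    (Nat.sub (Nat.sub (Nat.add (Nat.add (Nat.add (Nat.add (Nat.add (Nat.add (Nat.add (Nat.add (Nat.add (Nat.add (Nat.add C x46318) x28822) x33682) x33034) x33358) x33250) x33178) x33190) x33202) x33194) x33198) x52878) x13514)
    (Nat.sub (Nat.sub (Nat.add (Nat.add (Nat.add (Nat.add (Nat.add (Nat.add (Nat.add (Nat.add (Nat.add C x46320) x28824) x33684) x33036) x33360) x33252) x33180) x33204) x33196) x33198) x13516)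
    (Nat.sub (Nat.sub (Nat.add (Nat.add (Nat.add (Nat.add (Nat.add (Nat.add (Nat.add (Nat.add C x46324) x28828) x33688) x33040) x33364) x33256) x33196) x33204) x52884) x13520)
    (Nat.sub (Nat.add (Nat.add (Nat.add (Nat.add (Nat.add (Nat.add (Nat.add (Nat.add (Nat.add C x33204) x46326) x28830) x33690) x33042) x33366) x33258) x33198) x33202) x13522)
    (Nat.sub (Nat.add (Nat.add (Nat.add (Nat.add (Nat.add (Nat.add C x46340) x28844) x33704) x33380) x33164) x33224) x52900)
    (Nat.sub (Nat.sub (Nat.add (Nat.add (Nat.add (Nat.add (Nat.add (Nat.add (Nat.add (Nat.add (Nat.add C x46346) x28850) x33710) x33386) x33170) x33242) x33218) x33230) x33226) x33224) x52906)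
    (Nat.sub (Nat.sub (Nat.sub (Nat.add (Nat.add (Nat.add (Nat.add (Nat.add (Nat.add (Nat.add (Nat.add C x46348) x28852) x33712) x33388) x33172) x33244) x33232) x33224) x33226) x52908) x13544)
    (Nat.sub (Nat.sub (Nat.add (Nat.add (Nat.add (Nat.add (Nat.add (Nat.add (Nat.add (Nat.add C x46352) x28856) x33716) x33392) x33176) x33248) x33224) x33232) (Nat.mul x33230 (nat_lit 4))) x52912)
    (Nat.sub (Nat.sub (Nat.sub (Nat.add (Nat.add (Nat.add (Nat.add (Nat.add (Nat.add (Nat.add (Nat.add (Nat.add C x46354) x28858) x33718) x33394) x33178) x33250) x33226) x33230) x33234) (Nat.mul x33232 (nat_lit 2))) x52914) x13550)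
    (Nat.sub (Nat.sub (Nat.add (Nat.add (Nat.add (Nat.add (Nat.add (Nat.add (Nat.add C x46356) x28860) x33720) x33396) x33180) x33252) x33232) (Nat.mul x33234 (nat_lit 2))) x13552)
    (Nat.sub (Nat.add (Nat.add (Nat.add (Nat.add (Nat.add (Nat.add (Nat.add (Nat.add C x46364) x28868) x33728) x33404) x33188) x33224) x33248) x33244) x52924)
    (Nat.sub (Nat.sub (Nat.sub (Nat.add (Nat.add (Nat.add (Nat.add (Nat.add (Nat.add (Nat.add (Nat.add C x46366) x28870) x33730) x33406) x33190) x33226) x33250) x33242) x33244) x52926) x13562)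
    (Nat.sub (Nat.sub (Nat.add (Nat.add (Nat.add (Nat.add (Nat.add (Nat.add (Nat.add (Nat.add (Nat.add C x46370) x28874) x33734) x33410) x33194) x33230) x33266) x33242) x33250) x33248) x52930)
    (Nat.sub (Nat.sub (Nat.add (Nat.add (Nat.add (Nat.add (Nat.add (Nat.add (Nat.add (Nat.add (Nat.add (Nat.add (Nat.add C x46372) x28876) x33736) x33412) x33196) x33232) x33268) x33244) x33256) x33248) x33252) x52932) x13568)
    (Nat.sub (Nat.sub (Nat.add (Nat.add (Nat.add (Nat.add (Nat.add (Nat.add (Nat.add (Nat.add (Nat.add C x46374) x28878) x33738) x33414) x33198) x33234) x33270) x33258) x33250) x33252) x13570)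
    (Nat.sub (Nat.sub (Nat.sub (Nat.add (Nat.add (Nat.add (Nat.add (Nat.add (Nat.add (Nat.add (Nat.add C x46378) x28882) x33742) x33418) x33202) x33274) x33250) x33258) x33256) x52938) x13574)
    (Nat.sub (Nat.add (Nat.add (Nat.add (Nat.add (Nat.add (Nat.add (Nat.add (Nat.add C x46380) x28884) x33744) x33420) x33204) x33276) x33252) x33256) x13576)
    (Nat.sub (Nat.add (Nat.add (Nat.add (Nat.add (Nat.add (Nat.add C x46388) x28892) x33752) x33428) x33248) x33268) x52948)
    (Nat.sub (Nat.sub (Nat.add (Nat.add (Nat.add (Nat.add (Nat.add (Nat.add (Nat.add (Nat.add C x46390) x28894) x33754) x33430) x33250) x33274) x33266) x33270) x52950) x13586)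
    (Nat.sub (Nat.sub (Nat.add (Nat.add (Nat.add (Nat.add (Nat.add (Nat.add (Nat.add C x46392) x28896) x33756) x33432) x33252) x33276) x33268) (Nat.mul x33270 (nat_lit 2))) x13588)
    (Nat.sub (Nat.sub (Nat.add (Nat.add (Nat.add (Nat.add (Nat.add (Nat.add (Nat.add (Nat.add C x33274) x46396) x28900) x33760) x33436) x33256) x33268) x33276) x52956) x13592)
    (Nat.sub (Nat.add (Nat.add (Nat.add (Nat.add (Nat.add (Nat.add (Nat.add (Nat.add (Nat.add C x33276) x46398) x28902) x33762) x33438) x33258) x33270) x33282) x33274) x13594)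
    (Nat.sub (Nat.add (Nat.add (Nat.add (Nat.add (Nat.add (Nat.add C (Nat.mul x33282 (nat_lit 2))) x46404) x28908) x33768) x33444) x33276) x13600)
    (Nat.sub (Nat.add (Nat.add (Nat.add (Nat.add (Nat.add (Nat.add C x46430) x28934) x33794) x33146) x33326) x33314) x52990)
    (Nat.sub (Nat.sub (Nat.add (Nat.add (Nat.add (Nat.add (Nat.add (Nat.add (Nat.add C x46436) x28940) x33800) x33152) x33332) x33308) x33316) (Nat.mul x33314 (nat_lit 2))) x52996)
    (Nat.sub (Nat.sub (Nat.sub (Nat.add (Nat.add (Nat.add (Nat.add (Nat.add (Nat.add C x46438) x28942) x33802) x33154) x33334) x33314) x33316) x52998) x13634)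
    (Nat.sub (Nat.sub (Nat.add (Nat.add (Nat.add (Nat.add (Nat.add (Nat.add (Nat.add C x46448) x28952) x33812) x33164) x33380) x33308) x33332) (Nat.mul x33326 (nat_lit 2))) x53008)
    (Nat.sub (Nat.sub (Nat.add (Nat.add (Nat.add (Nat.add (Nat.add (Nat.add (Nat.add (Nat.add (Nat.add (Nat.add C x46454) x28958) x33818) x33170) x33386) x33314) x33350) x33326) x33338) x33334) (Nat.mul x33332 (nat_lit 2))) x53014)
    (Nat.sub (Nat.sub (Nat.sub (Nat.add (Nat.add (Nat.add (Nat.add (Nat.add (Nat.add (Nat.add (Nat.add (Nat.add C x46456) x28960) x33820) x33172) x33388) x33316) x33352) x33340) x33332) (Nat.mul x33334 (nat_lit 2))) x53016) x13652)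
    (Nat.sub (Nat.sub (Nat.add (Nat.add (Nat.add (Nat.add (Nat.add (Nat.add (Nat.add (Nat.add C x46460) x28964) x33824) x33176) x33392) x33356) x33332) x33340) (Nat.mul x33338 (nat_lit 4))) x53020)
    (Nat.sub (Nat.sub (Nat.sub (Nat.add (Nat.add (Nat.add (Nat.add (Nat.add (Nat.add (Nat.add (Nat.add (Nat.add C x46462) x28966) x33826) x33178) x33394) x33358) x33334) x33338) x33342) (Nat.mul x33340 (nat_lit 2))) x53022) x13658)
    (Nat.sub (Nat.sub (Nat.add (Nat.add (Nat.add (Nat.add (Nat.add (Nat.add (Nat.add C x46464) x28968) x33828) x33180) x33396) x33360) x33340) (Nat.mul x33342 (nat_lit 2))) x13660)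
    (Nat.sub (Nat.sub (Nat.add (Nat.add (Nat.add (Nat.add (Nat.add (Nat.add (Nat.add (Nat.add C x46472) x28976) x33836) x33188) x33404) x33332) x33356) x33352) (Nat.mul x33350 (nat_lit 4))) x53032)
    (Nat.sub (Nat.sub (Nat.sub (Nat.add (Nat.add (Nat.add (Nat.add (Nat.add (Nat.add (Nat.add (Nat.add C x46474) x28978) x33838) x33190) x33406) x33334) x33358) x33350) (Nat.mul x33352 (nat_lit 5))) x53034) x13670)
    (Nat.sub (Nat.sub (Nat.add (Nat.add (Nat.add (Nat.add (Nat.add (Nat.add (Nat.add (Nat.add C x46478) x28982) x33842) x33194) x33410) x33338) x33350) x33358) (Nat.mul x33356 (nat_lit 4))) x53038)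
    (Nat.sub (Nat.sub (Nat.sub (Nat.add (Nat.add (Nat.add (Nat.add (Nat.add (Nat.add (Nat.add (Nat.add (Nat.add (Nat.add C x46480) x28984) x33844) x33196) x33412) x33340) x33352) x33364) x33356) x33360) (Nat.mul x33358 (nat_lit 3))) x53040) x13676)
    (Nat.sub (Nat.sub (Nat.add (Nat.add (Nat.add (Nat.add (Nat.add (Nat.add (Nat.add (Nat.add C x46482) x28986) x33846) x33198) x33414) x33342) x33366) x33358) (Nat.mul x33360 (nat_lit 4))) x13678)
    (Nat.sub (Nat.sub (Nat.sub (Nat.add (Nat.add (Nat.add (Nat.add (Nat.add (Nat.add (Nat.add C x46486) x28990) x33850) x33202) x33418) x33358) x33366) (Nat.mul x33364 (nat_lit 3))) x53046) x13682)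
    (Nat.sub (Nat.sub (Nat.add (Nat.add (Nat.add (Nat.add (Nat.add (Nat.add (Nat.add C x46488) x28992) x33852) x33204) x33420) x33360) x33364) (Nat.mul x33366 (nat_lit 2))) x13684)
    (Nat.sub (Nat.add (Nat.add (Nat.add (Nat.add (Nat.add (Nat.add C x46502) x29006) x33866) x33218) x33326) x33386) x53062)
    (Nat.sub (Nat.sub (Nat.add (Nat.add (Nat.add (Nat.add (Nat.add (Nat.add (Nat.add (Nat.add (Nat.add C x46508) x29012) x33872) x33224) x33332) x33404) x33380) x33392) x33388) x33386) x53068)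
    (Nat.sub (Nat.sub (Nat.sub (Nat.add (Nat.add (Nat.add (Nat.add (Nat.add (Nat.add (Nat.add (Nat.add C x46510) x29014) x33874) x33226) x33334) x33406) x33394) x33386) x33388) x53070) x13706)
    (Nat.sub (Nat.sub (Nat.add (Nat.add (Nat.add (Nat.add (Nat.add (Nat.add (Nat.add (Nat.add C x46514) x29018) x33878) x33230) x33338) x33410) x33386) x33394) (Nat.mul x33392 (nat_lit 4))) x53074)
    (Nat.sub (Nat.sub (Nat.sub (Nat.add (Nat.add (Nat.add (Nat.add (Nat.add (Nat.add (Nat.add (Nat.add (Nat.add C x46516) x29020) x33880) x33232) x33340) x33412) x33388) x33392) x33396) (Nat.mul x33394 (nat_lit 2))) x53076) x13712)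
    (Nat.sub (Nat.sub (Nat.add (Nat.add (Nat.add (Nat.add (Nat.add (Nat.add (Nat.add C x46518) x29022) x33882) x33234) x33342) x33414) x33394) (Nat.mul x33396 (nat_lit 2))) x13714)
    (Nat.sub (Nat.sub (Nat.add (Nat.add (Nat.add (Nat.add (Nat.add (Nat.add (Nat.add (Nat.add (Nat.add C x46526) x29030) x33890) x33242) x33350) x33458) x33386) x33410) x33406) x33404) x53086)
    (Nat.sub (Nat.sub (Nat.sub (Nat.add (Nat.add (Nat.add (Nat.add (Nat.add (Nat.add (Nat.add (Nat.add (Nat.add C x46528) x29032) x33892) x33244) x33352) x33460) x33388) x33412) x33404) (Nat.mul x33406 (nat_lit 2))) x53088) x13724)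
    (Nat.sub (Nat.sub (Nat.add (Nat.add (Nat.add (Nat.add (Nat.add (Nat.add (Nat.add (Nat.add (Nat.add (Nat.add C x46532) x29036) x33896) x33248) x33356) x33464) x33392) x33428) x33404) x33412) (Nat.mul x33410 (nat_lit 2))) x53092)
    (Nat.sub (Nat.sub (Nat.sub (Nat.add (Nat.add (Nat.add (Nat.add (Nat.add (Nat.add (Nat.add (Nat.add (Nat.add (Nat.add (Nat.add (Nat.add C x46534) x29038) x33898) x33250) x33358) x33466) x33394) x33430) x33406) x33418) x33410) x33414) x33412) x53094) x13730)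
    (Nat.sub (Nat.sub (Nat.add (Nat.add (Nat.add (Nat.add (Nat.add (Nat.add (Nat.add (Nat.add (Nat.add (Nat.add C x46536) x29040) x33900) x33252) x33360) x33468) x33396) x33432) x33420) x33412) (Nat.mul x33414 (nat_lit 2))) x13732)
    (Nat.sub (Nat.sub (Nat.sub (Nat.add (Nat.add (Nat.add (Nat.add (Nat.add (Nat.add (Nat.add (Nat.add (Nat.add C x46540) x29044) x33904) x33256) x33364) x33472) x33436) x33412) x33420) (Nat.mul x33418 (nat_lit 2))) x53100) x13736)
    (Nat.sub (Nat.sub (Nat.add (Nat.add (Nat.add (Nat.add (Nat.add (Nat.add (Nat.add (Nat.add (Nat.add C x46542) x29046) x33906) x33258) x33366) x33474) x33438) x33414) x33418) x33420) x13738)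
    (Nat.sub (Nat.sub (Nat.add (Nat.add (Nat.add (Nat.add (Nat.add (Nat.add (Nat.add C x46550) x29054) x33914) x33266) x33482) x33410) x33430) (Nat.mul x33428 (nat_lit 2))) x53110)
    (Nat.sub (Nat.sub (Nat.sub (Nat.add (Nat.add (Nat.add (Nat.add (Nat.add (Nat.add (Nat.add (Nat.add (Nat.add C x46552) x29056) x33916) x33268) x33484) x33412) x33436) x33428) x33432) (Nat.mul x33430 (nat_lit 2))) x53112) x13748)
    (Nat.sub (Nat.sub (Nat.add (Nat.add (Nat.add (Nat.add (Nat.add (Nat.add (Nat.add (Nat.add C x46554) x29058) x33918) x33270) x33486) x33414) x33438) x33430) (Nat.mul x33432 (nat_lit 4))) x13750)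
    (Nat.sub (Nat.sub (Nat.sub (Nat.add (Nat.add (Nat.add (Nat.add (Nat.add (Nat.add (Nat.add (Nat.add C x46558) x29062) x33922) x33274) x33490) x33418) x33430) x33438) x33436) x53118) x13754)
    (Nat.sub (Nat.sub (Nat.add (Nat.add (Nat.add (Nat.add (Nat.add (Nat.add (Nat.add (Nat.add (Nat.add C x46560) x29064) x33924) x33276) x33492) x33420) x33432) x33444) x33436) x33438) x13756)
    (Nat.sub (Nat.add (Nat.add (Nat.add (Nat.add (Nat.add (Nat.add C x46566) x29070) x33930) x33282) x33498) x33438) x13762)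
    (Nat.sub (Nat.add (Nat.add (Nat.add (Nat.add (Nat.add (Nat.add C x46580) x29084) x33944) x33404) x33464) x33460) x53140)
    (Nat.sub (Nat.sub (Nat.sub (Nat.add (Nat.add (Nat.add (Nat.add (Nat.add (Nat.add C x46582) x29086) x33946) x33406) x33466) x33458) x33460) x53142) x13778)
    (Nat.sub (Nat.sub (Nat.add (Nat.add (Nat.add (Nat.add (Nat.add (Nat.add (Nat.add C x46586) x29090) x33950) x33410) x33482) x33458) x33466) (Nat.mul x33464 (nat_lit 2))) x53146)
    (Nat.sub (Nat.sub (Nat.sub (Nat.add (Nat.add (Nat.add (Nat.add (Nat.add (Nat.add (Nat.add (Nat.add (Nat.add C x46588) x29092) x33952) x33412) x33484) x33460) x33472) x33464) x33468) x33466) x53148) x13784)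
    (Nat.sub (Nat.sub (Nat.add (Nat.add (Nat.add (Nat.add (Nat.add (Nat.add (Nat.add C x46590) x29094) x33954) x33414) x33486) x33474) x33466) (Nat.mul x33468 (nat_lit 2))) x13786)
    (Nat.sub (Nat.sub (Nat.sub (Nat.add (Nat.add (Nat.add (Nat.add (Nat.add (Nat.add (Nat.add C x46594) x29098) x33958) x33418) x33490) x33466) x33474) (Nat.mul x33472 (nat_lit 3))) x53154) x13790)
    (Nat.sub (Nat.sub (Nat.add (Nat.add (Nat.add (Nat.add (Nat.add (Nat.add (Nat.add C x46596) x29100) x33960) x33420) x33492) x33468) x33472) (Nat.mul x33474 (nat_lit 2))) x13792)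
    (Nat.sub (Nat.add (Nat.add (Nat.add (Nat.add (Nat.add (Nat.add C x46604) x29108) x33968) x33428) x33464) x33484) x53164)
    (Nat.sub (Nat.sub (Nat.add (Nat.add (Nat.add (Nat.add (Nat.add (Nat.add (Nat.add (Nat.add C x46606) x29110) x33970) x33430) x33466) x33490) x33482) x33486) x53166) x13802)
    (Nat.sub (Nat.sub (Nat.add (Nat.add (Nat.add (Nat.add (Nat.add (Nat.add (Nat.add C x46608) x29112) x33972) x33432) x33468) x33492) x33484) (Nat.mul x33486 (nat_lit 2))) x13804)
    (Nat.sub (Nat.sub (Nat.add (Nat.add (Nat.add (Nat.add (Nat.add (Nat.add (Nat.add (Nat.add C x46612) x29116) x33976) x33436) x33472) x33508) x33484) x33492) x53172) x13808)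
    (Nat.sub (Nat.add (Nat.add (Nat.add (Nat.add (Nat.add (Nat.add (Nat.add (Nat.add (Nat.add C x46614) x29118) x33978) x33438) x33474) x33510) x33486) x33498) x33490) x13810)
    (Nat.sub (Nat.add (Nat.add (Nat.add (Nat.add (Nat.add (Nat.add C x46620) x29124) x33984) x33444) x33516) x33492) x13816)
    (Nat.sub (Nat.sub (Nat.add (Nat.add (Nat.add (Nat.add (Nat.add (Nat.add C x33508) x46630) x29134) x33994) x33490) x33510) x53190) x13826)
    (Nat.sub (Nat.add (Nat.add (Nat.add (Nat.add (Nat.add (Nat.add C x46632) x29136) x33996) x33492) x33516) x33508) x13828)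
    (Nat.sub (Nat.add (Nat.add (Nat.add (Nat.add (Nat.add (Nat.add C (Nat.mul x33516 (nat_lit 2))) x46638) x29142) x34002) x33498) x33510) x13834)
    (Nat.sub (Nat.add (Nat.add (Nat.add (Nat.add (Nat.add (Nat.add C (Nat.mul x33560 (nat_lit 2))) x46682) x29186) x35018) x33074) x33578) x53242)
    (Nat.sub (Nat.add (Nat.add (Nat.add (Nat.add (Nat.add (Nat.add (Nat.add (Nat.add (Nat.add C x33578) x46700) x29204) x35036) x33092) x33632) x33560) x33596) x33584) x53260)
    (Nat.sub (Nat.add (Nat.add (Nat.add (Nat.add (Nat.add (Nat.add (Nat.add (Nat.add C x46706) x29210) x35042) x33098) x33638) x33602) x33578) x33586) x53266)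
    (Nat.sub (Nat.sub (Nat.add (Nat.add (Nat.add (Nat.add (Nat.add (Nat.add (Nat.add (Nat.add C x33586) x46708) x29212) x35044) x33100) x33640) x33604) x33584) x53268) x13904)
    (Nat.sub (Nat.sub (Nat.add (Nat.add (Nat.add (Nat.add (Nat.add (Nat.add (Nat.add C x46718) x29222) x35054) x33110) x33650) x33578) x33602) (Nat.mul x33596 (nat_lit 2))) x53278)
    (Nat.sub (Nat.sub (Nat.add (Nat.add (Nat.add (Nat.add (Nat.add (Nat.add (Nat.add (Nat.add (Nat.add C x46724) x29228) x35060) x33116) x33656) x33584) x33596) x33608) x33604) x33602) x53284)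
    (Nat.sub (Nat.sub (Nat.sub (Nat.add (Nat.add (Nat.add (Nat.add (Nat.add (Nat.add (Nat.add (Nat.add C x46726) x29230) x35062) x33118) x33658) x33586) x33610) x33602) x33604) x53286) x13922)
    (Nat.sub (Nat.sub (Nat.add (Nat.add (Nat.add (Nat.add (Nat.add (Nat.add (Nat.add C x46730) x29234) x35066) x33122) x33662) x33602) x33610) (Nat.mul x33608 (nat_lit 2))) x53290)
    (Nat.sub (Nat.sub (Nat.add (Nat.add (Nat.add (Nat.add (Nat.add (Nat.add (Nat.add (Nat.add C x46732) x29236) x35068) x33124) x33664) x33604) x33608) x33612) x53292) x13928)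
    (Nat.sub (Nat.add (Nat.add (Nat.add (Nat.add (Nat.add (Nat.add C x46734) x29238) x35070) x33126) x33666) x33610) x13930)
    (Nat.sub (Nat.add (Nat.add (Nat.add (Nat.add (Nat.add (Nat.add (Nat.add (Nat.add C x46754) x29258) x35090) x33146) x33794) x33578) x33650) x33638) x53314)
    (Nat.sub (Nat.sub (Nat.add (Nat.add (Nat.add (Nat.add (Nat.add (Nat.add (Nat.add (Nat.add (Nat.add C x46760) x29264) x35096) x33152) x33800) x33584) x33656) x33632) x33640) (Nat.mul x33638 (nat_lit 2))) x53320)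
    (Nat.sub (Nat.sub (Nat.sub (Nat.add (Nat.add (Nat.add (Nat.add (Nat.add (Nat.add (Nat.add (Nat.add C x46762) x29266) x35098) x33154) x33802) x33586) x33658) x33638) x33640) x53322) x13958)
    (Nat.sub (Nat.sub (Nat.add (Nat.add (Nat.add (Nat.add (Nat.add (Nat.add (Nat.add (Nat.add (Nat.add C x46772) x29276) x35108) x33164) x33812) x33596) x33704) x33632) x33656) x33650) x53332)
    (Nat.sub (Nat.sub (Nat.add (Nat.add (Nat.add (Nat.add (Nat.add (Nat.add (Nat.add (Nat.add (Nat.add (Nat.add (Nat.add (Nat.add C x46778) x29282) x35114) x33170) x33818) x33602) x33710) x33638) x33674) x33650) x33662) x33658) x33656) x53338)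
    (Nat.sub (Nat.sub (Nat.sub (Nat.add (Nat.add (Nat.add (Nat.add (Nat.add (Nat.add (Nat.add (Nat.add (Nat.add (Nat.add (Nat.add C x46780) x29284) x35116) x33172) x33820) x33604) x33712) x33640) x33676) x33664) x33656) x33658) x53340) x13976)
    (Nat.sub (Nat.sub (Nat.add (Nat.add (Nat.add (Nat.add (Nat.add (Nat.add (Nat.add (Nat.add (Nat.add (Nat.add C x46784) x29288) x35120) x33176) x33824) x33608) x33716) x33680) x33656) x33664) (Nat.mul x33662 (nat_lit 3))) x53344)
    (Nat.sub (Nat.sub (Nat.sub (Nat.add (Nat.add (Nat.add (Nat.add (Nat.add (Nat.add (Nat.add (Nat.add (Nat.add (Nat.add (Nat.add C x46786) x29290) x35122) x33178) x33826) x33610) x33718) x33682) x33658) x33662) x33666) x33664) x53346) x13982)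
    (Nat.sub (Nat.sub (Nat.add (Nat.add (Nat.add (Nat.add (Nat.add (Nat.add (Nat.add (Nat.add (Nat.add C x46788) x29292) x35124) x33180) x33828) x33612) x33720) x33684) x33664) x33666) x13984)
    (Nat.sub (Nat.sub (Nat.add (Nat.add (Nat.add (Nat.add (Nat.add (Nat.add (Nat.add (Nat.add (Nat.add C x46796) x29300) x35132) x33188) x33836) x33728) x33656) x33680) x33676) (Nat.mul x33674 (nat_lit 2))) x53356)
    (Nat.sub (Nat.sub (Nat.sub (Nat.add (Nat.add (Nat.add (Nat.add (Nat.add (Nat.add (Nat.add (Nat.add (Nat.add C x46798) x29302) x35134) x33190) x33838) x33730) x33658) x33682) x33674) (Nat.mul x33676 (nat_lit 3))) x53358) x13994)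
    (Nat.sub (Nat.sub (Nat.add (Nat.add (Nat.add (Nat.add (Nat.add (Nat.add (Nat.add (Nat.add (Nat.add C x46802) x29306) x35138) x33194) x33842) x33734) x33662) x33674) x33682) (Nat.mul x33680 (nat_lit 2))) x53362)
    (Nat.sub (Nat.sub (Nat.sub (Nat.add (Nat.add (Nat.add (Nat.add (Nat.add (Nat.add (Nat.add (Nat.add (Nat.add (Nat.add (Nat.add C x46804) x29308) x35140) x33196) x33844) x33736) x33664) x33676) x33688) x33680) x33684) x33682) x53364) x14000)
    (Nat.sub (Nat.sub (Nat.add (Nat.add (Nat.add (Nat.add (Nat.add (Nat.add (Nat.add (Nat.add (Nat.add C x46806) x29310) x35142) x33198) x33846) x33738) x33666) x33690) x33682) (Nat.mul x33684 (nat_lit 2))) x14002)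
    (Nat.sub (Nat.sub (Nat.sub (Nat.add (Nat.add (Nat.add (Nat.add (Nat.add (Nat.add (Nat.add (Nat.add C x46810) x29314) x35146) x33202) x33850) x33742) x33682) x33690) x33688) x53370) x14006)
    (Nat.sub (Nat.add (Nat.add (Nat.add (Nat.add (Nat.add (Nat.add (Nat.add (Nat.add C x46812) x29316) x35148) x33204) x33852) x33744) x33684) x33688) x14008)
    (Nat.sub (Nat.sub (Nat.add (Nat.add (Nat.add (Nat.add (Nat.add (Nat.add (Nat.add C x46826) x29330) x35162) x33218) x33866) x33650) x33710) (Nat.mul x33704 (nat_lit 2))) x53386)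
    (Nat.sub (Nat.sub (Nat.add (Nat.add (Nat.add (Nat.add (Nat.add (Nat.add (Nat.add (Nat.add (Nat.add (Nat.add C x46832) x29336) x35168) x33224) x33872) x33656) x33728) x33704) x33716) x33712) (Nat.mul x33710 (nat_lit 3))) x53392)
    (Nat.sub (Nat.sub (Nat.sub (Nat.add (Nat.add (Nat.add (Nat.add (Nat.add (Nat.add (Nat.add (Nat.add (Nat.add C x46834) x29338) x35170) x33226) x33874) x33658) x33730) x33718) x33710) (Nat.mul x33712 (nat_lit 3))) x53394) x14030)
    (Nat.sub (Nat.sub (Nat.add (Nat.add (Nat.add (Nat.add (Nat.add (Nat.add (Nat.add (Nat.add (Nat.add C x46838) x29342) x35174) x33230) x33878) x33662) x33734) x33710) x33718) (Nat.mul x33716 (nat_lit 6))) x53398)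
    (Nat.sub (Nat.sub (Nat.sub (Nat.add (Nat.add (Nat.add (Nat.add (Nat.add (Nat.add (Nat.add (Nat.add (Nat.add (Nat.add C x46840) x29344) x35176) x33232) x33880) x33664) x33736) x33712) x33716) x33720) (Nat.mul x33718 (nat_lit 4))) x53400) x14036)
    (Nat.sub (Nat.sub (Nat.add (Nat.add (Nat.add (Nat.add (Nat.add (Nat.add (Nat.add (Nat.add C x46842) x29346) x35178) x33234) x33882) x33666) x33738) x33718) (Nat.mul x33720 (nat_lit 4))) x14038)
    (Nat.sub (Nat.sub (Nat.add (Nat.add (Nat.add (Nat.add (Nat.add (Nat.add (Nat.add (Nat.add (Nat.add C x46850) x29354) x35186) x33242) x33890) x33674) x33710) x33734) x33730) (Nat.mul x33728 (nat_lit 2))) x53410)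
    (Nat.sub (Nat.sub (Nat.sub (Nat.add (Nat.add (Nat.add (Nat.add (Nat.add (Nat.add (Nat.add (Nat.add (Nat.add C x46852) x29356) x35188) x33244) x33892) x33676) x33712) x33736) x33728) (Nat.mul x33730 (nat_lit 3))) x53412) x14048)
    (Nat.sub (Nat.sub (Nat.add (Nat.add (Nat.add (Nat.add (Nat.add (Nat.add (Nat.add (Nat.add (Nat.add (Nat.add C x46856) x29360) x35192) x33248) x33896) x33680) x33716) x33752) x33728) x33736) (Nat.mul x33734 (nat_lit 3))) x53416)
    (Nat.sub (Nat.sub (Nat.sub (Nat.add (Nat.add (Nat.add (Nat.add (Nat.add (Nat.add (Nat.add (Nat.add (Nat.add (Nat.add (Nat.add (Nat.add C x46858) x29362) x35194) x33250) x33898) x33682) x33718) x33754) x33730) x33742) x33734) x33738) (Nat.mul x33736 (nat_lit 2))) x53418) x14054)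
    (Nat.sub (Nat.sub (Nat.add (Nat.add (Nat.add (Nat.add (Nat.add (Nat.add (Nat.add (Nat.add (Nat.add (Nat.add C x46860) x29364) x35196) x33252) x33900) x33684) x33720) x33756) x33744) x33736) (Nat.mul x33738 (nat_lit 3))) x14056)
    (Nat.sub (Nat.sub (Nat.sub (Nat.add (Nat.add (Nat.add (Nat.add (Nat.add (Nat.add (Nat.add (Nat.add (Nat.add C x46864) x29368) x35200) x33256) x33904) x33688) x33760) x33736) x33744) (Nat.mul x33742 (nat_lit 3))) x53424) x14060)
    (Nat.sub (Nat.sub (Nat.add (Nat.add (Nat.add (Nat.add (Nat.add (Nat.add (Nat.add (Nat.add (Nat.add C x46866) x29370) x35202) x33258) x33906) x33690) x33762) x33738) x33742) (Nat.mul x33744 (nat_lit 2))) x14062)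
    (Nat.sub (Nat.sub (Nat.add (Nat.add (Nat.add (Nat.add (Nat.add (Nat.add (Nat.add C x46874) x29378) x35210) x33266) x33914) x33734) x33754) (Nat.mul x33752 (nat_lit 2))) x53434)
    (Nat.sub (Nat.sub (Nat.sub (Nat.add (Nat.add (Nat.add (Nat.add (Nat.add (Nat.add (Nat.add (Nat.add (Nat.add C x46876) x29380) x35212) x33268) x33916) x33736) x33760) x33752) x33756) (Nat.mul x33754 (nat_lit 2))) x53436) x14072)
    (Nat.sub (Nat.sub (Nat.add (Nat.add (Nat.add (Nat.add (Nat.add (Nat.add (Nat.add (Nat.add C x46878) x29382) x35214) x33270) x33918) x33738) x33762) x33754) (Nat.mul x33756 (nat_lit 4))) x14074)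
    (Nat.sub (Nat.sub (Nat.sub (Nat.add (Nat.add (Nat.add (Nat.add (Nat.add (Nat.add (Nat.add (Nat.add C x46882) x29386) x35218) x33274) x33922) x33742) x33754) x33762) x33760) x53442) x14078)
    (Nat.sub (Nat.sub (Nat.add (Nat.add (Nat.add (Nat.add (Nat.add (Nat.add (Nat.add (Nat.add (Nat.add C x46884) x29388) x35220) x33276) x33924) x33744) x33756) x33768) x33760) x33762) x14080)
    (Nat.sub (Nat.add (Nat.add (Nat.add (Nat.add (Nat.add (Nat.add C x46890) x29394) x35226) x33282) x33930) x33762) x14086)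
    (Nat.sub (Nat.add (Nat.add (Nat.add (Nat.add (Nat.add (Nat.add (Nat.add (Nat.add (Nat.add C x33794) x46916) x29420) x35252) x33308) x34280) x33632) x33812) x33800) x53476)
    (Nat.sub (Nat.sub (Nat.add (Nat.add (Nat.add (Nat.add (Nat.add (Nat.add (Nat.add (Nat.add (Nat.add C x46922) x29426) x35258) x33314) x34286) x33638) x33818) x33794) x33802) x33800) x53482)
    (Nat.sub (Nat.sub (Nat.add (Nat.add (Nat.add (Nat.add (Nat.add (Nat.add (Nat.add (Nat.add C x46924) x29428) x35260) x33316) x34288) x33640) x33820) x33800) x53484) x14120)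
    (Nat.sub (Nat.sub (Nat.add (Nat.add (Nat.add (Nat.add (Nat.add (Nat.add (Nat.add (Nat.add (Nat.add C x46934) x29438) x35270) x33326) x34298) x33650) x33866) x33794) x33818) x33812) x53494)
    (Nat.sub (Nat.sub (Nat.add (Nat.add (Nat.add (Nat.add (Nat.add (Nat.add (Nat.add (Nat.add (Nat.add (Nat.add (Nat.add (Nat.add C x46940) x29444) x35276) x33332) x34304) x33656) x33872) x33800) x33836) x33812) x33824) x33820) x33818) x53500)
    (Nat.sub (Nat.sub (Nat.sub (Nat.add (Nat.add (Nat.add (Nat.add (Nat.add (Nat.add (Nat.add (Nat.add (Nat.add (Nat.add (Nat.add C x46942) x29446) x35278) x33334) x34306) x33658) x33874) x33802) x33838) x33826) x33818) x33820) x53502) x14138)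
    (Nat.sub (Nat.sub (Nat.add (Nat.add (Nat.add (Nat.add (Nat.add (Nat.add (Nat.add (Nat.add (Nat.add (Nat.add C x46946) x29450) x35282) x33338) x34310) x33662) x33878) x33842) x33818) x33826) (Nat.mul x33824 (nat_lit 3))) x53506)
    (Nat.sub (Nat.sub (Nat.sub (Nat.add (Nat.add (Nat.add (Nat.add (Nat.add (Nat.add (Nat.add (Nat.add (Nat.add (Nat.add (Nat.add C x46948) x29452) x35284) x33340) x34312) x33664) x33880) x33844) x33820) x33824) x33828) x33826) x53508) x14144)
    (Nat.sub (Nat.sub (Nat.add (Nat.add (Nat.add (Nat.add (Nat.add (Nat.add (Nat.add (Nat.add (Nat.add C x46950) x29454) x35286) x33342) x34314) x33666) x33882) x33846) x33826) x33828) x14146)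
    (Nat.sub (Nat.sub (Nat.add (Nat.add (Nat.add (Nat.add (Nat.add (Nat.add (Nat.add (Nat.add (Nat.add (Nat.add C x46958) x29462) x35294) x33350) x34322) x33674) x33890) x33818) x33842) x33838) (Nat.mul x33836 (nat_lit 3))) x53518)
    (Nat.sub (Nat.sub (Nat.sub (Nat.add (Nat.add (Nat.add (Nat.add (Nat.add (Nat.add (Nat.add (Nat.add (Nat.add (Nat.add C x46960) x29464) x35296) x33352) x34324) x33676) x33892) x33820) x33844) x33836) (Nat.mul x33838 (nat_lit 4))) x53520) x14156)
    (Nat.sub (Nat.sub (Nat.add (Nat.add (Nat.add (Nat.add (Nat.add (Nat.add (Nat.add (Nat.add (Nat.add (Nat.add C x46964) x29468) x35300) x33356) x34328) x33680) x33896) x33824) x33836) x33844) (Nat.mul x33842 (nat_lit 3))) x53524)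
    (Nat.sub (Nat.sub (Nat.sub (Nat.add (Nat.add (Nat.add (Nat.add (Nat.add (Nat.add (Nat.add (Nat.add (Nat.add (Nat.add (Nat.add (Nat.add C x46966) x29470) x35302) x33358) x34330) x33682) x33898) x33826) x33838) x33850) x33842) x33846) (Nat.mul x33844 (nat_lit 2))) x53526) x14162)
    (Nat.sub (Nat.sub (Nat.add (Nat.add (Nat.add (Nat.add (Nat.add (Nat.add (Nat.add (Nat.add (Nat.add (Nat.add C x46968) x29472) x35304) x33360) x34332) x33684) x33900) x33828) x33852) x33844) (Nat.mul x33846 (nat_lit 3))) x14164)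
    (Nat.sub (Nat.sub (Nat.sub (Nat.add (Nat.add (Nat.add (Nat.add (Nat.add (Nat.add (Nat.add (Nat.add (Nat.add C x46972) x29476) x35308) x33364) x34336) x33688) x33904) x33844) x33852) (Nat.mul x33850 (nat_lit 2))) x53532) x14168)
    (Nat.sub (Nat.sub (Nat.add (Nat.add (Nat.add (Nat.add (Nat.add (Nat.add (Nat.add (Nat.add (Nat.add C x46974) x29478) x35310) x33366) x34338) x33690) x33906) x33846) x33850) x33852) x14170)
    (Nat.sub (Nat.add (Nat.add (Nat.add (Nat.add (Nat.add (Nat.add (Nat.add (Nat.add (Nat.add C x46988) x29492) x35324) x33380) x34352) x33704) x34028) x33812) x33872) x53548)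
    (Nat.sub (Nat.sub (Nat.add (Nat.add (Nat.add (Nat.add (Nat.add (Nat.add (Nat.add (Nat.add (Nat.add (Nat.add (Nat.add (Nat.add C x46994) x29498) x35330) x33386) x34358) x33710) x34034) x33818) x33890) x33866) x33878) x33874) x33872) x53554)
    (Nat.sub (Nat.sub (Nat.sub (Nat.add (Nat.add (Nat.add (Nat.add (Nat.add (Nat.add (Nat.add (Nat.add (Nat.add (Nat.add (Nat.add C x46996) x29500) x35332) x33388) x34360) x33712) x34036) x33820) x33892) x33880) x33872) x33874) x53556) x14192)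
    (Nat.sub (Nat.sub (Nat.add (Nat.add (Nat.add (Nat.add (Nat.add (Nat.add (Nat.add (Nat.add (Nat.add (Nat.add (Nat.add C x47000) x29504) x35336) x33392) x34364) x33716) x34040) x33824) x33896) x33872) x33880) (Nat.mul x33878 (nat_lit 4))) x53560)
    (Nat.sub (Nat.sub (Nat.sub (Nat.add (Nat.add (Nat.add (Nat.add (Nat.add (Nat.add (Nat.add (Nat.add (Nat.add (Nat.add (Nat.add (Nat.add C x47002) x29506) x35338) x33394) x34366) x33718) x34042) x33826) x33898) x33874) x33878) x33882) (Nat.mul x33880 (nat_lit 2))) x53562) x14198)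
    (Nat.sub (Nat.sub (Nat.add (Nat.add (Nat.add (Nat.add (Nat.add (Nat.add (Nat.add (Nat.add (Nat.add (Nat.add C x47004) x29508) x35340) x33396) x34368) x33720) x34044) x33828) x33900) x33880) (Nat.mul x33882 (nat_lit 2))) x14200)
    (Nat.sub (Nat.sub (Nat.add (Nat.add (Nat.add (Nat.add (Nat.add (Nat.add (Nat.add (Nat.add (Nat.add (Nat.add (Nat.add (Nat.add C x47012) x29516) x35348) x33404) x34376) x33728) x34052) x33836) x33944) x33872) x33896) x33892) x33890) x53572)
    (Nat.sub (Nat.sub (Nat.sub (Nat.add (Nat.add (Nat.add (Nat.add (Nat.add (Nat.add (Nat.add (Nat.add (Nat.add (Nat.add (Nat.add (Nat.add C x47014) x29518) x35350) x33406) x34378) x33730) x34054) x33838) x33946) x33874) x33898) x33890) (Nat.mul x33892 (nat_lit 2))) x53574) x14210)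
    (Nat.sub (Nat.sub (Nat.add (Nat.add (Nat.add (Nat.add (Nat.add (Nat.add (Nat.add (Nat.add (Nat.add (Nat.add (Nat.add (Nat.add (Nat.add C x47018) x29522) x35354) x33410) x34382) x33734) x34058) x33842) x33950) x33878) x33914) x33890) x33898) (Nat.mul x33896 (nat_lit 2))) x53578)
    (Nat.sub (Nat.sub (Nat.sub (Nat.add (Nat.add (Nat.add (Nat.add (Nat.add (Nat.add (Nat.add (Nat.add (Nat.add (Nat.add (Nat.add (Nat.add (Nat.add (Nat.add (Nat.add C x47020) x29524) x35356) x33412) x34384) x33736) x34060) x33844) x33952) x33880) x33916) x33892) x33904) x33896) x33900) x33898) x53580) x14216)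
    (Nat.sub (Nat.sub (Nat.add (Nat.add (Nat.add (Nat.add (Nat.add (Nat.add (Nat.add (Nat.add (Nat.add (Nat.add (Nat.add (Nat.add (Nat.add C x47022) x29526) x35358) x33414) x34386) x33738) x34062) x33846) x33954) x33882) x33918) x33906) x33898) (Nat.mul x33900 (nat_lit 2))) x14218)
    (Nat.sub (Nat.sub (Nat.sub (Nat.add (Nat.add (Nat.add (Nat.add (Nat.add (Nat.add (Nat.add (Nat.add (Nat.add (Nat.add (Nat.add (Nat.add C x47026) x29530) x35362) x33418) x34390) x33742) x34066) x33850) x33958) x33922) x33898) x33906) (Nat.mul x33904 (nat_lit 2))) x53586) x14222)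
    (Nat.sub (Nat.sub (Nat.add (Nat.add (Nat.add (Nat.add (Nat.add (Nat.add (Nat.add (Nat.add (Nat.add (Nat.add (Nat.add (Nat.add C x47028) x29532) x35364) x33420) x34392) x33744) x34068) x33852) x33960) x33924) x33900) x33904) x33906) x14224)
    (Nat.sub (Nat.sub (Nat.add (Nat.add (Nat.add (Nat.add (Nat.add (Nat.add (Nat.add (Nat.add (Nat.add (Nat.add C x47036) x29540) x35372) x33428) x34400) x33752) x34076) x33968) x33896) x33916) (Nat.mul x33914 (nat_lit 2))) x53596)
    (Nat.sub (Nat.sub (Nat.sub (Nat.add (Nat.add (Nat.add (Nat.add (Nat.add (Nat.add (Nat.add (Nat.add (Nat.add (Nat.add (Nat.add (Nat.add C x47038) x29542) x35374) x33430) x34402) x33754) x34078) x33970) x33898) x33922) x33914) x33918) (Nat.mul x33916 (nat_lit 2))) x53598) x14234)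
    (Nat.sub (Nat.sub (Nat.add (Nat.add (Nat.add (Nat.add (Nat.add (Nat.add (Nat.add (Nat.add (Nat.add (Nat.add (Nat.add C x47040) x29544) x35376) x33432) x34404) x33756) x34080) x33972) x33900) x33924) x33916) (Nat.mul x33918 (nat_lit 4))) x14236)
    (Nat.sub (Nat.sub (Nat.sub (Nat.add (Nat.add (Nat.add (Nat.add (Nat.add (Nat.add (Nat.add (Nat.add (Nat.add (Nat.add (Nat.add C x47044) x29548) x35380) x33436) x34408) x33760) x34084) x33976) x33904) x33916) x33924) x33922) x53604) x14240)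
    (Nat.sub (Nat.sub (Nat.add (Nat.add (Nat.add (Nat.add (Nat.add (Nat.add (Nat.add (Nat.add (Nat.add (Nat.add (Nat.add (Nat.add C x47046) x29550) x35382) x33438) x34410) x33762) x34086) x33978) x33906) x33918) x33930) x33922) x33924) x14242)
    (Nat.sub (Nat.add (Nat.add (Nat.add (Nat.add (Nat.add (Nat.add (Nat.add (Nat.add (Nat.add C x47052) x29556) x35388) x33444) x34416) x33768) x34092) x33984) x33924) x14248)
    (Nat.sub (Nat.sub (Nat.add (Nat.add (Nat.add (Nat.add (Nat.add (Nat.add (Nat.add (Nat.add (Nat.add C x47066) x29570) x35402) x33458) x34430) x34106) x33890) x33950) x33946) x33944) x53626)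
    (Nat.sub (Nat.sub (Nat.sub (Nat.add (Nat.add (Nat.add (Nat.add (Nat.add (Nat.add (Nat.add (Nat.add (Nat.add C x47068) x29572) x35404) x33460) x34432) x34108) x33892) x33952) x33944) (Nat.mul x33946 (nat_lit 2))) x53628) x14264)
    (Nat.sub (Nat.sub (Nat.add (Nat.add (Nat.add (Nat.add (Nat.add (Nat.add (Nat.add (Nat.add (Nat.add (Nat.add C x47072) x29576) x35408) x33464) x34436) x34112) x33896) x33968) x33944) x33952) (Nat.mul x33950 (nat_lit 3))) x53632)
    (Nat.sub (Nat.sub (Nat.sub (Nat.add (Nat.add (Nat.add (Nat.add (Nat.add (Nat.add (Nat.add (Nat.add (Nat.add (Nat.add (Nat.add (Nat.add C x47074) x29578) x35410) x33466) x34438) x34114) x33898) x33970) x33946) x33958) x33950) x33954) (Nat.mul x33952 (nat_lit 2))) x53634) x14270)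
    (Nat.sub (Nat.sub (Nat.add (Nat.add (Nat.add (Nat.add (Nat.add (Nat.add (Nat.add (Nat.add (Nat.add (Nat.add C x47076) x29580) x35412) x33468) x34440) x34116) x33900) x33972) x33960) x33952) (Nat.mul x33954 (nat_lit 3))) x14272)
    (Nat.sub (Nat.sub (Nat.sub (Nat.add (Nat.add (Nat.add (Nat.add (Nat.add (Nat.add (Nat.add (Nat.add (Nat.add (Nat.add C x47080) x29584) x35416) x33472) x34444) x34120) x33904) x33976) x33952) x33960) (Nat.mul x33958 (nat_lit 4))) x53640) x14276)
    (Nat.sub (Nat.sub (Nat.add (Nat.add (Nat.add (Nat.add (Nat.add (Nat.add (Nat.add (Nat.add (Nat.add (Nat.add C x47082) x29586) x35418) x33474) x34446) x34122) x33906) x33978) x33954) x33958) (Nat.mul x33960 (nat_lit 3))) x14278)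
    (Nat.sub (Nat.sub (Nat.add (Nat.add (Nat.add (Nat.add (Nat.add (Nat.add (Nat.add (Nat.add (Nat.add C x47090) x29594) x35426) x33482) x34454) x34130) x33914) x33950) x33970) x33968) x53650)
    (Nat.sub (Nat.sub (Nat.sub (Nat.add (Nat.add (Nat.add (Nat.add (Nat.add (Nat.add (Nat.add (Nat.add (Nat.add (Nat.add (Nat.add C x47092) x29596) x35428) x33484) x34456) x34132) x33916) x33952) x33976) x33968) x33972) x33970) x53652) x14288)
    (Nat.sub (Nat.sub (Nat.add (Nat.add (Nat.add (Nat.add (Nat.add (Nat.add (Nat.add (Nat.add (Nat.add (Nat.add C x47094) x29598) x35430) x33486) x34458) x34134) x33918) x33954) x33978) x33970) (Nat.mul x33972 (nat_lit 3))) x14290)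
    (Nat.sub (Nat.sub (Nat.sub (Nat.add (Nat.add (Nat.add (Nat.add (Nat.add (Nat.add (Nat.add (Nat.add (Nat.add (Nat.add (Nat.add C x47098) x29602) x35434) x33490) x34462) x34138) x33922) x33958) x33994) x33970) x33978) x33976) x53658) x14294)
    (Nat.sub (Nat.sub (Nat.add (Nat.add (Nat.add (Nat.add (Nat.add (Nat.add (Nat.add (Nat.add (Nat.add (Nat.add (Nat.add (Nat.add C x47100) x29604) x35436) x33492) x34464) x34140) x33924) x33960) x33996) x33972) x33984) x33976) x33978) x14296)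
    (Nat.sub (Nat.sub (Nat.add (Nat.add (Nat.add (Nat.add (Nat.add (Nat.add (Nat.add (Nat.add (Nat.add C x47106) x29610) x35442) x33498) x34470) x34146) x33930) x34002) x33978) x33984) x14302)
    (Nat.sub (Nat.sub (Nat.add (Nat.add (Nat.add (Nat.add (Nat.add (Nat.add (Nat.add (Nat.add C x47116) x29620) x35452) x33508) x34480) x34156) x33976) x33996) x53676) x14312)
    (Nat.sub (Nat.sub (Nat.add (Nat.add (Nat.add (Nat.add (Nat.add (Nat.add (Nat.add (Nat.add (Nat.add C x47118) x29622) x35454) x33510) x34482) x34158) x33978) x34002) x33994) x33996) x14314)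
    (Nat.sub (Nat.add (Nat.add (Nat.add (Nat.add (Nat.add (Nat.add (Nat.add (Nat.add (Nat.add C x34002) x47124) x29628) x35460) x33516) x34488) x34164) x33984) x33996) x14320)
    (Nat.sub (Nat.add (Nat.add (Nat.add (Nat.add (Nat.add (Nat.add C x47150) x29654) x35486) x34514) x33866) x34034) x53710)
    (Nat.sub (Nat.sub (Nat.add (Nat.add (Nat.add (Nat.add (Nat.add (Nat.add (Nat.add (Nat.add (Nat.add C x47156) x29660) x35492) x34520) x33872) x34052) x34028) x34040) x34036) x34034) x53716)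
    (Nat.sub (Nat.sub (Nat.sub (Nat.add (Nat.add (Nat.add (Nat.add (Nat.add (Nat.add (Nat.add (Nat.add C x47158) x29662) x35494) x34522) x33874) x34054) x34042) x34034) x34036) x53718) x14354)
    (Nat.sub (Nat.sub (Nat.add (Nat.add (Nat.add (Nat.add (Nat.add (Nat.add (Nat.add (Nat.add C x47162) x29666) x35498) x34526) x33878) x34058) x34034) x34042) (Nat.mul x34040 (nat_lit 4))) x53722)
    (Nat.sub (Nat.sub (Nat.sub (Nat.add (Nat.add (Nat.add (Nat.add (Nat.add (Nat.add (Nat.add (Nat.add (Nat.add C x47164) x29668) x35500) x34528) x33880) x34060) x34036) x34040) x34044) (Nat.mul x34042 (nat_lit 2))) x53724) x14360)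
    (Nat.sub (Nat.sub (Nat.add (Nat.add (Nat.add (Nat.add (Nat.add (Nat.add (Nat.add C x47166) x29670) x35502) x34530) x33882) x34062) x34042) (Nat.mul x34044 (nat_lit 2))) x14362)
    (Nat.sub (Nat.sub (Nat.add (Nat.add (Nat.add (Nat.add (Nat.add (Nat.add (Nat.add (Nat.add (Nat.add C x47174) x29678) x35510) x34538) x33890) x34106) x34034) x34058) x34054) (Nat.mul x34052 (nat_lit 2))) x53734)
    (Nat.sub (Nat.sub (Nat.sub (Nat.add (Nat.add (Nat.add (Nat.add (Nat.add (Nat.add (Nat.add (Nat.add (Nat.add C x47176) x29680) x35512) x34540) x33892) x34108) x34036) x34060) x34052) (Nat.mul x34054 (nat_lit 3))) x53736) x14372)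
    (Nat.sub (Nat.sub (Nat.add (Nat.add (Nat.add (Nat.add (Nat.add (Nat.add (Nat.add (Nat.add (Nat.add (Nat.add C x47180) x29684) x35516) x34544) x33896) x34112) x34040) x34076) x34052) x34060) (Nat.mul x34058 (nat_lit 3))) x53740)
    (Nat.sub (Nat.sub (Nat.sub (Nat.add (Nat.add (Nat.add (Nat.add (Nat.add (Nat.add (Nat.add (Nat.add (Nat.add (Nat.add (Nat.add (Nat.add C x47182) x29686) x35518) x34546) x33898) x34114) x34042) x34078) x34054) x34066) x34058) x34062) (Nat.mul x34060 (nat_lit 2))) x53742) x14378)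
    (Nat.sub (Nat.sub (Nat.add (Nat.add (Nat.add (Nat.add (Nat.add (Nat.add (Nat.add (Nat.add (Nat.add (Nat.add C x47184) x29688) x35520) x34548) x33900) x34116) x34044) x34080) x34068) x34060) (Nat.mul x34062 (nat_lit 3))) x14380)
    (Nat.sub (Nat.sub (Nat.sub (Nat.add (Nat.add (Nat.add (Nat.add (Nat.add (Nat.add (Nat.add (Nat.add (Nat.add C x47188) x29692) x35524) x34552) x33904) x34120) x34084) x34060) x34068) (Nat.mul x34066 (nat_lit 3))) x53748) x14384)
    (Nat.sub (Nat.sub (Nat.add (Nat.add (Nat.add (Nat.add (Nat.add (Nat.add (Nat.add (Nat.add (Nat.add C x47190) x29694) x35526) x34554) x33906) x34122) x34086) x34062) x34066) (Nat.mul x34068 (nat_lit 2))) x14386)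
    (Nat.sub (Nat.sub (Nat.add (Nat.add (Nat.add (Nat.add (Nat.add (Nat.add (Nat.add (Nat.add C x47198) x29702) x35534) x34562) x33914) x34130) x34058) x34078) (Nat.mul x34076 (nat_lit 4))) x53758)
    (Nat.sub (Nat.sub (Nat.sub (Nat.add (Nat.add (Nat.add (Nat.add (Nat.add (Nat.add (Nat.add (Nat.add (Nat.add (Nat.add C x47200) x29704) x35536) x34564) x33916) x34132) x34060) x34084) x34076) x34080) (Nat.mul x34078 (nat_lit 4))) x53760) x14396)
    (Nat.sub (Nat.sub (Nat.add (Nat.add (Nat.add (Nat.add (Nat.add (Nat.add (Nat.add (Nat.add (Nat.add C x47202) x29706) x35538) x34566) x33918) x34134) x34062) x34086) x34078) (Nat.mul x34080 (nat_lit 6))) x14398)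
    (Nat.sub (Nat.sub (Nat.sub (Nat.add (Nat.add (Nat.add (Nat.add (Nat.add (Nat.add (Nat.add (Nat.add (Nat.add C x47206) x29710) x35542) x34570) x33922) x34138) x34066) x34078) x34086) (Nat.mul x34084 (nat_lit 3))) x53766) x14402)
    (Nat.sub (Nat.sub (Nat.add (Nat.add (Nat.add (Nat.add (Nat.add (Nat.add (Nat.add (Nat.add (Nat.add (Nat.add C x47208) x29712) x35544) x34572) x33924) x34140) x34068) x34080) x34092) x34084) (Nat.mul x34086 (nat_lit 3))) x14404)
    (Nat.sub (Nat.sub (Nat.add (Nat.add (Nat.add (Nat.add (Nat.add (Nat.add (Nat.add C x47214) x29718) x35550) x34578) x33930) x34146) x34086) (Nat.mul x34092 (nat_lit 2))) x14410)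
    (Nat.sub (Nat.add (Nat.add (Nat.add (Nat.add (Nat.add (Nat.add (Nat.add (Nat.add C x47228) x29732) x35564) x34592) x33944) x34052) x34112) x34108) x53788)
    (Nat.sub (Nat.sub (Nat.sub (Nat.add (Nat.add (Nat.add (Nat.add (Nat.add (Nat.add (Nat.add (Nat.add C x47230) x29734) x35566) x34594) x33946) x34054) x34114) x34106) x34108) x53790) x14426)
    (Nat.sub (Nat.sub (Nat.add (Nat.add (Nat.add (Nat.add (Nat.add (Nat.add (Nat.add (Nat.add (Nat.add C x47234) x29738) x35570) x34598) x33950) x34058) x34130) x34106) x34114) (Nat.mul x34112 (nat_lit 2))) x53794)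
    (Nat.sub (Nat.sub (Nat.sub (Nat.add (Nat.add (Nat.add (Nat.add (Nat.add (Nat.add (Nat.add (Nat.add (Nat.add (Nat.add (Nat.add C x47236) x29740) x35572) x34600) x33952) x34060) x34132) x34108) x34120) x34112) x34116) x34114) x53796) x14432)
    (Nat.sub (Nat.sub (Nat.add (Nat.add (Nat.add (Nat.add (Nat.add (Nat.add (Nat.add (Nat.add (Nat.add C x47238) x29742) x35574) x34602) x33954) x34062) x34134) x34122) x34114) (Nat.mul x34116 (nat_lit 2))) x14434)
    (Nat.sub (Nat.sub (Nat.sub (Nat.add (Nat.add (Nat.add (Nat.add (Nat.add (Nat.add (Nat.add (Nat.add (Nat.add C x47242) x29746) x35578) x34606) x33958) x34066) x34138) x34114) x34122) (Nat.mul x34120 (nat_lit 3))) x53802) x14438)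
    (Nat.sub (Nat.sub (Nat.add (Nat.add (Nat.add (Nat.add (Nat.add (Nat.add (Nat.add (Nat.add (Nat.add C x47244) x29748) x35580) x34608) x33960) x34068) x34140) x34116) x34120) (Nat.mul x34122 (nat_lit 2))) x14440)
    (Nat.sub (Nat.sub (Nat.add (Nat.add (Nat.add (Nat.add (Nat.add (Nat.add (Nat.add (Nat.add (Nat.add C x47252) x29756) x35588) x34616) x33968) x34076) x34184) x34112) x34132) x34130) x53812)
    (Nat.sub (Nat.sub (Nat.sub (Nat.add (Nat.add (Nat.add (Nat.add (Nat.add (Nat.add (Nat.add (Nat.add (Nat.add (Nat.add (Nat.add C x47254) x29758) x35590) x34618) x33970) x34078) x34186) x34114) x34138) x34130) x34134) x34132) x53814) x14450)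
    (Nat.sub (Nat.sub (Nat.add (Nat.add (Nat.add (Nat.add (Nat.add (Nat.add (Nat.add (Nat.add (Nat.add (Nat.add C x47256) x29760) x35592) x34620) x33972) x34080) x34188) x34116) x34140) x34132) (Nat.mul x34134 (nat_lit 3))) x14452)
    (Nat.sub (Nat.sub (Nat.sub (Nat.add (Nat.add (Nat.add (Nat.add (Nat.add (Nat.add (Nat.add (Nat.add (Nat.add (Nat.add (Nat.add C x47260) x29764) x35596) x34624) x33976) x34084) x34192) x34120) x34156) x34132) x34140) x34138) x53820) x14456)
    (Nat.sub (Nat.sub (Nat.add (Nat.add (Nat.add (Nat.add (Nat.add (Nat.add (Nat.add (Nat.add (Nat.add (Nat.add (Nat.add (Nat.add C x47262) x29766) x35598) x34626) x33978) x34086) x34194) x34122) x34158) x34134) x34146) x34138) x34140) x14458)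
    (Nat.sub (Nat.sub (Nat.add (Nat.add (Nat.add (Nat.add (Nat.add (Nat.add (Nat.add (Nat.add (Nat.add C x47268) x29772) x35604) x34632) x33984) x34092) x34200) x34164) x34140) x34146) x14464)
    (Nat.sub (Nat.sub (Nat.sub (Nat.add (Nat.add (Nat.add (Nat.add (Nat.add (Nat.add (Nat.add (Nat.add C x47278) x29782) x35614) x34642) x33994) x34210) x34138) x34158) x34156) x53838) x14474)
    (Nat.sub (Nat.sub (Nat.add (Nat.add (Nat.add (Nat.add (Nat.add (Nat.add (Nat.add (Nat.add (Nat.add C x47280) x29784) x35616) x34644) x33996) x34212) x34140) x34164) x34156) (Nat.mul x34158 (nat_lit 2))) x14476)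
    (Nat.sub (Nat.add (Nat.add (Nat.add (Nat.add (Nat.add (Nat.add (Nat.add (Nat.add C x47286) x29790) x35622) x34650) x34002) x34218) x34146) x34158) x14482)
    (Nat.sub (Nat.add (Nat.add (Nat.add (Nat.add (Nat.add (Nat.add C x47306) x29810) x35642) x34670) x34130) x34186) x53866)
    (Nat.sub (Nat.sub (Nat.add (Nat.add (Nat.add (Nat.add (Nat.add (Nat.add (Nat.add (Nat.add C x47308) x29812) x35644) x34672) x34132) x34192) x34184) x34188) x53868) x14504)
    (Nat.sub (Nat.sub (Nat.add (Nat.add (Nat.add (Nat.add (Nat.add (Nat.add (Nat.add C x47310) x29814) x35646) x34674) x34134) x34194) x34186) (Nat.mul x34188 (nat_lit 2))) x14506)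
    (Nat.sub (Nat.sub (Nat.sub (Nat.add (Nat.add (Nat.add (Nat.add (Nat.add (Nat.add (Nat.add (Nat.add C x47314) x29818) x35650) x34678) x34138) x34210) x34186) x34194) x34192) x53874) x14510)
    (Nat.sub (Nat.sub (Nat.add (Nat.add (Nat.add (Nat.add (Nat.add (Nat.add (Nat.add (Nat.add (Nat.add C x47316) x29820) x35652) x34680) x34140) x34212) x34188) x34200) x34192) x34194) x14512)
    (Nat.sub (Nat.sub (Nat.add (Nat.add (Nat.add (Nat.add (Nat.add (Nat.add (Nat.add C x47322) x29826) x35658) x34686) x34146) x34218) x34194) (Nat.mul x34200 (nat_lit 2))) x14518)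
    (Nat.sub (Nat.sub (Nat.add (Nat.add (Nat.add (Nat.add (Nat.add (Nat.add (Nat.add (Nat.add C x34210) x47332) x29836) x35668) x34696) x34156) x34192) x34212) x53892) x14528)
    (Nat.sub (Nat.add (Nat.add (Nat.add (Nat.add (Nat.add (Nat.add (Nat.add (Nat.add C x47334) x29838) x35670) x34698) x34158) x34194) x34218) x34210) x14530)
    (Nat.sub (Nat.add (Nat.add (Nat.add (Nat.add (Nat.add (Nat.add (Nat.add (Nat.add (Nat.add C x34218) x47340) x29844) x35676) x34704) x34164) x34200) x34236) x34212) x14536)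
    (Nat.sub (Nat.add (Nat.add (Nat.add (Nat.add (Nat.add (Nat.add C (Nat.mul x34236 (nat_lit 2))) x47358) x29862) x35694) x34722) x34218) x14554)
    (Nat.sub (Nat.add (Nat.add (Nat.add (Nat.add (Nat.add (Nat.add C x47402) x29906) x35738) x33794) x34298) x34286) x53962)
    (Nat.sub (Nat.sub (Nat.add (Nat.add (Nat.add (Nat.add (Nat.add (Nat.add (Nat.add C x47408) x29912) x35744) x33800) x34304) x34280) x34288) (Nat.mul x34286 (nat_lit 2))) x53968)
    (Nat.sub (Nat.sub (Nat.sub (Nat.add (Nat.add (Nat.add (Nat.add (Nat.add (Nat.add C x47410) x29914) x35746) x33802) x34306) x34286) x34288) x53970) x14606)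
    (Nat.sub (Nat.sub (Nat.add (Nat.add (Nat.add (Nat.add (Nat.add (Nat.add (Nat.add C x47420) x29924) x35756) x33812) x34352) x34280) x34304) (Nat.mul x34298 (nat_lit 2))) x53980)
    (Nat.sub (Nat.sub (Nat.add (Nat.add (Nat.add (Nat.add (Nat.add (Nat.add (Nat.add (Nat.add (Nat.add (Nat.add C x47426) x29930) x35762) x33818) x34358) x34286) x34322) x34298) x34310) x34306) (Nat.mul x34304 (nat_lit 2))) x53986)
    (Nat.sub (Nat.sub (Nat.sub (Nat.add (Nat.add (Nat.add (Nat.add (Nat.add (Nat.add (Nat.add (Nat.add (Nat.add C x47428) x29932) x35764) x33820) x34360) x34288) x34324) x34312) x34304) (Nat.mul x34306 (nat_lit 2))) x53988) x14624)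
    (Nat.sub (Nat.sub (Nat.add (Nat.add (Nat.add (Nat.add (Nat.add (Nat.add (Nat.add (Nat.add C x47432) x29936) x35768) x33824) x34364) x34328) x34304) x34312) (Nat.mul x34310 (nat_lit 4))) x53992)
    (Nat.sub (Nat.sub (Nat.sub (Nat.add (Nat.add (Nat.add (Nat.add (Nat.add (Nat.add (Nat.add (Nat.add (Nat.add C x47434) x29938) x35770) x33826) x34366) x34330) x34306) x34310) x34314) (Nat.mul x34312 (nat_lit 2))) x53994) x14630)
    (Nat.sub (Nat.sub (Nat.add (Nat.add (Nat.add (Nat.add (Nat.add (Nat.add (Nat.add C x47436) x29940) x35772) x33828) x34368) x34332) x34312) (Nat.mul x34314 (nat_lit 2))) x14632)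
    (Nat.sub (Nat.sub (Nat.add (Nat.add (Nat.add (Nat.add (Nat.add (Nat.add (Nat.add (Nat.add C x47444) x29948) x35780) x33836) x34376) x34304) x34328) x34324) (Nat.mul x34322 (nat_lit 4))) x54004)
    (Nat.sub (Nat.sub (Nat.sub (Nat.add (Nat.add (Nat.add (Nat.add (Nat.add (Nat.add (Nat.add (Nat.add C x47446) x29950) x35782) x33838) x34378) x34306) x34330) x34322) (Nat.mul x34324 (nat_lit 5))) x54006) x14642)
    (Nat.sub (Nat.sub (Nat.add (Nat.add (Nat.add (Nat.add (Nat.add (Nat.add (Nat.add (Nat.add C x47450) x29954) x35786) x33842) x34382) x34310) x34322) x34330) (Nat.mul x34328 (nat_lit 4))) x54010)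
    (Nat.sub (Nat.sub (Nat.sub (Nat.add (Nat.add (Nat.add (Nat.add (Nat.add (Nat.add (Nat.add (Nat.add (Nat.add (Nat.add C x47452) x29956) x35788) x33844) x34384) x34312) x34324) x34336) x34328) x34332) (Nat.mul x34330 (nat_lit 3))) x54012) x14648)
    (Nat.sub (Nat.sub (Nat.add (Nat.add (Nat.add (Nat.add (Nat.add (Nat.add (Nat.add (Nat.add C x47454) x29958) x35790) x33846) x34386) x34314) x34338) x34330) (Nat.mul x34332 (nat_lit 4))) x14650)
    (Nat.sub (Nat.sub (Nat.sub (Nat.add (Nat.add (Nat.add (Nat.add (Nat.add (Nat.add (Nat.add C x47458) x29962) x35794) x33850) x34390) x34330) x34338) (Nat.mul x34336 (nat_lit 3))) x54018) x14654)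
    (Nat.sub (Nat.sub (Nat.add (Nat.add (Nat.add (Nat.add (Nat.add (Nat.add (Nat.add C x47460) x29964) x35796) x33852) x34392) x34332) x34336) (Nat.mul x34338 (nat_lit 2))) x14656)
    (Nat.sub (Nat.sub (Nat.add (Nat.add (Nat.add (Nat.add (Nat.add (Nat.add (Nat.add C x47474) x29978) x35810) x33866) x34514) x34298) x34358) (Nat.mul x34352 (nat_lit 2))) x54034)
    (Nat.sub (Nat.sub (Nat.add (Nat.add (Nat.add (Nat.add (Nat.add (Nat.add (Nat.add (Nat.add (Nat.add (Nat.add C x47480) x29984) x35816) x33872) x34520) x34304) x34376) x34352) x34364) x34360) (Nat.mul x34358 (nat_lit 3))) x54040)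
    (Nat.sub (Nat.sub (Nat.sub (Nat.add (Nat.add (Nat.add (Nat.add (Nat.add (Nat.add (Nat.add (Nat.add (Nat.add C x47482) x29986) x35818) x33874) x34522) x34306) x34378) x34366) x34358) (Nat.mul x34360 (nat_lit 3))) x54042) x14678)
    (Nat.sub (Nat.sub (Nat.add (Nat.add (Nat.add (Nat.add (Nat.add (Nat.add (Nat.add (Nat.add (Nat.add C x47486) x29990) x35822) x33878) x34526) x34310) x34382) x34358) x34366) (Nat.mul x34364 (nat_lit 6))) x54046)
    (Nat.sub (Nat.sub (Nat.sub (Nat.add (Nat.add (Nat.add (Nat.add (Nat.add (Nat.add (Nat.add (Nat.add (Nat.add (Nat.add C x47488) x29992) x35824) x33880) x34528) x34312) x34384) x34360) x34364) x34368) (Nat.mul x34366 (nat_lit 4))) x54048) x14684)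
    (Nat.sub (Nat.sub (Nat.add (Nat.add (Nat.add (Nat.add (Nat.add (Nat.add (Nat.add (Nat.add C x47490) x29994) x35826) x33882) x34530) x34314) x34386) x34366) (Nat.mul x34368 (nat_lit 4))) x14686)
    (Nat.sub (Nat.sub (Nat.add (Nat.add (Nat.add (Nat.add (Nat.add (Nat.add (Nat.add (Nat.add (Nat.add (Nat.add C x47498) x30002) x35834) x33890) x34538) x34322) x34430) x34358) x34382) x34378) (Nat.mul x34376 (nat_lit 3))) x54058)
    (Nat.sub (Nat.sub (Nat.sub (Nat.add (Nat.add (Nat.add (Nat.add (Nat.add (Nat.add (Nat.add (Nat.add (Nat.add (Nat.add C x47500) x30004) x35836) x33892) x34540) x34324) x34432) x34360) x34384) x34376) (Nat.mul x34378 (nat_lit 4))) x54060) x14696)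
    (Nat.sub (Nat.sub (Nat.add (Nat.add (Nat.add (Nat.add (Nat.add (Nat.add (Nat.add (Nat.add (Nat.add (Nat.add (Nat.add C x47504) x30008) x35840) x33896) x34544) x34328) x34436) x34364) x34400) x34376) x34384) (Nat.mul x34382 (nat_lit 4))) x54064)
    (Nat.sub (Nat.sub (Nat.sub (Nat.add (Nat.add (Nat.add (Nat.add (Nat.add (Nat.add (Nat.add (Nat.add (Nat.add (Nat.add (Nat.add (Nat.add (Nat.add C x47506) x30010) x35842) x33898) x34546) x34330) x34438) x34366) x34402) x34378) x34390) x34382) x34386) (Nat.mul x34384 (nat_lit 3))) x54066) x14702)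
    (Nat.sub (Nat.sub (Nat.add (Nat.add (Nat.add (Nat.add (Nat.add (Nat.add (Nat.add (Nat.add (Nat.add (Nat.add (Nat.add C x47508) x30012) x35844) x33900) x34548) x34332) x34440) x34368) x34404) x34392) x34384) (Nat.mul x34386 (nat_lit 4))) x14704)
    (Nat.sub (Nat.sub (Nat.sub (Nat.add (Nat.add (Nat.add (Nat.add (Nat.add (Nat.add (Nat.add (Nat.add (Nat.add (Nat.add C x47512) x30016) x35848) x33904) x34552) x34336) x34444) x34408) x34384) x34392) (Nat.mul x34390 (nat_lit 4))) x54072) x14708)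
    (Nat.sub (Nat.sub (Nat.add (Nat.add (Nat.add (Nat.add (Nat.add (Nat.add (Nat.add (Nat.add (Nat.add (Nat.add C x47514) x30018) x35850) x33906) x34554) x34338) x34446) x34410) x34386) x34390) (Nat.mul x34392 (nat_lit 3))) x14710)
    (Nat.sub (Nat.sub (Nat.add (Nat.add (Nat.add (Nat.add (Nat.add (Nat.add (Nat.add (Nat.add C x47522) x30026) x35858) x33914) x34562) x34454) x34382) x34402) (Nat.mul x34400 (nat_lit 4))) x54082)
    (Nat.sub (Nat.sub (Nat.sub (Nat.add (Nat.add (Nat.add (Nat.add (Nat.add (Nat.add (Nat.add (Nat.add (Nat.add (Nat.add C x47524) x30028) x35860) x33916) x34564) x34456) x34384) x34408) x34400) x34404) (Nat.mul x34402 (nat_lit 4))) x54084) x14720)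
    (Nat.sub (Nat.sub (Nat.add (Nat.add (Nat.add (Nat.add (Nat.add (Nat.add (Nat.add (Nat.add (Nat.add C x47526) x30030) x35862) x33918) x34566) x34458) x34386) x34410) x34402) (Nat.mul x34404 (nat_lit 6))) x14722)
    (Nat.sub (Nat.sub (Nat.sub (Nat.add (Nat.add (Nat.add (Nat.add (Nat.add (Nat.add (Nat.add (Nat.add (Nat.add C x47530) x30034) x35866) x33922) x34570) x34462) x34390) x34402) x34410) (Nat.mul x34408 (nat_lit 3))) x54090) x14726)
    (Nat.sub (Nat.sub (Nat.add (Nat.add (Nat.add (Nat.add (Nat.add (Nat.add (Nat.add (Nat.add (Nat.add (Nat.add C x47532) x30036) x35868) x33924) x34572) x34464) x34392) x34404) x34416) x34408) (Nat.mul x34410 (nat_lit 3))) x14728)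
    (Nat.sub (Nat.sub (Nat.add (Nat.add (Nat.add (Nat.add (Nat.add (Nat.add (Nat.add C x47538) x30042) x35874) x33930) x34578) x34470) x34410) (Nat.mul x34416 (nat_lit 2))) x14734)
    (Nat.sub (Nat.sub (Nat.add (Nat.add (Nat.add (Nat.add (Nat.add (Nat.add (Nat.add (Nat.add C x47552) x30056) x35888) x33944) x34592) x34376) x34436) x34432) (Nat.mul x34430 (nat_lit 4))) x54112)
    (Nat.sub (Nat.sub (Nat.sub (Nat.add (Nat.add (Nat.add (Nat.add (Nat.add (Nat.add (Nat.add (Nat.add C x47554) x30058) x35890) x33946) x34594) x34378) x34438) x34430) (Nat.mul x34432 (nat_lit 5))) x54114) x14750)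
    (Nat.sub (Nat.sub (Nat.add (Nat.add (Nat.add (Nat.add (Nat.add (Nat.add (Nat.add (Nat.add (Nat.add C x47558) x30062) x35894) x33950) x34598) x34382) x34454) x34430) x34438) (Nat.mul x34436 (nat_lit 6))) x54118)
    (Nat.sub (Nat.sub (Nat.sub (Nat.add (Nat.add (Nat.add (Nat.add (Nat.add (Nat.add (Nat.add (Nat.add (Nat.add (Nat.add (Nat.add C x47560) x30064) x35896) x33952) x34600) x34384) x34456) x34432) x34444) x34436) x34440) (Nat.mul x34438 (nat_lit 5))) x54120) x14756)
    (Nat.sub (Nat.sub (Nat.add (Nat.add (Nat.add (Nat.add (Nat.add (Nat.add (Nat.add (Nat.add (Nat.add C x47562) x30066) x35898) x33954) x34602) x34386) x34458) x34446) x34438) (Nat.mul x34440 (nat_lit 6))) x14758)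
    (Nat.sub (Nat.sub (Nat.sub (Nat.add (Nat.add (Nat.add (Nat.add (Nat.add (Nat.add (Nat.add (Nat.add (Nat.add C x47566) x30070) x35902) x33958) x34606) x34390) x34462) x34438) x34446) (Nat.mul x34444 (nat_lit 7))) x54126) x14762)
    (Nat.sub (Nat.sub (Nat.add (Nat.add (Nat.add (Nat.add (Nat.add (Nat.add (Nat.add (Nat.add (Nat.add C x47568) x30072) x35904) x33960) x34608) x34392) x34464) x34440) x34444) (Nat.mul x34446 (nat_lit 6))) x14764)
    (Nat.sub (Nat.sub (Nat.add (Nat.add (Nat.add (Nat.add (Nat.add (Nat.add (Nat.add (Nat.add C x47576) x30080) x35912) x33968) x34616) x34400) x34436) x34456) (Nat.mul x34454 (nat_lit 4))) x54136)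
    (Nat.sub (Nat.sub (Nat.sub (Nat.add (Nat.add (Nat.add (Nat.add (Nat.add (Nat.add (Nat.add (Nat.add (Nat.add (Nat.add C x47578) x30082) x35914) x33970) x34618) x34402) x34438) x34462) x34454) x34458) (Nat.mul x34456 (nat_lit 4))) x54138) x14774)
    (Nat.sub (Nat.sub (Nat.add (Nat.add (Nat.add (Nat.add (Nat.add (Nat.add (Nat.add (Nat.add (Nat.add C x47580) x30084) x35916) x33972) x34620) x34404) x34440) x34464) x34456) (Nat.mul x34458 (nat_lit 6))) x14776)
    (Nat.sub (Nat.sub (Nat.sub (Nat.add (Nat.add (Nat.add (Nat.add (Nat.add (Nat.add (Nat.add (Nat.add (Nat.add (Nat.add C x47584) x30088) x35920) x33976) x34624) x34408) x34444) x34480) x34456) x34464) (Nat.mul x34462 (nat_lit 4))) x54144) x14780)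
    (Nat.sub (Nat.sub (Nat.add (Nat.add (Nat.add (Nat.add (Nat.add (Nat.add (Nat.add (Nat.add (Nat.add (Nat.add (Nat.add C x47586) x30090) x35922) x33978) x34626) x34410) x34446) x34482) x34458) x34470) x34462) (Nat.mul x34464 (nat_lit 4))) x14782)
    (Nat.sub (Nat.sub (Nat.add (Nat.add (Nat.add (Nat.add (Nat.add (Nat.add (Nat.add (Nat.add C x47592) x30096) x35928) x33984) x34632) x34416) x34488) x34464) (Nat.mul x34470 (nat_lit 4))) x14788)
    (Nat.sub (Nat.sub (Nat.sub (Nat.add (Nat.add (Nat.add (Nat.add (Nat.add (Nat.add (Nat.add C x47602) x30106) x35938) x33994) x34642) x34462) x34482) (Nat.mul x34480 (nat_lit 3))) x54162) x14798)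
    (Nat.sub (Nat.sub (Nat.add (Nat.add (Nat.add (Nat.add (Nat.add (Nat.add (Nat.add (Nat.add C x47604) x30108) x35940) x33996) x34644) x34464) x34488) x34480) (Nat.mul x34482 (nat_lit 4))) x14800)
    (Nat.sub (Nat.sub (Nat.add (Nat.add (Nat.add (Nat.add (Nat.add (Nat.add (Nat.add C x47610) x30114) x35946) x34002) x34650) x34470) x34482) (Nat.mul x34488 (nat_lit 2))) x14806)
    (Nat.sub (Nat.add (Nat.add (Nat.add (Nat.add (Nat.add (Nat.add C x47636) x30140) x35972) x34028) x34352) x34520) x54196)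
    (Nat.sub (Nat.sub (Nat.add (Nat.add (Nat.add (Nat.add (Nat.add (Nat.add (Nat.add (Nat.add (Nat.add C x47642) x30146) x35978) x34034) x34358) x34538) x34514) x34526) x34522) x34520) x54202)
    (Nat.sub (Nat.sub (Nat.sub (Nat.add (Nat.add (Nat.add (Nat.add (Nat.add (Nat.add (Nat.add (Nat.add C x47644) x30148) x35980) x34036) x34360) x34540) x34528) x34520) x34522) x54204) x14840)
    (Nat.sub (Nat.sub (Nat.add (Nat.add (Nat.add (Nat.add (Nat.add (Nat.add (Nat.add (Nat.add C x47648) x30152) x35984) x34040) x34364) x34544) x34520) x34528) (Nat.mul x34526 (nat_lit 4))) x54208)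
    (Nat.sub (Nat.sub (Nat.sub (Nat.add (Nat.add (Nat.add (Nat.add (Nat.add (Nat.add (Nat.add (Nat.add (Nat.add C x47650) x30154) x35986) x34042) x34366) x34546) x34522) x34526) x34530) (Nat.mul x34528 (nat_lit 2))) x54210) x14846)
    (Nat.sub (Nat.sub (Nat.add (Nat.add (Nat.add (Nat.add (Nat.add (Nat.add (Nat.add C x47652) x30156) x35988) x34044) x34368) x34548) x34528) (Nat.mul x34530 (nat_lit 2))) x14848)
    (Nat.sub (Nat.sub (Nat.add (Nat.add (Nat.add (Nat.add (Nat.add (Nat.add (Nat.add (Nat.add (Nat.add C x47660) x30164) x35996) x34052) x34376) x34592) x34520) x34544) x34540) (Nat.mul x34538 (nat_lit 2))) x54220)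
    (Nat.sub (Nat.sub (Nat.sub (Nat.add (Nat.add (Nat.add (Nat.add (Nat.add (Nat.add (Nat.add (Nat.add (Nat.add C x47662) x30166) x35998) x34054) x34378) x34594) x34522) x34546) x34538) (Nat.mul x34540 (nat_lit 3))) x54222) x14858)
    (Nat.sub (Nat.sub (Nat.add (Nat.add (Nat.add (Nat.add (Nat.add (Nat.add (Nat.add (Nat.add (Nat.add (Nat.add C x47666) x30170) x36002) x34058) x34382) x34598) x34526) x34562) x34538) x34546) (Nat.mul x34544 (nat_lit 3))) x54226)
    (Nat.sub (Nat.sub (Nat.sub (Nat.add (Nat.add (Nat.add (Nat.add (Nat.add (Nat.add (Nat.add (Nat.add (Nat.add (Nat.add (Nat.add (Nat.add C x47668) x30172) x36004) x34060) x34384) x34600) x34528) x34564) x34540) x34552) x34544) x34548) (Nat.mul x34546 (nat_lit 2))) x54228) x14864)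
    (Nat.sub (Nat.sub (Nat.add (Nat.add (Nat.add (Nat.add (Nat.add (Nat.add (Nat.add (Nat.add (Nat.add (Nat.add C x47670) x30174) x36006) x34062) x34386) x34602) x34530) x34566) x34554) x34546) (Nat.mul x34548 (nat_lit 3))) x14866)
    (Nat.sub (Nat.sub (Nat.sub (Nat.add (Nat.add (Nat.add (Nat.add (Nat.add (Nat.add (Nat.add (Nat.add (Nat.add C x47674) x30178) x36010) x34066) x34390) x34606) x34570) x34546) x34554) (Nat.mul x34552 (nat_lit 3))) x54234) x14870)
    (Nat.sub (Nat.sub (Nat.add (Nat.add (Nat.add (Nat.add (Nat.add (Nat.add (Nat.add (Nat.add (Nat.add C x47676) x30180) x36012) x34068) x34392) x34608) x34572) x34548) x34552) (Nat.mul x34554 (nat_lit 2))) x14872)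
    (Nat.sub (Nat.sub (Nat.add (Nat.add (Nat.add (Nat.add (Nat.add (Nat.add (Nat.add (Nat.add C x47684) x30188) x36020) x34076) x34400) x34616) x34544) x34564) (Nat.mul x34562 (nat_lit 4))) x54244)
    (Nat.sub (Nat.sub (Nat.sub (Nat.add (Nat.add (Nat.add (Nat.add (Nat.add (Nat.add (Nat.add (Nat.add (Nat.add (Nat.add C x47686) x30190) x36022) x34078) x34402) x34618) x34546) x34570) x34562) x34566) (Nat.mul x34564 (nat_lit 4))) x54246) x14882)
    (Nat.sub (Nat.sub (Nat.add (Nat.add (Nat.add (Nat.add (Nat.add (Nat.add (Nat.add (Nat.add (Nat.add C x47688) x30192) x36024) x34080) x34404) x34620) x34548) x34572) x34564) (Nat.mul x34566 (nat_lit 6))) x14884)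
    (Nat.sub (Nat.sub (Nat.sub (Nat.add (Nat.add (Nat.add (Nat.add (Nat.add (Nat.add (Nat.add (Nat.add (Nat.add C x47692) x30196) x36028) x34084) x34408) x34624) x34552) x34564) x34572) (Nat.mul x34570 (nat_lit 3))) x54252) x14888)
    (Nat.sub (Nat.sub (Nat.add (Nat.add (Nat.add (Nat.add (Nat.add (Nat.add (Nat.add (Nat.add (Nat.add (Nat.add C x47694) x30198) x36030) x34086) x34410) x34626) x34554) x34566) x34578) x34570) (Nat.mul x34572 (nat_lit 3))) x14890)
    (Nat.sub (Nat.sub (Nat.add (Nat.add (Nat.add (Nat.add (Nat.add (Nat.add (Nat.add C x47700) x30204) x36036) x34092) x34416) x34632) x34572) (Nat.mul x34578 (nat_lit 2))) x14896)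
    (Nat.sub (Nat.sub (Nat.add (Nat.add (Nat.add (Nat.add (Nat.add (Nat.add (Nat.add (Nat.add (Nat.add C x47714) x30218) x36050) x34106) x34430) x34754) x34538) x34598) x34594) x34592) x54274)
    (Nat.sub (Nat.sub (Nat.sub (Nat.add (Nat.add (Nat.add (Nat.add (Nat.add (Nat.add (Nat.add (Nat.add (Nat.add C x47716) x30220) x36052) x34108) x34432) x34756) x34540) x34600) x34592) (Nat.mul x34594 (nat_lit 2))) x54276) x14912)
    (Nat.sub (Nat.sub (Nat.add (Nat.add (Nat.add (Nat.add (Nat.add (Nat.add (Nat.add (Nat.add (Nat.add (Nat.add C x47720) x30224) x36056) x34112) x34436) x34760) x34544) x34616) x34592) x34600) (Nat.mul x34598 (nat_lit 3))) x54280)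
    (Nat.sub (Nat.sub (Nat.sub (Nat.add (Nat.add (Nat.add (Nat.add (Nat.add (Nat.add (Nat.add (Nat.add (Nat.add (Nat.add (Nat.add (Nat.add C x47722) x30226) x36058) x34114) x34438) x34762) x34546) x34618) x34594) x34606) x34598) x34602) (Nat.mul x34600 (nat_lit 2))) x54282) x14918)
    (Nat.sub (Nat.sub (Nat.add (Nat.add (Nat.add (Nat.add (Nat.add (Nat.add (Nat.add (Nat.add (Nat.add (Nat.add C x47724) x30228) x36060) x34116) x34440) x34764) x34548) x34620) x34608) x34600) (Nat.mul x34602 (nat_lit 3))) x14920)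
    (Nat.sub (Nat.sub (Nat.sub (Nat.add (Nat.add (Nat.add (Nat.add (Nat.add (Nat.add (Nat.add (Nat.add (Nat.add (Nat.add C x47728) x30232) x36064) x34120) x34444) x34768) x34552) x34624) x34600) x34608) (Nat.mul x34606 (nat_lit 4))) x54288) x14924)
    (Nat.sub (Nat.sub (Nat.add (Nat.add (Nat.add (Nat.add (Nat.add (Nat.add (Nat.add (Nat.add (Nat.add (Nat.add C x47730) x30234) x36066) x34122) x34446) x34770) x34554) x34626) x34602) x34606) (Nat.mul x34608 (nat_lit 3))) x14926)
    (Nat.sub (Nat.sub (Nat.add (Nat.add (Nat.add (Nat.add (Nat.add (Nat.add (Nat.add (Nat.add (Nat.add (Nat.add C x47738) x30242) x36074) x34130) x34454) x34778) x34562) x34670) x34598) x34618) (Nat.mul x34616 (nat_lit 2))) x54298)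
    (Nat.sub (Nat.sub (Nat.sub (Nat.add (Nat.add (Nat.add (Nat.add (Nat.add (Nat.add (Nat.add (Nat.add (Nat.add (Nat.add (Nat.add (Nat.add C x47740) x30244) x36076) x34132) x34456) x34780) x34564) x34672) x34600) x34624) x34616) x34620) (Nat.mul x34618 (nat_lit 2))) x54300) x14936)
    (Nat.sub (Nat.sub (Nat.add (Nat.add (Nat.add (Nat.add (Nat.add (Nat.add (Nat.add (Nat.add (Nat.add (Nat.add (Nat.add C x47742) x30246) x36078) x34134) x34458) x34782) x34566) x34674) x34602) x34626) x34618) (Nat.mul x34620 (nat_lit 4))) x14938)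
    (Nat.sub (Nat.sub (Nat.sub (Nat.add (Nat.add (Nat.add (Nat.add (Nat.add (Nat.add (Nat.add (Nat.add (Nat.add (Nat.add (Nat.add (Nat.add C x47746) x30250) x36082) x34138) x34462) x34786) x34570) x34678) x34606) x34642) x34618) x34626) (Nat.mul x34624 (nat_lit 2))) x54306) x14942)
    (Nat.sub (Nat.sub (Nat.add (Nat.add (Nat.add (Nat.add (Nat.add (Nat.add (Nat.add (Nat.add (Nat.add (Nat.add (Nat.add (Nat.add (Nat.add C x47748) x30252) x36084) x34140) x34464) x34788) x34572) x34680) x34608) x34644) x34620) x34632) x34624) (Nat.mul x34626 (nat_lit 2))) x14944)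
    (Nat.sub (Nat.sub (Nat.add (Nat.add (Nat.add (Nat.add (Nat.add (Nat.add (Nat.add (Nat.add (Nat.add (Nat.add C x47754) x30258) x36090) x34146) x34470) x34794) x34578) x34686) x34650) x34626) (Nat.mul x34632 (nat_lit 2))) x14950)
    (Nat.sub (Nat.sub (Nat.sub (Nat.add (Nat.add (Nat.add (Nat.add (Nat.add (Nat.add (Nat.add (Nat.add (Nat.add C x47764) x30268) x36100) x34156) x34480) x34804) x34696) x34624) x34644) (Nat.mul x34642 (nat_lit 2))) x54324) x14960)
    (Nat.sub (Nat.sub (Nat.add (Nat.add (Nat.add (Nat.add (Nat.add (Nat.add (Nat.add (Nat.add (Nat.add (Nat.add C x47766) x30270) x36102) x34158) x34482) x34806) x34698) x34626) x34650) x34642) (Nat.mul x34644 (nat_lit 3))) x14962)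
    (Nat.sub (Nat.sub (Nat.add (Nat.add (Nat.add (Nat.add (Nat.add (Nat.add (Nat.add (Nat.add (Nat.add C x47772) x30276) x36108) x34164) x34488) x34812) x34704) x34632) x34644) x34650) x14968)
    (Nat.sub (Nat.sub (Nat.add (Nat.add (Nat.add (Nat.add (Nat.add (Nat.add (Nat.add C x47792) x30296) x36128) x34184) x34832) x34616) x34672) (Nat.mul x34670 (nat_lit 2))) x54352)
    (Nat.sub (Nat.sub (Nat.sub (Nat.add (Nat.add (Nat.add (Nat.add (Nat.add (Nat.add (Nat.add (Nat.add (Nat.add C x47794) x30298) x36130) x34186) x34834) x34618) x34678) x34670) x34674) (Nat.mul x34672 (nat_lit 2))) x54354) x14990)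
    (Nat.sub (Nat.sub (Nat.add (Nat.add (Nat.add (Nat.add (Nat.add (Nat.add (Nat.add (Nat.add C x47796) x30300) x36132) x34188) x34836) x34620) x34680) x34672) (Nat.mul x34674 (nat_lit 4))) x14992)
    (Nat.sub (Nat.sub (Nat.sub (Nat.add (Nat.add (Nat.add (Nat.add (Nat.add (Nat.add (Nat.add (Nat.add (Nat.add C x47800) x30304) x36136) x34192) x34840) x34624) x34696) x34672) x34680) (Nat.mul x34678 (nat_lit 3))) x54360) x14996)
    (Nat.sub (Nat.sub (Nat.add (Nat.add (Nat.add (Nat.add (Nat.add (Nat.add (Nat.add (Nat.add (Nat.add (Nat.add C x47802) x30306) x36138) x34194) x34842) x34626) x34698) x34674) x34686) x34678) (Nat.mul x34680 (nat_lit 3))) x14998)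
    (Nat.sub (Nat.sub (Nat.add (Nat.add (Nat.add (Nat.add (Nat.add (Nat.add (Nat.add (Nat.add C x47808) x30312) x36144) x34200) x34848) x34632) x34704) x34680) (Nat.mul x34686 (nat_lit 4))) x15004)
    (Nat.sub (Nat.sub (Nat.sub (Nat.add (Nat.add (Nat.add (Nat.add (Nat.add (Nat.add (Nat.add (Nat.add C x47818) x30322) x36154) x34210) x34858) x34642) x34678) x34698) x34696) x54378) x15014)
    (Nat.sub (Nat.sub (Nat.add (Nat.add (Nat.add (Nat.add (Nat.add (Nat.add (Nat.add (Nat.add (Nat.add C x47820) x30324) x36156) x34212) x34860) x34644) x34680) x34704) x34696) (Nat.mul x34698 (nat_lit 2))) x15016)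
    (Nat.sub (Nat.sub (Nat.add (Nat.add (Nat.add (Nat.add (Nat.add (Nat.add (Nat.add (Nat.add (Nat.add C x47826) x30330) x36162) x34218) x34866) x34650) x34686) x34722) x34698) x34704) x15022)
    (Nat.sub (Nat.add (Nat.add (Nat.add (Nat.add (Nat.add (Nat.add C x47844) x30348) x36180) x34236) x34884) x34704) x15040)
    (Nat.sub (Nat.add (Nat.add (Nat.add (Nat.add (Nat.add (Nat.add C x47876) x30380) x36212) x34592) x34760) x34756) x54436)
    (Nat.sub (Nat.sub (Nat.sub (Nat.add (Nat.add (Nat.add (Nat.add (Nat.add (Nat.add C x47878) x30382) x36214) x34594) x34762) x34754) x34756) x54438) x15074)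
    (Nat.sub (Nat.sub (Nat.add (Nat.add (Nat.add (Nat.add (Nat.add (Nat.add (Nat.add C x47882) x30386) x36218) x34598) x34778) x34754) x34762) (Nat.mul x34760 (nat_lit 2))) x54442)
    (Nat.sub (Nat.sub (Nat.sub (Nat.add (Nat.add (Nat.add (Nat.add (Nat.add (Nat.add (Nat.add (Nat.add (Nat.add C x47884) x30388) x36220) x34600) x34780) x34756) x34768) x34760) x34764) x34762) x54444) x15080)
    (Nat.sub (Nat.sub (Nat.add (Nat.add (Nat.add (Nat.add (Nat.add (Nat.add (Nat.add C x47886) x30390) x36222) x34602) x34782) x34770) x34762) (Nat.mul x34764 (nat_lit 2))) x15082)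
    (Nat.sub (Nat.sub (Nat.sub (Nat.add (Nat.add (Nat.add (Nat.add (Nat.add (Nat.add (Nat.add C x47890) x30394) x36226) x34606) x34786) x34762) x34770) (Nat.mul x34768 (nat_lit 3))) x54450) x15086)
    (Nat.sub (Nat.sub (Nat.add (Nat.add (Nat.add (Nat.add (Nat.add (Nat.add (Nat.add C x47892) x30396) x36228) x34608) x34788) x34764) x34768) (Nat.mul x34770 (nat_lit 2))) x15088)
    (Nat.sub (Nat.sub (Nat.add (Nat.add (Nat.add (Nat.add (Nat.add (Nat.add (Nat.add C x47900) x30404) x36236) x34616) x34832) x34760) x34780) (Nat.mul x34778 (nat_lit 2))) x54460)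
    (Nat.sub (Nat.sub (Nat.sub (Nat.add (Nat.add (Nat.add (Nat.add (Nat.add (Nat.add (Nat.add (Nat.add (Nat.add C x47902) x30406) x36238) x34618) x34834) x34762) x34786) x34778) x34782) (Nat.mul x34780 (nat_lit 2))) x54462) x15098)
    (Nat.sub (Nat.sub (Nat.add (Nat.add (Nat.add (Nat.add (Nat.add (Nat.add (Nat.add (Nat.add C x47904) x30408) x36240) x34620) x34836) x34764) x34788) x34780) (Nat.mul x34782 (nat_lit 4))) x15100)
    (Nat.sub (Nat.sub (Nat.sub (Nat.add (Nat.add (Nat.add (Nat.add (Nat.add (Nat.add (Nat.add (Nat.add (Nat.add C x47908) x30412) x36244) x34624) x34840) x34768) x34804) x34780) x34788) (Nat.mul x34786 (nat_lit 2))) x54468) x15104)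
    (Nat.sub (Nat.sub (Nat.add (Nat.add (Nat.add (Nat.add (Nat.add (Nat.add (Nat.add (Nat.add (Nat.add (Nat.add C x47910) x30414) x36246) x34626) x34842) x34770) x34806) x34782) x34794) x34786) (Nat.mul x34788 (nat_lit 2))) x15106)
    (Nat.sub (Nat.sub (Nat.add (Nat.add (Nat.add (Nat.add (Nat.add (Nat.add (Nat.add C x47916) x30420) x36252) x34632) x34848) x34812) x34788) (Nat.mul x34794 (nat_lit 2))) x15112)
    (Nat.sub (Nat.sub (Nat.sub (Nat.add (Nat.add (Nat.add (Nat.add (Nat.add (Nat.add (Nat.add C x47926) x30430) x36262) x34642) x34858) x34786) x34806) (Nat.mul x34804 (nat_lit 3))) x54486) x15122)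
    (Nat.sub (Nat.sub (Nat.add (Nat.add (Nat.add (Nat.add (Nat.add (Nat.add (Nat.add (Nat.add C x47928) x30432) x36264) x34644) x34860) x34788) x34812) x34804) (Nat.mul x34806 (nat_lit 4))) x15124)
    (Nat.sub (Nat.sub (Nat.add (Nat.add (Nat.add (Nat.add (Nat.add (Nat.add (Nat.add C x47934) x30438) x36270) x34650) x34866) x34794) x34806) (Nat.mul x34812 (nat_lit 2))) x15130)
    (Nat.sub (Nat.add (Nat.add (Nat.add (Nat.add (Nat.add (Nat.add C x47954) x30458) x36290) x34670) x34778) x34834) x54514)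
    (Nat.sub (Nat.sub (Nat.add (Nat.add (Nat.add (Nat.add (Nat.add (Nat.add (Nat.add (Nat.add C x47956) x30460) x36292) x34672) x34780) x34840) x34832) x34836) x54516) x15152)
    (Nat.sub (Nat.sub (Nat.add (Nat.add (Nat.add (Nat.add (Nat.add (Nat.add (Nat.add C x47958) x30462) x36294) x34674) x34782) x34842) x34834) (Nat.mul x34836 (nat_lit 2))) x15154)
    (Nat.sub (Nat.sub (Nat.sub (Nat.add (Nat.add (Nat.add (Nat.add (Nat.add (Nat.add (Nat.add (Nat.add C x47962) x30466) x36298) x34678) x34786) x34858) x34834) x34842) x34840) x54522) x15158)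
    (Nat.sub (Nat.sub (Nat.add (Nat.add (Nat.add (Nat.add (Nat.add (Nat.add (Nat.add (Nat.add (Nat.add C x47964) x30468) x36300) x34680) x34788) x34860) x34836) x34848) x34840) x34842) x15160)
    (Nat.sub (Nat.sub (Nat.add (Nat.add (Nat.add (Nat.add (Nat.add (Nat.add (Nat.add C x47970) x30474) x36306) x34686) x34794) x34866) x34842) (Nat.mul x34848 (nat_lit 2))) x15166)
    (Nat.sub (Nat.sub (Nat.add (Nat.add (Nat.add (Nat.add (Nat.add (Nat.add (Nat.add (Nat.add C x47980) x30484) x36316) x34696) x34804) x34912) x34840) x34860) x54540) x15176)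
    (Nat.sub (Nat.sub (Nat.add (Nat.add (Nat.add (Nat.add (Nat.add (Nat.add (Nat.add (Nat.add (Nat.add C x47982) x30486) x36318) x34698) x34806) x34914) x34842) x34866) x34858) x34860) x15178)
    (Nat.sub (Nat.add (Nat.add (Nat.add (Nat.add (Nat.add (Nat.add (Nat.add (Nat.add (Nat.add C x47988) x30492) x36324) x34704) x34812) x34920) x34848) x34884) x34860) x15184)
    (Nat.sub (Nat.add (Nat.add (Nat.add (Nat.add (Nat.add (Nat.add C x48006) x30510) x36342) x34722) x34938) x34866) x15202)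
    (Nat.sub (Nat.sub (Nat.add (Nat.add (Nat.add (Nat.add (Nat.add (Nat.add C x34912) x48034) x30538) x36370) x34858) x34914) x54594) x15230)
    (Nat.sub (Nat.add (Nat.add (Nat.add (Nat.add (Nat.add (Nat.add C x48036) x30540) x36372) x34860) x34920) x34912) x15232)
    (Nat.sub (Nat.add (Nat.add (Nat.add (Nat.add (Nat.add (Nat.add C x48042) x30546) x36378) x34866) x34938) x34914) x15238)
    (Nat.sub (Nat.add (Nat.add (Nat.add (Nat.add (Nat.add (Nat.add C (Nat.mul x34938 (nat_lit 2))) x48060) x30564) x36396) x34884) x34920) x15256)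
    (Nat.sub (Nat.add (Nat.add (Nat.add (Nat.add (Nat.add C (Nat.mul x35018 (nat_lit 4))) x48140) x30644) x33560) x35036) x54700)
    (Nat.sub (Nat.add (Nat.add (Nat.add (Nat.add (Nat.add (Nat.add (Nat.add (Nat.add C (Nat.mul x35036 (nat_lit 3))) x48158) x30662) x33578) x35090) x35018) x35054) x35042) x54718)
    (Nat.sub (Nat.add (Nat.add (Nat.add (Nat.add (Nat.add (Nat.add (Nat.add (Nat.add C (Nat.mul x35042 (nat_lit 2))) x48164) x30668) x33584) x35096) x35060) x35036) x35044) x54724)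
    (Nat.sub (Nat.sub (Nat.add (Nat.add (Nat.add (Nat.add (Nat.add (Nat.add (Nat.add C (Nat.mul x35044 (nat_lit 3))) x48166) x30670) x33586) x35098) x35062) x35042) x54726) x15362)
    (Nat.sub (Nat.add (Nat.add (Nat.add (Nat.add (Nat.add (Nat.add C x48176) x30680) x33596) x35108) x35036) x35060) x54736)
    (Nat.sub (Nat.add (Nat.add (Nat.add (Nat.add (Nat.add (Nat.add (Nat.add (Nat.add (Nat.add C x35060) x48182) x30686) x33602) x35114) x35042) x35054) x35066) x35062) x54742)
    (Nat.sub (Nat.sub (Nat.add (Nat.add (Nat.add (Nat.add (Nat.add (Nat.add (Nat.add (Nat.add C x35062) x48184) x30688) x33604) x35116) x35044) x35068) x35060) x54744) x15380)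
    (Nat.sub (Nat.add (Nat.add (Nat.add (Nat.add (Nat.add (Nat.add C x48188) x30692) x33608) x35120) x35060) x35068) x54748)
    (Nat.sub (Nat.sub (Nat.add (Nat.add (Nat.add (Nat.add (Nat.add (Nat.add (Nat.add (Nat.add C (Nat.mul x35068 (nat_lit 2))) x48190) x30694) x33610) x35122) x35062) x35066) x35070) x54750) x15386)
    (Nat.sub (Nat.add (Nat.add (Nat.add (Nat.add (Nat.add (Nat.add C (Nat.mul x35070 (nat_lit 2))) x48192) x30696) x33612) x35124) x35068) x15388)
    (Nat.sub (Nat.add (Nat.add (Nat.add (Nat.add (Nat.add (Nat.add (Nat.add (Nat.add C (Nat.mul x35090 (nat_lit 2))) x48212) x30716) x33632) x35252) x35036) x35108) x35096) x54772)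
    (Nat.sub (Nat.add (Nat.add (Nat.add (Nat.add (Nat.add (Nat.add (Nat.add (Nat.add C x48218) x30722) x33638) x35258) x35042) x35114) x35090) x35098) x54778)
    (Nat.sub (Nat.sub (Nat.add (Nat.add (Nat.add (Nat.add (Nat.add (Nat.add (Nat.add (Nat.add C x35098) x48220) x30724) x33640) x35260) x35044) x35116) x35096) x54780) x15416)
    (Nat.sub (Nat.add (Nat.add (Nat.add (Nat.add (Nat.add (Nat.add (Nat.add (Nat.add (Nat.add C x35108) x48230) x30734) x33650) x35270) x35054) x35162) x35090) x35114) x54790)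
    (Nat.sub (Nat.add (Nat.add (Nat.add (Nat.add (Nat.add (Nat.add (Nat.add (Nat.add (Nat.add (Nat.add (Nat.add (Nat.add C x35114) x48236) x30740) x33656) x35276) x35060) x35168) x35096) x35132) x35108) x35120) x35116) x54796)
    (Nat.sub (Nat.sub (Nat.add (Nat.add (Nat.add (Nat.add (Nat.add (Nat.add (Nat.add (Nat.add (Nat.add (Nat.add (Nat.add C x35116) x48238) x30742) x33658) x35278) x35062) x35170) x35098) x35134) x35122) x35114) x54798) x15434)
    (Nat.sub (Nat.sub (Nat.add (Nat.add (Nat.add (Nat.add (Nat.add (Nat.add (Nat.add (Nat.add (Nat.add C x48242) x30746) x33662) x35282) x35066) x35174) x35138) x35114) x35122) x35120) x54802)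
    (Nat.sub (Nat.sub (Nat.add (Nat.add (Nat.add (Nat.add (Nat.add (Nat.add (Nat.add (Nat.add (Nat.add (Nat.add (Nat.add C x35122) x48244) x30748) x33664) x35284) x35068) x35176) x35140) x35116) x35120) x35124) x54804) x15440)
    (Nat.sub (Nat.add (Nat.add (Nat.add (Nat.add (Nat.add (Nat.add (Nat.add (Nat.add (Nat.add C x35124) x48246) x30750) x33666) x35286) x35070) x35178) x35142) x35122) x15442)
    (Nat.sub (Nat.add (Nat.add (Nat.add (Nat.add (Nat.add (Nat.add (Nat.add (Nat.add C x48254) x30758) x33674) x35294) x35186) x35114) x35138) x35134) x54814)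
    (Nat.sub (Nat.sub (Nat.sub (Nat.add (Nat.add (Nat.add (Nat.add (Nat.add (Nat.add (Nat.add (Nat.add C x48256) x30760) x33676) x35296) x35188) x35116) x35140) x35132) x35134) x54816) x15452)
    (Nat.sub (Nat.add (Nat.add (Nat.add (Nat.add (Nat.add (Nat.add (Nat.add (Nat.add C x48260) x30764) x33680) x35300) x35192) x35120) x35132) x35140) x54820)
    (Nat.sub (Nat.sub (Nat.add (Nat.add (Nat.add (Nat.add (Nat.add (Nat.add (Nat.add (Nat.add (Nat.add (Nat.add (Nat.add C x35140) x48262) x30766) x33682) x35302) x35194) x35122) x35134) x35146) x35138) x35142) x54822) x15458)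
    (Nat.sub (Nat.add (Nat.add (Nat.add (Nat.add (Nat.add (Nat.add (Nat.add (Nat.add C x48264) x30768) x33684) x35304) x35196) x35124) x35148) x35140) x15460)
    (Nat.sub (Nat.sub (Nat.add (Nat.add (Nat.add (Nat.add (Nat.add (Nat.add (Nat.add (Nat.add C x35146) x48268) x30772) x33688) x35308) x35200) x35140) x35148) x54828) x15464)
    (Nat.sub (Nat.add (Nat.add (Nat.add (Nat.add (Nat.add (Nat.add (Nat.add (Nat.add C (Nat.mul x35148 (nat_lit 2))) x48270) x30774) x33690) x35310) x35202) x35142) x35146) x15466)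
    (Nat.sub (Nat.add (Nat.add (Nat.add (Nat.add (Nat.add (Nat.add C x48284) x30788) x33704) x35324) x35108) x35168) x54844)
    (Nat.sub (Nat.sub (Nat.add (Nat.add (Nat.add (Nat.add (Nat.add (Nat.add (Nat.add (Nat.add (Nat.add C x48290) x30794) x33710) x35330) x35114) x35186) x35162) x35174) x35170) x35168) x54850)
    (Nat.sub (Nat.sub (Nat.sub (Nat.add (Nat.add (Nat.add (Nat.add (Nat.add (Nat.add (Nat.add (Nat.add C x48292) x30796) x33712) x35332) x35116) x35188) x35176) x35168) x35170) x54852) x15488)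
    (Nat.sub (Nat.sub (Nat.add (Nat.add (Nat.add (Nat.add (Nat.add (Nat.add (Nat.add (Nat.add C x48296) x30800) x33716) x35336) x35120) x35192) x35168) x35176) (Nat.mul x35174 (nat_lit 4))) x54856)
    (Nat.sub (Nat.sub (Nat.sub (Nat.add (Nat.add (Nat.add (Nat.add (Nat.add (Nat.add (Nat.add (Nat.add (Nat.add C x48298) x30802) x33718) x35338) x35122) x35194) x35170) x35174) x35178) (Nat.mul x35176 (nat_lit 2))) x54858) x15494)
    (Nat.sub (Nat.sub (Nat.add (Nat.add (Nat.add (Nat.add (Nat.add (Nat.add (Nat.add C x48300) x30804) x33720) x35340) x35124) x35196) x35176) (Nat.mul x35178 (nat_lit 2))) x15496)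
    (Nat.sub (Nat.add (Nat.add (Nat.add (Nat.add (Nat.add (Nat.add (Nat.add (Nat.add C x48308) x30812) x33728) x35348) x35132) x35168) x35192) x35188) x54868)
    (Nat.sub (Nat.sub (Nat.sub (Nat.add (Nat.add (Nat.add (Nat.add (Nat.add (Nat.add (Nat.add (Nat.add C x48310) x30814) x33730) x35350) x35134) x35170) x35194) x35186) x35188) x54870) x15506)
    (Nat.sub (Nat.sub (Nat.add (Nat.add (Nat.add (Nat.add (Nat.add (Nat.add (Nat.add (Nat.add (Nat.add C x48314) x30818) x33734) x35354) x35138) x35174) x35210) x35186) x35194) x35192) x54874)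
    (Nat.sub (Nat.sub (Nat.add (Nat.add (Nat.add (Nat.add (Nat.add (Nat.add (Nat.add (Nat.add (Nat.add (Nat.add (Nat.add C x48316) x30820) x33736) x35356) x35140) x35176) x35212) x35188) x35200) x35192) x35196) x54876) x15512)
    (Nat.sub (Nat.sub (Nat.add (Nat.add (Nat.add (Nat.add (Nat.add (Nat.add (Nat.add (Nat.add (Nat.add C x48318) x30822) x33738) x35358) x35142) x35178) x35214) x35202) x35194) x35196) x15514)
    (Nat.sub (Nat.sub (Nat.sub (Nat.add (Nat.add (Nat.add (Nat.add (Nat.add (Nat.add (Nat.add (Nat.add C x48322) x30826) x33742) x35362) x35146) x35218) x35194) x35202) x35200) x54882) x15518)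
    (Nat.sub (Nat.add (Nat.add (Nat.add (Nat.add (Nat.add (Nat.add (Nat.add (Nat.add C x48324) x30828) x33744) x35364) x35148) x35220) x35196) x35200) x15520)
    (Nat.sub (Nat.add (Nat.add (Nat.add (Nat.add (Nat.add (Nat.add C x48332) x30836) x33752) x35372) x35192) x35212) x54892)
    (Nat.sub (Nat.sub (Nat.add (Nat.add (Nat.add (Nat.add (Nat.add (Nat.add (Nat.add (Nat.add C x48334) x30838) x33754) x35374) x35194) x35218) x35210) x35214) x54894) x15530)
    (Nat.sub (Nat.sub (Nat.add (Nat.add (Nat.add (Nat.add (Nat.add (Nat.add (Nat.add C x48336) x30840) x33756) x35376) x35196) x35220) x35212) (Nat.mul x35214 (nat_lit 2))) x15532)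
    (Nat.sub (Nat.sub (Nat.add (Nat.add (Nat.add (Nat.add (Nat.add (Nat.add (Nat.add (Nat.add C x35218) x48340) x30844) x33760) x35380) x35200) x35212) x35220) x54900) x15536)
    (Nat.sub (Nat.add (Nat.add (Nat.add (Nat.add (Nat.add (Nat.add (Nat.add (Nat.add (Nat.add C x35220) x48342) x30846) x33762) x35382) x35202) x35214) x35226) x35218) x15538)
    (Nat.sub (Nat.add (Nat.add (Nat.add (Nat.add (Nat.add (Nat.add C (Nat.mul x35226 (nat_lit 2))) x48348) x30852) x33768) x35388) x35220) x15544)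
    (Nat.sub (Nat.add (Nat.add (Nat.add (Nat.add (Nat.add (Nat.add (Nat.add (Nat.add C (Nat.mul x35252 (nat_lit 2))) x48374) x30878) x33794) x35738) x35090) x35270) x35258) x54934)
    (Nat.sub (Nat.add (Nat.add (Nat.add (Nat.add (Nat.add (Nat.add (Nat.add (Nat.add C x48380) x30884) x33800) x35744) x35096) x35276) x35252) x35260) x54940)
    (Nat.sub (Nat.sub (Nat.add (Nat.add (Nat.add (Nat.add (Nat.add (Nat.add (Nat.add (Nat.add C x35260) x48382) x30886) x33802) x35746) x35098) x35278) x35258) x54942) x15578)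
    (Nat.sub (Nat.add (Nat.add (Nat.add (Nat.add (Nat.add (Nat.add (Nat.add (Nat.add C x48392) x30896) x33812) x35756) x35108) x35324) x35252) x35276) x54952)
    (Nat.sub (Nat.add (Nat.add (Nat.add (Nat.add (Nat.add (Nat.add (Nat.add (Nat.add (Nat.add (Nat.add (Nat.add C x48398) x30902) x33818) x35762) x35114) x35330) x35258) x35294) x35270) x35282) x35278) x54958)
    (Nat.sub (Nat.sub (Nat.add (Nat.add (Nat.add (Nat.add (Nat.add (Nat.add (Nat.add (Nat.add (Nat.add (Nat.add C x48400) x30904) x33820) x35764) x35116) x35332) x35260) x35296) x35284) x35276) x54960) x15596)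
    (Nat.sub (Nat.sub (Nat.add (Nat.add (Nat.add (Nat.add (Nat.add (Nat.add (Nat.add (Nat.add (Nat.add C x48404) x30908) x33824) x35768) x35120) x35336) x35300) x35276) x35284) (Nat.mul x35282 (nat_lit 2))) x54964)
    (Nat.sub (Nat.sub (Nat.add (Nat.add (Nat.add (Nat.add (Nat.add (Nat.add (Nat.add (Nat.add (Nat.add (Nat.add C x48406) x30910) x33826) x35770) x35122) x35338) x35302) x35278) x35282) x35286) x54966) x15602)
    (Nat.sub (Nat.add (Nat.add (Nat.add (Nat.add (Nat.add (Nat.add (Nat.add (Nat.add C x48408) x30912) x33828) x35772) x35124) x35340) x35304) x35284) x15604)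
    (Nat.sub (Nat.sub (Nat.add (Nat.add (Nat.add (Nat.add (Nat.add (Nat.add (Nat.add (Nat.add (Nat.add C x48416) x30920) x33836) x35780) x35132) x35348) x35276) x35300) x35296) (Nat.mul x35294 (nat_lit 2))) x54976)
    (Nat.sub (Nat.sub (Nat.sub (Nat.add (Nat.add (Nat.add (Nat.add (Nat.add (Nat.add (Nat.add (Nat.add (Nat.add C x48418) x30922) x33838) x35782) x35134) x35350) x35278) x35302) x35294) (Nat.mul x35296 (nat_lit 3))) x54978) x15614)
    (Nat.sub (Nat.sub (Nat.add (Nat.add (Nat.add (Nat.add (Nat.add (Nat.add (Nat.add (Nat.add (Nat.add C x48422) x30926) x33842) x35786) x35138) x35354) x35282) x35294) x35302) (Nat.mul x35300 (nat_lit 2))) x54982)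
    (Nat.sub (Nat.sub (Nat.sub (Nat.add (Nat.add (Nat.add (Nat.add (Nat.add (Nat.add (Nat.add (Nat.add (Nat.add (Nat.add (Nat.add C x48424) x30928) x33844) x35788) x35140) x35356) x35284) x35296) x35308) x35300) x35304) x35302) x54984) x15620)
    (Nat.sub (Nat.sub (Nat.add (Nat.add (Nat.add (Nat.add (Nat.add (Nat.add (Nat.add (Nat.add (Nat.add C x48426) x30930) x33846) x35790) x35142) x35358) x35286) x35310) x35302) (Nat.mul x35304 (nat_lit 2))) x15622)
    (Nat.sub (Nat.sub (Nat.sub (Nat.add (Nat.add (Nat.add (Nat.add (Nat.add (Nat.add (Nat.add (Nat.add C x48430) x30934) x33850) x35794) x35146) x35362) x35302) x35310) x35308) x54990) x15626)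
    (Nat.sub (Nat.add (Nat.add (Nat.add (Nat.add (Nat.add (Nat.add (Nat.add (Nat.add C x48432) x30936) x33852) x35796) x35148) x35364) x35304) x35308) x15628)
    (Nat.sub (Nat.add (Nat.add (Nat.add (Nat.add (Nat.add (Nat.add (Nat.add (Nat.add (Nat.add C x35324) x48446) x30950) x33866) x35810) x35162) x35486) x35270) x35330) x55006)
    (Nat.sub (Nat.add (Nat.add (Nat.add (Nat.add (Nat.add (Nat.add (Nat.add (Nat.add (Nat.add (Nat.add (Nat.add C x48452) x30956) x33872) x35816) x35168) x35492) x35276) x35348) x35324) x35336) x35332) x55012)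
    (Nat.sub (Nat.sub (Nat.add (Nat.add (Nat.add (Nat.add (Nat.add (Nat.add (Nat.add (Nat.add (Nat.add (Nat.add C x48454) x30958) x33874) x35818) x35170) x35494) x35278) x35350) x35338) x35330) x55014) x15650)
    (Nat.sub (Nat.sub (Nat.add (Nat.add (Nat.add (Nat.add (Nat.add (Nat.add (Nat.add (Nat.add (Nat.add (Nat.add C x48458) x30962) x33878) x35822) x35174) x35498) x35282) x35354) x35330) x35338) (Nat.mul x35336 (nat_lit 3))) x55018)
    (Nat.sub (Nat.sub (Nat.sub (Nat.add (Nat.add (Nat.add (Nat.add (Nat.add (Nat.add (Nat.add (Nat.add (Nat.add (Nat.add (Nat.add C x48460) x30964) x33880) x35824) x35176) x35500) x35284) x35356) x35332) x35336) x35340) x35338) x55020) x15656)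
    (Nat.sub (Nat.sub (Nat.add (Nat.add (Nat.add (Nat.add (Nat.add (Nat.add (Nat.add (Nat.add (Nat.add C x48462) x30966) x33882) x35826) x35178) x35502) x35286) x35358) x35338) x35340) x15658)
    (Nat.sub (Nat.add (Nat.add (Nat.add (Nat.add (Nat.add (Nat.add (Nat.add (Nat.add (Nat.add (Nat.add (Nat.add C x48470) x30974) x33890) x35834) x35186) x35510) x35294) x35402) x35330) x35354) x35350) x55030)
    (Nat.sub (Nat.sub (Nat.sub (Nat.add (Nat.add (Nat.add (Nat.add (Nat.add (Nat.add (Nat.add (Nat.add (Nat.add (Nat.add (Nat.add C x48472) x30976) x33892) x35836) x35188) x35512) x35296) x35404) x35332) x35356) x35348) x35350) x55032) x15668)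
    (Nat.sub (Nat.sub (Nat.add (Nat.add (Nat.add (Nat.add (Nat.add (Nat.add (Nat.add (Nat.add (Nat.add (Nat.add (Nat.add (Nat.add C x48476) x30980) x33896) x35840) x35192) x35516) x35300) x35408) x35336) x35372) x35348) x35356) x35354) x55036)
    (Nat.sub (Nat.sub (Nat.add (Nat.add (Nat.add (Nat.add (Nat.add (Nat.add (Nat.add (Nat.add (Nat.add (Nat.add (Nat.add (Nat.add (Nat.add (Nat.add C x48478) x30982) x33898) x35842) x35194) x35518) x35302) x35410) x35338) x35374) x35350) x35362) x35354) x35358) x55038) x15674)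
    (Nat.sub (Nat.sub (Nat.add (Nat.add (Nat.add (Nat.add (Nat.add (Nat.add (Nat.add (Nat.add (Nat.add (Nat.add (Nat.add (Nat.add C x48480) x30984) x33900) x35844) x35196) x35520) x35304) x35412) x35340) x35376) x35364) x35356) x35358) x15676)
    (Nat.sub (Nat.sub (Nat.sub (Nat.add (Nat.add (Nat.add (Nat.add (Nat.add (Nat.add (Nat.add (Nat.add (Nat.add (Nat.add (Nat.add C x48484) x30988) x33904) x35848) x35200) x35524) x35308) x35416) x35380) x35356) x35364) x35362) x55044) x15680)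
    (Nat.sub (Nat.add (Nat.add (Nat.add (Nat.add (Nat.add (Nat.add (Nat.add (Nat.add (Nat.add (Nat.add (Nat.add C x48486) x30990) x33906) x35850) x35202) x35526) x35310) x35418) x35382) x35358) x35362) x15682)
    (Nat.sub (Nat.sub (Nat.add (Nat.add (Nat.add (Nat.add (Nat.add (Nat.add (Nat.add (Nat.add (Nat.add C x48494) x30998) x33914) x35858) x35210) x35534) x35426) x35354) x35374) x35372) x55054)
    (Nat.sub (Nat.sub (Nat.sub (Nat.add (Nat.add (Nat.add (Nat.add (Nat.add (Nat.add (Nat.add (Nat.add (Nat.add (Nat.add (Nat.add C x48496) x31000) x33916) x35860) x35212) x35536) x35428) x35356) x35380) x35372) x35376) x35374) x55056) x15692)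
    (Nat.sub (Nat.sub (Nat.add (Nat.add (Nat.add (Nat.add (Nat.add (Nat.add (Nat.add (Nat.add (Nat.add (Nat.add C x48498) x31002) x33918) x35862) x35214) x35538) x35430) x35358) x35382) x35374) (Nat.mul x35376 (nat_lit 3))) x15694)
    (Nat.sub (Nat.sub (Nat.add (Nat.add (Nat.add (Nat.add (Nat.add (Nat.add (Nat.add (Nat.add (Nat.add (Nat.add C x48502) x31006) x33922) x35866) x35218) x35542) x35434) x35362) x35374) x35382) x55062) x15698)
    (Nat.sub (Nat.add (Nat.add (Nat.add (Nat.add (Nat.add (Nat.add (Nat.add (Nat.add (Nat.add (Nat.add (Nat.add C x48504) x31008) x33924) x35868) x35220) x35544) x35436) x35364) x35376) x35388) x35380) x15700)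
    (Nat.sub (Nat.add (Nat.add (Nat.add (Nat.add (Nat.add (Nat.add (Nat.add (Nat.add (Nat.add C x35388) x48510) x31014) x33930) x35874) x35226) x35550) x35442) x35382) x15706)
    (Nat.sub (Nat.add (Nat.add (Nat.add (Nat.add (Nat.add (Nat.add (Nat.add (Nat.add C x48524) x31028) x33944) x35888) x35564) x35348) x35408) x35404) x55084)
    (Nat.sub (Nat.sub (Nat.sub (Nat.add (Nat.add (Nat.add (Nat.add (Nat.add (Nat.add (Nat.add (Nat.add C x48526) x31030) x33946) x35890) x35566) x35350) x35410) x35402) x35404) x55086) x15722)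
    (Nat.sub (Nat.sub (Nat.add (Nat.add (Nat.add (Nat.add (Nat.add (Nat.add (Nat.add (Nat.add (Nat.add C x48530) x31034) x33950) x35894) x35570) x35354) x35426) x35402) x35410) (Nat.mul x35408 (nat_lit 2))) x55090)
    (Nat.sub (Nat.sub (Nat.sub (Nat.add (Nat.add (Nat.add (Nat.add (Nat.add (Nat.add (Nat.add (Nat.add (Nat.add (Nat.add (Nat.add C x48532) x31036) x33952) x35896) x35572) x35356) x35428) x35404) x35416) x35408) x35412) x35410) x55092) x15728)
    (Nat.sub (Nat.sub (Nat.add (Nat.add (Nat.add (Nat.add (Nat.add (Nat.add (Nat.add (Nat.add (Nat.add C x48534) x31038) x33954) x35898) x35574) x35358) x35430) x35418) x35410) (Nat.mul x35412 (nat_lit 2))) x15730)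
    (Nat.sub (Nat.sub (Nat.sub (Nat.add (Nat.add (Nat.add (Nat.add (Nat.add (Nat.add (Nat.add (Nat.add (Nat.add C x48538) x31042) x33958) x35902) x35578) x35362) x35434) x35410) x35418) (Nat.mul x35416 (nat_lit 3))) x55098) x15734)
    (Nat.sub (Nat.sub (Nat.add (Nat.add (Nat.add (Nat.add (Nat.add (Nat.add (Nat.add (Nat.add (Nat.add C x48540) x31044) x33960) x35904) x35580) x35364) x35436) x35412) x35416) (Nat.mul x35418 (nat_lit 2))) x15736)
    (Nat.sub (Nat.add (Nat.add (Nat.add (Nat.add (Nat.add (Nat.add (Nat.add (Nat.add C x48548) x31052) x33968) x35912) x35588) x35372) x35408) x35428) x55108)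
    (Nat.sub (Nat.sub (Nat.add (Nat.add (Nat.add (Nat.add (Nat.add (Nat.add (Nat.add (Nat.add (Nat.add (Nat.add C x48550) x31054) x33970) x35914) x35590) x35374) x35410) x35434) x35426) x35430) x55110) x15746)
    (Nat.sub (Nat.sub (Nat.add (Nat.add (Nat.add (Nat.add (Nat.add (Nat.add (Nat.add (Nat.add (Nat.add C x48552) x31056) x33972) x35916) x35592) x35376) x35412) x35436) x35428) (Nat.mul x35430 (nat_lit 2))) x15748)
    (Nat.sub (Nat.sub (Nat.add (Nat.add (Nat.add (Nat.add (Nat.add (Nat.add (Nat.add (Nat.add (Nat.add (Nat.add C x48556) x31060) x33976) x35920) x35596) x35380) x35416) x35452) x35428) x35436) x55116) x15752)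
    (Nat.sub (Nat.add (Nat.add (Nat.add (Nat.add (Nat.add (Nat.add (Nat.add (Nat.add (Nat.add (Nat.add (Nat.add C x48558) x31062) x33978) x35922) x35598) x35382) x35418) x35454) x35430) x35442) x35434) x15754)
    (Nat.sub (Nat.add (Nat.add (Nat.add (Nat.add (Nat.add (Nat.add (Nat.add (Nat.add C x48564) x31068) x33984) x35928) x35604) x35388) x35460) x35436) x15760)
    (Nat.sub (Nat.sub (Nat.add (Nat.add (Nat.add (Nat.add (Nat.add (Nat.add (Nat.add (Nat.add C x35452) x48574) x31078) x33994) x35938) x35614) x35434) x35454) x55134) x15770)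
    (Nat.sub (Nat.add (Nat.add (Nat.add (Nat.add (Nat.add (Nat.add (Nat.add (Nat.add C x48576) x31080) x33996) x35940) x35616) x35436) x35460) x35452) x15772)
    (Nat.sub (Nat.add (Nat.add (Nat.add (Nat.add (Nat.add (Nat.add (Nat.add (Nat.add C (Nat.mul x35460 (nat_lit 2))) x48582) x31086) x34002) x35946) x35622) x35442) x35454) x15778)
    (Nat.sub (Nat.add (Nat.add (Nat.add (Nat.add (Nat.add (Nat.add C x48608) x31112) x34028) x35972) x35324) x35492) x55168)
    (Nat.sub (Nat.sub (Nat.add (Nat.add (Nat.add (Nat.add (Nat.add (Nat.add (Nat.add (Nat.add (Nat.add C x48614) x31118) x34034) x35978) x35330) x35510) x35486) x35498) x35494) x35492) x55174)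
    (Nat.sub (Nat.sub (Nat.sub (Nat.add (Nat.add (Nat.add (Nat.add (Nat.add (Nat.add (Nat.add (Nat.add C x48616) x31120) x34036) x35980) x35332) x35512) x35500) x35492) x35494) x55176) x15812)
    (Nat.sub (Nat.sub (Nat.add (Nat.add (Nat.add (Nat.add (Nat.add (Nat.add (Nat.add (Nat.add C x48620) x31124) x34040) x35984) x35336) x35516) x35492) x35500) (Nat.mul x35498 (nat_lit 4))) x55180)
    (Nat.sub (Nat.sub (Nat.sub (Nat.add (Nat.add (Nat.add (Nat.add (Nat.add (Nat.add (Nat.add (Nat.add (Nat.add C x48622) x31126) x34042) x35986) x35338) x35518) x35494) x35498) x35502) (Nat.mul x35500 (nat_lit 2))) x55182) x15818)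
    (Nat.sub (Nat.sub (Nat.add (Nat.add (Nat.add (Nat.add (Nat.add (Nat.add (Nat.add C x48624) x31128) x34044) x35988) x35340) x35520) x35500) (Nat.mul x35502 (nat_lit 2))) x15820)
    (Nat.sub (Nat.sub (Nat.add (Nat.add (Nat.add (Nat.add (Nat.add (Nat.add (Nat.add (Nat.add (Nat.add C x48632) x31136) x34052) x35996) x35348) x35564) x35492) x35516) x35512) (Nat.mul x35510 (nat_lit 2))) x55192)
    (Nat.sub (Nat.sub (Nat.sub (Nat.add (Nat.add (Nat.add (Nat.add (Nat.add (Nat.add (Nat.add (Nat.add (Nat.add C x48634) x31138) x34054) x35998) x35350) x35566) x35494) x35518) x35510) (Nat.mul x35512 (nat_lit 3))) x55194) x15830)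
    (Nat.sub (Nat.sub (Nat.add (Nat.add (Nat.add (Nat.add (Nat.add (Nat.add (Nat.add (Nat.add (Nat.add (Nat.add C x48638) x31142) x34058) x36002) x35354) x35570) x35498) x35534) x35510) x35518) (Nat.mul x35516 (nat_lit 3))) x55198)
    (Nat.sub (Nat.sub (Nat.sub (Nat.add (Nat.add (Nat.add (Nat.add (Nat.add (Nat.add (Nat.add (Nat.add (Nat.add (Nat.add (Nat.add (Nat.add C x48640) x31144) x34060) x36004) x35356) x35572) x35500) x35536) x35512) x35524) x35516) x35520) (Nat.mul x35518 (nat_lit 2))) x55200) x15836)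
    (Nat.sub (Nat.sub (Nat.add (Nat.add (Nat.add (Nat.add (Nat.add (Nat.add (Nat.add (Nat.add (Nat.add (Nat.add C x48642) x31146) x34062) x36006) x35358) x35574) x35502) x35538) x35526) x35518) (Nat.mul x35520 (nat_lit 3))) x15838)
    (Nat.sub (Nat.sub (Nat.sub (Nat.add (Nat.add (Nat.add (Nat.add (Nat.add (Nat.add (Nat.add (Nat.add (Nat.add C x48646) x31150) x34066) x36010) x35362) x35578) x35542) x35518) x35526) (Nat.mul x35524 (nat_lit 3))) x55206) x15842)
    (Nat.sub (Nat.sub (Nat.add (Nat.add (Nat.add (Nat.add (Nat.add (Nat.add (Nat.add (Nat.add (Nat.add C x48648) x31152) x34068) x36012) x35364) x35580) x35544) x35520) x35524) (Nat.mul x35526 (nat_lit 2))) x15844)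
    (Nat.sub (Nat.sub (Nat.add (Nat.add (Nat.add (Nat.add (Nat.add (Nat.add (Nat.add (Nat.add C x48656) x31160) x34076) x36020) x35372) x35588) x35516) x35536) (Nat.mul x35534 (nat_lit 4))) x55216)
    (Nat.sub (Nat.sub (Nat.sub (Nat.add (Nat.add (Nat.add (Nat.add (Nat.add (Nat.add (Nat.add (Nat.add (Nat.add (Nat.add C x48658) x31162) x34078) x36022) x35374) x35590) x35518) x35542) x35534) x35538) (Nat.mul x35536 (nat_lit 4))) x55218) x15854)
    (Nat.sub (Nat.sub (Nat.add (Nat.add (Nat.add (Nat.add (Nat.add (Nat.add (Nat.add (Nat.add (Nat.add C x48660) x31164) x34080) x36024) x35376) x35592) x35520) x35544) x35536) (Nat.mul x35538 (nat_lit 6))) x15856)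
    (Nat.sub (Nat.sub (Nat.sub (Nat.add (Nat.add (Nat.add (Nat.add (Nat.add (Nat.add (Nat.add (Nat.add (Nat.add C x48664) x31168) x34084) x36028) x35380) x35596) x35524) x35536) x35544) (Nat.mul x35542 (nat_lit 3))) x55224) x15860)
    (Nat.sub (Nat.sub (Nat.add (Nat.add (Nat.add (Nat.add (Nat.add (Nat.add (Nat.add (Nat.add (Nat.add (Nat.add C x48666) x31170) x34086) x36030) x35382) x35598) x35526) x35538) x35550) x35542) (Nat.mul x35544 (nat_lit 3))) x15862)
    (Nat.sub (Nat.sub (Nat.add (Nat.add (Nat.add (Nat.add (Nat.add (Nat.add (Nat.add C x48672) x31176) x34092) x36036) x35388) x35604) x35544) (Nat.mul x35550 (nat_lit 2))) x15868)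
    (Nat.sub (Nat.add (Nat.add (Nat.add (Nat.add (Nat.add (Nat.add (Nat.add (Nat.add C x48686) x31190) x34106) x36050) x35402) x35510) x35570) x35566) x55246)
    (Nat.sub (Nat.sub (Nat.sub (Nat.add (Nat.add (Nat.add (Nat.add (Nat.add (Nat.add (Nat.add (Nat.add C x48688) x31192) x34108) x36052) x35404) x35512) x35572) x35564) x35566) x55248) x15884)
    (Nat.sub (Nat.sub (Nat.add (Nat.add (Nat.add (Nat.add (Nat.add (Nat.add (Nat.add (Nat.add (Nat.add C x48692) x31196) x34112) x36056) x35408) x35516) x35588) x35564) x35572) (Nat.mul x35570 (nat_lit 2))) x55252)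
    (Nat.sub (Nat.sub (Nat.sub (Nat.add (Nat.add (Nat.add (Nat.add (Nat.add (Nat.add (Nat.add (Nat.add (Nat.add (Nat.add (Nat.add C x48694) x31198) x34114) x36058) x35410) x35518) x35590) x35566) x35578) x35570) x35574) x35572) x55254) x15890)
    (Nat.sub (Nat.sub (Nat.add (Nat.add (Nat.add (Nat.add (Nat.add (Nat.add (Nat.add (Nat.add (Nat.add C x48696) x31200) x34116) x36060) x35412) x35520) x35592) x35580) x35572) (Nat.mul x35574 (nat_lit 2))) x15892)
    (Nat.sub (Nat.sub (Nat.sub (Nat.add (Nat.add (Nat.add (Nat.add (Nat.add (Nat.add (Nat.add (Nat.add (Nat.add C x48700) x31204) x34120) x36064) x35416) x35524) x35596) x35572) x35580) (Nat.mul x35578 (nat_lit 3))) x55260) x15896)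
    (Nat.sub (Nat.sub (Nat.add (Nat.add (Nat.add (Nat.add (Nat.add (Nat.add (Nat.add (Nat.add (Nat.add C x48702) x31206) x34122) x36066) x35418) x35526) x35598) x35574) x35578) (Nat.mul x35580 (nat_lit 2))) x15898)
    (Nat.sub (Nat.sub (Nat.add (Nat.add (Nat.add (Nat.add (Nat.add (Nat.add (Nat.add (Nat.add (Nat.add C x48710) x31214) x34130) x36074) x35426) x35534) x35642) x35570) x35590) x35588) x55270)
    (Nat.sub (Nat.sub (Nat.sub (Nat.add (Nat.add (Nat.add (Nat.add (Nat.add (Nat.add (Nat.add (Nat.add (Nat.add (Nat.add (Nat.add C x48712) x31216) x34132) x36076) x35428) x35536) x35644) x35572) x35596) x35588) x35592) x35590) x55272) x15908)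
    (Nat.sub (Nat.sub (Nat.add (Nat.add (Nat.add (Nat.add (Nat.add (Nat.add (Nat.add (Nat.add (Nat.add (Nat.add C x48714) x31218) x34134) x36078) x35430) x35538) x35646) x35574) x35598) x35590) (Nat.mul x35592 (nat_lit 3))) x15910)
    (Nat.sub (Nat.sub (Nat.sub (Nat.add (Nat.add (Nat.add (Nat.add (Nat.add (Nat.add (Nat.add (Nat.add (Nat.add (Nat.add (Nat.add C x48718) x31222) x34138) x36082) x35434) x35542) x35650) x35578) x35614) x35590) x35598) x35596) x55278) x15914)
    (Nat.sub (Nat.sub (Nat.add (Nat.add (Nat.add (Nat.add (Nat.add (Nat.add (Nat.add (Nat.add (Nat.add (Nat.add (Nat.add (Nat.add C x48720) x31224) x34140) x36084) x35436) x35544) x35652) x35580) x35616) x35592) x35604) x35596) x35598) x15916)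
    (Nat.sub (Nat.sub (Nat.add (Nat.add (Nat.add (Nat.add (Nat.add (Nat.add (Nat.add (Nat.add (Nat.add C x48726) x31230) x34146) x36090) x35442) x35550) x35658) x35622) x35598) x35604) x15922)
    (Nat.sub (Nat.sub (Nat.sub (Nat.add (Nat.add (Nat.add (Nat.add (Nat.add (Nat.add (Nat.add (Nat.add C x48736) x31240) x34156) x36100) x35452) x35668) x35596) x35616) x35614) x55296) x15932)
    (Nat.sub (Nat.sub (Nat.add (Nat.add (Nat.add (Nat.add (Nat.add (Nat.add (Nat.add (Nat.add (Nat.add C x48738) x31242) x34158) x36102) x35454) x35670) x35598) x35622) x35614) (Nat.mul x35616 (nat_lit 2))) x15934)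
    (Nat.sub (Nat.add (Nat.add (Nat.add (Nat.add (Nat.add (Nat.add (Nat.add (Nat.add C x48744) x31248) x34164) x36108) x35460) x35676) x35604) x35616) x15940)
    (Nat.sub (Nat.add (Nat.add (Nat.add (Nat.add (Nat.add (Nat.add C x48764) x31268) x34184) x36128) x35588) x35644) x55324)
    (Nat.sub (Nat.sub (Nat.add (Nat.add (Nat.add (Nat.add (Nat.add (Nat.add (Nat.add (Nat.add C x48766) x31270) x34186) x36130) x35590) x35650) x35642) x35646) x55326) x15962)
    (Nat.sub (Nat.sub (Nat.add (Nat.add (Nat.add (Nat.add (Nat.add (Nat.add (Nat.add C x48768) x31272) x34188) x36132) x35592) x35652) x35644) (Nat.mul x35646 (nat_lit 2))) x15964)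
    (Nat.sub (Nat.sub (Nat.sub (Nat.add (Nat.add (Nat.add (Nat.add (Nat.add (Nat.add (Nat.add (Nat.add C x48772) x31276) x34192) x36136) x35596) x35668) x35644) x35652) x35650) x55332) x15968)
    (Nat.sub (Nat.sub (Nat.add (Nat.add (Nat.add (Nat.add (Nat.add (Nat.add (Nat.add (Nat.add (Nat.add C x48774) x31278) x34194) x36138) x35598) x35670) x35646) x35658) x35650) x35652) x15970)
    (Nat.sub (Nat.sub (Nat.add (Nat.add (Nat.add (Nat.add (Nat.add (Nat.add (Nat.add C x48780) x31284) x34200) x36144) x35604) x35676) x35652) (Nat.mul x35658 (nat_lit 2))) x15976)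
    (Nat.sub (Nat.sub (Nat.add (Nat.add (Nat.add (Nat.add (Nat.add (Nat.add (Nat.add (Nat.add C x35668) x48790) x31294) x34210) x36154) x35614) x35650) x35670) x55350) x15986)
    (Nat.sub (Nat.add (Nat.add (Nat.add (Nat.add (Nat.add (Nat.add (Nat.add (Nat.add C x48792) x31296) x34212) x36156) x35616) x35652) x35676) x35668) x15988)
    (Nat.sub (Nat.add (Nat.add (Nat.add (Nat.add (Nat.add (Nat.add (Nat.add (Nat.add (Nat.add C x35676) x48798) x31302) x34218) x36162) x35622) x35658) x35694) x35670) x15994)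
    (Nat.sub (Nat.add (Nat.add (Nat.add (Nat.add (Nat.add (Nat.add C (Nat.mul x35694 (nat_lit 2))) x48816) x31320) x34236) x36180) x35676) x16012)
    (Nat.sub (Nat.add (Nat.add (Nat.add (Nat.add (Nat.add (Nat.add (Nat.add (Nat.add C (Nat.mul x35738 (nat_lit 3))) x48860) x31364) x34280) x37196) x35252) x35756) x35744) x55420)
    (Nat.sub (Nat.add (Nat.add (Nat.add (Nat.add (Nat.add (Nat.add (Nat.add (Nat.add (Nat.add C x35744) x48866) x31370) x34286) x37202) x35258) x35762) x35738) x35746) x55426)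
    (Nat.sub (Nat.sub (Nat.add (Nat.add (Nat.add (Nat.add (Nat.add (Nat.add (Nat.add (Nat.add C (Nat.mul x35746 (nat_lit 2))) x48868) x31372) x34288) x37204) x35260) x35764) x35744) x55428) x16064)
    (Nat.sub (Nat.add (Nat.add (Nat.add (Nat.add (Nat.add (Nat.add (Nat.add (Nat.add (Nat.add C x35756) x48878) x31382) x34298) x37214) x35270) x35810) x35738) x35762) x55438)
    (Nat.sub (Nat.add (Nat.add (Nat.add (Nat.add (Nat.add (Nat.add (Nat.add (Nat.add (Nat.add (Nat.add (Nat.add (Nat.add C x35762) x48884) x31388) x34304) x37220) x35276) x35816) x35744) x35780) x35756) x35768) x35764) x55444)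
    (Nat.sub (Nat.sub (Nat.add (Nat.add (Nat.add (Nat.add (Nat.add (Nat.add (Nat.add (Nat.add (Nat.add (Nat.add (Nat.add C x35764) x48886) x31390) x34306) x37222) x35278) x35818) x35746) x35782) x35770) x35762) x55446) x16082)
    (Nat.sub (Nat.sub (Nat.add (Nat.add (Nat.add (Nat.add (Nat.add (Nat.add (Nat.add (Nat.add (Nat.add C x48890) x31394) x34310) x37226) x35282) x35822) x35786) x35762) x35770) x35768) x55450)
    (Nat.sub (Nat.sub (Nat.add (Nat.add (Nat.add (Nat.add (Nat.add (Nat.add (Nat.add (Nat.add (Nat.add (Nat.add (Nat.add C x35770) x48892) x31396) x34312) x37228) x35284) x35824) x35788) x35764) x35768) x35772) x55452) x16088)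
    (Nat.sub (Nat.add (Nat.add (Nat.add (Nat.add (Nat.add (Nat.add (Nat.add (Nat.add (Nat.add C x35772) x48894) x31398) x34314) x37230) x35286) x35826) x35790) x35770) x16090)
    (Nat.sub (Nat.sub (Nat.add (Nat.add (Nat.add (Nat.add (Nat.add (Nat.add (Nat.add (Nat.add (Nat.add C x48902) x31406) x34322) x37238) x35294) x35834) x35762) x35786) x35782) x35780) x55462)
    (Nat.sub (Nat.sub (Nat.sub (Nat.add (Nat.add (Nat.add (Nat.add (Nat.add (Nat.add (Nat.add (Nat.add (Nat.add C x48904) x31408) x34324) x37240) x35296) x35836) x35764) x35788) x35780) (Nat.mul x35782 (nat_lit 2))) x55464) x16100)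
    (Nat.sub (Nat.sub (Nat.add (Nat.add (Nat.add (Nat.add (Nat.add (Nat.add (Nat.add (Nat.add (Nat.add C x48908) x31412) x34328) x37244) x35300) x35840) x35768) x35780) x35788) x35786) x55468)
    (Nat.sub (Nat.sub (Nat.add (Nat.add (Nat.add (Nat.add (Nat.add (Nat.add (Nat.add (Nat.add (Nat.add (Nat.add (Nat.add C x48910) x31414) x34330) x37246) x35302) x35842) x35770) x35782) x35794) x35786) x35790) x55470) x16106)
    (Nat.sub (Nat.sub (Nat.add (Nat.add (Nat.add (Nat.add (Nat.add (Nat.add (Nat.add (Nat.add (Nat.add C x48912) x31416) x34332) x37248) x35304) x35844) x35772) x35796) x35788) x35790) x16108)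
    (Nat.sub (Nat.sub (Nat.add (Nat.add (Nat.add (Nat.add (Nat.add (Nat.add (Nat.add (Nat.add C x48916) x31420) x34336) x37252) x35308) x35848) x35788) x35796) x55476) x16112)
    (Nat.sub (Nat.add (Nat.add (Nat.add (Nat.add (Nat.add (Nat.add (Nat.add (Nat.add (Nat.add C x35796) x48918) x31422) x34338) x37254) x35310) x35850) x35790) x35794) x16114)
    (Nat.sub (Nat.add (Nat.add (Nat.add (Nat.add (Nat.add (Nat.add (Nat.add (Nat.add (Nat.add C x35810) x48932) x31436) x34352) x37268) x35324) x35972) x35756) x35816) x55492)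
    (Nat.sub (Nat.add (Nat.add (Nat.add (Nat.add (Nat.add (Nat.add (Nat.add (Nat.add (Nat.add (Nat.add (Nat.add C x48938) x31442) x34358) x37274) x35330) x35978) x35762) x35834) x35810) x35822) x35818) x55498)
    (Nat.sub (Nat.sub (Nat.add (Nat.add (Nat.add (Nat.add (Nat.add (Nat.add (Nat.add (Nat.add (Nat.add (Nat.add C x48940) x31444) x34360) x37276) x35332) x35980) x35764) x35836) x35824) x35816) x55500) x16136)
    (Nat.sub (Nat.sub (Nat.add (Nat.add (Nat.add (Nat.add (Nat.add (Nat.add (Nat.add (Nat.add (Nat.add (Nat.add C x48944) x31448) x34364) x37280) x35336) x35984) x35768) x35840) x35816) x35824) (Nat.mul x35822 (nat_lit 3))) x55504)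
    (Nat.sub (Nat.sub (Nat.sub (Nat.add (Nat.add (Nat.add (Nat.add (Nat.add (Nat.add (Nat.add (Nat.add (Nat.add (Nat.add (Nat.add C x48946) x31450) x34366) x37282) x35338) x35986) x35770) x35842) x35818) x35822) x35826) x35824) x55506) x16142)
    (Nat.sub (Nat.sub (Nat.add (Nat.add (Nat.add (Nat.add (Nat.add (Nat.add (Nat.add (Nat.add (Nat.add C x48948) x31452) x34368) x37284) x35340) x35988) x35772) x35844) x35824) x35826) x16144)
    (Nat.sub (Nat.add (Nat.add (Nat.add (Nat.add (Nat.add (Nat.add (Nat.add (Nat.add (Nat.add (Nat.add (Nat.add C x48956) x31460) x34376) x37292) x35348) x35996) x35780) x35888) x35816) x35840) x35836) x55516)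
    (Nat.sub (Nat.sub (Nat.sub (Nat.add (Nat.add (Nat.add (Nat.add (Nat.add (Nat.add (Nat.add (Nat.add (Nat.add (Nat.add (Nat.add C x48958) x31462) x34378) x37294) x35350) x35998) x35782) x35890) x35818) x35842) x35834) x35836) x55518) x16154)
    (Nat.sub (Nat.sub (Nat.add (Nat.add (Nat.add (Nat.add (Nat.add (Nat.add (Nat.add (Nat.add (Nat.add (Nat.add (Nat.add (Nat.add C x48962) x31466) x34382) x37298) x35354) x36002) x35786) x35894) x35822) x35858) x35834) x35842) x35840) x55522)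
    (Nat.sub (Nat.sub (Nat.add (Nat.add (Nat.add (Nat.add (Nat.add (Nat.add (Nat.add (Nat.add (Nat.add (Nat.add (Nat.add (Nat.add (Nat.add (Nat.add C x48964) x31468) x34384) x37300) x35356) x36004) x35788) x35896) x35824) x35860) x35836) x35848) x35840) x35844) x55524) x16160)
    (Nat.sub (Nat.sub (Nat.add (Nat.add (Nat.add (Nat.add (Nat.add (Nat.add (Nat.add (Nat.add (Nat.add (Nat.add (Nat.add (Nat.add C x48966) x31470) x34386) x37302) x35358) x36006) x35790) x35898) x35826) x35862) x35850) x35842) x35844) x16162)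
    (Nat.sub (Nat.sub (Nat.sub (Nat.add (Nat.add (Nat.add (Nat.add (Nat.add (Nat.add (Nat.add (Nat.add (Nat.add (Nat.add (Nat.add C x48970) x31474) x34390) x37306) x35362) x36010) x35794) x35902) x35866) x35842) x35850) x35848) x55530) x16166)
    (Nat.sub (Nat.add (Nat.add (Nat.add (Nat.add (Nat.add (Nat.add (Nat.add (Nat.add (Nat.add (Nat.add (Nat.add C x48972) x31476) x34392) x37308) x35364) x36012) x35796) x35904) x35868) x35844) x35848) x16168)
    (Nat.sub (Nat.sub (Nat.add (Nat.add (Nat.add (Nat.add (Nat.add (Nat.add (Nat.add (Nat.add (Nat.add C x48980) x31484) x34400) x37316) x35372) x36020) x35912) x35840) x35860) x35858) x55540)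
    (Nat.sub (Nat.sub (Nat.sub (Nat.add (Nat.add (Nat.add (Nat.add (Nat.add (Nat.add (Nat.add (Nat.add (Nat.add (Nat.add (Nat.add C x48982) x31486) x34402) x37318) x35374) x36022) x35914) x35842) x35866) x35858) x35862) x35860) x55542) x16178)
    (Nat.sub (Nat.sub (Nat.add (Nat.add (Nat.add (Nat.add (Nat.add (Nat.add (Nat.add (Nat.add (Nat.add (Nat.add C x48984) x31488) x34404) x37320) x35376) x36024) x35916) x35844) x35868) x35860) (Nat.mul x35862 (nat_lit 3))) x16180)
    (Nat.sub (Nat.sub (Nat.add (Nat.add (Nat.add (Nat.add (Nat.add (Nat.add (Nat.add (Nat.add (Nat.add (Nat.add C x48988) x31492) x34408) x37324) x35380) x36028) x35920) x35848) x35860) x35868) x55548) x16184)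
    (Nat.sub (Nat.add (Nat.add (Nat.add (Nat.add (Nat.add (Nat.add (Nat.add (Nat.add (Nat.add (Nat.add (Nat.add C x48990) x31494) x34410) x37326) x35382) x36030) x35922) x35850) x35862) x35874) x35866) x16186)
    (Nat.sub (Nat.add (Nat.add (Nat.add (Nat.add (Nat.add (Nat.add (Nat.add (Nat.add (Nat.add C x35874) x48996) x31500) x34416) x37332) x35388) x36036) x35928) x35868) x16192)
    (Nat.sub (Nat.sub (Nat.add (Nat.add (Nat.add (Nat.add (Nat.add (Nat.add (Nat.add (Nat.add (Nat.add C x49010) x31514) x34430) x37346) x35402) x36050) x35834) x35894) x35890) x35888) x55570)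
    (Nat.sub (Nat.sub (Nat.sub (Nat.add (Nat.add (Nat.add (Nat.add (Nat.add (Nat.add (Nat.add (Nat.add (Nat.add C x49012) x31516) x34432) x37348) x35404) x36052) x35836) x35896) x35888) (Nat.mul x35890 (nat_lit 2))) x55572) x16208)
    (Nat.sub (Nat.sub (Nat.add (Nat.add (Nat.add (Nat.add (Nat.add (Nat.add (Nat.add (Nat.add (Nat.add (Nat.add C x49016) x31520) x34436) x37352) x35408) x36056) x35840) x35912) x35888) x35896) (Nat.mul x35894 (nat_lit 3))) x55576)
    (Nat.sub (Nat.sub (Nat.sub (Nat.add (Nat.add (Nat.add (Nat.add (Nat.add (Nat.add (Nat.add (Nat.add (Nat.add (Nat.add (Nat.add (Nat.add C x49018) x31522) x34438) x37354) x35410) x36058) x35842) x35914) x35890) x35902) x35894) x35898) (Nat.mul x35896 (nat_lit 2))) x55578) x16214)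
    (Nat.sub (Nat.sub (Nat.add (Nat.add (Nat.add (Nat.add (Nat.add (Nat.add (Nat.add (Nat.add (Nat.add (Nat.add C x49020) x31524) x34440) x37356) x35412) x36060) x35844) x35916) x35904) x35896) (Nat.mul x35898 (nat_lit 3))) x16216)
    (Nat.sub (Nat.sub (Nat.sub (Nat.add (Nat.add (Nat.add (Nat.add (Nat.add (Nat.add (Nat.add (Nat.add (Nat.add (Nat.add C x49024) x31528) x34444) x37360) x35416) x36064) x35848) x35920) x35896) x35904) (Nat.mul x35902 (nat_lit 4))) x55584) x16220)
    (Nat.sub (Nat.sub (Nat.add (Nat.add (Nat.add (Nat.add (Nat.add (Nat.add (Nat.add (Nat.add (Nat.add (Nat.add C x49026) x31530) x34446) x37362) x35418) x36066) x35850) x35922) x35898) x35902) (Nat.mul x35904 (nat_lit 3))) x16222)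
    (Nat.sub (Nat.sub (Nat.add (Nat.add (Nat.add (Nat.add (Nat.add (Nat.add (Nat.add (Nat.add (Nat.add C x49034) x31538) x34454) x37370) x35426) x36074) x35858) x35894) x35914) x35912) x55594)
    (Nat.sub (Nat.sub (Nat.sub (Nat.add (Nat.add (Nat.add (Nat.add (Nat.add (Nat.add (Nat.add (Nat.add (Nat.add (Nat.add (Nat.add C x49036) x31540) x34456) x37372) x35428) x36076) x35860) x35896) x35920) x35912) x35916) x35914) x55596) x16232)
    (Nat.sub (Nat.sub (Nat.add (Nat.add (Nat.add (Nat.add (Nat.add (Nat.add (Nat.add (Nat.add (Nat.add (Nat.add C x49038) x31542) x34458) x37374) x35430) x36078) x35862) x35898) x35922) x35914) (Nat.mul x35916 (nat_lit 3))) x16234)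
    (Nat.sub (Nat.sub (Nat.sub (Nat.add (Nat.add (Nat.add (Nat.add (Nat.add (Nat.add (Nat.add (Nat.add (Nat.add (Nat.add (Nat.add C x49042) x31546) x34462) x37378) x35434) x36082) x35866) x35902) x35938) x35914) x35922) x35920) x55602) x16238)
    (Nat.sub (Nat.sub (Nat.add (Nat.add (Nat.add (Nat.add (Nat.add (Nat.add (Nat.add (Nat.add (Nat.add (Nat.add (Nat.add (Nat.add C x49044) x31548) x34464) x37380) x35436) x36084) x35868) x35904) x35940) x35916) x35928) x35920) x35922) x16240)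
    (Nat.sub (Nat.sub (Nat.add (Nat.add (Nat.add (Nat.add (Nat.add (Nat.add (Nat.add (Nat.add (Nat.add C x49050) x31554) x34470) x37386) x35442) x36090) x35874) x35946) x35922) x35928) x16246)
    (Nat.sub (Nat.sub (Nat.add (Nat.add (Nat.add (Nat.add (Nat.add (Nat.add (Nat.add (Nat.add C x49060) x31564) x34480) x37396) x35452) x36100) x35920) x35940) x55620) x16256)
    (Nat.sub (Nat.sub (Nat.add (Nat.add (Nat.add (Nat.add (Nat.add (Nat.add (Nat.add (Nat.add (Nat.add C x49062) x31566) x34482) x37398) x35454) x36102) x35922) x35946) x35938) x35940) x16258)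
    (Nat.sub (Nat.add (Nat.add (Nat.add (Nat.add (Nat.add (Nat.add (Nat.add (Nat.add (Nat.add C x35946) x49068) x31572) x34488) x37404) x35460) x36108) x35928) x35940) x16264)
    (Nat.sub (Nat.add (Nat.add (Nat.add (Nat.add (Nat.add (Nat.add (Nat.add (Nat.add (Nat.add C (Nat.mul x35972 (nat_lit 2))) x49094) x31598) x34514) x37430) x35486) x36458) x35810) x35978) x55654)
    (Nat.sub (Nat.add (Nat.add (Nat.add (Nat.add (Nat.add (Nat.add (Nat.add (Nat.add (Nat.add (Nat.add (Nat.add (Nat.add C x35978) x49100) x31604) x34520) x37436) x35492) x36464) x35816) x35996) x35972) x35984) x35980) x55660)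
    (Nat.sub (Nat.sub (Nat.add (Nat.add (Nat.add (Nat.add (Nat.add (Nat.add (Nat.add (Nat.add (Nat.add (Nat.add (Nat.add C x35980) x49102) x31606) x34522) x37438) x35494) x36466) x35818) x35998) x35986) x35978) x55662) x16298)
    (Nat.sub (Nat.sub (Nat.add (Nat.add (Nat.add (Nat.add (Nat.add (Nat.add (Nat.add (Nat.add (Nat.add (Nat.add C x49106) x31610) x34526) x37442) x35498) x36470) x35822) x36002) x35978) x35986) (Nat.mul x35984 (nat_lit 2))) x55666)
    (Nat.sub (Nat.sub (Nat.add (Nat.add (Nat.add (Nat.add (Nat.add (Nat.add (Nat.add (Nat.add (Nat.add (Nat.add (Nat.add C x49108) x31612) x34528) x37444) x35500) x36472) x35824) x36004) x35980) x35984) x35988) x55668) x16304)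
    (Nat.sub (Nat.add (Nat.add (Nat.add (Nat.add (Nat.add (Nat.add (Nat.add (Nat.add (Nat.add C x49110) x31614) x34530) x37446) x35502) x36474) x35826) x36006) x35986) x16306)
    (Nat.sub (Nat.add (Nat.add (Nat.add (Nat.add (Nat.add (Nat.add (Nat.add (Nat.add (Nat.add (Nat.add (Nat.add C x49118) x31622) x34538) x37454) x35510) x36482) x35834) x36050) x35978) x36002) x35998) x55678)
    (Nat.sub (Nat.sub (Nat.sub (Nat.add (Nat.add (Nat.add (Nat.add (Nat.add (Nat.add (Nat.add (Nat.add (Nat.add (Nat.add (Nat.add C x49120) x31624) x34540) x37456) x35512) x36484) x35836) x36052) x35980) x36004) x35996) x35998) x55680) x16316)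
    (Nat.sub (Nat.sub (Nat.add (Nat.add (Nat.add (Nat.add (Nat.add (Nat.add (Nat.add (Nat.add (Nat.add (Nat.add (Nat.add (Nat.add C x49124) x31628) x34544) x37460) x35516) x36488) x35840) x36056) x35984) x36020) x35996) x36004) x36002) x55684)
    (Nat.sub (Nat.sub (Nat.add (Nat.add (Nat.add (Nat.add (Nat.add (Nat.add (Nat.add (Nat.add (Nat.add (Nat.add (Nat.add (Nat.add (Nat.add (Nat.add C x49126) x31630) x34546) x37462) x35518) x36490) x35842) x36058) x35986) x36022) x35998) x36010) x36002) x36006) x55686) x16322)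
    (Nat.sub (Nat.sub (Nat.add (Nat.add (Nat.add (Nat.add (Nat.add (Nat.add (Nat.add (Nat.add (Nat.add (Nat.add (Nat.add (Nat.add C x49128) x31632) x34548) x37464) x35520) x36492) x35844) x36060) x35988) x36024) x36012) x36004) x36006) x16324)
    (Nat.sub (Nat.sub (Nat.sub (Nat.add (Nat.add (Nat.add (Nat.add (Nat.add (Nat.add (Nat.add (Nat.add (Nat.add (Nat.add (Nat.add C x49132) x31636) x34552) x37468) x35524) x36496) x35848) x36064) x36028) x36004) x36012) x36010) x55692) x16328)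
    (Nat.sub (Nat.add (Nat.add (Nat.add (Nat.add (Nat.add (Nat.add (Nat.add (Nat.add (Nat.add (Nat.add (Nat.add C x49134) x31638) x34554) x37470) x35526) x36498) x35850) x36066) x36030) x36006) x36010) x16330)
    (Nat.sub (Nat.sub (Nat.add (Nat.add (Nat.add (Nat.add (Nat.add (Nat.add (Nat.add (Nat.add (Nat.add (Nat.add C x49142) x31646) x34562) x37478) x35534) x36506) x35858) x36074) x36002) x36022) (Nat.mul x36020 (nat_lit 2))) x55702)
    (Nat.sub (Nat.sub (Nat.sub (Nat.add (Nat.add (Nat.add (Nat.add (Nat.add (Nat.add (Nat.add (Nat.add (Nat.add (Nat.add (Nat.add (Nat.add C x49144) x31648) x34564) x37480) x35536) x36508) x35860) x36076) x36004) x36028) x36020) x36024) (Nat.mul x36022 (nat_lit 2))) x55704) x16340)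
    (Nat.sub (Nat.sub (Nat.add (Nat.add (Nat.add (Nat.add (Nat.add (Nat.add (Nat.add (Nat.add (Nat.add (Nat.add (Nat.add C x49146) x31650) x34566) x37482) x35538) x36510) x35862) x36078) x36006) x36030) x36022) (Nat.mul x36024 (nat_lit 4))) x16342)
    (Nat.sub (Nat.sub (Nat.sub (Nat.add (Nat.add (Nat.add (Nat.add (Nat.add (Nat.add (Nat.add (Nat.add (Nat.add (Nat.add (Nat.add C x49150) x31654) x34570) x37486) x35542) x36514) x35866) x36082) x36010) x36022) x36030) x36028) x55710) x16346)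
    (Nat.sub (Nat.sub (Nat.add (Nat.add (Nat.add (Nat.add (Nat.add (Nat.add (Nat.add (Nat.add (Nat.add (Nat.add (Nat.add (Nat.add C x49152) x31656) x34572) x37488) x35544) x36516) x35868) x36084) x36012) x36024) x36036) x36028) x36030) x16348)
    (Nat.sub (Nat.add (Nat.add (Nat.add (Nat.add (Nat.add (Nat.add (Nat.add (Nat.add (Nat.add C x49158) x31662) x34578) x37494) x35550) x36522) x35874) x36090) x36030) x16354)
    (Nat.sub (Nat.add (Nat.add (Nat.add (Nat.add (Nat.add (Nat.add (Nat.add (Nat.add (Nat.add (Nat.add (Nat.add (Nat.add C x36050) x49172) x31676) x34592) x37508) x35564) x36536) x35888) x36212) x35996) x36056) x36052) x55732)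
    (Nat.sub (Nat.sub (Nat.add (Nat.add (Nat.add (Nat.add (Nat.add (Nat.add (Nat.add (Nat.add (Nat.add (Nat.add (Nat.add C x49174) x31678) x34594) x37510) x35566) x36538) x35890) x36214) x35998) x36058) x36050) x55734) x16370)
    (Nat.sub (Nat.sub (Nat.add (Nat.add (Nat.add (Nat.add (Nat.add (Nat.add (Nat.add (Nat.add (Nat.add (Nat.add (Nat.add (Nat.add C x49178) x31682) x34598) x37514) x35570) x36542) x35894) x36218) x36002) x36074) x36050) x36058) x36056) x55738)
    (Nat.sub (Nat.sub (Nat.add (Nat.add (Nat.add (Nat.add (Nat.add (Nat.add (Nat.add (Nat.add (Nat.add (Nat.add (Nat.add (Nat.add (Nat.add (Nat.add C x49180) x31684) x34600) x37516) x35572) x36544) x35896) x36220) x36004) x36076) x36052) x36064) x36056) x36060) x55740) x16376)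
    (Nat.sub (Nat.sub (Nat.add (Nat.add (Nat.add (Nat.add (Nat.add (Nat.add (Nat.add (Nat.add (Nat.add (Nat.add (Nat.add (Nat.add C x49182) x31686) x34602) x37518) x35574) x36546) x35898) x36222) x36006) x36078) x36066) x36058) x36060) x16378)
    (Nat.sub (Nat.sub (Nat.sub (Nat.add (Nat.add (Nat.add (Nat.add (Nat.add (Nat.add (Nat.add (Nat.add (Nat.add (Nat.add (Nat.add (Nat.add C x49186) x31690) x34606) x37522) x35578) x36550) x35902) x36226) x36010) x36082) x36058) x36066) (Nat.mul x36064 (nat_lit 2))) x55746) x16382)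
    (Nat.sub (Nat.sub (Nat.add (Nat.add (Nat.add (Nat.add (Nat.add (Nat.add (Nat.add (Nat.add (Nat.add (Nat.add (Nat.add (Nat.add C x49188) x31692) x34608) x37524) x35580) x36552) x35904) x36228) x36012) x36084) x36060) x36064) x36066) x16384)
    (Nat.sub (Nat.add (Nat.add (Nat.add (Nat.add (Nat.add (Nat.add (Nat.add (Nat.add (Nat.add (Nat.add (Nat.add (Nat.add C x49196) x31700) x34616) x37532) x35588) x36560) x35912) x36236) x36020) x36128) x36056) x36076) x55756)
    (Nat.sub (Nat.sub (Nat.add (Nat.add (Nat.add (Nat.add (Nat.add (Nat.add (Nat.add (Nat.add (Nat.add (Nat.add (Nat.add (Nat.add (Nat.add (Nat.add C x49198) x31702) x34618) x37534) x35590) x36562) x35914) x36238) x36022) x36130) x36058) x36082) x36074) x36078) x55758) x16394)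
    (Nat.sub (Nat.sub (Nat.add (Nat.add (Nat.add (Nat.add (Nat.add (Nat.add (Nat.add (Nat.add (Nat.add (Nat.add (Nat.add (Nat.add (Nat.add C x49200) x31704) x34620) x37536) x35592) x36564) x35916) x36240) x36024) x36132) x36060) x36084) x36076) (Nat.mul x36078 (nat_lit 2))) x16396)
    (Nat.sub (Nat.sub (Nat.add (Nat.add (Nat.add (Nat.add (Nat.add (Nat.add (Nat.add (Nat.add (Nat.add (Nat.add (Nat.add (Nat.add (Nat.add (Nat.add C x49204) x31708) x34624) x37540) x35596) x36568) x35920) x36244) x36028) x36136) x36064) x36100) x36076) x36084) x55764) x16400)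
    (Nat.sub (Nat.add (Nat.add (Nat.add (Nat.add (Nat.add (Nat.add (Nat.add (Nat.add (Nat.add (Nat.add (Nat.add (Nat.add (Nat.add (Nat.add (Nat.add C x49206) x31710) x34626) x37542) x35598) x36570) x35922) x36246) x36030) x36138) x36066) x36102) x36078) x36090) x36082) x16402)
    (Nat.sub (Nat.add (Nat.add (Nat.add (Nat.add (Nat.add (Nat.add (Nat.add (Nat.add (Nat.add (Nat.add (Nat.add (Nat.add C x49212) x31716) x34632) x37548) x35604) x36576) x35928) x36252) x36036) x36144) x36108) x36084) x16408)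
    (Nat.sub (Nat.sub (Nat.add (Nat.add (Nat.add (Nat.add (Nat.add (Nat.add (Nat.add (Nat.add (Nat.add (Nat.add (Nat.add C x49222) x31726) x34642) x37558) x35614) x36586) x35938) x36262) x36154) x36082) x36102) x55782) x16418)
    (Nat.sub (Nat.sub (Nat.add (Nat.add (Nat.add (Nat.add (Nat.add (Nat.add (Nat.add (Nat.add (Nat.add (Nat.add (Nat.add (Nat.add C x49224) x31728) x34644) x37560) x35616) x36588) x35940) x36264) x36156) x36084) x36108) x36100) x36102) x16420)
    (Nat.sub (Nat.add (Nat.add (Nat.add (Nat.add (Nat.add (Nat.add (Nat.add (Nat.add (Nat.add (Nat.add (Nat.add (Nat.add C x36108) x49230) x31734) x34650) x37566) x35622) x36594) x35946) x36270) x36162) x36090) x36102) x16426)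
    (Nat.sub (Nat.add (Nat.add (Nat.add (Nat.add (Nat.add (Nat.add (Nat.add (Nat.add (Nat.add C x49250) x31754) x34670) x37586) x35642) x36614) x36290) x36074) x36130) x55810)
    (Nat.sub (Nat.sub (Nat.add (Nat.add (Nat.add (Nat.add (Nat.add (Nat.add (Nat.add (Nat.add (Nat.add (Nat.add (Nat.add C x49252) x31756) x34672) x37588) x35644) x36616) x36292) x36076) x36136) x36128) x36132) x55812) x16448)
    (Nat.sub (Nat.sub (Nat.add (Nat.add (Nat.add (Nat.add (Nat.add (Nat.add (Nat.add (Nat.add (Nat.add (Nat.add C x49254) x31758) x34674) x37590) x35646) x36618) x36294) x36078) x36138) x36130) (Nat.mul x36132 (nat_lit 2))) x16450)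
    (Nat.sub (Nat.sub (Nat.sub (Nat.add (Nat.add (Nat.add (Nat.add (Nat.add (Nat.add (Nat.add (Nat.add (Nat.add (Nat.add (Nat.add C x49258) x31762) x34678) x37594) x35650) x36622) x36298) x36082) x36154) x36130) x36138) x36136) x55818) x16454)
    (Nat.sub (Nat.sub (Nat.add (Nat.add (Nat.add (Nat.add (Nat.add (Nat.add (Nat.add (Nat.add (Nat.add (Nat.add (Nat.add (Nat.add C x49260) x31764) x34680) x37596) x35652) x36624) x36300) x36084) x36156) x36132) x36144) x36136) x36138) x16456)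
    (Nat.sub (Nat.sub (Nat.add (Nat.add (Nat.add (Nat.add (Nat.add (Nat.add (Nat.add (Nat.add (Nat.add (Nat.add C x49266) x31770) x34686) x37602) x35658) x36630) x36306) x36090) x36162) x36138) (Nat.mul x36144 (nat_lit 2))) x16462)
    (Nat.sub (Nat.sub (Nat.add (Nat.add (Nat.add (Nat.add (Nat.add (Nat.add (Nat.add (Nat.add (Nat.add (Nat.add (Nat.add C x36154) x49276) x31780) x34696) x37612) x35668) x36640) x36316) x36100) x36136) x36156) x55836) x16472)
    (Nat.sub (Nat.add (Nat.add (Nat.add (Nat.add (Nat.add (Nat.add (Nat.add (Nat.add (Nat.add (Nat.add (Nat.add C x49278) x31782) x34698) x37614) x35670) x36642) x36318) x36102) x36138) x36162) x36154) x16474)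
    (Nat.sub (Nat.add (Nat.add (Nat.add (Nat.add (Nat.add (Nat.add (Nat.add (Nat.add (Nat.add (Nat.add (Nat.add (Nat.add C x36162) x49284) x31788) x34704) x37620) x35676) x36648) x36324) x36108) x36144) x36180) x36156) x16480)
    (Nat.sub (Nat.add (Nat.add (Nat.add (Nat.add (Nat.add (Nat.add (Nat.add (Nat.add (Nat.add C (Nat.mul x36180 (nat_lit 2))) x49302) x31806) x34722) x37638) x35694) x36666) x36342) x36162) x16498)
    (Nat.sub (Nat.add (Nat.add (Nat.add (Nat.add (Nat.add (Nat.add (Nat.add (Nat.add (Nat.add C x36212) x49334) x31838) x34754) x37670) x36698) x36050) x36218) x36214) x55894)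
    (Nat.sub (Nat.sub (Nat.add (Nat.add (Nat.add (Nat.add (Nat.add (Nat.add (Nat.add (Nat.add C x49336) x31840) x34756) x37672) x36700) x36052) x36220) x36212) x55896) x16532)
    (Nat.sub (Nat.sub (Nat.add (Nat.add (Nat.add (Nat.add (Nat.add (Nat.add (Nat.add (Nat.add (Nat.add C x49340) x31844) x34760) x37676) x36704) x36056) x36236) x36212) x36220) x36218) x55900)
    (Nat.sub (Nat.sub (Nat.add (Nat.add (Nat.add (Nat.add (Nat.add (Nat.add (Nat.add (Nat.add (Nat.add (Nat.add (Nat.add C x49342) x31846) x34762) x37678) x36706) x36058) x36238) x36214) x36226) x36218) x36222) x55902) x16538)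
    (Nat.sub (Nat.sub (Nat.add (Nat.add (Nat.add (Nat.add (Nat.add (Nat.add (Nat.add (Nat.add (Nat.add C x49344) x31848) x34764) x37680) x36708) x36060) x36240) x36228) x36220) x36222) x16540)
    (Nat.sub (Nat.sub (Nat.sub (Nat.add (Nat.add (Nat.add (Nat.add (Nat.add (Nat.add (Nat.add (Nat.add (Nat.add C x49348) x31852) x34768) x37684) x36712) x36064) x36244) x36220) x36228) (Nat.mul x36226 (nat_lit 2))) x55908) x16544)
    (Nat.sub (Nat.sub (Nat.add (Nat.add (Nat.add (Nat.add (Nat.add (Nat.add (Nat.add (Nat.add (Nat.add C x49350) x31854) x34770) x37686) x36714) x36066) x36246) x36222) x36226) x36228) x16546)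
    (Nat.sub (Nat.sub (Nat.add (Nat.add (Nat.add (Nat.add (Nat.add (Nat.add (Nat.add (Nat.add (Nat.add C x49358) x31862) x34778) x37694) x36722) x36074) x36290) x36218) x36238) x36236) x55918)
    (Nat.sub (Nat.sub (Nat.sub (Nat.add (Nat.add (Nat.add (Nat.add (Nat.add (Nat.add (Nat.add (Nat.add (Nat.add (Nat.add (Nat.add C x49360) x31864) x34780) x37696) x36724) x36076) x36292) x36220) x36244) x36236) x36240) x36238) x55920) x16556)
    (Nat.sub (Nat.sub (Nat.add (Nat.add (Nat.add (Nat.add (Nat.add (Nat.add (Nat.add (Nat.add (Nat.add (Nat.add C x49362) x31866) x34782) x37698) x36726) x36078) x36294) x36222) x36246) x36238) (Nat.mul x36240 (nat_lit 3))) x16558)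
    (Nat.sub (Nat.sub (Nat.sub (Nat.add (Nat.add (Nat.add (Nat.add (Nat.add (Nat.add (Nat.add (Nat.add (Nat.add (Nat.add (Nat.add C x49366) x31870) x34786) x37702) x36730) x36082) x36298) x36226) x36262) x36238) x36246) x36244) x55926) x16562)
    (Nat.sub (Nat.sub (Nat.add (Nat.add (Nat.add (Nat.add (Nat.add (Nat.add (Nat.add (Nat.add (Nat.add (Nat.add (Nat.add (Nat.add C x49368) x31872) x34788) x37704) x36732) x36084) x36300) x36228) x36264) x36240) x36252) x36244) x36246) x16564)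
    (Nat.sub (Nat.sub (Nat.add (Nat.add (Nat.add (Nat.add (Nat.add (Nat.add (Nat.add (Nat.add (Nat.add C x49374) x31878) x34794) x37710) x36738) x36090) x36306) x36270) x36246) x36252) x16570)
    (Nat.sub (Nat.sub (Nat.sub (Nat.add (Nat.add (Nat.add (Nat.add (Nat.add (Nat.add (Nat.add (Nat.add (Nat.add C x49384) x31888) x34804) x37720) x36748) x36100) x36316) x36244) x36264) (Nat.mul x36262 (nat_lit 2))) x55944) x16580)
    (Nat.sub (Nat.sub (Nat.add (Nat.add (Nat.add (Nat.add (Nat.add (Nat.add (Nat.add (Nat.add (Nat.add (Nat.add C x49386) x31890) x34806) x37722) x36750) x36102) x36318) x36246) x36270) x36262) (Nat.mul x36264 (nat_lit 3))) x16582)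
    (Nat.sub (Nat.sub (Nat.add (Nat.add (Nat.add (Nat.add (Nat.add (Nat.add (Nat.add (Nat.add (Nat.add C x49392) x31896) x34812) x37728) x36756) x36108) x36324) x36252) x36264) x36270) x16588)
    (Nat.sub (Nat.add (Nat.add (Nat.add (Nat.add (Nat.add (Nat.add (Nat.add (Nat.add (Nat.add C x36290) x49412) x31916) x34832) x37748) x36776) x36128) x36236) x36292) x55972)
    (Nat.sub (Nat.sub (Nat.add (Nat.add (Nat.add (Nat.add (Nat.add (Nat.add (Nat.add (Nat.add (Nat.add (Nat.add (Nat.add C x36292) x49414) x31918) x34834) x37750) x36778) x36130) x36238) x36298) x36290) x36294) x55974) x16610)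
    (Nat.sub (Nat.sub (Nat.add (Nat.add (Nat.add (Nat.add (Nat.add (Nat.add (Nat.add (Nat.add (Nat.add C x49416) x31920) x34836) x37752) x36780) x36132) x36240) x36300) x36292) x36294) x16612)
    (Nat.sub (Nat.sub (Nat.add (Nat.add (Nat.add (Nat.add (Nat.add (Nat.add (Nat.add (Nat.add (Nat.add (Nat.add C x49420) x31924) x34840) x37756) x36784) x36136) x36244) x36316) x36292) x36300) x55980) x16616)
    (Nat.sub (Nat.add (Nat.add (Nat.add (Nat.add (Nat.add (Nat.add (Nat.add (Nat.add (Nat.add (Nat.add (Nat.add C x49422) x31926) x34842) x37758) x36786) x36138) x36246) x36318) x36294) x36306) x36298) x16618)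
    (Nat.sub (Nat.sub (Nat.add (Nat.add (Nat.add (Nat.add (Nat.add (Nat.add (Nat.add (Nat.add (Nat.add C x49428) x31932) x34848) x37764) x36792) x36144) x36252) x36324) x36300) x36306) x16624)
    (Nat.sub (Nat.sub (Nat.add (Nat.add (Nat.add (Nat.add (Nat.add (Nat.add (Nat.add (Nat.add (Nat.add (Nat.add (Nat.add C x36316) x49438) x31942) x34858) x37774) x36802) x36154) x36262) x36370) x36298) x36318) x55998) x16634)
    (Nat.sub (Nat.add (Nat.add (Nat.add (Nat.add (Nat.add (Nat.add (Nat.add (Nat.add (Nat.add (Nat.add (Nat.add C x49440) x31944) x34860) x37776) x36804) x36156) x36264) x36372) x36300) x36324) x36316) x16636)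
    (Nat.sub (Nat.add (Nat.add (Nat.add (Nat.add (Nat.add (Nat.add (Nat.add (Nat.add (Nat.add (Nat.add (Nat.add (Nat.add C x36324) x49446) x31950) x34866) x37782) x36810) x36162) x36270) x36378) x36306) x36342) x36318) x16642)
    (Nat.sub (Nat.add (Nat.add (Nat.add (Nat.add (Nat.add (Nat.add (Nat.add (Nat.add (Nat.add C x36342) x49464) x31968) x34884) x37800) x36828) x36180) x36396) x36324) x16660)
    (Nat.sub (Nat.sub (Nat.add (Nat.add (Nat.add (Nat.add (Nat.add (Nat.add (Nat.add (Nat.add C (Nat.mul x36370 (nat_lit 2))) x49492) x31996) x34912) x37828) x36856) x36316) x36372) x56052) x16688)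
    (Nat.sub (Nat.add (Nat.add (Nat.add (Nat.add (Nat.add (Nat.add (Nat.add (Nat.add (Nat.add C x36372) x49494) x31998) x34914) x37830) x36858) x36318) x36378) x36370) x16690)
    (Nat.sub (Nat.add (Nat.add (Nat.add (Nat.add (Nat.add (Nat.add (Nat.add (Nat.add (Nat.add C x36378) x49500) x32004) x34920) x37836) x36864) x36324) x36396) x36372) x16696)
    (Nat.sub (Nat.add (Nat.add (Nat.add (Nat.add (Nat.add (Nat.add (Nat.add (Nat.add C (Nat.mul x36396 (nat_lit 3))) x49518) x32022) x34938) x37854) x36882) x36342) x36378) x16714)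
    (Nat.sub (Nat.add (Nat.add (Nat.add (Nat.add (Nat.add (Nat.add C (Nat.mul x36458 (nat_lit 2))) x49580) x32084) x37916) x35972) x36464) x56140)
    (Nat.sub (Nat.add (Nat.add (Nat.add (Nat.add (Nat.add (Nat.add (Nat.add (Nat.add (Nat.add C x36464) x49586) x32090) x37922) x35978) x36482) x36458) x36470) x36466) x56146)
    (Nat.sub (Nat.sub (Nat.add (Nat.add (Nat.add (Nat.add (Nat.add (Nat.add (Nat.add (Nat.add C x36466) x49588) x32092) x37924) x35980) x36484) x36472) x36464) x56148) x16784)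
    (Nat.sub (Nat.sub (Nat.add (Nat.add (Nat.add (Nat.add (Nat.add (Nat.add (Nat.add C x49592) x32096) x37928) x35984) x36488) x36464) x36472) (Nat.mul x36470 (nat_lit 2))) x56152)
    (Nat.sub (Nat.sub (Nat.add (Nat.add (Nat.add (Nat.add (Nat.add (Nat.add (Nat.add (Nat.add C x49594) x32098) x37930) x35986) x36490) x36466) x36470) x36474) x56154) x16790)
    (Nat.sub (Nat.add (Nat.add (Nat.add (Nat.add (Nat.add (Nat.add C x49596) x32100) x37932) x35988) x36492) x36472) x16792)
    (Nat.sub (Nat.add (Nat.add (Nat.add (Nat.add (Nat.add (Nat.add (Nat.add (Nat.add C x49604) x32108) x37940) x35996) x36536) x36464) x36488) x36484) x56164)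
    (Nat.sub (Nat.sub (Nat.sub (Nat.add (Nat.add (Nat.add (Nat.add (Nat.add (Nat.add (Nat.add (Nat.add C x49606) x32110) x37942) x35998) x36538) x36466) x36490) x36482) x36484) x56166) x16802)
    (Nat.sub (Nat.sub (Nat.add (Nat.add (Nat.add (Nat.add (Nat.add (Nat.add (Nat.add (Nat.add (Nat.add C x49610) x32114) x37946) x36002) x36542) x36470) x36506) x36482) x36490) x36488) x56170)
    (Nat.sub (Nat.sub (Nat.add (Nat.add (Nat.add (Nat.add (Nat.add (Nat.add (Nat.add (Nat.add (Nat.add (Nat.add (Nat.add C x49612) x32116) x37948) x36004) x36544) x36472) x36508) x36484) x36496) x36488) x36492) x56172) x16808)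
    (Nat.sub (Nat.sub (Nat.add (Nat.add (Nat.add (Nat.add (Nat.add (Nat.add (Nat.add (Nat.add (Nat.add C x49614) x32118) x37950) x36006) x36546) x36474) x36510) x36498) x36490) x36492) x16810)
    (Nat.sub (Nat.sub (Nat.sub (Nat.add (Nat.add (Nat.add (Nat.add (Nat.add (Nat.add (Nat.add (Nat.add C x49618) x32122) x37954) x36010) x36550) x36514) x36490) x36498) x36496) x56178) x16814)
    (Nat.sub (Nat.add (Nat.add (Nat.add (Nat.add (Nat.add (Nat.add (Nat.add (Nat.add C x49620) x32124) x37956) x36012) x36552) x36516) x36492) x36496) x16816)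
    (Nat.sub (Nat.sub (Nat.add (Nat.add (Nat.add (Nat.add (Nat.add (Nat.add (Nat.add C x49628) x32132) x37964) x36020) x36560) x36488) x36508) (Nat.mul x36506 (nat_lit 2))) x56188)
    (Nat.sub (Nat.sub (Nat.sub (Nat.add (Nat.add (Nat.add (Nat.add (Nat.add (Nat.add (Nat.add (Nat.add (Nat.add C x49630) x32134) x37966) x36022) x36562) x36490) x36514) x36506) x36510) (Nat.mul x36508 (nat_lit 2))) x56190) x16826)
    (Nat.sub (Nat.sub (Nat.add (Nat.add (Nat.add (Nat.add (Nat.add (Nat.add (Nat.add (Nat.add C x49632) x32136) x37968) x36024) x36564) x36492) x36516) x36508) (Nat.mul x36510 (nat_lit 4))) x16828)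
    (Nat.sub (Nat.sub (Nat.sub (Nat.add (Nat.add (Nat.add (Nat.add (Nat.add (Nat.add (Nat.add (Nat.add C x49636) x32140) x37972) x36028) x36568) x36496) x36508) x36516) x36514) x56196) x16832)
    (Nat.sub (Nat.sub (Nat.add (Nat.add (Nat.add (Nat.add (Nat.add (Nat.add (Nat.add (Nat.add (Nat.add C x49638) x32142) x37974) x36030) x36570) x36498) x36510) x36522) x36514) x36516) x16834)
    (Nat.sub (Nat.add (Nat.add (Nat.add (Nat.add (Nat.add (Nat.add C x49644) x32148) x37980) x36036) x36576) x36516) x16840)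
    (Nat.sub (Nat.add (Nat.add (Nat.add (Nat.add (Nat.add (Nat.add (Nat.add (Nat.add C x49658) x32162) x37994) x36050) x36698) x36482) x36542) x36538) x56218)
    (Nat.sub (Nat.sub (Nat.sub (Nat.add (Nat.add (Nat.add (Nat.add (Nat.add (Nat.add (Nat.add (Nat.add C x49660) x32164) x37996) x36052) x36700) x36484) x36544) x36536) x36538) x56220) x16856)
    (Nat.sub (Nat.sub (Nat.add (Nat.add (Nat.add (Nat.add (Nat.add (Nat.add (Nat.add (Nat.add (Nat.add C x49664) x32168) x38000) x36056) x36704) x36488) x36560) x36536) x36544) (Nat.mul x36542 (nat_lit 2))) x56224)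
    (Nat.sub (Nat.sub (Nat.sub (Nat.add (Nat.add (Nat.add (Nat.add (Nat.add (Nat.add (Nat.add (Nat.add (Nat.add (Nat.add (Nat.add C x49666) x32170) x38002) x36058) x36706) x36490) x36562) x36538) x36550) x36542) x36546) x36544) x56226) x16862)
    (Nat.sub (Nat.sub (Nat.add (Nat.add (Nat.add (Nat.add (Nat.add (Nat.add (Nat.add (Nat.add (Nat.add C x49668) x32172) x38004) x36060) x36708) x36492) x36564) x36552) x36544) (Nat.mul x36546 (nat_lit 2))) x16864)
    (Nat.sub (Nat.sub (Nat.sub (Nat.add (Nat.add (Nat.add (Nat.add (Nat.add (Nat.add (Nat.add (Nat.add (Nat.add C x49672) x32176) x38008) x36064) x36712) x36496) x36568) x36544) x36552) (Nat.mul x36550 (nat_lit 3))) x56232) x16868)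
    (Nat.sub (Nat.sub (Nat.add (Nat.add (Nat.add (Nat.add (Nat.add (Nat.add (Nat.add (Nat.add (Nat.add C x49674) x32178) x38010) x36066) x36714) x36498) x36570) x36546) x36550) (Nat.mul x36552 (nat_lit 2))) x16870)
    (Nat.sub (Nat.sub (Nat.add (Nat.add (Nat.add (Nat.add (Nat.add (Nat.add (Nat.add (Nat.add (Nat.add C x49682) x32186) x38018) x36074) x36722) x36506) x36614) x36542) x36562) x36560) x56242)
    (Nat.sub (Nat.sub (Nat.sub (Nat.add (Nat.add (Nat.add (Nat.add (Nat.add (Nat.add (Nat.add (Nat.add (Nat.add (Nat.add (Nat.add C x49684) x32188) x38020) x36076) x36724) x36508) x36616) x36544) x36568) x36560) x36564) x36562) x56244) x16880)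
    (Nat.sub (Nat.sub (Nat.add (Nat.add (Nat.add (Nat.add (Nat.add (Nat.add (Nat.add (Nat.add (Nat.add (Nat.add C x49686) x32190) x38022) x36078) x36726) x36510) x36618) x36546) x36570) x36562) (Nat.mul x36564 (nat_lit 3))) x16882)
    (Nat.sub (Nat.sub (Nat.sub (Nat.add (Nat.add (Nat.add (Nat.add (Nat.add (Nat.add (Nat.add (Nat.add (Nat.add (Nat.add (Nat.add C x49690) x32194) x38026) x36082) x36730) x36514) x36622) x36550) x36586) x36562) x36570) x36568) x56250) x16886)
    (Nat.sub (Nat.sub (Nat.add (Nat.add (Nat.add (Nat.add (Nat.add (Nat.add (Nat.add (Nat.add (Nat.add (Nat.add (Nat.add (Nat.add C x49692) x32196) x38028) x36084) x36732) x36516) x36624) x36552) x36588) x36564) x36576) x36568) x36570) x16888)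
    (Nat.sub (Nat.sub (Nat.add (Nat.add (Nat.add (Nat.add (Nat.add (Nat.add (Nat.add (Nat.add (Nat.add C x49698) x32202) x38034) x36090) x36738) x36522) x36630) x36594) x36570) x36576) x16894)
    (Nat.sub (Nat.sub (Nat.sub (Nat.add (Nat.add (Nat.add (Nat.add (Nat.add (Nat.add (Nat.add (Nat.add C x49708) x32212) x38044) x36100) x36748) x36640) x36568) x36588) x36586) x56268) x16904)
    (Nat.sub (Nat.sub (Nat.add (Nat.add (Nat.add (Nat.add (Nat.add (Nat.add (Nat.add (Nat.add (Nat.add C x49710) x32214) x38046) x36102) x36750) x36642) x36570) x36594) x36586) (Nat.mul x36588 (nat_lit 2))) x16906)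
    (Nat.sub (Nat.add (Nat.add (Nat.add (Nat.add (Nat.add (Nat.add (Nat.add (Nat.add C x49716) x32220) x38052) x36108) x36756) x36648) x36576) x36588) x16912)
    (Nat.sub (Nat.sub (Nat.add (Nat.add (Nat.add (Nat.add (Nat.add (Nat.add (Nat.add C x49736) x32240) x38072) x36128) x36776) x36560) x36616) (Nat.mul x36614 (nat_lit 2))) x56296)
    (Nat.sub (Nat.sub (Nat.sub (Nat.add (Nat.add (Nat.add (Nat.add (Nat.add (Nat.add (Nat.add (Nat.add (Nat.add C x49738) x32242) x38074) x36130) x36778) x36562) x36622) x36614) x36618) (Nat.mul x36616 (nat_lit 2))) x56298) x16934)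
    (Nat.sub (Nat.sub (Nat.add (Nat.add (Nat.add (Nat.add (Nat.add (Nat.add (Nat.add (Nat.add C x49740) x32244) x38076) x36132) x36780) x36564) x36624) x36616) (Nat.mul x36618 (nat_lit 4))) x16936)
    (Nat.sub (Nat.sub (Nat.sub (Nat.add (Nat.add (Nat.add (Nat.add (Nat.add (Nat.add (Nat.add (Nat.add (Nat.add C x49744) x32248) x38080) x36136) x36784) x36568) x36640) x36616) x36624) (Nat.mul x36622 (nat_lit 3))) x56304) x16940)
    (Nat.sub (Nat.sub (Nat.add (Nat.add (Nat.add (Nat.add (Nat.add (Nat.add (Nat.add (Nat.add (Nat.add (Nat.add C x49746) x32250) x38082) x36138) x36786) x36570) x36642) x36618) x36630) x36622) (Nat.mul x36624 (nat_lit 3))) x16942)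
    (Nat.sub (Nat.sub (Nat.add (Nat.add (Nat.add (Nat.add (Nat.add (Nat.add (Nat.add (Nat.add C x49752) x32256) x38088) x36144) x36792) x36576) x36648) x36624) (Nat.mul x36630 (nat_lit 4))) x16948)
    (Nat.sub (Nat.sub (Nat.sub (Nat.add (Nat.add (Nat.add (Nat.add (Nat.add (Nat.add (Nat.add (Nat.add C x49762) x32266) x38098) x36154) x36802) x36586) x36622) x36642) x36640) x56322) x16958)
    (Nat.sub (Nat.sub (Nat.add (Nat.add (Nat.add (Nat.add (Nat.add (Nat.add (Nat.add (Nat.add (Nat.add C x49764) x32268) x38100) x36156) x36804) x36588) x36624) x36648) x36640) (Nat.mul x36642 (nat_lit 2))) x16960)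
    (Nat.sub (Nat.sub (Nat.add (Nat.add (Nat.add (Nat.add (Nat.add (Nat.add (Nat.add (Nat.add (Nat.add C x49770) x32274) x38106) x36162) x36810) x36594) x36630) x36666) x36642) x36648) x16966)
    (Nat.sub (Nat.add (Nat.add (Nat.add (Nat.add (Nat.add (Nat.add C x49788) x32292) x38124) x36180) x36828) x36648) x16984)
    (Nat.sub (Nat.add (Nat.add (Nat.add (Nat.add (Nat.add (Nat.add (Nat.add (Nat.add C (Nat.mul x36698 (nat_lit 2))) x49820) x32324) x38156) x36212) x36536) x36704) x36700) x56380)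
    (Nat.sub (Nat.sub (Nat.add (Nat.add (Nat.add (Nat.add (Nat.add (Nat.add (Nat.add (Nat.add C x36700) x49822) x32326) x38158) x36214) x36538) x36706) x36698) x56382) x17018)
    (Nat.sub (Nat.add (Nat.add (Nat.add (Nat.add (Nat.add (Nat.add (Nat.add (Nat.add C x49826) x32330) x38162) x36218) x36542) x36722) x36698) x36706) x56386)
    (Nat.sub (Nat.sub (Nat.add (Nat.add (Nat.add (Nat.add (Nat.add (Nat.add (Nat.add (Nat.add (Nat.add (Nat.add (Nat.add C x36706) x49828) x32332) x38164) x36220) x36544) x36724) x36700) x36712) x36704) x36708) x56388) x17024)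
    (Nat.sub (Nat.add (Nat.add (Nat.add (Nat.add (Nat.add (Nat.add (Nat.add (Nat.add C x49830) x32334) x38166) x36222) x36546) x36726) x36714) x36706) x17026)
    (Nat.sub (Nat.sub (Nat.sub (Nat.add (Nat.add (Nat.add (Nat.add (Nat.add (Nat.add (Nat.add (Nat.add C x49834) x32338) x38170) x36226) x36550) x36730) x36706) x36714) x36712) x56394) x17030)
    (Nat.sub (Nat.add (Nat.add (Nat.add (Nat.add (Nat.add (Nat.add (Nat.add (Nat.add C x49836) x32340) x38172) x36228) x36552) x36732) x36708) x36712) x17032)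
    (Nat.sub (Nat.add (Nat.add (Nat.add (Nat.add (Nat.add (Nat.add (Nat.add (Nat.add C x49844) x32348) x38180) x36236) x36560) x36776) x36704) x36724) x56404)
    (Nat.sub (Nat.sub (Nat.add (Nat.add (Nat.add (Nat.add (Nat.add (Nat.add (Nat.add (Nat.add (Nat.add (Nat.add C x49846) x32350) x38182) x36238) x36562) x36778) x36706) x36730) x36722) x36726) x56406) x17042)
    (Nat.sub (Nat.sub (Nat.add (Nat.add (Nat.add (Nat.add (Nat.add (Nat.add (Nat.add (Nat.add (Nat.add C x49848) x32352) x38184) x36240) x36564) x36780) x36708) x36732) x36724) (Nat.mul x36726 (nat_lit 2))) x17044)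
    (Nat.sub (Nat.sub (Nat.add (Nat.add (Nat.add (Nat.add (Nat.add (Nat.add (Nat.add (Nat.add (Nat.add (Nat.add C x49852) x32356) x38188) x36244) x36568) x36784) x36712) x36748) x36724) x36732) x56412) x17048)
    (Nat.sub (Nat.add (Nat.add (Nat.add (Nat.add (Nat.add (Nat.add (Nat.add (Nat.add (Nat.add (Nat.add (Nat.add C x49854) x32358) x38190) x36246) x36570) x36786) x36714) x36750) x36726) x36738) x36730) x17050)
    (Nat.sub (Nat.add (Nat.add (Nat.add (Nat.add (Nat.add (Nat.add (Nat.add (Nat.add C x49860) x32364) x38196) x36252) x36576) x36792) x36756) x36732) x17056)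
    (Nat.sub (Nat.sub (Nat.sub (Nat.add (Nat.add (Nat.add (Nat.add (Nat.add (Nat.add (Nat.add (Nat.add C x49870) x32374) x38206) x36262) x36586) x36802) x36730) x36750) x36748) x56430) x17066)
    (Nat.sub (Nat.sub (Nat.add (Nat.add (Nat.add (Nat.add (Nat.add (Nat.add (Nat.add (Nat.add (Nat.add C x49872) x32376) x38208) x36264) x36588) x36804) x36732) x36756) x36748) (Nat.mul x36750 (nat_lit 2))) x17068)
    (Nat.sub (Nat.add (Nat.add (Nat.add (Nat.add (Nat.add (Nat.add (Nat.add (Nat.add C x49878) x32382) x38214) x36270) x36594) x36810) x36738) x36750) x17074)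
    (Nat.sub (Nat.add (Nat.add (Nat.add (Nat.add (Nat.add (Nat.add (Nat.add (Nat.add (Nat.add C x36776) x49898) x32402) x38234) x36290) x36614) x36938) x36722) x36778) x56458)
    (Nat.sub (Nat.sub (Nat.add (Nat.add (Nat.add (Nat.add (Nat.add (Nat.add (Nat.add (Nat.add (Nat.add (Nat.add (Nat.add C x36778) x49900) x32404) x38236) x36292) x36616) x36940) x36724) x36784) x36776) x36780) x56460) x17096)
    (Nat.sub (Nat.sub (Nat.add (Nat.add (Nat.add (Nat.add (Nat.add (Nat.add (Nat.add (Nat.add (Nat.add C x49902) x32406) x38238) x36294) x36618) x36942) x36726) x36786) x36778) x36780) x17098)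
    (Nat.sub (Nat.sub (Nat.add (Nat.add (Nat.add (Nat.add (Nat.add (Nat.add (Nat.add (Nat.add (Nat.add (Nat.add C x49906) x32410) x38242) x36298) x36622) x36946) x36730) x36802) x36778) x36786) x56466) x17102)
    (Nat.sub (Nat.add (Nat.add (Nat.add (Nat.add (Nat.add (Nat.add (Nat.add (Nat.add (Nat.add (Nat.add (Nat.add C x49908) x32412) x38244) x36300) x36624) x36948) x36732) x36804) x36780) x36792) x36784) x17104)
    (Nat.sub (Nat.sub (Nat.add (Nat.add (Nat.add (Nat.add (Nat.add (Nat.add (Nat.add (Nat.add (Nat.add C x49914) x32418) x38250) x36306) x36630) x36954) x36738) x36810) x36786) x36792) x17110)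
    (Nat.sub (Nat.sub (Nat.add (Nat.add (Nat.add (Nat.add (Nat.add (Nat.add (Nat.add (Nat.add (Nat.add (Nat.add (Nat.add C x36802) x49924) x32428) x38260) x36316) x36640) x36964) x36748) x36856) x36784) x36804) x56484) x17120)
    (Nat.sub (Nat.add (Nat.add (Nat.add (Nat.add (Nat.add (Nat.add (Nat.add (Nat.add (Nat.add (Nat.add (Nat.add C x49926) x32430) x38262) x36318) x36642) x36966) x36750) x36858) x36786) x36810) x36802) x17122)
    (Nat.sub (Nat.add (Nat.add (Nat.add (Nat.add (Nat.add (Nat.add (Nat.add (Nat.add (Nat.add (Nat.add (Nat.add (Nat.add C x36810) x49932) x32436) x38268) x36324) x36648) x36972) x36756) x36864) x36792) x36828) x36804) x17128)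
    (Nat.sub (Nat.add (Nat.add (Nat.add (Nat.add (Nat.add (Nat.add (Nat.add (Nat.add (Nat.add C x36828) x49950) x32454) x38286) x36342) x36666) x36990) x36882) x36810) x17146)
    (Nat.sub (Nat.sub (Nat.add (Nat.add (Nat.add (Nat.add (Nat.add (Nat.add (Nat.add (Nat.add C x36856) x49978) x32482) x38314) x36370) x37018) x36802) x36858) x56538) x17174)
    (Nat.sub (Nat.add (Nat.add (Nat.add (Nat.add (Nat.add (Nat.add (Nat.add (Nat.add C x49980) x32484) x38316) x36372) x37020) x36804) x36864) x36856) x17176)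
    (Nat.sub (Nat.add (Nat.add (Nat.add (Nat.add (Nat.add (Nat.add (Nat.add (Nat.add C x49986) x32490) x38322) x36378) x37026) x36810) x36882) x36858) x17182)
    (Nat.sub (Nat.add (Nat.add (Nat.add (Nat.add (Nat.add (Nat.add (Nat.add (Nat.add C (Nat.mul x36882 (nat_lit 2))) x50004) x32508) x38340) x36396) x37044) x36828) x36864) x17200)
    (Nat.sub (Nat.add (Nat.add (Nat.add (Nat.add (Nat.add (Nat.add C (Nat.mul x36938 (nat_lit 2))) x50060) x32564) x38396) x36776) x36940) x56620)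
    (Nat.sub (Nat.sub (Nat.add (Nat.add (Nat.add (Nat.add (Nat.add (Nat.add (Nat.add (Nat.add C (Nat.mul x36940 (nat_lit 2))) x50062) x32566) x38398) x36778) x36946) x36938) x36942) x56622) x17258)
    (Nat.sub (Nat.add (Nat.add (Nat.add (Nat.add (Nat.add (Nat.add C x50064) x32568) x38400) x36780) x36948) x36940) x17260)
    (Nat.sub (Nat.sub (Nat.add (Nat.add (Nat.add (Nat.add (Nat.add (Nat.add (Nat.add (Nat.add C x36946) x50068) x32572) x38404) x36784) x36964) x36940) x36948) x56628) x17264)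
    (Nat.sub (Nat.add (Nat.add (Nat.add (Nat.add (Nat.add (Nat.add (Nat.add (Nat.add (Nat.add C x36948) x50070) x32574) x38406) x36786) x36966) x36942) x36954) x36946) x17266)
    (Nat.sub (Nat.add (Nat.add (Nat.add (Nat.add (Nat.add (Nat.add C x50076) x32580) x38412) x36792) x36972) x36948) x17272)
    (Nat.sub (Nat.sub (Nat.add (Nat.add (Nat.add (Nat.add (Nat.add (Nat.add (Nat.add (Nat.add C x36964) x50086) x32590) x38422) x36802) x37018) x36946) x36966) x56646) x17282)
    (Nat.sub (Nat.add (Nat.add (Nat.add (Nat.add (Nat.add (Nat.add (Nat.add (Nat.add C x50088) x32592) x38424) x36804) x37020) x36948) x36972) x36964) x17284)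
    (Nat.sub (Nat.add (Nat.add (Nat.add (Nat.add (Nat.add (Nat.add (Nat.add (Nat.add (Nat.add C x36972) x50094) x32598) x38430) x36810) x37026) x36954) x36990) x36966) x17290)
    (Nat.sub (Nat.add (Nat.add (Nat.add (Nat.add (Nat.add (Nat.add C x50112) x32616) x38448) x36828) x37044) x36972) x17308)
    (Nat.sub (Nat.sub (Nat.add (Nat.add (Nat.add (Nat.add (Nat.add (Nat.add (Nat.add C (Nat.mul x37018 (nat_lit 3))) x50140) x32644) x38476) x36856) x36964) x37020) x56700) x17336)
    (Nat.sub (Nat.add (Nat.add (Nat.add (Nat.add (Nat.add (Nat.add (Nat.add (Nat.add C (Nat.mul x37020 (nat_lit 2))) x50142) x32646) x38478) x36858) x36966) x37026) x37018) x17338)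
    (Nat.sub (Nat.add (Nat.add (Nat.add (Nat.add (Nat.add (Nat.add (Nat.add (Nat.add C (Nat.mul x37026 (nat_lit 2))) x50148) x32652) x38484) x36864) x36972) x37044) x37020) x17344)
    (Nat.sub (Nat.add (Nat.add (Nat.add (Nat.add (Nat.add (Nat.add (Nat.add (Nat.add C (Nat.mul x37044 (nat_lit 3))) x50166) x32670) x38502) x36882) x36990) x37098) x37026) x17362)
    (Nat.sub (Nat.add (Nat.add (Nat.add (Nat.add (Nat.add C (Nat.mul x37098 (nat_lit 4))) x50220) x32724) x38556) x37044) x17416)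
    (Nat.sub (Nat.add (Nat.add (Nat.add (Nat.add (Nat.add C (Nat.mul x37196 (nat_lit 4))) x50318) x35738) x37214) x37202) x56878)
    (Nat.sub (Nat.add (Nat.add (Nat.add (Nat.add (Nat.add (Nat.add C (Nat.mul x37202 (nat_lit 2))) x50324) x35744) x37220) x37196) x37204) x56884)
    (Nat.sub (Nat.sub (Nat.add (Nat.add (Nat.add (Nat.add (Nat.add C (Nat.mul x37204 (nat_lit 3))) x50326) x35746) x37222) x37202) x56886) x17522)
    (Nat.sub (Nat.add (Nat.add (Nat.add (Nat.add (Nat.add (Nat.add C (Nat.mul x37214 (nat_lit 2))) x50336) x35756) x37268) x37196) x37220) x56896)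
    (Nat.sub (Nat.add (Nat.add (Nat.add (Nat.add (Nat.add (Nat.add (Nat.add (Nat.add (Nat.add C (Nat.mul x37220 (nat_lit 2))) x50342) x35762) x37274) x37202) x37238) x37214) x37226) x37222) x56902)
    (Nat.sub (Nat.sub (Nat.add (Nat.add (Nat.add (Nat.add (Nat.add (Nat.add (Nat.add (Nat.add C (Nat.mul x37222 (nat_lit 2))) x50344) x35764) x37276) x37204) x37240) x37228) x37220) x56904) x17540)
    (Nat.sub (Nat.add (Nat.add (Nat.add (Nat.add (Nat.add (Nat.add C x50348) x35768) x37280) x37244) x37220) x37228) x56908)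
    (Nat.sub (Nat.sub (Nat.add (Nat.add (Nat.add (Nat.add (Nat.add (Nat.add (Nat.add (Nat.add C (Nat.mul x37228 (nat_lit 2))) x50350) x35770) x37282) x37246) x37222) x37226) x37230) x56910) x17546)
    (Nat.sub (Nat.add (Nat.add (Nat.add (Nat.add (Nat.add (Nat.add C (Nat.mul x37230 (nat_lit 2))) x50352) x35772) x37284) x37248) x37228) x17548)
    (Nat.sub (Nat.add (Nat.add (Nat.add (Nat.add (Nat.add (Nat.add C x50360) x35780) x37292) x37220) x37244) x37240) x56920)
    (Nat.sub (Nat.sub (Nat.sub (Nat.add (Nat.add (Nat.add (Nat.add (Nat.add (Nat.add C x50362) x35782) x37294) x37222) x37246) x37238) x37240) x56922) x17558)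
    (Nat.sub (Nat.add (Nat.add (Nat.add (Nat.add (Nat.add (Nat.add C x50366) x35786) x37298) x37226) x37238) x37246) x56926)
    (Nat.sub (Nat.sub (Nat.add (Nat.add (Nat.add (Nat.add (Nat.add (Nat.add (Nat.add (Nat.add (Nat.add C x37246) x50368) x35788) x37300) x37228) x37240) x37252) x37244) x37248) x56928) x17564)
    (Nat.sub (Nat.add (Nat.add (Nat.add (Nat.add (Nat.add (Nat.add C x50370) x35790) x37302) x37230) x37254) x37246) x17566)
    (Nat.sub (Nat.sub (Nat.add (Nat.add (Nat.add (Nat.add (Nat.add (Nat.add C x37252) x50374) x35794) x37306) x37246) x37254) x56934) x17570)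
    (Nat.sub (Nat.add (Nat.add (Nat.add (Nat.add (Nat.add (Nat.add C (Nat.mul x37254 (nat_lit 2))) x50376) x35796) x37308) x37248) x37252) x17572)
    (Nat.sub (Nat.add (Nat.add (Nat.add (Nat.add (Nat.add (Nat.add C (Nat.mul x37268 (nat_lit 2))) x50390) x35810) x37430) x37214) x37274) x56950)
    (Nat.sub (Nat.add (Nat.add (Nat.add (Nat.add (Nat.add (Nat.add (Nat.add (Nat.add (Nat.add C x37274) x50396) x35816) x37436) x37220) x37292) x37268) x37280) x37276) x56956)
    (Nat.sub (Nat.sub (Nat.add (Nat.add (Nat.add (Nat.add (Nat.add (Nat.add (Nat.add (Nat.add C x37276) x50398) x35818) x37438) x37222) x37294) x37282) x37274) x56958) x17594)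
    (Nat.sub (Nat.sub (Nat.add (Nat.add (Nat.add (Nat.add (Nat.add (Nat.add (Nat.add C x50402) x35822) x37442) x37226) x37298) x37274) x37282) (Nat.mul x37280 (nat_lit 2))) x56962)
    (Nat.sub (Nat.sub (Nat.add (Nat.add (Nat.add (Nat.add (Nat.add (Nat.add (Nat.add (Nat.add C x50404) x35824) x37444) x37228) x37300) x37276) x37280) x37284) x56964) x17600)
    (Nat.sub (Nat.add (Nat.add (Nat.add (Nat.add (Nat.add (Nat.add C x50406) x35826) x37446) x37230) x37302) x37282) x17602)
    (Nat.sub (Nat.add (Nat.add (Nat.add (Nat.add (Nat.add (Nat.add (Nat.add (Nat.add (Nat.add C x37292) x50414) x35834) x37454) x37238) x37346) x37274) x37298) x37294) x56974)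
    (Nat.sub (Nat.sub (Nat.add (Nat.add (Nat.add (Nat.add (Nat.add (Nat.add (Nat.add (Nat.add C x50416) x35836) x37456) x37240) x37348) x37276) x37300) x37292) x56976) x17612)
    (Nat.sub (Nat.add (Nat.add (Nat.add (Nat.add (Nat.add (Nat.add (Nat.add (Nat.add (Nat.add C x50420) x35840) x37460) x37244) x37352) x37280) x37316) x37292) x37300) x56980)
    (Nat.sub (Nat.sub (Nat.add (Nat.add (Nat.add (Nat.add (Nat.add (Nat.add (Nat.add (Nat.add (Nat.add (Nat.add (Nat.add (Nat.add C x37300) x50422) x35842) x37462) x37246) x37354) x37282) x37318) x37294) x37306) x37298) x37302) x56982) x17618)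
    (Nat.sub (Nat.add (Nat.add (Nat.add (Nat.add (Nat.add (Nat.add (Nat.add (Nat.add (Nat.add C x50424) x35844) x37464) x37248) x37356) x37284) x37320) x37308) x37300) x17620)
    (Nat.sub (Nat.sub (Nat.add (Nat.add (Nat.add (Nat.add (Nat.add (Nat.add (Nat.add (Nat.add C x50428) x35848) x37468) x37252) x37360) x37324) x37300) x37308) x56988) x17624)
    (Nat.sub (Nat.add (Nat.add (Nat.add (Nat.add (Nat.add (Nat.add (Nat.add (Nat.add (Nat.add C x37308) x50430) x35850) x37470) x37254) x37362) x37326) x37302) x37306) x17626)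
    (Nat.sub (Nat.add (Nat.add (Nat.add (Nat.add (Nat.add (Nat.add C x50438) x35858) x37478) x37370) x37298) x37318) x56998)
    (Nat.sub (Nat.sub (Nat.add (Nat.add (Nat.add (Nat.add (Nat.add (Nat.add (Nat.add (Nat.add C x50440) x35860) x37480) x37372) x37300) x37324) x37316) x37320) x57000) x17636)
    (Nat.sub (Nat.sub (Nat.add (Nat.add (Nat.add (Nat.add (Nat.add (Nat.add (Nat.add C x50442) x35862) x37482) x37374) x37302) x37326) x37318) (Nat.mul x37320 (nat_lit 2))) x17638)
    (Nat.sub (Nat.sub (Nat.add (Nat.add (Nat.add (Nat.add (Nat.add (Nat.add (Nat.add (Nat.add C x37324) x50446) x35866) x37486) x37378) x37306) x37318) x37326) x57006) x17642)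
    (Nat.sub (Nat.add (Nat.add (Nat.add (Nat.add (Nat.add (Nat.add (Nat.add (Nat.add (Nat.add C x37326) x50448) x35868) x37488) x37380) x37308) x37320) x37332) x37324) x17644)
    (Nat.sub (Nat.add (Nat.add (Nat.add (Nat.add (Nat.add (Nat.add C (Nat.mul x37332 (nat_lit 2))) x50454) x35874) x37494) x37386) x37326) x17650)
    (Nat.sub (Nat.add (Nat.add (Nat.add (Nat.add (Nat.add (Nat.add C x50468) x35888) x37508) x37292) x37352) x37348) x57028)
    (Nat.sub (Nat.sub (Nat.sub (Nat.add (Nat.add (Nat.add (Nat.add (Nat.add (Nat.add C x50470) x35890) x37510) x37294) x37354) x37346) x37348) x57030) x17666)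
    (Nat.sub (Nat.sub (Nat.add (Nat.add (Nat.add (Nat.add (Nat.add (Nat.add (Nat.add C x50474) x35894) x37514) x37298) x37370) x37346) x37354) (Nat.mul x37352 (nat_lit 2))) x57034)
    (Nat.sub (Nat.sub (Nat.sub (Nat.add (Nat.add (Nat.add (Nat.add (Nat.add (Nat.add (Nat.add (Nat.add (Nat.add C x50476) x35896) x37516) x37300) x37372) x37348) x37360) x37352) x37356) x37354) x57036) x17672)
    (Nat.sub (Nat.sub (Nat.add (Nat.add (Nat.add (Nat.add (Nat.add (Nat.add (Nat.add C x50478) x35898) x37518) x37302) x37374) x37362) x37354) (Nat.mul x37356 (nat_lit 2))) x17674)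
    (Nat.sub (Nat.sub (Nat.sub (Nat.add (Nat.add (Nat.add (Nat.add (Nat.add (Nat.add (Nat.add C x50482) x35902) x37522) x37306) x37378) x37354) x37362) (Nat.mul x37360 (nat_lit 3))) x57042) x17678)
    (Nat.sub (Nat.sub (Nat.add (Nat.add (Nat.add (Nat.add (Nat.add (Nat.add (Nat.add C x50484) x35904) x37524) x37308) x37380) x37356) x37360) (Nat.mul x37362 (nat_lit 2))) x17680)
    (Nat.sub (Nat.add (Nat.add (Nat.add (Nat.add (Nat.add (Nat.add C x50492) x35912) x37532) x37316) x37352) x37372) x57052)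
    (Nat.sub (Nat.sub (Nat.add (Nat.add (Nat.add (Nat.add (Nat.add (Nat.add (Nat.add (Nat.add C x50494) x35914) x37534) x37318) x37354) x37378) x37370) x37374) x57054) x17690)
    (Nat.sub (Nat.sub (Nat.add (Nat.add (Nat.add (Nat.add (Nat.add (Nat.add (Nat.add C x50496) x35916) x37536) x37320) x37356) x37380) x37372) (Nat.mul x37374 (nat_lit 2))) x17692)
    (Nat.sub (Nat.sub (Nat.add (Nat.add (Nat.add (Nat.add (Nat.add (Nat.add (Nat.add (Nat.add C x50500) x35920) x37540) x37324) x37360) x37396) x37372) x37380) x57060) x17696)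
    (Nat.sub (Nat.add (Nat.add (Nat.add (Nat.add (Nat.add (Nat.add (Nat.add (Nat.add (Nat.add C x50502) x35922) x37542) x37326) x37362) x37398) x37374) x37386) x37378) x17698)
    (Nat.sub (Nat.add (Nat.add (Nat.add (Nat.add (Nat.add (Nat.add C x50508) x35928) x37548) x37332) x37404) x37380) x17704)
    (Nat.sub (Nat.sub (Nat.add (Nat.add (Nat.add (Nat.add (Nat.add (Nat.add C x37396) x50518) x35938) x37558) x37378) x37398) x57078) x17714)
    (Nat.sub (Nat.add (Nat.add (Nat.add (Nat.add (Nat.add (Nat.add C x50520) x35940) x37560) x37380) x37404) x37396) x17716)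
    (Nat.sub (Nat.add (Nat.add (Nat.add (Nat.add (Nat.add (Nat.add C (Nat.mul x37404 (nat_lit 2))) x50526) x35946) x37566) x37386) x37398) x17722)
    (Nat.sub (Nat.add (Nat.add (Nat.add (Nat.add (Nat.add (Nat.add C (Nat.mul x37430 (nat_lit 2))) x50552) x35972) x37916) x37268) x37436) x57112)
    (Nat.sub (Nat.add (Nat.add (Nat.add (Nat.add (Nat.add (Nat.add (Nat.add (Nat.add (Nat.add C x37436) x50558) x35978) x37922) x37274) x37454) x37430) x37442) x37438) x57118)
    (Nat.sub (Nat.sub (Nat.add (Nat.add (Nat.add (Nat.add (Nat.add (Nat.add (Nat.add (Nat.add C x37438) x50560) x35980) x37924) x37276) x37456) x37444) x37436) x57120) x17756)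
    (Nat.sub (Nat.sub (Nat.add (Nat.add (Nat.add (Nat.add (Nat.add (Nat.add (Nat.add C x50564) x35984) x37928) x37280) x37460) x37436) x37444) (Nat.mul x37442 (nat_lit 2))) x57124)
    (Nat.sub (Nat.sub (Nat.add (Nat.add (Nat.add (Nat.add (Nat.add (Nat.add (Nat.add (Nat.add C x50566) x35986) x37930) x37282) x37462) x37438) x37442) x37446) x57126) x17762)
    (Nat.sub (Nat.add (Nat.add (Nat.add (Nat.add (Nat.add (Nat.add C x50568) x35988) x37932) x37284) x37464) x37444) x17764)
    (Nat.sub (Nat.add (Nat.add (Nat.add (Nat.add (Nat.add (Nat.add (Nat.add (Nat.add C x50576) x35996) x37940) x37292) x37508) x37436) x37460) x37456) x57136)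
    (Nat.sub (Nat.sub (Nat.sub (Nat.add (Nat.add (Nat.add (Nat.add (Nat.add (Nat.add (Nat.add (Nat.add C x50578) x35998) x37942) x37294) x37510) x37438) x37462) x37454) x37456) x57138) x17774)
    (Nat.sub (Nat.sub (Nat.add (Nat.add (Nat.add (Nat.add (Nat.add (Nat.add (Nat.add (Nat.add (Nat.add C x50582) x36002) x37946) x37298) x37514) x37442) x37478) x37454) x37462) x37460) x57142)
    (Nat.sub (Nat.sub (Nat.add (Nat.add (Nat.add (Nat.add (Nat.add (Nat.add (Nat.add (Nat.add (Nat.add (Nat.add (Nat.add C x50584) x36004) x37948) x37300) x37516) x37444) x37480) x37456) x37468) x37460) x37464) x57144) x17780)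
    (Nat.sub (Nat.sub (Nat.add (Nat.add (Nat.add (Nat.add (Nat.add (Nat.add (Nat.add (Nat.add (Nat.add C x50586) x36006) x37950) x37302) x37518) x37446) x37482) x37470) x37462) x37464) x17782)
    (Nat.sub (Nat.sub (Nat.sub (Nat.add (Nat.add (Nat.add (Nat.add (Nat.add (Nat.add (Nat.add (Nat.add C x50590) x36010) x37954) x37306) x37522) x37486) x37462) x37470) x37468) x57150) x17786)
    (Nat.sub (Nat.add (Nat.add (Nat.add (Nat.add (Nat.add (Nat.add (Nat.add (Nat.add C x50592) x36012) x37956) x37308) x37524) x37488) x37464) x37468) x17788)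
    (Nat.sub (Nat.sub (Nat.add (Nat.add (Nat.add (Nat.add (Nat.add (Nat.add (Nat.add C x50600) x36020) x37964) x37316) x37532) x37460) x37480) (Nat.mul x37478 (nat_lit 2))) x57160)
    (Nat.sub (Nat.sub (Nat.sub (Nat.add (Nat.add (Nat.add (Nat.add (Nat.add (Nat.add (Nat.add (Nat.add (Nat.add C x50602) x36022) x37966) x37318) x37534) x37462) x37486) x37478) x37482) (Nat.mul x37480 (nat_lit 2))) x57162) x17798)
    (Nat.sub (Nat.sub (Nat.add (Nat.add (Nat.add (Nat.add (Nat.add (Nat.add (Nat.add (Nat.add C x50604) x36024) x37968) x37320) x37536) x37464) x37488) x37480) (Nat.mul x37482 (nat_lit 4))) x17800)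
    (Nat.sub (Nat.sub (Nat.sub (Nat.add (Nat.add (Nat.add (Nat.add (Nat.add (Nat.add (Nat.add (Nat.add C x50608) x36028) x37972) x37324) x37540) x37468) x37480) x37488) x37486) x57168) x17804)
    (Nat.sub (Nat.sub (Nat.add (Nat.add (Nat.add (Nat.add (Nat.add (Nat.add (Nat.add (Nat.add (Nat.add C x50610) x36030) x37974) x37326) x37542) x37470) x37482) x37494) x37486) x37488) x17806)
    (Nat.sub (Nat.add (Nat.add (Nat.add (Nat.add (Nat.add (Nat.add C x50616) x36036) x37980) x37332) x37548) x37488) x17812)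
    (Nat.sub (Nat.add (Nat.add (Nat.add (Nat.add (Nat.add (Nat.add (Nat.add (Nat.add (Nat.add C x37508) x50630) x36050) x37994) x37346) x37670) x37454) x37514) x37510) x57190)
    (Nat.sub (Nat.sub (Nat.add (Nat.add (Nat.add (Nat.add (Nat.add (Nat.add (Nat.add (Nat.add C x50632) x36052) x37996) x37348) x37672) x37456) x37516) x37508) x57192) x17828)
    (Nat.sub (Nat.sub (Nat.add (Nat.add (Nat.add (Nat.add (Nat.add (Nat.add (Nat.add (Nat.add (Nat.add C x50636) x36056) x38000) x37352) x37676) x37460) x37532) x37508) x37516) x37514) x57196)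
    (Nat.sub (Nat.sub (Nat.add (Nat.add (Nat.add (Nat.add (Nat.add (Nat.add (Nat.add (Nat.add (Nat.add (Nat.add (Nat.add C x50638) x36058) x38002) x37354) x37678) x37462) x37534) x37510) x37522) x37514) x37518) x57198) x17834)
    (Nat.sub (Nat.sub (Nat.add (Nat.add (Nat.add (Nat.add (Nat.add (Nat.add (Nat.add (Nat.add (Nat.add C x50640) x36060) x38004) x37356) x37680) x37464) x37536) x37524) x37516) x37518) x17836)
    (Nat.sub (Nat.sub (Nat.sub (Nat.add (Nat.add (Nat.add (Nat.add (Nat.add (Nat.add (Nat.add (Nat.add (Nat.add C x50644) x36064) x38008) x37360) x37684) x37468) x37540) x37516) x37524) (Nat.mul x37522 (nat_lit 2))) x57204) x17840)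
    (Nat.sub (Nat.sub (Nat.add (Nat.add (Nat.add (Nat.add (Nat.add (Nat.add (Nat.add (Nat.add (Nat.add C x50646) x36066) x38010) x37362) x37686) x37470) x37542) x37518) x37522) x37524) x17842)
    (Nat.sub (Nat.add (Nat.add (Nat.add (Nat.add (Nat.add (Nat.add (Nat.add (Nat.add (Nat.add C x50654) x36074) x38018) x37370) x37694) x37478) x37586) x37514) x37534) x57214)
    (Nat.sub (Nat.sub (Nat.add (Nat.add (Nat.add (Nat.add (Nat.add (Nat.add (Nat.add (Nat.add (Nat.add (Nat.add (Nat.add C x50656) x36076) x38020) x37372) x37696) x37480) x37588) x37516) x37540) x37532) x37536) x57216) x17852)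
    (Nat.sub (Nat.sub (Nat.add (Nat.add (Nat.add (Nat.add (Nat.add (Nat.add (Nat.add (Nat.add (Nat.add (Nat.add C x50658) x36078) x38022) x37374) x37698) x37482) x37590) x37518) x37542) x37534) (Nat.mul x37536 (nat_lit 2))) x17854)
    (Nat.sub (Nat.sub (Nat.add (Nat.add (Nat.add (Nat.add (Nat.add (Nat.add (Nat.add (Nat.add (Nat.add (Nat.add (Nat.add C x50662) x36082) x38026) x37378) x37702) x37486) x37594) x37522) x37558) x37534) x37542) x57222) x17858)
    (Nat.sub (Nat.add (Nat.add (Nat.add (Nat.add (Nat.add (Nat.add (Nat.add (Nat.add (Nat.add (Nat.add (Nat.add (Nat.add C x50664) x36084) x38028) x37380) x37704) x37488) x37596) x37524) x37560) x37536) x37548) x37540) x17860)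
    (Nat.sub (Nat.add (Nat.add (Nat.add (Nat.add (Nat.add (Nat.add (Nat.add (Nat.add (Nat.add C x50670) x36090) x38034) x37386) x37710) x37494) x37602) x37566) x37542) x17866)
    (Nat.sub (Nat.sub (Nat.add (Nat.add (Nat.add (Nat.add (Nat.add (Nat.add (Nat.add (Nat.add C x50680) x36100) x38044) x37396) x37720) x37612) x37540) x37560) x57240) x17876)
    (Nat.sub (Nat.sub (Nat.add (Nat.add (Nat.add (Nat.add (Nat.add (Nat.add (Nat.add (Nat.add (Nat.add C x50682) x36102) x38046) x37398) x37722) x37614) x37542) x37566) x37558) x37560) x17878)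
    (Nat.sub (Nat.add (Nat.add (Nat.add (Nat.add (Nat.add (Nat.add (Nat.add (Nat.add (Nat.add C x37566) x50688) x36108) x38052) x37404) x37728) x37620) x37548) x37560) x17884)
    (Nat.sub (Nat.add (Nat.add (Nat.add (Nat.add (Nat.add (Nat.add C x50708) x36128) x38072) x37748) x37532) x37588) x57268)
    (Nat.sub (Nat.sub (Nat.add (Nat.add (Nat.add (Nat.add (Nat.add (Nat.add (Nat.add (Nat.add C x50710) x36130) x38074) x37750) x37534) x37594) x37586) x37590) x57270) x17906)
    (Nat.sub (Nat.sub (Nat.add (Nat.add (Nat.add (Nat.add (Nat.add (Nat.add (Nat.add C x50712) x36132) x38076) x37752) x37536) x37596) x37588) (Nat.mul x37590 (nat_lit 2))) x17908)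
    (Nat.sub (Nat.sub (Nat.sub (Nat.add (Nat.add (Nat.add (Nat.add (Nat.add (Nat.add (Nat.add (Nat.add C x50716) x36136) x38080) x37756) x37540) x37612) x37588) x37596) x37594) x57276) x17912)
    (Nat.sub (Nat.sub (Nat.add (Nat.add (Nat.add (Nat.add (Nat.add (Nat.add (Nat.add (Nat.add (Nat.add C x50718) x36138) x38082) x37758) x37542) x37614) x37590) x37602) x37594) x37596) x17914)
    (Nat.sub (Nat.sub (Nat.add (Nat.add (Nat.add (Nat.add (Nat.add (Nat.add (Nat.add C x50724) x36144) x38088) x37764) x37548) x37620) x37596) (Nat.mul x37602 (nat_lit 2))) x17920)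
    (Nat.sub (Nat.sub (Nat.add (Nat.add (Nat.add (Nat.add (Nat.add (Nat.add (Nat.add (Nat.add C x37612) x50734) x36154) x38098) x37774) x37558) x37594) x37614) x57294) x17930)
    (Nat.sub (Nat.add (Nat.add (Nat.add (Nat.add (Nat.add (Nat.add (Nat.add (Nat.add C x50736) x36156) x38100) x37776) x37560) x37596) x37620) x37612) x17932)
    (Nat.sub (Nat.add (Nat.add (Nat.add (Nat.add (Nat.add (Nat.add (Nat.add (Nat.add (Nat.add C x37620) x50742) x36162) x38106) x37782) x37566) x37602) x37638) x37614) x17938)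
    (Nat.sub (Nat.add (Nat.add (Nat.add (Nat.add (Nat.add (Nat.add C (Nat.mul x37638 (nat_lit 2))) x50760) x36180) x38124) x37800) x37620) x17956)
    (Nat.sub (Nat.add (Nat.add (Nat.add (Nat.add (Nat.add (Nat.add C x50792) x36212) x38156) x37508) x37676) x37672) x57352)
    (Nat.sub (Nat.sub (Nat.sub (Nat.add (Nat.add (Nat.add (Nat.add (Nat.add (Nat.add C x50794) x36214) x38158) x37510) x37678) x37670) x37672) x57354) x17990)
    (Nat.sub (Nat.sub (Nat.add (Nat.add (Nat.add (Nat.add (Nat.add (Nat.add (Nat.add C x50798) x36218) x38162) x37514) x37694) x37670) x37678) (Nat.mul x37676 (nat_lit 2))) x57358)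
    (Nat.sub (Nat.sub (Nat.sub (Nat.add (Nat.add (Nat.add (Nat.add (Nat.add (Nat.add (Nat.add (Nat.add (Nat.add C x50800) x36220) x38164) x37516) x37696) x37672) x37684) x37676) x37680) x37678) x57360) x17996)
    (Nat.sub (Nat.sub (Nat.add (Nat.add (Nat.add (Nat.add (Nat.add (Nat.add (Nat.add C x50802) x36222) x38166) x37518) x37698) x37686) x37678) (Nat.mul x37680 (nat_lit 2))) x17998)
    (Nat.sub (Nat.sub (Nat.sub (Nat.add (Nat.add (Nat.add (Nat.add (Nat.add (Nat.add (Nat.add C x50806) x36226) x38170) x37522) x37702) x37678) x37686) (Nat.mul x37684 (nat_lit 3))) x57366) x18002)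
    (Nat.sub (Nat.sub (Nat.add (Nat.add (Nat.add (Nat.add (Nat.add (Nat.add (Nat.add C x50808) x36228) x38172) x37524) x37704) x37680) x37684) (Nat.mul x37686 (nat_lit 2))) x18004)
    (Nat.sub (Nat.sub (Nat.add (Nat.add (Nat.add (Nat.add (Nat.add (Nat.add (Nat.add C x50816) x36236) x38180) x37532) x37748) x37676) x37696) (Nat.mul x37694 (nat_lit 2))) x57376)
    (Nat.sub (Nat.sub (Nat.sub (Nat.add (Nat.add (Nat.add (Nat.add (Nat.add (Nat.add (Nat.add (Nat.add (Nat.add C x50818) x36238) x38182) x37534) x37750) x37678) x37702) x37694) x37698) (Nat.mul x37696 (nat_lit 2))) x57378) x18014)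
    (Nat.sub (Nat.sub (Nat.add (Nat.add (Nat.add (Nat.add (Nat.add (Nat.add (Nat.add (Nat.add C x50820) x36240) x38184) x37536) x37752) x37680) x37704) x37696) (Nat.mul x37698 (nat_lit 4))) x18016)
    (Nat.sub (Nat.sub (Nat.sub (Nat.add (Nat.add (Nat.add (Nat.add (Nat.add (Nat.add (Nat.add (Nat.add (Nat.add C x50824) x36244) x38188) x37540) x37756) x37684) x37720) x37696) x37704) (Nat.mul x37702 (nat_lit 2))) x57384) x18020)
    (Nat.sub (Nat.sub (Nat.add (Nat.add (Nat.add (Nat.add (Nat.add (Nat.add (Nat.add (Nat.add (Nat.add (Nat.add C x50826) x36246) x38190) x37542) x37758) x37686) x37722) x37698) x37710) x37702) (Nat.mul x37704 (nat_lit 2))) x18022)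
    (Nat.sub (Nat.sub (Nat.add (Nat.add (Nat.add (Nat.add (Nat.add (Nat.add (Nat.add C x50832) x36252) x38196) x37548) x37764) x37728) x37704) (Nat.mul x37710 (nat_lit 2))) x18028)
    (Nat.sub (Nat.sub (Nat.sub (Nat.add (Nat.add (Nat.add (Nat.add (Nat.add (Nat.add (Nat.add C x50842) x36262) x38206) x37558) x37774) x37702) x37722) (Nat.mul x37720 (nat_lit 3))) x57402) x18038)
    (Nat.sub (Nat.sub (Nat.add (Nat.add (Nat.add (Nat.add (Nat.add (Nat.add (Nat.add (Nat.add C x50844) x36264) x38208) x37560) x37776) x37704) x37728) x37720) (Nat.mul x37722 (nat_lit 4))) x18040)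
    (Nat.sub (Nat.sub (Nat.add (Nat.add (Nat.add (Nat.add (Nat.add (Nat.add (Nat.add C x50850) x36270) x38214) x37566) x37782) x37710) x37722) (Nat.mul x37728 (nat_lit 2))) x18046)
    (Nat.sub (Nat.add (Nat.add (Nat.add (Nat.add (Nat.add (Nat.add C x50870) x36290) x38234) x37586) x37694) x37750) x57430)
    (Nat.sub (Nat.sub (Nat.add (Nat.add (Nat.add (Nat.add (Nat.add (Nat.add (Nat.add (Nat.add C x50872) x36292) x38236) x37588) x37696) x37756) x37748) x37752) x57432) x18068)
    (Nat.sub (Nat.sub (Nat.add (Nat.add (Nat.add (Nat.add (Nat.add (Nat.add (Nat.add C x50874) x36294) x38238) x37590) x37698) x37758) x37750) (Nat.mul x37752 (nat_lit 2))) x18070)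
    (Nat.sub (Nat.sub (Nat.sub (Nat.add (Nat.add (Nat.add (Nat.add (Nat.add (Nat.add (Nat.add (Nat.add C x50878) x36298) x38242) x37594) x37702) x37774) x37750) x37758) x37756) x57438) x18074)
    (Nat.sub (Nat.sub (Nat.add (Nat.add (Nat.add (Nat.add (Nat.add (Nat.add (Nat.add (Nat.add (Nat.add C x50880) x36300) x38244) x37596) x37704) x37776) x37752) x37764) x37756) x37758) x18076)
    (Nat.sub (Nat.sub (Nat.add (Nat.add (Nat.add (Nat.add (Nat.add (Nat.add (Nat.add C x50886) x36306) x38250) x37602) x37710) x37782) x37758) (Nat.mul x37764 (nat_lit 2))) x18082)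
    (Nat.sub (Nat.sub (Nat.add (Nat.add (Nat.add (Nat.add (Nat.add (Nat.add (Nat.add (Nat.add C x50896) x36316) x38260) x37612) x37720) x37828) x37756) x37776) x57456) x18092)
    (Nat.sub (Nat.sub (Nat.add (Nat.add (Nat.add (Nat.add (Nat.add (Nat.add (Nat.add (Nat.add (Nat.add C x50898) x36318) x38262) x37614) x37722) x37830) x37758) x37782) x37774) x37776) x18094)
    (Nat.sub (Nat.add (Nat.add (Nat.add (Nat.add (Nat.add (Nat.add (Nat.add (Nat.add (Nat.add C x50904) x36324) x38268) x37620) x37728) x37836) x37764) x37800) x37776) x18100)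
    (Nat.sub (Nat.add (Nat.add (Nat.add (Nat.add (Nat.add (Nat.add C x50922) x36342) x38286) x37638) x37854) x37782) x18118)
    (Nat.sub (Nat.sub (Nat.add (Nat.add (Nat.add (Nat.add (Nat.add (Nat.add C x37828) x50950) x36370) x38314) x37774) x37830) x57510) x18146)
    (Nat.sub (Nat.add (Nat.add (Nat.add (Nat.add (Nat.add (Nat.add C x50952) x36372) x38316) x37776) x37836) x37828) x18148)
    (Nat.sub (Nat.add (Nat.add (Nat.add (Nat.add (Nat.add (Nat.add C x50958) x36378) x38322) x37782) x37854) x37830) x18154)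
    (Nat.sub (Nat.add (Nat.add (Nat.add (Nat.add (Nat.add (Nat.add C (Nat.mul x37854 (nat_lit 2))) x50976) x36396) x38340) x37800) x37836) x18172)
    (Nat.sub (Nat.add (Nat.add (Nat.add (Nat.add (Nat.add C (Nat.mul x37916 (nat_lit 4))) x51038) x36458) x37430) x37922) x57598)
    (Nat.sub (Nat.add (Nat.add (Nat.add (Nat.add (Nat.add (Nat.add (Nat.add (Nat.add C (Nat.mul x37922 (nat_lit 3))) x51044) x36464) x37436) x37940) x37916) x37928) x37924) x57604)
    (Nat.sub (Nat.sub (Nat.add (Nat.add (Nat.add (Nat.add (Nat.add (Nat.add (Nat.add C (Nat.mul x37924 (nat_lit 3))) x51046) x36466) x37438) x37942) x37930) x37922) x57606) x18242)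
    (Nat.sub (Nat.add (Nat.add (Nat.add (Nat.add (Nat.add (Nat.add C x51050) x36470) x37442) x37946) x37922) x37930) x57610)
    (Nat.sub (Nat.sub (Nat.add (Nat.add (Nat.add (Nat.add (Nat.add (Nat.add (Nat.add (Nat.add C (Nat.mul x37930 (nat_lit 2))) x51052) x36472) x37444) x37948) x37924) x37928) x37932) x57612) x18248)
    (Nat.sub (Nat.add (Nat.add (Nat.add (Nat.add (Nat.add (Nat.add C (Nat.mul x37932 (nat_lit 2))) x51054) x36474) x37446) x37950) x37930) x18250)
    (Nat.sub (Nat.add (Nat.add (Nat.add (Nat.add (Nat.add (Nat.add (Nat.add (Nat.add C (Nat.mul x37940 (nat_lit 2))) x51062) x36482) x37454) x37994) x37922) x37946) x37942) x57622)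
    (Nat.sub (Nat.sub (Nat.add (Nat.add (Nat.add (Nat.add (Nat.add (Nat.add (Nat.add (Nat.add C x37942) x51064) x36484) x37456) x37996) x37924) x37948) x37940) x57624) x18260)
    (Nat.sub (Nat.add (Nat.add (Nat.add (Nat.add (Nat.add (Nat.add (Nat.add (Nat.add (Nat.add C x37946) x51068) x36488) x37460) x38000) x37928) x37964) x37940) x37948) x57628)
    (Nat.sub (Nat.sub (Nat.add (Nat.add (Nat.add (Nat.add (Nat.add (Nat.add (Nat.add (Nat.add (Nat.add (Nat.add (Nat.add C (Nat.mul x37948 (nat_lit 2))) x51070) x36490) x37462) x38002) x37930) x37966) x37942) x37954) x37946) x37950) x57630) x18266)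
    (Nat.sub (Nat.add (Nat.add (Nat.add (Nat.add (Nat.add (Nat.add (Nat.add (Nat.add (Nat.add C x37950) x51072) x36492) x37464) x38004) x37932) x37968) x37956) x37948) x18268)
    (Nat.sub (Nat.sub (Nat.add (Nat.add (Nat.add (Nat.add (Nat.add (Nat.add (Nat.add (Nat.add C x37954) x51076) x36496) x37468) x38008) x37972) x37948) x37956) x57636) x18272)
    (Nat.sub (Nat.add (Nat.add (Nat.add (Nat.add (Nat.add (Nat.add (Nat.add (Nat.add C (Nat.mul x37956 (nat_lit 2))) x51078) x36498) x37470) x38010) x37974) x37950) x37954) x18274)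
    (Nat.sub (Nat.add (Nat.add (Nat.add (Nat.add (Nat.add (Nat.add C x51086) x36506) x37478) x38018) x37946) x37966) x57646)
    (Nat.sub (Nat.sub (Nat.add (Nat.add (Nat.add (Nat.add (Nat.add (Nat.add (Nat.add (Nat.add C x51088) x36508) x37480) x38020) x37948) x37972) x37964) x37968) x57648) x18284)
    (Nat.sub (Nat.sub (Nat.add (Nat.add (Nat.add (Nat.add (Nat.add (Nat.add (Nat.add C x51090) x36510) x37482) x38022) x37950) x37974) x37966) (Nat.mul x37968 (nat_lit 2))) x18286)
    (Nat.sub (Nat.sub (Nat.add (Nat.add (Nat.add (Nat.add (Nat.add (Nat.add (Nat.add (Nat.add C x37972) x51094) x36514) x37486) x38026) x37954) x37966) x37974) x57654) x18290)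
    (Nat.sub (Nat.add (Nat.add (Nat.add (Nat.add (Nat.add (Nat.add (Nat.add (Nat.add (Nat.add C x37974) x51096) x36516) x37488) x38028) x37956) x37968) x37980) x37972) x18292)
    (Nat.sub (Nat.add (Nat.add (Nat.add (Nat.add (Nat.add (Nat.add C (Nat.mul x37980 (nat_lit 2))) x51102) x36522) x37494) x38034) x37974) x18298)
    (Nat.sub (Nat.add (Nat.add (Nat.add (Nat.add (Nat.add (Nat.add (Nat.add (Nat.add C (Nat.mul x37994 (nat_lit 2))) x51116) x36536) x37508) x38156) x37940) x38000) x37996) x57676)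
    (Nat.sub (Nat.sub (Nat.add (Nat.add (Nat.add (Nat.add (Nat.add (Nat.add (Nat.add (Nat.add C x37996) x51118) x36538) x37510) x38158) x37942) x38002) x37994) x57678) x18314)
    (Nat.sub (Nat.add (Nat.add (Nat.add (Nat.add (Nat.add (Nat.add (Nat.add (Nat.add C x51122) x36542) x37514) x38162) x37946) x38018) x37994) x38002) x57682)
    (Nat.sub (Nat.sub (Nat.add (Nat.add (Nat.add (Nat.add (Nat.add (Nat.add (Nat.add (Nat.add (Nat.add (Nat.add (Nat.add C x38002) x51124) x36544) x37516) x38164) x37948) x38020) x37996) x38008) x38000) x38004) x57684) x18320)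
    (Nat.sub (Nat.add (Nat.add (Nat.add (Nat.add (Nat.add (Nat.add (Nat.add (Nat.add C x51126) x36546) x37518) x38166) x37950) x38022) x38010) x38002) x18322)
    (Nat.sub (Nat.sub (Nat.sub (Nat.add (Nat.add (Nat.add (Nat.add (Nat.add (Nat.add (Nat.add (Nat.add C x51130) x36550) x37522) x38170) x37954) x38026) x38002) x38010) x38008) x57690) x18326)
    (Nat.sub (Nat.add (Nat.add (Nat.add (Nat.add (Nat.add (Nat.add (Nat.add (Nat.add C x51132) x36552) x37524) x38172) x37956) x38028) x38004) x38008) x18328)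
    (Nat.sub (Nat.add (Nat.add (Nat.add (Nat.add (Nat.add (Nat.add (Nat.add (Nat.add (Nat.add C x38018) x51140) x36560) x37532) x38180) x37964) x38072) x38000) x38020) x57700)
    (Nat.sub (Nat.sub (Nat.add (Nat.add (Nat.add (Nat.add (Nat.add (Nat.add (Nat.add (Nat.add (Nat.add (Nat.add (Nat.add C x38020) x51142) x36562) x37534) x38182) x37966) x38074) x38002) x38026) x38018) x38022) x57702) x18338)
    (Nat.sub (Nat.sub (Nat.add (Nat.add (Nat.add (Nat.add (Nat.add (Nat.add (Nat.add (Nat.add (Nat.add C x51144) x36564) x37536) x38184) x37968) x38076) x38004) x38028) x38020) x38022) x18340)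
    (Nat.sub (Nat.sub (Nat.add (Nat.add (Nat.add (Nat.add (Nat.add (Nat.add (Nat.add (Nat.add (Nat.add (Nat.add (Nat.add C x38026) x51148) x36568) x37540) x38188) x37972) x38080) x38008) x38044) x38020) x38028) x57708) x18344)
    (Nat.sub (Nat.add (Nat.add (Nat.add (Nat.add (Nat.add (Nat.add (Nat.add (Nat.add (Nat.add (Nat.add (Nat.add (Nat.add C x38028) x51150) x36570) x37542) x38190) x37974) x38082) x38010) x38046) x38022) x38034) x38026) x18346)
    (Nat.sub (Nat.add (Nat.add (Nat.add (Nat.add (Nat.add (Nat.add (Nat.add (Nat.add (Nat.add C x38034) x51156) x36576) x37548) x38196) x37980) x38088) x38052) x38028) x18352)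
    (Nat.sub (Nat.sub (Nat.add (Nat.add (Nat.add (Nat.add (Nat.add (Nat.add (Nat.add (Nat.add C x38044) x51166) x36586) x37558) x38206) x38098) x38026) x38046) x57726) x18362)
    (Nat.sub (Nat.add (Nat.add (Nat.add (Nat.add (Nat.add (Nat.add (Nat.add (Nat.add C x51168) x36588) x37560) x38208) x38100) x38028) x38052) x38044) x18364)
    (Nat.sub (Nat.add (Nat.add (Nat.add (Nat.add (Nat.add (Nat.add (Nat.add (Nat.add C (Nat.mul x38052 (nat_lit 2))) x51174) x36594) x37566) x38214) x38106) x38034) x38046) x18370)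
    (Nat.sub (Nat.add (Nat.add (Nat.add (Nat.add (Nat.add (Nat.add C x51194) x36614) x37586) x38234) x38018) x38074) x57754)
    (Nat.sub (Nat.sub (Nat.add (Nat.add (Nat.add (Nat.add (Nat.add (Nat.add (Nat.add (Nat.add C x51196) x36616) x37588) x38236) x38020) x38080) x38072) x38076) x57756) x18392)
    (Nat.sub (Nat.sub (Nat.add (Nat.add (Nat.add (Nat.add (Nat.add (Nat.add (Nat.add C x51198) x36618) x37590) x38238) x38022) x38082) x38074) (Nat.mul x38076 (nat_lit 2))) x18394)
    (Nat.sub (Nat.sub (Nat.sub (Nat.add (Nat.add (Nat.add (Nat.add (Nat.add (Nat.add (Nat.add (Nat.add C x51202) x36622) x37594) x38242) x38026) x38098) x38074) x38082) x38080) x57762) x18398)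
    (Nat.sub (Nat.sub (Nat.add (Nat.add (Nat.add (Nat.add (Nat.add (Nat.add (Nat.add (Nat.add (Nat.add C x51204) x36624) x37596) x38244) x38028) x38100) x38076) x38088) x38080) x38082) x18400)
    (Nat.sub (Nat.sub (Nat.add (Nat.add (Nat.add (Nat.add (Nat.add (Nat.add (Nat.add C x51210) x36630) x37602) x38250) x38034) x38106) x38082) (Nat.mul x38088 (nat_lit 2))) x18406)
    (Nat.sub (Nat.sub (Nat.add (Nat.add (Nat.add (Nat.add (Nat.add (Nat.add (Nat.add (Nat.add C x38098) x51220) x36640) x37612) x38260) x38044) x38080) x38100) x57780) x18416)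
    (Nat.sub (Nat.add (Nat.add (Nat.add (Nat.add (Nat.add (Nat.add (Nat.add (Nat.add C x51222) x36642) x37614) x38262) x38046) x38082) x38106) x38098) x18418)
    (Nat.sub (Nat.add (Nat.add (Nat.add (Nat.add (Nat.add (Nat.add (Nat.add (Nat.add (Nat.add C x38106) x51228) x36648) x37620) x38268) x38052) x38088) x38124) x38100) x18424)
    (Nat.sub (Nat.add (Nat.add (Nat.add (Nat.add (Nat.add (Nat.add C (Nat.mul x38124 (nat_lit 2))) x51246) x36666) x37638) x38286) x38106) x18442)
    (Nat.sub (Nat.add (Nat.add (Nat.add (Nat.add (Nat.add (Nat.add (Nat.add (Nat.add C (Nat.mul x38156 (nat_lit 3))) x51278) x36698) x37670) x38642) x37994) x38162) x38158) x57838)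
    (Nat.sub (Nat.sub (Nat.add (Nat.add (Nat.add (Nat.add (Nat.add (Nat.add (Nat.add (Nat.add C (Nat.mul x38158 (nat_lit 2))) x51280) x36700) x37672) x38644) x37996) x38164) x38156) x57840) x18476)
    (Nat.sub (Nat.add (Nat.add (Nat.add (Nat.add (Nat.add (Nat.add (Nat.add (Nat.add (Nat.add C x38162) x51284) x36704) x37676) x38648) x38000) x38180) x38156) x38164) x57844)
    (Nat.sub (Nat.sub (Nat.add (Nat.add (Nat.add (Nat.add (Nat.add (Nat.add (Nat.add (Nat.add (Nat.add (Nat.add (Nat.add C (Nat.mul x38164 (nat_lit 2))) x51286) x36706) x37678) x38650) x38002) x38182) x38158) x38170) x38162) x38166) x57846) x18482)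
    (Nat.sub (Nat.add (Nat.add (Nat.add (Nat.add (Nat.add (Nat.add (Nat.add (Nat.add (Nat.add C x38166) x51288) x36708) x37680) x38652) x38004) x38184) x38172) x38164) x18484)
    (Nat.sub (Nat.sub (Nat.add (Nat.add (Nat.add (Nat.add (Nat.add (Nat.add (Nat.add (Nat.add C x51292) x36712) x37684) x38656) x38008) x38188) x38164) x38172) x57852) x18488)
    (Nat.sub (Nat.add (Nat.add (Nat.add (Nat.add (Nat.add (Nat.add (Nat.add (Nat.add (Nat.add C x38172) x51294) x36714) x37686) x38658) x38010) x38190) x38166) x38170) x18490)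
    (Nat.sub (Nat.add (Nat.add (Nat.add (Nat.add (Nat.add (Nat.add (Nat.add (Nat.add (Nat.add C x38180) x51302) x36722) x37694) x38666) x38018) x38234) x38162) x38182) x57862)
    (Nat.sub (Nat.sub (Nat.add (Nat.add (Nat.add (Nat.add (Nat.add (Nat.add (Nat.add (Nat.add (Nat.add (Nat.add (Nat.add C x38182) x51304) x36724) x37696) x38668) x38020) x38236) x38164) x38188) x38180) x38184) x57864) x18500)
    (Nat.sub (Nat.sub (Nat.add (Nat.add (Nat.add (Nat.add (Nat.add (Nat.add (Nat.add (Nat.add (Nat.add C x51306) x36726) x37698) x38670) x38022) x38238) x38166) x38190) x38182) x38184) x18502)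
    (Nat.sub (Nat.sub (Nat.add (Nat.add (Nat.add (Nat.add (Nat.add (Nat.add (Nat.add (Nat.add (Nat.add (Nat.add (Nat.add C x38188) x51310) x36730) x37702) x38674) x38026) x38242) x38170) x38206) x38182) x38190) x57870) x18506)
    (Nat.sub (Nat.add (Nat.add (Nat.add (Nat.add (Nat.add (Nat.add (Nat.add (Nat.add (Nat.add (Nat.add (Nat.add (Nat.add C x38190) x51312) x36732) x37704) x38676) x38028) x38244) x38172) x38208) x38184) x38196) x38188) x18508)
    (Nat.sub (Nat.add (Nat.add (Nat.add (Nat.add (Nat.add (Nat.add (Nat.add (Nat.add (Nat.add C x38196) x51318) x36738) x37710) x38682) x38034) x38250) x38214) x38190) x18514)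
    (Nat.sub (Nat.sub (Nat.add (Nat.add (Nat.add (Nat.add (Nat.add (Nat.add (Nat.add (Nat.add C x51328) x36748) x37720) x38692) x38044) x38260) x38188) x38208) x57888) x18524)
    (Nat.sub (Nat.sub (Nat.add (Nat.add (Nat.add (Nat.add (Nat.add (Nat.add (Nat.add (Nat.add (Nat.add C x51330) x36750) x37722) x38694) x38046) x38262) x38190) x38214) x38206) x38208) x18526)
    (Nat.sub (Nat.add (Nat.add (Nat.add (Nat.add (Nat.add (Nat.add (Nat.add (Nat.add (Nat.add C x38214) x51336) x36756) x37728) x38700) x38052) x38268) x38196) x38208) x18532)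
    (Nat.sub (Nat.add (Nat.add (Nat.add (Nat.add (Nat.add (Nat.add (Nat.add (Nat.add (Nat.add C (Nat.mul x38234 (nat_lit 2))) x51356) x36776) x37748) x38720) x38072) x38396) x38180) x38236) x57916)
    (Nat.sub (Nat.sub (Nat.add (Nat.add (Nat.add (Nat.add (Nat.add (Nat.add (Nat.add (Nat.add (Nat.add (Nat.add (Nat.add C (Nat.mul x38236 (nat_lit 2))) x51358) x36778) x37750) x38722) x38074) x38398) x38182) x38242) x38234) x38238) x57918) x18554)
    (Nat.sub (Nat.add (Nat.add (Nat.add (Nat.add (Nat.add (Nat.add (Nat.add (Nat.add (Nat.add C x51360) x36780) x37752) x38724) x38076) x38400) x38184) x38244) x38236) x18556)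
    (Nat.sub (Nat.sub (Nat.add (Nat.add (Nat.add (Nat.add (Nat.add (Nat.add (Nat.add (Nat.add (Nat.add (Nat.add (Nat.add C x38242) x51364) x36784) x37756) x38728) x38080) x38404) x38188) x38260) x38236) x38244) x57924) x18560)
    (Nat.sub (Nat.add (Nat.add (Nat.add (Nat.add (Nat.add (Nat.add (Nat.add (Nat.add (Nat.add (Nat.add (Nat.add (Nat.add C x38244) x51366) x36786) x37758) x38730) x38082) x38406) x38190) x38262) x38238) x38250) x38242) x18562)
    (Nat.sub (Nat.add (Nat.add (Nat.add (Nat.add (Nat.add (Nat.add (Nat.add (Nat.add (Nat.add C x51372) x36792) x37764) x38736) x38088) x38412) x38196) x38268) x38244) x18568)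
    (Nat.sub (Nat.sub (Nat.add (Nat.add (Nat.add (Nat.add (Nat.add (Nat.add (Nat.add (Nat.add (Nat.add (Nat.add (Nat.add C (Nat.mul x38260 (nat_lit 2))) x51382) x36802) x37774) x38746) x38098) x38422) x38206) x38314) x38242) x38262) x57942) x18578)
    (Nat.sub (Nat.add (Nat.add (Nat.add (Nat.add (Nat.add (Nat.add (Nat.add (Nat.add (Nat.add (Nat.add (Nat.add (Nat.add C x38262) x51384) x36804) x37776) x38748) x38100) x38424) x38208) x38316) x38244) x38268) x38260) x18580)
    (Nat.sub (Nat.add (Nat.add (Nat.add (Nat.add (Nat.add (Nat.add (Nat.add (Nat.add (Nat.add (Nat.add (Nat.add (Nat.add C (Nat.mul x38268 (nat_lit 2))) x51390) x36810) x37782) x38754) x38106) x38430) x38214) x38322) x38250) x38286) x38262) x18586)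
    (Nat.sub (Nat.add (Nat.add (Nat.add (Nat.add (Nat.add (Nat.add (Nat.add (Nat.add (Nat.add C (Nat.mul x38286 (nat_lit 2))) x51408) x36828) x37800) x38772) x38124) x38448) x38340) x38268) x18604)
    (Nat.sub (Nat.sub (Nat.add (Nat.add (Nat.add (Nat.add (Nat.add (Nat.add (Nat.add (Nat.add C (Nat.mul x38314 (nat_lit 2))) x51436) x36856) x37828) x38800) x38476) x38260) x38316) x57996) x18632)
    (Nat.sub (Nat.add (Nat.add (Nat.add (Nat.add (Nat.add (Nat.add (Nat.add (Nat.add (Nat.add C x38316) x51438) x36858) x37830) x38802) x38478) x38262) x38322) x38314) x18634)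
    (Nat.sub (Nat.add (Nat.add (Nat.add (Nat.add (Nat.add (Nat.add (Nat.add (Nat.add (Nat.add C x38322) x51444) x36864) x37836) x38808) x38484) x38268) x38340) x38316) x18640)
    (Nat.sub (Nat.add (Nat.add (Nat.add (Nat.add (Nat.add (Nat.add (Nat.add (Nat.add C (Nat.mul x38340 (nat_lit 3))) x51462) x36882) x37854) x38826) x38502) x38286) x38322) x18658)
    (Nat.sub (Nat.add (Nat.add (Nat.add (Nat.add (Nat.add (Nat.add C (Nat.mul x38396 (nat_lit 2))) x51518) x36938) x38882) x38234) x38398) x58078)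
    (Nat.sub (Nat.sub (Nat.add (Nat.add (Nat.add (Nat.add (Nat.add (Nat.add (Nat.add (Nat.add C (Nat.mul x38398 (nat_lit 2))) x51520) x36940) x38884) x38236) x38404) x38396) x38400) x58080) x18716)
    (Nat.sub (Nat.add (Nat.add (Nat.add (Nat.add (Nat.add (Nat.add C x51522) x36942) x38886) x38238) x38406) x38398) x18718)
    (Nat.sub (Nat.sub (Nat.add (Nat.add (Nat.add (Nat.add (Nat.add (Nat.add (Nat.add (Nat.add C x38404) x51526) x36946) x38890) x38242) x38422) x38398) x38406) x58086) x18722)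
    (Nat.sub (Nat.add (Nat.add (Nat.add (Nat.add (Nat.add (Nat.add (Nat.add (Nat.add (Nat.add C x38406) x51528) x36948) x38892) x38244) x38424) x38400) x38412) x38404) x18724)
    (Nat.sub (Nat.add (Nat.add (Nat.add (Nat.add (Nat.add (Nat.add C x51534) x36954) x38898) x38250) x38430) x38406) x18730)
    (Nat.sub (Nat.sub (Nat.add (Nat.add (Nat.add (Nat.add (Nat.add (Nat.add (Nat.add (Nat.add C x38422) x51544) x36964) x38908) x38260) x38476) x38404) x38424) x58104) x18740)
    (Nat.sub (Nat.add (Nat.add (Nat.add (Nat.add (Nat.add (Nat.add (Nat.add (Nat.add C x51546) x36966) x38910) x38262) x38478) x38406) x38430) x38422) x18742)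
    (Nat.sub (Nat.add (Nat.add (Nat.add (Nat.add (Nat.add (Nat.add (Nat.add (Nat.add (Nat.add C x38430) x51552) x36972) x38916) x38268) x38484) x38412) x38448) x38424) x18748)
    (Nat.sub (Nat.add (Nat.add (Nat.add (Nat.add (Nat.add (Nat.add C x51570) x36990) x38934) x38286) x38502) x38430) x18766)
    (Nat.sub (Nat.sub (Nat.add (Nat.add (Nat.add (Nat.add (Nat.add (Nat.add (Nat.add C (Nat.mul x38476 (nat_lit 3))) x51598) x37018) x38962) x38314) x38422) x38478) x58158) x18794)
    (Nat.sub (Nat.add (Nat.add (Nat.add (Nat.add (Nat.add (Nat.add (Nat.add (Nat.add C (Nat.mul x38478 (nat_lit 2))) x51600) x37020) x38964) x38316) x38424) x38484) x38476) x18796)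
    (Nat.sub (Nat.add (Nat.add (Nat.add (Nat.add (Nat.add (Nat.add (Nat.add (Nat.add C (Nat.mul x38484 (nat_lit 2))) x51606) x37026) x38970) x38322) x38430) x38502) x38478) x18802)
    (Nat.sub (Nat.add (Nat.add (Nat.add (Nat.add (Nat.add (Nat.add (Nat.add (Nat.add C (Nat.mul x38502 (nat_lit 3))) x51624) x37044) x38988) x38340) x38448) x38556) x38484) x18820)
    (Nat.sub (Nat.add (Nat.add (Nat.add (Nat.add (Nat.add C (Nat.mul x38556 (nat_lit 4))) x51678) x37098) x39042) x38502) x18874)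
    (Nat.sub (Nat.add (Nat.add (Nat.add (Nat.add (Nat.add C (Nat.mul x38642 (nat_lit 4))) x51764) x38156) x38648) x38644) x58324)
    (Nat.sub (Nat.sub (Nat.add (Nat.add (Nat.add (Nat.add (Nat.add C (Nat.mul x38644 (nat_lit 3))) x51766) x38158) x38650) x38642) x58326) x18962)
    (Nat.sub (Nat.add (Nat.add (Nat.add (Nat.add (Nat.add (Nat.add C (Nat.mul x38648 (nat_lit 2))) x51770) x38162) x38666) x38642) x38650) x58330)
    (Nat.sub (Nat.sub (Nat.add (Nat.add (Nat.add (Nat.add (Nat.add (Nat.add (Nat.add (Nat.add C (Nat.mul x38650 (nat_lit 3))) x51772) x38164) x38668) x38644) x38656) x38648) x38652) x58332) x18968)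
    (Nat.sub (Nat.add (Nat.add (Nat.add (Nat.add (Nat.add (Nat.add C (Nat.mul x38652 (nat_lit 2))) x51774) x38166) x38670) x38658) x38650) x18970)
    (Nat.sub (Nat.sub (Nat.add (Nat.add (Nat.add (Nat.add (Nat.add (Nat.add C x38656) x51778) x38170) x38674) x38650) x38658) x58338) x18974)
    (Nat.sub (Nat.add (Nat.add (Nat.add (Nat.add (Nat.add (Nat.add C (Nat.mul x38658 (nat_lit 2))) x51780) x38172) x38676) x38652) x38656) x18976)
    (Nat.sub (Nat.add (Nat.add (Nat.add (Nat.add (Nat.add (Nat.add C (Nat.mul x38666 (nat_lit 2))) x51788) x38180) x38720) x38648) x38668) x58348)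
    (Nat.sub (Nat.sub (Nat.add (Nat.add (Nat.add (Nat.add (Nat.add (Nat.add (Nat.add (Nat.add C (Nat.mul x38668 (nat_lit 2))) x51790) x38182) x38722) x38650) x38674) x38666) x38670) x58350) x18986)
    (Nat.sub (Nat.add (Nat.add (Nat.add (Nat.add (Nat.add (Nat.add C x51792) x38184) x38724) x38652) x38676) x38668) x18988)
    (Nat.sub (Nat.sub (Nat.add (Nat.add (Nat.add (Nat.add (Nat.add (Nat.add (Nat.add (Nat.add C (Nat.mul x38674 (nat_lit 2))) x51796) x38188) x38728) x38656) x38692) x38668) x38676) x58356) x18992)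
    (Nat.sub (Nat.add (Nat.add (Nat.add (Nat.add (Nat.add (Nat.add (Nat.add (Nat.add (Nat.add C (Nat.mul x38676 (nat_lit 2))) x51798) x38190) x38730) x38658) x38694) x38670) x38682) x38674) x18994)
    (Nat.sub (Nat.add (Nat.add (Nat.add (Nat.add (Nat.add (Nat.add C (Nat.mul x38682 (nat_lit 2))) x51804) x38196) x38736) x38700) x38676) x19000)
    (Nat.sub (Nat.sub (Nat.add (Nat.add (Nat.add (Nat.add (Nat.add (Nat.add C x38692) x51814) x38206) x38746) x38674) x38694) x58374) x19010)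
    (Nat.sub (Nat.add (Nat.add (Nat.add (Nat.add (Nat.add (Nat.add C x51816) x38208) x38748) x38676) x38700) x38692) x19012)
    (Nat.sub (Nat.add (Nat.add (Nat.add (Nat.add (Nat.add (Nat.add C (Nat.mul x38700 (nat_lit 2))) x51822) x38214) x38754) x38682) x38694) x19018)
    (Nat.sub (Nat.add (Nat.add (Nat.add (Nat.add (Nat.add (Nat.add C (Nat.mul x38720 (nat_lit 2))) x51842) x38234) x38882) x38666) x38722) x58402)
    (Nat.sub (Nat.sub (Nat.add (Nat.add (Nat.add (Nat.add (Nat.add (Nat.add (Nat.add (Nat.add C (Nat.mul x38722 (nat_lit 2))) x51844) x38236) x38884) x38668) x38728) x38720) x38724) x58404) x19040)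
    (Nat.sub (Nat.add (Nat.add (Nat.add (Nat.add (Nat.add (Nat.add C x51846) x38238) x38886) x38670) x38730) x38722) x19042)
    (Nat.sub (Nat.sub (Nat.add (Nat.add (Nat.add (Nat.add (Nat.add (Nat.add (Nat.add (Nat.add C x38728) x51850) x38242) x38890) x38674) x38746) x38722) x38730) x58410) x19046)
    (Nat.sub (Nat.add (Nat.add (Nat.add (Nat.add (Nat.add (Nat.add (Nat.add (Nat.add (Nat.add C x38730) x51852) x38244) x38892) x38676) x38748) x38724) x38736) x38728) x19048)
    (Nat.sub (Nat.add (Nat.add (Nat.add (Nat.add (Nat.add (Nat.add C x51858) x38250) x38898) x38682) x38754) x38730) x19054)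
    (Nat.sub (Nat.sub (Nat.add (Nat.add (Nat.add (Nat.add (Nat.add (Nat.add (Nat.add (Nat.add C (Nat.mul x38746 (nat_lit 2))) x51868) x38260) x38908) x38692) x38800) x38728) x38748) x58428) x19064)
    (Nat.sub (Nat.add (Nat.add (Nat.add (Nat.add (Nat.add (Nat.add (Nat.add (Nat.add (Nat.add C x38748) x51870) x38262) x38910) x38694) x38802) x38730) x38754) x38746) x19066)
    (Nat.sub (Nat.add (Nat.add (Nat.add (Nat.add (Nat.add (Nat.add (Nat.add (Nat.add (Nat.add C (Nat.mul x38754 (nat_lit 2))) x51876) x38268) x38916) x38700) x38808) x38736) x38772) x38748) x19072)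
    (Nat.sub (Nat.add (Nat.add (Nat.add (Nat.add (Nat.add (Nat.add C (Nat.mul x38772 (nat_lit 2))) x51894) x38286) x38934) x38826) x38754) x19090)
    (Nat.sub (Nat.sub (Nat.add (Nat.add (Nat.add (Nat.add (Nat.add (Nat.add C x38800) x51922) x38314) x38962) x38746) x38802) x58482) x19118)
    (Nat.sub (Nat.add (Nat.add (Nat.add (Nat.add (Nat.add (Nat.add C x51924) x38316) x38964) x38748) x38808) x38800) x19120)
    (Nat.sub (Nat.add (Nat.add (Nat.add (Nat.add (Nat.add (Nat.add C x51930) x38322) x38970) x38754) x38826) x38802) x19126)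
    (Nat.sub (Nat.add (Nat.add (Nat.add (Nat.add (Nat.add (Nat.add C (Nat.mul x38826 (nat_lit 2))) x51948) x38340) x38988) x38772) x38808) x19144)
    (Nat.sub (Nat.add (Nat.add (Nat.add (Nat.add (Nat.add C (Nat.mul x38882 (nat_lit 4))) x52004) x38396) x38720) x38884) x58564)
    (Nat.sub (Nat.sub (Nat.add (Nat.add (Nat.add (Nat.add (Nat.add (Nat.add (Nat.add C (Nat.mul x38884 (nat_lit 4))) x52006) x38398) x38722) x38890) x38882) x38886) x58566) x19202)
    (Nat.sub (Nat.add (Nat.add (Nat.add (Nat.add (Nat.add (Nat.add C (Nat.mul x38886 (nat_lit 2))) x52008) x38400) x38724) x38892) x38884) x19204)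
    (Nat.sub (Nat.sub (Nat.add (Nat.add (Nat.add (Nat.add (Nat.add (Nat.add (Nat.add C (Nat.mul x38890 (nat_lit 3))) x52012) x38404) x38728) x38908) x38884) x38892) x58572) x19208)
    (Nat.sub (Nat.add (Nat.add (Nat.add (Nat.add (Nat.add (Nat.add (Nat.add (Nat.add C (Nat.mul x38892 (nat_lit 3))) x52014) x38406) x38730) x38910) x38886) x38898) x38890) x19210)
    (Nat.sub (Nat.add (Nat.add (Nat.add (Nat.add (Nat.add (Nat.add C (Nat.mul x38898 (nat_lit 2))) x52020) x38412) x38736) x38916) x38892) x19216)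
    (Nat.sub (Nat.sub (Nat.add (Nat.add (Nat.add (Nat.add (Nat.add (Nat.add (Nat.add C (Nat.mul x38908 (nat_lit 3))) x52030) x38422) x38746) x38962) x38890) x38910) x58590) x19226)
    (Nat.sub (Nat.add (Nat.add (Nat.add (Nat.add (Nat.add (Nat.add (Nat.add (Nat.add C (Nat.mul x38910 (nat_lit 2))) x52032) x38424) x38748) x38964) x38892) x38916) x38908) x19228)
    (Nat.sub (Nat.add (Nat.add (Nat.add (Nat.add (Nat.add (Nat.add (Nat.add (Nat.add C (Nat.mul x38916 (nat_lit 3))) x52038) x38430) x38754) x38970) x38898) x38934) x38910) x19234)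
    (Nat.sub (Nat.add (Nat.add (Nat.add (Nat.add (Nat.add (Nat.add C (Nat.mul x38934 (nat_lit 2))) x52056) x38448) x38772) x38988) x38916) x19252)
    (Nat.sub (Nat.sub (Nat.add (Nat.add (Nat.add (Nat.add (Nat.add (Nat.add (Nat.add C (Nat.mul x38962 (nat_lit 4))) x52084) x38476) x38800) x39124) x38908) x38964) x58644) x19280)
    (Nat.sub (Nat.add (Nat.add (Nat.add (Nat.add (Nat.add (Nat.add (Nat.add (Nat.add C (Nat.mul x38964 (nat_lit 3))) x52086) x38478) x38802) x39126) x38910) x38970) x38962) x19282)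
    (Nat.sub (Nat.add (Nat.add (Nat.add (Nat.add (Nat.add (Nat.add (Nat.add (Nat.add C (Nat.mul x38970 (nat_lit 3))) x52092) x38484) x38808) x39132) x38916) x38988) x38964) x19288)
    (Nat.sub (Nat.add (Nat.add (Nat.add (Nat.add (Nat.add (Nat.add (Nat.add (Nat.add C (Nat.mul x38988 (nat_lit 4))) x52110) x38502) x38826) x39150) x38934) x39042) x38970) x19306)
    (Nat.sub (Nat.add (Nat.add (Nat.add (Nat.add (Nat.add C (Nat.mul x39042 (nat_lit 4))) x52164) x38556) x39204) x38988) x19360)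
    (Nat.sub (Nat.sub (Nat.add (Nat.add (Nat.add (Nat.add C (Nat.mul x39124 (nat_lit 5))) x52246) x38962) x39126) x58806) x19442)
    (Nat.sub (Nat.add (Nat.add (Nat.add (Nat.add (Nat.add C (Nat.mul x39126 (nat_lit 4))) x52248) x38964) x39132) x39124) x19444)
    (Nat.sub (Nat.add (Nat.add (Nat.add (Nat.add (Nat.add C (Nat.mul x39132 (nat_lit 4))) x52254) x38970) x39150) x39126) x19450)
    (Nat.sub (Nat.add (Nat.add (Nat.add (Nat.add (Nat.add C (Nat.mul x39150 (nat_lit 4))) x52272) x38988) x39204) x39132) x19468)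
    (Nat.sub (Nat.add (Nat.add (Nat.add (Nat.add C (Nat.mul x39204 (nat_lit 6))) x52326) x39042) x39150) x19522)
    (Nat.add (Nat.add (Nat.add C (Nat.mul x39446 (nat_lit 6))) x26324) x39500)
    (Nat.add (Nat.add (Nat.add (Nat.add (Nat.add (Nat.add C (Nat.mul x39500 (nat_lit 5))) x26378) x39662) x39446) x39554) x39518)
    (Nat.add (Nat.add (Nat.add (Nat.add (Nat.add (Nat.add C (Nat.mul x39518 (nat_lit 4))) x26396) x39680) x39572) x39500) x39524)
    (Nat.add (Nat.add (Nat.add (Nat.add (Nat.add (Nat.add C (Nat.mul x39524 (nat_lit 4))) x26402) x39686) x39578) x39518) x39526)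
    (Nat.sub (Nat.add (Nat.add (Nat.add (Nat.add (Nat.add C (Nat.mul x39526 (nat_lit 4))) x26404) x39688) x39580) x39524) x19844)
    (Nat.add (Nat.add (Nat.add (Nat.add (Nat.add C (Nat.mul x39554 (nat_lit 2))) x26432) x39716) x39500) x39572)
    (Nat.add (Nat.add (Nat.add (Nat.add (Nat.add (Nat.add (Nat.add C (Nat.mul x39572 (nat_lit 3))) x26450) x39734) x39518) x39554) x39590) x39578)
    (Nat.add (Nat.add (Nat.add (Nat.add (Nat.add (Nat.add (Nat.add C (Nat.mul x39578 (nat_lit 2))) x26456) x39740) x39524) x39596) x39572) x39580)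
    (Nat.sub (Nat.add (Nat.add (Nat.add (Nat.add (Nat.add (Nat.add C (Nat.mul x39580 (nat_lit 2))) x26458) x39742) x39526) x39598) x39578) x19898)
    (Nat.add (Nat.add (Nat.add (Nat.add (Nat.add C (Nat.mul x39590 (nat_lit 2))) x26468) x39752) x39572) x39596)
    (Nat.add (Nat.add (Nat.add (Nat.add (Nat.add (Nat.add (Nat.add C (Nat.mul x39596 (nat_lit 3))) x26474) x39758) x39578) x39590) x39602) x39598)
    (Nat.sub (Nat.add (Nat.add (Nat.add (Nat.add (Nat.add (Nat.add C (Nat.mul x39598 (nat_lit 2))) x26476) x39760) x39580) x39604) x39596) x19916)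
    (Nat.add (Nat.add (Nat.add (Nat.add (Nat.add C (Nat.mul x39602 (nat_lit 2))) x26480) x39764) x39596) x39604)
    (Nat.sub (Nat.add (Nat.add (Nat.add (Nat.add (Nat.add (Nat.add C (Nat.mul x39604 (nat_lit 3))) x26482) x39766) x39598) x39602) x39606) x19922)
    (Nat.sub (Nat.add (Nat.add (Nat.add (Nat.add C (Nat.mul x39606 (nat_lit 2))) x26484) x39768) x39604) x19924)
    (Nat.add (Nat.add (Nat.add (Nat.add (Nat.add (Nat.add C (Nat.mul x39662 (nat_lit 4))) x26540) x40148) x39500) x39716) x39680)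
    (Nat.add (Nat.add (Nat.add (Nat.add (Nat.add (Nat.add (Nat.add C (Nat.mul x39680 (nat_lit 2))) x26558) x40166) x39518) x39734) x39662) x39686)
    (Nat.add (Nat.add (Nat.add (Nat.add (Nat.add (Nat.add (Nat.add C (Nat.mul x39686 (nat_lit 2))) x26564) x40172) x39524) x39740) x39680) x39688)
    (Nat.sub (Nat.add (Nat.add (Nat.add (Nat.add (Nat.add (Nat.add C (Nat.mul x39688 (nat_lit 2))) x26566) x40174) x39526) x39742) x39686) x20006)
    (Nat.add (Nat.add (Nat.add (Nat.add (Nat.add (Nat.add (Nat.add C (Nat.mul x39716 (nat_lit 3))) x26594) x40202) x39554) x39878) x39662) x39734)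
    (Nat.add (Nat.add (Nat.add (Nat.add (Nat.add (Nat.add (Nat.add (Nat.add (Nat.add (Nat.add C (Nat.mul x39734 (nat_lit 3))) x26612) x40220) x39572) x39896) x39680) x39788) x39716) x39752) x39740)
    (Nat.add (Nat.add (Nat.add (Nat.add (Nat.add (Nat.add (Nat.add (Nat.add (Nat.add (Nat.add C (Nat.mul x39740 (nat_lit 2))) x26618) x40226) x39578) x39902) x39686) x39794) x39758) x39734) x39742)
    (Nat.sub (Nat.add (Nat.add (Nat.add (Nat.add (Nat.add (Nat.add (Nat.add (Nat.add (Nat.add C (Nat.mul x39742 (nat_lit 2))) x26620) x40228) x39580) x39904) x39688) x39796) x39760) x39740) x20060)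
    (Nat.add (Nat.add (Nat.add (Nat.add (Nat.add (Nat.add (Nat.add (Nat.add C x39752) x26630) x40238) x39590) x39914) x39806) x39734) x39758)
    (Nat.add (Nat.add (Nat.add (Nat.add (Nat.add (Nat.add (Nat.add (Nat.add (Nat.add (Nat.add C (Nat.mul x39758 (nat_lit 2))) x26636) x40244) x39596) x39920) x39812) x39740) x39752) x39764) x39760)
    (Nat.sub (Nat.add (Nat.add (Nat.add (Nat.add (Nat.add (Nat.add (Nat.add (Nat.add (Nat.add C x39760) x26638) x40246) x39598) x39922) x39814) x39742) x39766) x39758) x20078)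
    (Nat.add (Nat.add (Nat.add (Nat.add (Nat.add (Nat.add (Nat.add (Nat.add C x39764) x26642) x40250) x39602) x39926) x39818) x39758) x39766)
    (Nat.sub (Nat.add (Nat.add (Nat.add (Nat.add (Nat.add (Nat.add (Nat.add (Nat.add (Nat.add C (Nat.mul x39766 (nat_lit 2))) x26644) x40252) x39604) x39928) x39820) x39760) x39764) x39768) x20084)
    (Nat.sub (Nat.add (Nat.add (Nat.add (Nat.add (Nat.add (Nat.add (Nat.add C x39768) x26646) x40254) x39606) x39930) x39822) x39766) x20086)
    (Nat.add (Nat.add (Nat.add (Nat.add (Nat.add (Nat.add (Nat.add C (Nat.mul x39788 (nat_lit 2))) x26666) x40274) x39950) x39734) x39806) x39794)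
    (Nat.add (Nat.add (Nat.add (Nat.add (Nat.add (Nat.add (Nat.add C x26672) x40280) x39956) x39740) x39812) x39788) x39796)
    (Nat.sub (Nat.add (Nat.add (Nat.add (Nat.add (Nat.add (Nat.add C x26674) x40282) x39958) x39742) x39814) x39794) x20114)
    (Nat.add (Nat.add (Nat.add (Nat.add (Nat.add (Nat.add (Nat.add C (Nat.mul x39806 (nat_lit 2))) x26684) x40292) x39968) x39752) x39788) x39812)
    (Nat.add (Nat.add (Nat.add (Nat.add (Nat.add (Nat.add (Nat.add (Nat.add (Nat.add (Nat.add C (Nat.mul x39812 (nat_lit 2))) x26690) x40298) x39974) x39758) x39794) x39830) x39806) x39818) x39814)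
    (Nat.sub (Nat.add (Nat.add (Nat.add (Nat.add (Nat.add (Nat.add (Nat.add (Nat.add (Nat.add C x39814) x26692) x40300) x39976) x39760) x39796) x39832) x39820) x39812) x20132)
    (Nat.add (Nat.add (Nat.add (Nat.add (Nat.add (Nat.add (Nat.add C x26696) x40304) x39980) x39764) x39836) x39812) x39820)
    (Nat.sub (Nat.add (Nat.add (Nat.add (Nat.add (Nat.add (Nat.add (Nat.add (Nat.add (Nat.add C x39820) x26698) x40306) x39982) x39766) x39838) x39814) x39818) x39822) x20138)
    (Nat.sub (Nat.add (Nat.add (Nat.add (Nat.add (Nat.add (Nat.add C x26700) x40308) x39984) x39768) x39840) x39820) x20140)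
    (Nat.add (Nat.add (Nat.add (Nat.add (Nat.add (Nat.add (Nat.add C (Nat.mul x39830 (nat_lit 2))) x26708) x40316) x39992) x39812) x39836) x39832)
    (Nat.sub (Nat.add (Nat.add (Nat.add (Nat.add (Nat.add (Nat.add C x26710) x40318) x39994) x39814) x39838) x39830) x20150)
    (Nat.add (Nat.add (Nat.add (Nat.add (Nat.add (Nat.add (Nat.add C (Nat.mul x39836 (nat_lit 2))) x26714) x40322) x39998) x39818) x39830) x39838)
    (Nat.sub (Nat.add (Nat.add (Nat.add (Nat.add (Nat.add (Nat.add (Nat.add (Nat.add (Nat.add C (Nat.mul x39838 (nat_lit 2))) x26716) x40324) x40000) x39820) x39832) x39844) x39836) x39840) x20156)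
    (Nat.sub (Nat.add (Nat.add (Nat.add (Nat.add (Nat.add (Nat.add C x26718) x40326) x40002) x39822) x39846) x39838) x20158)
    (Nat.sub (Nat.add (Nat.add (Nat.add (Nat.add (Nat.add (Nat.add C (Nat.mul x39844 (nat_lit 2))) x26722) x40330) x40006) x39838) x39846) x20162)
    (Nat.sub (Nat.add (Nat.add (Nat.add (Nat.add (Nat.add (Nat.add C (Nat.mul x39846 (nat_lit 2))) x26724) x40332) x40008) x39840) x39844) x20164)
    (Nat.add (Nat.add (Nat.add (Nat.add (Nat.add C (Nat.mul x39878 (nat_lit 2))) x26756) x40364) x39716) x39896)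
    (Nat.add (Nat.add (Nat.add (Nat.add (Nat.add (Nat.add (Nat.add (Nat.add C x39896) x26774) x40382) x39734) x39950) x39878) x39914) x39902)
    (Nat.add (Nat.add (Nat.add (Nat.add (Nat.add (Nat.add (Nat.add C x26780) x40388) x39740) x39956) x39920) x39896) x39904)
    (Nat.sub (Nat.add (Nat.add (Nat.add (Nat.add (Nat.add (Nat.add C x26782) x40390) x39742) x39958) x39922) x39902) x20222)
    (Nat.sub (Nat.add (Nat.add (Nat.add (Nat.add (Nat.add (Nat.add C x26792) x40400) x39752) x39968) x39896) x39920) (Nat.mul x39914 (nat_lit 2)))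
    (Nat.sub (Nat.add (Nat.add (Nat.add (Nat.add (Nat.add (Nat.add (Nat.add (Nat.add C x26798) x40406) x39758) x39974) x39902) x39914) x39926) x39922) x39920)
    (Nat.sub (Nat.sub (Nat.add (Nat.add (Nat.add (Nat.add (Nat.add (Nat.add (Nat.add C x26800) x40408) x39760) x39976) x39904) x39928) x39920) (Nat.mul x39922 (nat_lit 2))) x20240)
    (Nat.sub (Nat.add (Nat.add (Nat.add (Nat.add (Nat.add (Nat.add C x26804) x40412) x39764) x39980) x39920) x39928) (Nat.mul x39926 (nat_lit 2)))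
    (Nat.sub (Nat.sub (Nat.add (Nat.add (Nat.add (Nat.add (Nat.add (Nat.add (Nat.add C x26806) x40414) x39766) x39982) x39922) x39926) x39930) x39928) x20246)
    (Nat.sub (Nat.sub (Nat.add (Nat.add (Nat.add (Nat.add (Nat.add C x26808) x40416) x39768) x39984) x39928) (Nat.mul x39930 (nat_lit 2))) x20248)
    (Nat.add (Nat.add (Nat.add (Nat.add (Nat.add (Nat.add (Nat.add C (Nat.mul x39950 (nat_lit 2))) x26828) x40436) x39788) x39896) x39968) x39956)
    (Nat.add (Nat.add (Nat.add (Nat.add (Nat.add (Nat.add (Nat.add C x26834) x40442) x39794) x39902) x39974) x39950) x39958)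
    (Nat.sub (Nat.add (Nat.add (Nat.add (Nat.add (Nat.add (Nat.add C x26836) x40444) x39796) x39904) x39976) x39956) x20276)
    (Nat.add (Nat.add (Nat.add (Nat.add (Nat.add (Nat.add (Nat.add (Nat.add C x39968) x26846) x40454) x39806) x39914) x40022) x39950) x39974)
    (Nat.add (Nat.add (Nat.add (Nat.add (Nat.add (Nat.add (Nat.add (Nat.add (Nat.add (Nat.add (Nat.add C x39974) x26852) x40460) x39812) x39920) x40028) x39956) x39992) x39968) x39980) x39976)
    (Nat.sub (Nat.add (Nat.add (Nat.add (Nat.add (Nat.add (Nat.add (Nat.add (Nat.add (Nat.add C x26854) x40462) x39814) x39922) x40030) x39958) x39994) x39982) x39974) x20294)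
    (Nat.sub (Nat.add (Nat.add (Nat.add (Nat.add (Nat.add (Nat.add (Nat.add (Nat.add C x26858) x40466) x39818) x39926) x40034) x39998) x39974) x39982) x39980)
    (Nat.sub (Nat.add (Nat.add (Nat.add (Nat.add (Nat.add (Nat.add (Nat.add (Nat.add (Nat.add C x26860) x40468) x39820) x39928) x40036) x40000) x39976) x39980) x39984) x20300)
    (Nat.sub (Nat.sub (Nat.add (Nat.add (Nat.add (Nat.add (Nat.add (Nat.add (Nat.add C x26862) x40470) x39822) x39930) x40038) x40002) x39982) x39984) x20302)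
    (Nat.add (Nat.add (Nat.add (Nat.add (Nat.add (Nat.add (Nat.add C x26870) x40478) x39830) x40046) x39974) x39998) x39994)
    (Nat.sub (Nat.sub (Nat.add (Nat.add (Nat.add (Nat.add (Nat.add (Nat.add (Nat.add C x26872) x40480) x39832) x40048) x39976) x40000) x39992) (Nat.mul x39994 (nat_lit 2))) x20312)
    (Nat.add (Nat.add (Nat.add (Nat.add (Nat.add (Nat.add (Nat.add C x26876) x40484) x39836) x40052) x39980) x39992) x40000)
    (Nat.sub (Nat.add (Nat.add (Nat.add (Nat.add (Nat.add (Nat.add (Nat.add (Nat.add (Nat.add C x26878) x40486) x39838) x40054) x39982) x39994) x40006) x39998) x40002) x20318)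
    (Nat.sub (Nat.sub (Nat.add (Nat.add (Nat.add (Nat.add (Nat.add (Nat.add (Nat.add C x26880) x40488) x39840) x40056) x39984) x40008) x40000) (Nat.mul x40002 (nat_lit 2))) x20320)
    (Nat.sub (Nat.add (Nat.add (Nat.add (Nat.add (Nat.add (Nat.add C x26884) x40492) x39844) x40060) x40000) x40008) x20324)
    (Nat.sub (Nat.add (Nat.add (Nat.add (Nat.add (Nat.add (Nat.add C x26886) x40494) x39846) x40062) x40002) x40006) x20326)
    (Nat.add (Nat.add (Nat.add (Nat.add (Nat.add C (Nat.mul x40022 (nat_lit 2))) x26900) x40508) x39968) x40028)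
    (Nat.add (Nat.add (Nat.add (Nat.add (Nat.add (Nat.add (Nat.add (Nat.add C x40028) x26906) x40514) x39974) x40046) x40022) x40034) x40030)
    (Nat.sub (Nat.add (Nat.add (Nat.add (Nat.add (Nat.add (Nat.add C x26908) x40516) x39976) x40048) x40036) x40028) x20348)
    (Nat.sub (Nat.add (Nat.add (Nat.add (Nat.add (Nat.add (Nat.add C x26912) x40520) x39980) x40052) x40028) x40036) (Nat.mul x40034 (nat_lit 2)))
    (Nat.sub (Nat.sub (Nat.add (Nat.add (Nat.add (Nat.add (Nat.add (Nat.add (Nat.add C x26914) x40522) x39982) x40054) x40030) x40034) x40038) x40036) x20354)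
    (Nat.sub (Nat.sub (Nat.add (Nat.add (Nat.add (Nat.add (Nat.add C x26916) x40524) x39984) x40056) x40036) (Nat.mul x40038 (nat_lit 2))) x20356)
    (Nat.add (Nat.add (Nat.add (Nat.add (Nat.add (Nat.add (Nat.add C (Nat.mul x40046 (nat_lit 2))) x26924) x40532) x39992) x40028) x40052) x40048)
    (Nat.sub (Nat.add (Nat.add (Nat.add (Nat.add (Nat.add (Nat.add C x26926) x40534) x39994) x40030) x40054) x40046) x20366)
    (Nat.add (Nat.add (Nat.add (Nat.add (Nat.add (Nat.add (Nat.add (Nat.add C x40052) x26930) x40538) x39998) x40034) x40070) x40046) x40054)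
    (Nat.sub (Nat.add (Nat.add (Nat.add (Nat.add (Nat.add (Nat.add (Nat.add (Nat.add (Nat.add (Nat.add C x40054) x26932) x40540) x40000) x40036) x40072) x40048) x40060) x40052) x40056) x20372)
    (Nat.sub (Nat.sub (Nat.add (Nat.add (Nat.add (Nat.add (Nat.add (Nat.add (Nat.add C x26934) x40542) x40002) x40038) x40074) x40062) x40054) x40056) x20374)
    (Nat.sub (Nat.add (Nat.add (Nat.add (Nat.add (Nat.add (Nat.add C x26938) x40546) x40006) x40078) x40054) x40062) x20378)
    (Nat.sub (Nat.add (Nat.add (Nat.add (Nat.add (Nat.add (Nat.add C x26940) x40548) x40008) x40080) x40056) x40060) x20380)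
    (Nat.add (Nat.add (Nat.add (Nat.add (Nat.add C (Nat.mul x40070 (nat_lit 2))) x26948) x40556) x40052) x40072)
    (Nat.sub (Nat.add (Nat.add (Nat.add (Nat.add (Nat.add (Nat.add (Nat.add C x40072) x26950) x40558) x40054) x40078) x40070) x40074) x20390)
    (Nat.sub (Nat.sub (Nat.add (Nat.add (Nat.add (Nat.add (Nat.add C x26952) x40560) x40056) x40080) x40072) (Nat.mul x40074 (nat_lit 2))) x20392)
    (Nat.sub (Nat.add (Nat.add (Nat.add (Nat.add (Nat.add (Nat.add C (Nat.mul x40078 (nat_lit 2))) x26956) x40564) x40060) x40072) x40080) x20396)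
    (Nat.sub (Nat.add (Nat.add (Nat.add (Nat.add (Nat.add (Nat.add (Nat.add C x40080) x26958) x40566) x40062) x40074) x40086) x40078) x20398)
    (Nat.sub (Nat.add (Nat.add (Nat.add (Nat.add C (Nat.mul x40086 (nat_lit 2))) x26964) x40572) x40080) x20404)
    (Nat.add (Nat.add (Nat.add (Nat.add (Nat.add (Nat.add C (Nat.mul x40148 (nat_lit 4))) x27026) x41606) x39662) x40202) x40166)
    (Nat.add (Nat.add (Nat.add (Nat.add (Nat.add (Nat.add (Nat.add C (Nat.mul x40166 (nat_lit 2))) x27044) x41624) x39680) x40220) x40148) x40172)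
    (Nat.add (Nat.add (Nat.add (Nat.add (Nat.add (Nat.add (Nat.add C (Nat.mul x40172 (nat_lit 2))) x27050) x41630) x39686) x40226) x40166) x40174)
    (Nat.sub (Nat.add (Nat.add (Nat.add (Nat.add (Nat.add (Nat.add C (Nat.mul x40174 (nat_lit 2))) x27052) x41632) x39688) x40228) x40172) x20492)
    (Nat.add (Nat.add (Nat.add (Nat.add (Nat.add (Nat.add (Nat.add C (Nat.mul x40202 (nat_lit 2))) x27080) x41660) x39716) x40364) x40148) x40220)
    (Nat.add (Nat.add (Nat.add (Nat.add (Nat.add (Nat.add (Nat.add (Nat.add (Nat.add (Nat.add C (Nat.mul x40220 (nat_lit 2))) x27098) x41678) x39734) x40382) x40166) x40274) x40202) x40238) x40226)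
    (Nat.add (Nat.add (Nat.add (Nat.add (Nat.add (Nat.add (Nat.add (Nat.add (Nat.add (Nat.add C x40226) x27104) x41684) x39740) x40388) x40172) x40280) x40244) x40220) x40228)
    (Nat.sub (Nat.add (Nat.add (Nat.add (Nat.add (Nat.add (Nat.add (Nat.add (Nat.add (Nat.add C x40228) x27106) x41686) x39742) x40390) x40174) x40282) x40246) x40226) x20546)
    (Nat.add (Nat.add (Nat.add (Nat.add (Nat.add (Nat.add (Nat.add C x27116) x41696) x39752) x40400) x40292) x40220) x40244)
    (Nat.add (Nat.add (Nat.add (Nat.add (Nat.add (Nat.add (Nat.add (Nat.add (Nat.add (Nat.add C x40244) x27122) x41702) x39758) x40406) x40298) x40226) x40238) x40250) x40246)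
    (Nat.sub (Nat.add (Nat.add (Nat.add (Nat.add (Nat.add (Nat.add (Nat.add (Nat.add C x27124) x41704) x39760) x40408) x40300) x40228) x40252) x40244) x20564)
    (Nat.add (Nat.add (Nat.add (Nat.add (Nat.add (Nat.add (Nat.add C x27128) x41708) x39764) x40412) x40304) x40244) x40252)
    (Nat.sub (Nat.add (Nat.add (Nat.add (Nat.add (Nat.add (Nat.add (Nat.add (Nat.add (Nat.add C x40252) x27130) x41710) x39766) x40414) x40306) x40246) x40250) x40254) x20570)
    (Nat.sub (Nat.add (Nat.add (Nat.add (Nat.add (Nat.add (Nat.add C x27132) x41712) x39768) x40416) x40308) x40252) x20572)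
    (Nat.add (Nat.add (Nat.add (Nat.add (Nat.add (Nat.add (Nat.add C x27152) x41732) x39788) x40436) x40220) x40292) x40280)
    (Nat.sub (Nat.add (Nat.add (Nat.add (Nat.add (Nat.add (Nat.add (Nat.add (Nat.add C x27158) x41738) x39794) x40442) x40226) x40298) x40274) x40282) (Nat.mul x40280 (nat_lit 2)))
    (Nat.sub (Nat.sub (Nat.add (Nat.add (Nat.add (Nat.add (Nat.add (Nat.add (Nat.add C x27160) x41740) x39796) x40444) x40228) x40300) x40280) (Nat.mul x40282 (nat_lit 2))) x20600)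
    (Nat.add (Nat.add (Nat.add (Nat.add (Nat.add (Nat.add (Nat.add C x27170) x41750) x39806) x40454) x40238) x40274) x40298)
    (Nat.add (Nat.add (Nat.add (Nat.add (Nat.add (Nat.add (Nat.add (Nat.add (Nat.add (Nat.add C x27176) x41756) x39812) x40460) x40244) x40280) x40316) x40292) x40304) x40300)
    (Nat.sub (Nat.sub (Nat.add (Nat.add (Nat.add (Nat.add (Nat.add (Nat.add (Nat.add (Nat.add (Nat.add C x27178) x41758) x39814) x40462) x40246) x40282) x40318) x40306) x40298) x40300) x20618)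
    (Nat.sub (Nat.add (Nat.add (Nat.add (Nat.add (Nat.add (Nat.add (Nat.add (Nat.add C x27182) x41762) x39818) x40466) x40250) x40322) x40298) x40306) (Nat.mul x40304 (nat_lit 2)))
    (Nat.sub (Nat.sub (Nat.add (Nat.add (Nat.add (Nat.add (Nat.add (Nat.add (Nat.add (Nat.add (Nat.add C x27184) x41764) x39820) x40468) x40252) x40324) x40300) x40304) x40308) x40306) x20624)
    (Nat.sub (Nat.sub (Nat.add (Nat.add (Nat.add (Nat.add (Nat.add (Nat.add (Nat.add C x27186) x41766) x39822) x40470) x40254) x40326) x40306) (Nat.mul x40308 (nat_lit 2))) x20626)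
    (Nat.add (Nat.add (Nat.add (Nat.add (Nat.add (Nat.add (Nat.add C x27194) x41774) x39830) x40478) x40298) x40322) x40318)
    (Nat.sub (Nat.sub (Nat.add (Nat.add (Nat.add (Nat.add (Nat.add (Nat.add (Nat.add C x27196) x41776) x39832) x40480) x40300) x40324) x40316) (Nat.mul x40318 (nat_lit 2))) x20636)
    (Nat.add (Nat.add (Nat.add (Nat.add (Nat.add (Nat.add (Nat.add C x27200) x41780) x39836) x40484) x40304) x40316) x40324)
    (Nat.sub (Nat.add (Nat.add (Nat.add (Nat.add (Nat.add (Nat.add (Nat.add (Nat.add (Nat.add C x27202) x41782) x39838) x40486) x40306) x40318) x40330) x40322) x40326) x20642)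
    (Nat.sub (Nat.sub (Nat.add (Nat.add (Nat.add (Nat.add (Nat.add (Nat.add (Nat.add C x27204) x41784) x39840) x40488) x40308) x40332) x40324) (Nat.mul x40326 (nat_lit 2))) x20644)
    (Nat.sub (Nat.add (Nat.add (Nat.add (Nat.add (Nat.add (Nat.add C x27208) x41788) x39844) x40492) x40324) x40332) x20648)
    (Nat.sub (Nat.add (Nat.add (Nat.add (Nat.add (Nat.add (Nat.add C x27210) x41790) x39846) x40494) x40326) x40330) x20650)
    (Nat.add (Nat.add (Nat.add (Nat.add (Nat.add (Nat.add (Nat.add C (Nat.mul x40364 (nat_lit 3))) x27242) x41822) x39878) x40850) x40202) x40382)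
    (Nat.add (Nat.add (Nat.add (Nat.add (Nat.add (Nat.add (Nat.add (Nat.add (Nat.add (Nat.add C (Nat.mul x40382 (nat_lit 2))) x27260) x41840) x39896) x40868) x40220) x40436) x40364) x40400) x40388)
    (Nat.add (Nat.add (Nat.add (Nat.add (Nat.add (Nat.add (Nat.add (Nat.add (Nat.add (Nat.add C x40388) x27266) x41846) x39902) x40874) x40226) x40442) x40406) x40382) x40390)
    (Nat.sub (Nat.add (Nat.add (Nat.add (Nat.add (Nat.add (Nat.add (Nat.add (Nat.add (Nat.add C x40390) x27268) x41848) x39904) x40876) x40228) x40444) x40408) x40388) x20708)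
    (Nat.sub (Nat.add (Nat.add (Nat.add (Nat.add (Nat.add (Nat.add (Nat.add (Nat.add C x27278) x41858) x39914) x40886) x40238) x40454) x40382) x40406) x40400)
    (Nat.add (Nat.add (Nat.add (Nat.add (Nat.add (Nat.add (Nat.add (Nat.add (Nat.add (Nat.add C x27284) x41864) x39920) x40892) x40244) x40460) x40388) x40400) x40412) x40408)
    (Nat.sub (Nat.sub (Nat.add (Nat.add (Nat.add (Nat.add (Nat.add (Nat.add (Nat.add (Nat.add (Nat.add C x27286) x41866) x39922) x40894) x40246) x40462) x40390) x40414) x40406) x40408) x20726)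
    (Nat.sub (Nat.add (Nat.add (Nat.add (Nat.add (Nat.add (Nat.add (Nat.add (Nat.add C x27290) x41870) x39926) x40898) x40250) x40466) x40406) x40414) x40412)
    (Nat.sub (Nat.add (Nat.add (Nat.add (Nat.add (Nat.add (Nat.add (Nat.add (Nat.add (Nat.add C x27292) x41872) x39928) x40900) x40252) x40468) x40408) x40412) x40416) x20732)
    (Nat.sub (Nat.sub (Nat.add (Nat.add (Nat.add (Nat.add (Nat.add (Nat.add (Nat.add C x27294) x41874) x39930) x40902) x40254) x40470) x40414) x40416) x20734)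
    (Nat.add (Nat.add (Nat.add (Nat.add (Nat.add (Nat.add (Nat.add (Nat.add (Nat.add (Nat.add C (Nat.mul x40436 (nat_lit 2))) x27314) x41894) x39950) x40922) x40274) x40598) x40382) x40454) x40442)
    (Nat.add (Nat.add (Nat.add (Nat.add (Nat.add (Nat.add (Nat.add (Nat.add (Nat.add (Nat.add C x27320) x41900) x39956) x40928) x40280) x40604) x40388) x40460) x40436) x40444)
    (Nat.sub (Nat.add (Nat.add (Nat.add (Nat.add (Nat.add (Nat.add (Nat.add (Nat.add (Nat.add C x27322) x41902) x39958) x40930) x40282) x40606) x40390) x40462) x40442) x20762)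
    (Nat.add (Nat.add (Nat.add (Nat.add (Nat.add (Nat.add (Nat.add (Nat.add (Nat.add (Nat.add (Nat.add C x40454) x27332) x41912) x39968) x40940) x40292) x40616) x40400) x40508) x40436) x40460)
    (Nat.add (Nat.add (Nat.add (Nat.add (Nat.add (Nat.add (Nat.add (Nat.add (Nat.add (Nat.add (Nat.add (Nat.add (Nat.add (Nat.add C x40460) x27338) x41918) x39974) x40946) x40298) x40622) x40406) x40514) x40442) x40478) x40454) x40466) x40462)
    (Nat.sub (Nat.add (Nat.add (Nat.add (Nat.add (Nat.add (Nat.add (Nat.add (Nat.add (Nat.add (Nat.add (Nat.add (Nat.add C x27340) x41920) x39976) x40948) x40300) x40624) x40408) x40516) x40444) x40480) x40468) x40460) x20780)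
    (Nat.sub (Nat.add (Nat.add (Nat.add (Nat.add (Nat.add (Nat.add (Nat.add (Nat.add (Nat.add (Nat.add (Nat.add C x27344) x41924) x39980) x40952) x40304) x40628) x40412) x40520) x40484) x40460) x40468) x40466)
    (Nat.sub (Nat.add (Nat.add (Nat.add (Nat.add (Nat.add (Nat.add (Nat.add (Nat.add (Nat.add (Nat.add (Nat.add (Nat.add C x27346) x41926) x39982) x40954) x40306) x40630) x40414) x40522) x40486) x40462) x40466) x40470) x20786)
    (Nat.sub (Nat.sub (Nat.add (Nat.add (Nat.add (Nat.add (Nat.add (Nat.add (Nat.add (Nat.add (Nat.add (Nat.add C x27348) x41928) x39984) x40956) x40308) x40632) x40416) x40524) x40488) x40468) x40470) x20788)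
    (Nat.add (Nat.add (Nat.add (Nat.add (Nat.add (Nat.add (Nat.add (Nat.add (Nat.add (Nat.add C x27356) x41936) x39992) x40964) x40316) x40640) x40532) x40460) x40484) x40480)
    (Nat.sub (Nat.sub (Nat.add (Nat.add (Nat.add (Nat.add (Nat.add (Nat.add (Nat.add (Nat.add (Nat.add (Nat.add C x27358) x41938) x39994) x40966) x40318) x40642) x40534) x40462) x40486) x40478) (Nat.mul x40480 (nat_lit 2))) x20798)
    (Nat.add (Nat.add (Nat.add (Nat.add (Nat.add (Nat.add (Nat.add (Nat.add (Nat.add (Nat.add C x27362) x41942) x39998) x40970) x40322) x40646) x40538) x40466) x40478) x40486)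
    (Nat.sub (Nat.add (Nat.add (Nat.add (Nat.add (Nat.add (Nat.add (Nat.add (Nat.add (Nat.add (Nat.add (Nat.add (Nat.add C x27364) x41944) x40000) x40972) x40324) x40648) x40540) x40468) x40480) x40492) x40484) x40488) x20804)
    (Nat.sub (Nat.sub (Nat.add (Nat.add (Nat.add (Nat.add (Nat.add (Nat.add (Nat.add (Nat.add (Nat.add (Nat.add C x27366) x41946) x40002) x40974) x40326) x40650) x40542) x40470) x40494) x40486) (Nat.mul x40488 (nat_lit 2))) x20806)
    (Nat.sub (Nat.add (Nat.add (Nat.add (Nat.add (Nat.add (Nat.add (Nat.add (Nat.add (Nat.add C x27370) x41950) x40006) x40978) x40330) x40654) x40546) x40486) x40494) x20810)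
    (Nat.sub (Nat.add (Nat.add (Nat.add (Nat.add (Nat.add (Nat.add (Nat.add (Nat.add (Nat.add C x27372) x41952) x40008) x40980) x40332) x40656) x40548) x40488) x40492) x20812)
    (Nat.add (Nat.add (Nat.add (Nat.add (Nat.add (Nat.add (Nat.add (Nat.add C x40508) x27386) x41966) x40022) x40994) x40670) x40454) x40514)
    (Nat.add (Nat.add (Nat.add (Nat.add (Nat.add (Nat.add (Nat.add (Nat.add (Nat.add (Nat.add C x27392) x41972) x40028) x41000) x40676) x40460) x40532) x40508) x40520) x40516)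
    (Nat.sub (Nat.sub (Nat.add (Nat.add (Nat.add (Nat.add (Nat.add (Nat.add (Nat.add (Nat.add (Nat.add C x27394) x41974) x40030) x41002) x40678) x40462) x40534) x40522) x40514) x40516) x20834)
    (Nat.sub (Nat.add (Nat.add (Nat.add (Nat.add (Nat.add (Nat.add (Nat.add (Nat.add (Nat.add C x27398) x41978) x40034) x41006) x40682) x40466) x40538) x40514) x40522) (Nat.mul x40520 (nat_lit 3)))
    (Nat.sub (Nat.sub (Nat.add (Nat.add (Nat.add (Nat.add (Nat.add (Nat.add (Nat.add (Nat.add (Nat.add (Nat.add C x27400) x41980) x40036) x41008) x40684) x40468) x40540) x40516) x40520) x40524) (Nat.mul x40522 (nat_lit 2))) x20840)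
    (Nat.sub (Nat.sub (Nat.add (Nat.add (Nat.add (Nat.add (Nat.add (Nat.add (Nat.add (Nat.add C x27402) x41982) x40038) x41010) x40686) x40470) x40542) x40522) (Nat.mul x40524 (nat_lit 3))) x20842)
    (Nat.add (Nat.add (Nat.add (Nat.add (Nat.add (Nat.add (Nat.add (Nat.add (Nat.add (Nat.add C x40532) x27410) x41990) x40046) x41018) x40694) x40478) x40514) x40538) x40534)
    (Nat.sub (Nat.sub (Nat.add (Nat.add (Nat.add (Nat.add (Nat.add (Nat.add (Nat.add (Nat.add (Nat.add C x27412) x41992) x40048) x41020) x40696) x40480) x40516) x40540) x40532) x40534) x20852)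
    (Nat.add (Nat.add (Nat.add (Nat.add (Nat.add (Nat.add (Nat.add (Nat.add (Nat.add (Nat.add C x27416) x41996) x40052) x41024) x40700) x40484) x40520) x40556) x40532) x40540)
    (Nat.sub (Nat.add (Nat.add (Nat.add (Nat.add (Nat.add (Nat.add (Nat.add (Nat.add (Nat.add (Nat.add (Nat.add (Nat.add C x27418) x41998) x40054) x41026) x40702) x40486) x40522) x40558) x40534) x40546) x40538) x40542) x20858)
    (Nat.sub (Nat.sub (Nat.add (Nat.add (Nat.add (Nat.add (Nat.add (Nat.add (Nat.add (Nat.add (Nat.add (Nat.add C x27420) x42000) x40056) x41028) x40704) x40488) x40524) x40560) x40548) x40540) (Nat.mul x40542 (nat_lit 2))) x20860)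
    (Nat.sub (Nat.sub (Nat.add (Nat.add (Nat.add (Nat.add (Nat.add (Nat.add (Nat.add (Nat.add (Nat.add C x27424) x42004) x40060) x41032) x40708) x40492) x40564) x40540) x40548) x40546) x20864)
    (Nat.sub (Nat.sub (Nat.add (Nat.add (Nat.add (Nat.add (Nat.add (Nat.add (Nat.add (Nat.add (Nat.add C x27426) x42006) x40062) x41034) x40710) x40494) x40566) x40542) x40546) x40548) x20866)
    (Nat.add (Nat.add (Nat.add (Nat.add (Nat.add (Nat.add (Nat.add (Nat.add C x40556) x27434) x42014) x40070) x41042) x40718) x40538) x40558)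
    (Nat.sub (Nat.add (Nat.add (Nat.add (Nat.add (Nat.add (Nat.add (Nat.add (Nat.add (Nat.add C x27436) x42016) x40072) x41044) x40720) x40540) x40564) x40556) x40560) x20876)
    (Nat.sub (Nat.sub (Nat.add (Nat.add (Nat.add (Nat.add (Nat.add (Nat.add (Nat.add (Nat.add C x27438) x42018) x40074) x41046) x40722) x40542) x40566) x40558) (Nat.mul x40560 (nat_lit 3))) x20878)
    (Nat.sub (Nat.add (Nat.add (Nat.add (Nat.add (Nat.add (Nat.add (Nat.add (Nat.add (Nat.add C x40564) x27442) x42022) x40078) x41050) x40726) x40546) x40558) x40566) x20882)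
    (Nat.sub (Nat.add (Nat.add (Nat.add (Nat.add (Nat.add (Nat.add (Nat.add (Nat.add (Nat.add C x27444) x42024) x40080) x41052) x40728) x40548) x40560) x40572) x40564) x20884)
    (Nat.sub (Nat.add (Nat.add (Nat.add (Nat.add (Nat.add (Nat.add (Nat.add C x40572) x27450) x42030) x40086) x41058) x40734) x40566) x20890)
    (Nat.add (Nat.add (Nat.add (Nat.add (Nat.add (Nat.add (Nat.add C (Nat.mul x40598 (nat_lit 2))) x27476) x42056) x41084) x40436) x40616) x40604)
    (Nat.add (Nat.add (Nat.add (Nat.add (Nat.add (Nat.add (Nat.add C x27482) x42062) x41090) x40442) x40622) x40598) x40606)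
    (Nat.sub (Nat.add (Nat.add (Nat.add (Nat.add (Nat.add (Nat.add C x27484) x42064) x41092) x40444) x40624) x40604) x20924)
    (Nat.add (Nat.add (Nat.add (Nat.add (Nat.add (Nat.add (Nat.add C x27494) x42074) x41102) x40454) x40670) x40598) x40622)
    (Nat.add (Nat.add (Nat.add (Nat.add (Nat.add (Nat.add (Nat.add (Nat.add (Nat.add (Nat.add C x27500) x42080) x41108) x40460) x40676) x40604) x40640) x40616) x40628) x40624)
    (Nat.sub (Nat.sub (Nat.add (Nat.add (Nat.add (Nat.add (Nat.add (Nat.add (Nat.add (Nat.add (Nat.add C x27502) x42082) x41110) x40462) x40678) x40606) x40642) x40630) x40622) x40624) x20942)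
    (Nat.sub (Nat.add (Nat.add (Nat.add (Nat.add (Nat.add (Nat.add (Nat.add (Nat.add C x27506) x42086) x41114) x40466) x40682) x40646) x40622) x40630) (Nat.mul x40628 (nat_lit 2)))
    (Nat.sub (Nat.sub (Nat.add (Nat.add (Nat.add (Nat.add (Nat.add (Nat.add (Nat.add (Nat.add (Nat.add C x27508) x42088) x41116) x40468) x40684) x40648) x40624) x40628) x40632) x40630) x20948)
    (Nat.sub (Nat.sub (Nat.add (Nat.add (Nat.add (Nat.add (Nat.add (Nat.add (Nat.add C x27510) x42090) x41118) x40470) x40686) x40650) x40630) (Nat.mul x40632 (nat_lit 2))) x20950)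
    (Nat.sub (Nat.add (Nat.add (Nat.add (Nat.add (Nat.add (Nat.add (Nat.add (Nat.add C x27518) x42098) x41126) x40478) x40694) x40622) x40646) x40642) (Nat.mul x40640 (nat_lit 2)))
    (Nat.sub (Nat.sub (Nat.add (Nat.add (Nat.add (Nat.add (Nat.add (Nat.add (Nat.add (Nat.add C x27520) x42100) x41128) x40480) x40696) x40624) x40648) x40640) (Nat.mul x40642 (nat_lit 4))) x20960)
    (Nat.sub (Nat.add (Nat.add (Nat.add (Nat.add (Nat.add (Nat.add (Nat.add (Nat.add C x27524) x42104) x41132) x40484) x40700) x40628) x40640) x40648) (Nat.mul x40646 (nat_lit 2)))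
    (Nat.sub (Nat.sub (Nat.add (Nat.add (Nat.add (Nat.add (Nat.add (Nat.add (Nat.add (Nat.add (Nat.add (Nat.add C x27526) x42106) x41134) x40486) x40702) x40630) x40642) x40654) x40646) x40650) (Nat.mul x40648 (nat_lit 2))) x20966)
    (Nat.sub (Nat.sub (Nat.add (Nat.add (Nat.add (Nat.add (Nat.add (Nat.add (Nat.add (Nat.add C x27528) x42108) x41136) x40488) x40704) x40632) x40656) x40648) (Nat.mul x40650 (nat_lit 4))) x20968)
    (Nat.sub (Nat.sub (Nat.add (Nat.add (Nat.add (Nat.add (Nat.add (Nat.add (Nat.add C x27532) x42112) x41140) x40492) x40708) x40648) x40656) (Nat.mul x40654 (nat_lit 2))) x20972)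
    (Nat.sub (Nat.sub (Nat.add (Nat.add (Nat.add (Nat.add (Nat.add (Nat.add (Nat.add C x27534) x42114) x41142) x40494) x40710) x40650) x40654) (Nat.mul x40656 (nat_lit 2))) x20974)
    (Nat.add (Nat.add (Nat.add (Nat.add (Nat.add (Nat.add (Nat.add C (Nat.mul x40670 (nat_lit 2))) x27548) x42128) x41156) x40508) x40616) x40676)
    (Nat.add (Nat.add (Nat.add (Nat.add (Nat.add (Nat.add (Nat.add (Nat.add (Nat.add (Nat.add C x40676) x27554) x42134) x41162) x40514) x40622) x40694) x40670) x40682) x40678)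
    (Nat.sub (Nat.add (Nat.add (Nat.add (Nat.add (Nat.add (Nat.add (Nat.add (Nat.add C x27556) x42136) x41164) x40516) x40624) x40696) x40684) x40676) x20996)
    (Nat.sub (Nat.add (Nat.add (Nat.add (Nat.add (Nat.add (Nat.add (Nat.add (Nat.add C x27560) x42140) x41168) x40520) x40628) x40700) x40676) x40684) (Nat.mul x40682 (nat_lit 2)))
    (Nat.sub (Nat.sub (Nat.add (Nat.add (Nat.add (Nat.add (Nat.add (Nat.add (Nat.add (Nat.add (Nat.add C x27562) x42142) x41170) x40522) x40630) x40702) x40678) x40682) x40686) x40684) x21002)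
    (Nat.sub (Nat.sub (Nat.add (Nat.add (Nat.add (Nat.add (Nat.add (Nat.add (Nat.add C x27564) x42144) x41172) x40524) x40632) x40704) x40684) (Nat.mul x40686 (nat_lit 2))) x21004)
    (Nat.add (Nat.add (Nat.add (Nat.add (Nat.add (Nat.add (Nat.add (Nat.add (Nat.add (Nat.add C x40694) x27572) x42152) x41180) x40532) x40640) x40748) x40676) x40700) x40696)
    (Nat.sub (Nat.sub (Nat.add (Nat.add (Nat.add (Nat.add (Nat.add (Nat.add (Nat.add (Nat.add (Nat.add C x27574) x42154) x41182) x40534) x40642) x40750) x40678) x40702) x40694) x40696) x21014)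
    (Nat.add (Nat.add (Nat.add (Nat.add (Nat.add (Nat.add (Nat.add (Nat.add (Nat.add (Nat.add C x27578) x42158) x41186) x40538) x40646) x40754) x40682) x40718) x40694) x40702)
    (Nat.sub (Nat.add (Nat.add (Nat.add (Nat.add (Nat.add (Nat.add (Nat.add (Nat.add (Nat.add (Nat.add (Nat.add (Nat.add C x27580) x42160) x41188) x40540) x40648) x40756) x40684) x40720) x40696) x40708) x40700) x40704) x21020)
    (Nat.sub (Nat.sub (Nat.add (Nat.add (Nat.add (Nat.add (Nat.add (Nat.add (Nat.add (Nat.add (Nat.add (Nat.add C x27582) x42162) x41190) x40542) x40650) x40758) x40686) x40722) x40710) x40702) (Nat.mul x40704 (nat_lit 2))) x21022)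
    (Nat.sub (Nat.sub (Nat.add (Nat.add (Nat.add (Nat.add (Nat.add (Nat.add (Nat.add (Nat.add (Nat.add C x27586) x42166) x41194) x40546) x40654) x40762) x40726) x40702) x40710) x40708) x21026)
    (Nat.sub (Nat.sub (Nat.add (Nat.add (Nat.add (Nat.add (Nat.add (Nat.add (Nat.add (Nat.add (Nat.add C x27588) x42168) x41196) x40548) x40656) x40764) x40728) x40704) x40708) x40710) x21028)
    (Nat.add (Nat.add (Nat.add (Nat.add (Nat.add (Nat.add (Nat.add C x27596) x42176) x41204) x40556) x40772) x40700) x40720)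
    (Nat.sub (Nat.sub (Nat.add (Nat.add (Nat.add (Nat.add (Nat.add (Nat.add (Nat.add (Nat.add (Nat.add C x27598) x42178) x41206) x40558) x40774) x40702) x40726) x40718) x40722) x40720) x21038)
    (Nat.sub (Nat.sub (Nat.add (Nat.add (Nat.add (Nat.add (Nat.add (Nat.add (Nat.add (Nat.add C x27600) x42180) x41208) x40560) x40776) x40704) x40728) x40720) (Nat.mul x40722 (nat_lit 4))) x21040)
    (Nat.sub (Nat.add (Nat.add (Nat.add (Nat.add (Nat.add (Nat.add (Nat.add (Nat.add C x27604) x42184) x41212) x40564) x40780) x40708) x40720) x40728) x21044)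
    (Nat.sub (Nat.sub (Nat.add (Nat.add (Nat.add (Nat.add (Nat.add (Nat.add (Nat.add (Nat.add (Nat.add C x27606) x42186) x41214) x40566) x40782) x40710) x40722) x40734) x40726) x40728) x21046)
    (Nat.sub (Nat.add (Nat.add (Nat.add (Nat.add (Nat.add (Nat.add C x27612) x42192) x41220) x40572) x40788) x40728) x21052)
    (Nat.add (Nat.add (Nat.add (Nat.add (Nat.add (Nat.add (Nat.add C (Nat.mul x40748 (nat_lit 2))) x27626) x42206) x41234) x40694) x40754) x40750)
    (Nat.sub (Nat.add (Nat.add (Nat.add (Nat.add (Nat.add (Nat.add C x27628) x42208) x41236) x40696) x40756) x40748) x21068)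
    (Nat.add (Nat.add (Nat.add (Nat.add (Nat.add (Nat.add (Nat.add C x27632) x42212) x41240) x40700) x40772) x40748) x40756)
    (Nat.sub (Nat.add (Nat.add (Nat.add (Nat.add (Nat.add (Nat.add (Nat.add (Nat.add (Nat.add C x27634) x42214) x41242) x40702) x40774) x40750) x40762) x40754) x40758) x21074)
    (Nat.sub (Nat.sub (Nat.add (Nat.add (Nat.add (Nat.add (Nat.add (Nat.add (Nat.add C x27636) x42216) x41244) x40704) x40776) x40764) x40756) (Nat.mul x40758 (nat_lit 2))) x21076)
    (Nat.sub (Nat.sub (Nat.add (Nat.add (Nat.add (Nat.add (Nat.add (Nat.add (Nat.add C x27640) x42220) x41248) x40708) x40780) x40756) x40764) (Nat.mul x40762 (nat_lit 2))) x21080)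
    (Nat.sub (Nat.sub (Nat.add (Nat.add (Nat.add (Nat.add (Nat.add (Nat.add (Nat.add C x27642) x42222) x41250) x40710) x40782) x40758) x40762) (Nat.mul x40764 (nat_lit 2))) x21082)
    (Nat.add (Nat.add (Nat.add (Nat.add (Nat.add (Nat.add (Nat.add C (Nat.mul x40772 (nat_lit 2))) x27650) x42230) x41258) x40718) x40754) x40774)
    (Nat.sub (Nat.add (Nat.add (Nat.add (Nat.add (Nat.add (Nat.add (Nat.add (Nat.add (Nat.add C x40774) x27652) x42232) x41260) x40720) x40756) x40780) x40772) x40776) x21092)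
    (Nat.sub (Nat.sub (Nat.add (Nat.add (Nat.add (Nat.add (Nat.add (Nat.add (Nat.add C x27654) x42234) x41262) x40722) x40758) x40782) x40774) (Nat.mul x40776 (nat_lit 2))) x21094)
    (Nat.sub (Nat.add (Nat.add (Nat.add (Nat.add (Nat.add (Nat.add (Nat.add (Nat.add (Nat.add C x40780) x27658) x42238) x41266) x40726) x40762) x40798) x40774) x40782) x21098)
    (Nat.sub (Nat.add (Nat.add (Nat.add (Nat.add (Nat.add (Nat.add (Nat.add (Nat.add (Nat.add C x27660) x42240) x41268) x40728) x40764) x40800) x40776) x40788) x40780) x21100)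
    (Nat.sub (Nat.add (Nat.add (Nat.add (Nat.add (Nat.add (Nat.add C x27666) x42246) x41274) x40734) x40806) x40782) x21106)
    (Nat.sub (Nat.add (Nat.add (Nat.add (Nat.add (Nat.add (Nat.add C (Nat.mul x40798 (nat_lit 2))) x27676) x42256) x41284) x40780) x40800) x21116)
    (Nat.sub (Nat.add (Nat.add (Nat.add (Nat.add (Nat.add (Nat.add C x27678) x42258) x41286) x40782) x40806) x40798) x21118)
    (Nat.sub (Nat.add (Nat.add (Nat.add (Nat.add (Nat.add (Nat.add C (Nat.mul x40806 (nat_lit 2))) x27684) x42264) x41292) x40788) x40800) x21124)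
    (Nat.add (Nat.add (Nat.add (Nat.add (Nat.add C (Nat.mul x40850 (nat_lit 2))) x27728) x42308) x40364) x40868)
    (Nat.add (Nat.add (Nat.add (Nat.add (Nat.add (Nat.add (Nat.add (Nat.add C x40868) x27746) x42326) x40382) x40922) x40850) x40886) x40874)
    (Nat.add (Nat.add (Nat.add (Nat.add (Nat.add (Nat.add (Nat.add C x27752) x42332) x40388) x40928) x40892) x40868) x40876)
    (Nat.sub (Nat.add (Nat.add (Nat.add (Nat.add (Nat.add (Nat.add C x27754) x42334) x40390) x40930) x40894) x40874) x21194)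
    (Nat.sub (Nat.add (Nat.add (Nat.add (Nat.add (Nat.add (Nat.add C x27764) x42344) x40400) x40940) x40868) x40892) (Nat.mul x40886 (nat_lit 2)))
    (Nat.sub (Nat.add (Nat.add (Nat.add (Nat.add (Nat.add (Nat.add (Nat.add (Nat.add C x27770) x42350) x40406) x40946) x40874) x40886) x40898) x40894) x40892)
    (Nat.sub (Nat.sub (Nat.add (Nat.add (Nat.add (Nat.add (Nat.add (Nat.add (Nat.add C x27772) x42352) x40408) x40948) x40876) x40900) x40892) (Nat.mul x40894 (nat_lit 2))) x21212)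
    (Nat.sub (Nat.add (Nat.add (Nat.add (Nat.add (Nat.add (Nat.add C x27776) x42356) x40412) x40952) x40892) x40900) (Nat.mul x40898 (nat_lit 2)))
    (Nat.sub (Nat.sub (Nat.add (Nat.add (Nat.add (Nat.add (Nat.add (Nat.add (Nat.add C x27778) x42358) x40414) x40954) x40894) x40898) x40902) x40900) x21218)
    (Nat.sub (Nat.sub (Nat.add (Nat.add (Nat.add (Nat.add (Nat.add C x27780) x42360) x40416) x40956) x40900) (Nat.mul x40902 (nat_lit 2))) x21220)
    (Nat.add (Nat.add (Nat.add (Nat.add (Nat.add (Nat.add (Nat.add C x27800) x42380) x40436) x41084) x40868) x40940) x40928)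
    (Nat.sub (Nat.add (Nat.add (Nat.add (Nat.add (Nat.add (Nat.add (Nat.add (Nat.add C x27806) x42386) x40442) x41090) x40874) x40946) x40922) x40930) (Nat.mul x40928 (nat_lit 2)))
    (Nat.sub (Nat.sub (Nat.add (Nat.add (Nat.add (Nat.add (Nat.add (Nat.add (Nat.add C x27808) x42388) x40444) x41092) x40876) x40948) x40928) (Nat.mul x40930 (nat_lit 2))) x21248)
    (Nat.sub (Nat.add (Nat.add (Nat.add (Nat.add (Nat.add (Nat.add (Nat.add (Nat.add C x27818) x42398) x40454) x41102) x40886) x40994) x40922) x40946) x40940)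
    (Nat.sub (Nat.add (Nat.add (Nat.add (Nat.add (Nat.add (Nat.add (Nat.add (Nat.add (Nat.add (Nat.add (Nat.add C x27824) x42404) x40460) x41108) x40892) x41000) x40928) x40964) x40940) x40952) x40948) x40946)
    (Nat.sub (Nat.sub (Nat.add (Nat.add (Nat.add (Nat.add (Nat.add (Nat.add (Nat.add (Nat.add (Nat.add (Nat.add C x27826) x42406) x40462) x41110) x40894) x41002) x40930) x40966) x40954) x40946) (Nat.mul x40948 (nat_lit 2))) x21266)
    (Nat.sub (Nat.add (Nat.add (Nat.add (Nat.add (Nat.add (Nat.add (Nat.add (Nat.add (Nat.add C x27830) x42410) x40466) x41114) x40898) x41006) x40970) x40946) x40954) (Nat.mul x40952 (nat_lit 3)))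
    (Nat.sub (Nat.sub (Nat.add (Nat.add (Nat.add (Nat.add (Nat.add (Nat.add (Nat.add (Nat.add (Nat.add (Nat.add C x27832) x42412) x40468) x41116) x40900) x41008) x40972) x40948) x40952) x40956) (Nat.mul x40954 (nat_lit 2))) x21272)
    (Nat.sub (Nat.sub (Nat.add (Nat.add (Nat.add (Nat.add (Nat.add (Nat.add (Nat.add (Nat.add C x27834) x42414) x40470) x41118) x40902) x41010) x40974) x40954) (Nat.mul x40956 (nat_lit 3))) x21274)
    (Nat.sub (Nat.add (Nat.add (Nat.add (Nat.add (Nat.add (Nat.add (Nat.add (Nat.add C x27842) x42422) x40478) x41126) x41018) x40946) x40970) x40966) (Nat.mul x40964 (nat_lit 2)))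
    (Nat.sub (Nat.sub (Nat.add (Nat.add (Nat.add (Nat.add (Nat.add (Nat.add (Nat.add (Nat.add C x27844) x42424) x40480) x41128) x41020) x40948) x40972) x40964) (Nat.mul x40966 (nat_lit 4))) x21284)
    (Nat.sub (Nat.add (Nat.add (Nat.add (Nat.add (Nat.add (Nat.add (Nat.add (Nat.add C x27848) x42428) x40484) x41132) x41024) x40952) x40964) x40972) (Nat.mul x40970 (nat_lit 2)))
    (Nat.sub (Nat.sub (Nat.add (Nat.add (Nat.add (Nat.add (Nat.add (Nat.add (Nat.add (Nat.add (Nat.add (Nat.add C x27850) x42430) x40486) x41134) x41026) x40954) x40966) x40978) x40970) x40974) (Nat.mul x40972 (nat_lit 2))) x21290)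
    (Nat.sub (Nat.sub (Nat.add (Nat.add (Nat.add (Nat.add (Nat.add (Nat.add (Nat.add (Nat.add C x27852) x42432) x40488) x41136) x41028) x40956) x40980) x40972) (Nat.mul x40974 (nat_lit 4))) x21292)
    (Nat.sub (Nat.sub (Nat.add (Nat.add (Nat.add (Nat.add (Nat.add (Nat.add (Nat.add C x27856) x42436) x40492) x41140) x41032) x40972) x40980) (Nat.mul x40978 (nat_lit 2))) x21296)
    (Nat.sub (Nat.sub (Nat.add (Nat.add (Nat.add (Nat.add (Nat.add (Nat.add (Nat.add C x27858) x42438) x40494) x41142) x41034) x40974) x40978) (Nat.mul x40980 (nat_lit 2))) x21298)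
    (Nat.sub (Nat.add (Nat.add (Nat.add (Nat.add (Nat.add (Nat.add C x27872) x42452) x40508) x41156) x40940) x41000) (Nat.mul x40994 (nat_lit 2)))
    (Nat.sub (Nat.add (Nat.add (Nat.add (Nat.add (Nat.add (Nat.add (Nat.add (Nat.add (Nat.add C x27878) x42458) x40514) x41162) x40946) x41018) x40994) x41006) x41002) (Nat.mul x41000 (nat_lit 3)))
    (Nat.sub (Nat.sub (Nat.add (Nat.add (Nat.add (Nat.add (Nat.add (Nat.add (Nat.add (Nat.add C x27880) x42460) x40516) x41164) x40948) x41020) x41008) x41000) (Nat.mul x41002 (nat_lit 4))) x21320)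
    (Nat.sub (Nat.add (Nat.add (Nat.add (Nat.add (Nat.add (Nat.add (Nat.add (Nat.add C x27884) x42464) x40520) x41168) x40952) x41024) x41000) x41008) (Nat.mul x41006 (nat_lit 6)))
    (Nat.sub (Nat.sub (Nat.add (Nat.add (Nat.add (Nat.add (Nat.add (Nat.add (Nat.add (Nat.add (Nat.add C x27886) x42466) x40522) x41170) x40954) x41026) x41002) x41006) x41010) (Nat.mul x41008 (nat_lit 5))) x21326)
    (Nat.sub (Nat.sub (Nat.add (Nat.add (Nat.add (Nat.add (Nat.add (Nat.add (Nat.add C x27888) x42468) x40524) x41172) x40956) x41028) x41008) (Nat.mul x41010 (nat_lit 6))) x21328)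
    (Nat.sub (Nat.add (Nat.add (Nat.add (Nat.add (Nat.add (Nat.add (Nat.add (Nat.add C x27896) x42476) x40532) x41180) x40964) x41000) x41024) x41020) (Nat.mul x41018 (nat_lit 2)))
    (Nat.sub (Nat.sub (Nat.add (Nat.add (Nat.add (Nat.add (Nat.add (Nat.add (Nat.add (Nat.add C x27898) x42478) x40534) x41182) x40966) x41002) x41026) x41018) (Nat.mul x41020 (nat_lit 4))) x21338)
    (Nat.sub (Nat.add (Nat.add (Nat.add (Nat.add (Nat.add (Nat.add (Nat.add (Nat.add (Nat.add C x27902) x42482) x40538) x41186) x40970) x41006) x41042) x41018) x41026) (Nat.mul x41024 (nat_lit 3)))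
    (Nat.sub (Nat.sub (Nat.add (Nat.add (Nat.add (Nat.add (Nat.add (Nat.add (Nat.add (Nat.add (Nat.add (Nat.add (Nat.add C x27904) x42484) x40540) x41188) x40972) x41008) x41044) x41020) x41032) x41024) x41028) (Nat.mul x41026 (nat_lit 3))) x21344)
    (Nat.sub (Nat.sub (Nat.add (Nat.add (Nat.add (Nat.add (Nat.add (Nat.add (Nat.add (Nat.add (Nat.add C x27906) x42486) x40542) x41190) x40974) x41010) x41046) x41034) x41026) (Nat.mul x41028 (nat_lit 5))) x21346)
    (Nat.sub (Nat.sub (Nat.add (Nat.add (Nat.add (Nat.add (Nat.add (Nat.add (Nat.add (Nat.add C x27910) x42490) x40546) x41194) x40978) x41050) x41026) x41034) (Nat.mul x41032 (nat_lit 4))) x21350)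
    (Nat.sub (Nat.sub (Nat.add (Nat.add (Nat.add (Nat.add (Nat.add (Nat.add (Nat.add (Nat.add C x27912) x42492) x40548) x41196) x40980) x41052) x41028) x41032) (Nat.mul x41034 (nat_lit 4))) x21352)
    (Nat.sub (Nat.add (Nat.add (Nat.add (Nat.add (Nat.add (Nat.add C x27920) x42500) x40556) x41204) x41024) x41044) (Nat.mul x41042 (nat_lit 2)))
    (Nat.sub (Nat.sub (Nat.add (Nat.add (Nat.add (Nat.add (Nat.add (Nat.add (Nat.add (Nat.add C x27922) x42502) x40558) x41206) x41026) x41050) x41042) x41046) (Nat.mul x41044 (nat_lit 3))) x21362)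
    (Nat.sub (Nat.sub (Nat.add (Nat.add (Nat.add (Nat.add (Nat.add (Nat.add (Nat.add C x27924) x42504) x40560) x41208) x41028) x41052) x41044) (Nat.mul x41046 (nat_lit 6))) x21364)
    (Nat.sub (Nat.sub (Nat.add (Nat.add (Nat.add (Nat.add (Nat.add (Nat.add (Nat.add C x27928) x42508) x40564) x41212) x41032) x41044) x41052) (Nat.mul x41050 (nat_lit 2))) x21368)
    (Nat.sub (Nat.sub (Nat.add (Nat.add (Nat.add (Nat.add (Nat.add (Nat.add (Nat.add (Nat.add C x27930) x42510) x40566) x41214) x41034) x41046) x41058) x41050) (Nat.mul x41052 (nat_lit 3))) x21370)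
    (Nat.sub (Nat.sub (Nat.add (Nat.add (Nat.add (Nat.add (Nat.add C x27936) x42516) x40572) x41220) x41052) (Nat.mul x41058 (nat_lit 2))) x21376)
    (Nat.add (Nat.add (Nat.add (Nat.add (Nat.add (Nat.add (Nat.add C (Nat.mul x41084 (nat_lit 2))) x27962) x42542) x40598) x40922) x41102) x41090)
    (Nat.add (Nat.add (Nat.add (Nat.add (Nat.add (Nat.add (Nat.add C x27968) x42548) x40604) x40928) x41108) x41084) x41092)
    (Nat.sub (Nat.add (Nat.add (Nat.add (Nat.add (Nat.add (Nat.add C x27970) x42550) x40606) x40930) x41110) x41090) x21410)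
    (Nat.add (Nat.add (Nat.add (Nat.add (Nat.add (Nat.add (Nat.add C x27980) x42560) x40616) x40940) x41156) x41084) x41108)
    (Nat.add (Nat.add (Nat.add (Nat.add (Nat.add (Nat.add (Nat.add (Nat.add (Nat.add (Nat.add C x27986) x42566) x40622) x40946) x41162) x41090) x41126) x41102) x41114) x41110)
    (Nat.sub (Nat.sub (Nat.add (Nat.add (Nat.add (Nat.add (Nat.add (Nat.add (Nat.add (Nat.add (Nat.add C x27988) x42568) x40624) x40948) x41164) x41092) x41128) x41116) x41108) x41110) x21428)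
    (Nat.sub (Nat.add (Nat.add (Nat.add (Nat.add (Nat.add (Nat.add (Nat.add (Nat.add C x27992) x42572) x40628) x40952) x41168) x41132) x41108) x41116) (Nat.mul x41114 (nat_lit 2)))
    (Nat.sub (Nat.sub (Nat.add (Nat.add (Nat.add (Nat.add (Nat.add (Nat.add (Nat.add (Nat.add (Nat.add C x27994) x42574) x40630) x40954) x41170) x41134) x41110) x41114) x41118) x41116) x21434)
    (Nat.sub (Nat.sub (Nat.add (Nat.add (Nat.add (Nat.add (Nat.add (Nat.add (Nat.add C x27996) x42576) x40632) x40956) x41172) x41136) x41116) (Nat.mul x41118 (nat_lit 2))) x21436)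
    (Nat.sub (Nat.add (Nat.add (Nat.add (Nat.add (Nat.add (Nat.add (Nat.add (Nat.add C x28004) x42584) x40640) x40964) x41180) x41108) x41132) x41128) (Nat.mul x41126 (nat_lit 2)))
    (Nat.sub (Nat.sub (Nat.add (Nat.add (Nat.add (Nat.add (Nat.add (Nat.add (Nat.add (Nat.add C x28006) x42586) x40642) x40966) x41182) x41110) x41134) x41126) (Nat.mul x41128 (nat_lit 4))) x21446)
    (Nat.sub (Nat.add (Nat.add (Nat.add (Nat.add (Nat.add (Nat.add (Nat.add (Nat.add C x28010) x42590) x40646) x40970) x41186) x41114) x41126) x41134) (Nat.mul x41132 (nat_lit 2)))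
    (Nat.sub (Nat.sub (Nat.add (Nat.add (Nat.add (Nat.add (Nat.add (Nat.add (Nat.add (Nat.add (Nat.add (Nat.add C x28012) x42592) x40648) x40972) x41188) x41116) x41128) x41140) x41132) x41136) (Nat.mul x41134 (nat_lit 2))) x21452)
    (Nat.sub (Nat.sub (Nat.add (Nat.add (Nat.add (Nat.add (Nat.add (Nat.add (Nat.add (Nat.add C x28014) x42594) x40650) x40974) x41190) x41118) x41142) x41134) (Nat.mul x41136 (nat_lit 4))) x21454)
    (Nat.sub (Nat.sub (Nat.add (Nat.add (Nat.add (Nat.add (Nat.add (Nat.add (Nat.add C x28018) x42598) x40654) x40978) x41194) x41134) x41142) (Nat.mul x41140 (nat_lit 2))) x21458)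
    (Nat.sub (Nat.sub (Nat.add (Nat.add (Nat.add (Nat.add (Nat.add (Nat.add (Nat.add C x28020) x42600) x40656) x40980) x41196) x41136) x41140) (Nat.mul x41142 (nat_lit 2))) x21460)
    (Nat.add (Nat.add (Nat.add (Nat.add (Nat.add (Nat.add (Nat.add (Nat.add C x41156) x28034) x42614) x40670) x40994) x41318) x41102) x41162)
    (Nat.add (Nat.add (Nat.add (Nat.add (Nat.add (Nat.add (Nat.add (Nat.add (Nat.add (Nat.add C x28040) x42620) x40676) x41000) x41324) x41108) x41180) x41156) x41168) x41164)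
    (Nat.sub (Nat.sub (Nat.add (Nat.add (Nat.add (Nat.add (Nat.add (Nat.add (Nat.add (Nat.add (Nat.add C x28042) x42622) x40678) x41002) x41326) x41110) x41182) x41170) x41162) x41164) x21482)
    (Nat.sub (Nat.add (Nat.add (Nat.add (Nat.add (Nat.add (Nat.add (Nat.add (Nat.add (Nat.add C x28046) x42626) x40682) x41006) x41330) x41114) x41186) x41162) x41170) (Nat.mul x41168 (nat_lit 3)))
    (Nat.sub (Nat.sub (Nat.add (Nat.add (Nat.add (Nat.add (Nat.add (Nat.add (Nat.add (Nat.add (Nat.add (Nat.add C x28048) x42628) x40684) x41008) x41332) x41116) x41188) x41164) x41168) x41172) (Nat.mul x41170 (nat_lit 2))) x21488)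
    (Nat.sub (Nat.sub (Nat.add (Nat.add (Nat.add (Nat.add (Nat.add (Nat.add (Nat.add (Nat.add C x28050) x42630) x40686) x41010) x41334) x41118) x41190) x41170) (Nat.mul x41172 (nat_lit 3))) x21490)
    (Nat.add (Nat.add (Nat.add (Nat.add (Nat.add (Nat.add (Nat.add (Nat.add (Nat.add (Nat.add C x28058) x42638) x40694) x41018) x41342) x41126) x41234) x41162) x41186) x41182)
    (Nat.sub (Nat.sub (Nat.add (Nat.add (Nat.add (Nat.add (Nat.add (Nat.add (Nat.add (Nat.add (Nat.add (Nat.add C x28060) x42640) x40696) x41020) x41344) x41128) x41236) x41164) x41188) x41180) (Nat.mul x41182 (nat_lit 2))) x21500)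
    (Nat.sub (Nat.add (Nat.add (Nat.add (Nat.add (Nat.add (Nat.add (Nat.add (Nat.add (Nat.add (Nat.add (Nat.add C x28064) x42644) x40700) x41024) x41348) x41132) x41240) x41168) x41204) x41180) x41188) x41186)
    (Nat.sub (Nat.sub (Nat.add (Nat.add (Nat.add (Nat.add (Nat.add (Nat.add (Nat.add (Nat.add (Nat.add (Nat.add (Nat.add (Nat.add (Nat.add C x28066) x42646) x40702) x41026) x41350) x41134) x41242) x41170) x41206) x41182) x41194) x41186) x41190) x41188) x21506)
    (Nat.sub (Nat.sub (Nat.add (Nat.add (Nat.add (Nat.add (Nat.add (Nat.add (Nat.add (Nat.add (Nat.add (Nat.add (Nat.add C x28068) x42648) x40704) x41028) x41352) x41136) x41244) x41172) x41208) x41196) x41188) (Nat.mul x41190 (nat_lit 3))) x21508)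
    (Nat.sub (Nat.sub (Nat.add (Nat.add (Nat.add (Nat.add (Nat.add (Nat.add (Nat.add (Nat.add (Nat.add (Nat.add C x28072) x42652) x40708) x41032) x41356) x41140) x41248) x41212) x41188) x41196) (Nat.mul x41194 (nat_lit 2))) x21512)
    (Nat.sub (Nat.sub (Nat.add (Nat.add (Nat.add (Nat.add (Nat.add (Nat.add (Nat.add (Nat.add (Nat.add (Nat.add C x28074) x42654) x40710) x41034) x41358) x41142) x41250) x41214) x41190) x41194) (Nat.mul x41196 (nat_lit 2))) x21514)
    (Nat.sub (Nat.add (Nat.add (Nat.add (Nat.add (Nat.add (Nat.add (Nat.add (Nat.add C x28082) x42662) x40718) x41042) x41366) x41258) x41186) x41206) x41204)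
    (Nat.sub (Nat.sub (Nat.add (Nat.add (Nat.add (Nat.add (Nat.add (Nat.add (Nat.add (Nat.add (Nat.add (Nat.add C x28084) x42664) x40720) x41044) x41368) x41260) x41188) x41212) x41204) x41208) (Nat.mul x41206 (nat_lit 2))) x21524)
    (Nat.sub (Nat.sub (Nat.add (Nat.add (Nat.add (Nat.add (Nat.add (Nat.add (Nat.add (Nat.add (Nat.add C x28086) x42666) x40722) x41046) x41370) x41262) x41190) x41214) x41206) (Nat.mul x41208 (nat_lit 5))) x21526)
    (Nat.sub (Nat.sub (Nat.add (Nat.add (Nat.add (Nat.add (Nat.add (Nat.add (Nat.add (Nat.add (Nat.add C x28090) x42670) x40726) x41050) x41374) x41266) x41194) x41206) x41214) x41212) x21530)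
    (Nat.sub (Nat.sub (Nat.add (Nat.add (Nat.add (Nat.add (Nat.add (Nat.add (Nat.add (Nat.add (Nat.add (Nat.add C x28092) x42672) x40728) x41052) x41376) x41268) x41196) x41208) x41220) x41212) (Nat.mul x41214 (nat_lit 2))) x21532)
    (Nat.sub (Nat.sub (Nat.add (Nat.add (Nat.add (Nat.add (Nat.add (Nat.add (Nat.add C x28098) x42678) x40734) x41058) x41382) x41274) x41214) x41220) x21538)
    (Nat.add (Nat.add (Nat.add (Nat.add (Nat.add (Nat.add (Nat.add C x28112) x42692) x40748) x41396) x41180) x41240) x41236)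
    (Nat.sub (Nat.sub (Nat.add (Nat.add (Nat.add (Nat.add (Nat.add (Nat.add (Nat.add C x28114) x42694) x40750) x41398) x41182) x41242) x41234) (Nat.mul x41236 (nat_lit 2))) x21554)
    (Nat.sub (Nat.add (Nat.add (Nat.add (Nat.add (Nat.add (Nat.add (Nat.add (Nat.add C x28118) x42698) x40754) x41402) x41186) x41258) x41234) x41242) (Nat.mul x41240 (nat_lit 2)))
    (Nat.sub (Nat.sub (Nat.add (Nat.add (Nat.add (Nat.add (Nat.add (Nat.add (Nat.add (Nat.add (Nat.add (Nat.add C x28120) x42700) x40756) x41404) x41188) x41260) x41236) x41248) x41240) x41244) (Nat.mul x41242 (nat_lit 2))) x21560)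
    (Nat.sub (Nat.sub (Nat.add (Nat.add (Nat.add (Nat.add (Nat.add (Nat.add (Nat.add (Nat.add C x28122) x42702) x40758) x41406) x41190) x41262) x41250) x41242) (Nat.mul x41244 (nat_lit 4))) x21562)
    (Nat.sub (Nat.sub (Nat.add (Nat.add (Nat.add (Nat.add (Nat.add (Nat.add (Nat.add (Nat.add C x28126) x42706) x40762) x41410) x41194) x41266) x41242) x41250) (Nat.mul x41248 (nat_lit 4))) x21566)
    (Nat.sub (Nat.sub (Nat.add (Nat.add (Nat.add (Nat.add (Nat.add (Nat.add (Nat.add (Nat.add C x28128) x42708) x40764) x41412) x41196) x41268) x41244) x41248) (Nat.mul x41250 (nat_lit 4))) x21568)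
    (Nat.add (Nat.add (Nat.add (Nat.add (Nat.add (Nat.add (Nat.add C x28136) x42716) x40772) x41420) x41204) x41240) x41260)
    (Nat.sub (Nat.sub (Nat.add (Nat.add (Nat.add (Nat.add (Nat.add (Nat.add (Nat.add (Nat.add (Nat.add C x28138) x42718) x40774) x41422) x41206) x41242) x41266) x41258) x41262) x41260) x21578)
    (Nat.sub (Nat.sub (Nat.add (Nat.add (Nat.add (Nat.add (Nat.add (Nat.add (Nat.add (Nat.add C x28140) x42720) x40776) x41424) x41208) x41244) x41268) x41260) (Nat.mul x41262 (nat_lit 4))) x21580)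
    (Nat.sub (Nat.sub (Nat.add (Nat.add (Nat.add (Nat.add (Nat.add (Nat.add (Nat.add (Nat.add (Nat.add C x28144) x42724) x40780) x41428) x41212) x41248) x41284) x41260) x41268) x41266) x21584)
    (Nat.sub (Nat.sub (Nat.add (Nat.add (Nat.add (Nat.add (Nat.add (Nat.add (Nat.add (Nat.add (Nat.add (Nat.add C x28146) x42726) x40782) x41430) x41214) x41250) x41286) x41262) x41274) x41266) (Nat.mul x41268 (nat_lit 2))) x21586)
    (Nat.sub (Nat.sub (Nat.add (Nat.add (Nat.add (Nat.add (Nat.add (Nat.add (Nat.add C x28152) x42732) x40788) x41436) x41220) x41292) x41268) (Nat.mul x41274 (nat_lit 2))) x21592)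
    (Nat.sub (Nat.add (Nat.add (Nat.add (Nat.add (Nat.add (Nat.add C x28162) x42742) x40798) x41446) x41266) x41286) x21602)
    (Nat.sub (Nat.sub (Nat.add (Nat.add (Nat.add (Nat.add (Nat.add (Nat.add (Nat.add C x28164) x42744) x40800) x41448) x41268) x41292) x41284) (Nat.mul x41286 (nat_lit 2))) x21604)
    (Nat.sub (Nat.add (Nat.add (Nat.add (Nat.add (Nat.add (Nat.add C x28170) x42750) x40806) x41454) x41274) x41286) x21610)
    (Nat.add (Nat.add (Nat.add (Nat.add (Nat.add C (Nat.mul x41318 (nat_lit 2))) x28196) x42776) x41156) x41324)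
    (Nat.add (Nat.add (Nat.add (Nat.add (Nat.add (Nat.add (Nat.add (Nat.add C x41324) x28202) x42782) x41162) x41342) x41318) x41330) x41326)
    (Nat.sub (Nat.add (Nat.add (Nat.add (Nat.add (Nat.add (Nat.add C x28204) x42784) x41164) x41344) x41332) x41324) x21644)
    (Nat.sub (Nat.add (Nat.add (Nat.add (Nat.add (Nat.add (Nat.add C x28208) x42788) x41168) x41348) x41324) x41332) (Nat.mul x41330 (nat_lit 2)))
    (Nat.sub (Nat.sub (Nat.add (Nat.add (Nat.add (Nat.add (Nat.add (Nat.add (Nat.add C x28210) x42790) x41170) x41350) x41326) x41330) x41334) x41332) x21650)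
    (Nat.sub (Nat.sub (Nat.add (Nat.add (Nat.add (Nat.add (Nat.add C x28212) x42792) x41172) x41352) x41332) (Nat.mul x41334 (nat_lit 2))) x21652)
    (Nat.add (Nat.add (Nat.add (Nat.add (Nat.add (Nat.add (Nat.add C x28220) x42800) x41180) x41396) x41324) x41348) x41344)
    (Nat.sub (Nat.sub (Nat.add (Nat.add (Nat.add (Nat.add (Nat.add (Nat.add (Nat.add C x28222) x42802) x41182) x41398) x41326) x41350) x41342) (Nat.mul x41344 (nat_lit 2))) x21662)
    (Nat.sub (Nat.add (Nat.add (Nat.add (Nat.add (Nat.add (Nat.add (Nat.add (Nat.add C x28226) x42806) x41186) x41402) x41330) x41366) x41342) x41350) x41348)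
    (Nat.sub (Nat.sub (Nat.add (Nat.add (Nat.add (Nat.add (Nat.add (Nat.add (Nat.add (Nat.add (Nat.add (Nat.add C x28228) x42808) x41188) x41404) x41332) x41368) x41344) x41356) x41348) x41352) x41350) x21668)
    (Nat.sub (Nat.sub (Nat.add (Nat.add (Nat.add (Nat.add (Nat.add (Nat.add (Nat.add (Nat.add C x28230) x42810) x41190) x41406) x41334) x41370) x41358) x41350) (Nat.mul x41352 (nat_lit 3))) x21670)
    (Nat.sub (Nat.sub (Nat.add (Nat.add (Nat.add (Nat.add (Nat.add (Nat.add (Nat.add C x28234) x42814) x41194) x41410) x41374) x41350) x41358) (Nat.mul x41356 (nat_lit 2))) x21674)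
    (Nat.sub (Nat.sub (Nat.add (Nat.add (Nat.add (Nat.add (Nat.add (Nat.add (Nat.add C x28236) x42816) x41196) x41412) x41376) x41352) x41356) (Nat.mul x41358 (nat_lit 2))) x21676)
    (Nat.sub (Nat.add (Nat.add (Nat.add (Nat.add (Nat.add (Nat.add C x28244) x42824) x41204) x41420) x41348) x41368) (Nat.mul x41366 (nat_lit 2)))
    (Nat.sub (Nat.sub (Nat.add (Nat.add (Nat.add (Nat.add (Nat.add (Nat.add (Nat.add (Nat.add C x28246) x42826) x41206) x41422) x41350) x41374) x41366) x41370) (Nat.mul x41368 (nat_lit 3))) x21686)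
    (Nat.sub (Nat.sub (Nat.add (Nat.add (Nat.add (Nat.add (Nat.add (Nat.add (Nat.add C x28248) x42828) x41208) x41424) x41352) x41376) x41368) (Nat.mul x41370 (nat_lit 6))) x21688)
    (Nat.sub (Nat.sub (Nat.add (Nat.add (Nat.add (Nat.add (Nat.add (Nat.add (Nat.add C x28252) x42832) x41212) x41428) x41356) x41368) x41376) (Nat.mul x41374 (nat_lit 2))) x21692)
    (Nat.sub (Nat.sub (Nat.add (Nat.add (Nat.add (Nat.add (Nat.add (Nat.add (Nat.add (Nat.add C x28254) x42834) x41214) x41430) x41358) x41370) x41382) x41374) (Nat.mul x41376 (nat_lit 3))) x21694)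
    (Nat.sub (Nat.sub (Nat.add (Nat.add (Nat.add (Nat.add (Nat.add C x28260) x42840) x41220) x41436) x41376) (Nat.mul x41382 (nat_lit 2))) x21700)
    (Nat.add (Nat.add (Nat.add (Nat.add (Nat.add (Nat.add (Nat.add C (Nat.mul x41396 (nat_lit 2))) x28274) x42854) x41234) x41342) x41402) x41398)
    (Nat.sub (Nat.add (Nat.add (Nat.add (Nat.add (Nat.add (Nat.add C x28276) x42856) x41236) x41344) x41404) x41396) x21716)
    (Nat.add (Nat.add (Nat.add (Nat.add (Nat.add (Nat.add (Nat.add C x28280) x42860) x41240) x41348) x41420) x41396) x41404)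
    (Nat.sub (Nat.add (Nat.add (Nat.add (Nat.add (Nat.add (Nat.add (Nat.add (Nat.add (Nat.add C x28282) x42862) x41242) x41350) x41422) x41398) x41410) x41402) x41406) x21722)
    (Nat.sub (Nat.sub (Nat.add (Nat.add (Nat.add (Nat.add (Nat.add (Nat.add (Nat.add C x28284) x42864) x41244) x41352) x41424) x41412) x41404) (Nat.mul x41406 (nat_lit 2))) x21724)
    (Nat.sub (Nat.sub (Nat.add (Nat.add (Nat.add (Nat.add (Nat.add (Nat.add (Nat.add C x28288) x42868) x41248) x41356) x41428) x41404) x41412) (Nat.mul x41410 (nat_lit 2))) x21728)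
    (Nat.sub (Nat.sub (Nat.add (Nat.add (Nat.add (Nat.add (Nat.add (Nat.add (Nat.add C x28290) x42870) x41250) x41358) x41430) x41406) x41410) (Nat.mul x41412 (nat_lit 2))) x21730)
    (Nat.add (Nat.add (Nat.add (Nat.add (Nat.add (Nat.add (Nat.add (Nat.add C x41420) x28298) x42878) x41258) x41366) x41474) x41402) x41422)
    (Nat.sub (Nat.add (Nat.add (Nat.add (Nat.add (Nat.add (Nat.add (Nat.add (Nat.add (Nat.add C x28300) x42880) x41260) x41368) x41476) x41404) x41428) x41420) x41424) x21740)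
    (Nat.sub (Nat.sub (Nat.add (Nat.add (Nat.add (Nat.add (Nat.add (Nat.add (Nat.add (Nat.add C x28302) x42882) x41262) x41370) x41478) x41406) x41430) x41422) (Nat.mul x41424 (nat_lit 3))) x21742)
    (Nat.sub (Nat.add (Nat.add (Nat.add (Nat.add (Nat.add (Nat.add (Nat.add (Nat.add (Nat.add C x28306) x42886) x41266) x41374) x41482) x41410) x41446) x41422) x41430) x21746)
    (Nat.sub (Nat.sub (Nat.add (Nat.add (Nat.add (Nat.add (Nat.add (Nat.add (Nat.add (Nat.add (Nat.add (Nat.add C x28308) x42888) x41268) x41376) x41484) x41412) x41448) x41424) x41436) x41428) x41430) x21748)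
    (Nat.sub (Nat.sub (Nat.add (Nat.add (Nat.add (Nat.add (Nat.add (Nat.add (Nat.add C x28314) x42894) x41274) x41382) x41490) x41454) x41430) x41436) x21754)
    (Nat.sub (Nat.add (Nat.add (Nat.add (Nat.add (Nat.add (Nat.add C x28324) x42904) x41284) x41500) x41428) x41448) x21764)
    (Nat.sub (Nat.sub (Nat.add (Nat.add (Nat.add (Nat.add (Nat.add (Nat.add (Nat.add C x28326) x42906) x41286) x41502) x41430) x41454) x41446) (Nat.mul x41448 (nat_lit 2))) x21766)
    (Nat.sub (Nat.add (Nat.add (Nat.add (Nat.add (Nat.add (Nat.add C x28332) x42912) x41292) x41508) x41436) x41448) x21772)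
    (Nat.add (Nat.add (Nat.add (Nat.add (Nat.add C (Nat.mul x41474 (nat_lit 2))) x28352) x42932) x41420) x41476)
    (Nat.sub (Nat.add (Nat.add (Nat.add (Nat.add (Nat.add (Nat.add (Nat.add C x41476) x28354) x42934) x41422) x41482) x41474) x41478) x21794)
    (Nat.sub (Nat.sub (Nat.add (Nat.add (Nat.add (Nat.add (Nat.add C x28356) x42936) x41424) x41484) x41476) (Nat.mul x41478 (nat_lit 2))) x21796)
    (Nat.sub (Nat.add (Nat.add (Nat.add (Nat.add (Nat.add (Nat.add C x28360) x42940) x41428) x41500) x41476) x41484) x21800)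
    (Nat.sub (Nat.sub (Nat.add (Nat.add (Nat.add (Nat.add (Nat.add (Nat.add (Nat.add C x28362) x42942) x41430) x41502) x41478) x41490) x41482) x41484) x21802)
    (Nat.sub (Nat.sub (Nat.add (Nat.add (Nat.add (Nat.add (Nat.add C x28368) x42948) x41436) x41508) x41484) (Nat.mul x41490 (nat_lit 2))) x21808)
    (Nat.sub (Nat.add (Nat.add (Nat.add (Nat.add (Nat.add (Nat.add C (Nat.mul x41500 (nat_lit 2))) x28378) x42958) x41446) x41482) x41502) x21818)
    (Nat.sub (Nat.add (Nat.add (Nat.add (Nat.add (Nat.add (Nat.add C x28380) x42960) x41448) x41484) x41508) x41500) x21820)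
    (Nat.sub (Nat.add (Nat.add (Nat.add (Nat.add (Nat.add (Nat.add (Nat.add C x41508) x28386) x42966) x41454) x41490) x41526) x41502) x21826)
    (Nat.sub (Nat.add (Nat.add (Nat.add (Nat.add C (Nat.mul x41526 (nat_lit 2))) x28404) x42984) x41508) x21844)
    (Nat.add (Nat.add (Nat.add (Nat.add (Nat.add (Nat.add C (Nat.mul x41606 (nat_lit 4))) x28484) x45980) x40148) x41660) x41624)
    (Nat.add (Nat.add (Nat.add (Nat.add (Nat.add (Nat.add (Nat.add C (Nat.mul x41624 (nat_lit 2))) x28502) x45998) x40166) x41678) x41606) x41630)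
    (Nat.add (Nat.add (Nat.add (Nat.add (Nat.add (Nat.add (Nat.add C (Nat.mul x41630 (nat_lit 2))) x28508) x46004) x40172) x41684) x41624) x41632)
    (Nat.sub (Nat.add (Nat.add (Nat.add (Nat.add (Nat.add (Nat.add C (Nat.mul x41632 (nat_lit 2))) x28510) x46006) x40174) x41686) x41630) x21950)
    (Nat.add (Nat.add (Nat.add (Nat.add (Nat.add (Nat.add (Nat.add C (Nat.mul x41660 (nat_lit 2))) x28538) x46034) x40202) x41822) x41606) x41678)
    (Nat.add (Nat.add (Nat.add (Nat.add (Nat.add (Nat.add (Nat.add (Nat.add (Nat.add (Nat.add C (Nat.mul x41678 (nat_lit 2))) x28556) x46052) x40220) x41840) x41624) x41732) x41660) x41696) x41684)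
    (Nat.add (Nat.add (Nat.add (Nat.add (Nat.add (Nat.add (Nat.add (Nat.add (Nat.add (Nat.add C x41684) x28562) x46058) x40226) x41846) x41630) x41738) x41702) x41678) x41686)
    (Nat.sub (Nat.add (Nat.add (Nat.add (Nat.add (Nat.add (Nat.add (Nat.add (Nat.add (Nat.add C x41686) x28564) x46060) x40228) x41848) x41632) x41740) x41704) x41684) x22004)
    (Nat.add (Nat.add (Nat.add (Nat.add (Nat.add (Nat.add (Nat.add C x28574) x46070) x40238) x41858) x41750) x41678) x41702)
    (Nat.add (Nat.add (Nat.add (Nat.add (Nat.add (Nat.add (Nat.add (Nat.add (Nat.add (Nat.add C x41702) x28580) x46076) x40244) x41864) x41756) x41684) x41696) x41708) x41704)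
    (Nat.sub (Nat.add (Nat.add (Nat.add (Nat.add (Nat.add (Nat.add (Nat.add (Nat.add C x28582) x46078) x40246) x41866) x41758) x41686) x41710) x41702) x22022)
    (Nat.add (Nat.add (Nat.add (Nat.add (Nat.add (Nat.add (Nat.add C x28586) x46082) x40250) x41870) x41762) x41702) x41710)
    (Nat.sub (Nat.add (Nat.add (Nat.add (Nat.add (Nat.add (Nat.add (Nat.add (Nat.add (Nat.add C x41710) x28588) x46084) x40252) x41872) x41764) x41704) x41708) x41712) x22028)
    (Nat.sub (Nat.add (Nat.add (Nat.add (Nat.add (Nat.add (Nat.add C x28590) x46086) x40254) x41874) x41766) x41710) x22030)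
    (Nat.add (Nat.add (Nat.add (Nat.add (Nat.add (Nat.add (Nat.add C x28610) x46106) x40274) x41894) x41678) x41750) x41738)
    (Nat.sub (Nat.add (Nat.add (Nat.add (Nat.add (Nat.add (Nat.add (Nat.add (Nat.add C x28616) x46112) x40280) x41900) x41684) x41756) x41732) x41740) (Nat.mul x41738 (nat_lit 2)))
    (Nat.sub (Nat.sub (Nat.add (Nat.add (Nat.add (Nat.add (Nat.add (Nat.add (Nat.add C x28618) x46114) x40282) x41902) x41686) x41758) x41738) (Nat.mul x41740 (nat_lit 2))) x22058)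
    (Nat.add (Nat.add (Nat.add (Nat.add (Nat.add (Nat.add (Nat.add C x28628) x46124) x40292) x41912) x41696) x41732) x41756)
    (Nat.add (Nat.add (Nat.add (Nat.add (Nat.add (Nat.add (Nat.add (Nat.add (Nat.add (Nat.add C x28634) x46130) x40298) x41918) x41702) x41738) x41774) x41750) x41762) x41758)
    (Nat.sub (Nat.sub (Nat.add (Nat.add (Nat.add (Nat.add (Nat.add (Nat.add (Nat.add (Nat.add (Nat.add C x28636) x46132) x40300) x41920) x41704) x41740) x41776) x41764) x41756) x41758) x22076)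
    (Nat.sub (Nat.add (Nat.add (Nat.add (Nat.add (Nat.add (Nat.add (Nat.add (Nat.add C x28640) x46136) x40304) x41924) x41708) x41780) x41756) x41764) (Nat.mul x41762 (nat_lit 2)))
    (Nat.sub (Nat.sub (Nat.add (Nat.add (Nat.add (Nat.add (Nat.add (Nat.add (Nat.add (Nat.add (Nat.add C x28642) x46138) x40306) x41926) x41710) x41782) x41758) x41762) x41766) x41764) x22082)
    (Nat.sub (Nat.sub (Nat.add (Nat.add (Nat.add (Nat.add (Nat.add (Nat.add (Nat.add C x28644) x46140) x40308) x41928) x41712) x41784) x41764) (Nat.mul x41766 (nat_lit 2))) x22084)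
    (Nat.add (Nat.add (Nat.add (Nat.add (Nat.add (Nat.add (Nat.add C x28652) x46148) x40316) x41936) x41756) x41780) x41776)
    (Nat.sub (Nat.sub (Nat.add (Nat.add (Nat.add (Nat.add (Nat.add (Nat.add (Nat.add C x28654) x46150) x40318) x41938) x41758) x41782) x41774) (Nat.mul x41776 (nat_lit 2))) x22094)
    (Nat.add (Nat.add (Nat.add (Nat.add (Nat.add (Nat.add (Nat.add C x28658) x46154) x40322) x41942) x41762) x41774) x41782)
    (Nat.sub (Nat.add (Nat.add (Nat.add (Nat.add (Nat.add (Nat.add (Nat.add (Nat.add (Nat.add C x28660) x46156) x40324) x41944) x41764) x41776) x41788) x41780) x41784) x22100)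
    (Nat.sub (Nat.sub (Nat.add (Nat.add (Nat.add (Nat.add (Nat.add (Nat.add (Nat.add C x28662) x46158) x40326) x41946) x41766) x41790) x41782) (Nat.mul x41784 (nat_lit 2))) x22102)
    (Nat.sub (Nat.add (Nat.add (Nat.add (Nat.add (Nat.add (Nat.add C x28666) x46162) x40330) x41950) x41782) x41790) x22106)
    (Nat.sub (Nat.add (Nat.add (Nat.add (Nat.add (Nat.add (Nat.add C x28668) x46164) x40332) x41952) x41784) x41788) x22108)
    (Nat.add (Nat.add (Nat.add (Nat.add (Nat.add (Nat.add (Nat.add C (Nat.mul x41822 (nat_lit 2))) x28700) x46196) x40364) x42308) x41660) x41840)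
    (Nat.add (Nat.add (Nat.add (Nat.add (Nat.add (Nat.add (Nat.add (Nat.add (Nat.add (Nat.add C x41840) x28718) x46214) x40382) x42326) x41678) x41894) x41822) x41858) x41846)
    (Nat.add (Nat.add (Nat.add (Nat.add (Nat.add (Nat.add (Nat.add (Nat.add (Nat.add C x28724) x46220) x40388) x42332) x41684) x41900) x41864) x41840) x41848)
    (Nat.sub (Nat.add (Nat.add (Nat.add (Nat.add (Nat.add (Nat.add (Nat.add (Nat.add C x28726) x46222) x40390) x42334) x41686) x41902) x41866) x41846) x22166)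
    (Nat.sub (Nat.add (Nat.add (Nat.add (Nat.add (Nat.add (Nat.add (Nat.add (Nat.add C x28736) x46232) x40400) x42344) x41696) x41912) x41840) x41864) (Nat.mul x41858 (nat_lit 2)))
    (Nat.sub (Nat.add (Nat.add (Nat.add (Nat.add (Nat.add (Nat.add (Nat.add (Nat.add (Nat.add (Nat.add C x28742) x46238) x40406) x42350) x41702) x41918) x41846) x41858) x41870) x41866) x41864)
    (Nat.sub (Nat.sub (Nat.add (Nat.add (Nat.add (Nat.add (Nat.add (Nat.add (Nat.add (Nat.add (Nat.add C x28744) x46240) x40408) x42352) x41704) x41920) x41848) x41872) x41864) (Nat.mul x41866 (nat_lit 2))) x22184)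
    (Nat.sub (Nat.add (Nat.add (Nat.add (Nat.add (Nat.add (Nat.add (Nat.add (Nat.add C x28748) x46244) x40412) x42356) x41708) x41924) x41864) x41872) (Nat.mul x41870 (nat_lit 2)))
    (Nat.sub (Nat.sub (Nat.add (Nat.add (Nat.add (Nat.add (Nat.add (Nat.add (Nat.add (Nat.add (Nat.add C x28750) x46246) x40414) x42358) x41710) x41926) x41866) x41870) x41874) x41872) x22190)
    (Nat.sub (Nat.sub (Nat.add (Nat.add (Nat.add (Nat.add (Nat.add (Nat.add (Nat.add C x28752) x46248) x40416) x42360) x41712) x41928) x41872) (Nat.mul x41874 (nat_lit 2))) x22192)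
    (Nat.add (Nat.add (Nat.add (Nat.add (Nat.add (Nat.add (Nat.add (Nat.add (Nat.add (Nat.add C x41894) x28772) x46268) x40436) x42380) x41732) x42056) x41840) x41912) x41900)
    (Nat.sub (Nat.add (Nat.add (Nat.add (Nat.add (Nat.add (Nat.add (Nat.add (Nat.add (Nat.add (Nat.add C x28778) x46274) x40442) x42386) x41738) x42062) x41846) x41918) x41894) x41902) x41900)
    (Nat.sub (Nat.sub (Nat.add (Nat.add (Nat.add (Nat.add (Nat.add (Nat.add (Nat.add (Nat.add (Nat.add C x28780) x46276) x40444) x42388) x41740) x42064) x41848) x41920) x41900) x41902) x22220)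
    (Nat.add (Nat.add (Nat.add (Nat.add (Nat.add (Nat.add (Nat.add (Nat.add (Nat.add (Nat.add C x28790) x46286) x40454) x42398) x41750) x42074) x41858) x41966) x41894) x41918)
    (Nat.add (Nat.add (Nat.add (Nat.add (Nat.add (Nat.add (Nat.add (Nat.add (Nat.add (Nat.add (Nat.add (Nat.add (Nat.add C x28796) x46292) x40460) x42404) x41756) x42080) x41864) x41972) x41900) x41936) x41912) x41924) x41920)
    (Nat.sub (Nat.sub (Nat.add (Nat.add (Nat.add (Nat.add (Nat.add (Nat.add (Nat.add (Nat.add (Nat.add (Nat.add (Nat.add (Nat.add C x28798) x46294) x40462) x42406) x41758) x42082) x41866) x41974) x41902) x41938) x41926) x41918) x41920) x22238)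
    (Nat.sub (Nat.add (Nat.add (Nat.add (Nat.add (Nat.add (Nat.add (Nat.add (Nat.add (Nat.add (Nat.add (Nat.add C x28802) x46298) x40466) x42410) x41762) x42086) x41870) x41978) x41942) x41918) x41926) (Nat.mul x41924 (nat_lit 2)))
    (Nat.sub (Nat.sub (Nat.add (Nat.add (Nat.add (Nat.add (Nat.add (Nat.add (Nat.add (Nat.add (Nat.add (Nat.add (Nat.add (Nat.add C x28804) x46300) x40468) x42412) x41764) x42088) x41872) x41980) x41944) x41920) x41924) x41928) x41926) x22244)
    (Nat.sub (Nat.sub (Nat.add (Nat.add (Nat.add (Nat.add (Nat.add (Nat.add (Nat.add (Nat.add (Nat.add (Nat.add C x28806) x46302) x40470) x42414) x41766) x42090) x41874) x41982) x41946) x41926) (Nat.mul x41928 (nat_lit 2))) x22246)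
    (Nat.sub (Nat.add (Nat.add (Nat.add (Nat.add (Nat.add (Nat.add (Nat.add (Nat.add (Nat.add (Nat.add C x28814) x46310) x40478) x42422) x41774) x42098) x41990) x41918) x41942) x41938) x41936)
    (Nat.sub (Nat.sub (Nat.add (Nat.add (Nat.add (Nat.add (Nat.add (Nat.add (Nat.add (Nat.add (Nat.add (Nat.add C x28816) x46312) x40480) x42424) x41776) x42100) x41992) x41920) x41944) x41936) (Nat.mul x41938 (nat_lit 3))) x22256)
    (Nat.sub (Nat.add (Nat.add (Nat.add (Nat.add (Nat.add (Nat.add (Nat.add (Nat.add (Nat.add (Nat.add C x28820) x46316) x40484) x42428) x41780) x42104) x41996) x41924) x41936) x41944) x41942)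
    (Nat.sub (Nat.sub (Nat.add (Nat.add (Nat.add (Nat.add (Nat.add (Nat.add (Nat.add (Nat.add (Nat.add (Nat.add (Nat.add (Nat.add C x28822) x46318) x40486) x42430) x41782) x42106) x41998) x41926) x41938) x41950) x41942) x41946) x41944) x22262)
    (Nat.sub (Nat.sub (Nat.add (Nat.add (Nat.add (Nat.add (Nat.add (Nat.add (Nat.add (Nat.add (Nat.add (Nat.add C x28824) x46320) x40488) x42432) x41784) x42108) x42000) x41928) x41952) x41944) (Nat.mul x41946 (nat_lit 3))) x22264)
    (Nat.sub (Nat.sub (Nat.add (Nat.add (Nat.add (Nat.add (Nat.add (Nat.add (Nat.add (Nat.add (Nat.add C x28828) x46324) x40492) x42436) x41788) x42112) x42004) x41944) x41952) x41950) x22268)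
    (Nat.sub (Nat.sub (Nat.add (Nat.add (Nat.add (Nat.add (Nat.add (Nat.add (Nat.add (Nat.add (Nat.add C x28830) x46326) x40494) x42438) x41790) x42114) x42006) x41946) x41950) x41952) x22270)
    (Nat.add (Nat.add (Nat.add (Nat.add (Nat.add (Nat.add (Nat.add C x28844) x46340) x40508) x42452) x42128) x41912) x41972)
    (Nat.sub (Nat.add (Nat.add (Nat.add (Nat.add (Nat.add (Nat.add (Nat.add (Nat.add (Nat.add (Nat.add C x28850) x46346) x40514) x42458) x42134) x41918) x41990) x41966) x41978) x41974) x41972)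
    (Nat.sub (Nat.sub (Nat.add (Nat.add (Nat.add (Nat.add (Nat.add (Nat.add (Nat.add (Nat.add (Nat.add C x28852) x46348) x40516) x42460) x42136) x41920) x41992) x41980) x41972) (Nat.mul x41974 (nat_lit 2))) x22292)
    (Nat.sub (Nat.add (Nat.add (Nat.add (Nat.add (Nat.add (Nat.add (Nat.add (Nat.add (Nat.add C x28856) x46352) x40520) x42464) x42140) x41924) x41996) x41972) x41980) (Nat.mul x41978 (nat_lit 4)))
    (Nat.sub (Nat.sub (Nat.add (Nat.add (Nat.add (Nat.add (Nat.add (Nat.add (Nat.add (Nat.add (Nat.add (Nat.add C x28858) x46354) x40522) x42466) x42142) x41926) x41998) x41974) x41978) x41982) (Nat.mul x41980 (nat_lit 3))) x22298)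
    (Nat.sub (Nat.sub (Nat.add (Nat.add (Nat.add (Nat.add (Nat.add (Nat.add (Nat.add (Nat.add C x28860) x46356) x40524) x42468) x42144) x41928) x42000) x41980) (Nat.mul x41982 (nat_lit 4))) x22300)
    (Nat.add (Nat.add (Nat.add (Nat.add (Nat.add (Nat.add (Nat.add (Nat.add (Nat.add C x28868) x46364) x40532) x42476) x42152) x41936) x41972) x41996) x41992)
    (Nat.sub (Nat.sub (Nat.add (Nat.add (Nat.add (Nat.add (Nat.add (Nat.add (Nat.add (Nat.add (Nat.add C x28870) x46366) x40534) x42478) x42154) x41938) x41974) x41998) x41990) (Nat.mul x41992 (nat_lit 2))) x22310)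
    (Nat.sub (Nat.add (Nat.add (Nat.add (Nat.add (Nat.add (Nat.add (Nat.add (Nat.add (Nat.add (Nat.add C x28874) x46370) x40538) x42482) x42158) x41942) x41978) x42014) x41990) x41998) x41996)
    (Nat.sub (Nat.sub (Nat.add (Nat.add (Nat.add (Nat.add (Nat.add (Nat.add (Nat.add (Nat.add (Nat.add (Nat.add (Nat.add (Nat.add C x28876) x46372) x40540) x42484) x42160) x41944) x41980) x42016) x41992) x42004) x41996) x42000) x41998) x22316)
    (Nat.sub (Nat.sub (Nat.add (Nat.add (Nat.add (Nat.add (Nat.add (Nat.add (Nat.add (Nat.add (Nat.add (Nat.add C x28878) x46374) x40542) x42486) x42162) x41946) x41982) x42018) x42006) x41998) (Nat.mul x42000 (nat_lit 3))) x22318)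
    (Nat.sub (Nat.sub (Nat.add (Nat.add (Nat.add (Nat.add (Nat.add (Nat.add (Nat.add (Nat.add (Nat.add C x28882) x46378) x40546) x42490) x42166) x41950) x42022) x41998) x42006) (Nat.mul x42004 (nat_lit 2))) x22322)
    (Nat.sub (Nat.sub (Nat.add (Nat.add (Nat.add (Nat.add (Nat.add (Nat.add (Nat.add (Nat.add (Nat.add C x28884) x46380) x40548) x42492) x42168) x41952) x42024) x42000) x42004) (Nat.mul x42006 (nat_lit 2))) x22324)
    (Nat.add (Nat.add (Nat.add (Nat.add (Nat.add (Nat.add (Nat.add C x28892) x46388) x40556) x42500) x42176) x41996) x42016)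
    (Nat.sub (Nat.sub (Nat.add (Nat.add (Nat.add (Nat.add (Nat.add (Nat.add (Nat.add (Nat.add (Nat.add C x28894) x46390) x40558) x42502) x42178) x41998) x42022) x42014) x42018) x42016) x22334)
    (Nat.sub (Nat.sub (Nat.add (Nat.add (Nat.add (Nat.add (Nat.add (Nat.add (Nat.add (Nat.add C x28896) x46392) x40560) x42504) x42180) x42000) x42024) x42016) (Nat.mul x42018 (nat_lit 4))) x22336)
    (Nat.sub (Nat.add (Nat.add (Nat.add (Nat.add (Nat.add (Nat.add (Nat.add (Nat.add C x28900) x46396) x40564) x42508) x42184) x42004) x42016) x42024) x22340)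
    (Nat.sub (Nat.sub (Nat.add (Nat.add (Nat.add (Nat.add (Nat.add (Nat.add (Nat.add (Nat.add (Nat.add C x28902) x46398) x40566) x42510) x42186) x42006) x42018) x42030) x42022) x42024) x22342)
    (Nat.sub (Nat.add (Nat.add (Nat.add (Nat.add (Nat.add (Nat.add C x28908) x46404) x40572) x42516) x42192) x42024) x22348)
    (Nat.add (Nat.add (Nat.add (Nat.add (Nat.add (Nat.add (Nat.add C x28934) x46430) x40598) x42542) x41894) x42074) x42062)
    (Nat.sub (Nat.add (Nat.add (Nat.add (Nat.add (Nat.add (Nat.add (Nat.add (Nat.add C x28940) x46436) x40604) x42548) x41900) x42080) x42056) x42064) (Nat.mul x42062 (nat_lit 2)))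
    (Nat.sub (Nat.sub (Nat.add (Nat.add (Nat.add (Nat.add (Nat.add (Nat.add (Nat.add C x28942) x46438) x40606) x42550) x41902) x42082) x42062) (Nat.mul x42064 (nat_lit 2))) x22382)
    (Nat.sub (Nat.add (Nat.add (Nat.add (Nat.add (Nat.add (Nat.add (Nat.add (Nat.add C x28952) x46448) x40616) x42560) x41912) x42128) x42056) x42080) (Nat.mul x42074 (nat_lit 2)))
    (Nat.sub (Nat.add (Nat.add (Nat.add (Nat.add (Nat.add (Nat.add (Nat.add (Nat.add (Nat.add (Nat.add (Nat.add C x28958) x46454) x40622) x42566) x41918) x42134) x42062) x42098) x42074) x42086) x42082) (Nat.mul x42080 (nat_lit 2)))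
    (Nat.sub (Nat.sub (Nat.add (Nat.add (Nat.add (Nat.add (Nat.add (Nat.add (Nat.add (Nat.add (Nat.add (Nat.add C x28960) x46456) x40624) x42568) x41920) x42136) x42064) x42100) x42088) x42080) (Nat.mul x42082 (nat_lit 3))) x22400)
    (Nat.sub (Nat.add (Nat.add (Nat.add (Nat.add (Nat.add (Nat.add (Nat.add (Nat.add (Nat.add C x28964) x46460) x40628) x42572) x41924) x42140) x42104) x42080) x42088) (Nat.mul x42086 (nat_lit 4)))
    (Nat.sub (Nat.sub (Nat.add (Nat.add (Nat.add (Nat.add (Nat.add (Nat.add (Nat.add (Nat.add (Nat.add (Nat.add C x28966) x46462) x40630) x42574) x41926) x42142) x42106) x42082) x42086) x42090) (Nat.mul x42088 (nat_lit 3))) x22406)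
    (Nat.sub (Nat.sub (Nat.add (Nat.add (Nat.add (Nat.add (Nat.add (Nat.add (Nat.add (Nat.add C x28968) x46464) x40632) x42576) x41928) x42144) x42108) x42088) (Nat.mul x42090 (nat_lit 4))) x22408)
    (Nat.sub (Nat.add (Nat.add (Nat.add (Nat.add (Nat.add (Nat.add (Nat.add (Nat.add (Nat.add C x28976) x46472) x40640) x42584) x41936) x42152) x42080) x42104) x42100) (Nat.mul x42098 (nat_lit 4)))
    (Nat.sub (Nat.sub (Nat.add (Nat.add (Nat.add (Nat.add (Nat.add (Nat.add (Nat.add (Nat.add (Nat.add C x28978) x46474) x40642) x42586) x41938) x42154) x42082) x42106) x42098) (Nat.mul x42100 (nat_lit 6))) x22418)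
    (Nat.sub (Nat.add (Nat.add (Nat.add (Nat.add (Nat.add (Nat.add (Nat.add (Nat.add (Nat.add C x28982) x46478) x40646) x42590) x41942) x42158) x42086) x42098) x42106) (Nat.mul x42104 (nat_lit 4)))
    (Nat.sub (Nat.sub (Nat.add (Nat.add (Nat.add (Nat.add (Nat.add (Nat.add (Nat.add (Nat.add (Nat.add (Nat.add (Nat.add C x28984) x46480) x40648) x42592) x41944) x42160) x42088) x42100) x42112) x42104) x42108) (Nat.mul x42106 (nat_lit 4))) x22424)
    (Nat.sub (Nat.sub (Nat.add (Nat.add (Nat.add (Nat.add (Nat.add (Nat.add (Nat.add (Nat.add (Nat.add C x28986) x46482) x40650) x42594) x41946) x42162) x42090) x42114) x42106) (Nat.mul x42108 (nat_lit 6))) x22426)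
    (Nat.sub (Nat.sub (Nat.add (Nat.add (Nat.add (Nat.add (Nat.add (Nat.add (Nat.add (Nat.add C x28990) x46486) x40654) x42598) x41950) x42166) x42106) x42114) (Nat.mul x42112 (nat_lit 4))) x22430)
    (Nat.sub (Nat.sub (Nat.add (Nat.add (Nat.add (Nat.add (Nat.add (Nat.add (Nat.add (Nat.add C x28992) x46488) x40656) x42600) x41952) x42168) x42108) x42112) (Nat.mul x42114 (nat_lit 4))) x22432)
    (Nat.add (Nat.add (Nat.add (Nat.add (Nat.add (Nat.add (Nat.add C x29006) x46502) x40670) x42614) x41966) x42074) x42134)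
    (Nat.sub (Nat.add (Nat.add (Nat.add (Nat.add (Nat.add (Nat.add (Nat.add (Nat.add (Nat.add (Nat.add C x29012) x46508) x40676) x42620) x41972) x42080) x42152) x42128) x42140) x42136) x42134)
    (Nat.sub (Nat.sub (Nat.add (Nat.add (Nat.add (Nat.add (Nat.add (Nat.add (Nat.add (Nat.add (Nat.add C x29014) x46510) x40678) x42622) x41974) x42082) x42154) x42142) x42134) (Nat.mul x42136 (nat_lit 2))) x22454)
    (Nat.sub (Nat.add (Nat.add (Nat.add (Nat.add (Nat.add (Nat.add (Nat.add (Nat.add (Nat.add C x29018) x46514) x40682) x42626) x41978) x42086) x42158) x42134) x42142) (Nat.mul x42140 (nat_lit 4)))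
    (Nat.sub (Nat.sub (Nat.add (Nat.add (Nat.add (Nat.add (Nat.add (Nat.add (Nat.add (Nat.add (Nat.add (Nat.add C x29020) x46516) x40684) x42628) x41980) x42088) x42160) x42136) x42140) x42144) (Nat.mul x42142 (nat_lit 3))) x22460)
    (Nat.sub (Nat.sub (Nat.add (Nat.add (Nat.add (Nat.add (Nat.add (Nat.add (Nat.add (Nat.add C x29022) x46518) x40686) x42630) x41982) x42090) x42162) x42142) (Nat.mul x42144 (nat_lit 4))) x22462)
    (Nat.sub (Nat.add (Nat.add (Nat.add (Nat.add (Nat.add (Nat.add (Nat.add (Nat.add (Nat.add (Nat.add C x29030) x46526) x40694) x42638) x41990) x42098) x42206) x42134) x42158) x42154) x42152)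
    (Nat.sub (Nat.sub (Nat.add (Nat.add (Nat.add (Nat.add (Nat.add (Nat.add (Nat.add (Nat.add (Nat.add (Nat.add C x29032) x46528) x40696) x42640) x41992) x42100) x42208) x42136) x42160) x42152) (Nat.mul x42154 (nat_lit 3))) x22472)
    (Nat.sub (Nat.add (Nat.add (Nat.add (Nat.add (Nat.add (Nat.add (Nat.add (Nat.add (Nat.add (Nat.add (Nat.add C x29036) x46532) x40700) x42644) x41996) x42104) x42212) x42140) x42176) x42152) x42160) (Nat.mul x42158 (nat_lit 2)))
    (Nat.sub (Nat.sub (Nat.add (Nat.add (Nat.add (Nat.add (Nat.add (Nat.add (Nat.add (Nat.add (Nat.add (Nat.add (Nat.add (Nat.add (Nat.add C x29038) x46534) x40702) x42646) x41998) x42106) x42214) x42142) x42178) x42154) x42166) x42158) x42162) (Nat.mul x42160 (nat_lit 2))) x22478)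
    (Nat.sub (Nat.sub (Nat.add (Nat.add (Nat.add (Nat.add (Nat.add (Nat.add (Nat.add (Nat.add (Nat.add (Nat.add (Nat.add C x29040) x46536) x40704) x42648) x42000) x42108) x42216) x42144) x42180) x42168) x42160) (Nat.mul x42162 (nat_lit 4))) x22480)
    (Nat.sub (Nat.sub (Nat.add (Nat.add (Nat.add (Nat.add (Nat.add (Nat.add (Nat.add (Nat.add (Nat.add (Nat.add C x29044) x46540) x40708) x42652) x42004) x42112) x42220) x42184) x42160) x42168) (Nat.mul x42166 (nat_lit 3))) x22484)
    (Nat.sub (Nat.sub (Nat.add (Nat.add (Nat.add (Nat.add (Nat.add (Nat.add (Nat.add (Nat.add (Nat.add (Nat.add C x29046) x46542) x40710) x42654) x42006) x42114) x42222) x42186) x42162) x42166) (Nat.mul x42168 (nat_lit 3))) x22486)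
    (Nat.sub (Nat.add (Nat.add (Nat.add (Nat.add (Nat.add (Nat.add (Nat.add (Nat.add C x29054) x46550) x40718) x42662) x42014) x42230) x42158) x42178) (Nat.mul x42176 (nat_lit 2)))
    (Nat.sub (Nat.sub (Nat.add (Nat.add (Nat.add (Nat.add (Nat.add (Nat.add (Nat.add (Nat.add (Nat.add (Nat.add C x29056) x46552) x40720) x42664) x42016) x42232) x42160) x42184) x42176) x42180) (Nat.mul x42178 (nat_lit 3))) x22496)
    (Nat.sub (Nat.sub (Nat.add (Nat.add (Nat.add (Nat.add (Nat.add (Nat.add (Nat.add (Nat.add (Nat.add C x29058) x46554) x40722) x42666) x42018) x42234) x42162) x42186) x42178) (Nat.mul x42180 (nat_lit 6))) x22498)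
    (Nat.sub (Nat.sub (Nat.add (Nat.add (Nat.add (Nat.add (Nat.add (Nat.add (Nat.add (Nat.add (Nat.add C x29062) x46558) x40726) x42670) x42022) x42238) x42166) x42178) x42186) (Nat.mul x42184 (nat_lit 2))) x22502)
    (Nat.sub (Nat.sub (Nat.add (Nat.add (Nat.add (Nat.add (Nat.add (Nat.add (Nat.add (Nat.add (Nat.add (Nat.add C x29064) x46560) x40728) x42672) x42024) x42240) x42168) x42180) x42192) x42184) (Nat.mul x42186 (nat_lit 3))) x22504)
    (Nat.sub (Nat.sub (Nat.add (Nat.add (Nat.add (Nat.add (Nat.add (Nat.add (Nat.add C x29070) x46566) x40734) x42678) x42030) x42246) x42186) (Nat.mul x42192 (nat_lit 2))) x22510)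
    (Nat.add (Nat.add (Nat.add (Nat.add (Nat.add (Nat.add (Nat.add C x29084) x46580) x40748) x42692) x42152) x42212) x42208)
    (Nat.sub (Nat.sub (Nat.add (Nat.add (Nat.add (Nat.add (Nat.add (Nat.add (Nat.add C x29086) x46582) x40750) x42694) x42154) x42214) x42206) (Nat.mul x42208 (nat_lit 2))) x22526)
    (Nat.sub (Nat.add (Nat.add (Nat.add (Nat.add (Nat.add (Nat.add (Nat.add (Nat.add C x29090) x46586) x40754) x42698) x42158) x42230) x42206) x42214) (Nat.mul x42212 (nat_lit 2)))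
    (Nat.sub (Nat.sub (Nat.add (Nat.add (Nat.add (Nat.add (Nat.add (Nat.add (Nat.add (Nat.add (Nat.add (Nat.add C x29092) x46588) x40756) x42700) x42160) x42232) x42208) x42220) x42212) x42216) (Nat.mul x42214 (nat_lit 2))) x22532)
    (Nat.sub (Nat.sub (Nat.add (Nat.add (Nat.add (Nat.add (Nat.add (Nat.add (Nat.add (Nat.add C x29094) x46590) x40758) x42702) x42162) x42234) x42222) x42214) (Nat.mul x42216 (nat_lit 4))) x22534)
    (Nat.sub (Nat.sub (Nat.add (Nat.add (Nat.add (Nat.add (Nat.add (Nat.add (Nat.add (Nat.add C x29098) x46594) x40762) x42706) x42166) x42238) x42214) x42222) (Nat.mul x42220 (nat_lit 4))) x22538)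
    (Nat.sub (Nat.sub (Nat.add (Nat.add (Nat.add (Nat.add (Nat.add (Nat.add (Nat.add (Nat.add C x29100) x46596) x40764) x42708) x42168) x42240) x42216) x42220) (Nat.mul x42222 (nat_lit 4))) x22540)
    (Nat.add (Nat.add (Nat.add (Nat.add (Nat.add (Nat.add (Nat.add C x29108) x46604) x40772) x42716) x42176) x42212) x42232)
    (Nat.sub (Nat.sub (Nat.add (Nat.add (Nat.add (Nat.add (Nat.add (Nat.add (Nat.add (Nat.add (Nat.add C x29110) x46606) x40774) x42718) x42178) x42214) x42238) x42230) x42234) x42232) x22550)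
    (Nat.sub (Nat.sub (Nat.add (Nat.add (Nat.add (Nat.add (Nat.add (Nat.add (Nat.add (Nat.add C x29112) x46608) x40776) x42720) x42180) x42216) x42240) x42232) (Nat.mul x42234 (nat_lit 4))) x22552)
    (Nat.sub (Nat.sub (Nat.add (Nat.add (Nat.add (Nat.add (Nat.add (Nat.add (Nat.add (Nat.add (Nat.add C x29116) x46612) x40780) x42724) x42184) x42220) x42256) x42232) x42240) x42238) x22556)
    (Nat.sub (Nat.sub (Nat.add (Nat.add (Nat.add (Nat.add (Nat.add (Nat.add (Nat.add (Nat.add (Nat.add (Nat.add C x29118) x46614) x40782) x42726) x42186) x42222) x42258) x42234) x42246) x42238) (Nat.mul x42240 (nat_lit 2))) x22558)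
    (Nat.sub (Nat.sub (Nat.add (Nat.add (Nat.add (Nat.add (Nat.add (Nat.add (Nat.add C x29124) x46620) x40788) x42732) x42192) x42264) x42240) (Nat.mul x42246 (nat_lit 2))) x22564)
    (Nat.sub (Nat.add (Nat.add (Nat.add (Nat.add (Nat.add (Nat.add C x29134) x46630) x40798) x42742) x42238) x42258) x22574)
    (Nat.sub (Nat.sub (Nat.add (Nat.add (Nat.add (Nat.add (Nat.add (Nat.add (Nat.add C x29136) x46632) x40800) x42744) x42240) x42264) x42256) (Nat.mul x42258 (nat_lit 2))) x22576)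
    (Nat.sub (Nat.add (Nat.add (Nat.add (Nat.add (Nat.add (Nat.add C x29142) x46638) x40806) x42750) x42246) x42258) x22582)
    (Nat.add (Nat.add (Nat.add (Nat.add (Nat.add (Nat.add (Nat.add C (Nat.mul x42308 (nat_lit 3))) x29186) x46682) x40850) x43766) x41822) x42326)
    (Nat.add (Nat.add (Nat.add (Nat.add (Nat.add (Nat.add (Nat.add (Nat.add (Nat.add (Nat.add C (Nat.mul x42326 (nat_lit 2))) x29204) x46700) x40868) x43784) x41840) x42380) x42308) x42344) x42332)
    (Nat.add (Nat.add (Nat.add (Nat.add (Nat.add (Nat.add (Nat.add (Nat.add (Nat.add (Nat.add C x42332) x29210) x46706) x40874) x43790) x41846) x42386) x42350) x42326) x42334)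
    (Nat.sub (Nat.add (Nat.add (Nat.add (Nat.add (Nat.add (Nat.add (Nat.add (Nat.add (Nat.add C x42334) x29212) x46708) x40876) x43792) x41848) x42388) x42352) x42332) x22652)
    (Nat.sub (Nat.add (Nat.add (Nat.add (Nat.add (Nat.add (Nat.add (Nat.add (Nat.add C x29222) x46718) x40886) x43802) x41858) x42398) x42326) x42350) x42344)
    (Nat.add (Nat.add (Nat.add (Nat.add (Nat.add (Nat.add (Nat.add (Nat.add (Nat.add (Nat.add C x29228) x46724) x40892) x43808) x41864) x42404) x42332) x42344) x42356) x42352)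
    (Nat.sub (Nat.sub (Nat.add (Nat.add (Nat.add (Nat.add (Nat.add (Nat.add (Nat.add (Nat.add (Nat.add C x29230) x46726) x40894) x43810) x41866) x42406) x42334) x42358) x42350) x42352) x22670)
    (Nat.sub (Nat.add (Nat.add (Nat.add (Nat.add (Nat.add (Nat.add (Nat.add (Nat.add C x29234) x46730) x40898) x43814) x41870) x42410) x42350) x42358) x42356)
    (Nat.sub (Nat.add (Nat.add (Nat.add (Nat.add (Nat.add (Nat.add (Nat.add (Nat.add (Nat.add C x29236) x46732) x40900) x43816) x41872) x42412) x42352) x42356) x42360) x22676)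
    (Nat.sub (Nat.sub (Nat.add (Nat.add (Nat.add (Nat.add (Nat.add (Nat.add (Nat.add C x29238) x46734) x40902) x43818) x41874) x42414) x42358) x42360) x22678)
    (Nat.add (Nat.add (Nat.add (Nat.add (Nat.add (Nat.add (Nat.add (Nat.add (Nat.add (Nat.add C x42380) x29258) x46754) x40922) x43838) x41894) x42542) x42326) x42398) x42386)
    (Nat.sub (Nat.add (Nat.add (Nat.add (Nat.add (Nat.add (Nat.add (Nat.add (Nat.add (Nat.add (Nat.add C x29264) x46760) x40928) x43844) x41900) x42548) x42332) x42404) x42380) x42388) x42386)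
    (Nat.sub (Nat.sub (Nat.add (Nat.add (Nat.add (Nat.add (Nat.add (Nat.add (Nat.add (Nat.add (Nat.add C x29266) x46762) x40930) x43846) x41902) x42550) x42334) x42406) x42386) x42388) x22706)
    (Nat.add (Nat.add (Nat.add (Nat.add (Nat.add (Nat.add (Nat.add (Nat.add (Nat.add (Nat.add C x29276) x46772) x40940) x43856) x41912) x42560) x42344) x42452) x42380) x42404)
    (Nat.add (Nat.add (Nat.add (Nat.add (Nat.add (Nat.add (Nat.add (Nat.add (Nat.add (Nat.add (Nat.add (Nat.add (Nat.add C x29282) x46778) x40946) x43862) x41918) x42566) x42350) x42458) x42386) x42422) x42398) x42410) x42406)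
    (Nat.sub (Nat.sub (Nat.add (Nat.add (Nat.add (Nat.add (Nat.add (Nat.add (Nat.add (Nat.add (Nat.add (Nat.add (Nat.add (Nat.add C x29284) x46780) x40948) x43864) x41920) x42568) x42352) x42460) x42388) x42424) x42412) x42404) x42406) x22724)
    (Nat.sub (Nat.add (Nat.add (Nat.add (Nat.add (Nat.add (Nat.add (Nat.add (Nat.add (Nat.add (Nat.add (Nat.add C x29288) x46784) x40952) x43868) x41924) x42572) x42356) x42464) x42428) x42404) x42412) (Nat.mul x42410 (nat_lit 2)))
    (Nat.sub (Nat.sub (Nat.add (Nat.add (Nat.add (Nat.add (Nat.add (Nat.add (Nat.add (Nat.add (Nat.add (Nat.add (Nat.add (Nat.add C x29290) x46786) x40954) x43870) x41926) x42574) x42358) x42466) x42430) x42406) x42410) x42414) x42412) x22730)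
    (Nat.sub (Nat.sub (Nat.add (Nat.add (Nat.add (Nat.add (Nat.add (Nat.add (Nat.add (Nat.add (Nat.add (Nat.add C x29292) x46788) x40956) x43872) x41928) x42576) x42360) x42468) x42432) x42412) (Nat.mul x42414 (nat_lit 2))) x22732)
    (Nat.sub (Nat.add (Nat.add (Nat.add (Nat.add (Nat.add (Nat.add (Nat.add (Nat.add (Nat.add (Nat.add C x29300) x46796) x40964) x43880) x41936) x42584) x42476) x42404) x42428) x42424) x42422)
    (Nat.sub (Nat.sub (Nat.add (Nat.add (Nat.add (Nat.add (Nat.add (Nat.add (Nat.add (Nat.add (Nat.add (Nat.add C x29302) x46798) x40966) x43882) x41938) x42586) x42478) x42406) x42430) x42422) (Nat.mul x42424 (nat_lit 3))) x22742)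
    (Nat.sub (Nat.add (Nat.add (Nat.add (Nat.add (Nat.add (Nat.add (Nat.add (Nat.add (Nat.add (Nat.add C x29306) x46802) x40970) x43886) x41942) x42590) x42482) x42410) x42422) x42430) x42428)
    (Nat.sub (Nat.sub (Nat.add (Nat.add (Nat.add (Nat.add (Nat.add (Nat.add (Nat.add (Nat.add (Nat.add (Nat.add (Nat.add (Nat.add C x29308) x46804) x40972) x43888) x41944) x42592) x42484) x42412) x42424) x42436) x42428) x42432) x42430) x22748)
    (Nat.sub (Nat.sub (Nat.add (Nat.add (Nat.add (Nat.add (Nat.add (Nat.add (Nat.add (Nat.add (Nat.add (Nat.add C x29310) x46806) x40974) x43890) x41946) x42594) x42486) x42414) x42438) x42430) (Nat.mul x42432 (nat_lit 3))) x22750)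
    (Nat.sub (Nat.sub (Nat.add (Nat.add (Nat.add (Nat.add (Nat.add (Nat.add (Nat.add (Nat.add (Nat.add C x29314) x46810) x40978) x43894) x41950) x42598) x42490) x42430) x42438) x42436) x22754)
    (Nat.sub (Nat.sub (Nat.add (Nat.add (Nat.add (Nat.add (Nat.add (Nat.add (Nat.add (Nat.add (Nat.add C x29316) x46812) x40980) x43896) x41952) x42600) x42492) x42432) x42436) x42438) x22756)
    (Nat.sub (Nat.add (Nat.add (Nat.add (Nat.add (Nat.add (Nat.add (Nat.add (Nat.add C x29330) x46826) x40994) x43910) x41966) x42614) x42398) x42458) x42452)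
    (Nat.sub (Nat.add (Nat.add (Nat.add (Nat.add (Nat.add (Nat.add (Nat.add (Nat.add (Nat.add (Nat.add (Nat.add C x29336) x46832) x41000) x43916) x41972) x42620) x42404) x42476) x42452) x42464) x42460) (Nat.mul x42458 (nat_lit 2)))
    (Nat.sub (Nat.sub (Nat.add (Nat.add (Nat.add (Nat.add (Nat.add (Nat.add (Nat.add (Nat.add (Nat.add (Nat.add C x29338) x46834) x41002) x43918) x41974) x42622) x42406) x42478) x42466) x42458) (Nat.mul x42460 (nat_lit 3))) x22778)
    (Nat.sub (Nat.add (Nat.add (Nat.add (Nat.add (Nat.add (Nat.add (Nat.add (Nat.add (Nat.add (Nat.add C x29342) x46838) x41006) x43922) x41978) x42626) x42410) x42482) x42458) x42466) (Nat.mul x42464 (nat_lit 5)))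
    (Nat.sub (Nat.sub (Nat.add (Nat.add (Nat.add (Nat.add (Nat.add (Nat.add (Nat.add (Nat.add (Nat.add (Nat.add (Nat.add C x29344) x46840) x41008) x43924) x41980) x42628) x42412) x42484) x42460) x42464) x42468) (Nat.mul x42466 (nat_lit 4))) x22784)
    (Nat.sub (Nat.sub (Nat.add (Nat.add (Nat.add (Nat.add (Nat.add (Nat.add (Nat.add (Nat.add (Nat.add C x29346) x46842) x41010) x43926) x41982) x42630) x42414) x42486) x42466) (Nat.mul x42468 (nat_lit 5))) x22786)
    (Nat.sub (Nat.add (Nat.add (Nat.add (Nat.add (Nat.add (Nat.add (Nat.add (Nat.add (Nat.add (Nat.add C x29354) x46850) x41018) x43934) x41990) x42638) x42422) x42458) x42482) x42478) x42476)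
    (Nat.sub (Nat.sub (Nat.add (Nat.add (Nat.add (Nat.add (Nat.add (Nat.add (Nat.add (Nat.add (Nat.add (Nat.add C x29356) x46852) x41020) x43936) x41992) x42640) x42424) x42460) x42484) x42476) (Nat.mul x42478 (nat_lit 3))) x22796)
    (Nat.sub (Nat.add (Nat.add (Nat.add (Nat.add (Nat.add (Nat.add (Nat.add (Nat.add (Nat.add (Nat.add (Nat.add C x29360) x46856) x41024) x43940) x41996) x42644) x42428) x42464) x42500) x42476) x42484) (Nat.mul x42482 (nat_lit 2)))
    (Nat.sub (Nat.sub (Nat.add (Nat.add (Nat.add (Nat.add (Nat.add (Nat.add (Nat.add (Nat.add (Nat.add (Nat.add (Nat.add (Nat.add (Nat.add C x29362) x46858) x41026) x43942) x41998) x42646) x42430) x42466) x42502) x42478) x42490) x42482) x42486) (Nat.mul x42484 (nat_lit 2))) x22802)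
    (Nat.sub (Nat.sub (Nat.add (Nat.add (Nat.add (Nat.add (Nat.add (Nat.add (Nat.add (Nat.add (Nat.add (Nat.add (Nat.add C x29364) x46860) x41028) x43944) x42000) x42648) x42432) x42468) x42504) x42492) x42484) (Nat.mul x42486 (nat_lit 4))) x22804)
    (Nat.sub (Nat.sub (Nat.add (Nat.add (Nat.add (Nat.add (Nat.add (Nat.add (Nat.add (Nat.add (Nat.add (Nat.add C x29368) x46864) x41032) x43948) x42004) x42652) x42436) x42508) x42484) x42492) (Nat.mul x42490 (nat_lit 3))) x22808)
    (Nat.sub (Nat.sub (Nat.add (Nat.add (Nat.add (Nat.add (Nat.add (Nat.add (Nat.add (Nat.add (Nat.add (Nat.add C x29370) x46866) x41034) x43950) x42006) x42654) x42438) x42510) x42486) x42490) (Nat.mul x42492 (nat_lit 3))) x22810)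
    (Nat.sub (Nat.add (Nat.add (Nat.add (Nat.add (Nat.add (Nat.add (Nat.add (Nat.add C x29378) x46874) x41042) x43958) x42014) x42662) x42482) x42502) x42500)
    (Nat.sub (Nat.sub (Nat.add (Nat.add (Nat.add (Nat.add (Nat.add (Nat.add (Nat.add (Nat.add (Nat.add (Nat.add C x29380) x46876) x41044) x43960) x42016) x42664) x42484) x42508) x42500) x42504) (Nat.mul x42502 (nat_lit 2))) x22820)
    (Nat.sub (Nat.sub (Nat.add (Nat.add (Nat.add (Nat.add (Nat.add (Nat.add (Nat.add (Nat.add (Nat.add C x29382) x46878) x41046) x43962) x42018) x42666) x42486) x42510) x42502) (Nat.mul x42504 (nat_lit 5))) x22822)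
    (Nat.sub (Nat.sub (Nat.add (Nat.add (Nat.add (Nat.add (Nat.add (Nat.add (Nat.add (Nat.add (Nat.add C x29386) x46882) x41050) x43966) x42022) x42670) x42490) x42502) x42510) x42508) x22826)
    (Nat.sub (Nat.sub (Nat.add (Nat.add (Nat.add (Nat.add (Nat.add (Nat.add (Nat.add (Nat.add (Nat.add (Nat.add C x29388) x46884) x41052) x43968) x42024) x42672) x42492) x42504) x42516) x42508) (Nat.mul x42510 (nat_lit 2))) x22828)
    (Nat.sub (Nat.sub (Nat.add (Nat.add (Nat.add (Nat.add (Nat.add (Nat.add (Nat.add C x29394) x46890) x41058) x43974) x42030) x42678) x42510) x42516) x22834)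
    (Nat.add (Nat.add (Nat.add (Nat.add (Nat.add (Nat.add (Nat.add (Nat.add (Nat.add (Nat.add C (Nat.mul x42542 (nat_lit 2))) x29420) x46916) x41084) x44000) x42056) x43028) x42380) x42560) x42548)
    (Nat.add (Nat.add (Nat.add (Nat.add (Nat.add (Nat.add (Nat.add (Nat.add (Nat.add (Nat.add C x29426) x46922) x41090) x44006) x42062) x43034) x42386) x42566) x42542) x42550)
    (Nat.sub (Nat.add (Nat.add (Nat.add (Nat.add (Nat.add (Nat.add (Nat.add (Nat.add (Nat.add C x29428) x46924) x41092) x44008) x42064) x43036) x42388) x42568) x42548) x22868)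
    (Nat.add (Nat.add (Nat.add (Nat.add (Nat.add (Nat.add (Nat.add (Nat.add (Nat.add (Nat.add C x29438) x46934) x41102) x44018) x42074) x43046) x42398) x42614) x42542) x42566)
    (Nat.add (Nat.add (Nat.add (Nat.add (Nat.add (Nat.add (Nat.add (Nat.add (Nat.add (Nat.add (Nat.add (Nat.add (Nat.add C x29444) x46940) x41108) x44024) x42080) x43052) x42404) x42620) x42548) x42584) x42560) x42572) x42568)
    (Nat.sub (Nat.sub (Nat.add (Nat.add (Nat.add (Nat.add (Nat.add (Nat.add (Nat.add (Nat.add (Nat.add (Nat.add (Nat.add (Nat.add C x29446) x46942) x41110) x44026) x42082) x43054) x42406) x42622) x42550) x42586) x42574) x42566) x42568) x22886)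
    (Nat.sub (Nat.add (Nat.add (Nat.add (Nat.add (Nat.add (Nat.add (Nat.add (Nat.add (Nat.add (Nat.add (Nat.add C x29450) x46946) x41114) x44030) x42086) x43058) x42410) x42626) x42590) x42566) x42574) (Nat.mul x42572 (nat_lit 2)))
    (Nat.sub (Nat.sub (Nat.add (Nat.add (Nat.add (Nat.add (Nat.add (Nat.add (Nat.add (Nat.add (Nat.add (Nat.add (Nat.add (Nat.add C x29452) x46948) x41116) x44032) x42088) x43060) x42412) x42628) x42592) x42568) x42572) x42576) x42574) x22892)
    (Nat.sub (Nat.sub (Nat.add (Nat.add (Nat.add (Nat.add (Nat.add (Nat.add (Nat.add (Nat.add (Nat.add (Nat.add C x29454) x46950) x41118) x44034) x42090) x43062) x42414) x42630) x42594) x42574) (Nat.mul x42576 (nat_lit 2))) x22894)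
    (Nat.sub (Nat.add (Nat.add (Nat.add (Nat.add (Nat.add (Nat.add (Nat.add (Nat.add (Nat.add (Nat.add (Nat.add C x29462) x46958) x41126) x44042) x42098) x43070) x42422) x42638) x42566) x42590) x42586) (Nat.mul x42584 (nat_lit 2)))
    (Nat.sub (Nat.sub (Nat.add (Nat.add (Nat.add (Nat.add (Nat.add (Nat.add (Nat.add (Nat.add (Nat.add (Nat.add (Nat.add C x29464) x46960) x41128) x44044) x42100) x43072) x42424) x42640) x42568) x42592) x42584) (Nat.mul x42586 (nat_lit 4))) x22904)
    (Nat.sub (Nat.add (Nat.add (Nat.add (Nat.add (Nat.add (Nat.add (Nat.add (Nat.add (Nat.add (Nat.add (Nat.add C x29468) x46964) x41132) x44048) x42104) x43076) x42428) x42644) x42572) x42584) x42592) (Nat.mul x42590 (nat_lit 2)))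
    (Nat.sub (Nat.sub (Nat.add (Nat.add (Nat.add (Nat.add (Nat.add (Nat.add (Nat.add (Nat.add (Nat.add (Nat.add (Nat.add (Nat.add (Nat.add C x29470) x46966) x41134) x44050) x42106) x43078) x42430) x42646) x42574) x42586) x42598) x42590) x42594) (Nat.mul x42592 (nat_lit 2))) x22910)
    (Nat.sub (Nat.sub (Nat.add (Nat.add (Nat.add (Nat.add (Nat.add (Nat.add (Nat.add (Nat.add (Nat.add (Nat.add (Nat.add C x29472) x46968) x41136) x44052) x42108) x43080) x42432) x42648) x42576) x42600) x42592) (Nat.mul x42594 (nat_lit 4))) x22912)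
    (Nat.sub (Nat.sub (Nat.add (Nat.add (Nat.add (Nat.add (Nat.add (Nat.add (Nat.add (Nat.add (Nat.add (Nat.add C x29476) x46972) x41140) x44056) x42112) x43084) x42436) x42652) x42592) x42600) (Nat.mul x42598 (nat_lit 2))) x22916)
    (Nat.sub (Nat.sub (Nat.add (Nat.add (Nat.add (Nat.add (Nat.add (Nat.add (Nat.add (Nat.add (Nat.add (Nat.add C x29478) x46974) x41142) x44058) x42114) x43086) x42438) x42654) x42594) x42598) (Nat.mul x42600 (nat_lit 2))) x22918)
    (Nat.add (Nat.add (Nat.add (Nat.add (Nat.add (Nat.add (Nat.add (Nat.add (Nat.add (Nat.add (Nat.add C x42614) x29492) x46988) x41156) x44072) x42128) x43100) x42452) x42776) x42560) x42620)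
    (Nat.add (Nat.add (Nat.add (Nat.add (Nat.add (Nat.add (Nat.add (Nat.add (Nat.add (Nat.add (Nat.add (Nat.add (Nat.add C x29498) x46994) x41162) x44078) x42134) x43106) x42458) x42782) x42566) x42638) x42614) x42626) x42622)
    (Nat.sub (Nat.sub (Nat.add (Nat.add (Nat.add (Nat.add (Nat.add (Nat.add (Nat.add (Nat.add (Nat.add (Nat.add (Nat.add (Nat.add C x29500) x46996) x41164) x44080) x42136) x43108) x42460) x42784) x42568) x42640) x42628) x42620) x42622) x22940)
    (Nat.sub (Nat.add (Nat.add (Nat.add (Nat.add (Nat.add (Nat.add (Nat.add (Nat.add (Nat.add (Nat.add (Nat.add (Nat.add C x29504) x47000) x41168) x44084) x42140) x43112) x42464) x42788) x42572) x42644) x42620) x42628) (Nat.mul x42626 (nat_lit 3)))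
    (Nat.sub (Nat.sub (Nat.add (Nat.add (Nat.add (Nat.add (Nat.add (Nat.add (Nat.add (Nat.add (Nat.add (Nat.add (Nat.add (Nat.add (Nat.add C x29506) x47002) x41170) x44086) x42142) x43114) x42466) x42790) x42574) x42646) x42622) x42626) x42630) (Nat.mul x42628 (nat_lit 2))) x22946)
    (Nat.sub (Nat.sub (Nat.add (Nat.add (Nat.add (Nat.add (Nat.add (Nat.add (Nat.add (Nat.add (Nat.add (Nat.add (Nat.add C x29508) x47004) x41172) x44088) x42144) x43116) x42468) x42792) x42576) x42648) x42628) (Nat.mul x42630 (nat_lit 3))) x22948)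
    (Nat.add (Nat.add (Nat.add (Nat.add (Nat.add (Nat.add (Nat.add (Nat.add (Nat.add (Nat.add (Nat.add (Nat.add (Nat.add C x29516) x47012) x41180) x44096) x42152) x43124) x42476) x42800) x42584) x42692) x42620) x42644) x42640)
    (Nat.sub (Nat.sub (Nat.add (Nat.add (Nat.add (Nat.add (Nat.add (Nat.add (Nat.add (Nat.add (Nat.add (Nat.add (Nat.add (Nat.add (Nat.add C x29518) x47014) x41182) x44098) x42154) x43126) x42478) x42802) x42586) x42694) x42622) x42646) x42638) (Nat.mul x42640 (nat_lit 2))) x22958)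
    (Nat.sub (Nat.add (Nat.add (Nat.add (Nat.add (Nat.add (Nat.add (Nat.add (Nat.add (Nat.add (Nat.add (Nat.add (Nat.add (Nat.add (Nat.add C x29522) x47018) x41186) x44102) x42158) x43130) x42482) x42806) x42590) x42698) x42626) x42662) x42638) x42646) x42644)
    (Nat.sub (Nat.sub (Nat.add (Nat.add (Nat.add (Nat.add (Nat.add (Nat.add (Nat.add (Nat.add (Nat.add (Nat.add (Nat.add (Nat.add (Nat.add (Nat.add (Nat.add (Nat.add C x29524) x47020) x41188) x44104) x42160) x43132) x42484) x42808) x42592) x42700) x42628) x42664) x42640) x42652) x42644) x42648) x42646) x22964)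
    (Nat.sub (Nat.sub (Nat.add (Nat.add (Nat.add (Nat.add (Nat.add (Nat.add (Nat.add (Nat.add (Nat.add (Nat.add (Nat.add (Nat.add (Nat.add (Nat.add C x29526) x47022) x41190) x44106) x42162) x43134) x42486) x42810) x42594) x42702) x42630) x42666) x42654) x42646) (Nat.mul x42648 (nat_lit 3))) x22966)
    (Nat.sub (Nat.sub (Nat.add (Nat.add (Nat.add (Nat.add (Nat.add (Nat.add (Nat.add (Nat.add (Nat.add (Nat.add (Nat.add (Nat.add (Nat.add C x29530) x47026) x41194) x44110) x42166) x43138) x42490) x42814) x42598) x42706) x42670) x42646) x42654) (Nat.mul x42652 (nat_lit 2))) x22970)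
    (Nat.sub (Nat.sub (Nat.add (Nat.add (Nat.add (Nat.add (Nat.add (Nat.add (Nat.add (Nat.add (Nat.add (Nat.add (Nat.add (Nat.add (Nat.add C x29532) x47028) x41196) x44112) x42168) x43140) x42492) x42816) x42600) x42708) x42672) x42648) x42652) (Nat.mul x42654 (nat_lit 2))) x22972)
    (Nat.sub (Nat.add (Nat.add (Nat.add (Nat.add (Nat.add (Nat.add (Nat.add (Nat.add (Nat.add (Nat.add (Nat.add C x29540) x47036) x41204) x44120) x42176) x43148) x42500) x42824) x42716) x42644) x42664) x42662)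
    (Nat.sub (Nat.sub (Nat.add (Nat.add (Nat.add (Nat.add (Nat.add (Nat.add (Nat.add (Nat.add (Nat.add (Nat.add (Nat.add (Nat.add (Nat.add C x29542) x47038) x41206) x44122) x42178) x43150) x42502) x42826) x42718) x42646) x42670) x42662) x42666) (Nat.mul x42664 (nat_lit 2))) x22982)
    (Nat.sub (Nat.sub (Nat.add (Nat.add (Nat.add (Nat.add (Nat.add (Nat.add (Nat.add (Nat.add (Nat.add (Nat.add (Nat.add (Nat.add C x29544) x47040) x41208) x44124) x42180) x43152) x42504) x42828) x42720) x42648) x42672) x42664) (Nat.mul x42666 (nat_lit 5))) x22984)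
    (Nat.sub (Nat.sub (Nat.add (Nat.add (Nat.add (Nat.add (Nat.add (Nat.add (Nat.add (Nat.add (Nat.add (Nat.add (Nat.add (Nat.add C x29548) x47044) x41212) x44128) x42184) x43156) x42508) x42832) x42724) x42652) x42664) x42672) x42670) x22988)
    (Nat.sub (Nat.sub (Nat.add (Nat.add (Nat.add (Nat.add (Nat.add (Nat.add (Nat.add (Nat.add (Nat.add (Nat.add (Nat.add (Nat.add (Nat.add C x29550) x47046) x41214) x44130) x42186) x43158) x42510) x42834) x42726) x42654) x42666) x42678) x42670) (Nat.mul x42672 (nat_lit 2))) x22990)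
    (Nat.sub (Nat.sub (Nat.add (Nat.add (Nat.add (Nat.add (Nat.add (Nat.add (Nat.add (Nat.add (Nat.add (Nat.add C x29556) x47052) x41220) x44136) x42192) x43164) x42516) x42840) x42732) x42672) x42678) x22996)
    (Nat.add (Nat.add (Nat.add (Nat.add (Nat.add (Nat.add (Nat.add (Nat.add (Nat.add (Nat.add C x29570) x47066) x41234) x44150) x42206) x43178) x42854) x42638) x42698) x42694)
    (Nat.sub (Nat.sub (Nat.add (Nat.add (Nat.add (Nat.add (Nat.add (Nat.add (Nat.add (Nat.add (Nat.add (Nat.add C x29572) x47068) x41236) x44152) x42208) x43180) x42856) x42640) x42700) x42692) (Nat.mul x42694 (nat_lit 2))) x23012)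
    (Nat.sub (Nat.add (Nat.add (Nat.add (Nat.add (Nat.add (Nat.add (Nat.add (Nat.add (Nat.add (Nat.add (Nat.add C x29576) x47072) x41240) x44156) x42212) x43184) x42860) x42644) x42716) x42692) x42700) (Nat.mul x42698 (nat_lit 2)))
    (Nat.sub (Nat.sub (Nat.add (Nat.add (Nat.add (Nat.add (Nat.add (Nat.add (Nat.add (Nat.add (Nat.add (Nat.add (Nat.add (Nat.add (Nat.add C x29578) x47074) x41242) x44158) x42214) x43186) x42862) x42646) x42718) x42694) x42706) x42698) x42702) (Nat.mul x42700 (nat_lit 2))) x23018)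
    (Nat.sub (Nat.sub (Nat.add (Nat.add (Nat.add (Nat.add (Nat.add (Nat.add (Nat.add (Nat.add (Nat.add (Nat.add (Nat.add C x29580) x47076) x41244) x44160) x42216) x43188) x42864) x42648) x42720) x42708) x42700) (Nat.mul x42702 (nat_lit 4))) x23020)
    (Nat.sub (Nat.sub (Nat.add (Nat.add (Nat.add (Nat.add (Nat.add (Nat.add (Nat.add (Nat.add (Nat.add (Nat.add (Nat.add C x29584) x47080) x41248) x44164) x42220) x43192) x42868) x42652) x42724) x42700) x42708) (Nat.mul x42706 (nat_lit 4))) x23024)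
    (Nat.sub (Nat.sub (Nat.add (Nat.add (Nat.add (Nat.add (Nat.add (Nat.add (Nat.add (Nat.add (Nat.add (Nat.add (Nat.add C x29586) x47082) x41250) x44166) x42222) x43194) x42870) x42654) x42726) x42702) x42706) (Nat.mul x42708 (nat_lit 4))) x23026)
    (Nat.add (Nat.add (Nat.add (Nat.add (Nat.add (Nat.add (Nat.add (Nat.add (Nat.add (Nat.add C x29594) x47090) x41258) x44174) x42230) x43202) x42878) x42662) x42698) x42718)
    (Nat.sub (Nat.sub (Nat.add (Nat.add (Nat.add (Nat.add (Nat.add (Nat.add (Nat.add (Nat.add (Nat.add (Nat.add (Nat.add (Nat.add C x29596) x47092) x41260) x44176) x42232) x43204) x42880) x42664) x42700) x42724) x42716) x42720) x42718) x23036)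
    (Nat.sub (Nat.sub (Nat.add (Nat.add (Nat.add (Nat.add (Nat.add (Nat.add (Nat.add (Nat.add (Nat.add (Nat.add (Nat.add C x29598) x47094) x41262) x44178) x42234) x43206) x42882) x42666) x42702) x42726) x42718) (Nat.mul x42720 (nat_lit 4))) x23038)
    (Nat.sub (Nat.sub (Nat.add (Nat.add (Nat.add (Nat.add (Nat.add (Nat.add (Nat.add (Nat.add (Nat.add (Nat.add (Nat.add (Nat.add C x29602) x47098) x41266) x44182) x42238) x43210) x42886) x42670) x42706) x42742) x42718) x42726) x42724) x23042)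
    (Nat.sub (Nat.sub (Nat.add (Nat.add (Nat.add (Nat.add (Nat.add (Nat.add (Nat.add (Nat.add (Nat.add (Nat.add (Nat.add (Nat.add (Nat.add C x29604) x47100) x41268) x44184) x42240) x43212) x42888) x42672) x42708) x42744) x42720) x42732) x42724) (Nat.mul x42726 (nat_lit 2))) x23044)
    (Nat.sub (Nat.sub (Nat.add (Nat.add (Nat.add (Nat.add (Nat.add (Nat.add (Nat.add (Nat.add (Nat.add (Nat.add C x29610) x47106) x41274) x44190) x42246) x43218) x42894) x42678) x42750) x42726) (Nat.mul x42732 (nat_lit 2))) x23050)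
    (Nat.sub (Nat.add (Nat.add (Nat.add (Nat.add (Nat.add (Nat.add (Nat.add (Nat.add (Nat.add C x29620) x47116) x41284) x44200) x42256) x43228) x42904) x42724) x42744) x23060)
    (Nat.sub (Nat.sub (Nat.add (Nat.add (Nat.add (Nat.add (Nat.add (Nat.add (Nat.add (Nat.add (Nat.add (Nat.add C x29622) x47118) x41286) x44202) x42258) x43230) x42906) x42726) x42750) x42742) (Nat.mul x42744 (nat_lit 2))) x23062)
    (Nat.sub (Nat.add (Nat.add (Nat.add (Nat.add (Nat.add (Nat.add (Nat.add (Nat.add (Nat.add C x29628) x47124) x41292) x44208) x42264) x43236) x42912) x42732) x42744) x23068)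
    (Nat.add (Nat.add (Nat.add (Nat.add (Nat.add (Nat.add (Nat.add (Nat.add C x42776) x29654) x47150) x41318) x44234) x43262) x42614) x42782)
    (Nat.add (Nat.add (Nat.add (Nat.add (Nat.add (Nat.add (Nat.add (Nat.add (Nat.add (Nat.add C x29660) x47156) x41324) x44240) x43268) x42620) x42800) x42776) x42788) x42784)
    (Nat.sub (Nat.sub (Nat.add (Nat.add (Nat.add (Nat.add (Nat.add (Nat.add (Nat.add (Nat.add (Nat.add C x29662) x47158) x41326) x44242) x43270) x42622) x42802) x42790) x42782) x42784) x23102)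
    (Nat.sub (Nat.add (Nat.add (Nat.add (Nat.add (Nat.add (Nat.add (Nat.add (Nat.add (Nat.add C x29666) x47162) x41330) x44246) x43274) x42626) x42806) x42782) x42790) (Nat.mul x42788 (nat_lit 3)))
    (Nat.sub (Nat.sub (Nat.add (Nat.add (Nat.add (Nat.add (Nat.add (Nat.add (Nat.add (Nat.add (Nat.add (Nat.add C x29668) x47164) x41332) x44248) x43276) x42628) x42808) x42784) x42788) x42792) (Nat.mul x42790 (nat_lit 2))) x23108)
    (Nat.sub (Nat.sub (Nat.add (Nat.add (Nat.add (Nat.add (Nat.add (Nat.add (Nat.add (Nat.add C x29670) x47166) x41334) x44250) x43278) x42630) x42810) x42790) (Nat.mul x42792 (nat_lit 3))) x23110)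
    (Nat.sub (Nat.add (Nat.add (Nat.add (Nat.add (Nat.add (Nat.add (Nat.add (Nat.add (Nat.add (Nat.add C x29678) x47174) x41342) x44258) x43286) x42638) x42854) x42782) x42806) x42802) x42800)
    (Nat.sub (Nat.sub (Nat.add (Nat.add (Nat.add (Nat.add (Nat.add (Nat.add (Nat.add (Nat.add (Nat.add (Nat.add C x29680) x47176) x41344) x44260) x43288) x42640) x42856) x42784) x42808) x42800) (Nat.mul x42802 (nat_lit 3))) x23120)
    (Nat.sub (Nat.add (Nat.add (Nat.add (Nat.add (Nat.add (Nat.add (Nat.add (Nat.add (Nat.add (Nat.add (Nat.add C x29684) x47180) x41348) x44264) x43292) x42644) x42860) x42788) x42824) x42800) x42808) (Nat.mul x42806 (nat_lit 2)))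
    (Nat.sub (Nat.sub (Nat.add (Nat.add (Nat.add (Nat.add (Nat.add (Nat.add (Nat.add (Nat.add (Nat.add (Nat.add (Nat.add (Nat.add (Nat.add C x29686) x47182) x41350) x44266) x43294) x42646) x42862) x42790) x42826) x42802) x42814) x42806) x42810) (Nat.mul x42808 (nat_lit 2))) x23126)
    (Nat.sub (Nat.sub (Nat.add (Nat.add (Nat.add (Nat.add (Nat.add (Nat.add (Nat.add (Nat.add (Nat.add (Nat.add (Nat.add C x29688) x47184) x41352) x44268) x43296) x42648) x42864) x42792) x42828) x42816) x42808) (Nat.mul x42810 (nat_lit 4))) x23128)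
    (Nat.sub (Nat.sub (Nat.add (Nat.add (Nat.add (Nat.add (Nat.add (Nat.add (Nat.add (Nat.add (Nat.add (Nat.add C x29692) x47188) x41356) x44272) x43300) x42652) x42868) x42832) x42808) x42816) (Nat.mul x42814 (nat_lit 3))) x23132)
    (Nat.sub (Nat.sub (Nat.add (Nat.add (Nat.add (Nat.add (Nat.add (Nat.add (Nat.add (Nat.add (Nat.add (Nat.add C x29694) x47190) x41358) x44274) x43302) x42654) x42870) x42834) x42810) x42814) (Nat.mul x42816 (nat_lit 3))) x23134)
    (Nat.sub (Nat.add (Nat.add (Nat.add (Nat.add (Nat.add (Nat.add (Nat.add (Nat.add (Nat.add C x29702) x47198) x41366) x44282) x43310) x42662) x42878) x42806) x42826) (Nat.mul x42824 (nat_lit 3)))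
    (Nat.sub (Nat.sub (Nat.add (Nat.add (Nat.add (Nat.add (Nat.add (Nat.add (Nat.add (Nat.add (Nat.add (Nat.add (Nat.add C x29704) x47200) x41368) x44284) x43312) x42664) x42880) x42808) x42832) x42824) x42828) (Nat.mul x42826 (nat_lit 4))) x23144)
    (Nat.sub (Nat.sub (Nat.add (Nat.add (Nat.add (Nat.add (Nat.add (Nat.add (Nat.add (Nat.add (Nat.add (Nat.add C x29706) x47202) x41370) x44286) x43314) x42666) x42882) x42810) x42834) x42826) (Nat.mul x42828 (nat_lit 7))) x23146)
    (Nat.sub (Nat.sub (Nat.add (Nat.add (Nat.add (Nat.add (Nat.add (Nat.add (Nat.add (Nat.add (Nat.add (Nat.add C x29710) x47206) x41374) x44290) x43318) x42670) x42886) x42814) x42826) x42834) (Nat.mul x42832 (nat_lit 3))) x23150)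
    (Nat.sub (Nat.sub (Nat.add (Nat.add (Nat.add (Nat.add (Nat.add (Nat.add (Nat.add (Nat.add (Nat.add (Nat.add (Nat.add C x29712) x47208) x41376) x44292) x43320) x42672) x42888) x42816) x42828) x42840) x42832) (Nat.mul x42834 (nat_lit 4))) x23152)
    (Nat.sub (Nat.sub (Nat.add (Nat.add (Nat.add (Nat.add (Nat.add (Nat.add (Nat.add (Nat.add C x29718) x47214) x41382) x44298) x43326) x42678) x42894) x42834) (Nat.mul x42840 (nat_lit 3))) x23158)
    (Nat.add (Nat.add (Nat.add (Nat.add (Nat.add (Nat.add (Nat.add (Nat.add (Nat.add (Nat.add C x42854) x29732) x47228) x41396) x44312) x43340) x42692) x42800) x42860) x42856)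
    (Nat.sub (Nat.sub (Nat.add (Nat.add (Nat.add (Nat.add (Nat.add (Nat.add (Nat.add (Nat.add (Nat.add C x29734) x47230) x41398) x44314) x43342) x42694) x42802) x42862) x42854) x42856) x23174)
    (Nat.sub (Nat.add (Nat.add (Nat.add (Nat.add (Nat.add (Nat.add (Nat.add (Nat.add (Nat.add (Nat.add C x29738) x47234) x41402) x44318) x43346) x42698) x42806) x42878) x42854) x42862) x42860)
    (Nat.sub (Nat.sub (Nat.add (Nat.add (Nat.add (Nat.add (Nat.add (Nat.add (Nat.add (Nat.add (Nat.add (Nat.add (Nat.add (Nat.add C x29740) x47236) x41404) x44320) x43348) x42700) x42808) x42880) x42856) x42868) x42860) x42864) x42862) x23180)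
    (Nat.sub (Nat.sub (Nat.add (Nat.add (Nat.add (Nat.add (Nat.add (Nat.add (Nat.add (Nat.add (Nat.add (Nat.add C x29742) x47238) x41406) x44322) x43350) x42702) x42810) x42882) x42870) x42862) (Nat.mul x42864 (nat_lit 3))) x23182)
    (Nat.sub (Nat.sub (Nat.add (Nat.add (Nat.add (Nat.add (Nat.add (Nat.add (Nat.add (Nat.add (Nat.add (Nat.add C x29746) x47242) x41410) x44326) x43354) x42706) x42814) x42886) x42862) x42870) (Nat.mul x42868 (nat_lit 3))) x23186)
    (Nat.sub (Nat.sub (Nat.add (Nat.add (Nat.add (Nat.add (Nat.add (Nat.add (Nat.add (Nat.add (Nat.add (Nat.add C x29748) x47244) x41412) x44328) x43356) x42708) x42816) x42888) x42864) x42868) (Nat.mul x42870 (nat_lit 3))) x23188)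
    (Nat.add (Nat.add (Nat.add (Nat.add (Nat.add (Nat.add (Nat.add (Nat.add (Nat.add (Nat.add C x29756) x47252) x41420) x44336) x43364) x42716) x42824) x42932) x42860) x42880)
    (Nat.sub (Nat.sub (Nat.add (Nat.add (Nat.add (Nat.add (Nat.add (Nat.add (Nat.add (Nat.add (Nat.add (Nat.add (Nat.add (Nat.add C x29758) x47254) x41422) x44338) x43366) x42718) x42826) x42934) x42862) x42886) x42878) x42882) x42880) x23198)
    (Nat.sub (Nat.sub (Nat.add (Nat.add (Nat.add (Nat.add (Nat.add (Nat.add (Nat.add (Nat.add (Nat.add (Nat.add (Nat.add C x29760) x47256) x41424) x44340) x43368) x42720) x42828) x42936) x42864) x42888) x42880) (Nat.mul x42882 (nat_lit 4))) x23200)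
    (Nat.sub (Nat.sub (Nat.add (Nat.add (Nat.add (Nat.add (Nat.add (Nat.add (Nat.add (Nat.add (Nat.add (Nat.add (Nat.add (Nat.add C x29764) x47260) x41428) x44344) x43372) x42724) x42832) x42940) x42868) x42904) x42880) x42888) x42886) x23204)
    (Nat.sub (Nat.sub (Nat.add (Nat.add (Nat.add (Nat.add (Nat.add (Nat.add (Nat.add (Nat.add (Nat.add (Nat.add (Nat.add (Nat.add (Nat.add C x29766) x47262) x41430) x44346) x43374) x42726) x42834) x42942) x42870) x42906) x42882) x42894) x42886) (Nat.mul x42888 (nat_lit 2))) x23206)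
    (Nat.sub (Nat.sub (Nat.add (Nat.add (Nat.add (Nat.add (Nat.add (Nat.add (Nat.add (Nat.add (Nat.add (Nat.add C x29772) x47268) x41436) x44352) x43380) x42732) x42840) x42948) x42912) x42888) (Nat.mul x42894 (nat_lit 2))) x23212)
    (Nat.sub (Nat.sub (Nat.add (Nat.add (Nat.add (Nat.add (Nat.add (Nat.add (Nat.add (Nat.add (Nat.add C x29782) x47278) x41446) x44362) x43390) x42742) x42958) x42886) x42906) x42904) x23222)
    (Nat.sub (Nat.sub (Nat.add (Nat.add (Nat.add (Nat.add (Nat.add (Nat.add (Nat.add (Nat.add (Nat.add (Nat.add C x29784) x47280) x41448) x44364) x43392) x42744) x42960) x42888) x42912) x42904) (Nat.mul x42906 (nat_lit 3))) x23224)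
    (Nat.sub (Nat.sub (Nat.add (Nat.add (Nat.add (Nat.add (Nat.add (Nat.add (Nat.add (Nat.add (Nat.add C x29790) x47286) x41454) x44370) x43398) x42750) x42966) x42894) x42906) x42912) x23230)
    (Nat.add (Nat.add (Nat.add (Nat.add (Nat.add (Nat.add (Nat.add (Nat.add C x42932) x29810) x47306) x41474) x44390) x43418) x42878) x42934)
    (Nat.sub (Nat.add (Nat.add (Nat.add (Nat.add (Nat.add (Nat.add (Nat.add (Nat.add (Nat.add C x29812) x47308) x41476) x44392) x43420) x42880) x42940) x42932) x42936) x23252)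
    (Nat.sub (Nat.sub (Nat.add (Nat.add (Nat.add (Nat.add (Nat.add (Nat.add (Nat.add (Nat.add C x29814) x47310) x41478) x44394) x43422) x42882) x42942) x42934) (Nat.mul x42936 (nat_lit 3))) x23254)
    (Nat.sub (Nat.sub (Nat.add (Nat.add (Nat.add (Nat.add (Nat.add (Nat.add (Nat.add (Nat.add (Nat.add C x29818) x47314) x41482) x44398) x43426) x42886) x42958) x42934) x42942) x42940) x23258)
    (Nat.sub (Nat.sub (Nat.add (Nat.add (Nat.add (Nat.add (Nat.add (Nat.add (Nat.add (Nat.add (Nat.add (Nat.add C x29820) x47316) x41484) x44400) x43428) x42888) x42960) x42936) x42948) x42940) (Nat.mul x42942 (nat_lit 2))) x23260)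
    (Nat.sub (Nat.sub (Nat.add (Nat.add (Nat.add (Nat.add (Nat.add (Nat.add (Nat.add (Nat.add C x29826) x47322) x41490) x44406) x43434) x42894) x42966) x42942) (Nat.mul x42948 (nat_lit 3))) x23266)
    (Nat.sub (Nat.add (Nat.add (Nat.add (Nat.add (Nat.add (Nat.add (Nat.add (Nat.add (Nat.add C x42958) x29836) x47332) x41500) x44416) x43444) x42904) x42940) x42960) x23276)
    (Nat.sub (Nat.sub (Nat.add (Nat.add (Nat.add (Nat.add (Nat.add (Nat.add (Nat.add (Nat.add (Nat.add C x29838) x47334) x41502) x44418) x43446) x42906) x42942) x42966) x42958) x42960) x23278)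
    (Nat.sub (Nat.add (Nat.add (Nat.add (Nat.add (Nat.add (Nat.add (Nat.add (Nat.add (Nat.add C x29844) x47340) x41508) x44424) x43452) x42912) x42948) x42984) x42960) x23284)
    (Nat.sub (Nat.add (Nat.add (Nat.add (Nat.add (Nat.add (Nat.add (Nat.add C x42984) x29862) x47358) x41526) x44442) x43470) x42966) x23302)
    (Nat.add (Nat.add (Nat.add (Nat.add (Nat.add (Nat.add (Nat.add C (Nat.mul x43028 (nat_lit 2))) x29906) x47402) x44486) x42542) x43046) x43034)
    (Nat.add (Nat.add (Nat.add (Nat.add (Nat.add (Nat.add (Nat.add C x29912) x47408) x44492) x42548) x43052) x43028) x43036)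
    (Nat.sub (Nat.add (Nat.add (Nat.add (Nat.add (Nat.add (Nat.add C x29914) x47410) x44494) x42550) x43054) x43034) x23354)
    (Nat.add (Nat.add (Nat.add (Nat.add (Nat.add (Nat.add (Nat.add C x29924) x47420) x44504) x42560) x43100) x43028) x43052)
    (Nat.add (Nat.add (Nat.add (Nat.add (Nat.add (Nat.add (Nat.add (Nat.add (Nat.add (Nat.add C x29930) x47426) x44510) x42566) x43106) x43034) x43070) x43046) x43058) x43054)
    (Nat.sub (Nat.sub (Nat.add (Nat.add (Nat.add (Nat.add (Nat.add (Nat.add (Nat.add (Nat.add (Nat.add C x29932) x47428) x44512) x42568) x43108) x43036) x43072) x43060) x43052) x43054) x23372)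
    (Nat.sub (Nat.add (Nat.add (Nat.add (Nat.add (Nat.add (Nat.add (Nat.add (Nat.add C x29936) x47432) x44516) x42572) x43112) x43076) x43052) x43060) (Nat.mul x43058 (nat_lit 2)))
    (Nat.sub (Nat.sub (Nat.add (Nat.add (Nat.add (Nat.add (Nat.add (Nat.add (Nat.add (Nat.add (Nat.add C x29938) x47434) x44518) x42574) x43114) x43078) x43054) x43058) x43062) x43060) x23378)
    (Nat.sub (Nat.sub (Nat.add (Nat.add (Nat.add (Nat.add (Nat.add (Nat.add (Nat.add C x29940) x47436) x44520) x42576) x43116) x43080) x43060) (Nat.mul x43062 (nat_lit 2))) x23380)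
    (Nat.sub (Nat.add (Nat.add (Nat.add (Nat.add (Nat.add (Nat.add (Nat.add (Nat.add C x29948) x47444) x44528) x42584) x43124) x43052) x43076) x43072) (Nat.mul x43070 (nat_lit 2)))
    (Nat.sub (Nat.sub (Nat.add (Nat.add (Nat.add (Nat.add (Nat.add (Nat.add (Nat.add (Nat.add C x29950) x47446) x44530) x42586) x43126) x43054) x43078) x43070) (Nat.mul x43072 (nat_lit 4))) x23390)
    (Nat.sub (Nat.add (Nat.add (Nat.add (Nat.add (Nat.add (Nat.add (Nat.add (Nat.add C x29954) x47450) x44534) x42590) x43130) x43058) x43070) x43078) (Nat.mul x43076 (nat_lit 2)))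
    (Nat.sub (Nat.sub (Nat.add (Nat.add (Nat.add (Nat.add (Nat.add (Nat.add (Nat.add (Nat.add (Nat.add (Nat.add C x29956) x47452) x44536) x42592) x43132) x43060) x43072) x43084) x43076) x43080) (Nat.mul x43078 (nat_lit 2))) x23396)
    (Nat.sub (Nat.sub (Nat.add (Nat.add (Nat.add (Nat.add (Nat.add (Nat.add (Nat.add (Nat.add C x29958) x47454) x44538) x42594) x43134) x43062) x43086) x43078) (Nat.mul x43080 (nat_lit 4))) x23398)
    (Nat.sub (Nat.sub (Nat.add (Nat.add (Nat.add (Nat.add (Nat.add (Nat.add (Nat.add C x29962) x47458) x44542) x42598) x43138) x43078) x43086) (Nat.mul x43084 (nat_lit 2))) x23402)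
    (Nat.sub (Nat.sub (Nat.add (Nat.add (Nat.add (Nat.add (Nat.add (Nat.add (Nat.add C x29964) x47460) x44544) x42600) x43140) x43080) x43084) (Nat.mul x43086 (nat_lit 2))) x23404)
    (Nat.add (Nat.add (Nat.add (Nat.add (Nat.add (Nat.add (Nat.add C x29978) x47474) x44558) x42614) x43262) x43046) x43106)
    (Nat.sub (Nat.add (Nat.add (Nat.add (Nat.add (Nat.add (Nat.add (Nat.add (Nat.add (Nat.add (Nat.add C x29984) x47480) x44564) x42620) x43268) x43052) x43124) x43100) x43112) x43108) x43106)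
    (Nat.sub (Nat.sub (Nat.add (Nat.add (Nat.add (Nat.add (Nat.add (Nat.add (Nat.add (Nat.add (Nat.add C x29986) x47482) x44566) x42622) x43270) x43054) x43126) x43114) x43106) (Nat.mul x43108 (nat_lit 2))) x23426)
    (Nat.sub (Nat.add (Nat.add (Nat.add (Nat.add (Nat.add (Nat.add (Nat.add (Nat.add (Nat.add C x29990) x47486) x44570) x42626) x43274) x43058) x43130) x43106) x43114) (Nat.mul x43112 (nat_lit 4)))
    (Nat.sub (Nat.sub (Nat.add (Nat.add (Nat.add (Nat.add (Nat.add (Nat.add (Nat.add (Nat.add (Nat.add (Nat.add C x29992) x47488) x44572) x42628) x43276) x43060) x43132) x43108) x43112) x43116) (Nat.mul x43114 (nat_lit 3))) x23432)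
    (Nat.sub (Nat.sub (Nat.add (Nat.add (Nat.add (Nat.add (Nat.add (Nat.add (Nat.add (Nat.add C x29994) x47490) x44574) x42630) x43278) x43062) x43134) x43114) (Nat.mul x43116 (nat_lit 4))) x23434)
    (Nat.sub (Nat.add (Nat.add (Nat.add (Nat.add (Nat.add (Nat.add (Nat.add (Nat.add (Nat.add (Nat.add C x30002) x47498) x44582) x42638) x43286) x43070) x43178) x43106) x43130) x43126) x43124)
    (Nat.sub (Nat.sub (Nat.add (Nat.add (Nat.add (Nat.add (Nat.add (Nat.add (Nat.add (Nat.add (Nat.add (Nat.add C x30004) x47500) x44584) x42640) x43288) x43072) x43180) x43108) x43132) x43124) (Nat.mul x43126 (nat_lit 3))) x23444)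
    (Nat.sub (Nat.add (Nat.add (Nat.add (Nat.add (Nat.add (Nat.add (Nat.add (Nat.add (Nat.add (Nat.add (Nat.add C x30008) x47504) x44588) x42644) x43292) x43076) x43184) x43112) x43148) x43124) x43132) (Nat.mul x43130 (nat_lit 2)))
    (Nat.sub (Nat.sub (Nat.add (Nat.add (Nat.add (Nat.add (Nat.add (Nat.add (Nat.add (Nat.add (Nat.add (Nat.add (Nat.add (Nat.add (Nat.add C x30010) x47506) x44590) x42646) x43294) x43078) x43186) x43114) x43150) x43126) x43138) x43130) x43134) (Nat.mul x43132 (nat_lit 2))) x23450)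
    (Nat.sub (Nat.sub (Nat.add (Nat.add (Nat.add (Nat.add (Nat.add (Nat.add (Nat.add (Nat.add (Nat.add (Nat.add (Nat.add C x30012) x47508) x44592) x42648) x43296) x43080) x43188) x43116) x43152) x43140) x43132) (Nat.mul x43134 (nat_lit 4))) x23452)
    (Nat.sub (Nat.sub (Nat.add (Nat.add (Nat.add (Nat.add (Nat.add (Nat.add (Nat.add (Nat.add (Nat.add (Nat.add C x30016) x47512) x44596) x42652) x43300) x43084) x43192) x43156) x43132) x43140) (Nat.mul x43138 (nat_lit 3))) x23456)
    (Nat.sub (Nat.sub (Nat.add (Nat.add (Nat.add (Nat.add (Nat.add (Nat.add (Nat.add (Nat.add (Nat.add (Nat.add C x30018) x47514) x44598) x42654) x43302) x43086) x43194) x43158) x43134) x43138) (Nat.mul x43140 (nat_lit 3))) x23458)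
    (Nat.sub (Nat.add (Nat.add (Nat.add (Nat.add (Nat.add (Nat.add (Nat.add (Nat.add C x30026) x47522) x44606) x42662) x43310) x43202) x43130) x43150) (Nat.mul x43148 (nat_lit 2)))
    (Nat.sub (Nat.sub (Nat.add (Nat.add (Nat.add (Nat.add (Nat.add (Nat.add (Nat.add (Nat.add (Nat.add (Nat.add C x30028) x47524) x44608) x42664) x43312) x43204) x43132) x43156) x43148) x43152) (Nat.mul x43150 (nat_lit 3))) x23468)
    (Nat.sub (Nat.sub (Nat.add (Nat.add (Nat.add (Nat.add (Nat.add (Nat.add (Nat.add (Nat.add (Nat.add C x30030) x47526) x44610) x42666) x43314) x43206) x43134) x43158) x43150) (Nat.mul x43152 (nat_lit 6))) x23470)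
    (Nat.sub (Nat.sub (Nat.add (Nat.add (Nat.add (Nat.add (Nat.add (Nat.add (Nat.add (Nat.add (Nat.add C x30034) x47530) x44614) x42670) x43318) x43210) x43138) x43150) x43158) (Nat.mul x43156 (nat_lit 2))) x23474)
    (Nat.sub (Nat.sub (Nat.add (Nat.add (Nat.add (Nat.add (Nat.add (Nat.add (Nat.add (Nat.add (Nat.add (Nat.add C x30036) x47532) x44616) x42672) x43320) x43212) x43140) x43152) x43164) x43156) (Nat.mul x43158 (nat_lit 3))) x23476)
    (Nat.sub (Nat.sub (Nat.add (Nat.add (Nat.add (Nat.add (Nat.add (Nat.add (Nat.add C x30042) x47538) x44622) x42678) x43326) x43218) x43158) (Nat.mul x43164 (nat_lit 2))) x23482)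
    (Nat.sub (Nat.add (Nat.add (Nat.add (Nat.add (Nat.add (Nat.add (Nat.add (Nat.add C x30056) x47552) x44636) x42692) x43340) x43124) x43184) x43180) (Nat.mul x43178 (nat_lit 2)))
    (Nat.sub (Nat.sub (Nat.add (Nat.add (Nat.add (Nat.add (Nat.add (Nat.add (Nat.add (Nat.add C x30058) x47554) x44638) x42694) x43342) x43126) x43186) x43178) (Nat.mul x43180 (nat_lit 4))) x23498)
    (Nat.sub (Nat.add (Nat.add (Nat.add (Nat.add (Nat.add (Nat.add (Nat.add (Nat.add (Nat.add C x30062) x47558) x44642) x42698) x43346) x43130) x43202) x43178) x43186) (Nat.mul x43184 (nat_lit 4)))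
    (Nat.sub (Nat.sub (Nat.add (Nat.add (Nat.add (Nat.add (Nat.add (Nat.add (Nat.add (Nat.add (Nat.add (Nat.add (Nat.add C x30064) x47560) x44644) x42700) x43348) x43132) x43204) x43180) x43192) x43184) x43188) (Nat.mul x43186 (nat_lit 4))) x23504)
    (Nat.sub (Nat.sub (Nat.add (Nat.add (Nat.add (Nat.add (Nat.add (Nat.add (Nat.add (Nat.add (Nat.add C x30066) x47562) x44646) x42702) x43350) x43134) x43206) x43194) x43186) (Nat.mul x43188 (nat_lit 6))) x23506)
    (Nat.sub (Nat.sub (Nat.add (Nat.add (Nat.add (Nat.add (Nat.add (Nat.add (Nat.add (Nat.add (Nat.add C x30070) x47566) x44650) x42706) x43354) x43138) x43210) x43186) x43194) (Nat.mul x43192 (nat_lit 6))) x23510)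
    (Nat.sub (Nat.sub (Nat.add (Nat.add (Nat.add (Nat.add (Nat.add (Nat.add (Nat.add (Nat.add (Nat.add C x30072) x47568) x44652) x42708) x43356) x43140) x43212) x43188) x43192) (Nat.mul x43194 (nat_lit 6))) x23512)
    (Nat.sub (Nat.add (Nat.add (Nat.add (Nat.add (Nat.add (Nat.add (Nat.add (Nat.add C x30080) x47576) x44660) x42716) x43364) x43148) x43184) x43204) (Nat.mul x43202 (nat_lit 2)))
    (Nat.sub (Nat.sub (Nat.add (Nat.add (Nat.add (Nat.add (Nat.add (Nat.add (Nat.add (Nat.add (Nat.add (Nat.add C x30082) x47578) x44662) x42718) x43366) x43150) x43186) x43210) x43202) x43206) (Nat.mul x43204 (nat_lit 3))) x23522)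
    (Nat.sub (Nat.sub (Nat.add (Nat.add (Nat.add (Nat.add (Nat.add (Nat.add (Nat.add (Nat.add (Nat.add C x30084) x47580) x44664) x42720) x43368) x43152) x43188) x43212) x43204) (Nat.mul x43206 (nat_lit 6))) x23524)
    (Nat.sub (Nat.sub (Nat.add (Nat.add (Nat.add (Nat.add (Nat.add (Nat.add (Nat.add (Nat.add (Nat.add (Nat.add C x30088) x47584) x44668) x42724) x43372) x43156) x43192) x43228) x43204) x43212) (Nat.mul x43210 (nat_lit 3))) x23528)
    (Nat.sub (Nat.sub (Nat.add (Nat.add (Nat.add (Nat.add (Nat.add (Nat.add (Nat.add (Nat.add (Nat.add (Nat.add (Nat.add C x30090) x47586) x44670) x42726) x43374) x43158) x43194) x43230) x43206) x43218) x43210) (Nat.mul x43212 (nat_lit 4))) x23530)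
    (Nat.sub (Nat.sub (Nat.add (Nat.add (Nat.add (Nat.add (Nat.add (Nat.add (Nat.add (Nat.add C x30096) x47592) x44676) x42732) x43380) x43164) x43236) x43212) (Nat.mul x43218 (nat_lit 4))) x23536)
    (Nat.sub (Nat.sub (Nat.add (Nat.add (Nat.add (Nat.add (Nat.add (Nat.add (Nat.add C x30106) x47602) x44686) x42742) x43390) x43210) x43230) (Nat.mul x43228 (nat_lit 2))) x23546)
    (Nat.sub (Nat.sub (Nat.add (Nat.add (Nat.add (Nat.add (Nat.add (Nat.add (Nat.add (Nat.add C x30108) x47604) x44688) x42744) x43392) x43212) x43236) x43228) (Nat.mul x43230 (nat_lit 4))) x23548)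
    (Nat.sub (Nat.sub (Nat.add (Nat.add (Nat.add (Nat.add (Nat.add (Nat.add (Nat.add C x30114) x47610) x44694) x42750) x43398) x43218) x43230) (Nat.mul x43236 (nat_lit 2))) x23554)
    (Nat.add (Nat.add (Nat.add (Nat.add (Nat.add (Nat.add (Nat.add C (Nat.mul x43262 (nat_lit 2))) x30140) x47636) x44720) x42776) x43100) x43268)
    (Nat.add (Nat.add (Nat.add (Nat.add (Nat.add (Nat.add (Nat.add (Nat.add (Nat.add (Nat.add C x43268) x30146) x47642) x44726) x42782) x43106) x43286) x43262) x43274) x43270)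
    (Nat.sub (Nat.add (Nat.add (Nat.add (Nat.add (Nat.add (Nat.add (Nat.add (Nat.add C x30148) x47644) x44728) x42784) x43108) x43288) x43276) x43268) x23588)
    (Nat.sub (Nat.add (Nat.add (Nat.add (Nat.add (Nat.add (Nat.add (Nat.add (Nat.add C x30152) x47648) x44732) x42788) x43112) x43292) x43268) x43276) (Nat.mul x43274 (nat_lit 2)))
    (Nat.sub (Nat.sub (Nat.add (Nat.add (Nat.add (Nat.add (Nat.add (Nat.add (Nat.add (Nat.add (Nat.add C x30154) x47650) x44734) x42790) x43114) x43294) x43270) x43274) x43278) x43276) x23594)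
    (Nat.sub (Nat.sub (Nat.add (Nat.add (Nat.add (Nat.add (Nat.add (Nat.add (Nat.add C x30156) x47652) x44736) x42792) x43116) x43296) x43276) (Nat.mul x43278 (nat_lit 2))) x23596)
    (Nat.add (Nat.add (Nat.add (Nat.add (Nat.add (Nat.add (Nat.add (Nat.add (Nat.add C x30164) x47660) x44744) x42800) x43124) x43340) x43268) x43292) x43288)
    (Nat.sub (Nat.sub (Nat.add (Nat.add (Nat.add (Nat.add (Nat.add (Nat.add (Nat.add (Nat.add (Nat.add C x30166) x47662) x44746) x42802) x43126) x43342) x43270) x43294) x43286) (Nat.mul x43288 (nat_lit 2))) x23606)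
    (Nat.sub (Nat.add (Nat.add (Nat.add (Nat.add (Nat.add (Nat.add (Nat.add (Nat.add (Nat.add (Nat.add C x30170) x47666) x44750) x42806) x43130) x43346) x43274) x43310) x43286) x43294) x43292)
    (Nat.sub (Nat.sub (Nat.add (Nat.add (Nat.add (Nat.add (Nat.add (Nat.add (Nat.add (Nat.add (Nat.add (Nat.add (Nat.add (Nat.add C x30172) x47668) x44752) x42808) x43132) x43348) x43276) x43312) x43288) x43300) x43292) x43296) x43294) x23612)
    (Nat.sub (Nat.sub (Nat.add (Nat.add (Nat.add (Nat.add (Nat.add (Nat.add (Nat.add (Nat.add (Nat.add (Nat.add C x30174) x47670) x44754) x42810) x43134) x43350) x43278) x43314) x43302) x43294) (Nat.mul x43296 (nat_lit 3))) x23614)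
    (Nat.sub (Nat.sub (Nat.add (Nat.add (Nat.add (Nat.add (Nat.add (Nat.add (Nat.add (Nat.add (Nat.add C x30178) x47674) x44758) x42814) x43138) x43354) x43318) x43294) x43302) (Nat.mul x43300 (nat_lit 2))) x23618)
    (Nat.sub (Nat.sub (Nat.add (Nat.add (Nat.add (Nat.add (Nat.add (Nat.add (Nat.add (Nat.add (Nat.add C x30180) x47676) x44760) x42816) x43140) x43356) x43320) x43296) x43300) (Nat.mul x43302 (nat_lit 2))) x23620)
    (Nat.sub (Nat.add (Nat.add (Nat.add (Nat.add (Nat.add (Nat.add (Nat.add (Nat.add C x30188) x47684) x44768) x42824) x43148) x43364) x43292) x43312) (Nat.mul x43310 (nat_lit 2)))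
    (Nat.sub (Nat.sub (Nat.add (Nat.add (Nat.add (Nat.add (Nat.add (Nat.add (Nat.add (Nat.add (Nat.add (Nat.add C x30190) x47686) x44770) x42826) x43150) x43366) x43294) x43318) x43310) x43314) (Nat.mul x43312 (nat_lit 3))) x23630)
    (Nat.sub (Nat.sub (Nat.add (Nat.add (Nat.add (Nat.add (Nat.add (Nat.add (Nat.add (Nat.add (Nat.add C x30192) x47688) x44772) x42828) x43152) x43368) x43296) x43320) x43312) (Nat.mul x43314 (nat_lit 6))) x23632)
    (Nat.sub (Nat.sub (Nat.add (Nat.add (Nat.add (Nat.add (Nat.add (Nat.add (Nat.add (Nat.add (Nat.add C x30196) x47692) x44776) x42832) x43156) x43372) x43300) x43312) x43320) (Nat.mul x43318 (nat_lit 2))) x23636)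
    (Nat.sub (Nat.sub (Nat.add (Nat.add (Nat.add (Nat.add (Nat.add (Nat.add (Nat.add (Nat.add (Nat.add (Nat.add C x30198) x47694) x44778) x42834) x43158) x43374) x43302) x43314) x43326) x43318) (Nat.mul x43320 (nat_lit 3))) x23638)
    (Nat.sub (Nat.sub (Nat.add (Nat.add (Nat.add (Nat.add (Nat.add (Nat.add (Nat.add C x30204) x47700) x44784) x42840) x43164) x43380) x43320) (Nat.mul x43326 (nat_lit 2))) x23644)
    (Nat.add (Nat.add (Nat.add (Nat.add (Nat.add (Nat.add (Nat.add (Nat.add (Nat.add (Nat.add C x43340) x30218) x47714) x44798) x42854) x43178) x43502) x43286) x43346) x43342)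
    (Nat.sub (Nat.sub (Nat.add (Nat.add (Nat.add (Nat.add (Nat.add (Nat.add (Nat.add (Nat.add (Nat.add C x30220) x47716) x44800) x42856) x43180) x43504) x43288) x43348) x43340) x43342) x23660)
    (Nat.sub (Nat.add (Nat.add (Nat.add (Nat.add (Nat.add (Nat.add (Nat.add (Nat.add (Nat.add (Nat.add C x30224) x47720) x44804) x42860) x43184) x43508) x43292) x43364) x43340) x43348) x43346)
    (Nat.sub (Nat.sub (Nat.add (Nat.add (Nat.add (Nat.add (Nat.add (Nat.add (Nat.add (Nat.add (Nat.add (Nat.add (Nat.add (Nat.add C x30226) x47722) x44806) x42862) x43186) x43510) x43294) x43366) x43342) x43354) x43346) x43350) x43348) x23666)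
    (Nat.sub (Nat.sub (Nat.add (Nat.add (Nat.add (Nat.add (Nat.add (Nat.add (Nat.add (Nat.add (Nat.add (Nat.add C x30228) x47724) x44808) x42864) x43188) x43512) x43296) x43368) x43356) x43348) (Nat.mul x43350 (nat_lit 3))) x23668)
    (Nat.sub (Nat.sub (Nat.add (Nat.add (Nat.add (Nat.add (Nat.add (Nat.add (Nat.add (Nat.add (Nat.add (Nat.add C x30232) x47728) x44812) x42868) x43192) x43516) x43300) x43372) x43348) x43356) (Nat.mul x43354 (nat_lit 3))) x23672)
    (Nat.sub (Nat.sub (Nat.add (Nat.add (Nat.add (Nat.add (Nat.add (Nat.add (Nat.add (Nat.add (Nat.add (Nat.add C x30234) x47730) x44814) x42870) x43194) x43518) x43302) x43374) x43350) x43354) (Nat.mul x43356 (nat_lit 3))) x23674)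
    (Nat.add (Nat.add (Nat.add (Nat.add (Nat.add (Nat.add (Nat.add (Nat.add (Nat.add (Nat.add C x30242) x47738) x44822) x42878) x43202) x43526) x43310) x43418) x43346) x43366)
    (Nat.sub (Nat.sub (Nat.add (Nat.add (Nat.add (Nat.add (Nat.add (Nat.add (Nat.add (Nat.add (Nat.add (Nat.add (Nat.add (Nat.add C x30244) x47740) x44824) x42880) x43204) x43528) x43312) x43420) x43348) x43372) x43364) x43368) x43366) x23684)
    (Nat.sub (Nat.sub (Nat.add (Nat.add (Nat.add (Nat.add (Nat.add (Nat.add (Nat.add (Nat.add (Nat.add (Nat.add (Nat.add C x30246) x47742) x44826) x42882) x43206) x43530) x43314) x43422) x43350) x43374) x43366) (Nat.mul x43368 (nat_lit 4))) x23686)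
    (Nat.sub (Nat.sub (Nat.add (Nat.add (Nat.add (Nat.add (Nat.add (Nat.add (Nat.add (Nat.add (Nat.add (Nat.add (Nat.add (Nat.add C x30250) x47746) x44830) x42886) x43210) x43534) x43318) x43426) x43354) x43390) x43366) x43374) x43372) x23690)
    (Nat.sub (Nat.sub (Nat.add (Nat.add (Nat.add (Nat.add (Nat.add (Nat.add (Nat.add (Nat.add (Nat.add (Nat.add (Nat.add (Nat.add (Nat.add C x30252) x47748) x44832) x42888) x43212) x43536) x43320) x43428) x43356) x43392) x43368) x43380) x43372) (Nat.mul x43374 (nat_lit 2))) x23692)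
    (Nat.sub (Nat.sub (Nat.add (Nat.add (Nat.add (Nat.add (Nat.add (Nat.add (Nat.add (Nat.add (Nat.add (Nat.add C x30258) x47754) x44838) x42894) x43218) x43542) x43326) x43434) x43398) x43374) (Nat.mul x43380 (nat_lit 2))) x23698)
    (Nat.sub (Nat.sub (Nat.add (Nat.add (Nat.add (Nat.add (Nat.add (Nat.add (Nat.add (Nat.add (Nat.add C x30268) x47764) x44848) x42904) x43228) x43552) x43444) x43372) x43392) x43390) x23708)
    (Nat.sub (Nat.sub (Nat.add (Nat.add (Nat.add (Nat.add (Nat.add (Nat.add (Nat.add (Nat.add (Nat.add (Nat.add C x30270) x47766) x44850) x42906) x43230) x43554) x43446) x43374) x43398) x43390) (Nat.mul x43392 (nat_lit 3))) x23710)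
    (Nat.sub (Nat.sub (Nat.add (Nat.add (Nat.add (Nat.add (Nat.add (Nat.add (Nat.add (Nat.add (Nat.add C x30276) x47772) x44856) x42912) x43236) x43560) x43452) x43380) x43392) x43398) x23716)
    (Nat.add (Nat.add (Nat.add (Nat.add (Nat.add (Nat.add (Nat.add C x30296) x47792) x44876) x42932) x43580) x43364) x43420)
    (Nat.sub (Nat.sub (Nat.add (Nat.add (Nat.add (Nat.add (Nat.add (Nat.add (Nat.add (Nat.add (Nat.add C x30298) x47794) x44878) x42934) x43582) x43366) x43426) x43418) x43422) x43420) x23738)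
    (Nat.sub (Nat.sub (Nat.add (Nat.add (Nat.add (Nat.add (Nat.add (Nat.add (Nat.add (Nat.add C x30300) x47796) x44880) x42936) x43584) x43368) x43428) x43420) (Nat.mul x43422 (nat_lit 4))) x23740)
    (Nat.sub (Nat.sub (Nat.add (Nat.add (Nat.add (Nat.add (Nat.add (Nat.add (Nat.add (Nat.add (Nat.add C x30304) x47800) x44884) x42940) x43588) x43372) x43444) x43420) x43428) (Nat.mul x43426 (nat_lit 2))) x23744)
    (Nat.sub (Nat.sub (Nat.add (Nat.add (Nat.add (Nat.add (Nat.add (Nat.add (Nat.add (Nat.add (Nat.add (Nat.add C x30306) x47802) x44886) x42942) x43590) x43374) x43446) x43422) x43434) x43426) (Nat.mul x43428 (nat_lit 3))) x23746)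
    (Nat.sub (Nat.sub (Nat.add (Nat.add (Nat.add (Nat.add (Nat.add (Nat.add (Nat.add (Nat.add C x30312) x47808) x44892) x42948) x43596) x43380) x43452) x43428) (Nat.mul x43434 (nat_lit 4))) x23752)
    (Nat.sub (Nat.add (Nat.add (Nat.add (Nat.add (Nat.add (Nat.add (Nat.add (Nat.add C x30322) x47818) x44902) x42958) x43606) x43390) x43426) x43446) x23762)
    (Nat.sub (Nat.sub (Nat.add (Nat.add (Nat.add (Nat.add (Nat.add (Nat.add (Nat.add (Nat.add (Nat.add C x30324) x47820) x44904) x42960) x43608) x43392) x43428) x43452) x43444) (Nat.mul x43446 (nat_lit 2))) x23764)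
    (Nat.sub (Nat.sub (Nat.add (Nat.add (Nat.add (Nat.add (Nat.add (Nat.add (Nat.add (Nat.add (Nat.add C x30330) x47826) x44910) x42966) x43614) x43398) x43434) x43470) x43446) x43452) x23770)
    (Nat.sub (Nat.add (Nat.add (Nat.add (Nat.add (Nat.add (Nat.add C x30348) x47844) x44928) x42984) x43632) x43452) x23788)
    (Nat.add (Nat.add (Nat.add (Nat.add (Nat.add (Nat.add (Nat.add C (Nat.mul x43502 (nat_lit 2))) x30380) x47876) x44960) x43340) x43508) x43504)
    (Nat.sub (Nat.add (Nat.add (Nat.add (Nat.add (Nat.add (Nat.add C x30382) x47878) x44962) x43342) x43510) x43502) x23822)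
    (Nat.add (Nat.add (Nat.add (Nat.add (Nat.add (Nat.add (Nat.add C x30386) x47882) x44966) x43346) x43526) x43502) x43510)
    (Nat.sub (Nat.add (Nat.add (Nat.add (Nat.add (Nat.add (Nat.add (Nat.add (Nat.add (Nat.add C x30388) x47884) x44968) x43348) x43528) x43504) x43516) x43508) x43512) x23828)
    (Nat.sub (Nat.sub (Nat.add (Nat.add (Nat.add (Nat.add (Nat.add (Nat.add (Nat.add C x30390) x47886) x44970) x43350) x43530) x43518) x43510) (Nat.mul x43512 (nat_lit 2))) x23830)
    (Nat.sub (Nat.sub (Nat.add (Nat.add (Nat.add (Nat.add (Nat.add (Nat.add (Nat.add C x30394) x47890) x44974) x43354) x43534) x43510) x43518) (Nat.mul x43516 (nat_lit 2))) x23834)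
    (Nat.sub (Nat.sub (Nat.add (Nat.add (Nat.add (Nat.add (Nat.add (Nat.add (Nat.add C x30396) x47892) x44976) x43356) x43536) x43512) x43516) (Nat.mul x43518 (nat_lit 2))) x23836)
    (Nat.add (Nat.add (Nat.add (Nat.add (Nat.add (Nat.add (Nat.add C x30404) x47900) x44984) x43364) x43580) x43508) x43528)
    (Nat.sub (Nat.sub (Nat.add (Nat.add (Nat.add (Nat.add (Nat.add (Nat.add (Nat.add (Nat.add (Nat.add C x30406) x47902) x44986) x43366) x43582) x43510) x43534) x43526) x43530) x43528) x23846)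
    (Nat.sub (Nat.sub (Nat.add (Nat.add (Nat.add (Nat.add (Nat.add (Nat.add (Nat.add (Nat.add C x30408) x47904) x44988) x43368) x43584) x43512) x43536) x43528) (Nat.mul x43530 (nat_lit 4))) x23848)
    (Nat.sub (Nat.sub (Nat.add (Nat.add (Nat.add (Nat.add (Nat.add (Nat.add (Nat.add (Nat.add (Nat.add C x30412) x47908) x44992) x43372) x43588) x43516) x43552) x43528) x43536) x43534) x23852)
    (Nat.sub (Nat.sub (Nat.add (Nat.add (Nat.add (Nat.add (Nat.add (Nat.add (Nat.add (Nat.add (Nat.add (Nat.add C x30414) x47910) x44994) x43374) x43590) x43518) x43554) x43530) x43542) x43534) (Nat.mul x43536 (nat_lit 2))) x23854)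
    (Nat.sub (Nat.sub (Nat.add (Nat.add (Nat.add (Nat.add (Nat.add (Nat.add (Nat.add C x30420) x47916) x45000) x43380) x43596) x43560) x43536) (Nat.mul x43542 (nat_lit 2))) x23860)
    (Nat.sub (Nat.sub (Nat.add (Nat.add (Nat.add (Nat.add (Nat.add (Nat.add (Nat.add C x30430) x47926) x45010) x43390) x43606) x43534) x43554) (Nat.mul x43552 (nat_lit 2))) x23870)
    (Nat.sub (Nat.sub (Nat.add (Nat.add (Nat.add (Nat.add (Nat.add (Nat.add (Nat.add (Nat.add C x30432) x47928) x45012) x43392) x43608) x43536) x43560) x43552) (Nat.mul x43554 (nat_lit 4))) x23872)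
    (Nat.sub (Nat.sub (Nat.add (Nat.add (Nat.add (Nat.add (Nat.add (Nat.add (Nat.add C x30438) x47934) x45018) x43398) x43614) x43542) x43554) (Nat.mul x43560 (nat_lit 2))) x23878)
    (Nat.add (Nat.add (Nat.add (Nat.add (Nat.add (Nat.add (Nat.add C (Nat.mul x43580 (nat_lit 2))) x30458) x47954) x45038) x43418) x43526) x43582)
    (Nat.sub (Nat.add (Nat.add (Nat.add (Nat.add (Nat.add (Nat.add (Nat.add (Nat.add (Nat.add C x43582) x30460) x47956) x45040) x43420) x43528) x43588) x43580) x43584) x23900)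
    (Nat.sub (Nat.sub (Nat.add (Nat.add (Nat.add (Nat.add (Nat.add (Nat.add (Nat.add C x30462) x47958) x45042) x43422) x43530) x43590) x43582) (Nat.mul x43584 (nat_lit 2))) x23902)
    (Nat.sub (Nat.add (Nat.add (Nat.add (Nat.add (Nat.add (Nat.add (Nat.add (Nat.add C x30466) x47962) x45046) x43426) x43534) x43606) x43582) x43590) x23906)
    (Nat.sub (Nat.sub (Nat.add (Nat.add (Nat.add (Nat.add (Nat.add (Nat.add (Nat.add (Nat.add (Nat.add C x30468) x47964) x45048) x43428) x43536) x43608) x43584) x43596) x43588) x43590) x23908)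
    (Nat.sub (Nat.sub (Nat.add (Nat.add (Nat.add (Nat.add (Nat.add (Nat.add (Nat.add C x30474) x47970) x45054) x43434) x43542) x43614) x43590) (Nat.mul x43596 (nat_lit 2))) x23914)
    (Nat.sub (Nat.add (Nat.add (Nat.add (Nat.add (Nat.add (Nat.add (Nat.add (Nat.add (Nat.add C x43606) x30484) x47980) x45064) x43444) x43552) x43660) x43588) x43608) x23924)
    (Nat.sub (Nat.sub (Nat.add (Nat.add (Nat.add (Nat.add (Nat.add (Nat.add (Nat.add (Nat.add (Nat.add C x30486) x47982) x45066) x43446) x43554) x43662) x43590) x43614) x43606) x43608) x23926)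
    (Nat.sub (Nat.add (Nat.add (Nat.add (Nat.add (Nat.add (Nat.add (Nat.add (Nat.add (Nat.add C x30492) x47988) x45072) x43452) x43560) x43668) x43596) x43632) x43608) x23932)
    (Nat.sub (Nat.add (Nat.add (Nat.add (Nat.add (Nat.add (Nat.add C x30510) x48006) x45090) x43470) x43686) x43614) x23950)
    (Nat.sub (Nat.add (Nat.add (Nat.add (Nat.add (Nat.add (Nat.add C (Nat.mul x43660 (nat_lit 2))) x30538) x48034) x45118) x43606) x43662) x23978)
    (Nat.sub (Nat.add (Nat.add (Nat.add (Nat.add (Nat.add (Nat.add C x30540) x48036) x45120) x43608) x43668) x43660) x23980)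
    (Nat.sub (Nat.add (Nat.add (Nat.add (Nat.add (Nat.add (Nat.add C x30546) x48042) x45126) x43614) x43686) x43662) x23986)
    (Nat.sub (Nat.add (Nat.add (Nat.add (Nat.add (Nat.add (Nat.add C (Nat.mul x43686 (nat_lit 2))) x30564) x48060) x45144) x43632) x43668) x24004)
    (Nat.add (Nat.add (Nat.add (Nat.add (Nat.add C (Nat.mul x43766 (nat_lit 2))) x30644) x48140) x42308) x43784)
    (Nat.add (Nat.add (Nat.add (Nat.add (Nat.add (Nat.add (Nat.add (Nat.add C x43784) x30662) x48158) x42326) x43838) x43766) x43802) x43790)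
    (Nat.add (Nat.add (Nat.add (Nat.add (Nat.add (Nat.add (Nat.add C x30668) x48164) x42332) x43844) x43808) x43784) x43792)
    (Nat.sub (Nat.add (Nat.add (Nat.add (Nat.add (Nat.add (Nat.add C x30670) x48166) x42334) x43846) x43810) x43790) x24110)
    (Nat.sub (Nat.add (Nat.add (Nat.add (Nat.add (Nat.add (Nat.add C x30680) x48176) x42344) x43856) x43784) x43808) (Nat.mul x43802 (nat_lit 2)))
    (Nat.sub (Nat.add (Nat.add (Nat.add (Nat.add (Nat.add (Nat.add (Nat.add (Nat.add C x30686) x48182) x42350) x43862) x43790) x43802) x43814) x43810) x43808)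
    (Nat.sub (Nat.sub (Nat.add (Nat.add (Nat.add (Nat.add (Nat.add (Nat.add (Nat.add C x30688) x48184) x42352) x43864) x43792) x43816) x43808) (Nat.mul x43810 (nat_lit 2))) x24128)
    (Nat.sub (Nat.add (Nat.add (Nat.add (Nat.add (Nat.add (Nat.add C x30692) x48188) x42356) x43868) x43808) x43816) (Nat.mul x43814 (nat_lit 2)))
    (Nat.sub (Nat.sub (Nat.add (Nat.add (Nat.add (Nat.add (Nat.add (Nat.add (Nat.add C x30694) x48190) x42358) x43870) x43810) x43814) x43818) x43816) x24134)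
    (Nat.sub (Nat.sub (Nat.add (Nat.add (Nat.add (Nat.add (Nat.add C x30696) x48192) x42360) x43872) x43816) (Nat.mul x43818 (nat_lit 2))) x24136)
    (Nat.add (Nat.add (Nat.add (Nat.add (Nat.add (Nat.add (Nat.add C x30716) x48212) x42380) x44000) x43784) x43856) x43844)
    (Nat.sub (Nat.add (Nat.add (Nat.add (Nat.add (Nat.add (Nat.add (Nat.add (Nat.add C x30722) x48218) x42386) x44006) x43790) x43862) x43838) x43846) (Nat.mul x43844 (nat_lit 2)))
    (Nat.sub (Nat.sub (Nat.add (Nat.add (Nat.add (Nat.add (Nat.add (Nat.add (Nat.add C x30724) x48220) x42388) x44008) x43792) x43864) x43844) (Nat.mul x43846 (nat_lit 2))) x24164)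
    (Nat.sub (Nat.add (Nat.add (Nat.add (Nat.add (Nat.add (Nat.add (Nat.add (Nat.add C x30734) x48230) x42398) x44018) x43802) x43910) x43838) x43862) x43856)
    (Nat.sub (Nat.add (Nat.add (Nat.add (Nat.add (Nat.add (Nat.add (Nat.add (Nat.add (Nat.add (Nat.add (Nat.add C x30740) x48236) x42404) x44024) x43808) x43916) x43844) x43880) x43856) x43868) x43864) x43862)
    (Nat.sub (Nat.sub (Nat.add (Nat.add (Nat.add (Nat.add (Nat.add (Nat.add (Nat.add (Nat.add (Nat.add (Nat.add C x30742) x48238) x42406) x44026) x43810) x43918) x43846) x43882) x43870) x43862) (Nat.mul x43864 (nat_lit 2))) x24182)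
    (Nat.sub (Nat.add (Nat.add (Nat.add (Nat.add (Nat.add (Nat.add (Nat.add (Nat.add (Nat.add C x30746) x48242) x42410) x44030) x43814) x43922) x43886) x43862) x43870) (Nat.mul x43868 (nat_lit 3)))
    (Nat.sub (Nat.sub (Nat.add (Nat.add (Nat.add (Nat.add (Nat.add (Nat.add (Nat.add (Nat.add (Nat.add (Nat.add C x30748) x48244) x42412) x44032) x43816) x43924) x43888) x43864) x43868) x43872) (Nat.mul x43870 (nat_lit 2))) x24188)
    (Nat.sub (Nat.sub (Nat.add (Nat.add (Nat.add (Nat.add (Nat.add (Nat.add (Nat.add (Nat.add C x30750) x48246) x42414) x44034) x43818) x43926) x43890) x43870) (Nat.mul x43872 (nat_lit 3))) x24190)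
    (Nat.sub (Nat.add (Nat.add (Nat.add (Nat.add (Nat.add (Nat.add (Nat.add (Nat.add C x30758) x48254) x42422) x44042) x43934) x43862) x43886) x43882) (Nat.mul x43880 (nat_lit 2)))
    (Nat.sub (Nat.sub (Nat.add (Nat.add (Nat.add (Nat.add (Nat.add (Nat.add (Nat.add (Nat.add C x30760) x48256) x42424) x44044) x43936) x43864) x43888) x43880) (Nat.mul x43882 (nat_lit 4))) x24200)
    (Nat.sub (Nat.add (Nat.add (Nat.add (Nat.add (Nat.add (Nat.add (Nat.add (Nat.add C x30764) x48260) x42428) x44048) x43940) x43868) x43880) x43888) (Nat.mul x43886 (nat_lit 2)))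
    (Nat.sub (Nat.sub (Nat.add (Nat.add (Nat.add (Nat.add (Nat.add (Nat.add (Nat.add (Nat.add (Nat.add (Nat.add C x30766) x48262) x42430) x44050) x43942) x43870) x43882) x43894) x43886) x43890) (Nat.mul x43888 (nat_lit 2))) x24206)
    (Nat.sub (Nat.sub (Nat.add (Nat.add (Nat.add (Nat.add (Nat.add (Nat.add (Nat.add (Nat.add C x30768) x48264) x42432) x44052) x43944) x43872) x43896) x43888) (Nat.mul x43890 (nat_lit 4))) x24208)
    (Nat.sub (Nat.sub (Nat.add (Nat.add (Nat.add (Nat.add (Nat.add (Nat.add (Nat.add C x30772) x48268) x42436) x44056) x43948) x43888) x43896) (Nat.mul x43894 (nat_lit 2))) x24212)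
    (Nat.sub (Nat.sub (Nat.add (Nat.add (Nat.add (Nat.add (Nat.add (Nat.add (Nat.add C x30774) x48270) x42438) x44058) x43950) x43890) x43894) (Nat.mul x43896 (nat_lit 2))) x24214)
    (Nat.sub (Nat.add (Nat.add (Nat.add (Nat.add (Nat.add (Nat.add C x30788) x48284) x42452) x44072) x43856) x43916) (Nat.mul x43910 (nat_lit 2)))
    (Nat.sub (Nat.add (Nat.add (Nat.add (Nat.add (Nat.add (Nat.add (Nat.add (Nat.add (Nat.add C x30794) x48290) x42458) x44078) x43862) x43934) x43910) x43922) x43918) (Nat.mul x43916 (nat_lit 3)))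
    (Nat.sub (Nat.sub (Nat.add (Nat.add (Nat.add (Nat.add (Nat.add (Nat.add (Nat.add (Nat.add C x30796) x48292) x42460) x44080) x43864) x43936) x43924) x43916) (Nat.mul x43918 (nat_lit 4))) x24236)
    (Nat.sub (Nat.add (Nat.add (Nat.add (Nat.add (Nat.add (Nat.add (Nat.add (Nat.add C x30800) x48296) x42464) x44084) x43868) x43940) x43916) x43924) (Nat.mul x43922 (nat_lit 6)))
    (Nat.sub (Nat.sub (Nat.add (Nat.add (Nat.add (Nat.add (Nat.add (Nat.add (Nat.add (Nat.add (Nat.add C x30802) x48298) x42466) x44086) x43870) x43942) x43918) x43922) x43926) (Nat.mul x43924 (nat_lit 5))) x24242)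
    (Nat.sub (Nat.sub (Nat.add (Nat.add (Nat.add (Nat.add (Nat.add (Nat.add (Nat.add C x30804) x48300) x42468) x44088) x43872) x43944) x43924) (Nat.mul x43926 (nat_lit 6))) x24244)
    (Nat.sub (Nat.add (Nat.add (Nat.add (Nat.add (Nat.add (Nat.add (Nat.add (Nat.add C x30812) x48308) x42476) x44096) x43880) x43916) x43940) x43936) (Nat.mul x43934 (nat_lit 2)))
    (Nat.sub (Nat.sub (Nat.add (Nat.add (Nat.add (Nat.add (Nat.add (Nat.add (Nat.add (Nat.add C x30814) x48310) x42478) x44098) x43882) x43918) x43942) x43934) (Nat.mul x43936 (nat_lit 4))) x24254)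
    (Nat.sub (Nat.add (Nat.add (Nat.add (Nat.add (Nat.add (Nat.add (Nat.add (Nat.add (Nat.add C x30818) x48314) x42482) x44102) x43886) x43922) x43958) x43934) x43942) (Nat.mul x43940 (nat_lit 3)))
    (Nat.sub (Nat.sub (Nat.add (Nat.add (Nat.add (Nat.add (Nat.add (Nat.add (Nat.add (Nat.add (Nat.add (Nat.add (Nat.add C x30820) x48316) x42484) x44104) x43888) x43924) x43960) x43936) x43948) x43940) x43944) (Nat.mul x43942 (nat_lit 3))) x24260)
    (Nat.sub (Nat.sub (Nat.add (Nat.add (Nat.add (Nat.add (Nat.add (Nat.add (Nat.add (Nat.add (Nat.add C x30822) x48318) x42486) x44106) x43890) x43926) x43962) x43950) x43942) (Nat.mul x43944 (nat_lit 5))) x24262)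
    (Nat.sub (Nat.sub (Nat.add (Nat.add (Nat.add (Nat.add (Nat.add (Nat.add (Nat.add (Nat.add C x30826) x48322) x42490) x44110) x43894) x43966) x43942) x43950) (Nat.mul x43948 (nat_lit 4))) x24266)
    (Nat.sub (Nat.sub (Nat.add (Nat.add (Nat.add (Nat.add (Nat.add (Nat.add (Nat.add (Nat.add C x30828) x48324) x42492) x44112) x43896) x43968) x43944) x43948) (Nat.mul x43950 (nat_lit 4))) x24268)
    (Nat.sub (Nat.add (Nat.add (Nat.add (Nat.add (Nat.add (Nat.add C x30836) x48332) x42500) x44120) x43940) x43960) (Nat.mul x43958 (nat_lit 2)))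
    (Nat.sub (Nat.sub (Nat.add (Nat.add (Nat.add (Nat.add (Nat.add (Nat.add (Nat.add (Nat.add C x30838) x48334) x42502) x44122) x43942) x43966) x43958) x43962) (Nat.mul x43960 (nat_lit 3))) x24278)
    (Nat.sub (Nat.sub (Nat.add (Nat.add (Nat.add (Nat.add (Nat.add (Nat.add (Nat.add C x30840) x48336) x42504) x44124) x43944) x43968) x43960) (Nat.mul x43962 (nat_lit 6))) x24280)
    (Nat.sub (Nat.sub (Nat.add (Nat.add (Nat.add (Nat.add (Nat.add (Nat.add (Nat.add C x30844) x48340) x42508) x44128) x43948) x43960) x43968) (Nat.mul x43966 (nat_lit 2))) x24284)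
    (Nat.sub (Nat.sub (Nat.add (Nat.add (Nat.add (Nat.add (Nat.add (Nat.add (Nat.add (Nat.add C x30846) x48342) x42510) x44130) x43950) x43962) x43974) x43966) (Nat.mul x43968 (nat_lit 3))) x24286)
    (Nat.sub (Nat.sub (Nat.add (Nat.add (Nat.add (Nat.add (Nat.add C x30852) x48348) x42516) x44136) x43968) (Nat.mul x43974 (nat_lit 2))) x24292)
    (Nat.add (Nat.add (Nat.add (Nat.add (Nat.add (Nat.add (Nat.add C x30878) x48374) x42542) x44486) x43838) x44018) x44006)
    (Nat.sub (Nat.add (Nat.add (Nat.add (Nat.add (Nat.add (Nat.add (Nat.add (Nat.add C x30884) x48380) x42548) x44492) x43844) x44024) x44000) x44008) (Nat.mul x44006 (nat_lit 2)))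
    (Nat.sub (Nat.sub (Nat.add (Nat.add (Nat.add (Nat.add (Nat.add (Nat.add (Nat.add C x30886) x48382) x42550) x44494) x43846) x44026) x44006) (Nat.mul x44008 (nat_lit 2))) x24326)
    (Nat.sub (Nat.add (Nat.add (Nat.add (Nat.add (Nat.add (Nat.add (Nat.add (Nat.add C x30896) x48392) x42560) x44504) x43856) x44072) x44000) x44024) (Nat.mul x44018 (nat_lit 2)))
    (Nat.sub (Nat.add (Nat.add (Nat.add (Nat.add (Nat.add (Nat.add (Nat.add (Nat.add (Nat.add (Nat.add (Nat.add C x30902) x48398) x42566) x44510) x43862) x44078) x44006) x44042) x44018) x44030) x44026) (Nat.mul x44024 (nat_lit 2)))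
    (Nat.sub (Nat.sub (Nat.add (Nat.add (Nat.add (Nat.add (Nat.add (Nat.add (Nat.add (Nat.add (Nat.add (Nat.add C x30904) x48400) x42568) x44512) x43864) x44080) x44008) x44044) x44032) x44024) (Nat.mul x44026 (nat_lit 3))) x24344)
    (Nat.sub (Nat.add (Nat.add (Nat.add (Nat.add (Nat.add (Nat.add (Nat.add (Nat.add (Nat.add C x30908) x48404) x42572) x44516) x43868) x44084) x44048) x44024) x44032) (Nat.mul x44030 (nat_lit 4)))
    (Nat.sub (Nat.sub (Nat.add (Nat.add (Nat.add (Nat.add (Nat.add (Nat.add (Nat.add (Nat.add (Nat.add (Nat.add C x30910) x48406) x42574) x44518) x43870) x44086) x44050) x44026) x44030) x44034) (Nat.mul x44032 (nat_lit 3))) x24350)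
    (Nat.sub (Nat.sub (Nat.add (Nat.add (Nat.add (Nat.add (Nat.add (Nat.add (Nat.add (Nat.add C x30912) x48408) x42576) x44520) x43872) x44088) x44052) x44032) (Nat.mul x44034 (nat_lit 4))) x24352)
    (Nat.sub (Nat.add (Nat.add (Nat.add (Nat.add (Nat.add (Nat.add (Nat.add (Nat.add (Nat.add C x30920) x48416) x42584) x44528) x43880) x44096) x44024) x44048) x44044) (Nat.mul x44042 (nat_lit 4)))
    (Nat.sub (Nat.sub (Nat.add (Nat.add (Nat.add (Nat.add (Nat.add (Nat.add (Nat.add (Nat.add (Nat.add C x30922) x48418) x42586) x44530) x43882) x44098) x44026) x44050) x44042) (Nat.mul x44044 (nat_lit 6))) x24362)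
    (Nat.sub (Nat.add (Nat.add (Nat.add (Nat.add (Nat.add (Nat.add (Nat.add (Nat.add (Nat.add C x30926) x48422) x42590) x44534) x43886) x44102) x44030) x44042) x44050) (Nat.mul x44048 (nat_lit 4)))
    (Nat.sub (Nat.sub (Nat.add (Nat.add (Nat.add (Nat.add (Nat.add (Nat.add (Nat.add (Nat.add (Nat.add (Nat.add (Nat.add C x30928) x48424) x42592) x44536) x43888) x44104) x44032) x44044) x44056) x44048) x44052) (Nat.mul x44050 (nat_lit 4))) x24368)
    (Nat.sub (Nat.sub (Nat.add (Nat.add (Nat.add (Nat.add (Nat.add (Nat.add (Nat.add (Nat.add (Nat.add C x30930) x48426) x42594) x44538) x43890) x44106) x44034) x44058) x44050) (Nat.mul x44052 (nat_lit 6))) x24370)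
    (Nat.sub (Nat.sub (Nat.add (Nat.add (Nat.add (Nat.add (Nat.add (Nat.add (Nat.add (Nat.add C x30934) x48430) x42598) x44542) x43894) x44110) x44050) x44058) (Nat.mul x44056 (nat_lit 4))) x24374)
    (Nat.sub (Nat.sub (Nat.add (Nat.add (Nat.add (Nat.add (Nat.add (Nat.add (Nat.add (Nat.add C x30936) x48432) x42600) x44544) x43896) x44112) x44052) x44056) (Nat.mul x44058 (nat_lit 4))) x24376)
    (Nat.sub (Nat.add (Nat.add (Nat.add (Nat.add (Nat.add (Nat.add (Nat.add (Nat.add C x30950) x48446) x42614) x44558) x43910) x44234) x44018) x44078) x44072)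
    (Nat.sub (Nat.add (Nat.add (Nat.add (Nat.add (Nat.add (Nat.add (Nat.add (Nat.add (Nat.add (Nat.add (Nat.add C x30956) x48452) x42620) x44564) x43916) x44240) x44024) x44096) x44072) x44084) x44080) (Nat.mul x44078 (nat_lit 2)))
    (Nat.sub (Nat.sub (Nat.add (Nat.add (Nat.add (Nat.add (Nat.add (Nat.add (Nat.add (Nat.add (Nat.add (Nat.add C x30958) x48454) x42622) x44566) x43918) x44242) x44026) x44098) x44086) x44078) (Nat.mul x44080 (nat_lit 3))) x24398)
    (Nat.sub (Nat.add (Nat.add (Nat.add (Nat.add (Nat.add (Nat.add (Nat.add (Nat.add (Nat.add (Nat.add C x30962) x48458) x42626) x44570) x43922) x44246) x44030) x44102) x44078) x44086) (Nat.mul x44084 (nat_lit 5)))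
    (Nat.sub (Nat.sub (Nat.add (Nat.add (Nat.add (Nat.add (Nat.add (Nat.add (Nat.add (Nat.add (Nat.add (Nat.add (Nat.add C x30964) x48460) x42628) x44572) x43924) x44248) x44032) x44104) x44080) x44084) x44088) (Nat.mul x44086 (nat_lit 4))) x24404)
    (Nat.sub (Nat.sub (Nat.add (Nat.add (Nat.add (Nat.add (Nat.add (Nat.add (Nat.add (Nat.add (Nat.add C x30966) x48462) x42630) x44574) x43926) x44250) x44034) x44106) x44086) (Nat.mul x44088 (nat_lit 5))) x24406)
    (Nat.sub (Nat.add (Nat.add (Nat.add (Nat.add (Nat.add (Nat.add (Nat.add (Nat.add (Nat.add (Nat.add (Nat.add C x30974) x48470) x42638) x44582) x43934) x44258) x44042) x44150) x44078) x44102) x44098) (Nat.mul x44096 (nat_lit 2)))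
    (Nat.sub (Nat.sub (Nat.add (Nat.add (Nat.add (Nat.add (Nat.add (Nat.add (Nat.add (Nat.add (Nat.add (Nat.add (Nat.add C x30976) x48472) x42640) x44584) x43936) x44260) x44044) x44152) x44080) x44104) x44096) (Nat.mul x44098 (nat_lit 4))) x24416)
    (Nat.sub (Nat.add (Nat.add (Nat.add (Nat.add (Nat.add (Nat.add (Nat.add (Nat.add (Nat.add (Nat.add (Nat.add (Nat.add C x30980) x48476) x42644) x44588) x43940) x44264) x44048) x44156) x44084) x44120) x44096) x44104) (Nat.mul x44102 (nat_lit 3)))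
    (Nat.sub (Nat.sub (Nat.add (Nat.add (Nat.add (Nat.add (Nat.add (Nat.add (Nat.add (Nat.add (Nat.add (Nat.add (Nat.add (Nat.add (Nat.add (Nat.add C x30982) x48478) x42646) x44590) x43942) x44266) x44050) x44158) x44086) x44122) x44098) x44110) x44102) x44106) (Nat.mul x44104 (nat_lit 3))) x24422)
    (Nat.sub (Nat.sub (Nat.add (Nat.add (Nat.add (Nat.add (Nat.add (Nat.add (Nat.add (Nat.add (Nat.add (Nat.add (Nat.add (Nat.add C x30984) x48480) x42648) x44592) x43944) x44268) x44052) x44160) x44088) x44124) x44112) x44104) (Nat.mul x44106 (nat_lit 5))) x24424)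
    (Nat.sub (Nat.sub (Nat.add (Nat.add (Nat.add (Nat.add (Nat.add (Nat.add (Nat.add (Nat.add (Nat.add (Nat.add (Nat.add C x30988) x48484) x42652) x44596) x43948) x44272) x44056) x44164) x44128) x44104) x44112) (Nat.mul x44110 (nat_lit 4))) x24428)
    (Nat.sub (Nat.sub (Nat.add (Nat.add (Nat.add (Nat.add (Nat.add (Nat.add (Nat.add (Nat.add (Nat.add (Nat.add (Nat.add C x30990) x48486) x42654) x44598) x43950) x44274) x44058) x44166) x44130) x44106) x44110) (Nat.mul x44112 (nat_lit 4))) x24430)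
    (Nat.sub (Nat.add (Nat.add (Nat.add (Nat.add (Nat.add (Nat.add (Nat.add (Nat.add (Nat.add C x30998) x48494) x42662) x44606) x43958) x44282) x44174) x44102) x44122) (Nat.mul x44120 (nat_lit 3)))
    (Nat.sub (Nat.sub (Nat.add (Nat.add (Nat.add (Nat.add (Nat.add (Nat.add (Nat.add (Nat.add (Nat.add (Nat.add (Nat.add C x31000) x48496) x42664) x44608) x43960) x44284) x44176) x44104) x44128) x44120) x44124) (Nat.mul x44122 (nat_lit 4))) x24440)
    (Nat.sub (Nat.sub (Nat.add (Nat.add (Nat.add (Nat.add (Nat.add (Nat.add (Nat.add (Nat.add (Nat.add (Nat.add C x31002) x48498) x42666) x44610) x43962) x44286) x44178) x44106) x44130) x44122) (Nat.mul x44124 (nat_lit 7))) x24442)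
    (Nat.sub (Nat.sub (Nat.add (Nat.add (Nat.add (Nat.add (Nat.add (Nat.add (Nat.add (Nat.add (Nat.add (Nat.add C x31006) x48502) x42670) x44614) x43966) x44290) x44182) x44110) x44122) x44130) (Nat.mul x44128 (nat_lit 3))) x24446)
    (Nat.sub (Nat.sub (Nat.add (Nat.add (Nat.add (Nat.add (Nat.add (Nat.add (Nat.add (Nat.add (Nat.add (Nat.add (Nat.add C x31008) x48504) x42672) x44616) x43968) x44292) x44184) x44112) x44124) x44136) x44128) (Nat.mul x44130 (nat_lit 4))) x24448)
    (Nat.sub (Nat.sub (Nat.add (Nat.add (Nat.add (Nat.add (Nat.add (Nat.add (Nat.add (Nat.add C x31014) x48510) x42678) x44622) x43974) x44298) x44190) x44130) (Nat.mul x44136 (nat_lit 3))) x24454)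
    (Nat.sub (Nat.add (Nat.add (Nat.add (Nat.add (Nat.add (Nat.add (Nat.add (Nat.add C x31028) x48524) x42692) x44636) x44312) x44096) x44156) x44152) (Nat.mul x44150 (nat_lit 2)))
    (Nat.sub (Nat.sub (Nat.add (Nat.add (Nat.add (Nat.add (Nat.add (Nat.add (Nat.add (Nat.add C x31030) x48526) x42694) x44638) x44314) x44098) x44158) x44150) (Nat.mul x44152 (nat_lit 4))) x24470)
    (Nat.sub (Nat.add (Nat.add (Nat.add (Nat.add (Nat.add (Nat.add (Nat.add (Nat.add (Nat.add C x31034) x48530) x42698) x44642) x44318) x44102) x44174) x44150) x44158) (Nat.mul x44156 (nat_lit 4)))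
    (Nat.sub (Nat.sub (Nat.add (Nat.add (Nat.add (Nat.add (Nat.add (Nat.add (Nat.add (Nat.add (Nat.add (Nat.add (Nat.add C x31036) x48532) x42700) x44644) x44320) x44104) x44176) x44152) x44164) x44156) x44160) (Nat.mul x44158 (nat_lit 4))) x24476)
    (Nat.sub (Nat.sub (Nat.add (Nat.add (Nat.add (Nat.add (Nat.add (Nat.add (Nat.add (Nat.add (Nat.add C x31038) x48534) x42702) x44646) x44322) x44106) x44178) x44166) x44158) (Nat.mul x44160 (nat_lit 6))) x24478)
    (Nat.sub (Nat.sub (Nat.add (Nat.add (Nat.add (Nat.add (Nat.add (Nat.add (Nat.add (Nat.add (Nat.add C x31042) x48538) x42706) x44650) x44326) x44110) x44182) x44158) x44166) (Nat.mul x44164 (nat_lit 6))) x24482)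
    (Nat.sub (Nat.sub (Nat.add (Nat.add (Nat.add (Nat.add (Nat.add (Nat.add (Nat.add (Nat.add (Nat.add C x31044) x48540) x42708) x44652) x44328) x44112) x44184) x44160) x44164) (Nat.mul x44166 (nat_lit 6))) x24484)
    (Nat.sub (Nat.add (Nat.add (Nat.add (Nat.add (Nat.add (Nat.add (Nat.add (Nat.add C x31052) x48548) x42716) x44660) x44336) x44120) x44156) x44176) (Nat.mul x44174 (nat_lit 2)))
    (Nat.sub (Nat.sub (Nat.add (Nat.add (Nat.add (Nat.add (Nat.add (Nat.add (Nat.add (Nat.add (Nat.add (Nat.add C x31054) x48550) x42718) x44662) x44338) x44122) x44158) x44182) x44174) x44178) (Nat.mul x44176 (nat_lit 3))) x24494)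
    (Nat.sub (Nat.sub (Nat.add (Nat.add (Nat.add (Nat.add (Nat.add (Nat.add (Nat.add (Nat.add (Nat.add C x31056) x48552) x42720) x44664) x44340) x44124) x44160) x44184) x44176) (Nat.mul x44178 (nat_lit 6))) x24496)
    (Nat.sub (Nat.sub (Nat.add (Nat.add (Nat.add (Nat.add (Nat.add (Nat.add (Nat.add (Nat.add (Nat.add (Nat.add C x31060) x48556) x42724) x44668) x44344) x44128) x44164) x44200) x44176) x44184) (Nat.mul x44182 (nat_lit 3))) x24500)
    (Nat.sub (Nat.sub (Nat.add (Nat.add (Nat.add (Nat.add (Nat.add (Nat.add (Nat.add (Nat.add (Nat.add (Nat.add (Nat.add C x31062) x48558) x42726) x44670) x44346) x44130) x44166) x44202) x44178) x44190) x44182) (Nat.mul x44184 (nat_lit 4))) x24502)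
    (Nat.sub (Nat.sub (Nat.add (Nat.add (Nat.add (Nat.add (Nat.add (Nat.add (Nat.add (Nat.add C x31068) x48564) x42732) x44676) x44352) x44136) x44208) x44184) (Nat.mul x44190 (nat_lit 4))) x24508)
    (Nat.sub (Nat.sub (Nat.add (Nat.add (Nat.add (Nat.add (Nat.add (Nat.add (Nat.add C x31078) x48574) x42742) x44686) x44362) x44182) x44202) (Nat.mul x44200 (nat_lit 2))) x24518)
    (Nat.sub (Nat.sub (Nat.add (Nat.add (Nat.add (Nat.add (Nat.add (Nat.add (Nat.add (Nat.add C x31080) x48576) x42744) x44688) x44364) x44184) x44208) x44200) (Nat.mul x44202 (nat_lit 4))) x24520)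
    (Nat.sub (Nat.sub (Nat.add (Nat.add (Nat.add (Nat.add (Nat.add (Nat.add (Nat.add C x31086) x48582) x42750) x44694) x44370) x44190) x44202) (Nat.mul x44208 (nat_lit 2))) x24526)
    (Nat.sub (Nat.add (Nat.add (Nat.add (Nat.add (Nat.add (Nat.add C x31112) x48608) x42776) x44720) x44072) x44240) (Nat.mul x44234 (nat_lit 2)))
    (Nat.sub (Nat.add (Nat.add (Nat.add (Nat.add (Nat.add (Nat.add (Nat.add (Nat.add (Nat.add C x31118) x48614) x42782) x44726) x44078) x44258) x44234) x44246) x44242) (Nat.mul x44240 (nat_lit 3)))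
    (Nat.sub (Nat.sub (Nat.add (Nat.add (Nat.add (Nat.add (Nat.add (Nat.add (Nat.add (Nat.add C x31120) x48616) x42784) x44728) x44080) x44260) x44248) x44240) (Nat.mul x44242 (nat_lit 4))) x24560)
    (Nat.sub (Nat.add (Nat.add (Nat.add (Nat.add (Nat.add (Nat.add (Nat.add (Nat.add C x31124) x48620) x42788) x44732) x44084) x44264) x44240) x44248) (Nat.mul x44246 (nat_lit 6)))
    (Nat.sub (Nat.sub (Nat.add (Nat.add (Nat.add (Nat.add (Nat.add (Nat.add (Nat.add (Nat.add (Nat.add C x31126) x48622) x42790) x44734) x44086) x44266) x44242) x44246) x44250) (Nat.mul x44248 (nat_lit 5))) x24566)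
    (Nat.sub (Nat.sub (Nat.add (Nat.add (Nat.add (Nat.add (Nat.add (Nat.add (Nat.add C x31128) x48624) x42792) x44736) x44088) x44268) x44248) (Nat.mul x44250 (nat_lit 6))) x24568)
    (Nat.sub (Nat.add (Nat.add (Nat.add (Nat.add (Nat.add (Nat.add (Nat.add (Nat.add (Nat.add C x31136) x48632) x42800) x44744) x44096) x44312) x44240) x44264) x44260) (Nat.mul x44258 (nat_lit 4)))
    (Nat.sub (Nat.sub (Nat.add (Nat.add (Nat.add (Nat.add (Nat.add (Nat.add (Nat.add (Nat.add (Nat.add C x31138) x48634) x42802) x44746) x44098) x44314) x44242) x44266) x44258) (Nat.mul x44260 (nat_lit 6))) x24578)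
    (Nat.sub (Nat.add (Nat.add (Nat.add (Nat.add (Nat.add (Nat.add (Nat.add (Nat.add (Nat.add (Nat.add C x31142) x48638) x42806) x44750) x44102) x44318) x44246) x44282) x44258) x44266) (Nat.mul x44264 (nat_lit 5)))
    (Nat.sub (Nat.sub (Nat.add (Nat.add (Nat.add (Nat.add (Nat.add (Nat.add (Nat.add (Nat.add (Nat.add (Nat.add (Nat.add (Nat.add C x31144) x48640) x42808) x44752) x44104) x44320) x44248) x44284) x44260) x44272) x44264) x44268) (Nat.mul x44266 (nat_lit 5))) x24584)
    (Nat.sub (Nat.sub (Nat.add (Nat.add (Nat.add (Nat.add (Nat.add (Nat.add (Nat.add (Nat.add (Nat.add (Nat.add C x31146) x48642) x42810) x44754) x44106) x44322) x44250) x44286) x44274) x44266) (Nat.mul x44268 (nat_lit 7))) x24586)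
    (Nat.sub (Nat.sub (Nat.add (Nat.add (Nat.add (Nat.add (Nat.add (Nat.add (Nat.add (Nat.add (Nat.add C x31150) x48646) x42814) x44758) x44110) x44326) x44290) x44266) x44274) (Nat.mul x44272 (nat_lit 6))) x24590)
    (Nat.sub (Nat.sub (Nat.add (Nat.add (Nat.add (Nat.add (Nat.add (Nat.add (Nat.add (Nat.add (Nat.add C x31152) x48648) x42816) x44760) x44112) x44328) x44292) x44268) x44272) (Nat.mul x44274 (nat_lit 6))) x24592)
    (Nat.sub (Nat.add (Nat.add (Nat.add (Nat.add (Nat.add (Nat.add (Nat.add (Nat.add C x31160) x48656) x42824) x44768) x44120) x44336) x44264) x44284) (Nat.mul x44282 (nat_lit 6)))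
    (Nat.sub (Nat.sub (Nat.add (Nat.add (Nat.add (Nat.add (Nat.add (Nat.add (Nat.add (Nat.add (Nat.add (Nat.add C x31162) x48658) x42826) x44770) x44122) x44338) x44266) x44290) x44282) x44286) (Nat.mul x44284 (nat_lit 7))) x24602)
    (Nat.sub (Nat.sub (Nat.add (Nat.add (Nat.add (Nat.add (Nat.add (Nat.add (Nat.add (Nat.add (Nat.add C x31164) x48660) x42828) x44772) x44124) x44340) x44268) x44292) x44284) (Nat.mul x44286 (nat_lit 10))) x24604)
    (Nat.sub (Nat.sub (Nat.add (Nat.add (Nat.add (Nat.add (Nat.add (Nat.add (Nat.add (Nat.add (Nat.add C x31168) x48664) x42832) x44776) x44128) x44344) x44272) x44284) x44292) (Nat.mul x44290 (nat_lit 6))) x24608)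
    (Nat.sub (Nat.sub (Nat.add (Nat.add (Nat.add (Nat.add (Nat.add (Nat.add (Nat.add (Nat.add (Nat.add (Nat.add C x31170) x48666) x42834) x44778) x44130) x44346) x44274) x44286) x44298) x44290) (Nat.mul x44292 (nat_lit 7))) x24610)
    (Nat.sub (Nat.sub (Nat.add (Nat.add (Nat.add (Nat.add (Nat.add (Nat.add (Nat.add C x31176) x48672) x42840) x44784) x44136) x44352) x44292) (Nat.mul x44298 (nat_lit 6))) x24616)
    (Nat.sub (Nat.add (Nat.add (Nat.add (Nat.add (Nat.add (Nat.add (Nat.add (Nat.add C x31190) x48686) x42854) x44798) x44150) x44258) x44318) x44314) (Nat.mul x44312 (nat_lit 2)))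
    (Nat.sub (Nat.sub (Nat.add (Nat.add (Nat.add (Nat.add (Nat.add (Nat.add (Nat.add (Nat.add C x31192) x48688) x42856) x44800) x44152) x44260) x44320) x44312) (Nat.mul x44314 (nat_lit 4))) x24632)
    (Nat.sub (Nat.add (Nat.add (Nat.add (Nat.add (Nat.add (Nat.add (Nat.add (Nat.add (Nat.add C x31196) x48692) x42860) x44804) x44156) x44264) x44336) x44312) x44320) (Nat.mul x44318 (nat_lit 4)))
    (Nat.sub (Nat.sub (Nat.add (Nat.add (Nat.add (Nat.add (Nat.add (Nat.add (Nat.add (Nat.add (Nat.add (Nat.add (Nat.add C x31198) x48694) x42862) x44806) x44158) x44266) x44338) x44314) x44326) x44318) x44322) (Nat.mul x44320 (nat_lit 4))) x24638)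
    (Nat.sub (Nat.sub (Nat.add (Nat.add (Nat.add (Nat.add (Nat.add (Nat.add (Nat.add (Nat.add (Nat.add C x31200) x48696) x42864) x44808) x44160) x44268) x44340) x44328) x44320) (Nat.mul x44322 (nat_lit 6))) x24640)
    (Nat.sub (Nat.sub (Nat.add (Nat.add (Nat.add (Nat.add (Nat.add (Nat.add (Nat.add (Nat.add (Nat.add C x31204) x48700) x42868) x44812) x44164) x44272) x44344) x44320) x44328) (Nat.mul x44326 (nat_lit 6))) x24644)
    (Nat.sub (Nat.sub (Nat.add (Nat.add (Nat.add (Nat.add (Nat.add (Nat.add (Nat.add (Nat.add (Nat.add C x31206) x48702) x42870) x44814) x44166) x44274) x44346) x44322) x44326) (Nat.mul x44328 (nat_lit 6))) x24646)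
    (Nat.sub (Nat.add (Nat.add (Nat.add (Nat.add (Nat.add (Nat.add (Nat.add (Nat.add (Nat.add C x31214) x48710) x42878) x44822) x44174) x44282) x44390) x44318) x44338) (Nat.mul x44336 (nat_lit 3)))
    (Nat.sub (Nat.sub (Nat.add (Nat.add (Nat.add (Nat.add (Nat.add (Nat.add (Nat.add (Nat.add (Nat.add (Nat.add (Nat.add C x31216) x48712) x42880) x44824) x44176) x44284) x44392) x44320) x44344) x44336) x44340) (Nat.mul x44338 (nat_lit 4))) x24656)
    (Nat.sub (Nat.sub (Nat.add (Nat.add (Nat.add (Nat.add (Nat.add (Nat.add (Nat.add (Nat.add (Nat.add (Nat.add C x31218) x48714) x42882) x44826) x44178) x44286) x44394) x44322) x44346) x44338) (Nat.mul x44340 (nat_lit 7))) x24658)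
    (Nat.sub (Nat.sub (Nat.add (Nat.add (Nat.add (Nat.add (Nat.add (Nat.add (Nat.add (Nat.add (Nat.add (Nat.add (Nat.add C x31222) x48718) x42886) x44830) x44182) x44290) x44398) x44326) x44362) x44338) x44346) (Nat.mul x44344 (nat_lit 4))) x24662)
    (Nat.sub (Nat.sub (Nat.add (Nat.add (Nat.add (Nat.add (Nat.add (Nat.add (Nat.add (Nat.add (Nat.add (Nat.add (Nat.add (Nat.add C x31224) x48720) x42888) x44832) x44184) x44292) x44400) x44328) x44364) x44340) x44352) x44344) (Nat.mul x44346 (nat_lit 5))) x24664)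
    (Nat.sub (Nat.sub (Nat.add (Nat.add (Nat.add (Nat.add (Nat.add (Nat.add (Nat.add (Nat.add (Nat.add C x31230) x48726) x42894) x44838) x44190) x44298) x44406) x44370) x44346) (Nat.mul x44352 (nat_lit 5))) x24670)
    (Nat.sub (Nat.sub (Nat.add (Nat.add (Nat.add (Nat.add (Nat.add (Nat.add (Nat.add (Nat.add C x31240) x48736) x42904) x44848) x44200) x44416) x44344) x44364) (Nat.mul x44362 (nat_lit 4))) x24680)
    (Nat.sub (Nat.sub (Nat.add (Nat.add (Nat.add (Nat.add (Nat.add (Nat.add (Nat.add (Nat.add (Nat.add C x31242) x48738) x42906) x44850) x44202) x44418) x44346) x44370) x44362) (Nat.mul x44364 (nat_lit 6))) x24682)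
    (Nat.sub (Nat.sub (Nat.add (Nat.add (Nat.add (Nat.add (Nat.add (Nat.add (Nat.add (Nat.add C x31248) x48744) x42912) x44856) x44208) x44424) x44352) x44364) (Nat.mul x44370 (nat_lit 4))) x24688)
    (Nat.sub (Nat.add (Nat.add (Nat.add (Nat.add (Nat.add (Nat.add C x31268) x48764) x42932) x44876) x44336) x44392) (Nat.mul x44390 (nat_lit 2)))
    (Nat.sub (Nat.sub (Nat.add (Nat.add (Nat.add (Nat.add (Nat.add (Nat.add (Nat.add (Nat.add C x31270) x48766) x42934) x44878) x44338) x44398) x44390) x44394) (Nat.mul x44392 (nat_lit 3))) x24710)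
    (Nat.sub (Nat.sub (Nat.add (Nat.add (Nat.add (Nat.add (Nat.add (Nat.add (Nat.add C x31272) x48768) x42936) x44880) x44340) x44400) x44392) (Nat.mul x44394 (nat_lit 6))) x24712)
    (Nat.sub (Nat.sub (Nat.add (Nat.add (Nat.add (Nat.add (Nat.add (Nat.add (Nat.add (Nat.add C x31276) x48772) x42940) x44884) x44344) x44416) x44392) x44400) (Nat.mul x44398 (nat_lit 4))) x24716)
    (Nat.sub (Nat.sub (Nat.add (Nat.add (Nat.add (Nat.add (Nat.add (Nat.add (Nat.add (Nat.add (Nat.add C x31278) x48774) x42942) x44886) x44346) x44418) x44394) x44406) x44398) (Nat.mul x44400 (nat_lit 5))) x24718)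
    (Nat.sub (Nat.sub (Nat.add (Nat.add (Nat.add (Nat.add (Nat.add (Nat.add (Nat.add C x31284) x48780) x42948) x44892) x44352) x44424) x44400) (Nat.mul x44406 (nat_lit 6))) x24724)
    (Nat.sub (Nat.sub (Nat.add (Nat.add (Nat.add (Nat.add (Nat.add (Nat.add (Nat.add C x31294) x48790) x42958) x44902) x44362) x44398) x44418) (Nat.mul x44416 (nat_lit 2))) x24734)
    (Nat.sub (Nat.sub (Nat.add (Nat.add (Nat.add (Nat.add (Nat.add (Nat.add (Nat.add (Nat.add C x31296) x48792) x42960) x44904) x44364) x44400) x44424) x44416) (Nat.mul x44418 (nat_lit 4))) x24736)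
    (Nat.sub (Nat.sub (Nat.add (Nat.add (Nat.add (Nat.add (Nat.add (Nat.add (Nat.add (Nat.add C x31302) x48798) x42966) x44910) x44370) x44406) x44442) x44418) (Nat.mul x44424 (nat_lit 3))) x24742)
    (Nat.sub (Nat.sub (Nat.add (Nat.add (Nat.add (Nat.add (Nat.add C x31320) x48816) x42984) x44928) x44424) (Nat.mul x44442 (nat_lit 2))) x24760)
    (Nat.add (Nat.add (Nat.add (Nat.add (Nat.add (Nat.add (Nat.add C (Nat.mul x44486 (nat_lit 2))) x31364) x48860) x43028) x44000) x44504) x44492)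
    (Nat.add (Nat.add (Nat.add (Nat.add (Nat.add (Nat.add (Nat.add C x31370) x48866) x43034) x44006) x44510) x44486) x44494)
    (Nat.sub (Nat.add (Nat.add (Nat.add (Nat.add (Nat.add (Nat.add C x31372) x48868) x43036) x44008) x44512) x44492) x24812)
    (Nat.add (Nat.add (Nat.add (Nat.add (Nat.add (Nat.add (Nat.add C x31382) x48878) x43046) x44018) x44558) x44486) x44510)
    (Nat.add (Nat.add (Nat.add (Nat.add (Nat.add (Nat.add (Nat.add (Nat.add (Nat.add (Nat.add C x31388) x48884) x43052) x44024) x44564) x44492) x44528) x44504) x44516) x44512)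
    (Nat.sub (Nat.sub (Nat.add (Nat.add (Nat.add (Nat.add (Nat.add (Nat.add (Nat.add (Nat.add (Nat.add C x31390) x48886) x43054) x44026) x44566) x44494) x44530) x44518) x44510) x44512) x24830)
    (Nat.sub (Nat.add (Nat.add (Nat.add (Nat.add (Nat.add (Nat.add (Nat.add (Nat.add C x31394) x48890) x43058) x44030) x44570) x44534) x44510) x44518) (Nat.mul x44516 (nat_lit 2)))
    (Nat.sub (Nat.sub (Nat.add (Nat.add (Nat.add (Nat.add (Nat.add (Nat.add (Nat.add (Nat.add (Nat.add C x31396) x48892) x43060) x44032) x44572) x44536) x44512) x44516) x44520) x44518) x24836)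
    (Nat.sub (Nat.sub (Nat.add (Nat.add (Nat.add (Nat.add (Nat.add (Nat.add (Nat.add C x31398) x48894) x43062) x44034) x44574) x44538) x44518) (Nat.mul x44520 (nat_lit 2))) x24838)
    (Nat.sub (Nat.add (Nat.add (Nat.add (Nat.add (Nat.add (Nat.add (Nat.add (Nat.add C x31406) x48902) x43070) x44042) x44582) x44510) x44534) x44530) (Nat.mul x44528 (nat_lit 2)))
    (Nat.sub (Nat.sub (Nat.add (Nat.add (Nat.add (Nat.add (Nat.add (Nat.add (Nat.add (Nat.add C x31408) x48904) x43072) x44044) x44584) x44512) x44536) x44528) (Nat.mul x44530 (nat_lit 4))) x24848)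
    (Nat.sub (Nat.add (Nat.add (Nat.add (Nat.add (Nat.add (Nat.add (Nat.add (Nat.add C x31412) x48908) x43076) x44048) x44588) x44516) x44528) x44536) (Nat.mul x44534 (nat_lit 2)))
    (Nat.sub (Nat.sub (Nat.add (Nat.add (Nat.add (Nat.add (Nat.add (Nat.add (Nat.add (Nat.add (Nat.add (Nat.add C x31414) x48910) x43078) x44050) x44590) x44518) x44530) x44542) x44534) x44538) (Nat.mul x44536 (nat_lit 2))) x24854)
    (Nat.sub (Nat.sub (Nat.add (Nat.add (Nat.add (Nat.add (Nat.add (Nat.add (Nat.add (Nat.add C x31416) x48912) x43080) x44052) x44592) x44520) x44544) x44536) (Nat.mul x44538 (nat_lit 4))) x24856)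
    (Nat.sub (Nat.sub (Nat.add (Nat.add (Nat.add (Nat.add (Nat.add (Nat.add (Nat.add C x31420) x48916) x43084) x44056) x44596) x44536) x44544) (Nat.mul x44542 (nat_lit 2))) x24860)
    (Nat.sub (Nat.sub (Nat.add (Nat.add (Nat.add (Nat.add (Nat.add (Nat.add (Nat.add C x31422) x48918) x43086) x44058) x44598) x44538) x44542) (Nat.mul x44544 (nat_lit 2))) x24862)
    (Nat.add (Nat.add (Nat.add (Nat.add (Nat.add (Nat.add (Nat.add C x31436) x48932) x43100) x44072) x44720) x44504) x44564)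
    (Nat.sub (Nat.add (Nat.add (Nat.add (Nat.add (Nat.add (Nat.add (Nat.add (Nat.add (Nat.add (Nat.add C x31442) x48938) x43106) x44078) x44726) x44510) x44582) x44558) x44570) x44566) x44564)
    (Nat.sub (Nat.sub (Nat.add (Nat.add (Nat.add (Nat.add (Nat.add (Nat.add (Nat.add (Nat.add (Nat.add C x31444) x48940) x43108) x44080) x44728) x44512) x44584) x44572) x44564) (Nat.mul x44566 (nat_lit 2))) x24884)
    (Nat.sub (Nat.add (Nat.add (Nat.add (Nat.add (Nat.add (Nat.add (Nat.add (Nat.add (Nat.add C x31448) x48944) x43112) x44084) x44732) x44516) x44588) x44564) x44572) (Nat.mul x44570 (nat_lit 4)))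
    (Nat.sub (Nat.sub (Nat.add (Nat.add (Nat.add (Nat.add (Nat.add (Nat.add (Nat.add (Nat.add (Nat.add (Nat.add C x31450) x48946) x43114) x44086) x44734) x44518) x44590) x44566) x44570) x44574) (Nat.mul x44572 (nat_lit 3))) x24890)
    (Nat.sub (Nat.sub (Nat.add (Nat.add (Nat.add (Nat.add (Nat.add (Nat.add (Nat.add (Nat.add C x31452) x48948) x43116) x44088) x44736) x44520) x44592) x44572) (Nat.mul x44574 (nat_lit 4))) x24892)
    (Nat.sub (Nat.add (Nat.add (Nat.add (Nat.add (Nat.add (Nat.add (Nat.add (Nat.add (Nat.add (Nat.add C x31460) x48956) x43124) x44096) x44744) x44528) x44636) x44564) x44588) x44584) x44582)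
    (Nat.sub (Nat.sub (Nat.add (Nat.add (Nat.add (Nat.add (Nat.add (Nat.add (Nat.add (Nat.add (Nat.add (Nat.add C x31462) x48958) x43126) x44098) x44746) x44530) x44638) x44566) x44590) x44582) (Nat.mul x44584 (nat_lit 3))) x24902)
    (Nat.sub (Nat.add (Nat.add (Nat.add (Nat.add (Nat.add (Nat.add (Nat.add (Nat.add (Nat.add (Nat.add (Nat.add C x31466) x48962) x43130) x44102) x44750) x44534) x44642) x44570) x44606) x44582) x44590) (Nat.mul x44588 (nat_lit 2)))
    (Nat.sub (Nat.sub (Nat.add (Nat.add (Nat.add (Nat.add (Nat.add (Nat.add (Nat.add (Nat.add (Nat.add (Nat.add (Nat.add (Nat.add (Nat.add C x31468) x48964) x43132) x44104) x44752) x44536) x44644) x44572) x44608) x44584) x44596) x44588) x44592) (Nat.mul x44590 (nat_lit 2))) x24908)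
    (Nat.sub (Nat.sub (Nat.add (Nat.add (Nat.add (Nat.add (Nat.add (Nat.add (Nat.add (Nat.add (Nat.add (Nat.add (Nat.add C x31470) x48966) x43134) x44106) x44754) x44538) x44646) x44574) x44610) x44598) x44590) (Nat.mul x44592 (nat_lit 4))) x24910)
    (Nat.sub (Nat.sub (Nat.add (Nat.add (Nat.add (Nat.add (Nat.add (Nat.add (Nat.add (Nat.add (Nat.add (Nat.add C x31474) x48970) x43138) x44110) x44758) x44542) x44650) x44614) x44590) x44598) (Nat.mul x44596 (nat_lit 3))) x24914)
    (Nat.sub (Nat.sub (Nat.add (Nat.add (Nat.add (Nat.add (Nat.add (Nat.add (Nat.add (Nat.add (Nat.add (Nat.add C x31476) x48972) x43140) x44112) x44760) x44544) x44652) x44616) x44592) x44596) (Nat.mul x44598 (nat_lit 3))) x24916)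
    (Nat.sub (Nat.add (Nat.add (Nat.add (Nat.add (Nat.add (Nat.add (Nat.add (Nat.add C x31484) x48980) x43148) x44120) x44768) x44660) x44588) x44608) (Nat.mul x44606 (nat_lit 2)))
    (Nat.sub (Nat.sub (Nat.add (Nat.add (Nat.add (Nat.add (Nat.add (Nat.add (Nat.add (Nat.add (Nat.add (Nat.add C x31486) x48982) x43150) x44122) x44770) x44662) x44590) x44614) x44606) x44610) (Nat.mul x44608 (nat_lit 3))) x24926)
    (Nat.sub (Nat.sub (Nat.add (Nat.add (Nat.add (Nat.add (Nat.add (Nat.add (Nat.add (Nat.add (Nat.add C x31488) x48984) x43152) x44124) x44772) x44664) x44592) x44616) x44608) (Nat.mul x44610 (nat_lit 6))) x24928)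
    (Nat.sub (Nat.sub (Nat.add (Nat.add (Nat.add (Nat.add (Nat.add (Nat.add (Nat.add (Nat.add (Nat.add C x31492) x48988) x43156) x44128) x44776) x44668) x44596) x44608) x44616) (Nat.mul x44614 (nat_lit 2))) x24932)
    (Nat.sub (Nat.sub (Nat.add (Nat.add (Nat.add (Nat.add (Nat.add (Nat.add (Nat.add (Nat.add (Nat.add (Nat.add C x31494) x48990) x43158) x44130) x44778) x44670) x44598) x44610) x44622) x44614) (Nat.mul x44616 (nat_lit 3))) x24934)
    (Nat.sub (Nat.sub (Nat.add (Nat.add (Nat.add (Nat.add (Nat.add (Nat.add (Nat.add C x31500) x48996) x43164) x44136) x44784) x44676) x44616) (Nat.mul x44622 (nat_lit 2))) x24940)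
    (Nat.sub (Nat.add (Nat.add (Nat.add (Nat.add (Nat.add (Nat.add (Nat.add (Nat.add C x31514) x49010) x43178) x44150) x44798) x44582) x44642) x44638) (Nat.mul x44636 (nat_lit 2)))
    (Nat.sub (Nat.sub (Nat.add (Nat.add (Nat.add (Nat.add (Nat.add (Nat.add (Nat.add (Nat.add C x31516) x49012) x43180) x44152) x44800) x44584) x44644) x44636) (Nat.mul x44638 (nat_lit 4))) x24956)
    (Nat.sub (Nat.add (Nat.add (Nat.add (Nat.add (Nat.add (Nat.add (Nat.add (Nat.add (Nat.add C x31520) x49016) x43184) x44156) x44804) x44588) x44660) x44636) x44644) (Nat.mul x44642 (nat_lit 4)))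
    (Nat.sub (Nat.sub (Nat.add (Nat.add (Nat.add (Nat.add (Nat.add (Nat.add (Nat.add (Nat.add (Nat.add (Nat.add (Nat.add C x31522) x49018) x43186) x44158) x44806) x44590) x44662) x44638) x44650) x44642) x44646) (Nat.mul x44644 (nat_lit 4))) x24962)
    (Nat.sub (Nat.sub (Nat.add (Nat.add (Nat.add (Nat.add (Nat.add (Nat.add (Nat.add (Nat.add (Nat.add C x31524) x49020) x43188) x44160) x44808) x44592) x44664) x44652) x44644) (Nat.mul x44646 (nat_lit 6))) x24964)
    (Nat.sub (Nat.sub (Nat.add (Nat.add (Nat.add (Nat.add (Nat.add (Nat.add (Nat.add (Nat.add (Nat.add C x31528) x49024) x43192) x44164) x44812) x44596) x44668) x44644) x44652) (Nat.mul x44650 (nat_lit 6))) x24968)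
    (Nat.sub (Nat.sub (Nat.add (Nat.add (Nat.add (Nat.add (Nat.add (Nat.add (Nat.add (Nat.add (Nat.add C x31530) x49026) x43194) x44166) x44814) x44598) x44670) x44646) x44650) (Nat.mul x44652 (nat_lit 6))) x24970)
    (Nat.sub (Nat.add (Nat.add (Nat.add (Nat.add (Nat.add (Nat.add (Nat.add (Nat.add C x31538) x49034) x43202) x44174) x44822) x44606) x44642) x44662) (Nat.mul x44660 (nat_lit 2)))
    (Nat.sub (Nat.sub (Nat.add (Nat.add (Nat.add (Nat.add (Nat.add (Nat.add (Nat.add (Nat.add (Nat.add (Nat.add C x31540) x49036) x43204) x44176) x44824) x44608) x44644) x44668) x44660) x44664) (Nat.mul x44662 (nat_lit 3))) x24980)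
    (Nat.sub (Nat.sub (Nat.add (Nat.add (Nat.add (Nat.add (Nat.add (Nat.add (Nat.add (Nat.add (Nat.add C x31542) x49038) x43206) x44178) x44826) x44610) x44646) x44670) x44662) (Nat.mul x44664 (nat_lit 6))) x24982)
    (Nat.sub (Nat.sub (Nat.add (Nat.add (Nat.add (Nat.add (Nat.add (Nat.add (Nat.add (Nat.add (Nat.add (Nat.add C x31546) x49042) x43210) x44182) x44830) x44614) x44650) x44686) x44662) x44670) (Nat.mul x44668 (nat_lit 3))) x24986)
    (Nat.sub (Nat.sub (Nat.add (Nat.add (Nat.add (Nat.add (Nat.add (Nat.add (Nat.add (Nat.add (Nat.add (Nat.add (Nat.add C x31548) x49044) x43212) x44184) x44832) x44616) x44652) x44688) x44664) x44676) x44668) (Nat.mul x44670 (nat_lit 4))) x24988)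
    (Nat.sub (Nat.sub (Nat.add (Nat.add (Nat.add (Nat.add (Nat.add (Nat.add (Nat.add (Nat.add C x31554) x49050) x43218) x44190) x44838) x44622) x44694) x44670) (Nat.mul x44676 (nat_lit 4))) x24994)
    (Nat.sub (Nat.sub (Nat.add (Nat.add (Nat.add (Nat.add (Nat.add (Nat.add (Nat.add C x31564) x49060) x43228) x44200) x44848) x44668) x44688) (Nat.mul x44686 (nat_lit 2))) x25004)
    (Nat.sub (Nat.sub (Nat.add (Nat.add (Nat.add (Nat.add (Nat.add (Nat.add (Nat.add (Nat.add C x31566) x49062) x43230) x44202) x44850) x44670) x44694) x44686) (Nat.mul x44688 (nat_lit 4))) x25006)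
    (Nat.sub (Nat.sub (Nat.add (Nat.add (Nat.add (Nat.add (Nat.add (Nat.add (Nat.add C x31572) x49068) x43236) x44208) x44856) x44676) x44688) (Nat.mul x44694 (nat_lit 2))) x25012)
    (Nat.add (Nat.add (Nat.add (Nat.add (Nat.add (Nat.add (Nat.add (Nat.add C x44720) x31598) x49094) x43262) x44234) x45206) x44558) x44726)
    (Nat.add (Nat.add (Nat.add (Nat.add (Nat.add (Nat.add (Nat.add (Nat.add (Nat.add (Nat.add C x31604) x49100) x43268) x44240) x45212) x44564) x44744) x44720) x44732) x44728)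
    (Nat.sub (Nat.sub (Nat.add (Nat.add (Nat.add (Nat.add (Nat.add (Nat.add (Nat.add (Nat.add (Nat.add C x31606) x49102) x43270) x44242) x45214) x44566) x44746) x44734) x44726) x44728) x25046)
    (Nat.sub (Nat.add (Nat.add (Nat.add (Nat.add (Nat.add (Nat.add (Nat.add (Nat.add (Nat.add C x31610) x49106) x43274) x44246) x45218) x44570) x44750) x44726) x44734) (Nat.mul x44732 (nat_lit 3)))
    (Nat.sub (Nat.sub (Nat.add (Nat.add (Nat.add (Nat.add (Nat.add (Nat.add (Nat.add (Nat.add (Nat.add (Nat.add C x31612) x49108) x43276) x44248) x45220) x44572) x44752) x44728) x44732) x44736) (Nat.mul x44734 (nat_lit 2))) x25052)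
    (Nat.sub (Nat.sub (Nat.add (Nat.add (Nat.add (Nat.add (Nat.add (Nat.add (Nat.add (Nat.add C x31614) x49110) x43278) x44250) x45222) x44574) x44754) x44734) (Nat.mul x44736 (nat_lit 3))) x25054)
    (Nat.sub (Nat.add (Nat.add (Nat.add (Nat.add (Nat.add (Nat.add (Nat.add (Nat.add (Nat.add (Nat.add C x31622) x49118) x43286) x44258) x45230) x44582) x44798) x44726) x44750) x44746) x44744)
    (Nat.sub (Nat.sub (Nat.add (Nat.add (Nat.add (Nat.add (Nat.add (Nat.add (Nat.add (Nat.add (Nat.add (Nat.add C x31624) x49120) x43288) x44260) x45232) x44584) x44800) x44728) x44752) x44744) (Nat.mul x44746 (nat_lit 3))) x25064)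
    (Nat.sub (Nat.add (Nat.add (Nat.add (Nat.add (Nat.add (Nat.add (Nat.add (Nat.add (Nat.add (Nat.add (Nat.add C x31628) x49124) x43292) x44264) x45236) x44588) x44804) x44732) x44768) x44744) x44752) (Nat.mul x44750 (nat_lit 2)))
    (Nat.sub (Nat.sub (Nat.add (Nat.add (Nat.add (Nat.add (Nat.add (Nat.add (Nat.add (Nat.add (Nat.add (Nat.add (Nat.add (Nat.add (Nat.add C x31630) x49126) x43294) x44266) x45238) x44590) x44806) x44734) x44770) x44746) x44758) x44750) x44754) (Nat.mul x44752 (nat_lit 2))) x25070)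
    (Nat.sub (Nat.sub (Nat.add (Nat.add (Nat.add (Nat.add (Nat.add (Nat.add (Nat.add (Nat.add (Nat.add (Nat.add (Nat.add C x31632) x49128) x43296) x44268) x45240) x44592) x44808) x44736) x44772) x44760) x44752) (Nat.mul x44754 (nat_lit 4))) x25072)
    (Nat.sub (Nat.sub (Nat.add (Nat.add (Nat.add (Nat.add (Nat.add (Nat.add (Nat.add (Nat.add (Nat.add (Nat.add C x31636) x49132) x43300) x44272) x45244) x44596) x44812) x44776) x44752) x44760) (Nat.mul x44758 (nat_lit 3))) x25076)
    (Nat.sub (Nat.sub (Nat.add (Nat.add (Nat.add (Nat.add (Nat.add (Nat.add (Nat.add (Nat.add (Nat.add (Nat.add C x31638) x49134) x43302) x44274) x45246) x44598) x44814) x44778) x44754) x44758) (Nat.mul x44760 (nat_lit 3))) x25078)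
    (Nat.sub (Nat.add (Nat.add (Nat.add (Nat.add (Nat.add (Nat.add (Nat.add (Nat.add (Nat.add C x31646) x49142) x43310) x44282) x45254) x44606) x44822) x44750) x44770) (Nat.mul x44768 (nat_lit 3)))
    (Nat.sub (Nat.sub (Nat.add (Nat.add (Nat.add (Nat.add (Nat.add (Nat.add (Nat.add (Nat.add (Nat.add (Nat.add (Nat.add C x31648) x49144) x43312) x44284) x45256) x44608) x44824) x44752) x44776) x44768) x44772) (Nat.mul x44770 (nat_lit 4))) x25088)
    (Nat.sub (Nat.sub (Nat.add (Nat.add (Nat.add (Nat.add (Nat.add (Nat.add (Nat.add (Nat.add (Nat.add (Nat.add C x31650) x49146) x43314) x44286) x45258) x44610) x44826) x44754) x44778) x44770) (Nat.mul x44772 (nat_lit 7))) x25090)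
    (Nat.sub (Nat.sub (Nat.add (Nat.add (Nat.add (Nat.add (Nat.add (Nat.add (Nat.add (Nat.add (Nat.add (Nat.add C x31654) x49150) x43318) x44290) x45262) x44614) x44830) x44758) x44770) x44778) (Nat.mul x44776 (nat_lit 3))) x25094)
    (Nat.sub (Nat.sub (Nat.add (Nat.add (Nat.add (Nat.add (Nat.add (Nat.add (Nat.add (Nat.add (Nat.add (Nat.add (Nat.add C x31656) x49152) x43320) x44292) x45264) x44616) x44832) x44760) x44772) x44784) x44776) (Nat.mul x44778 (nat_lit 4))) x25096)
    (Nat.sub (Nat.sub (Nat.add (Nat.add (Nat.add (Nat.add (Nat.add (Nat.add (Nat.add (Nat.add C x31662) x49158) x43326) x44298) x45270) x44622) x44838) x44778) (Nat.mul x44784 (nat_lit 3))) x25102)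
    (Nat.add (Nat.add (Nat.add (Nat.add (Nat.add (Nat.add (Nat.add (Nat.add (Nat.add (Nat.add C x31676) x49172) x43340) x44312) x45284) x44636) x44960) x44744) x44804) x44800)
    (Nat.sub (Nat.sub (Nat.add (Nat.add (Nat.add (Nat.add (Nat.add (Nat.add (Nat.add (Nat.add (Nat.add (Nat.add C x31678) x49174) x43342) x44314) x45286) x44638) x44962) x44746) x44806) x44798) (Nat.mul x44800 (nat_lit 2))) x25118)
    (Nat.sub (Nat.add (Nat.add (Nat.add (Nat.add (Nat.add (Nat.add (Nat.add (Nat.add (Nat.add (Nat.add (Nat.add C x31682) x49178) x43346) x44318) x45290) x44642) x44966) x44750) x44822) x44798) x44806) (Nat.mul x44804 (nat_lit 2)))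
    (Nat.sub (Nat.sub (Nat.add (Nat.add (Nat.add (Nat.add (Nat.add (Nat.add (Nat.add (Nat.add (Nat.add (Nat.add (Nat.add (Nat.add (Nat.add C x31684) x49180) x43348) x44320) x45292) x44644) x44968) x44752) x44824) x44800) x44812) x44804) x44808) (Nat.mul x44806 (nat_lit 2))) x25124)
    (Nat.sub (Nat.sub (Nat.add (Nat.add (Nat.add (Nat.add (Nat.add (Nat.add (Nat.add (Nat.add (Nat.add (Nat.add (Nat.add C x31686) x49182) x43350) x44322) x45294) x44646) x44970) x44754) x44826) x44814) x44806) (Nat.mul x44808 (nat_lit 4))) x25126)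
    (Nat.sub (Nat.sub (Nat.add (Nat.add (Nat.add (Nat.add (Nat.add (Nat.add (Nat.add (Nat.add (Nat.add (Nat.add (Nat.add C x31690) x49186) x43354) x44326) x45298) x44650) x44974) x44758) x44830) x44806) x44814) (Nat.mul x44812 (nat_lit 4))) x25130)
    (Nat.sub (Nat.sub (Nat.add (Nat.add (Nat.add (Nat.add (Nat.add (Nat.add (Nat.add (Nat.add (Nat.add (Nat.add (Nat.add C x31692) x49188) x43356) x44328) x45300) x44652) x44976) x44760) x44832) x44808) x44812) (Nat.mul x44814 (nat_lit 4))) x25132)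
    (Nat.sub (Nat.add (Nat.add (Nat.add (Nat.add (Nat.add (Nat.add (Nat.add (Nat.add (Nat.add (Nat.add (Nat.add C x31700) x49196) x43364) x44336) x45308) x44660) x44984) x44768) x44876) x44804) x44824) x44822)
    (Nat.sub (Nat.sub (Nat.add (Nat.add (Nat.add (Nat.add (Nat.add (Nat.add (Nat.add (Nat.add (Nat.add (Nat.add (Nat.add (Nat.add (Nat.add C x31702) x49198) x43366) x44338) x45310) x44662) x44986) x44770) x44878) x44806) x44830) x44822) x44826) (Nat.mul x44824 (nat_lit 2))) x25142)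
    (Nat.sub (Nat.sub (Nat.add (Nat.add (Nat.add (Nat.add (Nat.add (Nat.add (Nat.add (Nat.add (Nat.add (Nat.add (Nat.add (Nat.add C x31704) x49200) x43368) x44340) x45312) x44664) x44988) x44772) x44880) x44808) x44832) x44824) (Nat.mul x44826 (nat_lit 5))) x25144)
    (Nat.sub (Nat.sub (Nat.add (Nat.add (Nat.add (Nat.add (Nat.add (Nat.add (Nat.add (Nat.add (Nat.add (Nat.add (Nat.add (Nat.add (Nat.add C x31708) x49204) x43372) x44344) x45316) x44668) x44992) x44776) x44884) x44812) x44848) x44824) x44832) (Nat.mul x44830 (nat_lit 2))) x25148)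
    (Nat.sub (Nat.sub (Nat.add (Nat.add (Nat.add (Nat.add (Nat.add (Nat.add (Nat.add (Nat.add (Nat.add (Nat.add (Nat.add (Nat.add (Nat.add (Nat.add C x31710) x49206) x43374) x44346) x45318) x44670) x44994) x44778) x44886) x44814) x44850) x44826) x44838) x44830) (Nat.mul x44832 (nat_lit 3))) x25150)
    (Nat.sub (Nat.sub (Nat.add (Nat.add (Nat.add (Nat.add (Nat.add (Nat.add (Nat.add (Nat.add (Nat.add (Nat.add (Nat.add C x31716) x49212) x43380) x44352) x45324) x44676) x45000) x44784) x44892) x44856) x44832) (Nat.mul x44838 (nat_lit 3))) x25156)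
    (Nat.sub (Nat.sub (Nat.add (Nat.add (Nat.add (Nat.add (Nat.add (Nat.add (Nat.add (Nat.add (Nat.add (Nat.add C x31726) x49222) x43390) x44362) x45334) x44686) x45010) x44902) x44830) x44850) (Nat.mul x44848 (nat_lit 2))) x25166)
    (Nat.sub (Nat.sub (Nat.add (Nat.add (Nat.add (Nat.add (Nat.add (Nat.add (Nat.add (Nat.add (Nat.add (Nat.add (Nat.add C x31728) x49224) x43392) x44364) x45336) x44688) x45012) x44904) x44832) x44856) x44848) (Nat.mul x44850 (nat_lit 4))) x25168)
    (Nat.sub (Nat.sub (Nat.add (Nat.add (Nat.add (Nat.add (Nat.add (Nat.add (Nat.add (Nat.add (Nat.add (Nat.add C x31734) x49230) x43398) x44370) x45342) x44694) x45018) x44910) x44838) x44850) (Nat.mul x44856 (nat_lit 2))) x25174)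
    (Nat.sub (Nat.add (Nat.add (Nat.add (Nat.add (Nat.add (Nat.add (Nat.add (Nat.add C x31754) x49250) x43418) x44390) x45362) x45038) x44822) x44878) x44876)
    (Nat.sub (Nat.sub (Nat.add (Nat.add (Nat.add (Nat.add (Nat.add (Nat.add (Nat.add (Nat.add (Nat.add (Nat.add C x31756) x49252) x43420) x44392) x45364) x45040) x44824) x44884) x44876) x44880) (Nat.mul x44878 (nat_lit 2))) x25196)
    (Nat.sub (Nat.sub (Nat.add (Nat.add (Nat.add (Nat.add (Nat.add (Nat.add (Nat.add (Nat.add (Nat.add C x31758) x49254) x43422) x44394) x45366) x45042) x44826) x44886) x44878) (Nat.mul x44880 (nat_lit 5))) x25198)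
    (Nat.sub (Nat.sub (Nat.add (Nat.add (Nat.add (Nat.add (Nat.add (Nat.add (Nat.add (Nat.add (Nat.add (Nat.add C x31762) x49258) x43426) x44398) x45370) x45046) x44830) x44902) x44878) x44886) (Nat.mul x44884 (nat_lit 3))) x25202)
    (Nat.sub (Nat.sub (Nat.add (Nat.add (Nat.add (Nat.add (Nat.add (Nat.add (Nat.add (Nat.add (Nat.add (Nat.add (Nat.add C x31764) x49260) x43428) x44400) x45372) x45048) x44832) x44904) x44880) x44892) x44884) (Nat.mul x44886 (nat_lit 4))) x25204)
    (Nat.sub (Nat.sub (Nat.add (Nat.add (Nat.add (Nat.add (Nat.add (Nat.add (Nat.add (Nat.add (Nat.add C x31770) x49266) x43434) x44406) x45378) x45054) x44838) x44910) x44886) (Nat.mul x44892 (nat_lit 5))) x25210)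
    (Nat.sub (Nat.sub (Nat.add (Nat.add (Nat.add (Nat.add (Nat.add (Nat.add (Nat.add (Nat.add (Nat.add C x31780) x49276) x43444) x44416) x45388) x45064) x44848) x44884) x44904) x44902) x25220)
    (Nat.sub (Nat.sub (Nat.add (Nat.add (Nat.add (Nat.add (Nat.add (Nat.add (Nat.add (Nat.add (Nat.add (Nat.add C x31782) x49278) x43446) x44418) x45390) x45066) x44850) x44886) x44910) x44902) (Nat.mul x44904 (nat_lit 3))) x25222)
    (Nat.sub (Nat.sub (Nat.add (Nat.add (Nat.add (Nat.add (Nat.add (Nat.add (Nat.add (Nat.add (Nat.add (Nat.add C x31788) x49284) x43452) x44424) x45396) x45072) x44856) x44892) x44928) x44904) (Nat.mul x44910 (nat_lit 2))) x25228)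
    (Nat.sub (Nat.sub (Nat.add (Nat.add (Nat.add (Nat.add (Nat.add (Nat.add (Nat.add C x31806) x49302) x43470) x44442) x45414) x45090) x44910) x44928) x25246)
    (Nat.add (Nat.add (Nat.add (Nat.add (Nat.add (Nat.add (Nat.add C x31838) x49334) x43502) x45446) x44798) x44966) x44962)
    (Nat.sub (Nat.sub (Nat.add (Nat.add (Nat.add (Nat.add (Nat.add (Nat.add (Nat.add C x31840) x49336) x43504) x45448) x44800) x44968) x44960) (Nat.mul x44962 (nat_lit 2))) x25280)
    (Nat.sub (Nat.add (Nat.add (Nat.add (Nat.add (Nat.add (Nat.add (Nat.add (Nat.add C x31844) x49340) x43508) x45452) x44804) x44984) x44960) x44968) (Nat.mul x44966 (nat_lit 2)))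
    (Nat.sub (Nat.sub (Nat.add (Nat.add (Nat.add (Nat.add (Nat.add (Nat.add (Nat.add (Nat.add (Nat.add (Nat.add C x31846) x49342) x43510) x45454) x44806) x44986) x44962) x44974) x44966) x44970) (Nat.mul x44968 (nat_lit 2))) x25286)
    (Nat.sub (Nat.sub (Nat.add (Nat.add (Nat.add (Nat.add (Nat.add (Nat.add (Nat.add (Nat.add C x31848) x49344) x43512) x45456) x44808) x44988) x44976) x44968) (Nat.mul x44970 (nat_lit 4))) x25288)
    (Nat.sub (Nat.sub (Nat.add (Nat.add (Nat.add (Nat.add (Nat.add (Nat.add (Nat.add (Nat.add C x31852) x49348) x43516) x45460) x44812) x44992) x44968) x44976) (Nat.mul x44974 (nat_lit 4))) x25292)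
    (Nat.sub (Nat.sub (Nat.add (Nat.add (Nat.add (Nat.add (Nat.add (Nat.add (Nat.add (Nat.add C x31854) x49350) x43518) x45462) x44814) x44994) x44970) x44974) (Nat.mul x44976 (nat_lit 4))) x25294)
    (Nat.sub (Nat.add (Nat.add (Nat.add (Nat.add (Nat.add (Nat.add (Nat.add (Nat.add C x31862) x49358) x43526) x45470) x44822) x45038) x44966) x44986) (Nat.mul x44984 (nat_lit 2)))
    (Nat.sub (Nat.sub (Nat.add (Nat.add (Nat.add (Nat.add (Nat.add (Nat.add (Nat.add (Nat.add (Nat.add (Nat.add C x31864) x49360) x43528) x45472) x44824) x45040) x44968) x44992) x44984) x44988) (Nat.mul x44986 (nat_lit 3))) x25304)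
    (Nat.sub (Nat.sub (Nat.add (Nat.add (Nat.add (Nat.add (Nat.add (Nat.add (Nat.add (Nat.add (Nat.add C x31866) x49362) x43530) x45474) x44826) x45042) x44970) x44994) x44986) (Nat.mul x44988 (nat_lit 6))) x25306)
    (Nat.sub (Nat.sub (Nat.add (Nat.add (Nat.add (Nat.add (Nat.add (Nat.add (Nat.add (Nat.add (Nat.add (Nat.add C x31870) x49366) x43534) x45478) x44830) x45046) x44974) x45010) x44986) x44994) (Nat.mul x44992 (nat_lit 3))) x25310)
    (Nat.sub (Nat.sub (Nat.add (Nat.add (Nat.add (Nat.add (Nat.add (Nat.add (Nat.add (Nat.add (Nat.add (Nat.add (Nat.add C x31872) x49368) x43536) x45480) x44832) x45048) x44976) x45012) x44988) x45000) x44992) (Nat.mul x44994 (nat_lit 4))) x25312)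
    (Nat.sub (Nat.sub (Nat.add (Nat.add (Nat.add (Nat.add (Nat.add (Nat.add (Nat.add (Nat.add C x31878) x49374) x43542) x45486) x44838) x45054) x45018) x44994) (Nat.mul x45000 (nat_lit 4))) x25318)
    (Nat.sub (Nat.sub (Nat.add (Nat.add (Nat.add (Nat.add (Nat.add (Nat.add (Nat.add (Nat.add C x31888) x49384) x43552) x45496) x44848) x45064) x44992) x45012) (Nat.mul x45010 (nat_lit 4))) x25328)
    (Nat.sub (Nat.sub (Nat.add (Nat.add (Nat.add (Nat.add (Nat.add (Nat.add (Nat.add (Nat.add (Nat.add C x31890) x49386) x43554) x45498) x44850) x45066) x44994) x45018) x45010) (Nat.mul x45012 (nat_lit 6))) x25330)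
    (Nat.sub (Nat.sub (Nat.add (Nat.add (Nat.add (Nat.add (Nat.add (Nat.add (Nat.add (Nat.add C x31896) x49392) x43560) x45504) x44856) x45072) x45000) x45012) (Nat.mul x45018 (nat_lit 4))) x25336)
    (Nat.add (Nat.add (Nat.add (Nat.add (Nat.add (Nat.add (Nat.add C x31916) x49412) x43580) x45524) x44876) x44984) x45040)
    (Nat.sub (Nat.sub (Nat.add (Nat.add (Nat.add (Nat.add (Nat.add (Nat.add (Nat.add (Nat.add (Nat.add C x31918) x49414) x43582) x45526) x44878) x44986) x45046) x45038) x45042) x45040) x25358)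
    (Nat.sub (Nat.sub (Nat.add (Nat.add (Nat.add (Nat.add (Nat.add (Nat.add (Nat.add (Nat.add C x31920) x49416) x43584) x45528) x44880) x44988) x45048) x45040) (Nat.mul x45042 (nat_lit 4))) x25360)
    (Nat.sub (Nat.sub (Nat.add (Nat.add (Nat.add (Nat.add (Nat.add (Nat.add (Nat.add (Nat.add (Nat.add C x31924) x49420) x43588) x45532) x44884) x44992) x45064) x45040) x45048) (Nat.mul x45046 (nat_lit 2))) x25364)
    (Nat.sub (Nat.sub (Nat.add (Nat.add (Nat.add (Nat.add (Nat.add (Nat.add (Nat.add (Nat.add (Nat.add (Nat.add C x31926) x49422) x43590) x45534) x44886) x44994) x45066) x45042) x45054) x45046) (Nat.mul x45048 (nat_lit 3))) x25366)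
    (Nat.sub (Nat.sub (Nat.add (Nat.add (Nat.add (Nat.add (Nat.add (Nat.add (Nat.add (Nat.add C x31932) x49428) x43596) x45540) x44892) x45000) x45072) x45048) (Nat.mul x45054 (nat_lit 4))) x25372)
    (Nat.sub (Nat.sub (Nat.add (Nat.add (Nat.add (Nat.add (Nat.add (Nat.add (Nat.add (Nat.add (Nat.add C x31942) x49438) x43606) x45550) x44902) x45010) x45118) x45046) x45066) x45064) x25382)
    (Nat.sub (Nat.sub (Nat.add (Nat.add (Nat.add (Nat.add (Nat.add (Nat.add (Nat.add (Nat.add (Nat.add (Nat.add C x31944) x49440) x43608) x45552) x44904) x45012) x45120) x45048) x45072) x45064) (Nat.mul x45066 (nat_lit 3))) x25384)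
    (Nat.sub (Nat.sub (Nat.add (Nat.add (Nat.add (Nat.add (Nat.add (Nat.add (Nat.add (Nat.add (Nat.add (Nat.add C x31950) x49446) x43614) x45558) x44910) x45018) x45126) x45054) x45090) x45066) (Nat.mul x45072 (nat_lit 2))) x25390)
    (Nat.sub (Nat.sub (Nat.add (Nat.add (Nat.add (Nat.add (Nat.add (Nat.add (Nat.add C x31968) x49464) x43632) x45576) x44928) x45144) x45072) (Nat.mul x45090 (nat_lit 2))) x25408)
    (Nat.sub (Nat.add (Nat.add (Nat.add (Nat.add (Nat.add (Nat.add C x31996) x49492) x43660) x45604) x45064) x45120) x25436)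
    (Nat.sub (Nat.sub (Nat.add (Nat.add (Nat.add (Nat.add (Nat.add (Nat.add (Nat.add C x31998) x49494) x43662) x45606) x45066) x45126) x45118) (Nat.mul x45120 (nat_lit 2))) x25438)
    (Nat.sub (Nat.sub (Nat.add (Nat.add (Nat.add (Nat.add (Nat.add (Nat.add (Nat.add C x32004) x49500) x43668) x45612) x45072) x45144) x45120) (Nat.mul x45126 (nat_lit 2))) x25444)
    (Nat.sub (Nat.add (Nat.add (Nat.add (Nat.add (Nat.add (Nat.add C x32022) x49518) x43686) x45630) x45090) x45126) x25462)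
    (Nat.add (Nat.add (Nat.add (Nat.add (Nat.add C (Nat.mul x45206 (nat_lit 2))) x32084) x49580) x44720) x45212)
    (Nat.add (Nat.add (Nat.add (Nat.add (Nat.add (Nat.add (Nat.add (Nat.add C x45212) x32090) x49586) x44726) x45230) x45206) x45218) x45214)
    (Nat.sub (Nat.add (Nat.add (Nat.add (Nat.add (Nat.add (Nat.add C x32092) x49588) x44728) x45232) x45220) x45212) x25532)
    (Nat.sub (Nat.add (Nat.add (Nat.add (Nat.add (Nat.add (Nat.add C x32096) x49592) x44732) x45236) x45212) x45220) (Nat.mul x45218 (nat_lit 2)))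
    (Nat.sub (Nat.sub (Nat.add (Nat.add (Nat.add (Nat.add (Nat.add (Nat.add (Nat.add C x32098) x49594) x44734) x45238) x45214) x45218) x45222) x45220) x25538)
    (Nat.sub (Nat.sub (Nat.add (Nat.add (Nat.add (Nat.add (Nat.add C x32100) x49596) x44736) x45240) x45220) (Nat.mul x45222 (nat_lit 2))) x25540)
    (Nat.add (Nat.add (Nat.add (Nat.add (Nat.add (Nat.add (Nat.add C x32108) x49604) x44744) x45284) x45212) x45236) x45232)
    (Nat.sub (Nat.sub (Nat.add (Nat.add (Nat.add (Nat.add (Nat.add (Nat.add (Nat.add C x32110) x49606) x44746) x45286) x45214) x45238) x45230) (Nat.mul x45232 (nat_lit 2))) x25550)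
    (Nat.sub (Nat.add (Nat.add (Nat.add (Nat.add (Nat.add (Nat.add (Nat.add (Nat.add C x32114) x49610) x44750) x45290) x45218) x45254) x45230) x45238) x45236)
    (Nat.sub (Nat.sub (Nat.add (Nat.add (Nat.add (Nat.add (Nat.add (Nat.add (Nat.add (Nat.add (Nat.add (Nat.add C x32116) x49612) x44752) x45292) x45220) x45256) x45232) x45244) x45236) x45240) x45238) x25556)
    (Nat.sub (Nat.sub (Nat.add (Nat.add (Nat.add (Nat.add (Nat.add (Nat.add (Nat.add (Nat.add C x32118) x49614) x44754) x45294) x45222) x45258) x45246) x45238) (Nat.mul x45240 (nat_lit 3))) x25558)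
    (Nat.sub (Nat.sub (Nat.add (Nat.add (Nat.add (Nat.add (Nat.add (Nat.add (Nat.add C x32122) x49618) x44758) x45298) x45262) x45238) x45246) (Nat.mul x45244 (nat_lit 2))) x25562)
    (Nat.sub (Nat.sub (Nat.add (Nat.add (Nat.add (Nat.add (Nat.add (Nat.add (Nat.add C x32124) x49620) x44760) x45300) x45264) x45240) x45244) (Nat.mul x45246 (nat_lit 2))) x25564)
    (Nat.sub (Nat.add (Nat.add (Nat.add (Nat.add (Nat.add (Nat.add C x32132) x49628) x44768) x45308) x45236) x45256) (Nat.mul x45254 (nat_lit 2)))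
    (Nat.sub (Nat.sub (Nat.add (Nat.add (Nat.add (Nat.add (Nat.add (Nat.add (Nat.add (Nat.add C x32134) x49630) x44770) x45310) x45238) x45262) x45254) x45258) (Nat.mul x45256 (nat_lit 3))) x25574)
    (Nat.sub (Nat.sub (Nat.add (Nat.add (Nat.add (Nat.add (Nat.add (Nat.add (Nat.add C x32136) x49632) x44772) x45312) x45240) x45264) x45256) (Nat.mul x45258 (nat_lit 6))) x25576)
    (Nat.sub (Nat.sub (Nat.add (Nat.add (Nat.add (Nat.add (Nat.add (Nat.add (Nat.add C x32140) x49636) x44776) x45316) x45244) x45256) x45264) (Nat.mul x45262 (nat_lit 2))) x25580)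
    (Nat.sub (Nat.sub (Nat.add (Nat.add (Nat.add (Nat.add (Nat.add (Nat.add (Nat.add (Nat.add C x32142) x49638) x44778) x45318) x45246) x45258) x45270) x45262) (Nat.mul x45264 (nat_lit 3))) x25582)
    (Nat.sub (Nat.sub (Nat.add (Nat.add (Nat.add (Nat.add (Nat.add C x32148) x49644) x44784) x45324) x45264) (Nat.mul x45270 (nat_lit 2))) x25588)
    (Nat.add (Nat.add (Nat.add (Nat.add (Nat.add (Nat.add (Nat.add C x32162) x49658) x44798) x45446) x45230) x45290) x45286)
    (Nat.sub (Nat.sub (Nat.add (Nat.add (Nat.add (Nat.add (Nat.add (Nat.add (Nat.add C x32164) x49660) x44800) x45448) x45232) x45292) x45284) (Nat.mul x45286 (nat_lit 2))) x25604)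
    (Nat.sub (Nat.add (Nat.add (Nat.add (Nat.add (Nat.add (Nat.add (Nat.add (Nat.add C x32168) x49664) x44804) x45452) x45236) x45308) x45284) x45292) (Nat.mul x45290 (nat_lit 2)))
    (Nat.sub (Nat.sub (Nat.add (Nat.add (Nat.add (Nat.add (Nat.add (Nat.add (Nat.add (Nat.add (Nat.add (Nat.add C x32170) x49666) x44806) x45454) x45238) x45310) x45286) x45298) x45290) x45294) (Nat.mul x45292 (nat_lit 2))) x25610)
    (Nat.sub (Nat.sub (Nat.add (Nat.add (Nat.add (Nat.add (Nat.add (Nat.add (Nat.add (Nat.add C x32172) x49668) x44808) x45456) x45240) x45312) x45300) x45292) (Nat.mul x45294 (nat_lit 4))) x25612)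
    (Nat.sub (Nat.sub (Nat.add (Nat.add (Nat.add (Nat.add (Nat.add (Nat.add (Nat.add (Nat.add C x32176) x49672) x44812) x45460) x45244) x45316) x45292) x45300) (Nat.mul x45298 (nat_lit 4))) x25616)
    (Nat.sub (Nat.sub (Nat.add (Nat.add (Nat.add (Nat.add (Nat.add (Nat.add (Nat.add (Nat.add C x32178) x49674) x44814) x45462) x45246) x45318) x45294) x45298) (Nat.mul x45300 (nat_lit 4))) x25618)
    (Nat.sub (Nat.add (Nat.add (Nat.add (Nat.add (Nat.add (Nat.add (Nat.add (Nat.add C x32186) x49682) x44822) x45470) x45254) x45362) x45290) x45310) x45308)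
    (Nat.sub (Nat.sub (Nat.add (Nat.add (Nat.add (Nat.add (Nat.add (Nat.add (Nat.add (Nat.add (Nat.add (Nat.add C x32188) x49684) x44824) x45472) x45256) x45364) x45292) x45316) x45308) x45312) (Nat.mul x45310 (nat_lit 2))) x25628)
    (Nat.sub (Nat.sub (Nat.add (Nat.add (Nat.add (Nat.add (Nat.add (Nat.add (Nat.add (Nat.add (Nat.add C x32190) x49686) x44826) x45474) x45258) x45366) x45294) x45318) x45310) (Nat.mul x45312 (nat_lit 5))) x25630)
    (Nat.sub (Nat.sub (Nat.add (Nat.add (Nat.add (Nat.add (Nat.add (Nat.add (Nat.add (Nat.add (Nat.add (Nat.add C x32194) x49690) x44830) x45478) x45262) x45370) x45298) x45334) x45310) x45318) (Nat.mul x45316 (nat_lit 2))) x25634)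
    (Nat.sub (Nat.sub (Nat.add (Nat.add (Nat.add (Nat.add (Nat.add (Nat.add (Nat.add (Nat.add (Nat.add (Nat.add (Nat.add C x32196) x49692) x44832) x45480) x45264) x45372) x45300) x45336) x45312) x45324) x45316) (Nat.mul x45318 (nat_lit 3))) x25636)
    (Nat.sub (Nat.sub (Nat.add (Nat.add (Nat.add (Nat.add (Nat.add (Nat.add (Nat.add (Nat.add C x32202) x49698) x44838) x45486) x45270) x45378) x45342) x45318) (Nat.mul x45324 (nat_lit 3))) x25642)
    (Nat.sub (Nat.sub (Nat.add (Nat.add (Nat.add (Nat.add (Nat.add (Nat.add (Nat.add C x32212) x49708) x44848) x45496) x45388) x45316) x45336) (Nat.mul x45334 (nat_lit 2))) x25652)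
    (Nat.sub (Nat.sub (Nat.add (Nat.add (Nat.add (Nat.add (Nat.add (Nat.add (Nat.add (Nat.add C x32214) x49710) x44850) x45498) x45390) x45318) x45342) x45334) (Nat.mul x45336 (nat_lit 4))) x25654)
    (Nat.sub (Nat.sub (Nat.add (Nat.add (Nat.add (Nat.add (Nat.add (Nat.add (Nat.add C x32220) x49716) x44856) x45504) x45396) x45324) x45336) (Nat.mul x45342 (nat_lit 2))) x25660)
    (Nat.sub (Nat.add (Nat.add (Nat.add (Nat.add (Nat.add (Nat.add C x32240) x49736) x44876) x45524) x45308) x45364) (Nat.mul x45362 (nat_lit 2)))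
    (Nat.sub (Nat.sub (Nat.add (Nat.add (Nat.add (Nat.add (Nat.add (Nat.add (Nat.add (Nat.add C x32242) x49738) x44878) x45526) x45310) x45370) x45362) x45366) (Nat.mul x45364 (nat_lit 3))) x25682)
    (Nat.sub (Nat.sub (Nat.add (Nat.add (Nat.add (Nat.add (Nat.add (Nat.add (Nat.add C x32244) x49740) x44880) x45528) x45312) x45372) x45364) (Nat.mul x45366 (nat_lit 6))) x25684)
    (Nat.sub (Nat.sub (Nat.add (Nat.add (Nat.add (Nat.add (Nat.add (Nat.add (Nat.add (Nat.add C x32248) x49744) x44884) x45532) x45316) x45388) x45364) x45372) (Nat.mul x45370 (nat_lit 4))) x25688)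
    (Nat.sub (Nat.sub (Nat.add (Nat.add (Nat.add (Nat.add (Nat.add (Nat.add (Nat.add (Nat.add (Nat.add C x32250) x49746) x44886) x45534) x45318) x45390) x45366) x45378) x45370) (Nat.mul x45372 (nat_lit 5))) x25690)
    (Nat.sub (Nat.sub (Nat.add (Nat.add (Nat.add (Nat.add (Nat.add (Nat.add (Nat.add C x32256) x49752) x44892) x45540) x45324) x45396) x45372) (Nat.mul x45378 (nat_lit 6))) x25696)
    (Nat.sub (Nat.sub (Nat.add (Nat.add (Nat.add (Nat.add (Nat.add (Nat.add (Nat.add C x32266) x49762) x44902) x45550) x45334) x45370) x45390) (Nat.mul x45388 (nat_lit 2))) x25706)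
    (Nat.sub (Nat.sub (Nat.add (Nat.add (Nat.add (Nat.add (Nat.add (Nat.add (Nat.add (Nat.add C x32268) x49764) x44904) x45552) x45336) x45372) x45396) x45388) (Nat.mul x45390 (nat_lit 4))) x25708)
    (Nat.sub (Nat.sub (Nat.add (Nat.add (Nat.add (Nat.add (Nat.add (Nat.add (Nat.add (Nat.add C x32274) x49770) x44910) x45558) x45342) x45378) x45414) x45390) (Nat.mul x45396 (nat_lit 3))) x25714)
    (Nat.sub (Nat.sub (Nat.add (Nat.add (Nat.add (Nat.add (Nat.add C x32292) x49788) x44928) x45576) x45396) (Nat.mul x45414 (nat_lit 2))) x25732)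
    (Nat.add (Nat.add (Nat.add (Nat.add (Nat.add (Nat.add (Nat.add C (Nat.mul x45446 (nat_lit 2))) x32324) x49820) x44960) x45284) x45452) x45448)
    (Nat.sub (Nat.add (Nat.add (Nat.add (Nat.add (Nat.add (Nat.add C x32326) x49822) x44962) x45286) x45454) x45446) x25766)
    (Nat.add (Nat.add (Nat.add (Nat.add (Nat.add (Nat.add (Nat.add C x32330) x49826) x44966) x45290) x45470) x45446) x45454)
    (Nat.sub (Nat.add (Nat.add (Nat.add (Nat.add (Nat.add (Nat.add (Nat.add (Nat.add (Nat.add C x32332) x49828) x44968) x45292) x45472) x45448) x45460) x45452) x45456) x25772)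
    (Nat.sub (Nat.sub (Nat.add (Nat.add (Nat.add (Nat.add (Nat.add (Nat.add (Nat.add C x32334) x49830) x44970) x45294) x45474) x45462) x45454) (Nat.mul x45456 (nat_lit 2))) x25774)
    (Nat.sub (Nat.sub (Nat.add (Nat.add (Nat.add (Nat.add (Nat.add (Nat.add (Nat.add C x32338) x49834) x44974) x45298) x45478) x45454) x45462) (Nat.mul x45460 (nat_lit 2))) x25778)
    (Nat.sub (Nat.sub (Nat.add (Nat.add (Nat.add (Nat.add (Nat.add (Nat.add (Nat.add C x32340) x49836) x44976) x45300) x45480) x45456) x45460) (Nat.mul x45462 (nat_lit 2))) x25780)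
    (Nat.add (Nat.add (Nat.add (Nat.add (Nat.add (Nat.add (Nat.add C x32348) x49844) x44984) x45308) x45524) x45452) x45472)
    (Nat.sub (Nat.sub (Nat.add (Nat.add (Nat.add (Nat.add (Nat.add (Nat.add (Nat.add (Nat.add (Nat.add C x32350) x49846) x44986) x45310) x45526) x45454) x45478) x45470) x45474) x45472) x25790)
    (Nat.sub (Nat.sub (Nat.add (Nat.add (Nat.add (Nat.add (Nat.add (Nat.add (Nat.add (Nat.add C x32352) x49848) x44988) x45312) x45528) x45456) x45480) x45472) (Nat.mul x45474 (nat_lit 4))) x25792)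
    (Nat.sub (Nat.sub (Nat.add (Nat.add (Nat.add (Nat.add (Nat.add (Nat.add (Nat.add (Nat.add (Nat.add C x32356) x49852) x44992) x45316) x45532) x45460) x45496) x45472) x45480) x45478) x25796)
    (Nat.sub (Nat.sub (Nat.add (Nat.add (Nat.add (Nat.add (Nat.add (Nat.add (Nat.add (Nat.add (Nat.add (Nat.add C x32358) x49854) x44994) x45318) x45534) x45462) x45498) x45474) x45486) x45478) (Nat.mul x45480 (nat_lit 2))) x25798)
    (Nat.sub (Nat.sub (Nat.add (Nat.add (Nat.add (Nat.add (Nat.add (Nat.add (Nat.add C x32364) x49860) x45000) x45324) x45540) x45504) x45480) (Nat.mul x45486 (nat_lit 2))) x25804)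
    (Nat.sub (Nat.sub (Nat.add (Nat.add (Nat.add (Nat.add (Nat.add (Nat.add (Nat.add C x32374) x49870) x45010) x45334) x45550) x45478) x45498) (Nat.mul x45496 (nat_lit 2))) x25814)
    (Nat.sub (Nat.sub (Nat.add (Nat.add (Nat.add (Nat.add (Nat.add (Nat.add (Nat.add (Nat.add C x32376) x49872) x45012) x45336) x45552) x45480) x45504) x45496) (Nat.mul x45498 (nat_lit 4))) x25816)
    (Nat.sub (Nat.sub (Nat.add (Nat.add (Nat.add (Nat.add (Nat.add (Nat.add (Nat.add C x32382) x49878) x45018) x45342) x45558) x45486) x45498) (Nat.mul x45504 (nat_lit 2))) x25822)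
    (Nat.add (Nat.add (Nat.add (Nat.add (Nat.add (Nat.add (Nat.add (Nat.add C x45524) x32402) x49898) x45038) x45362) x45686) x45470) x45526)
    (Nat.sub (Nat.add (Nat.add (Nat.add (Nat.add (Nat.add (Nat.add (Nat.add (Nat.add (Nat.add C x32404) x49900) x45040) x45364) x45688) x45472) x45532) x45524) x45528) x25844)
    (Nat.sub (Nat.sub (Nat.add (Nat.add (Nat.add (Nat.add (Nat.add (Nat.add (Nat.add (Nat.add C x32406) x49902) x45042) x45366) x45690) x45474) x45534) x45526) (Nat.mul x45528 (nat_lit 3))) x25846)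
    (Nat.sub (Nat.sub (Nat.add (Nat.add (Nat.add (Nat.add (Nat.add (Nat.add (Nat.add (Nat.add (Nat.add C x32410) x49906) x45046) x45370) x45694) x45478) x45550) x45526) x45534) x45532) x25850)
    (Nat.sub (Nat.sub (Nat.add (Nat.add (Nat.add (Nat.add (Nat.add (Nat.add (Nat.add (Nat.add (Nat.add (Nat.add C x32412) x49908) x45048) x45372) x45696) x45480) x45552) x45528) x45540) x45532) (Nat.mul x45534 (nat_lit 2))) x25852)
    (Nat.sub (Nat.sub (Nat.add (Nat.add (Nat.add (Nat.add (Nat.add (Nat.add (Nat.add (Nat.add C x32418) x49914) x45054) x45378) x45702) x45486) x45558) x45534) (Nat.mul x45540 (nat_lit 3))) x25858)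
    (Nat.sub (Nat.add (Nat.add (Nat.add (Nat.add (Nat.add (Nat.add (Nat.add (Nat.add (Nat.add C x32428) x49924) x45064) x45388) x45712) x45496) x45604) x45532) x45552) x25868)
    (Nat.sub (Nat.sub (Nat.add (Nat.add (Nat.add (Nat.add (Nat.add (Nat.add (Nat.add (Nat.add (Nat.add (Nat.add C x32430) x49926) x45066) x45390) x45714) x45498) x45606) x45534) x45558) x45550) (Nat.mul x45552 (nat_lit 2))) x25870)
    (Nat.sub (Nat.sub (Nat.add (Nat.add (Nat.add (Nat.add (Nat.add (Nat.add (Nat.add (Nat.add (Nat.add (Nat.add C x32436) x49932) x45072) x45396) x45720) x45504) x45612) x45540) x45576) x45552) x45558) x25876)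
    (Nat.sub (Nat.sub (Nat.add (Nat.add (Nat.add (Nat.add (Nat.add (Nat.add (Nat.add C x32454) x49950) x45090) x45414) x45738) x45630) x45558) x45576) x25894)
    (Nat.sub (Nat.add (Nat.add (Nat.add (Nat.add (Nat.add (Nat.add C x32482) x49978) x45118) x45766) x45550) x45606) x25922)
    (Nat.sub (Nat.sub (Nat.add (Nat.add (Nat.add (Nat.add (Nat.add (Nat.add (Nat.add C x32484) x49980) x45120) x45768) x45552) x45612) x45604) (Nat.mul x45606 (nat_lit 2))) x25924)
    (Nat.sub (Nat.sub (Nat.add (Nat.add (Nat.add (Nat.add (Nat.add (Nat.add (Nat.add C x32490) x49986) x45126) x45774) x45558) x45630) x45606) (Nat.mul x45612 (nat_lit 2))) x25930)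
    (Nat.sub (Nat.add (Nat.add (Nat.add (Nat.add (Nat.add (Nat.add C x32508) x50004) x45144) x45792) x45576) x45612) x25948)
    (Nat.add (Nat.add (Nat.add (Nat.add (Nat.add C (Nat.mul x45686 (nat_lit 2))) x32564) x50060) x45524) x45688)
    (Nat.sub (Nat.add (Nat.add (Nat.add (Nat.add (Nat.add (Nat.add (Nat.add C x45688) x32566) x50062) x45526) x45694) x45686) x45690) x26006)
    (Nat.sub (Nat.sub (Nat.add (Nat.add (Nat.add (Nat.add (Nat.add C x32568) x50064) x45528) x45696) x45688) (Nat.mul x45690 (nat_lit 2))) x26008)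
    (Nat.sub (Nat.add (Nat.add (Nat.add (Nat.add (Nat.add (Nat.add C x32572) x50068) x45532) x45712) x45688) x45696) x26012)
    (Nat.sub (Nat.sub (Nat.add (Nat.add (Nat.add (Nat.add (Nat.add (Nat.add (Nat.add C x32574) x50070) x45534) x45714) x45690) x45702) x45694) x45696) x26014)
    (Nat.sub (Nat.sub (Nat.add (Nat.add (Nat.add (Nat.add (Nat.add C x32580) x50076) x45540) x45720) x45696) (Nat.mul x45702 (nat_lit 2))) x26020)
    (Nat.sub (Nat.add (Nat.add (Nat.add (Nat.add (Nat.add (Nat.add C x32590) x50086) x45550) x45766) x45694) x45714) x26030)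
    (Nat.sub (Nat.sub (Nat.add (Nat.add (Nat.add (Nat.add (Nat.add (Nat.add (Nat.add C x32592) x50088) x45552) x45768) x45696) x45720) x45712) (Nat.mul x45714 (nat_lit 2))) x26032)
    (Nat.sub (Nat.sub (Nat.add (Nat.add (Nat.add (Nat.add (Nat.add (Nat.add (Nat.add C x32598) x50094) x45558) x45774) x45702) x45738) x45714) x45720) x26038)
    (Nat.sub (Nat.sub (Nat.add (Nat.add (Nat.add (Nat.add (Nat.add C x32616) x50112) x45576) x45792) x45720) (Nat.mul x45738 (nat_lit 2))) x26056)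
    (Nat.sub (Nat.add (Nat.add (Nat.add (Nat.add (Nat.add (Nat.add C (Nat.mul x45766 (nat_lit 2))) x32644) x50140) x45604) x45712) x45768) x26084)
    (Nat.sub (Nat.add (Nat.add (Nat.add (Nat.add (Nat.add (Nat.add C x32646) x50142) x45606) x45714) x45774) x45766) x26086)
    (Nat.sub (Nat.add (Nat.add (Nat.add (Nat.add (Nat.add (Nat.add C x32652) x50148) x45612) x45720) x45792) x45768) x26092)
    (Nat.sub (Nat.add (Nat.add (Nat.add (Nat.add (Nat.add (Nat.add (Nat.add C x45792) x32670) x50166) x45630) x45738) x45846) x45774) x26110)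
    (Nat.sub (Nat.add (Nat.add (Nat.add (Nat.add C (Nat.mul x45846 (nat_lit 2))) x32724) x50220) x45792) x26164)
    (Nat.add (Nat.add (Nat.add (Nat.add (Nat.add C (Nat.mul x45980 (nat_lit 6))) x32858) x41606) x46034) x45998)
    (Nat.add (Nat.add (Nat.add (Nat.add (Nat.add (Nat.add C (Nat.mul x45998 (nat_lit 4))) x32876) x41624) x46052) x45980) x46004)
    (Nat.add (Nat.add (Nat.add (Nat.add (Nat.add (Nat.add C (Nat.mul x46004 (nat_lit 4))) x32882) x41630) x46058) x45998) x46006)
    (Nat.sub (Nat.add (Nat.add (Nat.add (Nat.add (Nat.add C (Nat.mul x46006 (nat_lit 4))) x32884) x41632) x46060) x46004) x26324)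
    (Nat.add (Nat.add (Nat.add (Nat.add (Nat.add (Nat.add C (Nat.mul x46034 (nat_lit 4))) x32912) x41660) x46196) x45980) x46052)
    (Nat.add (Nat.add (Nat.add (Nat.add (Nat.add (Nat.add (Nat.add (Nat.add (Nat.add C (Nat.mul x46052 (nat_lit 4))) x32930) x41678) x46214) x45998) x46106) x46034) x46070) x46058)
    (Nat.add (Nat.add (Nat.add (Nat.add (Nat.add (Nat.add (Nat.add (Nat.add (Nat.add C (Nat.mul x46058 (nat_lit 3))) x32936) x41684) x46220) x46004) x46112) x46076) x46052) x46060)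
    (Nat.sub (Nat.add (Nat.add (Nat.add (Nat.add (Nat.add (Nat.add (Nat.add (Nat.add C (Nat.mul x46060 (nat_lit 3))) x32938) x41686) x46222) x46006) x46114) x46078) x46058) x26378)
    (Nat.add (Nat.add (Nat.add (Nat.add (Nat.add (Nat.add (Nat.add C (Nat.mul x46070 (nat_lit 2))) x32948) x41696) x46232) x46124) x46052) x46076)
    (Nat.add (Nat.add (Nat.add (Nat.add (Nat.add (Nat.add (Nat.add (Nat.add (Nat.add C (Nat.mul x46076 (nat_lit 3))) x32954) x41702) x46238) x46130) x46058) x46070) x46082) x46078)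
    (Nat.sub (Nat.add (Nat.add (Nat.add (Nat.add (Nat.add (Nat.add (Nat.add (Nat.add C (Nat.mul x46078 (nat_lit 2))) x32956) x41704) x46240) x46132) x46060) x46084) x46076) x26396)
    (Nat.add (Nat.add (Nat.add (Nat.add (Nat.add (Nat.add (Nat.add C (Nat.mul x46082 (nat_lit 2))) x32960) x41708) x46244) x46136) x46076) x46084)
    (Nat.sub (Nat.add (Nat.add (Nat.add (Nat.add (Nat.add (Nat.add (Nat.add (Nat.add C (Nat.mul x46084 (nat_lit 3))) x32962) x41710) x46246) x46138) x46078) x46082) x46086) x26402)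
    (Nat.sub (Nat.add (Nat.add (Nat.add (Nat.add (Nat.add (Nat.add C (Nat.mul x46086 (nat_lit 2))) x32964) x41712) x46248) x46140) x46084) x26404)
    (Nat.add (Nat.add (Nat.add (Nat.add (Nat.add (Nat.add (Nat.add C (Nat.mul x46106 (nat_lit 2))) x32984) x41732) x46268) x46052) x46124) x46112)
    (Nat.add (Nat.add (Nat.add (Nat.add (Nat.add (Nat.add (Nat.add C x32990) x41738) x46274) x46058) x46130) x46106) x46114)
    (Nat.sub (Nat.add (Nat.add (Nat.add (Nat.add (Nat.add (Nat.add C x32992) x41740) x46276) x46060) x46132) x46112) x26432)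
    (Nat.add (Nat.add (Nat.add (Nat.add (Nat.add (Nat.add (Nat.add C (Nat.mul x46124 (nat_lit 2))) x33002) x41750) x46286) x46070) x46106) x46130)
    (Nat.add (Nat.add (Nat.add (Nat.add (Nat.add (Nat.add (Nat.add (Nat.add (Nat.add (Nat.add C (Nat.mul x46130 (nat_lit 2))) x33008) x41756) x46292) x46076) x46112) x46148) x46124) x46136) x46132)
    (Nat.sub (Nat.add (Nat.add (Nat.add (Nat.add (Nat.add (Nat.add (Nat.add (Nat.add (Nat.add C x46132) x33010) x41758) x46294) x46078) x46114) x46150) x46138) x46130) x26450)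
    (Nat.add (Nat.add (Nat.add (Nat.add (Nat.add (Nat.add (Nat.add C x33014) x41762) x46298) x46082) x46154) x46130) x46138)
    (Nat.sub (Nat.add (Nat.add (Nat.add (Nat.add (Nat.add (Nat.add (Nat.add (Nat.add (Nat.add C x46138) x33016) x41764) x46300) x46084) x46156) x46132) x46136) x46140) x26456)
    (Nat.sub (Nat.add (Nat.add (Nat.add (Nat.add (Nat.add (Nat.add C x33018) x41766) x46302) x46086) x46158) x46138) x26458)
    (Nat.add (Nat.add (Nat.add (Nat.add (Nat.add (Nat.add (Nat.add C (Nat.mul x46148 (nat_lit 2))) x33026) x41774) x46310) x46130) x46154) x46150)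
    (Nat.sub (Nat.add (Nat.add (Nat.add (Nat.add (Nat.add (Nat.add C x33028) x41776) x46312) x46132) x46156) x46148) x26468)
    (Nat.add (Nat.add (Nat.add (Nat.add (Nat.add (Nat.add (Nat.add C (Nat.mul x46154 (nat_lit 2))) x33032) x41780) x46316) x46136) x46148) x46156)
    (Nat.sub (Nat.add (Nat.add (Nat.add (Nat.add (Nat.add (Nat.add (Nat.add (Nat.add (Nat.add C (Nat.mul x46156 (nat_lit 2))) x33034) x41782) x46318) x46138) x46150) x46162) x46154) x46158) x26474)
    (Nat.sub (Nat.add (Nat.add (Nat.add (Nat.add (Nat.add (Nat.add C x33036) x41784) x46320) x46140) x46164) x46156) x26476)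
    (Nat.sub (Nat.add (Nat.add (Nat.add (Nat.add (Nat.add (Nat.add C (Nat.mul x46162 (nat_lit 2))) x33040) x41788) x46324) x46156) x46164) x26480)
    (Nat.sub (Nat.add (Nat.add (Nat.add (Nat.add (Nat.add (Nat.add C (Nat.mul x46164 (nat_lit 2))) x33042) x41790) x46326) x46158) x46162) x26482)
    (Nat.add (Nat.add (Nat.add (Nat.add (Nat.add (Nat.add C (Nat.mul x46196 (nat_lit 4))) x33074) x41822) x46682) x46034) x46214)
    (Nat.add (Nat.add (Nat.add (Nat.add (Nat.add (Nat.add (Nat.add (Nat.add (Nat.add C (Nat.mul x46214 (nat_lit 3))) x33092) x41840) x46700) x46052) x46268) x46196) x46232) x46220)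
    (Nat.add (Nat.add (Nat.add (Nat.add (Nat.add (Nat.add (Nat.add (Nat.add (Nat.add C (Nat.mul x46220 (nat_lit 2))) x33098) x41846) x46706) x46058) x46274) x46238) x46214) x46222)
    (Nat.sub (Nat.add (Nat.add (Nat.add (Nat.add (Nat.add (Nat.add (Nat.add (Nat.add C (Nat.mul x46222 (nat_lit 2))) x33100) x41848) x46708) x46060) x46276) x46240) x46220) x26540)
    (Nat.add (Nat.add (Nat.add (Nat.add (Nat.add (Nat.add (Nat.add C x33110) x41858) x46718) x46070) x46286) x46214) x46238)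
    (Nat.add (Nat.add (Nat.add (Nat.add (Nat.add (Nat.add (Nat.add (Nat.add (Nat.add (Nat.add C x46238) x33116) x41864) x46724) x46076) x46292) x46220) x46232) x46244) x46240)
    (Nat.sub (Nat.add (Nat.add (Nat.add (Nat.add (Nat.add (Nat.add (Nat.add (Nat.add C x33118) x41866) x46726) x46078) x46294) x46222) x46246) x46238) x26558)
    (Nat.add (Nat.add (Nat.add (Nat.add (Nat.add (Nat.add (Nat.add C x33122) x41870) x46730) x46082) x46298) x46238) x46246)
    (Nat.sub (Nat.add (Nat.add (Nat.add (Nat.add (Nat.add (Nat.add (Nat.add (Nat.add (Nat.add C x46246) x33124) x41872) x46732) x46084) x46300) x46240) x46244) x46248) x26564)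
    (Nat.sub (Nat.add (Nat.add (Nat.add (Nat.add (Nat.add (Nat.add C x33126) x41874) x46734) x46086) x46302) x46246) x26566)
    (Nat.add (Nat.add (Nat.add (Nat.add (Nat.add (Nat.add (Nat.add (Nat.add (Nat.add C (Nat.mul x46268 (nat_lit 3))) x33146) x41894) x46754) x46106) x46430) x46214) x46286) x46274)
    (Nat.add (Nat.add (Nat.add (Nat.add (Nat.add (Nat.add (Nat.add (Nat.add (Nat.add (Nat.add C x46274) x33152) x41900) x46760) x46112) x46436) x46220) x46292) x46268) x46276)
    (Nat.sub (Nat.add (Nat.add (Nat.add (Nat.add (Nat.add (Nat.add (Nat.add (Nat.add (Nat.add C x46276) x33154) x41902) x46762) x46114) x46438) x46222) x46294) x46274) x26594)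
    (Nat.add (Nat.add (Nat.add (Nat.add (Nat.add (Nat.add (Nat.add (Nat.add (Nat.add (Nat.add C (Nat.mul x46286 (nat_lit 2))) x33164) x41912) x46772) x46124) x46448) x46232) x46340) x46268) x46292)
    (Nat.add (Nat.add (Nat.add (Nat.add (Nat.add (Nat.add (Nat.add (Nat.add (Nat.add (Nat.add (Nat.add (Nat.add (Nat.add C (Nat.mul x46292 (nat_lit 2))) x33170) x41918) x46778) x46130) x46454) x46238) x46346) x46274) x46310) x46286) x46298) x46294)
    (Nat.sub (Nat.add (Nat.add (Nat.add (Nat.add (Nat.add (Nat.add (Nat.add (Nat.add (Nat.add (Nat.add (Nat.add (Nat.add C x46294) x33172) x41920) x46780) x46132) x46456) x46240) x46348) x46276) x46312) x46300) x46292) x26612)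
    (Nat.add (Nat.add (Nat.add (Nat.add (Nat.add (Nat.add (Nat.add (Nat.add (Nat.add (Nat.add C x33176) x41924) x46784) x46136) x46460) x46244) x46352) x46316) x46292) x46300)
    (Nat.sub (Nat.add (Nat.add (Nat.add (Nat.add (Nat.add (Nat.add (Nat.add (Nat.add (Nat.add (Nat.add (Nat.add (Nat.add C x46300) x33178) x41926) x46786) x46138) x46462) x46246) x46354) x46318) x46294) x46298) x46302) x26618)
    (Nat.sub (Nat.add (Nat.add (Nat.add (Nat.add (Nat.add (Nat.add (Nat.add (Nat.add (Nat.add C x33180) x41928) x46788) x46140) x46464) x46248) x46356) x46320) x46300) x26620)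
    (Nat.add (Nat.add (Nat.add (Nat.add (Nat.add (Nat.add (Nat.add (Nat.add (Nat.add (Nat.add C x46310) x33188) x41936) x46796) x46148) x46472) x46364) x46292) x46316) x46312)
    (Nat.sub (Nat.sub (Nat.add (Nat.add (Nat.add (Nat.add (Nat.add (Nat.add (Nat.add (Nat.add (Nat.add C x33190) x41938) x46798) x46150) x46474) x46366) x46294) x46318) x46310) x46312) x26630)
    (Nat.add (Nat.add (Nat.add (Nat.add (Nat.add (Nat.add (Nat.add (Nat.add (Nat.add (Nat.add C x46316) x33194) x41942) x46802) x46154) x46478) x46370) x46298) x46310) x46318)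
    (Nat.sub (Nat.add (Nat.add (Nat.add (Nat.add (Nat.add (Nat.add (Nat.add (Nat.add (Nat.add (Nat.add (Nat.add (Nat.add C x46318) x33196) x41944) x46804) x46156) x46480) x46372) x46300) x46312) x46324) x46316) x46320) x26636)
    (Nat.sub (Nat.sub (Nat.add (Nat.add (Nat.add (Nat.add (Nat.add (Nat.add (Nat.add (Nat.add (Nat.add C x33198) x41946) x46806) x46158) x46482) x46374) x46302) x46326) x46318) x46320) x26638)
    (Nat.sub (Nat.add (Nat.add (Nat.add (Nat.add (Nat.add (Nat.add (Nat.add (Nat.add (Nat.add C x46324) x33202) x41950) x46810) x46162) x46486) x46378) x46318) x46326) x26642)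
    (Nat.sub (Nat.add (Nat.add (Nat.add (Nat.add (Nat.add (Nat.add (Nat.add (Nat.add (Nat.add C x46326) x33204) x41952) x46812) x46164) x46488) x46380) x46320) x46324) x26644)
    (Nat.add (Nat.add (Nat.add (Nat.add (Nat.add (Nat.add (Nat.add C (Nat.mul x46340 (nat_lit 2))) x33218) x41966) x46826) x46502) x46286) x46346)
    (Nat.add (Nat.add (Nat.add (Nat.add (Nat.add (Nat.add (Nat.add (Nat.add (Nat.add (Nat.add C x46346) x33224) x41972) x46832) x46508) x46292) x46364) x46340) x46352) x46348)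
    (Nat.sub (Nat.add (Nat.add (Nat.add (Nat.add (Nat.add (Nat.add (Nat.add (Nat.add C x33226) x41974) x46834) x46510) x46294) x46366) x46354) x46346) x26666)
    (Nat.sub (Nat.add (Nat.add (Nat.add (Nat.add (Nat.add (Nat.add (Nat.add (Nat.add C x33230) x41978) x46838) x46514) x46298) x46370) x46346) x46354) (Nat.mul x46352 (nat_lit 2)))
    (Nat.sub (Nat.sub (Nat.add (Nat.add (Nat.add (Nat.add (Nat.add (Nat.add (Nat.add (Nat.add (Nat.add C x33232) x41980) x46840) x46516) x46300) x46372) x46348) x46352) x46356) x46354) x26672)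
    (Nat.sub (Nat.sub (Nat.add (Nat.add (Nat.add (Nat.add (Nat.add (Nat.add (Nat.add C x33234) x41982) x46842) x46518) x46302) x46374) x46354) (Nat.mul x46356 (nat_lit 2))) x26674)
    (Nat.add (Nat.add (Nat.add (Nat.add (Nat.add (Nat.add (Nat.add (Nat.add (Nat.add C (Nat.mul x46364 (nat_lit 2))) x33242) x41990) x46850) x46526) x46310) x46346) x46370) x46366)
    (Nat.sub (Nat.add (Nat.add (Nat.add (Nat.add (Nat.add (Nat.add (Nat.add (Nat.add C x33244) x41992) x46852) x46528) x46312) x46348) x46372) x46364) x26684)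
    (Nat.add (Nat.add (Nat.add (Nat.add (Nat.add (Nat.add (Nat.add (Nat.add (Nat.add (Nat.add C x46370) x33248) x41996) x46856) x46532) x46316) x46352) x46388) x46364) x46372)
    (Nat.sub (Nat.add (Nat.add (Nat.add (Nat.add (Nat.add (Nat.add (Nat.add (Nat.add (Nat.add (Nat.add (Nat.add (Nat.add C x46372) x33250) x41998) x46858) x46534) x46318) x46354) x46390) x46366) x46378) x46370) x46374) x26690)
    (Nat.sub (Nat.sub (Nat.add (Nat.add (Nat.add (Nat.add (Nat.add (Nat.add (Nat.add (Nat.add (Nat.add C x33252) x42000) x46860) x46536) x46320) x46356) x46392) x46380) x46372) x46374) x26692)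
    (Nat.sub (Nat.add (Nat.add (Nat.add (Nat.add (Nat.add (Nat.add (Nat.add (Nat.add C x33256) x42004) x46864) x46540) x46324) x46396) x46372) x46380) x26696)
    (Nat.sub (Nat.add (Nat.add (Nat.add (Nat.add (Nat.add (Nat.add (Nat.add (Nat.add C x33258) x42006) x46866) x46542) x46326) x46398) x46374) x46378) x26698)
    (Nat.add (Nat.add (Nat.add (Nat.add (Nat.add (Nat.add (Nat.add C (Nat.mul x46388 (nat_lit 2))) x33266) x42014) x46874) x46550) x46370) x46390)
    (Nat.sub (Nat.add (Nat.add (Nat.add (Nat.add (Nat.add (Nat.add (Nat.add (Nat.add (Nat.add C x46390) x33268) x42016) x46876) x46552) x46372) x46396) x46388) x46392) x26708)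
    (Nat.sub (Nat.sub (Nat.add (Nat.add (Nat.add (Nat.add (Nat.add (Nat.add (Nat.add C x33270) x42018) x46878) x46554) x46374) x46398) x46390) (Nat.mul x46392 (nat_lit 2))) x26710)
    (Nat.sub (Nat.add (Nat.add (Nat.add (Nat.add (Nat.add (Nat.add (Nat.add (Nat.add C (Nat.mul x46396 (nat_lit 2))) x33274) x42022) x46882) x46558) x46378) x46390) x46398) x26714)
    (Nat.sub (Nat.add (Nat.add (Nat.add (Nat.add (Nat.add (Nat.add (Nat.add (Nat.add (Nat.add C x46398) x33276) x42024) x46884) x46560) x46380) x46392) x46404) x46396) x26716)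
    (Nat.sub (Nat.add (Nat.add (Nat.add (Nat.add (Nat.add (Nat.add C (Nat.mul x46404 (nat_lit 2))) x33282) x42030) x46890) x46566) x46398) x26722)
    (Nat.add (Nat.add (Nat.add (Nat.add (Nat.add (Nat.add (Nat.add C (Nat.mul x46430 (nat_lit 2))) x33308) x42056) x46916) x46268) x46448) x46436)
    (Nat.add (Nat.add (Nat.add (Nat.add (Nat.add (Nat.add (Nat.add C x33314) x42062) x46922) x46274) x46454) x46430) x46438)
    (Nat.sub (Nat.add (Nat.add (Nat.add (Nat.add (Nat.add (Nat.add C x33316) x42064) x46924) x46276) x46456) x46436) x26756)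
    (Nat.add (Nat.add (Nat.add (Nat.add (Nat.add (Nat.add (Nat.add C x33326) x42074) x46934) x46286) x46502) x46430) x46454)
    (Nat.add (Nat.add (Nat.add (Nat.add (Nat.add (Nat.add (Nat.add (Nat.add (Nat.add (Nat.add C x33332) x42080) x46940) x46292) x46508) x46436) x46472) x46448) x46460) x46456)
    (Nat.sub (Nat.sub (Nat.add (Nat.add (Nat.add (Nat.add (Nat.add (Nat.add (Nat.add (Nat.add (Nat.add C x33334) x42082) x46942) x46294) x46510) x46438) x46474) x46462) x46454) x46456) x26774)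
    (Nat.sub (Nat.add (Nat.add (Nat.add (Nat.add (Nat.add (Nat.add (Nat.add (Nat.add C x33338) x42086) x46946) x46298) x46514) x46478) x46454) x46462) (Nat.mul x46460 (nat_lit 2)))
    (Nat.sub (Nat.sub (Nat.add (Nat.add (Nat.add (Nat.add (Nat.add (Nat.add (Nat.add (Nat.add (Nat.add C x33340) x42088) x46948) x46300) x46516) x46480) x46456) x46460) x46464) x46462) x26780)
    (Nat.sub (Nat.sub (Nat.add (Nat.add (Nat.add (Nat.add (Nat.add (Nat.add (Nat.add C x33342) x42090) x46950) x46302) x46518) x46482) x46462) (Nat.mul x46464 (nat_lit 2))) x26782)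
    (Nat.sub (Nat.add (Nat.add (Nat.add (Nat.add (Nat.add (Nat.add (Nat.add (Nat.add C x33350) x42098) x46958) x46310) x46526) x46454) x46478) x46474) (Nat.mul x46472 (nat_lit 2)))
    (Nat.sub (Nat.sub (Nat.add (Nat.add (Nat.add (Nat.add (Nat.add (Nat.add (Nat.add (Nat.add C x33352) x42100) x46960) x46312) x46528) x46456) x46480) x46472) (Nat.mul x46474 (nat_lit 4))) x26792)
    (Nat.sub (Nat.add (Nat.add (Nat.add (Nat.add (Nat.add (Nat.add (Nat.add (Nat.add C x33356) x42104) x46964) x46316) x46532) x46460) x46472) x46480) (Nat.mul x46478 (nat_lit 2)))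
    (Nat.sub (Nat.sub (Nat.add (Nat.add (Nat.add (Nat.add (Nat.add (Nat.add (Nat.add (Nat.add (Nat.add (Nat.add C x33358) x42106) x46966) x46318) x46534) x46462) x46474) x46486) x46478) x46482) (Nat.mul x46480 (nat_lit 2))) x26798)
    (Nat.sub (Nat.sub (Nat.add (Nat.add (Nat.add (Nat.add (Nat.add (Nat.add (Nat.add (Nat.add C x33360) x42108) x46968) x46320) x46536) x46464) x46488) x46480) (Nat.mul x46482 (nat_lit 4))) x26800)
    (Nat.sub (Nat.sub (Nat.add (Nat.add (Nat.add (Nat.add (Nat.add (Nat.add (Nat.add C x33364) x42112) x46972) x46324) x46540) x46480) x46488) (Nat.mul x46486 (nat_lit 2))) x26804)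
    (Nat.sub (Nat.sub (Nat.add (Nat.add (Nat.add (Nat.add (Nat.add (Nat.add (Nat.add C x33366) x42114) x46974) x46326) x46542) x46482) x46486) (Nat.mul x46488 (nat_lit 2))) x26806)
    (Nat.add (Nat.add (Nat.add (Nat.add (Nat.add (Nat.add (Nat.add C (Nat.mul x46502 (nat_lit 2))) x33380) x42128) x46988) x46340) x46448) x46508)
    (Nat.add (Nat.add (Nat.add (Nat.add (Nat.add (Nat.add (Nat.add (Nat.add (Nat.add (Nat.add C x46508) x33386) x42134) x46994) x46346) x46454) x46526) x46502) x46514) x46510)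
    (Nat.sub (Nat.add (Nat.add (Nat.add (Nat.add (Nat.add (Nat.add (Nat.add (Nat.add C x33388) x42136) x46996) x46348) x46456) x46528) x46516) x46508) x26828)
    (Nat.sub (Nat.add (Nat.add (Nat.add (Nat.add (Nat.add (Nat.add (Nat.add (Nat.add C x33392) x42140) x47000) x46352) x46460) x46532) x46508) x46516) (Nat.mul x46514 (nat_lit 2)))
    (Nat.sub (Nat.sub (Nat.add (Nat.add (Nat.add (Nat.add (Nat.add (Nat.add (Nat.add (Nat.add (Nat.add C x33394) x42142) x47002) x46354) x46462) x46534) x46510) x46514) x46518) x46516) x26834)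
    (Nat.sub (Nat.sub (Nat.add (Nat.add (Nat.add (Nat.add (Nat.add (Nat.add (Nat.add C x33396) x42144) x47004) x46356) x46464) x46536) x46516) (Nat.mul x46518 (nat_lit 2))) x26836)
    (Nat.add (Nat.add (Nat.add (Nat.add (Nat.add (Nat.add (Nat.add (Nat.add (Nat.add (Nat.add C x46526) x33404) x42152) x47012) x46364) x46472) x46580) x46508) x46532) x46528)
    (Nat.sub (Nat.sub (Nat.add (Nat.add (Nat.add (Nat.add (Nat.add (Nat.add (Nat.add (Nat.add (Nat.add C x33406) x42154) x47014) x46366) x46474) x46582) x46510) x46534) x46526) x46528) x26846)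
    (Nat.add (Nat.add (Nat.add (Nat.add (Nat.add (Nat.add (Nat.add (Nat.add (Nat.add (Nat.add C x33410) x42158) x47018) x46370) x46478) x46586) x46514) x46550) x46526) x46534)
    (Nat.sub (Nat.add (Nat.add (Nat.add (Nat.add (Nat.add (Nat.add (Nat.add (Nat.add (Nat.add (Nat.add (Nat.add (Nat.add C x33412) x42160) x47020) x46372) x46480) x46588) x46516) x46552) x46528) x46540) x46532) x46536) x26852)
    (Nat.sub (Nat.sub (Nat.add (Nat.add (Nat.add (Nat.add (Nat.add (Nat.add (Nat.add (Nat.add (Nat.add (Nat.add C x33414) x42162) x47022) x46374) x46482) x46590) x46518) x46554) x46542) x46534) (Nat.mul x46536 (nat_lit 2))) x26854)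
    (Nat.sub (Nat.sub (Nat.add (Nat.add (Nat.add (Nat.add (Nat.add (Nat.add (Nat.add (Nat.add (Nat.add C x33418) x42166) x47026) x46378) x46486) x46594) x46558) x46534) x46542) x46540) x26858)
    (Nat.sub (Nat.sub (Nat.add (Nat.add (Nat.add (Nat.add (Nat.add (Nat.add (Nat.add (Nat.add (Nat.add C x33420) x42168) x47028) x46380) x46488) x46596) x46560) x46536) x46540) x46542) x26860)
    (Nat.add (Nat.add (Nat.add (Nat.add (Nat.add (Nat.add (Nat.add C x33428) x42176) x47036) x46388) x46604) x46532) x46552)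
    (Nat.sub (Nat.sub (Nat.add (Nat.add (Nat.add (Nat.add (Nat.add (Nat.add (Nat.add (Nat.add (Nat.add C x33430) x42178) x47038) x46390) x46606) x46534) x46558) x46550) x46554) x46552) x26870)
    (Nat.sub (Nat.sub (Nat.add (Nat.add (Nat.add (Nat.add (Nat.add (Nat.add (Nat.add (Nat.add C x33432) x42180) x47040) x46392) x46608) x46536) x46560) x46552) (Nat.mul x46554 (nat_lit 4))) x26872)
    (Nat.sub (Nat.add (Nat.add (Nat.add (Nat.add (Nat.add (Nat.add (Nat.add (Nat.add C x33436) x42184) x47044) x46396) x46612) x46540) x46552) x46560) x26876)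
    (Nat.sub (Nat.sub (Nat.add (Nat.add (Nat.add (Nat.add (Nat.add (Nat.add (Nat.add (Nat.add (Nat.add C x33438) x42186) x47046) x46398) x46614) x46542) x46554) x46566) x46558) x46560) x26878)
    (Nat.sub (Nat.add (Nat.add (Nat.add (Nat.add (Nat.add (Nat.add C x33444) x42192) x47052) x46404) x46620) x46560) x26884)
    (Nat.add (Nat.add (Nat.add (Nat.add (Nat.add (Nat.add (Nat.add C (Nat.mul x46580 (nat_lit 2))) x33458) x42206) x47066) x46526) x46586) x46582)
    (Nat.sub (Nat.add (Nat.add (Nat.add (Nat.add (Nat.add (Nat.add C x33460) x42208) x47068) x46528) x46588) x46580) x26900)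
    (Nat.add (Nat.add (Nat.add (Nat.add (Nat.add (Nat.add (Nat.add C x33464) x42212) x47072) x46532) x46604) x46580) x46588)
    (Nat.sub (Nat.add (Nat.add (Nat.add (Nat.add (Nat.add (Nat.add (Nat.add (Nat.add (Nat.add C x33466) x42214) x47074) x46534) x46606) x46582) x46594) x46586) x46590) x26906)
    (Nat.sub (Nat.sub (Nat.add (Nat.add (Nat.add (Nat.add (Nat.add (Nat.add (Nat.add C x33468) x42216) x47076) x46536) x46608) x46596) x46588) (Nat.mul x46590 (nat_lit 2))) x26908)
    (Nat.sub (Nat.sub (Nat.add (Nat.add (Nat.add (Nat.add (Nat.add (Nat.add (Nat.add C x33472) x42220) x47080) x46540) x46612) x46588) x46596) (Nat.mul x46594 (nat_lit 2))) x26912)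
    (Nat.sub (Nat.sub (Nat.add (Nat.add (Nat.add (Nat.add (Nat.add (Nat.add (Nat.add C x33474) x42222) x47082) x46542) x46614) x46590) x46594) (Nat.mul x46596 (nat_lit 2))) x26914)
    (Nat.add (Nat.add (Nat.add (Nat.add (Nat.add (Nat.add (Nat.add C (Nat.mul x46604 (nat_lit 2))) x33482) x42230) x47090) x46550) x46586) x46606)
    (Nat.sub (Nat.add (Nat.add (Nat.add (Nat.add (Nat.add (Nat.add (Nat.add (Nat.add (Nat.add C x46606) x33484) x42232) x47092) x46552) x46588) x46612) x46604) x46608) x26924)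
    (Nat.sub (Nat.sub (Nat.add (Nat.add (Nat.add (Nat.add (Nat.add (Nat.add (Nat.add C x33486) x42234) x47094) x46554) x46590) x46614) x46606) (Nat.mul x46608 (nat_lit 2))) x26926)
    (Nat.sub (Nat.add (Nat.add (Nat.add (Nat.add (Nat.add (Nat.add (Nat.add (Nat.add (Nat.add C x46612) x33490) x42238) x47098) x46558) x46594) x46630) x46606) x46614) x26930)
    (Nat.sub (Nat.add (Nat.add (Nat.add (Nat.add (Nat.add (Nat.add (Nat.add (Nat.add (Nat.add C x33492) x42240) x47100) x46560) x46596) x46632) x46608) x46620) x46612) x26932)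
    (Nat.sub (Nat.add (Nat.add (Nat.add (Nat.add (Nat.add (Nat.add C x33498) x42246) x47106) x46566) x46638) x46614) x26938)
    (Nat.sub (Nat.add (Nat.add (Nat.add (Nat.add (Nat.add (Nat.add C (Nat.mul x46630 (nat_lit 2))) x33508) x42256) x47116) x46612) x46632) x26948)
    (Nat.sub (Nat.add (Nat.add (Nat.add (Nat.add (Nat.add (Nat.add C x33510) x42258) x47118) x46614) x46638) x46630) x26950)
    (Nat.sub (Nat.add (Nat.add (Nat.add (Nat.add (Nat.add (Nat.add C (Nat.mul x46638 (nat_lit 2))) x33516) x42264) x47124) x46620) x46632) x26956)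
    (Nat.add (Nat.add (Nat.add (Nat.add (Nat.add (Nat.add C (Nat.mul x46682 (nat_lit 4))) x33560) x42308) x48140) x46196) x46700)
    (Nat.add (Nat.add (Nat.add (Nat.add (Nat.add (Nat.add (Nat.add (Nat.add (Nat.add C (Nat.mul x46700 (nat_lit 3))) x33578) x42326) x48158) x46214) x46754) x46682) x46718) x46706)
    (Nat.add (Nat.add (Nat.add (Nat.add (Nat.add (Nat.add (Nat.add (Nat.add (Nat.add C (Nat.mul x46706 (nat_lit 2))) x33584) x42332) x48164) x46220) x46760) x46724) x46700) x46708)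
    (Nat.sub (Nat.add (Nat.add (Nat.add (Nat.add (Nat.add (Nat.add (Nat.add (Nat.add C (Nat.mul x46708 (nat_lit 2))) x33586) x42334) x48166) x46222) x46762) x46726) x46706) x27026)
    (Nat.add (Nat.add (Nat.add (Nat.add (Nat.add (Nat.add (Nat.add C x33596) x42344) x48176) x46232) x46772) x46700) x46724)
    (Nat.add (Nat.add (Nat.add (Nat.add (Nat.add (Nat.add (Nat.add (Nat.add (Nat.add (Nat.add C x46724) x33602) x42350) x48182) x46238) x46778) x46706) x46718) x46730) x46726)
    (Nat.sub (Nat.add (Nat.add (Nat.add (Nat.add (Nat.add (Nat.add (Nat.add (Nat.add C x33604) x42352) x48184) x46240) x46780) x46708) x46732) x46724) x27044)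
    (Nat.add (Nat.add (Nat.add (Nat.add (Nat.add (Nat.add (Nat.add C x33608) x42356) x48188) x46244) x46784) x46724) x46732)
    (Nat.sub (Nat.add (Nat.add (Nat.add (Nat.add (Nat.add (Nat.add (Nat.add (Nat.add (Nat.add C x46732) x33610) x42358) x48190) x46246) x46786) x46726) x46730) x46734) x27050)
    (Nat.sub (Nat.add (Nat.add (Nat.add (Nat.add (Nat.add (Nat.add C x33612) x42360) x48192) x46248) x46788) x46732) x27052)
    (Nat.add (Nat.add (Nat.add (Nat.add (Nat.add (Nat.add (Nat.add (Nat.add (Nat.add C (Nat.mul x46754 (nat_lit 2))) x33632) x42380) x48212) x46268) x46916) x46700) x46772) x46760)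
    (Nat.add (Nat.add (Nat.add (Nat.add (Nat.add (Nat.add (Nat.add (Nat.add (Nat.add C x33638) x42386) x48218) x46274) x46922) x46706) x46778) x46754) x46762)
    (Nat.sub (Nat.add (Nat.add (Nat.add (Nat.add (Nat.add (Nat.add (Nat.add (Nat.add C x33640) x42388) x48220) x46276) x46924) x46708) x46780) x46760) x27080)
    (Nat.add (Nat.add (Nat.add (Nat.add (Nat.add (Nat.add (Nat.add (Nat.add (Nat.add (Nat.add C x46772) x33650) x42398) x48230) x46286) x46934) x46718) x46826) x46754) x46778)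
    (Nat.add (Nat.add (Nat.add (Nat.add (Nat.add (Nat.add (Nat.add (Nat.add (Nat.add (Nat.add (Nat.add (Nat.add (Nat.add C x46778) x33656) x42404) x48236) x46292) x46940) x46724) x46832) x46760) x46796) x46772) x46784) x46780)
    (Nat.sub (Nat.add (Nat.add (Nat.add (Nat.add (Nat.add (Nat.add (Nat.add (Nat.add (Nat.add (Nat.add (Nat.add C x33658) x42406) x48238) x46294) x46942) x46726) x46834) x46762) x46798) x46786) x46778) x27098)
    (Nat.sub (Nat.add (Nat.add (Nat.add (Nat.add (Nat.add (Nat.add (Nat.add (Nat.add (Nat.add (Nat.add C x33662) x42410) x48242) x46298) x46946) x46730) x46838) x46802) x46778) x46786) x46784)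
    (Nat.sub (Nat.add (Nat.add (Nat.add (Nat.add (Nat.add (Nat.add (Nat.add (Nat.add (Nat.add (Nat.add (Nat.add C x33664) x42412) x48244) x46300) x46948) x46732) x46840) x46804) x46780) x46784) x46788) x27104)
    (Nat.sub (Nat.sub (Nat.add (Nat.add (Nat.add (Nat.add (Nat.add (Nat.add (Nat.add (Nat.add (Nat.add C x33666) x42414) x48246) x46302) x46950) x46734) x46842) x46806) x46786) x46788) x27106)
    (Nat.add (Nat.add (Nat.add (Nat.add (Nat.add (Nat.add (Nat.add (Nat.add (Nat.add C x33674) x42422) x48254) x46310) x46958) x46850) x46778) x46802) x46798)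
    (Nat.sub (Nat.sub (Nat.add (Nat.add (Nat.add (Nat.add (Nat.add (Nat.add (Nat.add (Nat.add (Nat.add C x33676) x42424) x48256) x46312) x46960) x46852) x46780) x46804) x46796) (Nat.mul x46798 (nat_lit 2))) x27116)
    (Nat.add (Nat.add (Nat.add (Nat.add (Nat.add (Nat.add (Nat.add (Nat.add (Nat.add C x33680) x42428) x48260) x46316) x46964) x46856) x46784) x46796) x46804)
    (Nat.sub (Nat.add (Nat.add (Nat.add (Nat.add (Nat.add (Nat.add (Nat.add (Nat.add (Nat.add (Nat.add (Nat.add C x33682) x42430) x48262) x46318) x46966) x46858) x46786) x46798) x46810) x46802) x46806) x27122)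
    (Nat.sub (Nat.sub (Nat.add (Nat.add (Nat.add (Nat.add (Nat.add (Nat.add (Nat.add (Nat.add (Nat.add C x33684) x42432) x48264) x46320) x46968) x46860) x46788) x46812) x46804) (Nat.mul x46806 (nat_lit 2))) x27124)
    (Nat.sub (Nat.add (Nat.add (Nat.add (Nat.add (Nat.add (Nat.add (Nat.add (Nat.add C x33688) x42436) x48268) x46324) x46972) x46864) x46804) x46812) x27128)
    (Nat.sub (Nat.add (Nat.add (Nat.add (Nat.add (Nat.add (Nat.add (Nat.add (Nat.add C x33690) x42438) x48270) x46326) x46974) x46866) x46806) x46810) x27130)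
    (Nat.add (Nat.add (Nat.add (Nat.add (Nat.add (Nat.add (Nat.add C x33704) x42452) x48284) x46340) x46988) x46772) x46832)
    (Nat.sub (Nat.add (Nat.add (Nat.add (Nat.add (Nat.add (Nat.add (Nat.add (Nat.add (Nat.add (Nat.add C x33710) x42458) x48290) x46346) x46994) x46778) x46850) x46826) x46838) x46834) x46832)
    (Nat.sub (Nat.sub (Nat.add (Nat.add (Nat.add (Nat.add (Nat.add (Nat.add (Nat.add (Nat.add (Nat.add C x33712) x42460) x48292) x46348) x46996) x46780) x46852) x46840) x46832) (Nat.mul x46834 (nat_lit 2))) x27152)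
    (Nat.sub (Nat.add (Nat.add (Nat.add (Nat.add (Nat.add (Nat.add (Nat.add (Nat.add (Nat.add C x33716) x42464) x48296) x46352) x47000) x46784) x46856) x46832) x46840) (Nat.mul x46838 (nat_lit 4)))
    (Nat.sub (Nat.sub (Nat.add (Nat.add (Nat.add (Nat.add (Nat.add (Nat.add (Nat.add (Nat.add (Nat.add (Nat.add C x33718) x42466) x48298) x46354) x47002) x46786) x46858) x46834) x46838) x46842) (Nat.mul x46840 (nat_lit 3))) x27158)
    (Nat.sub (Nat.sub (Nat.add (Nat.add (Nat.add (Nat.add (Nat.add (Nat.add (Nat.add (Nat.add C x33720) x42468) x48300) x46356) x47004) x46788) x46860) x46840) (Nat.mul x46842 (nat_lit 4))) x27160)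
    (Nat.add (Nat.add (Nat.add (Nat.add (Nat.add (Nat.add (Nat.add (Nat.add (Nat.add C x33728) x42476) x48308) x46364) x47012) x46796) x46832) x46856) x46852)
    (Nat.sub (Nat.sub (Nat.add (Nat.add (Nat.add (Nat.add (Nat.add (Nat.add (Nat.add (Nat.add (Nat.add C x33730) x42478) x48310) x46366) x47014) x46798) x46834) x46858) x46850) (Nat.mul x46852 (nat_lit 2))) x27170)
    (Nat.sub (Nat.add (Nat.add (Nat.add (Nat.add (Nat.add (Nat.add (Nat.add (Nat.add (Nat.add (Nat.add C x33734) x42482) x48314) x46370) x47018) x46802) x46838) x46874) x46850) x46858) x46856)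
    (Nat.sub (Nat.sub (Nat.add (Nat.add (Nat.add (Nat.add (Nat.add (Nat.add (Nat.add (Nat.add (Nat.add (Nat.add (Nat.add (Nat.add C x33736) x42484) x48316) x46372) x47020) x46804) x46840) x46876) x46852) x46864) x46856) x46860) x46858) x27176)
    (Nat.sub (Nat.sub (Nat.add (Nat.add (Nat.add (Nat.add (Nat.add (Nat.add (Nat.add (Nat.add (Nat.add (Nat.add C x33738) x42486) x48318) x46374) x47022) x46806) x46842) x46878) x46866) x46858) (Nat.mul x46860 (nat_lit 3))) x27178)
    (Nat.sub (Nat.sub (Nat.add (Nat.add (Nat.add (Nat.add (Nat.add (Nat.add (Nat.add (Nat.add (Nat.add C x33742) x42490) x48322) x46378) x47026) x46810) x46882) x46858) x46866) (Nat.mul x46864 (nat_lit 2))) x27182)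
    (Nat.sub (Nat.sub (Nat.add (Nat.add (Nat.add (Nat.add (Nat.add (Nat.add (Nat.add (Nat.add (Nat.add C x33744) x42492) x48324) x46380) x47028) x46812) x46884) x46860) x46864) (Nat.mul x46866 (nat_lit 2))) x27184)
    (Nat.add (Nat.add (Nat.add (Nat.add (Nat.add (Nat.add (Nat.add C x33752) x42500) x48332) x46388) x47036) x46856) x46876)
    (Nat.sub (Nat.sub (Nat.add (Nat.add (Nat.add (Nat.add (Nat.add (Nat.add (Nat.add (Nat.add (Nat.add C x33754) x42502) x48334) x46390) x47038) x46858) x46882) x46874) x46878) x46876) x27194)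
    (Nat.sub (Nat.sub (Nat.add (Nat.add (Nat.add (Nat.add (Nat.add (Nat.add (Nat.add (Nat.add C x33756) x42504) x48336) x46392) x47040) x46860) x46884) x46876) (Nat.mul x46878 (nat_lit 4))) x27196)
    (Nat.sub (Nat.add (Nat.add (Nat.add (Nat.add (Nat.add (Nat.add (Nat.add (Nat.add C x33760) x42508) x48340) x46396) x47044) x46864) x46876) x46884) x27200)
    (Nat.sub (Nat.sub (Nat.add (Nat.add (Nat.add (Nat.add (Nat.add (Nat.add (Nat.add (Nat.add (Nat.add C x33762) x42510) x48342) x46398) x47046) x46866) x46878) x46890) x46882) x46884) x27202)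
    (Nat.sub (Nat.add (Nat.add (Nat.add (Nat.add (Nat.add (Nat.add C x33768) x42516) x48348) x46404) x47052) x46884) x27208)
    (Nat.add (Nat.add (Nat.add (Nat.add (Nat.add (Nat.add (Nat.add (Nat.add (Nat.add C (Nat.mul x46916 (nat_lit 3))) x33794) x42542) x48374) x46430) x47402) x46754) x46934) x46922)
    (Nat.add (Nat.add (Nat.add (Nat.add (Nat.add (Nat.add (Nat.add (Nat.add (Nat.add (Nat.add C x46922) x33800) x42548) x48380) x46436) x47408) x46760) x46940) x46916) x46924)
    (Nat.sub (Nat.add (Nat.add (Nat.add (Nat.add (Nat.add (Nat.add (Nat.add (Nat.add (Nat.add C x46924) x33802) x42550) x48382) x46438) x47410) x46762) x46942) x46922) x27242)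
    (Nat.add (Nat.add (Nat.add (Nat.add (Nat.add (Nat.add (Nat.add (Nat.add (Nat.add (Nat.add C x46934) x33812) x42560) x48392) x46448) x47420) x46772) x46988) x46916) x46940)
    (Nat.add (Nat.add (Nat.add (Nat.add (Nat.add (Nat.add (Nat.add (Nat.add (Nat.add (Nat.add (Nat.add (Nat.add (Nat.add C x46940) x33818) x42566) x48398) x46454) x47426) x46778) x46994) x46922) x46958) x46934) x46946) x46942)
    (Nat.sub (Nat.add (Nat.add (Nat.add (Nat.add (Nat.add (Nat.add (Nat.add (Nat.add (Nat.add (Nat.add (Nat.add C x33820) x42568) x48400) x46456) x47428) x46780) x46996) x46924) x46960) x46948) x46940) x27260)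
    (Nat.sub (Nat.add (Nat.add (Nat.add (Nat.add (Nat.add (Nat.add (Nat.add (Nat.add (Nat.add (Nat.add C x33824) x42572) x48404) x46460) x47432) x46784) x47000) x46964) x46940) x46948) x46946)
    (Nat.sub (Nat.add (Nat.add (Nat.add (Nat.add (Nat.add (Nat.add (Nat.add (Nat.add (Nat.add (Nat.add (Nat.add C x33826) x42574) x48406) x46462) x47434) x46786) x47002) x46966) x46942) x46946) x46950) x27266)
    (Nat.sub (Nat.sub (Nat.add (Nat.add (Nat.add (Nat.add (Nat.add (Nat.add (Nat.add (Nat.add (Nat.add C x33828) x42576) x48408) x46464) x47436) x46788) x47004) x46968) x46948) x46950) x27268)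
    (Nat.sub (Nat.add (Nat.add (Nat.add (Nat.add (Nat.add (Nat.add (Nat.add (Nat.add (Nat.add (Nat.add C x33836) x42584) x48416) x46472) x47444) x46796) x47012) x46940) x46964) x46960) x46958)
    (Nat.sub (Nat.sub (Nat.add (Nat.add (Nat.add (Nat.add (Nat.add (Nat.add (Nat.add (Nat.add (Nat.add (Nat.add C x33838) x42586) x48418) x46474) x47446) x46798) x47014) x46942) x46966) x46958) (Nat.mul x46960 (nat_lit 3))) x27278)
    (Nat.sub (Nat.add (Nat.add (Nat.add (Nat.add (Nat.add (Nat.add (Nat.add (Nat.add (Nat.add (Nat.add C x33842) x42590) x48422) x46478) x47450) x46802) x47018) x46946) x46958) x46966) x46964)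
    (Nat.sub (Nat.sub (Nat.add (Nat.add (Nat.add (Nat.add (Nat.add (Nat.add (Nat.add (Nat.add (Nat.add (Nat.add (Nat.add (Nat.add C x33844) x42592) x48424) x46480) x47452) x46804) x47020) x46948) x46960) x46972) x46964) x46968) x46966) x27284)
    (Nat.sub (Nat.sub (Nat.add (Nat.add (Nat.add (Nat.add (Nat.add (Nat.add (Nat.add (Nat.add (Nat.add (Nat.add C x33846) x42594) x48426) x46482) x47454) x46806) x47022) x46950) x46974) x46966) (Nat.mul x46968 (nat_lit 3))) x27286)
    (Nat.sub (Nat.sub (Nat.add (Nat.add (Nat.add (Nat.add (Nat.add (Nat.add (Nat.add (Nat.add (Nat.add C x33850) x42598) x48430) x46486) x47458) x46810) x47026) x46966) x46974) x46972) x27290)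
    (Nat.sub (Nat.sub (Nat.add (Nat.add (Nat.add (Nat.add (Nat.add (Nat.add (Nat.add (Nat.add (Nat.add C x33852) x42600) x48432) x46488) x47460) x46812) x47028) x46968) x46972) x46974) x27292)
    (Nat.add (Nat.add (Nat.add (Nat.add (Nat.add (Nat.add (Nat.add (Nat.add (Nat.add (Nat.add C (Nat.mul x46988 (nat_lit 2))) x33866) x42614) x48446) x46502) x47474) x46826) x47150) x46934) x46994)
    (Nat.add (Nat.add (Nat.add (Nat.add (Nat.add (Nat.add (Nat.add (Nat.add (Nat.add (Nat.add (Nat.add (Nat.add (Nat.add C x46994) x33872) x42620) x48452) x46508) x47480) x46832) x47156) x46940) x47012) x46988) x47000) x46996)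
    (Nat.sub (Nat.add (Nat.add (Nat.add (Nat.add (Nat.add (Nat.add (Nat.add (Nat.add (Nat.add (Nat.add (Nat.add C x33874) x42622) x48454) x46510) x47482) x46834) x47158) x46942) x47014) x47002) x46994) x27314)
    (Nat.sub (Nat.add (Nat.add (Nat.add (Nat.add (Nat.add (Nat.add (Nat.add (Nat.add (Nat.add (Nat.add (Nat.add C x33878) x42626) x48458) x46514) x47486) x46838) x47162) x46946) x47018) x46994) x47002) (Nat.mul x47000 (nat_lit 2)))
    (Nat.sub (Nat.sub (Nat.add (Nat.add (Nat.add (Nat.add (Nat.add (Nat.add (Nat.add (Nat.add (Nat.add (Nat.add (Nat.add (Nat.add C x33880) x42628) x48460) x46516) x47488) x46840) x47164) x46948) x47020) x46996) x47000) x47004) x47002) x27320)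
    (Nat.sub (Nat.sub (Nat.add (Nat.add (Nat.add (Nat.add (Nat.add (Nat.add (Nat.add (Nat.add (Nat.add (Nat.add C x33882) x42630) x48462) x46518) x47490) x46842) x47166) x46950) x47022) x47002) (Nat.mul x47004 (nat_lit 2))) x27322)
    (Nat.add (Nat.add (Nat.add (Nat.add (Nat.add (Nat.add (Nat.add (Nat.add (Nat.add (Nat.add (Nat.add (Nat.add (Nat.add C x47012) x33890) x42638) x48470) x46526) x47498) x46850) x47174) x46958) x47066) x46994) x47018) x47014)
    (Nat.sub (Nat.sub (Nat.add (Nat.add (Nat.add (Nat.add (Nat.add (Nat.add (Nat.add (Nat.add (Nat.add (Nat.add (Nat.add (Nat.add C x33892) x42640) x48472) x46528) x47500) x46852) x47176) x46960) x47068) x46996) x47020) x47012) x47014) x27332)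
    (Nat.add (Nat.add (Nat.add (Nat.add (Nat.add (Nat.add (Nat.add (Nat.add (Nat.add (Nat.add (Nat.add (Nat.add (Nat.add C x33896) x42644) x48476) x46532) x47504) x46856) x47180) x46964) x47072) x47000) x47036) x47012) x47020)
    (Nat.sub (Nat.add (Nat.add (Nat.add (Nat.add (Nat.add (Nat.add (Nat.add (Nat.add (Nat.add (Nat.add (Nat.add (Nat.add (Nat.add (Nat.add (Nat.add C x33898) x42646) x48478) x46534) x47506) x46858) x47182) x46966) x47074) x47002) x47038) x47014) x47026) x47018) x47022) x27338)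
    (Nat.sub (Nat.sub (Nat.add (Nat.add (Nat.add (Nat.add (Nat.add (Nat.add (Nat.add (Nat.add (Nat.add (Nat.add (Nat.add (Nat.add (Nat.add C x33900) x42648) x48480) x46536) x47508) x46860) x47184) x46968) x47076) x47004) x47040) x47028) x47020) (Nat.mul x47022 (nat_lit 2))) x27340)
    (Nat.sub (Nat.sub (Nat.add (Nat.add (Nat.add (Nat.add (Nat.add (Nat.add (Nat.add (Nat.add (Nat.add (Nat.add (Nat.add (Nat.add C x33904) x42652) x48484) x46540) x47512) x46864) x47188) x46972) x47080) x47044) x47020) x47028) x47026) x27344)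
    (Nat.sub (Nat.sub (Nat.add (Nat.add (Nat.add (Nat.add (Nat.add (Nat.add (Nat.add (Nat.add (Nat.add (Nat.add (Nat.add (Nat.add C x33906) x42654) x48486) x46542) x47514) x46866) x47190) x46974) x47082) x47046) x47022) x47026) x47028) x27346)
    (Nat.add (Nat.add (Nat.add (Nat.add (Nat.add (Nat.add (Nat.add (Nat.add (Nat.add (Nat.add C x33914) x42662) x48494) x46550) x47522) x46874) x47198) x47090) x47018) x47038)
    (Nat.sub (Nat.sub (Nat.add (Nat.add (Nat.add (Nat.add (Nat.add (Nat.add (Nat.add (Nat.add (Nat.add (Nat.add (Nat.add (Nat.add C x33916) x42664) x48496) x46552) x47524) x46876) x47200) x47092) x47020) x47044) x47036) x47040) x47038) x27356)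
    (Nat.sub (Nat.sub (Nat.add (Nat.add (Nat.add (Nat.add (Nat.add (Nat.add (Nat.add (Nat.add (Nat.add (Nat.add (Nat.add C x33918) x42666) x48498) x46554) x47526) x46878) x47202) x47094) x47022) x47046) x47038) (Nat.mul x47040 (nat_lit 4))) x27358)
    (Nat.sub (Nat.add (Nat.add (Nat.add (Nat.add (Nat.add (Nat.add (Nat.add (Nat.add (Nat.add (Nat.add (Nat.add C x33922) x42670) x48502) x46558) x47530) x46882) x47206) x47098) x47026) x47038) x47046) x27362)
    (Nat.sub (Nat.sub (Nat.add (Nat.add (Nat.add (Nat.add (Nat.add (Nat.add (Nat.add (Nat.add (Nat.add (Nat.add (Nat.add (Nat.add C x33924) x42672) x48504) x46560) x47532) x46884) x47208) x47100) x47028) x47040) x47052) x47044) x47046) x27364)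
    (Nat.sub (Nat.add (Nat.add (Nat.add (Nat.add (Nat.add (Nat.add (Nat.add (Nat.add (Nat.add C x33930) x42678) x48510) x46566) x47538) x46890) x47214) x47106) x47046) x27370)
    (Nat.add (Nat.add (Nat.add (Nat.add (Nat.add (Nat.add (Nat.add (Nat.add (Nat.add (Nat.add C x47066) x33944) x42692) x48524) x46580) x47552) x47228) x47012) x47072) x47068)
    (Nat.sub (Nat.sub (Nat.add (Nat.add (Nat.add (Nat.add (Nat.add (Nat.add (Nat.add (Nat.add (Nat.add C x33946) x42694) x48526) x46582) x47554) x47230) x47014) x47074) x47066) x47068) x27386)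
    (Nat.sub (Nat.add (Nat.add (Nat.add (Nat.add (Nat.add (Nat.add (Nat.add (Nat.add (Nat.add (Nat.add C x33950) x42698) x48530) x46586) x47558) x47234) x47018) x47090) x47066) x47074) x47072)
    (Nat.sub (Nat.sub (Nat.add (Nat.add (Nat.add (Nat.add (Nat.add (Nat.add (Nat.add (Nat.add (Nat.add (Nat.add (Nat.add (Nat.add C x33952) x42700) x48532) x46588) x47560) x47236) x47020) x47092) x47068) x47080) x47072) x47076) x47074) x27392)
    (Nat.sub (Nat.sub (Nat.add (Nat.add (Nat.add (Nat.add (Nat.add (Nat.add (Nat.add (Nat.add (Nat.add (Nat.add C x33954) x42702) x48534) x46590) x47562) x47238) x47022) x47094) x47082) x47074) (Nat.mul x47076 (nat_lit 3))) x27394)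
    (Nat.sub (Nat.sub (Nat.add (Nat.add (Nat.add (Nat.add (Nat.add (Nat.add (Nat.add (Nat.add (Nat.add (Nat.add C x33958) x42706) x48538) x46594) x47566) x47242) x47026) x47098) x47074) x47082) (Nat.mul x47080 (nat_lit 3))) x27398)
    (Nat.sub (Nat.sub (Nat.add (Nat.add (Nat.add (Nat.add (Nat.add (Nat.add (Nat.add (Nat.add (Nat.add (Nat.add C x33960) x42708) x48540) x46596) x47568) x47244) x47028) x47100) x47076) x47080) (Nat.mul x47082 (nat_lit 3))) x27400)
    (Nat.add (Nat.add (Nat.add (Nat.add (Nat.add (Nat.add (Nat.add (Nat.add (Nat.add (Nat.add C x47090) x33968) x42716) x48548) x46604) x47576) x47252) x47036) x47072) x47092)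
    (Nat.sub (Nat.add (Nat.add (Nat.add (Nat.add (Nat.add (Nat.add (Nat.add (Nat.add (Nat.add (Nat.add (Nat.add C x33970) x42718) x48550) x46606) x47578) x47254) x47038) x47074) x47098) x47090) x47094) x27410)
    (Nat.sub (Nat.sub (Nat.add (Nat.add (Nat.add (Nat.add (Nat.add (Nat.add (Nat.add (Nat.add (Nat.add (Nat.add C x33972) x42720) x48552) x46608) x47580) x47256) x47040) x47076) x47100) x47092) (Nat.mul x47094 (nat_lit 3))) x27412)
    (Nat.sub (Nat.add (Nat.add (Nat.add (Nat.add (Nat.add (Nat.add (Nat.add (Nat.add (Nat.add (Nat.add (Nat.add C x33976) x42724) x48556) x46612) x47584) x47260) x47044) x47080) x47116) x47092) x47100) x27416)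
    (Nat.sub (Nat.sub (Nat.add (Nat.add (Nat.add (Nat.add (Nat.add (Nat.add (Nat.add (Nat.add (Nat.add (Nat.add (Nat.add (Nat.add C x33978) x42726) x48558) x46614) x47586) x47262) x47046) x47082) x47118) x47094) x47106) x47098) x47100) x27418)
    (Nat.sub (Nat.sub (Nat.add (Nat.add (Nat.add (Nat.add (Nat.add (Nat.add (Nat.add (Nat.add (Nat.add C x33984) x42732) x48564) x46620) x47592) x47268) x47052) x47124) x47100) x47106) x27424)
    (Nat.sub (Nat.add (Nat.add (Nat.add (Nat.add (Nat.add (Nat.add (Nat.add (Nat.add (Nat.add C x47116) x33994) x42742) x48574) x46630) x47602) x47278) x47098) x47118) x27434)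
    (Nat.sub (Nat.sub (Nat.add (Nat.add (Nat.add (Nat.add (Nat.add (Nat.add (Nat.add (Nat.add (Nat.add C x33996) x42744) x48576) x46632) x47604) x47280) x47100) x47124) x47116) x47118) x27436)
    (Nat.sub (Nat.add (Nat.add (Nat.add (Nat.add (Nat.add (Nat.add (Nat.add (Nat.add (Nat.add C x47124) x34002) x42750) x48582) x46638) x47610) x47286) x47106) x47118) x27442)
    (Nat.add (Nat.add (Nat.add (Nat.add (Nat.add (Nat.add (Nat.add C (Nat.mul x47150 (nat_lit 2))) x34028) x42776) x48608) x47636) x46988) x47156)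
    (Nat.add (Nat.add (Nat.add (Nat.add (Nat.add (Nat.add (Nat.add (Nat.add (Nat.add (Nat.add C x47156) x34034) x42782) x48614) x47642) x46994) x47174) x47150) x47162) x47158)
    (Nat.sub (Nat.add (Nat.add (Nat.add (Nat.add (Nat.add (Nat.add (Nat.add (Nat.add C x34036) x42784) x48616) x47644) x46996) x47176) x47164) x47156) x27476)
    (Nat.sub (Nat.add (Nat.add (Nat.add (Nat.add (Nat.add (Nat.add (Nat.add (Nat.add C x34040) x42788) x48620) x47648) x47000) x47180) x47156) x47164) (Nat.mul x47162 (nat_lit 2)))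
    (Nat.sub (Nat.sub (Nat.add (Nat.add (Nat.add (Nat.add (Nat.add (Nat.add (Nat.add (Nat.add (Nat.add C x34042) x42790) x48622) x47650) x47002) x47182) x47158) x47162) x47166) x47164) x27482)
    (Nat.sub (Nat.sub (Nat.add (Nat.add (Nat.add (Nat.add (Nat.add (Nat.add (Nat.add C x34044) x42792) x48624) x47652) x47004) x47184) x47164) (Nat.mul x47166 (nat_lit 2))) x27484)
    (Nat.add (Nat.add (Nat.add (Nat.add (Nat.add (Nat.add (Nat.add (Nat.add (Nat.add C x34052) x42800) x48632) x47660) x47012) x47228) x47156) x47180) x47176)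
    (Nat.sub (Nat.sub (Nat.add (Nat.add (Nat.add (Nat.add (Nat.add (Nat.add (Nat.add (Nat.add (Nat.add C x34054) x42802) x48634) x47662) x47014) x47230) x47158) x47182) x47174) (Nat.mul x47176 (nat_lit 2))) x27494)
    (Nat.sub (Nat.add (Nat.add (Nat.add (Nat.add (Nat.add (Nat.add (Nat.add (Nat.add (Nat.add (Nat.add C x34058) x42806) x48638) x47666) x47018) x47234) x47162) x47198) x47174) x47182) x47180)
    (Nat.sub (Nat.sub (Nat.add (Nat.add (Nat.add (Nat.add (Nat.add (Nat.add (Nat.add (Nat.add (Nat.add (Nat.add (Nat.add (Nat.add C x34060) x42808) x48640) x47668) x47020) x47236) x47164) x47200) x47176) x47188) x47180) x47184) x47182) x27500)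
    (Nat.sub (Nat.sub (Nat.add (Nat.add (Nat.add (Nat.add (Nat.add (Nat.add (Nat.add (Nat.add (Nat.add (Nat.add C x34062) x42810) x48642) x47670) x47022) x47238) x47166) x47202) x47190) x47182) (Nat.mul x47184 (nat_lit 3))) x27502)
    (Nat.sub (Nat.sub (Nat.add (Nat.add (Nat.add (Nat.add (Nat.add (Nat.add (Nat.add (Nat.add (Nat.add C x34066) x42814) x48646) x47674) x47026) x47242) x47206) x47182) x47190) (Nat.mul x47188 (nat_lit 2))) x27506)
    (Nat.sub (Nat.sub (Nat.add (Nat.add (Nat.add (Nat.add (Nat.add (Nat.add (Nat.add (Nat.add (Nat.add C x34068) x42816) x48648) x47676) x47028) x47244) x47208) x47184) x47188) (Nat.mul x47190 (nat_lit 2))) x27508)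
    (Nat.sub (Nat.add (Nat.add (Nat.add (Nat.add (Nat.add (Nat.add (Nat.add (Nat.add C x34076) x42824) x48656) x47684) x47036) x47252) x47180) x47200) (Nat.mul x47198 (nat_lit 2)))
    (Nat.sub (Nat.sub (Nat.add (Nat.add (Nat.add (Nat.add (Nat.add (Nat.add (Nat.add (Nat.add (Nat.add (Nat.add C x34078) x42826) x48658) x47686) x47038) x47254) x47182) x47206) x47198) x47202) (Nat.mul x47200 (nat_lit 3))) x27518)
    (Nat.sub (Nat.sub (Nat.add (Nat.add (Nat.add (Nat.add (Nat.add (Nat.add (Nat.add (Nat.add (Nat.add C x34080) x42828) x48660) x47688) x47040) x47256) x47184) x47208) x47200) (Nat.mul x47202 (nat_lit 6))) x27520)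
    (Nat.sub (Nat.sub (Nat.add (Nat.add (Nat.add (Nat.add (Nat.add (Nat.add (Nat.add (Nat.add (Nat.add C x34084) x42832) x48664) x47692) x47044) x47260) x47188) x47200) x47208) (Nat.mul x47206 (nat_lit 2))) x27524)
    (Nat.sub (Nat.sub (Nat.add (Nat.add (Nat.add (Nat.add (Nat.add (Nat.add (Nat.add (Nat.add (Nat.add (Nat.add C x34086) x42834) x48666) x47694) x47046) x47262) x47190) x47202) x47214) x47206) (Nat.mul x47208 (nat_lit 3))) x27526)
    (Nat.sub (Nat.sub (Nat.add (Nat.add (Nat.add (Nat.add (Nat.add (Nat.add (Nat.add C x34092) x42840) x48672) x47700) x47052) x47268) x47208) (Nat.mul x47214 (nat_lit 2))) x27532)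
    (Nat.add (Nat.add (Nat.add (Nat.add (Nat.add (Nat.add (Nat.add (Nat.add (Nat.add C (Nat.mul x47228 (nat_lit 2))) x34106) x42854) x48686) x47714) x47066) x47174) x47234) x47230)
    (Nat.sub (Nat.add (Nat.add (Nat.add (Nat.add (Nat.add (Nat.add (Nat.add (Nat.add C x34108) x42856) x48688) x47716) x47068) x47176) x47236) x47228) x27548)
    (Nat.add (Nat.add (Nat.add (Nat.add (Nat.add (Nat.add (Nat.add (Nat.add (Nat.add C x34112) x42860) x48692) x47720) x47072) x47180) x47252) x47228) x47236)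
    (Nat.sub (Nat.add (Nat.add (Nat.add (Nat.add (Nat.add (Nat.add (Nat.add (Nat.add (Nat.add (Nat.add (Nat.add C x34114) x42862) x48694) x47722) x47074) x47182) x47254) x47230) x47242) x47234) x47238) x27554)
    (Nat.sub (Nat.sub (Nat.add (Nat.add (Nat.add (Nat.add (Nat.add (Nat.add (Nat.add (Nat.add (Nat.add C x34116) x42864) x48696) x47724) x47076) x47184) x47256) x47244) x47236) (Nat.mul x47238 (nat_lit 2))) x27556)
    (Nat.sub (Nat.sub (Nat.add (Nat.add (Nat.add (Nat.add (Nat.add (Nat.add (Nat.add (Nat.add (Nat.add C x34120) x42868) x48700) x47728) x47080) x47188) x47260) x47236) x47244) (Nat.mul x47242 (nat_lit 2))) x27560)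
    (Nat.sub (Nat.sub (Nat.add (Nat.add (Nat.add (Nat.add (Nat.add (Nat.add (Nat.add (Nat.add (Nat.add C x34122) x42870) x48702) x47730) x47082) x47190) x47262) x47238) x47242) (Nat.mul x47244 (nat_lit 2))) x27562)
    (Nat.add (Nat.add (Nat.add (Nat.add (Nat.add (Nat.add (Nat.add (Nat.add (Nat.add (Nat.add C x47252) x34130) x42878) x48710) x47738) x47090) x47198) x47306) x47234) x47254)
    (Nat.sub (Nat.add (Nat.add (Nat.add (Nat.add (Nat.add (Nat.add (Nat.add (Nat.add (Nat.add (Nat.add (Nat.add C x34132) x42880) x48712) x47740) x47092) x47200) x47308) x47236) x47260) x47252) x47256) x27572)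
    (Nat.sub (Nat.sub (Nat.add (Nat.add (Nat.add (Nat.add (Nat.add (Nat.add (Nat.add (Nat.add (Nat.add (Nat.add C x34134) x42882) x48714) x47742) x47094) x47202) x47310) x47238) x47262) x47254) (Nat.mul x47256 (nat_lit 3))) x27574)
    (Nat.sub (Nat.add (Nat.add (Nat.add (Nat.add (Nat.add (Nat.add (Nat.add (Nat.add (Nat.add (Nat.add (Nat.add C x34138) x42886) x48718) x47746) x47098) x47206) x47314) x47242) x47278) x47254) x47262) x27578)
    (Nat.sub (Nat.sub (Nat.add (Nat.add (Nat.add (Nat.add (Nat.add (Nat.add (Nat.add (Nat.add (Nat.add (Nat.add (Nat.add (Nat.add C x34140) x42888) x48720) x47748) x47100) x47208) x47316) x47244) x47280) x47256) x47268) x47260) x47262) x27580)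
    (Nat.sub (Nat.sub (Nat.add (Nat.add (Nat.add (Nat.add (Nat.add (Nat.add (Nat.add (Nat.add (Nat.add C x34146) x42894) x48726) x47754) x47106) x47214) x47322) x47286) x47262) x47268) x27586)
    (Nat.sub (Nat.add (Nat.add (Nat.add (Nat.add (Nat.add (Nat.add (Nat.add (Nat.add C x34156) x42904) x48736) x47764) x47116) x47332) x47260) x47280) x27596)
    (Nat.sub (Nat.sub (Nat.add (Nat.add (Nat.add (Nat.add (Nat.add (Nat.add (Nat.add (Nat.add (Nat.add C x34158) x42906) x48738) x47766) x47118) x47334) x47262) x47286) x47278) (Nat.mul x47280 (nat_lit 2))) x27598)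
    (Nat.sub (Nat.add (Nat.add (Nat.add (Nat.add (Nat.add (Nat.add (Nat.add (Nat.add C x34164) x42912) x48744) x47772) x47124) x47340) x47268) x47280) x27604)
    (Nat.add (Nat.add (Nat.add (Nat.add (Nat.add (Nat.add (Nat.add C (Nat.mul x47306 (nat_lit 2))) x34184) x42932) x48764) x47792) x47252) x47308)
    (Nat.sub (Nat.add (Nat.add (Nat.add (Nat.add (Nat.add (Nat.add (Nat.add (Nat.add (Nat.add C x47308) x34186) x42934) x48766) x47794) x47254) x47314) x47306) x47310) x27626)
    (Nat.sub (Nat.sub (Nat.add (Nat.add (Nat.add (Nat.add (Nat.add (Nat.add (Nat.add C x34188) x42936) x48768) x47796) x47256) x47316) x47308) (Nat.mul x47310 (nat_lit 2))) x27628)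
    (Nat.sub (Nat.add (Nat.add (Nat.add (Nat.add (Nat.add (Nat.add (Nat.add (Nat.add C x34192) x42940) x48772) x47800) x47260) x47332) x47308) x47316) x27632)
    (Nat.sub (Nat.sub (Nat.add (Nat.add (Nat.add (Nat.add (Nat.add (Nat.add (Nat.add (Nat.add (Nat.add C x34194) x42942) x48774) x47802) x47262) x47334) x47310) x47322) x47314) x47316) x27634)
    (Nat.sub (Nat.sub (Nat.add (Nat.add (Nat.add (Nat.add (Nat.add (Nat.add (Nat.add C x34200) x42948) x48780) x47808) x47268) x47340) x47316) (Nat.mul x47322 (nat_lit 2))) x27640)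
    (Nat.sub (Nat.add (Nat.add (Nat.add (Nat.add (Nat.add (Nat.add (Nat.add (Nat.add C (Nat.mul x47332 (nat_lit 2))) x34210) x42958) x48790) x47818) x47278) x47314) x47334) x27650)
    (Nat.sub (Nat.add (Nat.add (Nat.add (Nat.add (Nat.add (Nat.add (Nat.add (Nat.add C x34212) x42960) x48792) x47820) x47280) x47316) x47340) x47332) x27652)
    (Nat.sub (Nat.add (Nat.add (Nat.add (Nat.add (Nat.add (Nat.add (Nat.add (Nat.add (Nat.add C x47340) x34218) x42966) x48798) x47826) x47286) x47322) x47358) x47334) x27658)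
    (Nat.sub (Nat.add (Nat.add (Nat.add (Nat.add (Nat.add (Nat.add C (Nat.mul x47358 (nat_lit 2))) x34236) x42984) x48816) x47844) x47340) x27676)
    (Nat.add (Nat.add (Nat.add (Nat.add (Nat.add (Nat.add (Nat.add C (Nat.mul x47402 (nat_lit 2))) x34280) x43028) x48860) x46916) x47420) x47408)
    (Nat.add (Nat.add (Nat.add (Nat.add (Nat.add (Nat.add (Nat.add C x34286) x43034) x48866) x46922) x47426) x47402) x47410)
    (Nat.sub (Nat.add (Nat.add (Nat.add (Nat.add (Nat.add (Nat.add C x34288) x43036) x48868) x46924) x47428) x47408) x27728)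
    (Nat.add (Nat.add (Nat.add (Nat.add (Nat.add (Nat.add (Nat.add C x34298) x43046) x48878) x46934) x47474) x47402) x47426)
    (Nat.add (Nat.add (Nat.add (Nat.add (Nat.add (Nat.add (Nat.add (Nat.add (Nat.add (Nat.add C x34304) x43052) x48884) x46940) x47480) x47408) x47444) x47420) x47432) x47428)
    (Nat.sub (Nat.sub (Nat.add (Nat.add (Nat.add (Nat.add (Nat.add (Nat.add (Nat.add (Nat.add (Nat.add C x34306) x43054) x48886) x46942) x47482) x47410) x47446) x47434) x47426) x47428) x27746)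
    (Nat.sub (Nat.add (Nat.add (Nat.add (Nat.add (Nat.add (Nat.add (Nat.add (Nat.add C x34310) x43058) x48890) x46946) x47486) x47450) x47426) x47434) (Nat.mul x47432 (nat_lit 2)))
    (Nat.sub (Nat.sub (Nat.add (Nat.add (Nat.add (Nat.add (Nat.add (Nat.add (Nat.add (Nat.add (Nat.add C x34312) x43060) x48892) x46948) x47488) x47452) x47428) x47432) x47436) x47434) x27752)
    (Nat.sub (Nat.sub (Nat.add (Nat.add (Nat.add (Nat.add (Nat.add (Nat.add (Nat.add C x34314) x43062) x48894) x46950) x47490) x47454) x47434) (Nat.mul x47436 (nat_lit 2))) x27754)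
    (Nat.sub (Nat.add (Nat.add (Nat.add (Nat.add (Nat.add (Nat.add (Nat.add (Nat.add C x34322) x43070) x48902) x46958) x47498) x47426) x47450) x47446) (Nat.mul x47444 (nat_lit 2)))
    (Nat.sub (Nat.sub (Nat.add (Nat.add (Nat.add (Nat.add (Nat.add (Nat.add (Nat.add (Nat.add C x34324) x43072) x48904) x46960) x47500) x47428) x47452) x47444) (Nat.mul x47446 (nat_lit 4))) x27764)
    (Nat.sub (Nat.add (Nat.add (Nat.add (Nat.add (Nat.add (Nat.add (Nat.add (Nat.add C x34328) x43076) x48908) x46964) x47504) x47432) x47444) x47452) (Nat.mul x47450 (nat_lit 2)))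
    (Nat.sub (Nat.sub (Nat.add (Nat.add (Nat.add (Nat.add (Nat.add (Nat.add (Nat.add (Nat.add (Nat.add (Nat.add C x34330) x43078) x48910) x46966) x47506) x47434) x47446) x47458) x47450) x47454) (Nat.mul x47452 (nat_lit 2))) x27770)
    (Nat.sub (Nat.sub (Nat.add (Nat.add (Nat.add (Nat.add (Nat.add (Nat.add (Nat.add (Nat.add C x34332) x43080) x48912) x46968) x47508) x47436) x47460) x47452) (Nat.mul x47454 (nat_lit 4))) x27772)
    (Nat.sub (Nat.sub (Nat.add (Nat.add (Nat.add (Nat.add (Nat.add (Nat.add (Nat.add C x34336) x43084) x48916) x46972) x47512) x47452) x47460) (Nat.mul x47458 (nat_lit 2))) x27776)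
    (Nat.sub (Nat.sub (Nat.add (Nat.add (Nat.add (Nat.add (Nat.add (Nat.add (Nat.add C x34338) x43086) x48918) x46974) x47514) x47454) x47458) (Nat.mul x47460 (nat_lit 2))) x27778)
    (Nat.add (Nat.add (Nat.add (Nat.add (Nat.add (Nat.add (Nat.add C x34352) x43100) x48932) x46988) x47636) x47420) x47480)
    (Nat.sub (Nat.add (Nat.add (Nat.add (Nat.add (Nat.add (Nat.add (Nat.add (Nat.add (Nat.add (Nat.add C x34358) x43106) x48938) x46994) x47642) x47426) x47498) x47474) x47486) x47482) x47480)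
    (Nat.sub (Nat.sub (Nat.add (Nat.add (Nat.add (Nat.add (Nat.add (Nat.add (Nat.add (Nat.add (Nat.add C x34360) x43108) x48940) x46996) x47644) x47428) x47500) x47488) x47480) (Nat.mul x47482 (nat_lit 2))) x27800)
    (Nat.sub (Nat.add (Nat.add (Nat.add (Nat.add (Nat.add (Nat.add (Nat.add (Nat.add (Nat.add C x34364) x43112) x48944) x47000) x47648) x47432) x47504) x47480) x47488) (Nat.mul x47486 (nat_lit 4)))
    (Nat.sub (Nat.sub (Nat.add (Nat.add (Nat.add (Nat.add (Nat.add (Nat.add (Nat.add (Nat.add (Nat.add (Nat.add C x34366) x43114) x48946) x47002) x47650) x47434) x47506) x47482) x47486) x47490) (Nat.mul x47488 (nat_lit 3))) x27806)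
    (Nat.sub (Nat.sub (Nat.add (Nat.add (Nat.add (Nat.add (Nat.add (Nat.add (Nat.add (Nat.add C x34368) x43116) x48948) x47004) x47652) x47436) x47508) x47488) (Nat.mul x47490 (nat_lit 4))) x27808)
    (Nat.sub (Nat.add (Nat.add (Nat.add (Nat.add (Nat.add (Nat.add (Nat.add (Nat.add (Nat.add (Nat.add C x34376) x43124) x48956) x47012) x47660) x47444) x47552) x47480) x47504) x47500) x47498)
    (Nat.sub (Nat.sub (Nat.add (Nat.add (Nat.add (Nat.add (Nat.add (Nat.add (Nat.add (Nat.add (Nat.add (Nat.add C x34378) x43126) x48958) x47014) x47662) x47446) x47554) x47482) x47506) x47498) (Nat.mul x47500 (nat_lit 3))) x27818)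
    (Nat.sub (Nat.add (Nat.add (Nat.add (Nat.add (Nat.add (Nat.add (Nat.add (Nat.add (Nat.add (Nat.add (Nat.add C x34382) x43130) x48962) x47018) x47666) x47450) x47558) x47486) x47522) x47498) x47506) (Nat.mul x47504 (nat_lit 2)))
    (Nat.sub (Nat.sub (Nat.add (Nat.add (Nat.add (Nat.add (Nat.add (Nat.add (Nat.add (Nat.add (Nat.add (Nat.add (Nat.add (Nat.add (Nat.add C x34384) x43132) x48964) x47020) x47668) x47452) x47560) x47488) x47524) x47500) x47512) x47504) x47508) (Nat.mul x47506 (nat_lit 2))) x27824)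
    (Nat.sub (Nat.sub (Nat.add (Nat.add (Nat.add (Nat.add (Nat.add (Nat.add (Nat.add (Nat.add (Nat.add (Nat.add (Nat.add C x34386) x43134) x48966) x47022) x47670) x47454) x47562) x47490) x47526) x47514) x47506) (Nat.mul x47508 (nat_lit 4))) x27826)
    (Nat.sub (Nat.sub (Nat.add (Nat.add (Nat.add (Nat.add (Nat.add (Nat.add (Nat.add (Nat.add (Nat.add (Nat.add C x34390) x43138) x48970) x47026) x47674) x47458) x47566) x47530) x47506) x47514) (Nat.mul x47512 (nat_lit 3))) x27830)
    (Nat.sub (Nat.sub (Nat.add (Nat.add (Nat.add (Nat.add (Nat.add (Nat.add (Nat.add (Nat.add (Nat.add (Nat.add C x34392) x43140) x48972) x47028) x47676) x47460) x47568) x47532) x47508) x47512) (Nat.mul x47514 (nat_lit 3))) x27832)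
    (Nat.sub (Nat.add (Nat.add (Nat.add (Nat.add (Nat.add (Nat.add (Nat.add (Nat.add C x34400) x43148) x48980) x47036) x47684) x47576) x47504) x47524) (Nat.mul x47522 (nat_lit 2)))
    (Nat.sub (Nat.sub (Nat.add (Nat.add (Nat.add (Nat.add (Nat.add (Nat.add (Nat.add (Nat.add (Nat.add (Nat.add C x34402) x43150) x48982) x47038) x47686) x47578) x47506) x47530) x47522) x47526) (Nat.mul x47524 (nat_lit 3))) x27842)
    (Nat.sub (Nat.sub (Nat.add (Nat.add (Nat.add (Nat.add (Nat.add (Nat.add (Nat.add (Nat.add (Nat.add C x34404) x43152) x48984) x47040) x47688) x47580) x47508) x47532) x47524) (Nat.mul x47526 (nat_lit 6))) x27844)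
    (Nat.sub (Nat.sub (Nat.add (Nat.add (Nat.add (Nat.add (Nat.add (Nat.add (Nat.add (Nat.add (Nat.add C x34408) x43156) x48988) x47044) x47692) x47584) x47512) x47524) x47532) (Nat.mul x47530 (nat_lit 2))) x27848)
    (Nat.sub (Nat.sub (Nat.add (Nat.add (Nat.add (Nat.add (Nat.add (Nat.add (Nat.add (Nat.add (Nat.add (Nat.add C x34410) x43158) x48990) x47046) x47694) x47586) x47514) x47526) x47538) x47530) (Nat.mul x47532 (nat_lit 3))) x27850)
    (Nat.sub (Nat.sub (Nat.add (Nat.add (Nat.add (Nat.add (Nat.add (Nat.add (Nat.add C x34416) x43164) x48996) x47052) x47700) x47592) x47532) (Nat.mul x47538 (nat_lit 2))) x27856)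
    (Nat.sub (Nat.add (Nat.add (Nat.add (Nat.add (Nat.add (Nat.add (Nat.add (Nat.add C x34430) x43178) x49010) x47066) x47714) x47498) x47558) x47554) (Nat.mul x47552 (nat_lit 2)))
    (Nat.sub (Nat.sub (Nat.add (Nat.add (Nat.add (Nat.add (Nat.add (Nat.add (Nat.add (Nat.add C x34432) x43180) x49012) x47068) x47716) x47500) x47560) x47552) (Nat.mul x47554 (nat_lit 4))) x27872)
    (Nat.sub (Nat.add (Nat.add (Nat.add (Nat.add (Nat.add (Nat.add (Nat.add (Nat.add (Nat.add C x34436) x43184) x49016) x47072) x47720) x47504) x47576) x47552) x47560) (Nat.mul x47558 (nat_lit 4)))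
    (Nat.sub (Nat.sub (Nat.add (Nat.add (Nat.add (Nat.add (Nat.add (Nat.add (Nat.add (Nat.add (Nat.add (Nat.add (Nat.add C x34438) x43186) x49018) x47074) x47722) x47506) x47578) x47554) x47566) x47558) x47562) (Nat.mul x47560 (nat_lit 4))) x27878)
    (Nat.sub (Nat.sub (Nat.add (Nat.add (Nat.add (Nat.add (Nat.add (Nat.add (Nat.add (Nat.add (Nat.add C x34440) x43188) x49020) x47076) x47724) x47508) x47580) x47568) x47560) (Nat.mul x47562 (nat_lit 6))) x27880)
    (Nat.sub (Nat.sub (Nat.add (Nat.add (Nat.add (Nat.add (Nat.add (Nat.add (Nat.add (Nat.add (Nat.add C x34444) x43192) x49024) x47080) x47728) x47512) x47584) x47560) x47568) (Nat.mul x47566 (nat_lit 6))) x27884)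
    (Nat.sub (Nat.sub (Nat.add (Nat.add (Nat.add (Nat.add (Nat.add (Nat.add (Nat.add (Nat.add (Nat.add C x34446) x43194) x49026) x47082) x47730) x47514) x47586) x47562) x47566) (Nat.mul x47568 (nat_lit 6))) x27886)
    (Nat.sub (Nat.add (Nat.add (Nat.add (Nat.add (Nat.add (Nat.add (Nat.add (Nat.add C x34454) x43202) x49034) x47090) x47738) x47522) x47558) x47578) (Nat.mul x47576 (nat_lit 2)))
    (Nat.sub (Nat.sub (Nat.add (Nat.add (Nat.add (Nat.add (Nat.add (Nat.add (Nat.add (Nat.add (Nat.add (Nat.add C x34456) x43204) x49036) x47092) x47740) x47524) x47560) x47584) x47576) x47580) (Nat.mul x47578 (nat_lit 3))) x27896)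
    (Nat.sub (Nat.sub (Nat.add (Nat.add (Nat.add (Nat.add (Nat.add (Nat.add (Nat.add (Nat.add (Nat.add C x34458) x43206) x49038) x47094) x47742) x47526) x47562) x47586) x47578) (Nat.mul x47580 (nat_lit 6))) x27898)
    (Nat.sub (Nat.sub (Nat.add (Nat.add (Nat.add (Nat.add (Nat.add (Nat.add (Nat.add (Nat.add (Nat.add (Nat.add C x34462) x43210) x49042) x47098) x47746) x47530) x47566) x47602) x47578) x47586) (Nat.mul x47584 (nat_lit 3))) x27902)
    (Nat.sub (Nat.sub (Nat.add (Nat.add (Nat.add (Nat.add (Nat.add (Nat.add (Nat.add (Nat.add (Nat.add (Nat.add (Nat.add C x34464) x43212) x49044) x47100) x47748) x47532) x47568) x47604) x47580) x47592) x47584) (Nat.mul x47586 (nat_lit 4))) x27904)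
    (Nat.sub (Nat.sub (Nat.add (Nat.add (Nat.add (Nat.add (Nat.add (Nat.add (Nat.add (Nat.add C x34470) x43218) x49050) x47106) x47754) x47538) x47610) x47586) (Nat.mul x47592 (nat_lit 4))) x27910)
    (Nat.sub (Nat.sub (Nat.add (Nat.add (Nat.add (Nat.add (Nat.add (Nat.add (Nat.add C x34480) x43228) x49060) x47116) x47764) x47584) x47604) (Nat.mul x47602 (nat_lit 2))) x27920)
    (Nat.sub (Nat.sub (Nat.add (Nat.add (Nat.add (Nat.add (Nat.add (Nat.add (Nat.add (Nat.add C x34482) x43230) x49062) x47118) x47766) x47586) x47610) x47602) (Nat.mul x47604 (nat_lit 4))) x27922)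
    (Nat.sub (Nat.sub (Nat.add (Nat.add (Nat.add (Nat.add (Nat.add (Nat.add (Nat.add C x34488) x43236) x49068) x47124) x47772) x47592) x47604) (Nat.mul x47610 (nat_lit 2))) x27928)
    (Nat.add (Nat.add (Nat.add (Nat.add (Nat.add (Nat.add (Nat.add C (Nat.mul x47636 (nat_lit 2))) x34514) x43262) x49094) x47150) x47474) x47642)
    (Nat.add (Nat.add (Nat.add (Nat.add (Nat.add (Nat.add (Nat.add (Nat.add (Nat.add (Nat.add C x47642) x34520) x43268) x49100) x47156) x47480) x47660) x47636) x47648) x47644)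
    (Nat.sub (Nat.add (Nat.add (Nat.add (Nat.add (Nat.add (Nat.add (Nat.add (Nat.add C x34522) x43270) x49102) x47158) x47482) x47662) x47650) x47642) x27962)
    (Nat.sub (Nat.add (Nat.add (Nat.add (Nat.add (Nat.add (Nat.add (Nat.add (Nat.add C x34526) x43274) x49106) x47162) x47486) x47666) x47642) x47650) (Nat.mul x47648 (nat_lit 2)))
    (Nat.sub (Nat.sub (Nat.add (Nat.add (Nat.add (Nat.add (Nat.add (Nat.add (Nat.add (Nat.add (Nat.add C x34528) x43276) x49108) x47164) x47488) x47668) x47644) x47648) x47652) x47650) x27968)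
    (Nat.sub (Nat.sub (Nat.add (Nat.add (Nat.add (Nat.add (Nat.add (Nat.add (Nat.add C x34530) x43278) x49110) x47166) x47490) x47670) x47650) (Nat.mul x47652 (nat_lit 2))) x27970)
    (Nat.add (Nat.add (Nat.add (Nat.add (Nat.add (Nat.add (Nat.add (Nat.add (Nat.add C x34538) x43286) x49118) x47174) x47498) x47714) x47642) x47666) x47662)
    (Nat.sub (Nat.sub (Nat.add (Nat.add (Nat.add (Nat.add (Nat.add (Nat.add (Nat.add (Nat.add (Nat.add C x34540) x43288) x49120) x47176) x47500) x47716) x47644) x47668) x47660) (Nat.mul x47662 (nat_lit 2))) x27980)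
    (Nat.sub (Nat.add (Nat.add (Nat.add (Nat.add (Nat.add (Nat.add (Nat.add (Nat.add (Nat.add (Nat.add C x34544) x43292) x49124) x47180) x47504) x47720) x47648) x47684) x47660) x47668) x47666)
    (Nat.sub (Nat.sub (Nat.add (Nat.add (Nat.add (Nat.add (Nat.add (Nat.add (Nat.add (Nat.add (Nat.add (Nat.add (Nat.add (Nat.add C x34546) x43294) x49126) x47182) x47506) x47722) x47650) x47686) x47662) x47674) x47666) x47670) x47668) x27986)
    (Nat.sub (Nat.sub (Nat.add (Nat.add (Nat.add (Nat.add (Nat.add (Nat.add (Nat.add (Nat.add (Nat.add (Nat.add C x34548) x43296) x49128) x47184) x47508) x47724) x47652) x47688) x47676) x47668) (Nat.mul x47670 (nat_lit 3))) x27988)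
    (Nat.sub (Nat.sub (Nat.add (Nat.add (Nat.add (Nat.add (Nat.add (Nat.add (Nat.add (Nat.add (Nat.add C x34552) x43300) x49132) x47188) x47512) x47728) x47692) x47668) x47676) (Nat.mul x47674 (nat_lit 2))) x27992)
    (Nat.sub (Nat.sub (Nat.add (Nat.add (Nat.add (Nat.add (Nat.add (Nat.add (Nat.add (Nat.add (Nat.add C x34554) x43302) x49134) x47190) x47514) x47730) x47694) x47670) x47674) (Nat.mul x47676 (nat_lit 2))) x27994)
    (Nat.sub (Nat.add (Nat.add (Nat.add (Nat.add (Nat.add (Nat.add (Nat.add (Nat.add C x34562) x43310) x49142) x47198) x47522) x47738) x47666) x47686) (Nat.mul x47684 (nat_lit 2)))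
    (Nat.sub (Nat.sub (Nat.add (Nat.add (Nat.add (Nat.add (Nat.add (Nat.add (Nat.add (Nat.add (Nat.add (Nat.add C x34564) x43312) x49144) x47200) x47524) x47740) x47668) x47692) x47684) x47688) (Nat.mul x47686 (nat_lit 3))) x28004)
    (Nat.sub (Nat.sub (Nat.add (Nat.add (Nat.add (Nat.add (Nat.add (Nat.add (Nat.add (Nat.add (Nat.add C x34566) x43314) x49146) x47202) x47526) x47742) x47670) x47694) x47686) (Nat.mul x47688 (nat_lit 6))) x28006)
    (Nat.sub (Nat.sub (Nat.add (Nat.add (Nat.add (Nat.add (Nat.add (Nat.add (Nat.add (Nat.add (Nat.add C x34570) x43318) x49150) x47206) x47530) x47746) x47674) x47686) x47694) (Nat.mul x47692 (nat_lit 2))) x28010)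
    (Nat.sub (Nat.sub (Nat.add (Nat.add (Nat.add (Nat.add (Nat.add (Nat.add (Nat.add (Nat.add (Nat.add (Nat.add C x34572) x43320) x49152) x47208) x47532) x47748) x47676) x47688) x47700) x47692) (Nat.mul x47694 (nat_lit 3))) x28012)
    (Nat.sub (Nat.sub (Nat.add (Nat.add (Nat.add (Nat.add (Nat.add (Nat.add (Nat.add C x34578) x43326) x49158) x47214) x47538) x47754) x47694) (Nat.mul x47700 (nat_lit 2))) x28018)
    (Nat.add (Nat.add (Nat.add (Nat.add (Nat.add (Nat.add (Nat.add (Nat.add (Nat.add (Nat.add C x47714) x34592) x43340) x49172) x47228) x47552) x47876) x47660) x47720) x47716)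
    (Nat.sub (Nat.sub (Nat.add (Nat.add (Nat.add (Nat.add (Nat.add (Nat.add (Nat.add (Nat.add (Nat.add C x34594) x43342) x49174) x47230) x47554) x47878) x47662) x47722) x47714) x47716) x28034)
    (Nat.sub (Nat.add (Nat.add (Nat.add (Nat.add (Nat.add (Nat.add (Nat.add (Nat.add (Nat.add (Nat.add C x34598) x43346) x49178) x47234) x47558) x47882) x47666) x47738) x47714) x47722) x47720)
    (Nat.sub (Nat.sub (Nat.add (Nat.add (Nat.add (Nat.add (Nat.add (Nat.add (Nat.add (Nat.add (Nat.add (Nat.add (Nat.add (Nat.add C x34600) x43348) x49180) x47236) x47560) x47884) x47668) x47740) x47716) x47728) x47720) x47724) x47722) x28040)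
    (Nat.sub (Nat.sub (Nat.add (Nat.add (Nat.add (Nat.add (Nat.add (Nat.add (Nat.add (Nat.add (Nat.add (Nat.add C x34602) x43350) x49182) x47238) x47562) x47886) x47670) x47742) x47730) x47722) (Nat.mul x47724 (nat_lit 3))) x28042)
    (Nat.sub (Nat.sub (Nat.add (Nat.add (Nat.add (Nat.add (Nat.add (Nat.add (Nat.add (Nat.add (Nat.add (Nat.add C x34606) x43354) x49186) x47242) x47566) x47890) x47674) x47746) x47722) x47730) (Nat.mul x47728 (nat_lit 3))) x28046)
    (Nat.sub (Nat.sub (Nat.add (Nat.add (Nat.add (Nat.add (Nat.add (Nat.add (Nat.add (Nat.add (Nat.add (Nat.add C x34608) x43356) x49188) x47244) x47568) x47892) x47676) x47748) x47724) x47728) (Nat.mul x47730 (nat_lit 3))) x28048)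
    (Nat.add (Nat.add (Nat.add (Nat.add (Nat.add (Nat.add (Nat.add (Nat.add (Nat.add (Nat.add C x34616) x43364) x49196) x47252) x47576) x47900) x47684) x47792) x47720) x47740)
    (Nat.sub (Nat.sub (Nat.add (Nat.add (Nat.add (Nat.add (Nat.add (Nat.add (Nat.add (Nat.add (Nat.add (Nat.add (Nat.add (Nat.add C x34618) x43366) x49198) x47254) x47578) x47902) x47686) x47794) x47722) x47746) x47738) x47742) x47740) x28058)
    (Nat.sub (Nat.sub (Nat.add (Nat.add (Nat.add (Nat.add (Nat.add (Nat.add (Nat.add (Nat.add (Nat.add (Nat.add (Nat.add C x34620) x43368) x49200) x47256) x47580) x47904) x47688) x47796) x47724) x47748) x47740) (Nat.mul x47742 (nat_lit 4))) x28060)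
    (Nat.sub (Nat.sub (Nat.add (Nat.add (Nat.add (Nat.add (Nat.add (Nat.add (Nat.add (Nat.add (Nat.add (Nat.add (Nat.add (Nat.add C x34624) x43372) x49204) x47260) x47584) x47908) x47692) x47800) x47728) x47764) x47740) x47748) x47746) x28064)
    (Nat.sub (Nat.sub (Nat.add (Nat.add (Nat.add (Nat.add (Nat.add (Nat.add (Nat.add (Nat.add (Nat.add (Nat.add (Nat.add (Nat.add (Nat.add C x34626) x43374) x49206) x47262) x47586) x47910) x47694) x47802) x47730) x47766) x47742) x47754) x47746) (Nat.mul x47748 (nat_lit 2))) x28066)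
    (Nat.sub (Nat.sub (Nat.add (Nat.add (Nat.add (Nat.add (Nat.add (Nat.add (Nat.add (Nat.add (Nat.add (Nat.add C x34632) x43380) x49212) x47268) x47592) x47916) x47700) x47808) x47772) x47748) (Nat.mul x47754 (nat_lit 2))) x28072)
    (Nat.sub (Nat.sub (Nat.add (Nat.add (Nat.add (Nat.add (Nat.add (Nat.add (Nat.add (Nat.add (Nat.add C x34642) x43390) x49222) x47278) x47602) x47926) x47818) x47746) x47766) x47764) x28082)
    (Nat.sub (Nat.sub (Nat.add (Nat.add (Nat.add (Nat.add (Nat.add (Nat.add (Nat.add (Nat.add (Nat.add (Nat.add C x34644) x43392) x49224) x47280) x47604) x47928) x47820) x47748) x47772) x47764) (Nat.mul x47766 (nat_lit 3))) x28084)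
    (Nat.sub (Nat.sub (Nat.add (Nat.add (Nat.add (Nat.add (Nat.add (Nat.add (Nat.add (Nat.add (Nat.add C x34650) x43398) x49230) x47286) x47610) x47934) x47826) x47754) x47766) x47772) x28090)
    (Nat.add (Nat.add (Nat.add (Nat.add (Nat.add (Nat.add (Nat.add C x34670) x43418) x49250) x47306) x47954) x47738) x47794)
    (Nat.sub (Nat.sub (Nat.add (Nat.add (Nat.add (Nat.add (Nat.add (Nat.add (Nat.add (Nat.add (Nat.add C x34672) x43420) x49252) x47308) x47956) x47740) x47800) x47792) x47796) x47794) x28112)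
    (Nat.sub (Nat.sub (Nat.add (Nat.add (Nat.add (Nat.add (Nat.add (Nat.add (Nat.add (Nat.add C x34674) x43422) x49254) x47310) x47958) x47742) x47802) x47794) (Nat.mul x47796 (nat_lit 4))) x28114)
    (Nat.sub (Nat.sub (Nat.add (Nat.add (Nat.add (Nat.add (Nat.add (Nat.add (Nat.add (Nat.add (Nat.add C x34678) x43426) x49258) x47314) x47962) x47746) x47818) x47794) x47802) (Nat.mul x47800 (nat_lit 2))) x28118)
    (Nat.sub (Nat.sub (Nat.add (Nat.add (Nat.add (Nat.add (Nat.add (Nat.add (Nat.add (Nat.add (Nat.add (Nat.add C x34680) x43428) x49260) x47316) x47964) x47748) x47820) x47796) x47808) x47800) (Nat.mul x47802 (nat_lit 3))) x28120)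
    (Nat.sub (Nat.sub (Nat.add (Nat.add (Nat.add (Nat.add (Nat.add (Nat.add (Nat.add (Nat.add C x34686) x43434) x49266) x47322) x47970) x47754) x47826) x47802) (Nat.mul x47808 (nat_lit 4))) x28126)
    (Nat.sub (Nat.add (Nat.add (Nat.add (Nat.add (Nat.add (Nat.add (Nat.add (Nat.add C x34696) x43444) x49276) x47332) x47980) x47764) x47800) x47820) x28136)
    (Nat.sub (Nat.sub (Nat.add (Nat.add (Nat.add (Nat.add (Nat.add (Nat.add (Nat.add (Nat.add (Nat.add C x34698) x43446) x49278) x47334) x47982) x47766) x47802) x47826) x47818) (Nat.mul x47820 (nat_lit 2))) x28138)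
    (Nat.sub (Nat.sub (Nat.add (Nat.add (Nat.add (Nat.add (Nat.add (Nat.add (Nat.add (Nat.add (Nat.add C x34704) x43452) x49284) x47340) x47988) x47772) x47808) x47844) x47820) x47826) x28144)
    (Nat.sub (Nat.add (Nat.add (Nat.add (Nat.add (Nat.add (Nat.add C x34722) x43470) x49302) x47358) x48006) x47826) x28162)
    (Nat.add (Nat.add (Nat.add (Nat.add (Nat.add (Nat.add (Nat.add C (Nat.mul x47876 (nat_lit 2))) x34754) x43502) x49334) x47714) x47882) x47878)
    (Nat.sub (Nat.add (Nat.add (Nat.add (Nat.add (Nat.add (Nat.add C x34756) x43504) x49336) x47716) x47884) x47876) x28196)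
    (Nat.add (Nat.add (Nat.add (Nat.add (Nat.add (Nat.add (Nat.add C x34760) x43508) x49340) x47720) x47900) x47876) x47884)
    (Nat.sub (Nat.add (Nat.add (Nat.add (Nat.add (Nat.add (Nat.add (Nat.add (Nat.add (Nat.add C x34762) x43510) x49342) x47722) x47902) x47878) x47890) x47882) x47886) x28202)
    (Nat.sub (Nat.sub (Nat.add (Nat.add (Nat.add (Nat.add (Nat.add (Nat.add (Nat.add C x34764) x43512) x49344) x47724) x47904) x47892) x47884) (Nat.mul x47886 (nat_lit 2))) x28204)
    (Nat.sub (Nat.sub (Nat.add (Nat.add (Nat.add (Nat.add (Nat.add (Nat.add (Nat.add C x34768) x43516) x49348) x47728) x47908) x47884) x47892) (Nat.mul x47890 (nat_lit 2))) x28208)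
    (Nat.sub (Nat.sub (Nat.add (Nat.add (Nat.add (Nat.add (Nat.add (Nat.add (Nat.add C x34770) x43518) x49350) x47730) x47910) x47886) x47890) (Nat.mul x47892 (nat_lit 2))) x28210)
    (Nat.add (Nat.add (Nat.add (Nat.add (Nat.add (Nat.add (Nat.add C x34778) x43526) x49358) x47738) x47954) x47882) x47902)
    (Nat.sub (Nat.sub (Nat.add (Nat.add (Nat.add (Nat.add (Nat.add (Nat.add (Nat.add (Nat.add (Nat.add C x34780) x43528) x49360) x47740) x47956) x47884) x47908) x47900) x47904) x47902) x28220)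
    (Nat.sub (Nat.sub (Nat.add (Nat.add (Nat.add (Nat.add (Nat.add (Nat.add (Nat.add (Nat.add C x34782) x43530) x49362) x47742) x47958) x47886) x47910) x47902) (Nat.mul x47904 (nat_lit 4))) x28222)
    (Nat.sub (Nat.sub (Nat.add (Nat.add (Nat.add (Nat.add (Nat.add (Nat.add (Nat.add (Nat.add (Nat.add C x34786) x43534) x49366) x47746) x47962) x47890) x47926) x47902) x47910) x47908) x28226)
    (Nat.sub (Nat.sub (Nat.add (Nat.add (Nat.add (Nat.add (Nat.add (Nat.add (Nat.add (Nat.add (Nat.add (Nat.add C x34788) x43536) x49368) x47748) x47964) x47892) x47928) x47904) x47916) x47908) (Nat.mul x47910 (nat_lit 2))) x28228)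
    (Nat.sub (Nat.sub (Nat.add (Nat.add (Nat.add (Nat.add (Nat.add (Nat.add (Nat.add C x34794) x43542) x49374) x47754) x47970) x47934) x47910) (Nat.mul x47916 (nat_lit 2))) x28234)
    (Nat.sub (Nat.sub (Nat.add (Nat.add (Nat.add (Nat.add (Nat.add (Nat.add (Nat.add C x34804) x43552) x49384) x47764) x47980) x47908) x47928) (Nat.mul x47926 (nat_lit 2))) x28244)
    (Nat.sub (Nat.sub (Nat.add (Nat.add (Nat.add (Nat.add (Nat.add (Nat.add (Nat.add (Nat.add C x34806) x43554) x49386) x47766) x47982) x47910) x47934) x47926) (Nat.mul x47928 (nat_lit 4))) x28246)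
    (Nat.sub (Nat.sub (Nat.add (Nat.add (Nat.add (Nat.add (Nat.add (Nat.add (Nat.add C x34812) x43560) x49392) x47772) x47988) x47916) x47928) (Nat.mul x47934 (nat_lit 2))) x28252)
    (Nat.add (Nat.add (Nat.add (Nat.add (Nat.add (Nat.add (Nat.add C (Nat.mul x47954 (nat_lit 2))) x34832) x43580) x49412) x47792) x47900) x47956)
    (Nat.sub (Nat.add (Nat.add (Nat.add (Nat.add (Nat.add (Nat.add (Nat.add (Nat.add (Nat.add C x47956) x34834) x43582) x49414) x47794) x47902) x47962) x47954) x47958) x28274)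
    (Nat.sub (Nat.sub (Nat.add (Nat.add (Nat.add (Nat.add (Nat.add (Nat.add (Nat.add C x34836) x43584) x49416) x47796) x47904) x47964) x47956) (Nat.mul x47958 (nat_lit 2))) x28276)
    (Nat.sub (Nat.add (Nat.add (Nat.add (Nat.add (Nat.add (Nat.add (Nat.add (Nat.add C x34840) x43588) x49420) x47800) x47908) x47980) x47956) x47964) x28280)
    (Nat.sub (Nat.sub (Nat.add (Nat.add (Nat.add (Nat.add (Nat.add (Nat.add (Nat.add (Nat.add (Nat.add C x34842) x43590) x49422) x47802) x47910) x47982) x47958) x47970) x47962) x47964) x28282)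
    (Nat.sub (Nat.sub (Nat.add (Nat.add (Nat.add (Nat.add (Nat.add (Nat.add (Nat.add C x34848) x43596) x49428) x47808) x47916) x47988) x47964) (Nat.mul x47970 (nat_lit 2))) x28288)
    (Nat.sub (Nat.add (Nat.add (Nat.add (Nat.add (Nat.add (Nat.add (Nat.add (Nat.add (Nat.add C x47980) x34858) x43606) x49438) x47818) x47926) x48034) x47962) x47982) x28298)
    (Nat.sub (Nat.sub (Nat.add (Nat.add (Nat.add (Nat.add (Nat.add (Nat.add (Nat.add (Nat.add (Nat.add C x34860) x43608) x49440) x47820) x47928) x48036) x47964) x47988) x47980) x47982) x28300)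
    (Nat.sub (Nat.add (Nat.add (Nat.add (Nat.add (Nat.add (Nat.add (Nat.add (Nat.add (Nat.add C x34866) x43614) x49446) x47826) x47934) x48042) x47970) x48006) x47982) x28306)
    (Nat.sub (Nat.add (Nat.add (Nat.add (Nat.add (Nat.add (Nat.add C x34884) x43632) x49464) x47844) x48060) x47988) x28324)
    (Nat.sub (Nat.add (Nat.add (Nat.add (Nat.add (Nat.add (Nat.add C (Nat.mul x48034 (nat_lit 2))) x34912) x43660) x49492) x47980) x48036) x28352)
    (Nat.sub (Nat.add (Nat.add (Nat.add (Nat.add (Nat.add (Nat.add C x34914) x43662) x49494) x47982) x48042) x48034) x28354)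
    (Nat.sub (Nat.add (Nat.add (Nat.add (Nat.add (Nat.add (Nat.add C x34920) x43668) x49500) x47988) x48060) x48036) x28360)
    (Nat.sub (Nat.add (Nat.add (Nat.add (Nat.add (Nat.add (Nat.add C (Nat.mul x48060 (nat_lit 2))) x34938) x43686) x49518) x48006) x48042) x28378)
    (Nat.add (Nat.add (Nat.add (Nat.add (Nat.add (Nat.add C (Nat.mul x48140 (nat_lit 5))) x35018) x43766) x52514) x46682) x48158)
    (Nat.add (Nat.add (Nat.add (Nat.add (Nat.add (Nat.add (Nat.add (Nat.add (Nat.add C (Nat.mul x48158 (nat_lit 4))) x35036) x43784) x52532) x46700) x48212) x48140) x48176) x48164)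
    (Nat.add (Nat.add (Nat.add (Nat.add (Nat.add (Nat.add (Nat.add (Nat.add (Nat.add C (Nat.mul x48164 (nat_lit 3))) x35042) x43790) x52538) x46706) x48218) x48182) x48158) x48166)
    (Nat.sub (Nat.add (Nat.add (Nat.add (Nat.add (Nat.add (Nat.add (Nat.add (Nat.add C (Nat.mul x48166 (nat_lit 3))) x35044) x43792) x52540) x46708) x48220) x48184) x48164) x28484)
    (Nat.add (Nat.add (Nat.add (Nat.add (Nat.add (Nat.add (Nat.add (Nat.add C x48176) x35054) x43802) x52550) x46718) x48230) x48158) x48182)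
    (Nat.add (Nat.add (Nat.add (Nat.add (Nat.add (Nat.add (Nat.add (Nat.add (Nat.add (Nat.add C (Nat.mul x48182 (nat_lit 2))) x35060) x43808) x52556) x46724) x48236) x48164) x48176) x48188) x48184)
    (Nat.sub (Nat.add (Nat.add (Nat.add (Nat.add (Nat.add (Nat.add (Nat.add (Nat.add (Nat.add C x48184) x35062) x43810) x52558) x46726) x48238) x48166) x48190) x48182) x28502)
    (Nat.add (Nat.add (Nat.add (Nat.add (Nat.add (Nat.add (Nat.add (Nat.add C x48188) x35066) x43814) x52562) x46730) x48242) x48182) x48190)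
    (Nat.sub (Nat.add (Nat.add (Nat.add (Nat.add (Nat.add (Nat.add (Nat.add (Nat.add (Nat.add C (Nat.mul x48190 (nat_lit 2))) x35068) x43816) x52564) x46732) x48244) x48184) x48188) x48192) x28508)
    (Nat.sub (Nat.add (Nat.add (Nat.add (Nat.add (Nat.add (Nat.add (Nat.add C x48192) x35070) x43818) x52566) x46734) x48246) x48190) x28510)
    (Nat.add (Nat.add (Nat.add (Nat.add (Nat.add (Nat.add (Nat.add (Nat.add (Nat.add C (Nat.mul x48212 (nat_lit 3))) x35090) x43838) x52586) x46754) x48374) x48158) x48230) x48218)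
    (Nat.add (Nat.add (Nat.add (Nat.add (Nat.add (Nat.add (Nat.add (Nat.add (Nat.add (Nat.add C x48218) x35096) x43844) x52592) x46760) x48380) x48164) x48236) x48212) x48220)
    (Nat.sub (Nat.add (Nat.add (Nat.add (Nat.add (Nat.add (Nat.add (Nat.add (Nat.add (Nat.add C x48220) x35098) x43846) x52594) x46762) x48382) x48166) x48238) x48218) x28538)
    (Nat.add (Nat.add (Nat.add (Nat.add (Nat.add (Nat.add (Nat.add (Nat.add (Nat.add (Nat.add C (Nat.mul x48230 (nat_lit 2))) x35108) x43856) x52604) x46772) x48392) x48176) x48284) x48212) x48236)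
    (Nat.add (Nat.add (Nat.add (Nat.add (Nat.add (Nat.add (Nat.add (Nat.add (Nat.add (Nat.add (Nat.add (Nat.add (Nat.add C (Nat.mul x48236 (nat_lit 2))) x35114) x43862) x52610) x46778) x48398) x48182) x48290) x48218) x48254) x48230) x48242) x48238)
    (Nat.sub (Nat.add (Nat.add (Nat.add (Nat.add (Nat.add (Nat.add (Nat.add (Nat.add (Nat.add (Nat.add (Nat.add (Nat.add C x48238) x35116) x43864) x52612) x46780) x48400) x48184) x48292) x48220) x48256) x48244) x48236) x28556)
    (Nat.add (Nat.add (Nat.add (Nat.add (Nat.add (Nat.add (Nat.add (Nat.add (Nat.add (Nat.add C x35120) x43868) x52616) x46784) x48404) x48188) x48296) x48260) x48236) x48244)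
    (Nat.sub (Nat.add (Nat.add (Nat.add (Nat.add (Nat.add (Nat.add (Nat.add (Nat.add (Nat.add (Nat.add (Nat.add (Nat.add C x48244) x35122) x43870) x52618) x46786) x48406) x48190) x48298) x48262) x48238) x48242) x48246) x28562)
    (Nat.sub (Nat.add (Nat.add (Nat.add (Nat.add (Nat.add (Nat.add (Nat.add (Nat.add (Nat.add C x35124) x43872) x52620) x46788) x48408) x48192) x48300) x48264) x48244) x28564)
    (Nat.add (Nat.add (Nat.add (Nat.add (Nat.add (Nat.add (Nat.add (Nat.add (Nat.add (Nat.add C x48254) x35132) x43880) x52628) x46796) x48416) x48308) x48236) x48260) x48256)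
    (Nat.sub (Nat.sub (Nat.add (Nat.add (Nat.add (Nat.add (Nat.add (Nat.add (Nat.add (Nat.add (Nat.add C x35134) x43882) x52630) x46798) x48418) x48310) x48238) x48262) x48254) x48256) x28574)
    (Nat.add (Nat.add (Nat.add (Nat.add (Nat.add (Nat.add (Nat.add (Nat.add (Nat.add (Nat.add C x48260) x35138) x43886) x52634) x46802) x48422) x48314) x48242) x48254) x48262)
    (Nat.sub (Nat.add (Nat.add (Nat.add (Nat.add (Nat.add (Nat.add (Nat.add (Nat.add (Nat.add (Nat.add (Nat.add (Nat.add C x48262) x35140) x43888) x52636) x46804) x48424) x48316) x48244) x48256) x48268) x48260) x48264) x28580)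
    (Nat.sub (Nat.sub (Nat.add (Nat.add (Nat.add (Nat.add (Nat.add (Nat.add (Nat.add (Nat.add (Nat.add C x35142) x43890) x52638) x46806) x48426) x48318) x48246) x48270) x48262) x48264) x28582)
    (Nat.sub (Nat.add (Nat.add (Nat.add (Nat.add (Nat.add (Nat.add (Nat.add (Nat.add (Nat.add C x48268) x35146) x43894) x52642) x46810) x48430) x48322) x48262) x48270) x28586)
    (Nat.sub (Nat.add (Nat.add (Nat.add (Nat.add (Nat.add (Nat.add (Nat.add (Nat.add (Nat.add C x48270) x35148) x43896) x52644) x46812) x48432) x48324) x48264) x48268) x28588)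
    (Nat.add (Nat.add (Nat.add (Nat.add (Nat.add (Nat.add (Nat.add (Nat.add C x48284) x35162) x43910) x52658) x46826) x48446) x48230) x48290)
    (Nat.add (Nat.add (Nat.add (Nat.add (Nat.add (Nat.add (Nat.add (Nat.add (Nat.add (Nat.add C x35168) x43916) x52664) x46832) x48452) x48236) x48308) x48284) x48296) x48292)
    (Nat.sub (Nat.sub (Nat.add (Nat.add (Nat.add (Nat.add (Nat.add (Nat.add (Nat.add (Nat.add (Nat.add C x35170) x43918) x52666) x46834) x48454) x48238) x48310) x48298) x48290) x48292) x28610)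
    (Nat.sub (Nat.add (Nat.add (Nat.add (Nat.add (Nat.add (Nat.add (Nat.add (Nat.add (Nat.add C x35174) x43922) x52670) x46838) x48458) x48242) x48314) x48290) x48298) (Nat.mul x48296 (nat_lit 3)))
    (Nat.sub (Nat.sub (Nat.add (Nat.add (Nat.add (Nat.add (Nat.add (Nat.add (Nat.add (Nat.add (Nat.add (Nat.add C x35176) x43924) x52672) x46840) x48460) x48244) x48316) x48292) x48296) x48300) (Nat.mul x48298 (nat_lit 2))) x28616)
    (Nat.sub (Nat.sub (Nat.add (Nat.add (Nat.add (Nat.add (Nat.add (Nat.add (Nat.add (Nat.add C x35178) x43926) x52674) x46842) x48462) x48246) x48318) x48298) (Nat.mul x48300 (nat_lit 3))) x28618)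
    (Nat.add (Nat.add (Nat.add (Nat.add (Nat.add (Nat.add (Nat.add (Nat.add (Nat.add (Nat.add C x48308) x35186) x43934) x52682) x46850) x48470) x48254) x48290) x48314) x48310)
    (Nat.sub (Nat.sub (Nat.add (Nat.add (Nat.add (Nat.add (Nat.add (Nat.add (Nat.add (Nat.add (Nat.add C x35188) x43936) x52684) x46852) x48472) x48256) x48292) x48316) x48308) x48310) x28628)
    (Nat.add (Nat.add (Nat.add (Nat.add (Nat.add (Nat.add (Nat.add (Nat.add (Nat.add (Nat.add C x35192) x43940) x52688) x46856) x48476) x48260) x48296) x48332) x48308) x48316)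
    (Nat.sub (Nat.add (Nat.add (Nat.add (Nat.add (Nat.add (Nat.add (Nat.add (Nat.add (Nat.add (Nat.add (Nat.add (Nat.add C x35194) x43942) x52690) x46858) x48478) x48262) x48298) x48334) x48310) x48322) x48314) x48318) x28634)
    (Nat.sub (Nat.sub (Nat.add (Nat.add (Nat.add (Nat.add (Nat.add (Nat.add (Nat.add (Nat.add (Nat.add (Nat.add C x35196) x43944) x52692) x46860) x48480) x48264) x48300) x48336) x48324) x48316) (Nat.mul x48318 (nat_lit 2))) x28636)
    (Nat.sub (Nat.sub (Nat.add (Nat.add (Nat.add (Nat.add (Nat.add (Nat.add (Nat.add (Nat.add (Nat.add C x35200) x43948) x52696) x46864) x48484) x48268) x48340) x48316) x48324) x48322) x28640)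
    (Nat.sub (Nat.sub (Nat.add (Nat.add (Nat.add (Nat.add (Nat.add (Nat.add (Nat.add (Nat.add (Nat.add C x35202) x43950) x52698) x46866) x48486) x48270) x48342) x48318) x48322) x48324) x28642)
    (Nat.add (Nat.add (Nat.add (Nat.add (Nat.add (Nat.add (Nat.add (Nat.add C x48332) x35210) x43958) x52706) x46874) x48494) x48314) x48334)
    (Nat.sub (Nat.add (Nat.add (Nat.add (Nat.add (Nat.add (Nat.add (Nat.add (Nat.add (Nat.add C x35212) x43960) x52708) x46876) x48496) x48316) x48340) x48332) x48336) x28652)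
    (Nat.sub (Nat.sub (Nat.add (Nat.add (Nat.add (Nat.add (Nat.add (Nat.add (Nat.add (Nat.add C x35214) x43962) x52710) x46878) x48498) x48318) x48342) x48334) (Nat.mul x48336 (nat_lit 3))) x28654)
    (Nat.sub (Nat.add (Nat.add (Nat.add (Nat.add (Nat.add (Nat.add (Nat.add (Nat.add (Nat.add C x48340) x35218) x43966) x52714) x46882) x48502) x48322) x48334) x48342) x28658)
    (Nat.sub (Nat.add (Nat.add (Nat.add (Nat.add (Nat.add (Nat.add (Nat.add (Nat.add (Nat.add C x35220) x43968) x52716) x46884) x48504) x48324) x48336) x48348) x48340) x28660)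
    (Nat.sub (Nat.add (Nat.add (Nat.add (Nat.add (Nat.add (Nat.add (Nat.add C x48348) x35226) x43974) x52722) x46890) x48510) x48342) x28666)
    (Nat.add (Nat.add (Nat.add (Nat.add (Nat.add (Nat.add (Nat.add (Nat.add (Nat.add C (Nat.mul x48374 (nat_lit 3))) x35252) x44000) x52748) x46916) x48860) x48212) x48392) x48380)
    (Nat.add (Nat.add (Nat.add (Nat.add (Nat.add (Nat.add (Nat.add (Nat.add (Nat.add (Nat.add C x48380) x35258) x44006) x52754) x46922) x48866) x48218) x48398) x48374) x48382)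
    (Nat.sub (Nat.add (Nat.add (Nat.add (Nat.add (Nat.add (Nat.add (Nat.add (Nat.add (Nat.add C x48382) x35260) x44008) x52756) x46924) x48868) x48220) x48400) x48380) x28700)
    (Nat.add (Nat.add (Nat.add (Nat.add (Nat.add (Nat.add (Nat.add (Nat.add (Nat.add (Nat.add C x48392) x35270) x44018) x52766) x46934) x48878) x48230) x48446) x48374) x48398)
    (Nat.add (Nat.add (Nat.add (Nat.add (Nat.add (Nat.add (Nat.add (Nat.add (Nat.add (Nat.add (Nat.add (Nat.add (Nat.add C x48398) x35276) x44024) x52772) x46940) x48884) x48236) x48452) x48380) x48416) x48392) x48404) x48400)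
    (Nat.sub (Nat.add (Nat.add (Nat.add (Nat.add (Nat.add (Nat.add (Nat.add (Nat.add (Nat.add (Nat.add (Nat.add C x35278) x44026) x52774) x46942) x48886) x48238) x48454) x48382) x48418) x48406) x48398) x28718)
    (Nat.sub (Nat.add (Nat.add (Nat.add (Nat.add (Nat.add (Nat.add (Nat.add (Nat.add (Nat.add (Nat.add C x35282) x44030) x52778) x46946) x48890) x48242) x48458) x48422) x48398) x48406) x48404)
    (Nat.sub (Nat.add (Nat.add (Nat.add (Nat.add (Nat.add (Nat.add (Nat.add (Nat.add (Nat.add (Nat.add (Nat.add C x35284) x44032) x52780) x46948) x48892) x48244) x48460) x48424) x48400) x48404) x48408) x28724)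
    (Nat.sub (Nat.sub (Nat.add (Nat.add (Nat.add (Nat.add (Nat.add (Nat.add (Nat.add (Nat.add (Nat.add C x35286) x44034) x52782) x46950) x48894) x48246) x48462) x48426) x48406) x48408) x28726)
    (Nat.sub (Nat.add (Nat.add (Nat.add (Nat.add (Nat.add (Nat.add (Nat.add (Nat.add (Nat.add (Nat.add C x35294) x44042) x52790) x46958) x48902) x48254) x48470) x48398) x48422) x48418) x48416)
    (Nat.sub (Nat.sub (Nat.add (Nat.add (Nat.add (Nat.add (Nat.add (Nat.add (Nat.add (Nat.add (Nat.add (Nat.add C x35296) x44044) x52792) x46960) x48904) x48256) x48472) x48400) x48424) x48416) (Nat.mul x48418 (nat_lit 3))) x28736)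
    (Nat.sub (Nat.add (Nat.add (Nat.add (Nat.add (Nat.add (Nat.add (Nat.add (Nat.add (Nat.add (Nat.add C x35300) x44048) x52796) x46964) x48908) x48260) x48476) x48404) x48416) x48424) x48422)
    (Nat.sub (Nat.sub (Nat.add (Nat.add (Nat.add (Nat.add (Nat.add (Nat.add (Nat.add (Nat.add (Nat.add (Nat.add (Nat.add (Nat.add C x35302) x44050) x52798) x46966) x48910) x48262) x48478) x48406) x48418) x48430) x48422) x48426) x48424) x28742)
    (Nat.sub (Nat.sub (Nat.add (Nat.add (Nat.add (Nat.add (Nat.add (Nat.add (Nat.add (Nat.add (Nat.add (Nat.add C x35304) x44052) x52800) x46968) x48912) x48264) x48480) x48408) x48432) x48424) (Nat.mul x48426 (nat_lit 3))) x28744)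
    (Nat.sub (Nat.sub (Nat.add (Nat.add (Nat.add (Nat.add (Nat.add (Nat.add (Nat.add (Nat.add (Nat.add C x35308) x44056) x52804) x46972) x48916) x48268) x48484) x48424) x48432) x48430) x28748)
    (Nat.sub (Nat.sub (Nat.add (Nat.add (Nat.add (Nat.add (Nat.add (Nat.add (Nat.add (Nat.add (Nat.add C x35310) x44058) x52806) x46974) x48918) x48270) x48486) x48426) x48430) x48432) x28750)
    (Nat.add (Nat.add (Nat.add (Nat.add (Nat.add (Nat.add (Nat.add (Nat.add (Nat.add (Nat.add C (Nat.mul x48446 (nat_lit 2))) x35324) x44072) x52820) x46988) x48932) x48284) x48608) x48392) x48452)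
    (Nat.add (Nat.add (Nat.add (Nat.add (Nat.add (Nat.add (Nat.add (Nat.add (Nat.add (Nat.add (Nat.add (Nat.add (Nat.add C x48452) x35330) x44078) x52826) x46994) x48938) x48290) x48614) x48398) x48470) x48446) x48458) x48454)
    (Nat.sub (Nat.add (Nat.add (Nat.add (Nat.add (Nat.add (Nat.add (Nat.add (Nat.add (Nat.add (Nat.add (Nat.add C x35332) x44080) x52828) x46996) x48940) x48292) x48616) x48400) x48472) x48460) x48452) x28772)
    (Nat.sub (Nat.add (Nat.add (Nat.add (Nat.add (Nat.add (Nat.add (Nat.add (Nat.add (Nat.add (Nat.add (Nat.add C x35336) x44084) x52832) x47000) x48944) x48296) x48620) x48404) x48476) x48452) x48460) (Nat.mul x48458 (nat_lit 2)))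
    (Nat.sub (Nat.sub (Nat.add (Nat.add (Nat.add (Nat.add (Nat.add (Nat.add (Nat.add (Nat.add (Nat.add (Nat.add (Nat.add (Nat.add C x35338) x44086) x52834) x47002) x48946) x48298) x48622) x48406) x48478) x48454) x48458) x48462) x48460) x28778)
    (Nat.sub (Nat.sub (Nat.add (Nat.add (Nat.add (Nat.add (Nat.add (Nat.add (Nat.add (Nat.add (Nat.add (Nat.add C x35340) x44088) x52836) x47004) x48948) x48300) x48624) x48408) x48480) x48460) (Nat.mul x48462 (nat_lit 2))) x28780)
    (Nat.add (Nat.add (Nat.add (Nat.add (Nat.add (Nat.add (Nat.add (Nat.add (Nat.add (Nat.add (Nat.add (Nat.add (Nat.add C x48470) x35348) x44096) x52844) x47012) x48956) x48308) x48632) x48416) x48524) x48452) x48476) x48472)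
    (Nat.sub (Nat.sub (Nat.add (Nat.add (Nat.add (Nat.add (Nat.add (Nat.add (Nat.add (Nat.add (Nat.add (Nat.add (Nat.add (Nat.add C x35350) x44098) x52846) x47014) x48958) x48310) x48634) x48418) x48526) x48454) x48478) x48470) x48472) x28790)
    (Nat.add (Nat.add (Nat.add (Nat.add (Nat.add (Nat.add (Nat.add (Nat.add (Nat.add (Nat.add (Nat.add (Nat.add (Nat.add C x35354) x44102) x52850) x47018) x48962) x48314) x48638) x48422) x48530) x48458) x48494) x48470) x48478)
    (Nat.sub (Nat.add (Nat.add (Nat.add (Nat.add (Nat.add (Nat.add (Nat.add (Nat.add (Nat.add (Nat.add (Nat.add (Nat.add (Nat.add (Nat.add (Nat.add C x35356) x44104) x52852) x47020) x48964) x48316) x48640) x48424) x48532) x48460) x48496) x48472) x48484) x48476) x48480) x28796)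
    (Nat.sub (Nat.sub (Nat.add (Nat.add (Nat.add (Nat.add (Nat.add (Nat.add (Nat.add (Nat.add (Nat.add (Nat.add (Nat.add (Nat.add (Nat.add C x35358) x44106) x52854) x47022) x48966) x48318) x48642) x48426) x48534) x48462) x48498) x48486) x48478) (Nat.mul x48480 (nat_lit 2))) x28798)
    (Nat.sub (Nat.sub (Nat.add (Nat.add (Nat.add (Nat.add (Nat.add (Nat.add (Nat.add (Nat.add (Nat.add (Nat.add (Nat.add (Nat.add C x35362) x44110) x52858) x47026) x48970) x48322) x48646) x48430) x48538) x48502) x48478) x48486) x48484) x28802)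
    (Nat.sub (Nat.sub (Nat.add (Nat.add (Nat.add (Nat.add (Nat.add (Nat.add (Nat.add (Nat.add (Nat.add (Nat.add (Nat.add (Nat.add C x35364) x44112) x52860) x47028) x48972) x48324) x48648) x48432) x48540) x48504) x48480) x48484) x48486) x28804)
    (Nat.add (Nat.add (Nat.add (Nat.add (Nat.add (Nat.add (Nat.add (Nat.add (Nat.add (Nat.add C x35372) x44120) x52868) x47036) x48980) x48332) x48656) x48548) x48476) x48496)
    (Nat.sub (Nat.sub (Nat.add (Nat.add (Nat.add (Nat.add (Nat.add (Nat.add (Nat.add (Nat.add (Nat.add (Nat.add (Nat.add (Nat.add C x35374) x44122) x52870) x47038) x48982) x48334) x48658) x48550) x48478) x48502) x48494) x48498) x48496) x28814)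
    (Nat.sub (Nat.sub (Nat.add (Nat.add (Nat.add (Nat.add (Nat.add (Nat.add (Nat.add (Nat.add (Nat.add (Nat.add (Nat.add C x35376) x44124) x52872) x47040) x48984) x48336) x48660) x48552) x48480) x48504) x48496) (Nat.mul x48498 (nat_lit 4))) x28816)
    (Nat.sub (Nat.add (Nat.add (Nat.add (Nat.add (Nat.add (Nat.add (Nat.add (Nat.add (Nat.add (Nat.add (Nat.add C x35380) x44128) x52876) x47044) x48988) x48340) x48664) x48556) x48484) x48496) x48504) x28820)
    (Nat.sub (Nat.sub (Nat.add (Nat.add (Nat.add (Nat.add (Nat.add (Nat.add (Nat.add (Nat.add (Nat.add (Nat.add (Nat.add (Nat.add C x35382) x44130) x52878) x47046) x48990) x48342) x48666) x48558) x48486) x48498) x48510) x48502) x48504) x28822)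
    (Nat.sub (Nat.add (Nat.add (Nat.add (Nat.add (Nat.add (Nat.add (Nat.add (Nat.add (Nat.add C x35388) x44136) x52884) x47052) x48996) x48348) x48672) x48564) x48504) x28828)
    (Nat.add (Nat.add (Nat.add (Nat.add (Nat.add (Nat.add (Nat.add (Nat.add (Nat.add (Nat.add C x48524) x35402) x44150) x52898) x47066) x49010) x48686) x48470) x48530) x48526)
    (Nat.sub (Nat.sub (Nat.add (Nat.add (Nat.add (Nat.add (Nat.add (Nat.add (Nat.add (Nat.add (Nat.add C x35404) x44152) x52900) x47068) x49012) x48688) x48472) x48532) x48524) x48526) x28844)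
    (Nat.sub (Nat.add (Nat.add (Nat.add (Nat.add (Nat.add (Nat.add (Nat.add (Nat.add (Nat.add (Nat.add C x35408) x44156) x52904) x47072) x49016) x48692) x48476) x48548) x48524) x48532) x48530)
    (Nat.sub (Nat.sub (Nat.add (Nat.add (Nat.add (Nat.add (Nat.add (Nat.add (Nat.add (Nat.add (Nat.add (Nat.add (Nat.add (Nat.add C x35410) x44158) x52906) x47074) x49018) x48694) x48478) x48550) x48526) x48538) x48530) x48534) x48532) x28850)
    (Nat.sub (Nat.sub (Nat.add (Nat.add (Nat.add (Nat.add (Nat.add (Nat.add (Nat.add (Nat.add (Nat.add (Nat.add C x35412) x44160) x52908) x47076) x49020) x48696) x48480) x48552) x48540) x48532) (Nat.mul x48534 (nat_lit 3))) x28852)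
    (Nat.sub (Nat.sub (Nat.add (Nat.add (Nat.add (Nat.add (Nat.add (Nat.add (Nat.add (Nat.add (Nat.add (Nat.add C x35416) x44164) x52912) x47080) x49024) x48700) x48484) x48556) x48532) x48540) (Nat.mul x48538 (nat_lit 3))) x28856)
    (Nat.sub (Nat.sub (Nat.add (Nat.add (Nat.add (Nat.add (Nat.add (Nat.add (Nat.add (Nat.add (Nat.add (Nat.add C x35418) x44166) x52914) x47082) x49026) x48702) x48486) x48558) x48534) x48538) (Nat.mul x48540 (nat_lit 3))) x28858)
    (Nat.add (Nat.add (Nat.add (Nat.add (Nat.add (Nat.add (Nat.add (Nat.add (Nat.add (Nat.add C x48548) x35426) x44174) x52922) x47090) x49034) x48710) x48494) x48530) x48550)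
    (Nat.sub (Nat.add (Nat.add (Nat.add (Nat.add (Nat.add (Nat.add (Nat.add (Nat.add (Nat.add (Nat.add (Nat.add C x35428) x44176) x52924) x47092) x49036) x48712) x48496) x48532) x48556) x48548) x48552) x28868)
    (Nat.sub (Nat.sub (Nat.add (Nat.add (Nat.add (Nat.add (Nat.add (Nat.add (Nat.add (Nat.add (Nat.add (Nat.add C x35430) x44178) x52926) x47094) x49038) x48714) x48498) x48534) x48558) x48550) (Nat.mul x48552 (nat_lit 3))) x28870)
    (Nat.sub (Nat.add (Nat.add (Nat.add (Nat.add (Nat.add (Nat.add (Nat.add (Nat.add (Nat.add (Nat.add (Nat.add C x35434) x44182) x52930) x47098) x49042) x48718) x48502) x48538) x48574) x48550) x48558) x28874)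
    (Nat.sub (Nat.sub (Nat.add (Nat.add (Nat.add (Nat.add (Nat.add (Nat.add (Nat.add (Nat.add (Nat.add (Nat.add (Nat.add (Nat.add C x35436) x44184) x52932) x47100) x49044) x48720) x48504) x48540) x48576) x48552) x48564) x48556) x48558) x28876)
    (Nat.sub (Nat.sub (Nat.add (Nat.add (Nat.add (Nat.add (Nat.add (Nat.add (Nat.add (Nat.add (Nat.add C x35442) x44190) x52938) x47106) x49050) x48726) x48510) x48582) x48558) x48564) x28882)
    (Nat.sub (Nat.add (Nat.add (Nat.add (Nat.add (Nat.add (Nat.add (Nat.add (Nat.add (Nat.add C x48574) x35452) x44200) x52948) x47116) x49060) x48736) x48556) x48576) x28892)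
    (Nat.sub (Nat.sub (Nat.add (Nat.add (Nat.add (Nat.add (Nat.add (Nat.add (Nat.add (Nat.add (Nat.add C x35454) x44202) x52950) x47118) x49062) x48738) x48558) x48582) x48574) x48576) x28894)
    (Nat.sub (Nat.add (Nat.add (Nat.add (Nat.add (Nat.add (Nat.add (Nat.add (Nat.add (Nat.add C x48582) x35460) x44208) x52956) x47124) x49068) x48744) x48564) x48576) x28900)
    (Nat.add (Nat.add (Nat.add (Nat.add (Nat.add (Nat.add (Nat.add (Nat.add C x48608) x35486) x44234) x52982) x47150) x49094) x48446) x48614)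
    (Nat.add (Nat.add (Nat.add (Nat.add (Nat.add (Nat.add (Nat.add (Nat.add (Nat.add (Nat.add C x35492) x44240) x52988) x47156) x49100) x48452) x48632) x48608) x48620) x48616)
    (Nat.sub (Nat.sub (Nat.add (Nat.add (Nat.add (Nat.add (Nat.add (Nat.add (Nat.add (Nat.add (Nat.add C x35494) x44242) x52990) x47158) x49102) x48454) x48634) x48622) x48614) x48616) x28934)
    (Nat.sub (Nat.add (Nat.add (Nat.add (Nat.add (Nat.add (Nat.add (Nat.add (Nat.add (Nat.add C x35498) x44246) x52994) x47162) x49106) x48458) x48638) x48614) x48622) (Nat.mul x48620 (nat_lit 3)))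
    (Nat.sub (Nat.sub (Nat.add (Nat.add (Nat.add (Nat.add (Nat.add (Nat.add (Nat.add (Nat.add (Nat.add (Nat.add C x35500) x44248) x52996) x47164) x49108) x48460) x48640) x48616) x48620) x48624) (Nat.mul x48622 (nat_lit 2))) x28940)
    (Nat.sub (Nat.sub (Nat.add (Nat.add (Nat.add (Nat.add (Nat.add (Nat.add (Nat.add (Nat.add C x35502) x44250) x52998) x47166) x49110) x48462) x48642) x48622) (Nat.mul x48624 (nat_lit 3))) x28942)
    (Nat.sub (Nat.add (Nat.add (Nat.add (Nat.add (Nat.add (Nat.add (Nat.add (Nat.add (Nat.add (Nat.add C x35510) x44258) x53006) x47174) x49118) x48470) x48686) x48614) x48638) x48634) x48632)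
    (Nat.sub (Nat.sub (Nat.add (Nat.add (Nat.add (Nat.add (Nat.add (Nat.add (Nat.add (Nat.add (Nat.add (Nat.add C x35512) x44260) x53008) x47176) x49120) x48472) x48688) x48616) x48640) x48632) (Nat.mul x48634 (nat_lit 3))) x28952)
    (Nat.sub (Nat.add (Nat.add (Nat.add (Nat.add (Nat.add (Nat.add (Nat.add (Nat.add (Nat.add (Nat.add (Nat.add C x35516) x44264) x53012) x47180) x49124) x48476) x48692) x48620) x48656) x48632) x48640) (Nat.mul x48638 (nat_lit 2)))
    (Nat.sub (Nat.sub (Nat.add (Nat.add (Nat.add (Nat.add (Nat.add (Nat.add (Nat.add (Nat.add (Nat.add (Nat.add (Nat.add (Nat.add (Nat.add C x35518) x44266) x53014) x47182) x49126) x48478) x48694) x48622) x48658) x48634) x48646) x48638) x48642) (Nat.mul x48640 (nat_lit 2))) x28958)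
    (Nat.sub (Nat.sub (Nat.add (Nat.add (Nat.add (Nat.add (Nat.add (Nat.add (Nat.add (Nat.add (Nat.add (Nat.add (Nat.add C x35520) x44268) x53016) x47184) x49128) x48480) x48696) x48624) x48660) x48648) x48640) (Nat.mul x48642 (nat_lit 4))) x28960)
    (Nat.sub (Nat.sub (Nat.add (Nat.add (Nat.add (Nat.add (Nat.add (Nat.add (Nat.add (Nat.add (Nat.add (Nat.add C x35524) x44272) x53020) x47188) x49132) x48484) x48700) x48664) x48640) x48648) (Nat.mul x48646 (nat_lit 3))) x28964)
    (Nat.sub (Nat.sub (Nat.add (Nat.add (Nat.add (Nat.add (Nat.add (Nat.add (Nat.add (Nat.add (Nat.add (Nat.add C x35526) x44274) x53022) x47190) x49134) x48486) x48702) x48666) x48642) x48646) (Nat.mul x48648 (nat_lit 3))) x28966)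
    (Nat.sub (Nat.add (Nat.add (Nat.add (Nat.add (Nat.add (Nat.add (Nat.add (Nat.add (Nat.add C x35534) x44282) x53030) x47198) x49142) x48494) x48710) x48638) x48658) (Nat.mul x48656 (nat_lit 3)))
    (Nat.sub (Nat.sub (Nat.add (Nat.add (Nat.add (Nat.add (Nat.add (Nat.add (Nat.add (Nat.add (Nat.add (Nat.add (Nat.add C x35536) x44284) x53032) x47200) x49144) x48496) x48712) x48640) x48664) x48656) x48660) (Nat.mul x48658 (nat_lit 4))) x28976)
    (Nat.sub (Nat.sub (Nat.add (Nat.add (Nat.add (Nat.add (Nat.add (Nat.add (Nat.add (Nat.add (Nat.add (Nat.add C x35538) x44286) x53034) x47202) x49146) x48498) x48714) x48642) x48666) x48658) (Nat.mul x48660 (nat_lit 7))) x28978)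
    (Nat.sub (Nat.sub (Nat.add (Nat.add (Nat.add (Nat.add (Nat.add (Nat.add (Nat.add (Nat.add (Nat.add (Nat.add C x35542) x44290) x53038) x47206) x49150) x48502) x48718) x48646) x48658) x48666) (Nat.mul x48664 (nat_lit 3))) x28982)
    (Nat.sub (Nat.sub (Nat.add (Nat.add (Nat.add (Nat.add (Nat.add (Nat.add (Nat.add (Nat.add (Nat.add (Nat.add (Nat.add C x35544) x44292) x53040) x47208) x49152) x48504) x48720) x48648) x48660) x48672) x48664) (Nat.mul x48666 (nat_lit 4))) x28984)
    (Nat.sub (Nat.sub (Nat.add (Nat.add (Nat.add (Nat.add (Nat.add (Nat.add (Nat.add (Nat.add C x35550) x44298) x53046) x47214) x49158) x48510) x48726) x48666) (Nat.mul x48672 (nat_lit 3))) x28990)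
    (Nat.add (Nat.add (Nat.add (Nat.add (Nat.add (Nat.add (Nat.add (Nat.add (Nat.add (Nat.add C x48686) x35564) x44312) x53060) x47228) x49172) x48524) x48632) x48692) x48688)
    (Nat.sub (Nat.sub (Nat.add (Nat.add (Nat.add (Nat.add (Nat.add (Nat.add (Nat.add (Nat.add (Nat.add C x35566) x44314) x53062) x47230) x49174) x48526) x48634) x48694) x48686) x48688) x29006)
    (Nat.sub (Nat.add (Nat.add (Nat.add (Nat.add (Nat.add (Nat.add (Nat.add (Nat.add (Nat.add (Nat.add C x35570) x44318) x53066) x47234) x49178) x48530) x48638) x48710) x48686) x48694) x48692)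
    (Nat.sub (Nat.sub (Nat.add (Nat.add (Nat.add (Nat.add (Nat.add (Nat.add (Nat.add (Nat.add (Nat.add (Nat.add (Nat.add (Nat.add C x35572) x44320) x53068) x47236) x49180) x48532) x48640) x48712) x48688) x48700) x48692) x48696) x48694) x29012)
    (Nat.sub (Nat.sub (Nat.add (Nat.add (Nat.add (Nat.add (Nat.add (Nat.add (Nat.add (Nat.add (Nat.add (Nat.add C x35574) x44322) x53070) x47238) x49182) x48534) x48642) x48714) x48702) x48694) (Nat.mul x48696 (nat_lit 3))) x29014)
    (Nat.sub (Nat.sub (Nat.add (Nat.add (Nat.add (Nat.add (Nat.add (Nat.add (Nat.add (Nat.add (Nat.add (Nat.add C x35578) x44326) x53074) x47242) x49186) x48538) x48646) x48718) x48694) x48702) (Nat.mul x48700 (nat_lit 3))) x29018)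
    (Nat.sub (Nat.sub (Nat.add (Nat.add (Nat.add (Nat.add (Nat.add (Nat.add (Nat.add (Nat.add (Nat.add (Nat.add C x35580) x44328) x53076) x47244) x49188) x48540) x48648) x48720) x48696) x48700) (Nat.mul x48702 (nat_lit 3))) x29020)
    (Nat.add (Nat.add (Nat.add (Nat.add (Nat.add (Nat.add (Nat.add (Nat.add (Nat.add (Nat.add C x35588) x44336) x53084) x47252) x49196) x48548) x48656) x48764) x48692) x48712)
    (Nat.sub (Nat.sub (Nat.add (Nat.add (Nat.add (Nat.add (Nat.add (Nat.add (Nat.add (Nat.add (Nat.add (Nat.add (Nat.add (Nat.add C x35590) x44338) x53086) x47254) x49198) x48550) x48658) x48766) x48694) x48718) x48710) x48714) x48712) x29030)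
    (Nat.sub (Nat.sub (Nat.add (Nat.add (Nat.add (Nat.add (Nat.add (Nat.add (Nat.add (Nat.add (Nat.add (Nat.add (Nat.add C x35592) x44340) x53088) x47256) x49200) x48552) x48660) x48768) x48696) x48720) x48712) (Nat.mul x48714 (nat_lit 4))) x29032)
    (Nat.sub (Nat.sub (Nat.add (Nat.add (Nat.add (Nat.add (Nat.add (Nat.add (Nat.add (Nat.add (Nat.add (Nat.add (Nat.add (Nat.add C x35596) x44344) x53092) x47260) x49204) x48556) x48664) x48772) x48700) x48736) x48712) x48720) x48718) x29036)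
    (Nat.sub (Nat.sub (Nat.add (Nat.add (Nat.add (Nat.add (Nat.add (Nat.add (Nat.add (Nat.add (Nat.add (Nat.add (Nat.add (Nat.add (Nat.add C x35598) x44346) x53094) x47262) x49206) x48558) x48666) x48774) x48702) x48738) x48714) x48726) x48718) (Nat.mul x48720 (nat_lit 2))) x29038)
    (Nat.sub (Nat.sub (Nat.add (Nat.add (Nat.add (Nat.add (Nat.add (Nat.add (Nat.add (Nat.add (Nat.add (Nat.add C x35604) x44352) x53100) x47268) x49212) x48564) x48672) x48780) x48744) x48720) (Nat.mul x48726 (nat_lit 2))) x29044)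
    (Nat.sub (Nat.sub (Nat.add (Nat.add (Nat.add (Nat.add (Nat.add (Nat.add (Nat.add (Nat.add (Nat.add C x35614) x44362) x53110) x47278) x49222) x48574) x48790) x48718) x48738) x48736) x29054)
    (Nat.sub (Nat.sub (Nat.add (Nat.add (Nat.add (Nat.add (Nat.add (Nat.add (Nat.add (Nat.add (Nat.add (Nat.add C x35616) x44364) x53112) x47280) x49224) x48576) x48792) x48720) x48744) x48736) (Nat.mul x48738 (nat_lit 3))) x29056)
    (Nat.sub (Nat.sub (Nat.add (Nat.add (Nat.add (Nat.add (Nat.add (Nat.add (Nat.add (Nat.add (Nat.add C x35622) x44370) x53118) x47286) x49230) x48582) x48798) x48726) x48738) x48744) x29062)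
    (Nat.add (Nat.add (Nat.add (Nat.add (Nat.add (Nat.add (Nat.add (Nat.add C x48764) x35642) x44390) x53138) x47306) x49250) x48710) x48766)
    (Nat.sub (Nat.add (Nat.add (Nat.add (Nat.add (Nat.add (Nat.add (Nat.add (Nat.add (Nat.add C x35644) x44392) x53140) x47308) x49252) x48712) x48772) x48764) x48768) x29084)
    (Nat.sub (Nat.sub (Nat.add (Nat.add (Nat.add (Nat.add (Nat.add (Nat.add (Nat.add (Nat.add C x35646) x44394) x53142) x47310) x49254) x48714) x48774) x48766) (Nat.mul x48768 (nat_lit 3))) x29086)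
    (Nat.sub (Nat.sub (Nat.add (Nat.add (Nat.add (Nat.add (Nat.add (Nat.add (Nat.add (Nat.add (Nat.add C x35650) x44398) x53146) x47314) x49258) x48718) x48790) x48766) x48774) x48772) x29090)
    (Nat.sub (Nat.sub (Nat.add (Nat.add (Nat.add (Nat.add (Nat.add (Nat.add (Nat.add (Nat.add (Nat.add (Nat.add C x35652) x44400) x53148) x47316) x49260) x48720) x48792) x48768) x48780) x48772) (Nat.mul x48774 (nat_lit 2))) x29092)
    (Nat.sub (Nat.sub (Nat.add (Nat.add (Nat.add (Nat.add (Nat.add (Nat.add (Nat.add (Nat.add C x35658) x44406) x53154) x47322) x49266) x48726) x48798) x48774) (Nat.mul x48780 (nat_lit 3))) x29098)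
    (Nat.sub (Nat.add (Nat.add (Nat.add (Nat.add (Nat.add (Nat.add (Nat.add (Nat.add (Nat.add C x48790) x35668) x44416) x53164) x47332) x49276) x48736) x48772) x48792) x29108)
    (Nat.sub (Nat.sub (Nat.add (Nat.add (Nat.add (Nat.add (Nat.add (Nat.add (Nat.add (Nat.add (Nat.add C x35670) x44418) x53166) x47334) x49278) x48738) x48774) x48798) x48790) x48792) x29110)
    (Nat.sub (Nat.add (Nat.add (Nat.add (Nat.add (Nat.add (Nat.add (Nat.add (Nat.add (Nat.add C x35676) x44424) x53172) x47340) x49284) x48744) x48780) x48816) x48792) x29116)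
    (Nat.sub (Nat.add (Nat.add (Nat.add (Nat.add (Nat.add (Nat.add (Nat.add C x48816) x35694) x44442) x53190) x47358) x49302) x48798) x29134)
    (Nat.add (Nat.add (Nat.add (Nat.add (Nat.add (Nat.add (Nat.add (Nat.add (Nat.add C (Nat.mul x48860 (nat_lit 4))) x35738) x44486) x53234) x47402) x50318) x48374) x48878) x48866)
    (Nat.add (Nat.add (Nat.add (Nat.add (Nat.add (Nat.add (Nat.add (Nat.add (Nat.add (Nat.add C (Nat.mul x48866 (nat_lit 2))) x35744) x44492) x53240) x47408) x50324) x48380) x48884) x48860) x48868)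
    (Nat.sub (Nat.add (Nat.add (Nat.add (Nat.add (Nat.add (Nat.add (Nat.add (Nat.add (Nat.add C (Nat.mul x48868 (nat_lit 2))) x35746) x44494) x53242) x47410) x50326) x48382) x48886) x48866) x29186)
    (Nat.add (Nat.add (Nat.add (Nat.add (Nat.add (Nat.add (Nat.add (Nat.add (Nat.add (Nat.add C (Nat.mul x48878 (nat_lit 2))) x35756) x44504) x53252) x47420) x50336) x48392) x48932) x48860) x48884)
    (Nat.add (Nat.add (Nat.add (Nat.add (Nat.add (Nat.add (Nat.add (Nat.add (Nat.add (Nat.add (Nat.add (Nat.add (Nat.add C (Nat.mul x48884 (nat_lit 2))) x35762) x44510) x53258) x47426) x50342) x48398) x48938) x48866) x48902) x48878) x48890) x48886)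
    (Nat.sub (Nat.add (Nat.add (Nat.add (Nat.add (Nat.add (Nat.add (Nat.add (Nat.add (Nat.add (Nat.add (Nat.add (Nat.add C x48886) x35764) x44512) x53260) x47428) x50344) x48400) x48940) x48868) x48904) x48892) x48884) x29204)
    (Nat.add (Nat.add (Nat.add (Nat.add (Nat.add (Nat.add (Nat.add (Nat.add (Nat.add (Nat.add C x35768) x44516) x53264) x47432) x50348) x48404) x48944) x48908) x48884) x48892)
    (Nat.sub (Nat.add (Nat.add (Nat.add (Nat.add (Nat.add (Nat.add (Nat.add (Nat.add (Nat.add (Nat.add (Nat.add (Nat.add C x48892) x35770) x44518) x53266) x47434) x50350) x48406) x48946) x48910) x48886) x48890) x48894) x29210)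
    (Nat.sub (Nat.add (Nat.add (Nat.add (Nat.add (Nat.add (Nat.add (Nat.add (Nat.add (Nat.add C x35772) x44520) x53268) x47436) x50352) x48408) x48948) x48912) x48892) x29212)
    (Nat.add (Nat.add (Nat.add (Nat.add (Nat.add (Nat.add (Nat.add (Nat.add (Nat.add (Nat.add C x35780) x44528) x53276) x47444) x50360) x48416) x48956) x48884) x48908) x48904)
    (Nat.sub (Nat.sub (Nat.add (Nat.add (Nat.add (Nat.add (Nat.add (Nat.add (Nat.add (Nat.add (Nat.add (Nat.add C x35782) x44530) x53278) x47446) x50362) x48418) x48958) x48886) x48910) x48902) (Nat.mul x48904 (nat_lit 2))) x29222)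
    (Nat.add (Nat.add (Nat.add (Nat.add (Nat.add (Nat.add (Nat.add (Nat.add (Nat.add (Nat.add C x35786) x44534) x53282) x47450) x50366) x48422) x48962) x48890) x48902) x48910)
    (Nat.sub (Nat.add (Nat.add (Nat.add (Nat.add (Nat.add (Nat.add (Nat.add (Nat.add (Nat.add (Nat.add (Nat.add (Nat.add C x35788) x44536) x53284) x47452) x50368) x48424) x48964) x48892) x48904) x48916) x48908) x48912) x29228)
    (Nat.sub (Nat.sub (Nat.add (Nat.add (Nat.add (Nat.add (Nat.add (Nat.add (Nat.add (Nat.add (Nat.add (Nat.add C x35790) x44538) x53286) x47454) x50370) x48426) x48966) x48894) x48918) x48910) (Nat.mul x48912 (nat_lit 2))) x29230)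
    (Nat.sub (Nat.add (Nat.add (Nat.add (Nat.add (Nat.add (Nat.add (Nat.add (Nat.add (Nat.add C x35794) x44542) x53290) x47458) x50374) x48430) x48970) x48910) x48918) x29234)
    (Nat.sub (Nat.add (Nat.add (Nat.add (Nat.add (Nat.add (Nat.add (Nat.add (Nat.add (Nat.add C x35796) x44544) x53292) x47460) x50376) x48432) x48972) x48912) x48916) x29236)
    (Nat.add (Nat.add (Nat.add (Nat.add (Nat.add (Nat.add (Nat.add (Nat.add (Nat.add (Nat.add C (Nat.mul x48932 (nat_lit 2))) x35810) x44558) x53306) x47474) x50390) x48446) x49094) x48878) x48938)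
    (Nat.add (Nat.add (Nat.add (Nat.add (Nat.add (Nat.add (Nat.add (Nat.add (Nat.add (Nat.add (Nat.add (Nat.add (Nat.add C x48938) x35816) x44564) x53312) x47480) x50396) x48452) x49100) x48884) x48956) x48932) x48944) x48940)
    (Nat.sub (Nat.add (Nat.add (Nat.add (Nat.add (Nat.add (Nat.add (Nat.add (Nat.add (Nat.add (Nat.add (Nat.add C x35818) x44566) x53314) x47482) x50398) x48454) x49102) x48886) x48958) x48946) x48938) x29258)
    (Nat.sub (Nat.add (Nat.add (Nat.add (Nat.add (Nat.add (Nat.add (Nat.add (Nat.add (Nat.add (Nat.add (Nat.add C x35822) x44570) x53318) x47486) x50402) x48458) x49106) x48890) x48962) x48938) x48946) (Nat.mul x48944 (nat_lit 2)))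
    (Nat.sub (Nat.sub (Nat.add (Nat.add (Nat.add (Nat.add (Nat.add (Nat.add (Nat.add (Nat.add (Nat.add (Nat.add (Nat.add (Nat.add C x35824) x44572) x53320) x47488) x50404) x48460) x49108) x48892) x48964) x48940) x48944) x48948) x48946) x29264)
    (Nat.sub (Nat.sub (Nat.add (Nat.add (Nat.add (Nat.add (Nat.add (Nat.add (Nat.add (Nat.add (Nat.add (Nat.add C x35826) x44574) x53322) x47490) x50406) x48462) x49110) x48894) x48966) x48946) (Nat.mul x48948 (nat_lit 2))) x29266)
    (Nat.add (Nat.add (Nat.add (Nat.add (Nat.add (Nat.add (Nat.add (Nat.add (Nat.add (Nat.add (Nat.add (Nat.add (Nat.add C x48956) x35834) x44582) x53330) x47498) x50414) x48470) x49118) x48902) x49010) x48938) x48962) x48958)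
    (Nat.sub (Nat.sub (Nat.add (Nat.add (Nat.add (Nat.add (Nat.add (Nat.add (Nat.add (Nat.add (Nat.add (Nat.add (Nat.add (Nat.add C x35836) x44584) x53332) x47500) x50416) x48472) x49120) x48904) x49012) x48940) x48964) x48956) x48958) x29276)
    (Nat.add (Nat.add (Nat.add (Nat.add (Nat.add (Nat.add (Nat.add (Nat.add (Nat.add (Nat.add (Nat.add (Nat.add (Nat.add C x35840) x44588) x53336) x47504) x50420) x48476) x49124) x48908) x49016) x48944) x48980) x48956) x48964)
    (Nat.sub (Nat.add (Nat.add (Nat.add (Nat.add (Nat.add (Nat.add (Nat.add (Nat.add (Nat.add (Nat.add (Nat.add (Nat.add (Nat.add (Nat.add (Nat.add C x35842) x44590) x53338) x47506) x50422) x48478) x49126) x48910) x49018) x48946) x48982) x48958) x48970) x48962) x48966) x29282)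
    (Nat.sub (Nat.sub (Nat.add (Nat.add (Nat.add (Nat.add (Nat.add (Nat.add (Nat.add (Nat.add (Nat.add (Nat.add (Nat.add (Nat.add (Nat.add C x35844) x44592) x53340) x47508) x50424) x48480) x49128) x48912) x49020) x48948) x48984) x48972) x48964) (Nat.mul x48966 (nat_lit 2))) x29284)
    (Nat.sub (Nat.sub (Nat.add (Nat.add (Nat.add (Nat.add (Nat.add (Nat.add (Nat.add (Nat.add (Nat.add (Nat.add (Nat.add (Nat.add C x35848) x44596) x53344) x47512) x50428) x48484) x49132) x48916) x49024) x48988) x48964) x48972) x48970) x29288)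
    (Nat.sub (Nat.sub (Nat.add (Nat.add (Nat.add (Nat.add (Nat.add (Nat.add (Nat.add (Nat.add (Nat.add (Nat.add (Nat.add (Nat.add C x35850) x44598) x53346) x47514) x50430) x48486) x49134) x48918) x49026) x48990) x48966) x48970) x48972) x29290)
    (Nat.add (Nat.add (Nat.add (Nat.add (Nat.add (Nat.add (Nat.add (Nat.add (Nat.add (Nat.add C x35858) x44606) x53354) x47522) x50438) x48494) x49142) x49034) x48962) x48982)
    (Nat.sub (Nat.sub (Nat.add (Nat.add (Nat.add (Nat.add (Nat.add (Nat.add (Nat.add (Nat.add (Nat.add (Nat.add (Nat.add (Nat.add C x35860) x44608) x53356) x47524) x50440) x48496) x49144) x49036) x48964) x48988) x48980) x48984) x48982) x29300)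
    (Nat.sub (Nat.sub (Nat.add (Nat.add (Nat.add (Nat.add (Nat.add (Nat.add (Nat.add (Nat.add (Nat.add (Nat.add (Nat.add C x35862) x44610) x53358) x47526) x50442) x48498) x49146) x49038) x48966) x48990) x48982) (Nat.mul x48984 (nat_lit 4))) x29302)
    (Nat.sub (Nat.add (Nat.add (Nat.add (Nat.add (Nat.add (Nat.add (Nat.add (Nat.add (Nat.add (Nat.add (Nat.add C x35866) x44614) x53362) x47530) x50446) x48502) x49150) x49042) x48970) x48982) x48990) x29306)
    (Nat.sub (Nat.sub (Nat.add (Nat.add (Nat.add (Nat.add (Nat.add (Nat.add (Nat.add (Nat.add (Nat.add (Nat.add (Nat.add (Nat.add C x35868) x44616) x53364) x47532) x50448) x48504) x49152) x49044) x48972) x48984) x48996) x48988) x48990) x29308)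
    (Nat.sub (Nat.add (Nat.add (Nat.add (Nat.add (Nat.add (Nat.add (Nat.add (Nat.add (Nat.add C x35874) x44622) x53370) x47538) x50454) x48510) x49158) x49050) x48990) x29314)
    (Nat.add (Nat.add (Nat.add (Nat.add (Nat.add (Nat.add (Nat.add (Nat.add (Nat.add (Nat.add C x35888) x44636) x53384) x47552) x50468) x48524) x49172) x48956) x49016) x49012)
    (Nat.sub (Nat.sub (Nat.add (Nat.add (Nat.add (Nat.add (Nat.add (Nat.add (Nat.add (Nat.add (Nat.add (Nat.add C x35890) x44638) x53386) x47554) x50470) x48526) x49174) x48958) x49018) x49010) (Nat.mul x49012 (nat_lit 2))) x29330)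
    (Nat.sub (Nat.add (Nat.add (Nat.add (Nat.add (Nat.add (Nat.add (Nat.add (Nat.add (Nat.add (Nat.add (Nat.add C x35894) x44642) x53390) x47558) x50474) x48530) x49178) x48962) x49034) x49010) x49018) (Nat.mul x49016 (nat_lit 2)))
    (Nat.sub (Nat.sub (Nat.add (Nat.add (Nat.add (Nat.add (Nat.add (Nat.add (Nat.add (Nat.add (Nat.add (Nat.add (Nat.add (Nat.add (Nat.add C x35896) x44644) x53392) x47560) x50476) x48532) x49180) x48964) x49036) x49012) x49024) x49016) x49020) (Nat.mul x49018 (nat_lit 2))) x29336)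
    (Nat.sub (Nat.sub (Nat.add (Nat.add (Nat.add (Nat.add (Nat.add (Nat.add (Nat.add (Nat.add (Nat.add (Nat.add (Nat.add C x35898) x44646) x53394) x47562) x50478) x48534) x49182) x48966) x49038) x49026) x49018) (Nat.mul x49020 (nat_lit 4))) x29338)
    (Nat.sub (Nat.sub (Nat.add (Nat.add (Nat.add (Nat.add (Nat.add (Nat.add (Nat.add (Nat.add (Nat.add (Nat.add (Nat.add C x35902) x44650) x53398) x47566) x50482) x48538) x49186) x48970) x49042) x49018) x49026) (Nat.mul x49024 (nat_lit 4))) x29342)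
    (Nat.sub (Nat.sub (Nat.add (Nat.add (Nat.add (Nat.add (Nat.add (Nat.add (Nat.add (Nat.add (Nat.add (Nat.add (Nat.add C x35904) x44652) x53400) x47568) x50484) x48540) x49188) x48972) x49044) x49020) x49024) (Nat.mul x49026 (nat_lit 4))) x29344)
    (Nat.add (Nat.add (Nat.add (Nat.add (Nat.add (Nat.add (Nat.add (Nat.add (Nat.add (Nat.add C x35912) x44660) x53408) x47576) x50492) x48548) x49196) x48980) x49016) x49036)
    (Nat.sub (Nat.sub (Nat.add (Nat.add (Nat.add (Nat.add (Nat.add (Nat.add (Nat.add (Nat.add (Nat.add (Nat.add (Nat.add (Nat.add C x35914) x44662) x53410) x47578) x50494) x48550) x49198) x48982) x49018) x49042) x49034) x49038) x49036) x29354)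
    (Nat.sub (Nat.sub (Nat.add (Nat.add (Nat.add (Nat.add (Nat.add (Nat.add (Nat.add (Nat.add (Nat.add (Nat.add (Nat.add C x35916) x44664) x53412) x47580) x50496) x48552) x49200) x48984) x49020) x49044) x49036) (Nat.mul x49038 (nat_lit 4))) x29356)
    (Nat.sub (Nat.sub (Nat.add (Nat.add (Nat.add (Nat.add (Nat.add (Nat.add (Nat.add (Nat.add (Nat.add (Nat.add (Nat.add (Nat.add C x35920) x44668) x53416) x47584) x50500) x48556) x49204) x48988) x49024) x49060) x49036) x49044) x49042) x29360)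
    (Nat.sub (Nat.sub (Nat.add (Nat.add (Nat.add (Nat.add (Nat.add (Nat.add (Nat.add (Nat.add (Nat.add (Nat.add (Nat.add (Nat.add (Nat.add C x35922) x44670) x53418) x47586) x50502) x48558) x49206) x48990) x49026) x49062) x49038) x49050) x49042) (Nat.mul x49044 (nat_lit 2))) x29362)
    (Nat.sub (Nat.sub (Nat.add (Nat.add (Nat.add (Nat.add (Nat.add (Nat.add (Nat.add (Nat.add (Nat.add (Nat.add C x35928) x44676) x53424) x47592) x50508) x48564) x49212) x48996) x49068) x49044) (Nat.mul x49050 (nat_lit 2))) x29368)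
    (Nat.sub (Nat.add (Nat.add (Nat.add (Nat.add (Nat.add (Nat.add (Nat.add (Nat.add (Nat.add C x35938) x44686) x53434) x47602) x50518) x48574) x49222) x49042) x49062) x29378)
    (Nat.sub (Nat.sub (Nat.add (Nat.add (Nat.add (Nat.add (Nat.add (Nat.add (Nat.add (Nat.add (Nat.add (Nat.add C x35940) x44688) x53436) x47604) x50520) x48576) x49224) x49044) x49068) x49060) (Nat.mul x49062 (nat_lit 2))) x29380)
    (Nat.sub (Nat.add (Nat.add (Nat.add (Nat.add (Nat.add (Nat.add (Nat.add (Nat.add (Nat.add C x35946) x44694) x53442) x47610) x50526) x48582) x49230) x49050) x49062) x29386)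
    (Nat.add (Nat.add (Nat.add (Nat.add (Nat.add (Nat.add (Nat.add (Nat.add (Nat.add (Nat.add C (Nat.mul x49094 (nat_lit 3))) x35972) x44720) x53468) x47636) x50552) x48608) x49580) x48932) x49100)
    (Nat.add (Nat.add (Nat.add (Nat.add (Nat.add (Nat.add (Nat.add (Nat.add (Nat.add (Nat.add (Nat.add (Nat.add (Nat.add C (Nat.mul x49100 (nat_lit 2))) x35978) x44726) x53474) x47642) x50558) x48614) x49586) x48938) x49118) x49094) x49106) x49102)
    (Nat.sub (Nat.add (Nat.add (Nat.add (Nat.add (Nat.add (Nat.add (Nat.add (Nat.add (Nat.add (Nat.add (Nat.add (Nat.add C x49102) x35980) x44728) x53476) x47644) x50560) x48616) x49588) x48940) x49120) x49108) x49100) x29420)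
    (Nat.sub (Nat.add (Nat.add (Nat.add (Nat.add (Nat.add (Nat.add (Nat.add (Nat.add (Nat.add (Nat.add (Nat.add C x35984) x44732) x53480) x47648) x50564) x48620) x49592) x48944) x49124) x49100) x49108) x49106)
    (Nat.sub (Nat.add (Nat.add (Nat.add (Nat.add (Nat.add (Nat.add (Nat.add (Nat.add (Nat.add (Nat.add (Nat.add (Nat.add C x35986) x44734) x53482) x47650) x50566) x48622) x49594) x48946) x49126) x49102) x49106) x49110) x29426)
    (Nat.sub (Nat.sub (Nat.add (Nat.add (Nat.add (Nat.add (Nat.add (Nat.add (Nat.add (Nat.add (Nat.add (Nat.add C x35988) x44736) x53484) x47652) x50568) x48624) x49596) x48948) x49128) x49108) x49110) x29428)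
    (Nat.add (Nat.add (Nat.add (Nat.add (Nat.add (Nat.add (Nat.add (Nat.add (Nat.add (Nat.add (Nat.add (Nat.add (Nat.add C x49118) x35996) x44744) x53492) x47660) x50576) x48632) x49604) x48956) x49172) x49100) x49124) x49120)
    (Nat.sub (Nat.sub (Nat.add (Nat.add (Nat.add (Nat.add (Nat.add (Nat.add (Nat.add (Nat.add (Nat.add (Nat.add (Nat.add (Nat.add C x35998) x44746) x53494) x47662) x50578) x48634) x49606) x48958) x49174) x49102) x49126) x49118) x49120) x29438)
    (Nat.add (Nat.add (Nat.add (Nat.add (Nat.add (Nat.add (Nat.add (Nat.add (Nat.add (Nat.add (Nat.add (Nat.add (Nat.add C x36002) x44750) x53498) x47666) x50582) x48638) x49610) x48962) x49178) x49106) x49142) x49118) x49126)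
    (Nat.sub (Nat.add (Nat.add (Nat.add (Nat.add (Nat.add (Nat.add (Nat.add (Nat.add (Nat.add (Nat.add (Nat.add (Nat.add (Nat.add (Nat.add (Nat.add C x36004) x44752) x53500) x47668) x50584) x48640) x49612) x48964) x49180) x49108) x49144) x49120) x49132) x49124) x49128) x29444)
    (Nat.sub (Nat.sub (Nat.add (Nat.add (Nat.add (Nat.add (Nat.add (Nat.add (Nat.add (Nat.add (Nat.add (Nat.add (Nat.add (Nat.add (Nat.add C x36006) x44754) x53502) x47670) x50586) x48642) x49614) x48966) x49182) x49110) x49146) x49134) x49126) (Nat.mul x49128 (nat_lit 2))) x29446)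
    (Nat.sub (Nat.sub (Nat.add (Nat.add (Nat.add (Nat.add (Nat.add (Nat.add (Nat.add (Nat.add (Nat.add (Nat.add (Nat.add (Nat.add C x36010) x44758) x53506) x47674) x50590) x48646) x49618) x48970) x49186) x49150) x49126) x49134) x49132) x29450)
    (Nat.sub (Nat.sub (Nat.add (Nat.add (Nat.add (Nat.add (Nat.add (Nat.add (Nat.add (Nat.add (Nat.add (Nat.add (Nat.add (Nat.add C x36012) x44760) x53508) x47676) x50592) x48648) x49620) x48972) x49188) x49152) x49128) x49132) x49134) x29452)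
    (Nat.sub (Nat.add (Nat.add (Nat.add (Nat.add (Nat.add (Nat.add (Nat.add (Nat.add (Nat.add (Nat.add (Nat.add C x36020) x44768) x53516) x47684) x50600) x48656) x49628) x48980) x49196) x49124) x49144) x49142)
    (Nat.sub (Nat.sub (Nat.add (Nat.add (Nat.add (Nat.add (Nat.add (Nat.add (Nat.add (Nat.add (Nat.add (Nat.add (Nat.add (Nat.add (Nat.add C x36022) x44770) x53518) x47686) x50602) x48658) x49630) x48982) x49198) x49126) x49150) x49142) x49146) (Nat.mul x49144 (nat_lit 2))) x29462)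
    (Nat.sub (Nat.sub (Nat.add (Nat.add (Nat.add (Nat.add (Nat.add (Nat.add (Nat.add (Nat.add (Nat.add (Nat.add (Nat.add (Nat.add C x36024) x44772) x53520) x47688) x50604) x48660) x49632) x48984) x49200) x49128) x49152) x49144) (Nat.mul x49146 (nat_lit 5))) x29464)
    (Nat.sub (Nat.sub (Nat.add (Nat.add (Nat.add (Nat.add (Nat.add (Nat.add (Nat.add (Nat.add (Nat.add (Nat.add (Nat.add (Nat.add C x36028) x44776) x53524) x47692) x50608) x48664) x49636) x48988) x49204) x49132) x49144) x49152) x49150) x29468)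
    (Nat.sub (Nat.sub (Nat.add (Nat.add (Nat.add (Nat.add (Nat.add (Nat.add (Nat.add (Nat.add (Nat.add (Nat.add (Nat.add (Nat.add (Nat.add C x36030) x44778) x53526) x47694) x50610) x48666) x49638) x48990) x49206) x49134) x49146) x49158) x49150) (Nat.mul x49152 (nat_lit 2))) x29470)
    (Nat.sub (Nat.sub (Nat.add (Nat.add (Nat.add (Nat.add (Nat.add (Nat.add (Nat.add (Nat.add (Nat.add (Nat.add C x36036) x44784) x53532) x47700) x50616) x48672) x49644) x48996) x49212) x49152) x49158) x29476)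
    (Nat.add (Nat.add (Nat.add (Nat.add (Nat.add (Nat.add (Nat.add (Nat.add (Nat.add (Nat.add (Nat.add (Nat.add (Nat.add C (Nat.mul x49172 (nat_lit 2))) x36050) x44798) x53546) x47714) x50630) x48686) x49658) x49010) x49334) x49118) x49178) x49174)
    (Nat.sub (Nat.add (Nat.add (Nat.add (Nat.add (Nat.add (Nat.add (Nat.add (Nat.add (Nat.add (Nat.add (Nat.add (Nat.add C x36052) x44800) x53548) x47716) x50632) x48688) x49660) x49012) x49336) x49120) x49180) x49172) x29492)
    (Nat.add (Nat.add (Nat.add (Nat.add (Nat.add (Nat.add (Nat.add (Nat.add (Nat.add (Nat.add (Nat.add (Nat.add (Nat.add C x36056) x44804) x53552) x47720) x50636) x48692) x49664) x49016) x49340) x49124) x49196) x49172) x49180)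
    (Nat.sub (Nat.add (Nat.add (Nat.add (Nat.add (Nat.add (Nat.add (Nat.add (Nat.add (Nat.add (Nat.add (Nat.add (Nat.add (Nat.add (Nat.add (Nat.add C x36058) x44806) x53554) x47722) x50638) x48694) x49666) x49018) x49342) x49126) x49198) x49174) x49186) x49178) x49182) x29498)
    (Nat.sub (Nat.sub (Nat.add (Nat.add (Nat.add (Nat.add (Nat.add (Nat.add (Nat.add (Nat.add (Nat.add (Nat.add (Nat.add (Nat.add (Nat.add C x36060) x44808) x53556) x47724) x50640) x48696) x49668) x49020) x49344) x49128) x49200) x49188) x49180) (Nat.mul x49182 (nat_lit 2))) x29500)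
    (Nat.sub (Nat.sub (Nat.add (Nat.add (Nat.add (Nat.add (Nat.add (Nat.add (Nat.add (Nat.add (Nat.add (Nat.add (Nat.add (Nat.add (Nat.add C x36064) x44812) x53560) x47728) x50644) x48700) x49672) x49024) x49348) x49132) x49204) x49180) x49188) (Nat.mul x49186 (nat_lit 2))) x29504)
    (Nat.sub (Nat.sub (Nat.add (Nat.add (Nat.add (Nat.add (Nat.add (Nat.add (Nat.add (Nat.add (Nat.add (Nat.add (Nat.add (Nat.add (Nat.add C x36066) x44814) x53562) x47730) x50646) x48702) x49674) x49026) x49350) x49134) x49206) x49182) x49186) (Nat.mul x49188 (nat_lit 2))) x29506)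
    (Nat.add (Nat.add (Nat.add (Nat.add (Nat.add (Nat.add (Nat.add (Nat.add (Nat.add (Nat.add (Nat.add (Nat.add (Nat.add (Nat.add C x49196) x36074) x44822) x53570) x47738) x50654) x48710) x49682) x49034) x49358) x49142) x49250) x49178) x49198)
    (Nat.sub (Nat.add (Nat.add (Nat.add (Nat.add (Nat.add (Nat.add (Nat.add (Nat.add (Nat.add (Nat.add (Nat.add (Nat.add (Nat.add (Nat.add (Nat.add C x36076) x44824) x53572) x47740) x50656) x48712) x49684) x49036) x49360) x49144) x49252) x49180) x49204) x49196) x49200) x29516)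
    (Nat.sub (Nat.sub (Nat.add (Nat.add (Nat.add (Nat.add (Nat.add (Nat.add (Nat.add (Nat.add (Nat.add (Nat.add (Nat.add (Nat.add (Nat.add (Nat.add C x36078) x44826) x53574) x47742) x50658) x48714) x49686) x49038) x49362) x49146) x49254) x49182) x49206) x49198) (Nat.mul x49200 (nat_lit 3))) x29518)
    (Nat.sub (Nat.add (Nat.add (Nat.add (Nat.add (Nat.add (Nat.add (Nat.add (Nat.add (Nat.add (Nat.add (Nat.add (Nat.add (Nat.add (Nat.add (Nat.add C x36082) x44830) x53578) x47746) x50662) x48718) x49690) x49042) x49366) x49150) x49258) x49186) x49222) x49198) x49206) x29522)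
    (Nat.sub (Nat.sub (Nat.add (Nat.add (Nat.add (Nat.add (Nat.add (Nat.add (Nat.add (Nat.add (Nat.add (Nat.add (Nat.add (Nat.add (Nat.add (Nat.add (Nat.add (Nat.add C x36084) x44832) x53580) x47748) x50664) x48720) x49692) x49044) x49368) x49152) x49260) x49188) x49224) x49200) x49212) x49204) x49206) x29524)
    (Nat.sub (Nat.sub (Nat.add (Nat.add (Nat.add (Nat.add (Nat.add (Nat.add (Nat.add (Nat.add (Nat.add (Nat.add (Nat.add (Nat.add (Nat.add C x36090) x44838) x53586) x47754) x50670) x48726) x49698) x49050) x49374) x49158) x49266) x49230) x49206) x49212) x29530)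
    (Nat.sub (Nat.add (Nat.add (Nat.add (Nat.add (Nat.add (Nat.add (Nat.add (Nat.add (Nat.add (Nat.add (Nat.add (Nat.add C x36100) x44848) x53596) x47764) x50680) x48736) x49708) x49060) x49384) x49276) x49204) x49224) x29540)
    (Nat.sub (Nat.sub (Nat.add (Nat.add (Nat.add (Nat.add (Nat.add (Nat.add (Nat.add (Nat.add (Nat.add (Nat.add (Nat.add (Nat.add (Nat.add C x36102) x44850) x53598) x47766) x50682) x48738) x49710) x49062) x49386) x49278) x49206) x49230) x49222) (Nat.mul x49224 (nat_lit 2))) x29542)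
    (Nat.sub (Nat.add (Nat.add (Nat.add (Nat.add (Nat.add (Nat.add (Nat.add (Nat.add (Nat.add (Nat.add (Nat.add (Nat.add C x36108) x44856) x53604) x47772) x50688) x48744) x49716) x49068) x49392) x49284) x49212) x49224) x29548)
    (Nat.add (Nat.add (Nat.add (Nat.add (Nat.add (Nat.add (Nat.add (Nat.add (Nat.add (Nat.add (Nat.add C x49250) x36128) x44876) x53624) x47792) x50708) x48764) x49736) x49412) x49196) x49252)
    (Nat.sub (Nat.add (Nat.add (Nat.add (Nat.add (Nat.add (Nat.add (Nat.add (Nat.add (Nat.add (Nat.add (Nat.add (Nat.add C x36130) x44878) x53626) x47794) x50710) x48766) x49738) x49414) x49198) x49258) x49250) x49254) x29570)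
    (Nat.sub (Nat.sub (Nat.add (Nat.add (Nat.add (Nat.add (Nat.add (Nat.add (Nat.add (Nat.add (Nat.add (Nat.add (Nat.add C x36132) x44880) x53628) x47796) x50712) x48768) x49740) x49416) x49200) x49260) x49252) (Nat.mul x49254 (nat_lit 3))) x29572)
    (Nat.sub (Nat.sub (Nat.add (Nat.add (Nat.add (Nat.add (Nat.add (Nat.add (Nat.add (Nat.add (Nat.add (Nat.add (Nat.add (Nat.add C x36136) x44884) x53632) x47800) x50716) x48772) x49744) x49420) x49204) x49276) x49252) x49260) x49258) x29576)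
    (Nat.sub (Nat.sub (Nat.add (Nat.add (Nat.add (Nat.add (Nat.add (Nat.add (Nat.add (Nat.add (Nat.add (Nat.add (Nat.add (Nat.add (Nat.add C x36138) x44886) x53634) x47802) x50718) x48774) x49746) x49422) x49206) x49278) x49254) x49266) x49258) (Nat.mul x49260 (nat_lit 2))) x29578)
    (Nat.sub (Nat.sub (Nat.add (Nat.add (Nat.add (Nat.add (Nat.add (Nat.add (Nat.add (Nat.add (Nat.add (Nat.add (Nat.add C x36144) x44892) x53640) x47808) x50724) x48780) x49752) x49428) x49212) x49284) x49260) (Nat.mul x49266 (nat_lit 3))) x29584)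
    (Nat.sub (Nat.add (Nat.add (Nat.add (Nat.add (Nat.add (Nat.add (Nat.add (Nat.add (Nat.add (Nat.add (Nat.add (Nat.add C x49276) x36154) x44902) x53650) x47818) x50734) x48790) x49762) x49438) x49222) x49258) x49278) x29594)
    (Nat.sub (Nat.sub (Nat.add (Nat.add (Nat.add (Nat.add (Nat.add (Nat.add (Nat.add (Nat.add (Nat.add (Nat.add (Nat.add (Nat.add C x36156) x44904) x53652) x47820) x50736) x48792) x49764) x49440) x49224) x49260) x49284) x49276) x49278) x29596)
    (Nat.sub (Nat.add (Nat.add (Nat.add (Nat.add (Nat.add (Nat.add (Nat.add (Nat.add (Nat.add (Nat.add (Nat.add (Nat.add C x36162) x44910) x53658) x47826) x50742) x48798) x49770) x49446) x49230) x49266) x49302) x49278) x29602)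
    (Nat.sub (Nat.add (Nat.add (Nat.add (Nat.add (Nat.add (Nat.add (Nat.add (Nat.add (Nat.add (Nat.add C x49302) x36180) x44928) x53676) x47844) x50760) x48816) x49788) x49464) x49284) x29620)
    (Nat.add (Nat.add (Nat.add (Nat.add (Nat.add (Nat.add (Nat.add (Nat.add (Nat.add (Nat.add C (Nat.mul x49334 (nat_lit 2))) x36212) x44960) x53708) x47876) x50792) x49820) x49172) x49340) x49336)
    (Nat.sub (Nat.add (Nat.add (Nat.add (Nat.add (Nat.add (Nat.add (Nat.add (Nat.add (Nat.add C x36214) x44962) x53710) x47878) x50794) x49822) x49174) x49342) x49334) x29654)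
    (Nat.add (Nat.add (Nat.add (Nat.add (Nat.add (Nat.add (Nat.add (Nat.add (Nat.add (Nat.add C x36218) x44966) x53714) x47882) x50798) x49826) x49178) x49358) x49334) x49342)
    (Nat.sub (Nat.add (Nat.add (Nat.add (Nat.add (Nat.add (Nat.add (Nat.add (Nat.add (Nat.add (Nat.add (Nat.add (Nat.add C x36220) x44968) x53716) x47884) x50800) x49828) x49180) x49360) x49336) x49348) x49340) x49344) x29660)
    (Nat.sub (Nat.sub (Nat.add (Nat.add (Nat.add (Nat.add (Nat.add (Nat.add (Nat.add (Nat.add (Nat.add (Nat.add C x36222) x44970) x53718) x47886) x50802) x49830) x49182) x49362) x49350) x49342) (Nat.mul x49344 (nat_lit 2))) x29662)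
    (Nat.sub (Nat.sub (Nat.add (Nat.add (Nat.add (Nat.add (Nat.add (Nat.add (Nat.add (Nat.add (Nat.add (Nat.add C x36226) x44974) x53722) x47890) x50806) x49834) x49186) x49366) x49342) x49350) (Nat.mul x49348 (nat_lit 2))) x29666)
    (Nat.sub (Nat.sub (Nat.add (Nat.add (Nat.add (Nat.add (Nat.add (Nat.add (Nat.add (Nat.add (Nat.add (Nat.add C x36228) x44976) x53724) x47892) x50808) x49836) x49188) x49368) x49344) x49348) (Nat.mul x49350 (nat_lit 2))) x29668)
    (Nat.add (Nat.add (Nat.add (Nat.add (Nat.add (Nat.add (Nat.add (Nat.add (Nat.add (Nat.add C x36236) x44984) x53732) x47900) x50816) x49844) x49196) x49412) x49340) x49360)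
    (Nat.sub (Nat.sub (Nat.add (Nat.add (Nat.add (Nat.add (Nat.add (Nat.add (Nat.add (Nat.add (Nat.add (Nat.add (Nat.add (Nat.add C x36238) x44986) x53734) x47902) x50818) x49846) x49198) x49414) x49342) x49366) x49358) x49362) x49360) x29678)
    (Nat.sub (Nat.sub (Nat.add (Nat.add (Nat.add (Nat.add (Nat.add (Nat.add (Nat.add (Nat.add (Nat.add (Nat.add (Nat.add C x36240) x44988) x53736) x47904) x50820) x49848) x49200) x49416) x49344) x49368) x49360) (Nat.mul x49362 (nat_lit 4))) x29680)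
    (Nat.sub (Nat.sub (Nat.add (Nat.add (Nat.add (Nat.add (Nat.add (Nat.add (Nat.add (Nat.add (Nat.add (Nat.add (Nat.add (Nat.add C x36244) x44992) x53740) x47908) x50824) x49852) x49204) x49420) x49348) x49384) x49360) x49368) x49366) x29684)
    (Nat.sub (Nat.sub (Nat.add (Nat.add (Nat.add (Nat.add (Nat.add (Nat.add (Nat.add (Nat.add (Nat.add (Nat.add (Nat.add (Nat.add (Nat.add C x36246) x44994) x53742) x47910) x50826) x49854) x49206) x49422) x49350) x49386) x49362) x49374) x49366) (Nat.mul x49368 (nat_lit 2))) x29686)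
    (Nat.sub (Nat.sub (Nat.add (Nat.add (Nat.add (Nat.add (Nat.add (Nat.add (Nat.add (Nat.add (Nat.add (Nat.add C x36252) x45000) x53748) x47916) x50832) x49860) x49212) x49428) x49392) x49368) (Nat.mul x49374 (nat_lit 2))) x29692)
    (Nat.sub (Nat.sub (Nat.add (Nat.add (Nat.add (Nat.add (Nat.add (Nat.add (Nat.add (Nat.add (Nat.add (Nat.add C x36262) x45010) x53758) x47926) x50842) x49870) x49222) x49438) x49366) x49386) (Nat.mul x49384 (nat_lit 2))) x29702)
    (Nat.sub (Nat.sub (Nat.add (Nat.add (Nat.add (Nat.add (Nat.add (Nat.add (Nat.add (Nat.add (Nat.add (Nat.add (Nat.add C x36264) x45012) x53760) x47928) x50844) x49872) x49224) x49440) x49368) x49392) x49384) (Nat.mul x49386 (nat_lit 4))) x29704)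
    (Nat.sub (Nat.sub (Nat.add (Nat.add (Nat.add (Nat.add (Nat.add (Nat.add (Nat.add (Nat.add (Nat.add (Nat.add C x36270) x45018) x53766) x47934) x50850) x49878) x49230) x49446) x49374) x49386) (Nat.mul x49392 (nat_lit 2))) x29710)
    (Nat.add (Nat.add (Nat.add (Nat.add (Nat.add (Nat.add (Nat.add (Nat.add (Nat.add (Nat.add C (Nat.mul x49412 (nat_lit 2))) x36290) x45038) x53786) x47954) x50870) x49898) x49250) x49358) x49414)
    (Nat.sub (Nat.add (Nat.add (Nat.add (Nat.add (Nat.add (Nat.add (Nat.add (Nat.add (Nat.add (Nat.add (Nat.add (Nat.add C x49414) x36292) x45040) x53788) x47956) x50872) x49900) x49252) x49360) x49420) x49412) x49416) x29732)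
    (Nat.sub (Nat.sub (Nat.add (Nat.add (Nat.add (Nat.add (Nat.add (Nat.add (Nat.add (Nat.add (Nat.add (Nat.add C x36294) x45042) x53790) x47958) x50874) x49902) x49254) x49362) x49422) x49414) (Nat.mul x49416 (nat_lit 2))) x29734)
    (Nat.sub (Nat.add (Nat.add (Nat.add (Nat.add (Nat.add (Nat.add (Nat.add (Nat.add (Nat.add (Nat.add (Nat.add C x36298) x45046) x53794) x47962) x50878) x49906) x49258) x49366) x49438) x49414) x49422) x29738)
    (Nat.sub (Nat.sub (Nat.add (Nat.add (Nat.add (Nat.add (Nat.add (Nat.add (Nat.add (Nat.add (Nat.add (Nat.add (Nat.add (Nat.add C x36300) x45048) x53796) x47964) x50880) x49908) x49260) x49368) x49440) x49416) x49428) x49420) x49422) x29740)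
    (Nat.sub (Nat.sub (Nat.add (Nat.add (Nat.add (Nat.add (Nat.add (Nat.add (Nat.add (Nat.add (Nat.add (Nat.add C x36306) x45054) x53802) x47970) x50886) x49914) x49266) x49374) x49446) x49422) (Nat.mul x49428 (nat_lit 2))) x29746)
    (Nat.sub (Nat.add (Nat.add (Nat.add (Nat.add (Nat.add (Nat.add (Nat.add (Nat.add (Nat.add (Nat.add (Nat.add (Nat.add C x49438) x36316) x45064) x53812) x47980) x50896) x49924) x49276) x49384) x49492) x49420) x49440) x29756)
    (Nat.sub (Nat.sub (Nat.add (Nat.add (Nat.add (Nat.add (Nat.add (Nat.add (Nat.add (Nat.add (Nat.add (Nat.add (Nat.add (Nat.add C x36318) x45066) x53814) x47982) x50898) x49926) x49278) x49386) x49494) x49422) x49446) x49438) x49440) x29758)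
    (Nat.sub (Nat.add (Nat.add (Nat.add (Nat.add (Nat.add (Nat.add (Nat.add (Nat.add (Nat.add (Nat.add (Nat.add (Nat.add C x36324) x45072) x53820) x47988) x50904) x49932) x49284) x49392) x49500) x49428) x49464) x49440) x29764)
    (Nat.sub (Nat.add (Nat.add (Nat.add (Nat.add (Nat.add (Nat.add (Nat.add (Nat.add (Nat.add C x36342) x45090) x53838) x48006) x50922) x49950) x49302) x49518) x49446) x29782)
    (Nat.sub (Nat.add (Nat.add (Nat.add (Nat.add (Nat.add (Nat.add (Nat.add (Nat.add (Nat.add C (Nat.mul x49492 (nat_lit 2))) x36370) x45118) x53866) x48034) x50950) x49978) x49438) x49494) x29810)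
    (Nat.sub (Nat.add (Nat.add (Nat.add (Nat.add (Nat.add (Nat.add (Nat.add (Nat.add (Nat.add C x36372) x45120) x53868) x48036) x50952) x49980) x49440) x49500) x49492) x29812)
    (Nat.sub (Nat.add (Nat.add (Nat.add (Nat.add (Nat.add (Nat.add (Nat.add (Nat.add (Nat.add C x36378) x45126) x53874) x48042) x50958) x49986) x49446) x49518) x49494) x29818)
    (Nat.sub (Nat.add (Nat.add (Nat.add (Nat.add (Nat.add (Nat.add (Nat.add (Nat.add (Nat.add C (Nat.mul x49518 (nat_lit 2))) x36396) x45144) x53892) x48060) x50976) x50004) x49464) x49500) x29836)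
    (Nat.add (Nat.add (Nat.add (Nat.add (Nat.add (Nat.add (Nat.add C (Nat.mul x49580 (nat_lit 3))) x36458) x45206) x53954) x51038) x49094) x49586)
    (Nat.add (Nat.add (Nat.add (Nat.add (Nat.add (Nat.add (Nat.add (Nat.add (Nat.add (Nat.add C (Nat.mul x49586 (nat_lit 2))) x36464) x45212) x53960) x51044) x49100) x49604) x49580) x49592) x49588)
    (Nat.sub (Nat.add (Nat.add (Nat.add (Nat.add (Nat.add (Nat.add (Nat.add (Nat.add (Nat.add C x49588) x36466) x45214) x53962) x51046) x49102) x49606) x49594) x49586) x29906)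
    (Nat.sub (Nat.add (Nat.add (Nat.add (Nat.add (Nat.add (Nat.add (Nat.add (Nat.add C x36470) x45218) x53966) x51050) x49106) x49610) x49586) x49594) x49592)
    (Nat.sub (Nat.add (Nat.add (Nat.add (Nat.add (Nat.add (Nat.add (Nat.add (Nat.add (Nat.add C x36472) x45220) x53968) x51052) x49108) x49612) x49588) x49592) x49596) x29912)
    (Nat.sub (Nat.sub (Nat.add (Nat.add (Nat.add (Nat.add (Nat.add (Nat.add (Nat.add C x36474) x45222) x53970) x51054) x49110) x49614) x49594) x49596) x29914)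
    (Nat.add (Nat.add (Nat.add (Nat.add (Nat.add (Nat.add (Nat.add (Nat.add (Nat.add (Nat.add C x49604) x36482) x45230) x53978) x51062) x49118) x49658) x49586) x49610) x49606)
    (Nat.sub (Nat.sub (Nat.add (Nat.add (Nat.add (Nat.add (Nat.add (Nat.add (Nat.add (Nat.add (Nat.add C x36484) x45232) x53980) x51064) x49120) x49660) x49588) x49612) x49604) x49606) x29924)
    (Nat.add (Nat.add (Nat.add (Nat.add (Nat.add (Nat.add (Nat.add (Nat.add (Nat.add (Nat.add C x36488) x45236) x53984) x51068) x49124) x49664) x49592) x49628) x49604) x49612)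
    (Nat.sub (Nat.add (Nat.add (Nat.add (Nat.add (Nat.add (Nat.add (Nat.add (Nat.add (Nat.add (Nat.add (Nat.add (Nat.add C x36490) x45238) x53986) x51070) x49126) x49666) x49594) x49630) x49606) x49618) x49610) x49614) x29930)
    (Nat.sub (Nat.sub (Nat.add (Nat.add (Nat.add (Nat.add (Nat.add (Nat.add (Nat.add (Nat.add (Nat.add (Nat.add C x36492) x45240) x53988) x51072) x49128) x49668) x49596) x49632) x49620) x49612) (Nat.mul x49614 (nat_lit 2))) x29932)
    (Nat.sub (Nat.sub (Nat.add (Nat.add (Nat.add (Nat.add (Nat.add (Nat.add (Nat.add (Nat.add (Nat.add C x36496) x45244) x53992) x51076) x49132) x49672) x49636) x49612) x49620) x49618) x29936)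
    (Nat.sub (Nat.sub (Nat.add (Nat.add (Nat.add (Nat.add (Nat.add (Nat.add (Nat.add (Nat.add (Nat.add C x36498) x45246) x53994) x51078) x49134) x49674) x49638) x49614) x49618) x49620) x29938)
    (Nat.sub (Nat.add (Nat.add (Nat.add (Nat.add (Nat.add (Nat.add (Nat.add (Nat.add C x36506) x45254) x54002) x51086) x49142) x49682) x49610) x49630) x49628)
    (Nat.sub (Nat.sub (Nat.add (Nat.add (Nat.add (Nat.add (Nat.add (Nat.add (Nat.add (Nat.add (Nat.add (Nat.add C x36508) x45256) x54004) x51088) x49144) x49684) x49612) x49636) x49628) x49632) (Nat.mul x49630 (nat_lit 2))) x29948)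
    (Nat.sub (Nat.sub (Nat.add (Nat.add (Nat.add (Nat.add (Nat.add (Nat.add (Nat.add (Nat.add (Nat.add C x36510) x45258) x54006) x51090) x49146) x49686) x49614) x49638) x49630) (Nat.mul x49632 (nat_lit 5))) x29950)
    (Nat.sub (Nat.sub (Nat.add (Nat.add (Nat.add (Nat.add (Nat.add (Nat.add (Nat.add (Nat.add (Nat.add C x36514) x45262) x54010) x51094) x49150) x49690) x49618) x49630) x49638) x49636) x29954)
    (Nat.sub (Nat.sub (Nat.add (Nat.add (Nat.add (Nat.add (Nat.add (Nat.add (Nat.add (Nat.add (Nat.add (Nat.add C x36516) x45264) x54012) x51096) x49152) x49692) x49620) x49632) x49644) x49636) (Nat.mul x49638 (nat_lit 2))) x29956)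
    (Nat.sub (Nat.sub (Nat.add (Nat.add (Nat.add (Nat.add (Nat.add (Nat.add (Nat.add C x36522) x45270) x54018) x51102) x49158) x49698) x49638) x49644) x29962)
    (Nat.add (Nat.add (Nat.add (Nat.add (Nat.add (Nat.add (Nat.add (Nat.add (Nat.add (Nat.add C x49658) x36536) x45284) x54032) x51116) x49172) x49820) x49604) x49664) x49660)
    (Nat.sub (Nat.sub (Nat.add (Nat.add (Nat.add (Nat.add (Nat.add (Nat.add (Nat.add (Nat.add (Nat.add C x36538) x45286) x54034) x51118) x49174) x49822) x49606) x49666) x49658) x49660) x29978)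
    (Nat.sub (Nat.add (Nat.add (Nat.add (Nat.add (Nat.add (Nat.add (Nat.add (Nat.add (Nat.add (Nat.add C x36542) x45290) x54038) x51122) x49178) x49826) x49610) x49682) x49658) x49666) x49664)
    (Nat.sub (Nat.sub (Nat.add (Nat.add (Nat.add (Nat.add (Nat.add (Nat.add (Nat.add (Nat.add (Nat.add (Nat.add (Nat.add (Nat.add C x36544) x45292) x54040) x51124) x49180) x49828) x49612) x49684) x49660) x49672) x49664) x49668) x49666) x29984)
    (Nat.sub (Nat.sub (Nat.add (Nat.add (Nat.add (Nat.add (Nat.add (Nat.add (Nat.add (Nat.add (Nat.add (Nat.add C x36546) x45294) x54042) x51126) x49182) x49830) x49614) x49686) x49674) x49666) (Nat.mul x49668 (nat_lit 3))) x29986)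
    (Nat.sub (Nat.sub (Nat.add (Nat.add (Nat.add (Nat.add (Nat.add (Nat.add (Nat.add (Nat.add (Nat.add (Nat.add C x36550) x45298) x54046) x51130) x49186) x49834) x49618) x49690) x49666) x49674) (Nat.mul x49672 (nat_lit 3))) x29990)
    (Nat.sub (Nat.sub (Nat.add (Nat.add (Nat.add (Nat.add (Nat.add (Nat.add (Nat.add (Nat.add (Nat.add (Nat.add C x36552) x45300) x54048) x51132) x49188) x49836) x49620) x49692) x49668) x49672) (Nat.mul x49674 (nat_lit 3))) x29992)
    (Nat.add (Nat.add (Nat.add (Nat.add (Nat.add (Nat.add (Nat.add (Nat.add (Nat.add (Nat.add C x36560) x45308) x54056) x51140) x49196) x49844) x49628) x49736) x49664) x49684)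
    (Nat.sub (Nat.sub (Nat.add (Nat.add (Nat.add (Nat.add (Nat.add (Nat.add (Nat.add (Nat.add (Nat.add (Nat.add (Nat.add (Nat.add C x36562) x45310) x54058) x51142) x49198) x49846) x49630) x49738) x49666) x49690) x49682) x49686) x49684) x30002)
    (Nat.sub (Nat.sub (Nat.add (Nat.add (Nat.add (Nat.add (Nat.add (Nat.add (Nat.add (Nat.add (Nat.add (Nat.add (Nat.add C x36564) x45312) x54060) x51144) x49200) x49848) x49632) x49740) x49668) x49692) x49684) (Nat.mul x49686 (nat_lit 4))) x30004)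
    (Nat.sub (Nat.sub (Nat.add (Nat.add (Nat.add (Nat.add (Nat.add (Nat.add (Nat.add (Nat.add (Nat.add (Nat.add (Nat.add (Nat.add C x36568) x45316) x54064) x51148) x49204) x49852) x49636) x49744) x49672) x49708) x49684) x49692) x49690) x30008)
    (Nat.sub (Nat.sub (Nat.add (Nat.add (Nat.add (Nat.add (Nat.add (Nat.add (Nat.add (Nat.add (Nat.add (Nat.add (Nat.add (Nat.add (Nat.add C x36570) x45318) x54066) x51150) x49206) x49854) x49638) x49746) x49674) x49710) x49686) x49698) x49690) (Nat.mul x49692 (nat_lit 2))) x30010)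
    (Nat.sub (Nat.sub (Nat.add (Nat.add (Nat.add (Nat.add (Nat.add (Nat.add (Nat.add (Nat.add (Nat.add (Nat.add C x36576) x45324) x54072) x51156) x49212) x49860) x49644) x49752) x49716) x49692) (Nat.mul x49698 (nat_lit 2))) x30016)
    (Nat.sub (Nat.sub (Nat.add (Nat.add (Nat.add (Nat.add (Nat.add (Nat.add (Nat.add (Nat.add (Nat.add C x36586) x45334) x54082) x51166) x49222) x49870) x49762) x49690) x49710) x49708) x30026)
    (Nat.sub (Nat.sub (Nat.add (Nat.add (Nat.add (Nat.add (Nat.add (Nat.add (Nat.add (Nat.add (Nat.add (Nat.add C x36588) x45336) x54084) x51168) x49224) x49872) x49764) x49692) x49716) x49708) (Nat.mul x49710 (nat_lit 3))) x30028)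
    (Nat.sub (Nat.sub (Nat.add (Nat.add (Nat.add (Nat.add (Nat.add (Nat.add (Nat.add (Nat.add (Nat.add C x36594) x45342) x54090) x51174) x49230) x49878) x49770) x49698) x49710) x49716) x30034)
    (Nat.sub (Nat.add (Nat.add (Nat.add (Nat.add (Nat.add (Nat.add (Nat.add (Nat.add C x36614) x45362) x54110) x51194) x49250) x49898) x49682) x49738) x49736)
    (Nat.sub (Nat.sub (Nat.add (Nat.add (Nat.add (Nat.add (Nat.add (Nat.add (Nat.add (Nat.add (Nat.add (Nat.add C x36616) x45364) x54112) x51196) x49252) x49900) x49684) x49744) x49736) x49740) (Nat.mul x49738 (nat_lit 2))) x30056)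
    (Nat.sub (Nat.sub (Nat.add (Nat.add (Nat.add (Nat.add (Nat.add (Nat.add (Nat.add (Nat.add (Nat.add C x36618) x45366) x54114) x51198) x49254) x49902) x49686) x49746) x49738) (Nat.mul x49740 (nat_lit 5))) x30058)
    (Nat.sub (Nat.sub (Nat.add (Nat.add (Nat.add (Nat.add (Nat.add (Nat.add (Nat.add (Nat.add (Nat.add (Nat.add C x36622) x45370) x54118) x51202) x49258) x49906) x49690) x49762) x49738) x49746) (Nat.mul x49744 (nat_lit 3))) x30062)
    (Nat.sub (Nat.sub (Nat.add (Nat.add (Nat.add (Nat.add (Nat.add (Nat.add (Nat.add (Nat.add (Nat.add (Nat.add (Nat.add C x36624) x45372) x54120) x51204) x49260) x49908) x49692) x49764) x49740) x49752) x49744) (Nat.mul x49746 (nat_lit 4))) x30064)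
    (Nat.sub (Nat.sub (Nat.add (Nat.add (Nat.add (Nat.add (Nat.add (Nat.add (Nat.add (Nat.add (Nat.add C x36630) x45378) x54126) x51210) x49266) x49914) x49698) x49770) x49746) (Nat.mul x49752 (nat_lit 5))) x30070)
    (Nat.sub (Nat.sub (Nat.add (Nat.add (Nat.add (Nat.add (Nat.add (Nat.add (Nat.add (Nat.add (Nat.add C x36640) x45388) x54136) x51220) x49276) x49924) x49708) x49744) x49764) x49762) x30080)
    (Nat.sub (Nat.sub (Nat.add (Nat.add (Nat.add (Nat.add (Nat.add (Nat.add (Nat.add (Nat.add (Nat.add (Nat.add C x36642) x45390) x54138) x51222) x49278) x49926) x49710) x49746) x49770) x49762) (Nat.mul x49764 (nat_lit 3))) x30082)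
    (Nat.sub (Nat.sub (Nat.add (Nat.add (Nat.add (Nat.add (Nat.add (Nat.add (Nat.add (Nat.add (Nat.add (Nat.add C x36648) x45396) x54144) x51228) x49284) x49932) x49716) x49752) x49788) x49764) (Nat.mul x49770 (nat_lit 2))) x30088)
    (Nat.sub (Nat.sub (Nat.add (Nat.add (Nat.add (Nat.add (Nat.add (Nat.add (Nat.add C x36666) x45414) x54162) x51246) x49302) x49950) x49770) x49788) x30106)
    (Nat.add (Nat.add (Nat.add (Nat.add (Nat.add (Nat.add (Nat.add (Nat.add (Nat.add C (Nat.mul x49820 (nat_lit 3))) x36698) x45446) x54194) x51278) x49334) x49658) x49826) x49822)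
    (Nat.sub (Nat.add (Nat.add (Nat.add (Nat.add (Nat.add (Nat.add (Nat.add (Nat.add (Nat.add C x49822) x36700) x45448) x54196) x51280) x49336) x49660) x49828) x49820) x30140)
    (Nat.add (Nat.add (Nat.add (Nat.add (Nat.add (Nat.add (Nat.add (Nat.add (Nat.add (Nat.add C x49826) x36704) x45452) x54200) x51284) x49340) x49664) x49844) x49820) x49828)
    (Nat.sub (Nat.add (Nat.add (Nat.add (Nat.add (Nat.add (Nat.add (Nat.add (Nat.add (Nat.add (Nat.add (Nat.add (Nat.add C x49828) x36706) x45454) x54202) x51286) x49342) x49666) x49846) x49822) x49834) x49826) x49830) x30146)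
    (Nat.sub (Nat.sub (Nat.add (Nat.add (Nat.add (Nat.add (Nat.add (Nat.add (Nat.add (Nat.add (Nat.add C x36708) x45456) x54204) x51288) x49344) x49668) x49848) x49836) x49828) x49830) x30148)
    (Nat.sub (Nat.sub (Nat.add (Nat.add (Nat.add (Nat.add (Nat.add (Nat.add (Nat.add (Nat.add (Nat.add C x36712) x45460) x54208) x51292) x49348) x49672) x49852) x49828) x49836) x49834) x30152)
    (Nat.sub (Nat.sub (Nat.add (Nat.add (Nat.add (Nat.add (Nat.add (Nat.add (Nat.add (Nat.add (Nat.add C x36714) x45462) x54210) x51294) x49350) x49674) x49854) x49830) x49834) x49836) x30154)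
    (Nat.add (Nat.add (Nat.add (Nat.add (Nat.add (Nat.add (Nat.add (Nat.add (Nat.add (Nat.add C x49844) x36722) x45470) x54218) x51302) x49358) x49682) x49898) x49826) x49846)
    (Nat.sub (Nat.add (Nat.add (Nat.add (Nat.add (Nat.add (Nat.add (Nat.add (Nat.add (Nat.add (Nat.add (Nat.add C x36724) x45472) x54220) x51304) x49360) x49684) x49900) x49828) x49852) x49844) x49848) x30164)
    (Nat.sub (Nat.sub (Nat.add (Nat.add (Nat.add (Nat.add (Nat.add (Nat.add (Nat.add (Nat.add (Nat.add (Nat.add C x36726) x45474) x54222) x51306) x49362) x49686) x49902) x49830) x49854) x49846) (Nat.mul x49848 (nat_lit 3))) x30166)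
    (Nat.sub (Nat.add (Nat.add (Nat.add (Nat.add (Nat.add (Nat.add (Nat.add (Nat.add (Nat.add (Nat.add (Nat.add C x36730) x45478) x54226) x51310) x49366) x49690) x49906) x49834) x49870) x49846) x49854) x30170)
    (Nat.sub (Nat.sub (Nat.add (Nat.add (Nat.add (Nat.add (Nat.add (Nat.add (Nat.add (Nat.add (Nat.add (Nat.add (Nat.add (Nat.add C x36732) x45480) x54228) x51312) x49368) x49692) x49908) x49836) x49872) x49848) x49860) x49852) x49854) x30172)
    (Nat.sub (Nat.sub (Nat.add (Nat.add (Nat.add (Nat.add (Nat.add (Nat.add (Nat.add (Nat.add (Nat.add C x36738) x45486) x54234) x51318) x49374) x49698) x49914) x49878) x49854) x49860) x30178)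
    (Nat.sub (Nat.sub (Nat.add (Nat.add (Nat.add (Nat.add (Nat.add (Nat.add (Nat.add (Nat.add (Nat.add C x36748) x45496) x54244) x51328) x49384) x49708) x49924) x49852) x49872) x49870) x30188)
    (Nat.sub (Nat.sub (Nat.add (Nat.add (Nat.add (Nat.add (Nat.add (Nat.add (Nat.add (Nat.add (Nat.add (Nat.add C x36750) x45498) x54246) x51330) x49386) x49710) x49926) x49854) x49878) x49870) (Nat.mul x49872 (nat_lit 3))) x30190)
    (Nat.sub (Nat.sub (Nat.add (Nat.add (Nat.add (Nat.add (Nat.add (Nat.add (Nat.add (Nat.add (Nat.add C x36756) x45504) x54252) x51336) x49392) x49716) x49932) x49860) x49872) x49878) x30196)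
    (Nat.add (Nat.add (Nat.add (Nat.add (Nat.add (Nat.add (Nat.add (Nat.add (Nat.add (Nat.add C (Nat.mul x49898 (nat_lit 2))) x36776) x45524) x54272) x51356) x49412) x49736) x50060) x49844) x49900)
    (Nat.sub (Nat.add (Nat.add (Nat.add (Nat.add (Nat.add (Nat.add (Nat.add (Nat.add (Nat.add (Nat.add (Nat.add (Nat.add C x49900) x36778) x45526) x54274) x51358) x49414) x49738) x50062) x49846) x49906) x49898) x49902) x30218)
    (Nat.sub (Nat.sub (Nat.add (Nat.add (Nat.add (Nat.add (Nat.add (Nat.add (Nat.add (Nat.add (Nat.add (Nat.add C x36780) x45528) x54276) x51360) x49416) x49740) x50064) x49848) x49908) x49900) (Nat.mul x49902 (nat_lit 2))) x30220)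
    (Nat.sub (Nat.add (Nat.add (Nat.add (Nat.add (Nat.add (Nat.add (Nat.add (Nat.add (Nat.add (Nat.add (Nat.add C x36784) x45532) x54280) x51364) x49420) x49744) x50068) x49852) x49924) x49900) x49908) x30224)
    (Nat.sub (Nat.sub (Nat.add (Nat.add (Nat.add (Nat.add (Nat.add (Nat.add (Nat.add (Nat.add (Nat.add (Nat.add (Nat.add (Nat.add C x36786) x45534) x54282) x51366) x49422) x49746) x50070) x49854) x49926) x49902) x49914) x49906) x49908) x30226)
    (Nat.sub (Nat.sub (Nat.add (Nat.add (Nat.add (Nat.add (Nat.add (Nat.add (Nat.add (Nat.add (Nat.add (Nat.add C x36792) x45540) x54288) x51372) x49428) x49752) x50076) x49860) x49932) x49908) (Nat.mul x49914 (nat_lit 2))) x30232)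
    (Nat.sub (Nat.add (Nat.add (Nat.add (Nat.add (Nat.add (Nat.add (Nat.add (Nat.add (Nat.add (Nat.add (Nat.add (Nat.add C x49924) x36802) x45550) x54298) x51382) x49438) x49762) x50086) x49870) x49978) x49906) x49926) x30242)
    (Nat.sub (Nat.sub (Nat.add (Nat.add (Nat.add (Nat.add (Nat.add (Nat.add (Nat.add (Nat.add (Nat.add (Nat.add (Nat.add (Nat.add C x36804) x45552) x54300) x51384) x49440) x49764) x50088) x49872) x49980) x49908) x49932) x49924) x49926) x30244)
    (Nat.sub (Nat.add (Nat.add (Nat.add (Nat.add (Nat.add (Nat.add (Nat.add (Nat.add (Nat.add (Nat.add (Nat.add (Nat.add C x36810) x45558) x54306) x51390) x49446) x49770) x50094) x49878) x49986) x49914) x49950) x49926) x30250)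
    (Nat.sub (Nat.add (Nat.add (Nat.add (Nat.add (Nat.add (Nat.add (Nat.add (Nat.add (Nat.add C x36828) x45576) x54324) x51408) x49464) x49788) x50112) x50004) x49932) x30268)
    (Nat.sub (Nat.add (Nat.add (Nat.add (Nat.add (Nat.add (Nat.add (Nat.add (Nat.add (Nat.add C x49978) x36856) x45604) x54352) x51436) x49492) x50140) x49924) x49980) x30296)
    (Nat.sub (Nat.sub (Nat.add (Nat.add (Nat.add (Nat.add (Nat.add (Nat.add (Nat.add (Nat.add (Nat.add C x36858) x45606) x54354) x51438) x49494) x50142) x49926) x49986) x49978) x49980) x30298)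
    (Nat.sub (Nat.sub (Nat.add (Nat.add (Nat.add (Nat.add (Nat.add (Nat.add (Nat.add (Nat.add (Nat.add C x36864) x45612) x54360) x51444) x49500) x50148) x49932) x50004) x49980) x49986) x30304)
    (Nat.sub (Nat.add (Nat.add (Nat.add (Nat.add (Nat.add (Nat.add (Nat.add (Nat.add (Nat.add C x50004) x36882) x45630) x54378) x51462) x49518) x50166) x49950) x49986) x30322)
    (Nat.add (Nat.add (Nat.add (Nat.add (Nat.add (Nat.add (Nat.add C (Nat.mul x50060 (nat_lit 3))) x36938) x45686) x54434) x51518) x49898) x50062)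
    (Nat.sub (Nat.add (Nat.add (Nat.add (Nat.add (Nat.add (Nat.add (Nat.add (Nat.add (Nat.add C (Nat.mul x50062 (nat_lit 2))) x36940) x45688) x54436) x51520) x49900) x50068) x50060) x50064) x30380)
    (Nat.sub (Nat.sub (Nat.add (Nat.add (Nat.add (Nat.add (Nat.add (Nat.add (Nat.add C x36942) x45690) x54438) x51522) x49902) x50070) x50062) x50064) x30382)
    (Nat.sub (Nat.add (Nat.add (Nat.add (Nat.add (Nat.add (Nat.add (Nat.add (Nat.add (Nat.add C x50068) x36946) x45694) x54442) x51526) x49906) x50086) x50062) x50070) x30386)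
    (Nat.sub (Nat.add (Nat.add (Nat.add (Nat.add (Nat.add (Nat.add (Nat.add (Nat.add (Nat.add C x36948) x45696) x54444) x51528) x49908) x50088) x50064) x50076) x50068) x30388)
    (Nat.sub (Nat.sub (Nat.add (Nat.add (Nat.add (Nat.add (Nat.add (Nat.add (Nat.add C x36954) x45702) x54450) x51534) x49914) x50094) x50070) x50076) x30394)
    (Nat.sub (Nat.add (Nat.add (Nat.add (Nat.add (Nat.add (Nat.add (Nat.add (Nat.add (Nat.add C x50086) x36964) x45712) x54460) x51544) x49924) x50140) x50068) x50088) x30404)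
    (Nat.sub (Nat.sub (Nat.add (Nat.add (Nat.add (Nat.add (Nat.add (Nat.add (Nat.add (Nat.add (Nat.add C x36966) x45714) x54462) x51546) x49926) x50142) x50070) x50094) x50086) x50088) x30406)
    (Nat.sub (Nat.add (Nat.add (Nat.add (Nat.add (Nat.add (Nat.add (Nat.add (Nat.add (Nat.add C x36972) x45720) x54468) x51552) x49932) x50148) x50076) x50112) x50088) x30412)
    (Nat.sub (Nat.sub (Nat.add (Nat.add (Nat.add (Nat.add (Nat.add (Nat.add (Nat.add C x36990) x45738) x54486) x51570) x49950) x50166) x50094) x50112) x30430)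
    (Nat.sub (Nat.add (Nat.add (Nat.add (Nat.add (Nat.add (Nat.add (Nat.add (Nat.add C (Nat.mul x50140 (nat_lit 3))) x37018) x45766) x54514) x51598) x49978) x50086) x50142) x30458)
    (Nat.sub (Nat.add (Nat.add (Nat.add (Nat.add (Nat.add (Nat.add (Nat.add (Nat.add (Nat.add C x50142) x37020) x45768) x54516) x51600) x49980) x50088) x50148) x50140) x30460)
    (Nat.sub (Nat.add (Nat.add (Nat.add (Nat.add (Nat.add (Nat.add (Nat.add (Nat.add (Nat.add C x50148) x37026) x45774) x54522) x51606) x49986) x50094) x50166) x50142) x30466)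
    (Nat.sub (Nat.add (Nat.add (Nat.add (Nat.add (Nat.add (Nat.add (Nat.add (Nat.add (Nat.add C (Nat.mul x50166 (nat_lit 2))) x37044) x45792) x54540) x51624) x50004) x50112) x50220) x50148) x30484)
    (Nat.sub (Nat.add (Nat.add (Nat.add (Nat.add (Nat.add (Nat.add C (Nat.mul x50220 (nat_lit 3))) x37098) x45846) x54594) x51678) x50166) x30538)
    (Nat.add (Nat.add (Nat.add (Nat.add (Nat.add (Nat.add C (Nat.mul x50318 (nat_lit 4))) x37196) x54692) x48860) x50336) x50324)
    (Nat.add (Nat.add (Nat.add (Nat.add (Nat.add (Nat.add (Nat.add C (Nat.mul x50324 (nat_lit 2))) x37202) x54698) x48866) x50342) x50318) x50326)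
    (Nat.sub (Nat.add (Nat.add (Nat.add (Nat.add (Nat.add (Nat.add C (Nat.mul x50326 (nat_lit 2))) x37204) x54700) x48868) x50344) x50324) x30644)
    (Nat.add (Nat.add (Nat.add (Nat.add (Nat.add (Nat.add (Nat.add C (Nat.mul x50336 (nat_lit 2))) x37214) x54710) x48878) x50390) x50318) x50342)
    (Nat.add (Nat.add (Nat.add (Nat.add (Nat.add (Nat.add (Nat.add (Nat.add (Nat.add (Nat.add C (Nat.mul x50342 (nat_lit 2))) x37220) x54716) x48884) x50396) x50324) x50360) x50336) x50348) x50344)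
    (Nat.sub (Nat.add (Nat.add (Nat.add (Nat.add (Nat.add (Nat.add (Nat.add (Nat.add (Nat.add C x50344) x37222) x54718) x48886) x50398) x50326) x50362) x50350) x50342) x30662)
    (Nat.add (Nat.add (Nat.add (Nat.add (Nat.add (Nat.add (Nat.add C x37226) x54722) x48890) x50402) x50366) x50342) x50350)
    (Nat.sub (Nat.add (Nat.add (Nat.add (Nat.add (Nat.add (Nat.add (Nat.add (Nat.add (Nat.add C x50350) x37228) x54724) x48892) x50404) x50368) x50344) x50348) x50352) x30668)
    (Nat.sub (Nat.add (Nat.add (Nat.add (Nat.add (Nat.add (Nat.add C x37230) x54726) x48894) x50406) x50370) x50350) x30670)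
    (Nat.add (Nat.add (Nat.add (Nat.add (Nat.add (Nat.add (Nat.add C x37238) x54734) x48902) x50414) x50342) x50366) x50362)
    (Nat.sub (Nat.sub (Nat.add (Nat.add (Nat.add (Nat.add (Nat.add (Nat.add (Nat.add C x37240) x54736) x48904) x50416) x50344) x50368) x50360) (Nat.mul x50362 (nat_lit 2))) x30680)
    (Nat.add (Nat.add (Nat.add (Nat.add (Nat.add (Nat.add (Nat.add C x37244) x54740) x48908) x50420) x50348) x50360) x50368)
    (Nat.sub (Nat.add (Nat.add (Nat.add (Nat.add (Nat.add (Nat.add (Nat.add (Nat.add (Nat.add C x37246) x54742) x48910) x50422) x50350) x50362) x50374) x50366) x50370) x30686)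
    (Nat.sub (Nat.sub (Nat.add (Nat.add (Nat.add (Nat.add (Nat.add (Nat.add (Nat.add C x37248) x54744) x48912) x50424) x50352) x50376) x50368) (Nat.mul x50370 (nat_lit 2))) x30688)
    (Nat.sub (Nat.add (Nat.add (Nat.add (Nat.add (Nat.add (Nat.add C x37252) x54748) x48916) x50428) x50368) x50376) x30692)
    (Nat.sub (Nat.add (Nat.add (Nat.add (Nat.add (Nat.add (Nat.add C x37254) x54750) x48918) x50430) x50370) x50374) x30694)
    (Nat.add (Nat.add (Nat.add (Nat.add (Nat.add (Nat.add (Nat.add C (Nat.mul x50390 (nat_lit 2))) x37268) x54764) x48932) x50552) x50336) x50396)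
    (Nat.add (Nat.add (Nat.add (Nat.add (Nat.add (Nat.add (Nat.add (Nat.add (Nat.add (Nat.add C x50396) x37274) x54770) x48938) x50558) x50342) x50414) x50390) x50402) x50398)
    (Nat.sub (Nat.add (Nat.add (Nat.add (Nat.add (Nat.add (Nat.add (Nat.add (Nat.add C x37276) x54772) x48940) x50560) x50344) x50416) x50404) x50396) x30716)
    (Nat.sub (Nat.add (Nat.add (Nat.add (Nat.add (Nat.add (Nat.add (Nat.add (Nat.add C x37280) x54776) x48944) x50564) x50348) x50420) x50396) x50404) (Nat.mul x50402 (nat_lit 2)))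
    (Nat.sub (Nat.sub (Nat.add (Nat.add (Nat.add (Nat.add (Nat.add (Nat.add (Nat.add (Nat.add (Nat.add C x37282) x54778) x48946) x50566) x50350) x50422) x50398) x50402) x50406) x50404) x30722)
    (Nat.sub (Nat.sub (Nat.add (Nat.add (Nat.add (Nat.add (Nat.add (Nat.add (Nat.add C x37284) x54780) x48948) x50568) x50352) x50424) x50404) (Nat.mul x50406 (nat_lit 2))) x30724)
    (Nat.add (Nat.add (Nat.add (Nat.add (Nat.add (Nat.add (Nat.add (Nat.add (Nat.add (Nat.add C x50414) x37292) x54788) x48956) x50576) x50360) x50468) x50396) x50420) x50416)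
    (Nat.sub (Nat.sub (Nat.add (Nat.add (Nat.add (Nat.add (Nat.add (Nat.add (Nat.add (Nat.add (Nat.add C x37294) x54790) x48958) x50578) x50362) x50470) x50398) x50422) x50414) x50416) x30734)
    (Nat.add (Nat.add (Nat.add (Nat.add (Nat.add (Nat.add (Nat.add (Nat.add (Nat.add (Nat.add C x37298) x54794) x48962) x50582) x50366) x50474) x50402) x50438) x50414) x50422)
    (Nat.sub (Nat.add (Nat.add (Nat.add (Nat.add (Nat.add (Nat.add (Nat.add (Nat.add (Nat.add (Nat.add (Nat.add (Nat.add C x37300) x54796) x48964) x50584) x50368) x50476) x50404) x50440) x50416) x50428) x50420) x50424) x30740)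
    (Nat.sub (Nat.sub (Nat.add (Nat.add (Nat.add (Nat.add (Nat.add (Nat.add (Nat.add (Nat.add (Nat.add (Nat.add C x37302) x54798) x48966) x50586) x50370) x50478) x50406) x50442) x50430) x50422) (Nat.mul x50424 (nat_lit 2))) x30742)
    (Nat.sub (Nat.sub (Nat.add (Nat.add (Nat.add (Nat.add (Nat.add (Nat.add (Nat.add (Nat.add (Nat.add C x37306) x54802) x48970) x50590) x50374) x50482) x50446) x50422) x50430) x50428) x30746)
    (Nat.sub (Nat.sub (Nat.add (Nat.add (Nat.add (Nat.add (Nat.add (Nat.add (Nat.add (Nat.add (Nat.add C x37308) x54804) x48972) x50592) x50376) x50484) x50448) x50424) x50428) x50430) x30748)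
    (Nat.add (Nat.add (Nat.add (Nat.add (Nat.add (Nat.add (Nat.add C x37316) x54812) x48980) x50600) x50492) x50420) x50440)
    (Nat.sub (Nat.sub (Nat.add (Nat.add (Nat.add (Nat.add (Nat.add (Nat.add (Nat.add (Nat.add (Nat.add C x37318) x54814) x48982) x50602) x50494) x50422) x50446) x50438) x50442) x50440) x30758)
    (Nat.sub (Nat.sub (Nat.add (Nat.add (Nat.add (Nat.add (Nat.add (Nat.add (Nat.add (Nat.add C x37320) x54816) x48984) x50604) x50496) x50424) x50448) x50440) (Nat.mul x50442 (nat_lit 4))) x30760)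
    (Nat.sub (Nat.add (Nat.add (Nat.add (Nat.add (Nat.add (Nat.add (Nat.add (Nat.add C x37324) x54820) x48988) x50608) x50500) x50428) x50440) x50448) x30764)
    (Nat.sub (Nat.sub (Nat.add (Nat.add (Nat.add (Nat.add (Nat.add (Nat.add (Nat.add (Nat.add (Nat.add C x37326) x54822) x48990) x50610) x50502) x50430) x50442) x50454) x50446) x50448) x30766)
    (Nat.sub (Nat.add (Nat.add (Nat.add (Nat.add (Nat.add (Nat.add C x37332) x54828) x48996) x50616) x50508) x50448) x30772)
    (Nat.add (Nat.add (Nat.add (Nat.add (Nat.add (Nat.add (Nat.add C x37346) x54842) x49010) x50630) x50414) x50474) x50470)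
    (Nat.sub (Nat.sub (Nat.add (Nat.add (Nat.add (Nat.add (Nat.add (Nat.add (Nat.add C x37348) x54844) x49012) x50632) x50416) x50476) x50468) (Nat.mul x50470 (nat_lit 2))) x30788)
    (Nat.sub (Nat.add (Nat.add (Nat.add (Nat.add (Nat.add (Nat.add (Nat.add (Nat.add C x37352) x54848) x49016) x50636) x50420) x50492) x50468) x50476) (Nat.mul x50474 (nat_lit 2)))
    (Nat.sub (Nat.sub (Nat.add (Nat.add (Nat.add (Nat.add (Nat.add (Nat.add (Nat.add (Nat.add (Nat.add (Nat.add C x37354) x54850) x49018) x50638) x50422) x50494) x50470) x50482) x50474) x50478) (Nat.mul x50476 (nat_lit 2))) x30794)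
    (Nat.sub (Nat.sub (Nat.add (Nat.add (Nat.add (Nat.add (Nat.add (Nat.add (Nat.add (Nat.add C x37356) x54852) x49020) x50640) x50424) x50496) x50484) x50476) (Nat.mul x50478 (nat_lit 4))) x30796)
    (Nat.sub (Nat.sub (Nat.add (Nat.add (Nat.add (Nat.add (Nat.add (Nat.add (Nat.add (Nat.add C x37360) x54856) x49024) x50644) x50428) x50500) x50476) x50484) (Nat.mul x50482 (nat_lit 4))) x30800)
    (Nat.sub (Nat.sub (Nat.add (Nat.add (Nat.add (Nat.add (Nat.add (Nat.add (Nat.add (Nat.add C x37362) x54858) x49026) x50646) x50430) x50502) x50478) x50482) (Nat.mul x50484 (nat_lit 4))) x30802)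
    (Nat.add (Nat.add (Nat.add (Nat.add (Nat.add (Nat.add (Nat.add C x37370) x54866) x49034) x50654) x50438) x50474) x50494)
    (Nat.sub (Nat.sub (Nat.add (Nat.add (Nat.add (Nat.add (Nat.add (Nat.add (Nat.add (Nat.add (Nat.add C x37372) x54868) x49036) x50656) x50440) x50476) x50500) x50492) x50496) x50494) x30812)
    (Nat.sub (Nat.sub (Nat.add (Nat.add (Nat.add (Nat.add (Nat.add (Nat.add (Nat.add (Nat.add C x37374) x54870) x49038) x50658) x50442) x50478) x50502) x50494) (Nat.mul x50496 (nat_lit 4))) x30814)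
    (Nat.sub (Nat.sub (Nat.add (Nat.add (Nat.add (Nat.add (Nat.add (Nat.add (Nat.add (Nat.add (Nat.add C x37378) x54874) x49042) x50662) x50446) x50482) x50518) x50494) x50502) x50500) x30818)
    (Nat.sub (Nat.sub (Nat.add (Nat.add (Nat.add (Nat.add (Nat.add (Nat.add (Nat.add (Nat.add (Nat.add (Nat.add C x37380) x54876) x49044) x50664) x50448) x50484) x50520) x50496) x50508) x50500) (Nat.mul x50502 (nat_lit 2))) x30820)
    (Nat.sub (Nat.sub (Nat.add (Nat.add (Nat.add (Nat.add (Nat.add (Nat.add (Nat.add C x37386) x54882) x49050) x50670) x50454) x50526) x50502) (Nat.mul x50508 (nat_lit 2))) x30826)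
    (Nat.sub (Nat.add (Nat.add (Nat.add (Nat.add (Nat.add (Nat.add C x37396) x54892) x49060) x50680) x50500) x50520) x30836)
    (Nat.sub (Nat.sub (Nat.add (Nat.add (Nat.add (Nat.add (Nat.add (Nat.add (Nat.add C x37398) x54894) x49062) x50682) x50502) x50526) x50518) (Nat.mul x50520 (nat_lit 2))) x30838)
    (Nat.sub (Nat.add (Nat.add (Nat.add (Nat.add (Nat.add (Nat.add C x37404) x54900) x49068) x50688) x50508) x50520) x30844)
    (Nat.add (Nat.add (Nat.add (Nat.add (Nat.add (Nat.add (Nat.add C (Nat.mul x50552 (nat_lit 2))) x37430) x54926) x49094) x51038) x50390) x50558)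
    (Nat.add (Nat.add (Nat.add (Nat.add (Nat.add (Nat.add (Nat.add (Nat.add (Nat.add (Nat.add C x50558) x37436) x54932) x49100) x51044) x50396) x50576) x50552) x50564) x50560)
    (Nat.sub (Nat.add (Nat.add (Nat.add (Nat.add (Nat.add (Nat.add (Nat.add (Nat.add C x37438) x54934) x49102) x51046) x50398) x50578) x50566) x50558) x30878)
    (Nat.sub (Nat.add (Nat.add (Nat.add (Nat.add (Nat.add (Nat.add (Nat.add (Nat.add C x37442) x54938) x49106) x51050) x50402) x50582) x50558) x50566) (Nat.mul x50564 (nat_lit 2)))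
    (Nat.sub (Nat.sub (Nat.add (Nat.add (Nat.add (Nat.add (Nat.add (Nat.add (Nat.add (Nat.add (Nat.add C x37444) x54940) x49108) x51052) x50404) x50584) x50560) x50564) x50568) x50566) x30884)
    (Nat.sub (Nat.sub (Nat.add (Nat.add (Nat.add (Nat.add (Nat.add (Nat.add (Nat.add C x37446) x54942) x49110) x51054) x50406) x50586) x50566) (Nat.mul x50568 (nat_lit 2))) x30886)
    (Nat.add (Nat.add (Nat.add (Nat.add (Nat.add (Nat.add (Nat.add (Nat.add (Nat.add C x37454) x54950) x49118) x51062) x50414) x50630) x50558) x50582) x50578)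
    (Nat.sub (Nat.sub (Nat.add (Nat.add (Nat.add (Nat.add (Nat.add (Nat.add (Nat.add (Nat.add (Nat.add C x37456) x54952) x49120) x51064) x50416) x50632) x50560) x50584) x50576) (Nat.mul x50578 (nat_lit 2))) x30896)
    (Nat.sub (Nat.add (Nat.add (Nat.add (Nat.add (Nat.add (Nat.add (Nat.add (Nat.add (Nat.add (Nat.add C x37460) x54956) x49124) x51068) x50420) x50636) x50564) x50600) x50576) x50584) x50582)
    (Nat.sub (Nat.sub (Nat.add (Nat.add (Nat.add (Nat.add (Nat.add (Nat.add (Nat.add (Nat.add (Nat.add (Nat.add (Nat.add (Nat.add C x37462) x54958) x49126) x51070) x50422) x50638) x50566) x50602) x50578) x50590) x50582) x50586) x50584) x30902)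
    (Nat.sub (Nat.sub (Nat.add (Nat.add (Nat.add (Nat.add (Nat.add (Nat.add (Nat.add (Nat.add (Nat.add (Nat.add C x37464) x54960) x49128) x51072) x50424) x50640) x50568) x50604) x50592) x50584) (Nat.mul x50586 (nat_lit 3))) x30904)
    (Nat.sub (Nat.sub (Nat.add (Nat.add (Nat.add (Nat.add (Nat.add (Nat.add (Nat.add (Nat.add (Nat.add C x37468) x54964) x49132) x51076) x50428) x50644) x50608) x50584) x50592) (Nat.mul x50590 (nat_lit 2))) x30908)
    (Nat.sub (Nat.sub (Nat.add (Nat.add (Nat.add (Nat.add (Nat.add (Nat.add (Nat.add (Nat.add (Nat.add C x37470) x54966) x49134) x51078) x50430) x50646) x50610) x50586) x50590) (Nat.mul x50592 (nat_lit 2))) x30910)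
    (Nat.sub (Nat.add (Nat.add (Nat.add (Nat.add (Nat.add (Nat.add (Nat.add (Nat.add C x37478) x54974) x49142) x51086) x50438) x50654) x50582) x50602) (Nat.mul x50600 (nat_lit 2)))
    (Nat.sub (Nat.sub (Nat.add (Nat.add (Nat.add (Nat.add (Nat.add (Nat.add (Nat.add (Nat.add (Nat.add (Nat.add C x37480) x54976) x49144) x51088) x50440) x50656) x50584) x50608) x50600) x50604) (Nat.mul x50602 (nat_lit 3))) x30920)
    (Nat.sub (Nat.sub (Nat.add (Nat.add (Nat.add (Nat.add (Nat.add (Nat.add (Nat.add (Nat.add (Nat.add C x37482) x54978) x49146) x51090) x50442) x50658) x50586) x50610) x50602) (Nat.mul x50604 (nat_lit 6))) x30922)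
    (Nat.sub (Nat.sub (Nat.add (Nat.add (Nat.add (Nat.add (Nat.add (Nat.add (Nat.add (Nat.add (Nat.add C x37486) x54982) x49150) x51094) x50446) x50662) x50590) x50602) x50610) (Nat.mul x50608 (nat_lit 2))) x30926)
    (Nat.sub (Nat.sub (Nat.add (Nat.add (Nat.add (Nat.add (Nat.add (Nat.add (Nat.add (Nat.add (Nat.add (Nat.add C x37488) x54984) x49152) x51096) x50448) x50664) x50592) x50604) x50616) x50608) (Nat.mul x50610 (nat_lit 3))) x30928)
    (Nat.sub (Nat.sub (Nat.add (Nat.add (Nat.add (Nat.add (Nat.add (Nat.add (Nat.add C x37494) x54990) x49158) x51102) x50454) x50670) x50610) (Nat.mul x50616 (nat_lit 2))) x30934)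
    (Nat.add (Nat.add (Nat.add (Nat.add (Nat.add (Nat.add (Nat.add (Nat.add (Nat.add (Nat.add C x50630) x37508) x55004) x49172) x51116) x50468) x50792) x50576) x50636) x50632)
    (Nat.sub (Nat.sub (Nat.add (Nat.add (Nat.add (Nat.add (Nat.add (Nat.add (Nat.add (Nat.add (Nat.add C x37510) x55006) x49174) x51118) x50470) x50794) x50578) x50638) x50630) x50632) x30950)
    (Nat.sub (Nat.add (Nat.add (Nat.add (Nat.add (Nat.add (Nat.add (Nat.add (Nat.add (Nat.add (Nat.add C x37514) x55010) x49178) x51122) x50474) x50798) x50582) x50654) x50630) x50638) x50636)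
    (Nat.sub (Nat.sub (Nat.add (Nat.add (Nat.add (Nat.add (Nat.add (Nat.add (Nat.add (Nat.add (Nat.add (Nat.add (Nat.add (Nat.add C x37516) x55012) x49180) x51124) x50476) x50800) x50584) x50656) x50632) x50644) x50636) x50640) x50638) x30956)
    (Nat.sub (Nat.sub (Nat.add (Nat.add (Nat.add (Nat.add (Nat.add (Nat.add (Nat.add (Nat.add (Nat.add (Nat.add C x37518) x55014) x49182) x51126) x50478) x50802) x50586) x50658) x50646) x50638) (Nat.mul x50640 (nat_lit 3))) x30958)
    (Nat.sub (Nat.sub (Nat.add (Nat.add (Nat.add (Nat.add (Nat.add (Nat.add (Nat.add (Nat.add (Nat.add (Nat.add C x37522) x55018) x49186) x51130) x50482) x50806) x50590) x50662) x50638) x50646) (Nat.mul x50644 (nat_lit 3))) x30962)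
    (Nat.sub (Nat.sub (Nat.add (Nat.add (Nat.add (Nat.add (Nat.add (Nat.add (Nat.add (Nat.add (Nat.add (Nat.add C x37524) x55020) x49188) x51132) x50484) x50808) x50592) x50664) x50640) x50644) (Nat.mul x50646 (nat_lit 3))) x30964)
    (Nat.add (Nat.add (Nat.add (Nat.add (Nat.add (Nat.add (Nat.add (Nat.add (Nat.add (Nat.add C x37532) x55028) x49196) x51140) x50492) x50816) x50600) x50708) x50636) x50656)
    (Nat.sub (Nat.sub (Nat.add (Nat.add (Nat.add (Nat.add (Nat.add (Nat.add (Nat.add (Nat.add (Nat.add (Nat.add (Nat.add (Nat.add C x37534) x55030) x49198) x51142) x50494) x50818) x50602) x50710) x50638) x50662) x50654) x50658) x50656) x30974)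
    (Nat.sub (Nat.sub (Nat.add (Nat.add (Nat.add (Nat.add (Nat.add (Nat.add (Nat.add (Nat.add (Nat.add (Nat.add (Nat.add C x37536) x55032) x49200) x51144) x50496) x50820) x50604) x50712) x50640) x50664) x50656) (Nat.mul x50658 (nat_lit 4))) x30976)
    (Nat.sub (Nat.sub (Nat.add (Nat.add (Nat.add (Nat.add (Nat.add (Nat.add (Nat.add (Nat.add (Nat.add (Nat.add (Nat.add (Nat.add C x37540) x55036) x49204) x51148) x50500) x50824) x50608) x50716) x50644) x50680) x50656) x50664) x50662) x30980)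
    (Nat.sub (Nat.sub (Nat.add (Nat.add (Nat.add (Nat.add (Nat.add (Nat.add (Nat.add (Nat.add (Nat.add (Nat.add (Nat.add (Nat.add (Nat.add C x37542) x55038) x49206) x51150) x50502) x50826) x50610) x50718) x50646) x50682) x50658) x50670) x50662) (Nat.mul x50664 (nat_lit 2))) x30982)
    (Nat.sub (Nat.sub (Nat.add (Nat.add (Nat.add (Nat.add (Nat.add (Nat.add (Nat.add (Nat.add (Nat.add (Nat.add C x37548) x55044) x49212) x51156) x50508) x50832) x50616) x50724) x50688) x50664) (Nat.mul x50670 (nat_lit 2))) x30988)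
    (Nat.sub (Nat.sub (Nat.add (Nat.add (Nat.add (Nat.add (Nat.add (Nat.add (Nat.add (Nat.add (Nat.add C x37558) x55054) x49222) x51166) x50518) x50842) x50734) x50662) x50682) x50680) x30998)
    (Nat.sub (Nat.sub (Nat.add (Nat.add (Nat.add (Nat.add (Nat.add (Nat.add (Nat.add (Nat.add (Nat.add (Nat.add C x37560) x55056) x49224) x51168) x50520) x50844) x50736) x50664) x50688) x50680) (Nat.mul x50682 (nat_lit 3))) x31000)
    (Nat.sub (Nat.sub (Nat.add (Nat.add (Nat.add (Nat.add (Nat.add (Nat.add (Nat.add (Nat.add (Nat.add C x37566) x55062) x49230) x51174) x50526) x50850) x50742) x50670) x50682) x50688) x31006)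
    (Nat.add (Nat.add (Nat.add (Nat.add (Nat.add (Nat.add (Nat.add C x37586) x55082) x49250) x51194) x50870) x50654) x50710)
    (Nat.sub (Nat.sub (Nat.add (Nat.add (Nat.add (Nat.add (Nat.add (Nat.add (Nat.add (Nat.add (Nat.add C x37588) x55084) x49252) x51196) x50872) x50656) x50716) x50708) x50712) x50710) x31028)
    (Nat.sub (Nat.sub (Nat.add (Nat.add (Nat.add (Nat.add (Nat.add (Nat.add (Nat.add (Nat.add C x37590) x55086) x49254) x51198) x50874) x50658) x50718) x50710) (Nat.mul x50712 (nat_lit 4))) x31030)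
    (Nat.sub (Nat.sub (Nat.add (Nat.add (Nat.add (Nat.add (Nat.add (Nat.add (Nat.add (Nat.add (Nat.add C x37594) x55090) x49258) x51202) x50878) x50662) x50734) x50710) x50718) (Nat.mul x50716 (nat_lit 2))) x31034)
    (Nat.sub (Nat.sub (Nat.add (Nat.add (Nat.add (Nat.add (Nat.add (Nat.add (Nat.add (Nat.add (Nat.add (Nat.add C x37596) x55092) x49260) x51204) x50880) x50664) x50736) x50712) x50724) x50716) (Nat.mul x50718 (nat_lit 3))) x31036)
    (Nat.sub (Nat.sub (Nat.add (Nat.add (Nat.add (Nat.add (Nat.add (Nat.add (Nat.add (Nat.add C x37602) x55098) x49266) x51210) x50886) x50670) x50742) x50718) (Nat.mul x50724 (nat_lit 4))) x31042)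
    (Nat.sub (Nat.add (Nat.add (Nat.add (Nat.add (Nat.add (Nat.add (Nat.add (Nat.add C x37612) x55108) x49276) x51220) x50896) x50680) x50716) x50736) x31052)
    (Nat.sub (Nat.sub (Nat.add (Nat.add (Nat.add (Nat.add (Nat.add (Nat.add (Nat.add (Nat.add (Nat.add C x37614) x55110) x49278) x51222) x50898) x50682) x50718) x50742) x50734) (Nat.mul x50736 (nat_lit 2))) x31054)
    (Nat.sub (Nat.sub (Nat.add (Nat.add (Nat.add (Nat.add (Nat.add (Nat.add (Nat.add (Nat.add (Nat.add C x37620) x55116) x49284) x51228) x50904) x50688) x50724) x50760) x50736) x50742) x31060)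
    (Nat.sub (Nat.add (Nat.add (Nat.add (Nat.add (Nat.add (Nat.add C x37638) x55134) x49302) x51246) x50922) x50742) x31078)
    (Nat.add (Nat.add (Nat.add (Nat.add (Nat.add (Nat.add (Nat.add C x37670) x55166) x49334) x51278) x50630) x50798) x50794)
    (Nat.sub (Nat.sub (Nat.add (Nat.add (Nat.add (Nat.add (Nat.add (Nat.add (Nat.add C x37672) x55168) x49336) x51280) x50632) x50800) x50792) (Nat.mul x50794 (nat_lit 2))) x31112)
    (Nat.sub (Nat.add (Nat.add (Nat.add (Nat.add (Nat.add (Nat.add (Nat.add (Nat.add C x37676) x55172) x49340) x51284) x50636) x50816) x50792) x50800) (Nat.mul x50798 (nat_lit 2)))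
    (Nat.sub (Nat.sub (Nat.add (Nat.add (Nat.add (Nat.add (Nat.add (Nat.add (Nat.add (Nat.add (Nat.add (Nat.add C x37678) x55174) x49342) x51286) x50638) x50818) x50794) x50806) x50798) x50802) (Nat.mul x50800 (nat_lit 2))) x31118)
    (Nat.sub (Nat.sub (Nat.add (Nat.add (Nat.add (Nat.add (Nat.add (Nat.add (Nat.add (Nat.add C x37680) x55176) x49344) x51288) x50640) x50820) x50808) x50800) (Nat.mul x50802 (nat_lit 4))) x31120)
    (Nat.sub (Nat.sub (Nat.add (Nat.add (Nat.add (Nat.add (Nat.add (Nat.add (Nat.add (Nat.add C x37684) x55180) x49348) x51292) x50644) x50824) x50800) x50808) (Nat.mul x50806 (nat_lit 4))) x31124)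
    (Nat.sub (Nat.sub (Nat.add (Nat.add (Nat.add (Nat.add (Nat.add (Nat.add (Nat.add (Nat.add C x37686) x55182) x49350) x51294) x50646) x50826) x50802) x50806) (Nat.mul x50808 (nat_lit 4))) x31126)
    (Nat.sub (Nat.add (Nat.add (Nat.add (Nat.add (Nat.add (Nat.add (Nat.add (Nat.add C x37694) x55190) x49358) x51302) x50654) x50870) x50798) x50818) (Nat.mul x50816 (nat_lit 2)))
    (Nat.sub (Nat.sub (Nat.add (Nat.add (Nat.add (Nat.add (Nat.add (Nat.add (Nat.add (Nat.add (Nat.add (Nat.add C x37696) x55192) x49360) x51304) x50656) x50872) x50800) x50824) x50816) x50820) (Nat.mul x50818 (nat_lit 3))) x31136)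
    (Nat.sub (Nat.sub (Nat.add (Nat.add (Nat.add (Nat.add (Nat.add (Nat.add (Nat.add (Nat.add (Nat.add C x37698) x55194) x49362) x51306) x50658) x50874) x50802) x50826) x50818) (Nat.mul x50820 (nat_lit 6))) x31138)
    (Nat.sub (Nat.sub (Nat.add (Nat.add (Nat.add (Nat.add (Nat.add (Nat.add (Nat.add (Nat.add (Nat.add (Nat.add C x37702) x55198) x49366) x51310) x50662) x50878) x50806) x50842) x50818) x50826) (Nat.mul x50824 (nat_lit 3))) x31142)
    (Nat.sub (Nat.sub (Nat.add (Nat.add (Nat.add (Nat.add (Nat.add (Nat.add (Nat.add (Nat.add (Nat.add (Nat.add (Nat.add C x37704) x55200) x49368) x51312) x50664) x50880) x50808) x50844) x50820) x50832) x50824) (Nat.mul x50826 (nat_lit 4))) x31144)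
    (Nat.sub (Nat.sub (Nat.add (Nat.add (Nat.add (Nat.add (Nat.add (Nat.add (Nat.add (Nat.add C x37710) x55206) x49374) x51318) x50670) x50886) x50850) x50826) (Nat.mul x50832 (nat_lit 4))) x31150)
    (Nat.sub (Nat.sub (Nat.add (Nat.add (Nat.add (Nat.add (Nat.add (Nat.add (Nat.add (Nat.add C x37720) x55216) x49384) x51328) x50680) x50896) x50824) x50844) (Nat.mul x50842 (nat_lit 4))) x31160)
    (Nat.sub (Nat.sub (Nat.add (Nat.add (Nat.add (Nat.add (Nat.add (Nat.add (Nat.add (Nat.add (Nat.add C x37722) x55218) x49386) x51330) x50682) x50898) x50826) x50850) x50842) (Nat.mul x50844 (nat_lit 6))) x31162)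
    (Nat.sub (Nat.sub (Nat.add (Nat.add (Nat.add (Nat.add (Nat.add (Nat.add (Nat.add (Nat.add C x37728) x55224) x49392) x51336) x50688) x50904) x50832) x50844) (Nat.mul x50850 (nat_lit 4))) x31168)
    (Nat.add (Nat.add (Nat.add (Nat.add (Nat.add (Nat.add (Nat.add C x37748) x55244) x49412) x51356) x50708) x50816) x50872)
    (Nat.sub (Nat.sub (Nat.add (Nat.add (Nat.add (Nat.add (Nat.add (Nat.add (Nat.add (Nat.add (Nat.add C x37750) x55246) x49414) x51358) x50710) x50818) x50878) x50870) x50874) x50872) x31190)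
    (Nat.sub (Nat.sub (Nat.add (Nat.add (Nat.add (Nat.add (Nat.add (Nat.add (Nat.add (Nat.add C x37752) x55248) x49416) x51360) x50712) x50820) x50880) x50872) (Nat.mul x50874 (nat_lit 4))) x31192)
    (Nat.sub (Nat.sub (Nat.add (Nat.add (Nat.add (Nat.add (Nat.add (Nat.add (Nat.add (Nat.add (Nat.add C x37756) x55252) x49420) x51364) x50716) x50824) x50896) x50872) x50880) (Nat.mul x50878 (nat_lit 2))) x31196)
    (Nat.sub (Nat.sub (Nat.add (Nat.add (Nat.add (Nat.add (Nat.add (Nat.add (Nat.add (Nat.add (Nat.add (Nat.add C x37758) x55254) x49422) x51366) x50718) x50826) x50898) x50874) x50886) x50878) (Nat.mul x50880 (nat_lit 3))) x31198)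
    (Nat.sub (Nat.sub (Nat.add (Nat.add (Nat.add (Nat.add (Nat.add (Nat.add (Nat.add (Nat.add C x37764) x55260) x49428) x51372) x50724) x50832) x50904) x50880) (Nat.mul x50886 (nat_lit 4))) x31204)
    (Nat.sub (Nat.sub (Nat.add (Nat.add (Nat.add (Nat.add (Nat.add (Nat.add (Nat.add (Nat.add (Nat.add C x37774) x55270) x49438) x51382) x50734) x50842) x50950) x50878) x50898) x50896) x31214)
    (Nat.sub (Nat.sub (Nat.add (Nat.add (Nat.add (Nat.add (Nat.add (Nat.add (Nat.add (Nat.add (Nat.add (Nat.add C x37776) x55272) x49440) x51384) x50736) x50844) x50952) x50880) x50904) x50896) (Nat.mul x50898 (nat_lit 3))) x31216)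
    (Nat.sub (Nat.sub (Nat.add (Nat.add (Nat.add (Nat.add (Nat.add (Nat.add (Nat.add (Nat.add (Nat.add (Nat.add C x37782) x55278) x49446) x51390) x50742) x50850) x50958) x50886) x50922) x50898) (Nat.mul x50904 (nat_lit 2))) x31222)
    (Nat.sub (Nat.sub (Nat.add (Nat.add (Nat.add (Nat.add (Nat.add (Nat.add (Nat.add C x37800) x55296) x49464) x51408) x50760) x50976) x50904) (Nat.mul x50922 (nat_lit 2))) x31240)
    (Nat.sub (Nat.add (Nat.add (Nat.add (Nat.add (Nat.add (Nat.add C x37828) x55324) x49492) x51436) x50896) x50952) x31268)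
    (Nat.sub (Nat.sub (Nat.add (Nat.add (Nat.add (Nat.add (Nat.add (Nat.add (Nat.add C x37830) x55326) x49494) x51438) x50898) x50958) x50950) (Nat.mul x50952 (nat_lit 2))) x31270)
    (Nat.sub (Nat.sub (Nat.add (Nat.add (Nat.add (Nat.add (Nat.add (Nat.add (Nat.add C x37836) x55332) x49500) x51444) x50904) x50976) x50952) (Nat.mul x50958 (nat_lit 2))) x31276)
    (Nat.sub (Nat.add (Nat.add (Nat.add (Nat.add (Nat.add (Nat.add C x37854) x55350) x49518) x51462) x50922) x50958) x31294)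
    (Nat.add (Nat.add (Nat.add (Nat.add (Nat.add (Nat.add C (Nat.mul x51038 (nat_lit 4))) x37916) x55412) x49580) x50552) x51044)
    (Nat.add (Nat.add (Nat.add (Nat.add (Nat.add (Nat.add (Nat.add (Nat.add (Nat.add C (Nat.mul x51044 (nat_lit 3))) x37922) x55418) x49586) x50558) x51062) x51038) x51050) x51046)
    (Nat.sub (Nat.add (Nat.add (Nat.add (Nat.add (Nat.add (Nat.add (Nat.add (Nat.add C (Nat.mul x51046 (nat_lit 2))) x37924) x55420) x49588) x50560) x51064) x51052) x51044) x31364)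
    (Nat.add (Nat.add (Nat.add (Nat.add (Nat.add (Nat.add (Nat.add C x37928) x55424) x49592) x50564) x51068) x51044) x51052)
    (Nat.sub (Nat.add (Nat.add (Nat.add (Nat.add (Nat.add (Nat.add (Nat.add (Nat.add (Nat.add C x51052) x37930) x55426) x49594) x50566) x51070) x51046) x51050) x51054) x31370)
    (Nat.sub (Nat.add (Nat.add (Nat.add (Nat.add (Nat.add (Nat.add C x37932) x55428) x49596) x50568) x51072) x51052) x31372)
    (Nat.add (Nat.add (Nat.add (Nat.add (Nat.add (Nat.add (Nat.add (Nat.add (Nat.add C (Nat.mul x51062 (nat_lit 2))) x37940) x55436) x49604) x50576) x51116) x51044) x51068) x51064)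
    (Nat.sub (Nat.add (Nat.add (Nat.add (Nat.add (Nat.add (Nat.add (Nat.add (Nat.add C x37942) x55438) x49606) x50578) x51118) x51046) x51070) x51062) x31382)
    (Nat.add (Nat.add (Nat.add (Nat.add (Nat.add (Nat.add (Nat.add (Nat.add (Nat.add (Nat.add C x51068) x37946) x55442) x49610) x50582) x51122) x51050) x51086) x51062) x51070)
    (Nat.sub (Nat.add (Nat.add (Nat.add (Nat.add (Nat.add (Nat.add (Nat.add (Nat.add (Nat.add (Nat.add (Nat.add (Nat.add C x51070) x37948) x55444) x49612) x50584) x51124) x51052) x51088) x51064) x51076) x51068) x51072) x31388)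
    (Nat.sub (Nat.sub (Nat.add (Nat.add (Nat.add (Nat.add (Nat.add (Nat.add (Nat.add (Nat.add (Nat.add C x37950) x55446) x49614) x50586) x51126) x51054) x51090) x51078) x51070) x51072) x31390)
    (Nat.sub (Nat.add (Nat.add (Nat.add (Nat.add (Nat.add (Nat.add (Nat.add (Nat.add C x37954) x55450) x49618) x50590) x51130) x51094) x51070) x51078) x31394)
    (Nat.sub (Nat.add (Nat.add (Nat.add (Nat.add (Nat.add (Nat.add (Nat.add (Nat.add C x37956) x55452) x49620) x50592) x51132) x51096) x51072) x51076) x31396)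
    (Nat.add (Nat.add (Nat.add (Nat.add (Nat.add (Nat.add (Nat.add C x37964) x55460) x49628) x50600) x51140) x51068) x51088)
    (Nat.sub (Nat.sub (Nat.add (Nat.add (Nat.add (Nat.add (Nat.add (Nat.add (Nat.add (Nat.add (Nat.add C x37966) x55462) x49630) x50602) x51142) x51070) x51094) x51086) x51090) x51088) x31406)
    (Nat.sub (Nat.sub (Nat.add (Nat.add (Nat.add (Nat.add (Nat.add (Nat.add (Nat.add (Nat.add C x37968) x55464) x49632) x50604) x51144) x51072) x51096) x51088) (Nat.mul x51090 (nat_lit 4))) x31408)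
    (Nat.sub (Nat.add (Nat.add (Nat.add (Nat.add (Nat.add (Nat.add (Nat.add (Nat.add C x37972) x55468) x49636) x50608) x51148) x51076) x51088) x51096) x31412)
    (Nat.sub (Nat.sub (Nat.add (Nat.add (Nat.add (Nat.add (Nat.add (Nat.add (Nat.add (Nat.add (Nat.add C x37974) x55470) x49638) x50610) x51150) x51078) x51090) x51102) x51094) x51096) x31414)
    (Nat.sub (Nat.add (Nat.add (Nat.add (Nat.add (Nat.add (Nat.add C x37980) x55476) x49644) x50616) x51156) x51096) x31420)
    (Nat.add (Nat.add (Nat.add (Nat.add (Nat.add (Nat.add (Nat.add (Nat.add (Nat.add C (Nat.mul x51116 (nat_lit 2))) x37994) x55490) x49658) x50630) x51278) x51062) x51122) x51118)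
    (Nat.sub (Nat.add (Nat.add (Nat.add (Nat.add (Nat.add (Nat.add (Nat.add (Nat.add C x37996) x55492) x49660) x50632) x51280) x51064) x51124) x51116) x31436)
    (Nat.add (Nat.add (Nat.add (Nat.add (Nat.add (Nat.add (Nat.add (Nat.add (Nat.add C x38000) x55496) x49664) x50636) x51284) x51068) x51140) x51116) x51124)
    (Nat.sub (Nat.add (Nat.add (Nat.add (Nat.add (Nat.add (Nat.add (Nat.add (Nat.add (Nat.add (Nat.add (Nat.add C x38002) x55498) x49666) x50638) x51286) x51070) x51142) x51118) x51130) x51122) x51126) x31442)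
    (Nat.sub (Nat.sub (Nat.add (Nat.add (Nat.add (Nat.add (Nat.add (Nat.add (Nat.add (Nat.add (Nat.add C x38004) x55500) x49668) x50640) x51288) x51072) x51144) x51132) x51124) (Nat.mul x51126 (nat_lit 2))) x31444)
    (Nat.sub (Nat.sub (Nat.add (Nat.add (Nat.add (Nat.add (Nat.add (Nat.add (Nat.add (Nat.add (Nat.add C x38008) x55504) x49672) x50644) x51292) x51076) x51148) x51124) x51132) (Nat.mul x51130 (nat_lit 2))) x31448)
    (Nat.sub (Nat.sub (Nat.add (Nat.add (Nat.add (Nat.add (Nat.add (Nat.add (Nat.add (Nat.add (Nat.add C x38010) x55506) x49674) x50646) x51294) x51078) x51150) x51126) x51130) (Nat.mul x51132 (nat_lit 2))) x31450)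
    (Nat.add (Nat.add (Nat.add (Nat.add (Nat.add (Nat.add (Nat.add (Nat.add (Nat.add (Nat.add C x51140) x38018) x55514) x49682) x50654) x51302) x51086) x51194) x51122) x51142)
    (Nat.sub (Nat.add (Nat.add (Nat.add (Nat.add (Nat.add (Nat.add (Nat.add (Nat.add (Nat.add (Nat.add (Nat.add C x38020) x55516) x49684) x50656) x51304) x51088) x51196) x51124) x51148) x51140) x51144) x31460)
    (Nat.sub (Nat.sub (Nat.add (Nat.add (Nat.add (Nat.add (Nat.add (Nat.add (Nat.add (Nat.add (Nat.add (Nat.add C x38022) x55518) x49686) x50658) x51306) x51090) x51198) x51126) x51150) x51142) (Nat.mul x51144 (nat_lit 3))) x31462)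
    (Nat.sub (Nat.add (Nat.add (Nat.add (Nat.add (Nat.add (Nat.add (Nat.add (Nat.add (Nat.add (Nat.add (Nat.add C x38026) x55522) x49690) x50662) x51310) x51094) x51202) x51130) x51166) x51142) x51150) x31466)
    (Nat.sub (Nat.sub (Nat.add (Nat.add (Nat.add (Nat.add (Nat.add (Nat.add (Nat.add (Nat.add (Nat.add (Nat.add (Nat.add (Nat.add C x38028) x55524) x49692) x50664) x51312) x51096) x51204) x51132) x51168) x51144) x51156) x51148) x51150) x31468)
    (Nat.sub (Nat.sub (Nat.add (Nat.add (Nat.add (Nat.add (Nat.add (Nat.add (Nat.add (Nat.add (Nat.add C x38034) x55530) x49698) x50670) x51318) x51102) x51210) x51174) x51150) x51156) x31474)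
    (Nat.sub (Nat.add (Nat.add (Nat.add (Nat.add (Nat.add (Nat.add (Nat.add (Nat.add C x38044) x55540) x49708) x50680) x51328) x51220) x51148) x51168) x31484)
    (Nat.sub (Nat.sub (Nat.add (Nat.add (Nat.add (Nat.add (Nat.add (Nat.add (Nat.add (Nat.add (Nat.add C x38046) x55542) x49710) x50682) x51330) x51222) x51150) x51174) x51166) (Nat.mul x51168 (nat_lit 2))) x31486)
    (Nat.sub (Nat.add (Nat.add (Nat.add (Nat.add (Nat.add (Nat.add (Nat.add (Nat.add C x38052) x55548) x49716) x50688) x51336) x51228) x51156) x51168) x31492)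
    (Nat.add (Nat.add (Nat.add (Nat.add (Nat.add (Nat.add (Nat.add C x38072) x55568) x49736) x50708) x51356) x51140) x51196)
    (Nat.sub (Nat.sub (Nat.add (Nat.add (Nat.add (Nat.add (Nat.add (Nat.add (Nat.add (Nat.add (Nat.add C x38074) x55570) x49738) x50710) x51358) x51142) x51202) x51194) x51198) x51196) x31514)
    (Nat.sub (Nat.sub (Nat.add (Nat.add (Nat.add (Nat.add (Nat.add (Nat.add (Nat.add (Nat.add C x38076) x55572) x49740) x50712) x51360) x51144) x51204) x51196) (Nat.mul x51198 (nat_lit 4))) x31516)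
    (Nat.sub (Nat.sub (Nat.add (Nat.add (Nat.add (Nat.add (Nat.add (Nat.add (Nat.add (Nat.add (Nat.add C x38080) x55576) x49744) x50716) x51364) x51148) x51220) x51196) x51204) (Nat.mul x51202 (nat_lit 2))) x31520)
    (Nat.sub (Nat.sub (Nat.add (Nat.add (Nat.add (Nat.add (Nat.add (Nat.add (Nat.add (Nat.add (Nat.add (Nat.add C x38082) x55578) x49746) x50718) x51366) x51150) x51222) x51198) x51210) x51202) (Nat.mul x51204 (nat_lit 3))) x31522)
    (Nat.sub (Nat.sub (Nat.add (Nat.add (Nat.add (Nat.add (Nat.add (Nat.add (Nat.add (Nat.add C x38088) x55584) x49752) x50724) x51372) x51156) x51228) x51204) (Nat.mul x51210 (nat_lit 4))) x31528)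
    (Nat.sub (Nat.add (Nat.add (Nat.add (Nat.add (Nat.add (Nat.add (Nat.add (Nat.add C x38098) x55594) x49762) x50734) x51382) x51166) x51202) x51222) x31538)
    (Nat.sub (Nat.sub (Nat.add (Nat.add (Nat.add (Nat.add (Nat.add (Nat.add (Nat.add (Nat.add (Nat.add C x38100) x55596) x49764) x50736) x51384) x51168) x51204) x51228) x51220) (Nat.mul x51222 (nat_lit 2))) x31540)
    (Nat.sub (Nat.sub (Nat.add (Nat.add (Nat.add (Nat.add (Nat.add (Nat.add (Nat.add (Nat.add (Nat.add C x38106) x55602) x49770) x50742) x51390) x51174) x51210) x51246) x51222) x51228) x31546)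
    (Nat.sub (Nat.add (Nat.add (Nat.add (Nat.add (Nat.add (Nat.add C x38124) x55620) x49788) x50760) x51408) x51228) x31564)
    (Nat.add (Nat.add (Nat.add (Nat.add (Nat.add (Nat.add (Nat.add (Nat.add (Nat.add C (Nat.mul x51278 (nat_lit 3))) x38156) x55652) x49820) x50792) x51764) x51116) x51284) x51280)
    (Nat.sub (Nat.add (Nat.add (Nat.add (Nat.add (Nat.add (Nat.add (Nat.add (Nat.add (Nat.add C x51280) x38158) x55654) x49822) x50794) x51766) x51118) x51286) x51278) x31598)
    (Nat.add (Nat.add (Nat.add (Nat.add (Nat.add (Nat.add (Nat.add (Nat.add (Nat.add (Nat.add C x51284) x38162) x55658) x49826) x50798) x51770) x51122) x51302) x51278) x51286)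
    (Nat.sub (Nat.add (Nat.add (Nat.add (Nat.add (Nat.add (Nat.add (Nat.add (Nat.add (Nat.add (Nat.add (Nat.add (Nat.add C x51286) x38164) x55660) x49828) x50800) x51772) x51124) x51304) x51280) x51292) x51284) x51288) x31604)
    (Nat.sub (Nat.sub (Nat.add (Nat.add (Nat.add (Nat.add (Nat.add (Nat.add (Nat.add (Nat.add (Nat.add C x38166) x55662) x49830) x50802) x51774) x51126) x51306) x51294) x51286) x51288) x31606)
    (Nat.sub (Nat.sub (Nat.add (Nat.add (Nat.add (Nat.add (Nat.add (Nat.add (Nat.add (Nat.add (Nat.add C x38170) x55666) x49834) x50806) x51778) x51130) x51310) x51286) x51294) x51292) x31610)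
    (Nat.sub (Nat.sub (Nat.add (Nat.add (Nat.add (Nat.add (Nat.add (Nat.add (Nat.add (Nat.add (Nat.add C x38172) x55668) x49836) x50808) x51780) x51132) x51312) x51288) x51292) x51294) x31612)
    (Nat.add (Nat.add (Nat.add (Nat.add (Nat.add (Nat.add (Nat.add (Nat.add (Nat.add (Nat.add C x51302) x38180) x55676) x49844) x50816) x51788) x51140) x51356) x51284) x51304)
    (Nat.sub (Nat.add (Nat.add (Nat.add (Nat.add (Nat.add (Nat.add (Nat.add (Nat.add (Nat.add (Nat.add (Nat.add C x38182) x55678) x49846) x50818) x51790) x51142) x51358) x51286) x51310) x51302) x51306) x31622)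
    (Nat.sub (Nat.sub (Nat.add (Nat.add (Nat.add (Nat.add (Nat.add (Nat.add (Nat.add (Nat.add (Nat.add (Nat.add C x38184) x55680) x49848) x50820) x51792) x51144) x51360) x51288) x51312) x51304) (Nat.mul x51306 (nat_lit 3))) x31624)
    (Nat.sub (Nat.add (Nat.add (Nat.add (Nat.add (Nat.add (Nat.add (Nat.add (Nat.add (Nat.add (Nat.add (Nat.add C x38188) x55684) x49852) x50824) x51796) x51148) x51364) x51292) x51328) x51304) x51312) x31628)
    (Nat.sub (Nat.sub (Nat.add (Nat.add (Nat.add (Nat.add (Nat.add (Nat.add (Nat.add (Nat.add (Nat.add (Nat.add (Nat.add (Nat.add C x38190) x55686) x49854) x50826) x51798) x51150) x51366) x51294) x51330) x51306) x51318) x51310) x51312) x31630)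
    (Nat.sub (Nat.sub (Nat.add (Nat.add (Nat.add (Nat.add (Nat.add (Nat.add (Nat.add (Nat.add (Nat.add C x38196) x55692) x49860) x50832) x51804) x51156) x51372) x51336) x51312) x51318) x31636)
    (Nat.sub (Nat.sub (Nat.add (Nat.add (Nat.add (Nat.add (Nat.add (Nat.add (Nat.add (Nat.add (Nat.add C x38206) x55702) x49870) x50842) x51814) x51166) x51382) x51310) x51330) x51328) x31646)
    (Nat.sub (Nat.sub (Nat.add (Nat.add (Nat.add (Nat.add (Nat.add (Nat.add (Nat.add (Nat.add (Nat.add (Nat.add C x38208) x55704) x49872) x50844) x51816) x51168) x51384) x51312) x51336) x51328) (Nat.mul x51330 (nat_lit 3))) x31648)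
    (Nat.sub (Nat.sub (Nat.add (Nat.add (Nat.add (Nat.add (Nat.add (Nat.add (Nat.add (Nat.add (Nat.add C x38214) x55710) x49878) x50850) x51822) x51174) x51390) x51318) x51330) x51336) x31654)
    (Nat.add (Nat.add (Nat.add (Nat.add (Nat.add (Nat.add (Nat.add (Nat.add (Nat.add (Nat.add C (Nat.mul x51356 (nat_lit 2))) x38234) x55730) x49898) x50870) x51842) x51194) x51518) x51302) x51358)
    (Nat.sub (Nat.add (Nat.add (Nat.add (Nat.add (Nat.add (Nat.add (Nat.add (Nat.add (Nat.add (Nat.add (Nat.add (Nat.add C x51358) x38236) x55732) x49900) x50872) x51844) x51196) x51520) x51304) x51364) x51356) x51360) x31676)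
    (Nat.sub (Nat.sub (Nat.add (Nat.add (Nat.add (Nat.add (Nat.add (Nat.add (Nat.add (Nat.add (Nat.add (Nat.add C x38238) x55734) x49902) x50874) x51846) x51198) x51522) x51306) x51366) x51358) (Nat.mul x51360 (nat_lit 2))) x31678)
    (Nat.sub (Nat.add (Nat.add (Nat.add (Nat.add (Nat.add (Nat.add (Nat.add (Nat.add (Nat.add (Nat.add (Nat.add C x38242) x55738) x49906) x50878) x51850) x51202) x51526) x51310) x51382) x51358) x51366) x31682)
    (Nat.sub (Nat.sub (Nat.add (Nat.add (Nat.add (Nat.add (Nat.add (Nat.add (Nat.add (Nat.add (Nat.add (Nat.add (Nat.add (Nat.add C x38244) x55740) x49908) x50880) x51852) x51204) x51528) x51312) x51384) x51360) x51372) x51364) x51366) x31684)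
    (Nat.sub (Nat.sub (Nat.add (Nat.add (Nat.add (Nat.add (Nat.add (Nat.add (Nat.add (Nat.add (Nat.add (Nat.add C x38250) x55746) x49914) x50886) x51858) x51210) x51534) x51318) x51390) x51366) (Nat.mul x51372 (nat_lit 2))) x31690)
    (Nat.sub (Nat.add (Nat.add (Nat.add (Nat.add (Nat.add (Nat.add (Nat.add (Nat.add (Nat.add (Nat.add (Nat.add (Nat.add C x51382) x38260) x55756) x49924) x50896) x51868) x51220) x51544) x51328) x51436) x51364) x51384) x31700)
    (Nat.sub (Nat.sub (Nat.add (Nat.add (Nat.add (Nat.add (Nat.add (Nat.add (Nat.add (Nat.add (Nat.add (Nat.add (Nat.add (Nat.add C x38262) x55758) x49926) x50898) x51870) x51222) x51546) x51330) x51438) x51366) x51390) x51382) x51384) x31702)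
    (Nat.sub (Nat.add (Nat.add (Nat.add (Nat.add (Nat.add (Nat.add (Nat.add (Nat.add (Nat.add (Nat.add (Nat.add (Nat.add C x38268) x55764) x49932) x50904) x51876) x51228) x51552) x51336) x51444) x51372) x51408) x51384) x31708)
    (Nat.sub (Nat.add (Nat.add (Nat.add (Nat.add (Nat.add (Nat.add (Nat.add (Nat.add (Nat.add C x38286) x55782) x49950) x50922) x51894) x51246) x51570) x51462) x51390) x31726)
    (Nat.sub (Nat.add (Nat.add (Nat.add (Nat.add (Nat.add (Nat.add (Nat.add (Nat.add (Nat.add C x51436) x38314) x55810) x49978) x50950) x51922) x51598) x51382) x51438) x31754)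
    (Nat.sub (Nat.sub (Nat.add (Nat.add (Nat.add (Nat.add (Nat.add (Nat.add (Nat.add (Nat.add (Nat.add C x38316) x55812) x49980) x50952) x51924) x51600) x51384) x51444) x51436) x51438) x31756)
    (Nat.sub (Nat.sub (Nat.add (Nat.add (Nat.add (Nat.add (Nat.add (Nat.add (Nat.add (Nat.add (Nat.add C x38322) x55818) x49986) x50958) x51930) x51606) x51390) x51462) x51438) x51444) x31762)
    (Nat.sub (Nat.add (Nat.add (Nat.add (Nat.add (Nat.add (Nat.add (Nat.add (Nat.add (Nat.add C x51462) x38340) x55836) x50004) x50976) x51948) x51624) x51408) x51444) x31780)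
    (Nat.add (Nat.add (Nat.add (Nat.add (Nat.add (Nat.add (Nat.add C (Nat.mul x51518 (nat_lit 2))) x38396) x55892) x50060) x52004) x51356) x51520)
    (Nat.sub (Nat.add (Nat.add (Nat.add (Nat.add (Nat.add (Nat.add (Nat.add (Nat.add (Nat.add C x51520) x38398) x55894) x50062) x52006) x51358) x51526) x51518) x51522) x31838)
    (Nat.sub (Nat.sub (Nat.add (Nat.add (Nat.add (Nat.add (Nat.add (Nat.add (Nat.add C x38400) x55896) x50064) x52008) x51360) x51528) x51520) (Nat.mul x51522 (nat_lit 2))) x31840)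
    (Nat.sub (Nat.add (Nat.add (Nat.add (Nat.add (Nat.add (Nat.add (Nat.add (Nat.add C x38404) x55900) x50068) x52012) x51364) x51544) x51520) x51528) x31844)
    (Nat.sub (Nat.sub (Nat.add (Nat.add (Nat.add (Nat.add (Nat.add (Nat.add (Nat.add (Nat.add (Nat.add C x38406) x55902) x50070) x52014) x51366) x51546) x51522) x51534) x51526) x51528) x31846)
    (Nat.sub (Nat.sub (Nat.add (Nat.add (Nat.add (Nat.add (Nat.add (Nat.add (Nat.add C x38412) x55908) x50076) x52020) x51372) x51552) x51528) (Nat.mul x51534 (nat_lit 2))) x31852)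
    (Nat.sub (Nat.add (Nat.add (Nat.add (Nat.add (Nat.add (Nat.add (Nat.add (Nat.add C x38422) x55918) x50086) x52030) x51382) x51598) x51526) x51546) x31862)
    (Nat.sub (Nat.sub (Nat.add (Nat.add (Nat.add (Nat.add (Nat.add (Nat.add (Nat.add (Nat.add (Nat.add C x38424) x55920) x50088) x52032) x51384) x51600) x51528) x51552) x51544) (Nat.mul x51546 (nat_lit 2))) x31864)
    (Nat.sub (Nat.sub (Nat.add (Nat.add (Nat.add (Nat.add (Nat.add (Nat.add (Nat.add (Nat.add (Nat.add C x38430) x55926) x50094) x52038) x51390) x51606) x51534) x51570) x51546) x51552) x31870)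
    (Nat.sub (Nat.sub (Nat.add (Nat.add (Nat.add (Nat.add (Nat.add (Nat.add (Nat.add C x38448) x55944) x50112) x52056) x51408) x51624) x51552) (Nat.mul x51570 (nat_lit 2))) x31888)
    (Nat.sub (Nat.add (Nat.add (Nat.add (Nat.add (Nat.add (Nat.add (Nat.add (Nat.add C (Nat.mul x51598 (nat_lit 2))) x38476) x55972) x50140) x52084) x51436) x51544) x51600) x31916)
    (Nat.sub (Nat.add (Nat.add (Nat.add (Nat.add (Nat.add (Nat.add (Nat.add (Nat.add C x38478) x55974) x50142) x52086) x51438) x51546) x51606) x51598) x31918)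
    (Nat.sub (Nat.add (Nat.add (Nat.add (Nat.add (Nat.add (Nat.add (Nat.add (Nat.add C x38484) x55980) x50148) x52092) x51444) x51552) x51624) x51600) x31924)
    (Nat.sub (Nat.add (Nat.add (Nat.add (Nat.add (Nat.add (Nat.add (Nat.add (Nat.add (Nat.add C x51624) x38502) x55998) x50166) x52110) x51462) x51570) x51678) x51606) x31942)
    (Nat.sub (Nat.add (Nat.add (Nat.add (Nat.add (Nat.add (Nat.add C (Nat.mul x51678 (nat_lit 2))) x38556) x56052) x50220) x52164) x51624) x31996)
    (Nat.add (Nat.add (Nat.add (Nat.add (Nat.add (Nat.add C (Nat.mul x51764 (nat_lit 4))) x38642) x56138) x51278) x51770) x51766)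
    (Nat.sub (Nat.add (Nat.add (Nat.add (Nat.add (Nat.add (Nat.add C (Nat.mul x51766 (nat_lit 2))) x38644) x56140) x51280) x51772) x51764) x32084)
    (Nat.add (Nat.add (Nat.add (Nat.add (Nat.add (Nat.add (Nat.add C (Nat.mul x51770 (nat_lit 2))) x38648) x56144) x51284) x51788) x51764) x51772)
    (Nat.sub (Nat.add (Nat.add (Nat.add (Nat.add (Nat.add (Nat.add (Nat.add (Nat.add (Nat.add C (Nat.mul x51772 (nat_lit 2))) x38650) x56146) x51286) x51790) x51766) x51778) x51770) x51774) x32090)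
    (Nat.sub (Nat.add (Nat.add (Nat.add (Nat.add (Nat.add (Nat.add C x38652) x56148) x51288) x51792) x51780) x51772) x32092)
    (Nat.sub (Nat.add (Nat.add (Nat.add (Nat.add (Nat.add (Nat.add C x38656) x56152) x51292) x51796) x51772) x51780) x32096)
    (Nat.sub (Nat.add (Nat.add (Nat.add (Nat.add (Nat.add (Nat.add C x38658) x56154) x51294) x51798) x51774) x51778) x32098)
    (Nat.add (Nat.add (Nat.add (Nat.add (Nat.add (Nat.add (Nat.add C (Nat.mul x51788 (nat_lit 2))) x38666) x56162) x51302) x51842) x51770) x51790)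
    (Nat.sub (Nat.add (Nat.add (Nat.add (Nat.add (Nat.add (Nat.add (Nat.add (Nat.add (Nat.add C x51790) x38668) x56164) x51304) x51844) x51772) x51796) x51788) x51792) x32108)
    (Nat.sub (Nat.sub (Nat.add (Nat.add (Nat.add (Nat.add (Nat.add (Nat.add (Nat.add C x38670) x56166) x51306) x51846) x51774) x51798) x51790) (Nat.mul x51792 (nat_lit 2))) x32110)
    (Nat.sub (Nat.add (Nat.add (Nat.add (Nat.add (Nat.add (Nat.add (Nat.add (Nat.add (Nat.add C x51796) x38674) x56170) x51310) x51850) x51778) x51814) x51790) x51798) x32114)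
    (Nat.sub (Nat.add (Nat.add (Nat.add (Nat.add (Nat.add (Nat.add (Nat.add (Nat.add (Nat.add C x38676) x56172) x51312) x51852) x51780) x51816) x51792) x51804) x51796) x32116)
    (Nat.sub (Nat.add (Nat.add (Nat.add (Nat.add (Nat.add (Nat.add C x38682) x56178) x51318) x51858) x51822) x51798) x32122)
    (Nat.sub (Nat.add (Nat.add (Nat.add (Nat.add (Nat.add (Nat.add C x38692) x56188) x51328) x51868) x51796) x51816) x32132)
    (Nat.sub (Nat.sub (Nat.add (Nat.add (Nat.add (Nat.add (Nat.add (Nat.add (Nat.add C x38694) x56190) x51330) x51870) x51798) x51822) x51814) (Nat.mul x51816 (nat_lit 2))) x32134)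
    (Nat.sub (Nat.add (Nat.add (Nat.add (Nat.add (Nat.add (Nat.add C x38700) x56196) x51336) x51876) x51804) x51816) x32140)
    (Nat.add (Nat.add (Nat.add (Nat.add (Nat.add (Nat.add (Nat.add C (Nat.mul x51842 (nat_lit 2))) x38720) x56216) x51356) x52004) x51788) x51844)
    (Nat.sub (Nat.add (Nat.add (Nat.add (Nat.add (Nat.add (Nat.add (Nat.add (Nat.add (Nat.add C x51844) x38722) x56218) x51358) x52006) x51790) x51850) x51842) x51846) x32162)
    (Nat.sub (Nat.sub (Nat.add (Nat.add (Nat.add (Nat.add (Nat.add (Nat.add (Nat.add C x38724) x56220) x51360) x52008) x51792) x51852) x51844) (Nat.mul x51846 (nat_lit 2))) x32164)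
    (Nat.sub (Nat.add (Nat.add (Nat.add (Nat.add (Nat.add (Nat.add (Nat.add (Nat.add C x38728) x56224) x51364) x52012) x51796) x51868) x51844) x51852) x32168)
    (Nat.sub (Nat.sub (Nat.add (Nat.add (Nat.add (Nat.add (Nat.add (Nat.add (Nat.add (Nat.add (Nat.add C x38730) x56226) x51366) x52014) x51798) x51870) x51846) x51858) x51850) x51852) x32170)
    (Nat.sub (Nat.sub (Nat.add (Nat.add (Nat.add (Nat.add (Nat.add (Nat.add (Nat.add C x38736) x56232) x51372) x52020) x51804) x51876) x51852) (Nat.mul x51858 (nat_lit 2))) x32176)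
    (Nat.sub (Nat.add (Nat.add (Nat.add (Nat.add (Nat.add (Nat.add (Nat.add (Nat.add (Nat.add C x51868) x38746) x56242) x51382) x52030) x51814) x51922) x51850) x51870) x32186)
    (Nat.sub (Nat.sub (Nat.add (Nat.add (Nat.add (Nat.add (Nat.add (Nat.add (Nat.add (Nat.add (Nat.add C x38748) x56244) x51384) x52032) x51816) x51924) x51852) x51876) x51868) x51870) x32188)
    (Nat.sub (Nat.add (Nat.add (Nat.add (Nat.add (Nat.add (Nat.add (Nat.add (Nat.add (Nat.add C x38754) x56250) x51390) x52038) x51822) x51930) x51858) x51894) x51870) x32194)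
    (Nat.sub (Nat.add (Nat.add (Nat.add (Nat.add (Nat.add (Nat.add C x38772) x56268) x51408) x52056) x51948) x51876) x32212)
    (Nat.sub (Nat.add (Nat.add (Nat.add (Nat.add (Nat.add (Nat.add C x38800) x56296) x51436) x52084) x51868) x51924) x32240)
    (Nat.sub (Nat.sub (Nat.add (Nat.add (Nat.add (Nat.add (Nat.add (Nat.add (Nat.add C x38802) x56298) x51438) x52086) x51870) x51930) x51922) (Nat.mul x51924 (nat_lit 2))) x32242)
    (Nat.sub (Nat.sub (Nat.add (Nat.add (Nat.add (Nat.add (Nat.add (Nat.add (Nat.add C x38808) x56304) x51444) x52092) x51876) x51948) x51924) (Nat.mul x51930 (nat_lit 2))) x32248)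
    (Nat.sub (Nat.add (Nat.add (Nat.add (Nat.add (Nat.add (Nat.add C x38826) x56322) x51462) x52110) x51894) x51930) x32266)
    (Nat.add (Nat.add (Nat.add (Nat.add (Nat.add (Nat.add C (Nat.mul x52004 (nat_lit 4))) x38882) x56378) x51518) x51842) x52006)
    (Nat.sub (Nat.add (Nat.add (Nat.add (Nat.add (Nat.add (Nat.add (Nat.add (Nat.add C (Nat.mul x52006 (nat_lit 3))) x38884) x56380) x51520) x51844) x52012) x52004) x52008) x32324)
    (Nat.sub (Nat.add (Nat.add (Nat.add (Nat.add (Nat.add (Nat.add C x38886) x56382) x51522) x51846) x52014) x52006) x32326)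
    (Nat.sub (Nat.add (Nat.add (Nat.add (Nat.add (Nat.add (Nat.add (Nat.add (Nat.add C (Nat.mul x52012 (nat_lit 2))) x38890) x56386) x51526) x51850) x52030) x52006) x52014) x32330)
    (Nat.sub (Nat.add (Nat.add (Nat.add (Nat.add (Nat.add (Nat.add (Nat.add (Nat.add (Nat.add C x52014) x38892) x56388) x51528) x51852) x52032) x52008) x52020) x52012) x32332)
    (Nat.sub (Nat.add (Nat.add (Nat.add (Nat.add (Nat.add (Nat.add C x38898) x56394) x51534) x51858) x52038) x52014) x32338)
    (Nat.sub (Nat.add (Nat.add (Nat.add (Nat.add (Nat.add (Nat.add (Nat.add (Nat.add C (Nat.mul x52030 (nat_lit 2))) x38908) x56404) x51544) x51868) x52084) x52012) x52032) x32348)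
    (Nat.sub (Nat.add (Nat.add (Nat.add (Nat.add (Nat.add (Nat.add (Nat.add (Nat.add C x38910) x56406) x51546) x51870) x52086) x52014) x52038) x52030) x32350)
    (Nat.sub (Nat.add (Nat.add (Nat.add (Nat.add (Nat.add (Nat.add (Nat.add (Nat.add (Nat.add C x52038) x38916) x56412) x51552) x51876) x52092) x52020) x52056) x52032) x32356)
    (Nat.sub (Nat.add (Nat.add (Nat.add (Nat.add (Nat.add (Nat.add C x38934) x56430) x51570) x51894) x52110) x52038) x32374)
    (Nat.sub (Nat.add (Nat.add (Nat.add (Nat.add (Nat.add (Nat.add (Nat.add (Nat.add C (Nat.mul x52084 (nat_lit 3))) x38962) x56458) x51598) x51922) x52246) x52030) x52086) x32402)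
    (Nat.sub (Nat.add (Nat.add (Nat.add (Nat.add (Nat.add (Nat.add (Nat.add (Nat.add (Nat.add C x52086) x38964) x56460) x51600) x51924) x52248) x52032) x52092) x52084) x32404)
    (Nat.sub (Nat.add (Nat.add (Nat.add (Nat.add (Nat.add (Nat.add (Nat.add (Nat.add (Nat.add C x52092) x38970) x56466) x51606) x51930) x52254) x52038) x52110) x52086) x32410)
    (Nat.sub (Nat.add (Nat.add (Nat.add (Nat.add (Nat.add (Nat.add (Nat.add (Nat.add (Nat.add C (Nat.mul x52110 (nat_lit 2))) x38988) x56484) x51624) x51948) x52272) x52056) x52164) x52092) x32428)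
    (Nat.sub (Nat.add (Nat.add (Nat.add (Nat.add (Nat.add (Nat.add C (Nat.mul x52164 (nat_lit 2))) x39042) x56538) x51678) x52326) x52110) x32482)
    (Nat.sub (Nat.add (Nat.add (Nat.add (Nat.add (Nat.add C (Nat.mul x52246 (nat_lit 4))) x39124) x56620) x52084) x52248) x32564)
    (Nat.sub (Nat.add (Nat.add (Nat.add (Nat.add (Nat.add (Nat.add C (Nat.mul x52248 (nat_lit 2))) x39126) x56622) x52086) x52254) x52246) x32566)
    (Nat.sub (Nat.add (Nat.add (Nat.add (Nat.add (Nat.add (Nat.add C (Nat.mul x52254 (nat_lit 2))) x39132) x56628) x52092) x52272) x52248) x32572)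
    (Nat.sub (Nat.add (Nat.add (Nat.add (Nat.add (Nat.add (Nat.add C (Nat.mul x52272 (nat_lit 2))) x39150) x56646) x52110) x52326) x52254) x32590)
    (Nat.sub (Nat.add (Nat.add (Nat.add (Nat.add (Nat.add C (Nat.mul x52326 (nat_lit 4))) x39204) x56700) x52164) x52272) x32644)
    (Nat.add (Nat.add (Nat.add C (Nat.mul x52514 (nat_lit 6))) x48140) x52532)
    (Nat.add (Nat.add (Nat.add (Nat.add (Nat.add (Nat.add C (Nat.mul x52532 (nat_lit 5))) x48158) x52586) x52514) x52550) x52538)
    (Nat.add (Nat.add (Nat.add (Nat.add (Nat.add (Nat.add C (Nat.mul x52538 (nat_lit 4))) x48164) x52592) x52556) x52532) x52540)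
    (Nat.sub (Nat.add (Nat.add (Nat.add (Nat.add (Nat.add C (Nat.mul x52540 (nat_lit 4))) x48166) x52594) x52558) x52538) x32858)
    (Nat.add (Nat.add (Nat.add (Nat.add (Nat.add C (Nat.mul x52550 (nat_lit 2))) x48176) x52604) x52532) x52556)
    (Nat.add (Nat.add (Nat.add (Nat.add (Nat.add (Nat.add (Nat.add C (Nat.mul x52556 (nat_lit 3))) x48182) x52610) x52538) x52550) x52562) x52558)
    (Nat.sub (Nat.add (Nat.add (Nat.add (Nat.add (Nat.add (Nat.add C (Nat.mul x52558 (nat_lit 2))) x48184) x52612) x52540) x52564) x52556) x32876)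
    (Nat.add (Nat.add (Nat.add (Nat.add (Nat.add C (Nat.mul x52562 (nat_lit 2))) x48188) x52616) x52556) x52564)
    (Nat.sub (Nat.add (Nat.add (Nat.add (Nat.add (Nat.add (Nat.add C (Nat.mul x52564 (nat_lit 3))) x48190) x52618) x52558) x52562) x52566) x32882)
    (Nat.sub (Nat.add (Nat.add (Nat.add (Nat.add C (Nat.mul x52566 (nat_lit 2))) x48192) x52620) x52564) x32884)
    (Nat.add (Nat.add (Nat.add (Nat.add (Nat.add (Nat.add C (Nat.mul x52586 (nat_lit 4))) x48212) x52748) x52532) x52604) x52592)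
    (Nat.add (Nat.add (Nat.add (Nat.add (Nat.add (Nat.add (Nat.add C (Nat.mul x52592 (nat_lit 2))) x48218) x52754) x52538) x52610) x52586) x52594)
    (Nat.sub (Nat.add (Nat.add (Nat.add (Nat.add (Nat.add (Nat.add C (Nat.mul x52594 (nat_lit 2))) x48220) x52756) x52540) x52612) x52592) x32912)
    (Nat.add (Nat.add (Nat.add (Nat.add (Nat.add (Nat.add (Nat.add C (Nat.mul x52604 (nat_lit 3))) x48230) x52766) x52550) x52658) x52586) x52610)
    (Nat.add (Nat.add (Nat.add (Nat.add (Nat.add (Nat.add (Nat.add (Nat.add (Nat.add (Nat.add C (Nat.mul x52610 (nat_lit 3))) x48236) x52772) x52556) x52664) x52592) x52628) x52604) x52616) x52612)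
    (Nat.sub (Nat.add (Nat.add (Nat.add (Nat.add (Nat.add (Nat.add (Nat.add (Nat.add (Nat.add C (Nat.mul x52612 (nat_lit 2))) x48238) x52774) x52558) x52666) x52594) x52630) x52618) x52610) x32930)
    (Nat.add (Nat.add (Nat.add (Nat.add (Nat.add (Nat.add (Nat.add (Nat.add C x52616) x48242) x52778) x52562) x52670) x52634) x52610) x52618)
    (Nat.sub (Nat.add (Nat.add (Nat.add (Nat.add (Nat.add (Nat.add (Nat.add (Nat.add (Nat.add C (Nat.mul x52618 (nat_lit 2))) x48244) x52780) x52564) x52672) x52636) x52612) x52616) x52620) x32936)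
    (Nat.sub (Nat.add (Nat.add (Nat.add (Nat.add (Nat.add (Nat.add (Nat.add C x52620) x48246) x52782) x52566) x52674) x52638) x52618) x32938)
    (Nat.add (Nat.add (Nat.add (Nat.add (Nat.add (Nat.add (Nat.add C (Nat.mul x52628 (nat_lit 2))) x48254) x52790) x52682) x52610) x52634) x52630)
    (Nat.sub (Nat.add (Nat.add (Nat.add (Nat.add (Nat.add (Nat.add C x48256) x52792) x52684) x52612) x52636) x52628) x32948)
    (Nat.add (Nat.add (Nat.add (Nat.add (Nat.add (Nat.add (Nat.add C (Nat.mul x52634 (nat_lit 2))) x48260) x52796) x52688) x52616) x52628) x52636)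
    (Nat.sub (Nat.add (Nat.add (Nat.add (Nat.add (Nat.add (Nat.add (Nat.add (Nat.add (Nat.add C (Nat.mul x52636 (nat_lit 2))) x48262) x52798) x52690) x52618) x52630) x52642) x52634) x52638) x32954)
    (Nat.sub (Nat.add (Nat.add (Nat.add (Nat.add (Nat.add (Nat.add C x48264) x52800) x52692) x52620) x52644) x52636) x32956)
    (Nat.sub (Nat.add (Nat.add (Nat.add (Nat.add (Nat.add (Nat.add C (Nat.mul x52642 (nat_lit 2))) x48268) x52804) x52696) x52636) x52644) x32960)
    (Nat.sub (Nat.add (Nat.add (Nat.add (Nat.add (Nat.add (Nat.add C (Nat.mul x52644 (nat_lit 2))) x48270) x52806) x52698) x52638) x52642) x32962)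
    (Nat.add (Nat.add (Nat.add (Nat.add (Nat.add C (Nat.mul x52658 (nat_lit 2))) x48284) x52820) x52604) x52664)
    (Nat.add (Nat.add (Nat.add (Nat.add (Nat.add (Nat.add (Nat.add (Nat.add C x52664) x48290) x52826) x52610) x52682) x52658) x52670) x52666)
    (Nat.sub (Nat.add (Nat.add (Nat.add (Nat.add (Nat.add (Nat.add C x48292) x52828) x52612) x52684) x52672) x52664) x32984)
    (Nat.sub (Nat.add (Nat.add (Nat.add (Nat.add (Nat.add (Nat.add C x48296) x52832) x52616) x52688) x52664) x52672) (Nat.mul x52670 (nat_lit 2)))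
    (Nat.sub (Nat.sub (Nat.add (Nat.add (Nat.add (Nat.add (Nat.add (Nat.add (Nat.add C x48298) x52834) x52618) x52690) x52666) x52670) x52674) x52672) x32990)
    (Nat.sub (Nat.sub (Nat.add (Nat.add (Nat.add (Nat.add (Nat.add C x48300) x52836) x52620) x52692) x52672) (Nat.mul x52674 (nat_lit 2))) x32992)
    (Nat.add (Nat.add (Nat.add (Nat.add (Nat.add (Nat.add (Nat.add C (Nat.mul x52682 (nat_lit 2))) x48308) x52844) x52628) x52664) x52688) x52684)
    (Nat.sub (Nat.add (Nat.add (Nat.add (Nat.add (Nat.add (Nat.add C x48310) x52846) x52630) x52666) x52690) x52682) x33002)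
    (Nat.add (Nat.add (Nat.add (Nat.add (Nat.add (Nat.add (Nat.add (Nat.add C x52688) x48314) x52850) x52634) x52670) x52706) x52682) x52690)
    (Nat.sub (Nat.add (Nat.add (Nat.add (Nat.add (Nat.add (Nat.add (Nat.add (Nat.add (Nat.add (Nat.add C x52690) x48316) x52852) x52636) x52672) x52708) x52684) x52696) x52688) x52692) x33008)
    (Nat.sub (Nat.sub (Nat.add (Nat.add (Nat.add (Nat.add (Nat.add (Nat.add (Nat.add C x48318) x52854) x52638) x52674) x52710) x52698) x52690) x52692) x33010)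
    (Nat.sub (Nat.add (Nat.add (Nat.add (Nat.add (Nat.add (Nat.add C x48322) x52858) x52642) x52714) x52690) x52698) x33014)
    (Nat.sub (Nat.add (Nat.add (Nat.add (Nat.add (Nat.add (Nat.add C x48324) x52860) x52644) x52716) x52692) x52696) x33016)
    (Nat.add (Nat.add (Nat.add (Nat.add (Nat.add C (Nat.mul x52706 (nat_lit 2))) x48332) x52868) x52688) x52708)
    (Nat.sub (Nat.add (Nat.add (Nat.add (Nat.add (Nat.add (Nat.add (Nat.add C x52708) x48334) x52870) x52690) x52714) x52706) x52710) x33026)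
    (Nat.sub (Nat.sub (Nat.add (Nat.add (Nat.add (Nat.add (Nat.add C x48336) x52872) x52692) x52716) x52708) (Nat.mul x52710 (nat_lit 2))) x33028)
    (Nat.sub (Nat.add (Nat.add (Nat.add (Nat.add (Nat.add (Nat.add C (Nat.mul x52714 (nat_lit 2))) x48340) x52876) x52696) x52708) x52716) x33032)
    (Nat.sub (Nat.add (Nat.add (Nat.add (Nat.add (Nat.add (Nat.add (Nat.add C x52716) x48342) x52878) x52698) x52710) x52722) x52714) x33034)
    (Nat.sub (Nat.add (Nat.add (Nat.add (Nat.add C (Nat.mul x52722 (nat_lit 2))) x48348) x52884) x52716) x33040)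
    (Nat.add (Nat.add (Nat.add (Nat.add (Nat.add (Nat.add C (Nat.mul x52748 (nat_lit 4))) x48374) x53234) x52586) x52766) x52754)
    (Nat.add (Nat.add (Nat.add (Nat.add (Nat.add (Nat.add (Nat.add C (Nat.mul x52754 (nat_lit 2))) x48380) x53240) x52592) x52772) x52748) x52756)
    (Nat.sub (Nat.add (Nat.add (Nat.add (Nat.add (Nat.add (Nat.add C (Nat.mul x52756 (nat_lit 2))) x48382) x53242) x52594) x52774) x52754) x33074)
    (Nat.add (Nat.add (Nat.add (Nat.add (Nat.add (Nat.add (Nat.add C (Nat.mul x52766 (nat_lit 2))) x48392) x53252) x52604) x52820) x52748) x52772)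
    (Nat.add (Nat.add (Nat.add (Nat.add (Nat.add (Nat.add (Nat.add (Nat.add (Nat.add (Nat.add C (Nat.mul x52772 (nat_lit 2))) x48398) x53258) x52610) x52826) x52754) x52790) x52766) x52778) x52774)
    (Nat.sub (Nat.add (Nat.add (Nat.add (Nat.add (Nat.add (Nat.add (Nat.add (Nat.add (Nat.add C x52774) x48400) x53260) x52612) x52828) x52756) x52792) x52780) x52772) x33092)
    (Nat.add (Nat.add (Nat.add (Nat.add (Nat.add (Nat.add (Nat.add C x48404) x53264) x52616) x52832) x52796) x52772) x52780)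
    (Nat.sub (Nat.add (Nat.add (Nat.add (Nat.add (Nat.add (Nat.add (Nat.add (Nat.add (Nat.add C x52780) x48406) x53266) x52618) x52834) x52798) x52774) x52778) x52782) x33098)
    (Nat.sub (Nat.add (Nat.add (Nat.add (Nat.add (Nat.add (Nat.add C x48408) x53268) x52620) x52836) x52800) x52780) x33100)
    (Nat.add (Nat.add (Nat.add (Nat.add (Nat.add (Nat.add (Nat.add C x48416) x53276) x52628) x52844) x52772) x52796) x52792)
    (Nat.sub (Nat.sub (Nat.add (Nat.add (Nat.add (Nat.add (Nat.add (Nat.add (Nat.add C x48418) x53278) x52630) x52846) x52774) x52798) x52790) (Nat.mul x52792 (nat_lit 2))) x33110)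
    (Nat.add (Nat.add (Nat.add (Nat.add (Nat.add (Nat.add (Nat.add C x48422) x53282) x52634) x52850) x52778) x52790) x52798)
    (Nat.sub (Nat.add (Nat.add (Nat.add (Nat.add (Nat.add (Nat.add (Nat.add (Nat.add (Nat.add C x48424) x53284) x52636) x52852) x52780) x52792) x52804) x52796) x52800) x33116)
    (Nat.sub (Nat.sub (Nat.add (Nat.add (Nat.add (Nat.add (Nat.add (Nat.add (Nat.add C x48426) x53286) x52638) x52854) x52782) x52806) x52798) (Nat.mul x52800 (nat_lit 2))) x33118)
    (Nat.sub (Nat.add (Nat.add (Nat.add (Nat.add (Nat.add (Nat.add C x48430) x53290) x52642) x52858) x52798) x52806) x33122)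
    (Nat.sub (Nat.add (Nat.add (Nat.add (Nat.add (Nat.add (Nat.add C x48432) x53292) x52644) x52860) x52800) x52804) x33124)
    (Nat.add (Nat.add (Nat.add (Nat.add (Nat.add (Nat.add (Nat.add C (Nat.mul x52820 (nat_lit 3))) x48446) x53306) x52658) x52982) x52766) x52826)
    (Nat.add (Nat.add (Nat.add (Nat.add (Nat.add (Nat.add (Nat.add (Nat.add (Nat.add (Nat.add C (Nat.mul x52826 (nat_lit 2))) x48452) x53312) x52664) x52988) x52772) x52844) x52820) x52832) x52828)
    (Nat.sub (Nat.add (Nat.add (Nat.add (Nat.add (Nat.add (Nat.add (Nat.add (Nat.add (Nat.add C x52828) x48454) x53314) x52666) x52990) x52774) x52846) x52834) x52826) x33146)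
    (Nat.sub (Nat.add (Nat.add (Nat.add (Nat.add (Nat.add (Nat.add (Nat.add (Nat.add C x48458) x53318) x52670) x52994) x52778) x52850) x52826) x52834) x52832)
    (Nat.sub (Nat.add (Nat.add (Nat.add (Nat.add (Nat.add (Nat.add (Nat.add (Nat.add (Nat.add C x48460) x53320) x52672) x52996) x52780) x52852) x52828) x52832) x52836) x33152)
    (Nat.sub (Nat.sub (Nat.add (Nat.add (Nat.add (Nat.add (Nat.add (Nat.add (Nat.add C x48462) x53322) x52674) x52998) x52782) x52854) x52834) x52836) x33154)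
    (Nat.add (Nat.add (Nat.add (Nat.add (Nat.add (Nat.add (Nat.add (Nat.add (Nat.add (Nat.add C (Nat.mul x52844 (nat_lit 2))) x48470) x53330) x52682) x53006) x52790) x52898) x52826) x52850) x52846)
    (Nat.sub (Nat.add (Nat.add (Nat.add (Nat.add (Nat.add (Nat.add (Nat.add (Nat.add (Nat.add C x48472) x53332) x52684) x53008) x52792) x52900) x52828) x52852) x52844) x33164)
    (Nat.add (Nat.add (Nat.add (Nat.add (Nat.add (Nat.add (Nat.add (Nat.add (Nat.add (Nat.add (Nat.add C x52850) x48476) x53336) x52688) x53012) x52796) x52904) x52832) x52868) x52844) x52852)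
    (Nat.sub (Nat.add (Nat.add (Nat.add (Nat.add (Nat.add (Nat.add (Nat.add (Nat.add (Nat.add (Nat.add (Nat.add (Nat.add (Nat.add C x52852) x48478) x53338) x52690) x53014) x52798) x52906) x52834) x52870) x52846) x52858) x52850) x52854) x33170)
    (Nat.sub (Nat.sub (Nat.add (Nat.add (Nat.add (Nat.add (Nat.add (Nat.add (Nat.add (Nat.add (Nat.add (Nat.add C x48480) x53340) x52692) x53016) x52800) x52908) x52836) x52872) x52860) x52852) x52854) x33172)
    (Nat.sub (Nat.add (Nat.add (Nat.add (Nat.add (Nat.add (Nat.add (Nat.add (Nat.add (Nat.add C x48484) x53344) x52696) x53020) x52804) x52912) x52876) x52852) x52860) x33176)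
    (Nat.sub (Nat.add (Nat.add (Nat.add (Nat.add (Nat.add (Nat.add (Nat.add (Nat.add (Nat.add C x48486) x53346) x52698) x53022) x52806) x52914) x52878) x52854) x52858) x33178)
    (Nat.add (Nat.add (Nat.add (Nat.add (Nat.add (Nat.add (Nat.add (Nat.add C x52868) x48494) x53354) x52706) x53030) x52922) x52850) x52870)
    (Nat.sub (Nat.add (Nat.add (Nat.add (Nat.add (Nat.add (Nat.add (Nat.add (Nat.add (Nat.add C x48496) x53356) x52708) x53032) x52924) x52852) x52876) x52868) x52872) x33188)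
    (Nat.sub (Nat.sub (Nat.add (Nat.add (Nat.add (Nat.add (Nat.add (Nat.add (Nat.add (Nat.add C x48498) x53358) x52710) x53034) x52926) x52854) x52878) x52870) (Nat.mul x52872 (nat_lit 3))) x33190)
    (Nat.sub (Nat.add (Nat.add (Nat.add (Nat.add (Nat.add (Nat.add (Nat.add (Nat.add (Nat.add C x52876) x48502) x53362) x52714) x53038) x52930) x52858) x52870) x52878) x33194)
    (Nat.sub (Nat.add (Nat.add (Nat.add (Nat.add (Nat.add (Nat.add (Nat.add (Nat.add (Nat.add C x48504) x53364) x52716) x53040) x52932) x52860) x52872) x52884) x52876) x33196)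
    (Nat.sub (Nat.add (Nat.add (Nat.add (Nat.add (Nat.add (Nat.add (Nat.add C x52884) x48510) x53370) x52722) x53046) x52938) x52878) x33202)
    (Nat.add (Nat.add (Nat.add (Nat.add (Nat.add (Nat.add (Nat.add C (Nat.mul x52898 (nat_lit 2))) x48524) x53384) x53060) x52844) x52904) x52900)
    (Nat.sub (Nat.add (Nat.add (Nat.add (Nat.add (Nat.add (Nat.add C x48526) x53386) x53062) x52846) x52906) x52898) x33218)
    (Nat.add (Nat.add (Nat.add (Nat.add (Nat.add (Nat.add (Nat.add C x48530) x53390) x53066) x52850) x52922) x52898) x52906)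
    (Nat.sub (Nat.add (Nat.add (Nat.add (Nat.add (Nat.add (Nat.add (Nat.add (Nat.add (Nat.add C x48532) x53392) x53068) x52852) x52924) x52900) x52912) x52904) x52908) x33224)
    (Nat.sub (Nat.sub (Nat.add (Nat.add (Nat.add (Nat.add (Nat.add (Nat.add (Nat.add C x48534) x53394) x53070) x52854) x52926) x52914) x52906) (Nat.mul x52908 (nat_lit 2))) x33226)
    (Nat.sub (Nat.sub (Nat.add (Nat.add (Nat.add (Nat.add (Nat.add (Nat.add (Nat.add C x48538) x53398) x53074) x52858) x52930) x52906) x52914) (Nat.mul x52912 (nat_lit 2))) x33230)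
    (Nat.sub (Nat.sub (Nat.add (Nat.add (Nat.add (Nat.add (Nat.add (Nat.add (Nat.add C x48540) x53400) x53076) x52860) x52932) x52908) x52912) (Nat.mul x52914 (nat_lit 2))) x33232)
    (Nat.add (Nat.add (Nat.add (Nat.add (Nat.add (Nat.add (Nat.add C (Nat.mul x52922 (nat_lit 2))) x48548) x53408) x53084) x52868) x52904) x52924)
    (Nat.sub (Nat.add (Nat.add (Nat.add (Nat.add (Nat.add (Nat.add (Nat.add (Nat.add (Nat.add C x52924) x48550) x53410) x53086) x52870) x52906) x52930) x52922) x52926) x33242)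
    (Nat.sub (Nat.sub (Nat.add (Nat.add (Nat.add (Nat.add (Nat.add (Nat.add (Nat.add C x48552) x53412) x53088) x52872) x52908) x52932) x52924) (Nat.mul x52926 (nat_lit 2))) x33244)
    (Nat.sub (Nat.add (Nat.add (Nat.add (Nat.add (Nat.add (Nat.add (Nat.add (Nat.add (Nat.add C x52930) x48556) x53416) x53092) x52876) x52912) x52948) x52924) x52932) x33248)
    (Nat.sub (Nat.add (Nat.add (Nat.add (Nat.add (Nat.add (Nat.add (Nat.add (Nat.add (Nat.add C x48558) x53418) x53094) x52878) x52914) x52950) x52926) x52938) x52930) x33250)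
    (Nat.sub (Nat.add (Nat.add (Nat.add (Nat.add (Nat.add (Nat.add C x48564) x53424) x53100) x52884) x52956) x52932) x33256)
    (Nat.sub (Nat.add (Nat.add (Nat.add (Nat.add (Nat.add (Nat.add C (Nat.mul x52948 (nat_lit 2))) x48574) x53434) x53110) x52930) x52950) x33266)
    (Nat.sub (Nat.add (Nat.add (Nat.add (Nat.add (Nat.add (Nat.add C x48576) x53436) x53112) x52932) x52956) x52948) x33268)
    (Nat.sub (Nat.add (Nat.add (Nat.add (Nat.add (Nat.add (Nat.add C (Nat.mul x52956 (nat_lit 2))) x48582) x53442) x53118) x52938) x52950) x33274)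
    (Nat.add (Nat.add (Nat.add (Nat.add (Nat.add C (Nat.mul x52982 (nat_lit 2))) x48608) x53468) x52820) x52988)
    (Nat.add (Nat.add (Nat.add (Nat.add (Nat.add (Nat.add (Nat.add (Nat.add C x52988) x48614) x53474) x52826) x53006) x52982) x52994) x52990)
    (Nat.sub (Nat.add (Nat.add (Nat.add (Nat.add (Nat.add (Nat.add C x48616) x53476) x52828) x53008) x52996) x52988) x33308)
    (Nat.sub (Nat.add (Nat.add (Nat.add (Nat.add (Nat.add (Nat.add C x48620) x53480) x52832) x53012) x52988) x52996) (Nat.mul x52994 (nat_lit 2)))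
    (Nat.sub (Nat.sub (Nat.add (Nat.add (Nat.add (Nat.add (Nat.add (Nat.add (Nat.add C x48622) x53482) x52834) x53014) x52990) x52994) x52998) x52996) x33314)
    (Nat.sub (Nat.sub (Nat.add (Nat.add (Nat.add (Nat.add (Nat.add C x48624) x53484) x52836) x53016) x52996) (Nat.mul x52998 (nat_lit 2))) x33316)
    (Nat.add (Nat.add (Nat.add (Nat.add (Nat.add (Nat.add (Nat.add C x48632) x53492) x52844) x53060) x52988) x53012) x53008)
    (Nat.sub (Nat.sub (Nat.add (Nat.add (Nat.add (Nat.add (Nat.add (Nat.add (Nat.add C x48634) x53494) x52846) x53062) x52990) x53014) x53006) (Nat.mul x53008 (nat_lit 2))) x33326)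
    (Nat.sub (Nat.add (Nat.add (Nat.add (Nat.add (Nat.add (Nat.add (Nat.add (Nat.add C x48638) x53498) x52850) x53066) x52994) x53030) x53006) x53014) x53012)
    (Nat.sub (Nat.sub (Nat.add (Nat.add (Nat.add (Nat.add (Nat.add (Nat.add (Nat.add (Nat.add (Nat.add (Nat.add C x48640) x53500) x52852) x53068) x52996) x53032) x53008) x53020) x53012) x53016) x53014) x33332)
    (Nat.sub (Nat.sub (Nat.add (Nat.add (Nat.add (Nat.add (Nat.add (Nat.add (Nat.add (Nat.add C x48642) x53502) x52854) x53070) x52998) x53034) x53022) x53014) (Nat.mul x53016 (nat_lit 3))) x33334)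
    (Nat.sub (Nat.sub (Nat.add (Nat.add (Nat.add (Nat.add (Nat.add (Nat.add (Nat.add C x48646) x53506) x52858) x53074) x53038) x53014) x53022) (Nat.mul x53020 (nat_lit 2))) x33338)
    (Nat.sub (Nat.sub (Nat.add (Nat.add (Nat.add (Nat.add (Nat.add (Nat.add (Nat.add C x48648) x53508) x52860) x53076) x53040) x53016) x53020) (Nat.mul x53022 (nat_lit 2))) x33340)
    (Nat.sub (Nat.add (Nat.add (Nat.add (Nat.add (Nat.add (Nat.add C x48656) x53516) x52868) x53084) x53012) x53032) (Nat.mul x53030 (nat_lit 2)))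
    (Nat.sub (Nat.sub (Nat.add (Nat.add (Nat.add (Nat.add (Nat.add (Nat.add (Nat.add (Nat.add C x48658) x53518) x52870) x53086) x53014) x53038) x53030) x53034) (Nat.mul x53032 (nat_lit 3))) x33350)
    (Nat.sub (Nat.sub (Nat.add (Nat.add (Nat.add (Nat.add (Nat.add (Nat.add (Nat.add C x48660) x53520) x52872) x53088) x53016) x53040) x53032) (Nat.mul x53034 (nat_lit 6))) x33352)
    (Nat.sub (Nat.sub (Nat.add (Nat.add (Nat.add (Nat.add (Nat.add (Nat.add (Nat.add C x48664) x53524) x52876) x53092) x53020) x53032) x53040) (Nat.mul x53038 (nat_lit 2))) x33356)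
    (Nat.sub (Nat.sub (Nat.add (Nat.add (Nat.add (Nat.add (Nat.add (Nat.add (Nat.add (Nat.add C x48666) x53526) x52878) x53094) x53022) x53034) x53046) x53038) (Nat.mul x53040 (nat_lit 3))) x33358)
    (Nat.sub (Nat.sub (Nat.add (Nat.add (Nat.add (Nat.add (Nat.add C x48672) x53532) x52884) x53100) x53040) (Nat.mul x53046 (nat_lit 2))) x33364)
    (Nat.add (Nat.add (Nat.add (Nat.add (Nat.add (Nat.add (Nat.add C (Nat.mul x53060 (nat_lit 2))) x48686) x53546) x52898) x53006) x53066) x53062)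
    (Nat.sub (Nat.add (Nat.add (Nat.add (Nat.add (Nat.add (Nat.add C x48688) x53548) x52900) x53008) x53068) x53060) x33380)
    (Nat.add (Nat.add (Nat.add (Nat.add (Nat.add (Nat.add (Nat.add C x48692) x53552) x52904) x53012) x53084) x53060) x53068)
    (Nat.sub (Nat.add (Nat.add (Nat.add (Nat.add (Nat.add (Nat.add (Nat.add (Nat.add (Nat.add C x48694) x53554) x52906) x53014) x53086) x53062) x53074) x53066) x53070) x33386)
    (Nat.sub (Nat.sub (Nat.add (Nat.add (Nat.add (Nat.add (Nat.add (Nat.add (Nat.add C x48696) x53556) x52908) x53016) x53088) x53076) x53068) (Nat.mul x53070 (nat_lit 2))) x33388)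
    (Nat.sub (Nat.sub (Nat.add (Nat.add (Nat.add (Nat.add (Nat.add (Nat.add (Nat.add C x48700) x53560) x52912) x53020) x53092) x53068) x53076) (Nat.mul x53074 (nat_lit 2))) x33392)
    (Nat.sub (Nat.sub (Nat.add (Nat.add (Nat.add (Nat.add (Nat.add (Nat.add (Nat.add C x48702) x53562) x52914) x53022) x53094) x53070) x53074) (Nat.mul x53076 (nat_lit 2))) x33394)
    (Nat.add (Nat.add (Nat.add (Nat.add (Nat.add (Nat.add (Nat.add (Nat.add C x53084) x48710) x53570) x52922) x53030) x53138) x53066) x53086)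
    (Nat.sub (Nat.add (Nat.add (Nat.add (Nat.add (Nat.add (Nat.add (Nat.add (Nat.add (Nat.add C x48712) x53572) x52924) x53032) x53140) x53068) x53092) x53084) x53088) x33404)
    (Nat.sub (Nat.sub (Nat.add (Nat.add (Nat.add (Nat.add (Nat.add (Nat.add (Nat.add (Nat.add C x48714) x53574) x52926) x53034) x53142) x53070) x53094) x53086) (Nat.mul x53088 (nat_lit 3))) x33406)
    (Nat.sub (Nat.add (Nat.add (Nat.add (Nat.add (Nat.add (Nat.add (Nat.add (Nat.add (Nat.add C x48718) x53578) x52930) x53038) x53146) x53074) x53110) x53086) x53094) x33410)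
    (Nat.sub (Nat.sub (Nat.add (Nat.add (Nat.add (Nat.add (Nat.add (Nat.add (Nat.add (Nat.add (Nat.add (Nat.add C x48720) x53580) x52932) x53040) x53148) x53076) x53112) x53088) x53100) x53092) x53094) x33412)
    (Nat.sub (Nat.sub (Nat.add (Nat.add (Nat.add (Nat.add (Nat.add (Nat.add (Nat.add C x48726) x53586) x52938) x53046) x53154) x53118) x53094) x53100) x33418)
    (Nat.sub (Nat.add (Nat.add (Nat.add (Nat.add (Nat.add (Nat.add C x48736) x53596) x52948) x53164) x53092) x53112) x33428)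
    (Nat.sub (Nat.sub (Nat.add (Nat.add (Nat.add (Nat.add (Nat.add (Nat.add (Nat.add C x48738) x53598) x52950) x53166) x53094) x53118) x53110) (Nat.mul x53112 (nat_lit 2))) x33430)
    (Nat.sub (Nat.add (Nat.add (Nat.add (Nat.add (Nat.add (Nat.add C x48744) x53604) x52956) x53172) x53100) x53112) x33436)
    (Nat.add (Nat.add (Nat.add (Nat.add (Nat.add C (Nat.mul x53138 (nat_lit 2))) x48764) x53624) x53084) x53140)
    (Nat.sub (Nat.add (Nat.add (Nat.add (Nat.add (Nat.add (Nat.add (Nat.add C x53140) x48766) x53626) x53086) x53146) x53138) x53142) x33458)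
    (Nat.sub (Nat.sub (Nat.add (Nat.add (Nat.add (Nat.add (Nat.add C x48768) x53628) x53088) x53148) x53140) (Nat.mul x53142 (nat_lit 2))) x33460)
    (Nat.sub (Nat.add (Nat.add (Nat.add (Nat.add (Nat.add (Nat.add C x48772) x53632) x53092) x53164) x53140) x53148) x33464)
    (Nat.sub (Nat.sub (Nat.add (Nat.add (Nat.add (Nat.add (Nat.add (Nat.add (Nat.add C x48774) x53634) x53094) x53166) x53142) x53154) x53146) x53148) x33466)
    (Nat.sub (Nat.sub (Nat.add (Nat.add (Nat.add (Nat.add (Nat.add C x48780) x53640) x53100) x53172) x53148) (Nat.mul x53154 (nat_lit 2))) x33472)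
    (Nat.sub (Nat.add (Nat.add (Nat.add (Nat.add (Nat.add (Nat.add C (Nat.mul x53164 (nat_lit 2))) x48790) x53650) x53110) x53146) x53166) x33482)
    (Nat.sub (Nat.add (Nat.add (Nat.add (Nat.add (Nat.add (Nat.add C x48792) x53652) x53112) x53148) x53172) x53164) x33484)
    (Nat.sub (Nat.add (Nat.add (Nat.add (Nat.add (Nat.add (Nat.add (Nat.add C x53172) x48798) x53658) x53118) x53154) x53190) x53166) x33490)
    (Nat.sub (Nat.add (Nat.add (Nat.add (Nat.add C (Nat.mul x53190 (nat_lit 2))) x48816) x53676) x53172) x33508)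
    (Nat.add (Nat.add (Nat.add (Nat.add (Nat.add (Nat.add C (Nat.mul x53234 (nat_lit 4))) x48860) x54692) x52748) x53252) x53240)
    (Nat.add (Nat.add (Nat.add (Nat.add (Nat.add (Nat.add (Nat.add C (Nat.mul x53240 (nat_lit 2))) x48866) x54698) x52754) x53258) x53234) x53242)
    (Nat.sub (Nat.add (Nat.add (Nat.add (Nat.add (Nat.add (Nat.add C (Nat.mul x53242 (nat_lit 2))) x48868) x54700) x52756) x53260) x53240) x33560)
    (Nat.add (Nat.add (Nat.add (Nat.add (Nat.add (Nat.add (Nat.add C (Nat.mul x53252 (nat_lit 2))) x48878) x54710) x52766) x53306) x53234) x53258)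
    (Nat.add (Nat.add (Nat.add (Nat.add (Nat.add (Nat.add (Nat.add (Nat.add (Nat.add (Nat.add C (Nat.mul x53258 (nat_lit 2))) x48884) x54716) x52772) x53312) x53240) x53276) x53252) x53264) x53260)
    (Nat.sub (Nat.add (Nat.add (Nat.add (Nat.add (Nat.add (Nat.add (Nat.add (Nat.add (Nat.add C x53260) x48886) x54718) x52774) x53314) x53242) x53278) x53266) x53258) x33578)
    (Nat.add (Nat.add (Nat.add (Nat.add (Nat.add (Nat.add (Nat.add C x48890) x54722) x52778) x53318) x53282) x53258) x53266)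
    (Nat.sub (Nat.add (Nat.add (Nat.add (Nat.add (Nat.add (Nat.add (Nat.add (Nat.add (Nat.add C x53266) x48892) x54724) x52780) x53320) x53284) x53260) x53264) x53268) x33584)
    (Nat.sub (Nat.add (Nat.add (Nat.add (Nat.add (Nat.add (Nat.add C x48894) x54726) x52782) x53322) x53286) x53266) x33586)
    (Nat.add (Nat.add (Nat.add (Nat.add (Nat.add (Nat.add (Nat.add C x48902) x54734) x52790) x53330) x53258) x53282) x53278)
    (Nat.sub (Nat.sub (Nat.add (Nat.add (Nat.add (Nat.add (Nat.add (Nat.add (Nat.add C x48904) x54736) x52792) x53332) x53260) x53284) x53276) (Nat.mul x53278 (nat_lit 2))) x33596)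
    (Nat.add (Nat.add (Nat.add (Nat.add (Nat.add (Nat.add (Nat.add C x48908) x54740) x52796) x53336) x53264) x53276) x53284)
    (Nat.sub (Nat.add (Nat.add (Nat.add (Nat.add (Nat.add (Nat.add (Nat.add (Nat.add (Nat.add C x48910) x54742) x52798) x53338) x53266) x53278) x53290) x53282) x53286) x33602)
    (Nat.sub (Nat.sub (Nat.add (Nat.add (Nat.add (Nat.add (Nat.add (Nat.add (Nat.add C x48912) x54744) x52800) x53340) x53268) x53292) x53284) (Nat.mul x53286 (nat_lit 2))) x33604)
    (Nat.sub (Nat.add (Nat.add (Nat.add (Nat.add (Nat.add (Nat.add C x48916) x54748) x52804) x53344) x53284) x53292) x33608)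
    (Nat.sub (Nat.add (Nat.add (Nat.add (Nat.add (Nat.add (Nat.add C x48918) x54750) x52806) x53346) x53286) x53290) x33610)
    (Nat.add (Nat.add (Nat.add (Nat.add (Nat.add (Nat.add (Nat.add C (Nat.mul x53306 (nat_lit 2))) x48932) x54764) x52820) x53468) x53252) x53312)
    (Nat.add (Nat.add (Nat.add (Nat.add (Nat.add (Nat.add (Nat.add (Nat.add (Nat.add (Nat.add C x53312) x48938) x54770) x52826) x53474) x53258) x53330) x53306) x53318) x53314)
    (Nat.sub (Nat.add (Nat.add (Nat.add (Nat.add (Nat.add (Nat.add (Nat.add (Nat.add C x48940) x54772) x52828) x53476) x53260) x53332) x53320) x53312) x33632)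
    (Nat.sub (Nat.add (Nat.add (Nat.add (Nat.add (Nat.add (Nat.add (Nat.add (Nat.add C x48944) x54776) x52832) x53480) x53264) x53336) x53312) x53320) (Nat.mul x53318 (nat_lit 2)))
    (Nat.sub (Nat.sub (Nat.add (Nat.add (Nat.add (Nat.add (Nat.add (Nat.add (Nat.add (Nat.add (Nat.add C x48946) x54778) x52834) x53482) x53266) x53338) x53314) x53318) x53322) x53320) x33638)
    (Nat.sub (Nat.sub (Nat.add (Nat.add (Nat.add (Nat.add (Nat.add (Nat.add (Nat.add C x48948) x54780) x52836) x53484) x53268) x53340) x53320) (Nat.mul x53322 (nat_lit 2))) x33640)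
    (Nat.add (Nat.add (Nat.add (Nat.add (Nat.add (Nat.add (Nat.add (Nat.add (Nat.add (Nat.add C x53330) x48956) x54788) x52844) x53492) x53276) x53384) x53312) x53336) x53332)
    (Nat.sub (Nat.sub (Nat.add (Nat.add (Nat.add (Nat.add (Nat.add (Nat.add (Nat.add (Nat.add (Nat.add C x48958) x54790) x52846) x53494) x53278) x53386) x53314) x53338) x53330) x53332) x33650)
    (Nat.add (Nat.add (Nat.add (Nat.add (Nat.add (Nat.add (Nat.add (Nat.add (Nat.add (Nat.add C x48962) x54794) x52850) x53498) x53282) x53390) x53318) x53354) x53330) x53338)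
    (Nat.sub (Nat.add (Nat.add (Nat.add (Nat.add (Nat.add (Nat.add (Nat.add (Nat.add (Nat.add (Nat.add (Nat.add (Nat.add C x48964) x54796) x52852) x53500) x53284) x53392) x53320) x53356) x53332) x53344) x53336) x53340) x33656)
    (Nat.sub (Nat.sub (Nat.add (Nat.add (Nat.add (Nat.add (Nat.add (Nat.add (Nat.add (Nat.add (Nat.add (Nat.add C x48966) x54798) x52854) x53502) x53286) x53394) x53322) x53358) x53346) x53338) (Nat.mul x53340 (nat_lit 2))) x33658)
    (Nat.sub (Nat.sub (Nat.add (Nat.add (Nat.add (Nat.add (Nat.add (Nat.add (Nat.add (Nat.add (Nat.add C x48970) x54802) x52858) x53506) x53290) x53398) x53362) x53338) x53346) x53344) x33662)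
    (Nat.sub (Nat.sub (Nat.add (Nat.add (Nat.add (Nat.add (Nat.add (Nat.add (Nat.add (Nat.add (Nat.add C x48972) x54804) x52860) x53508) x53292) x53400) x53364) x53340) x53344) x53346) x33664)
    (Nat.add (Nat.add (Nat.add (Nat.add (Nat.add (Nat.add (Nat.add C x48980) x54812) x52868) x53516) x53408) x53336) x53356)
    (Nat.sub (Nat.sub (Nat.add (Nat.add (Nat.add (Nat.add (Nat.add (Nat.add (Nat.add (Nat.add (Nat.add C x48982) x54814) x52870) x53518) x53410) x53338) x53362) x53354) x53358) x53356) x33674)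
    (Nat.sub (Nat.sub (Nat.add (Nat.add (Nat.add (Nat.add (Nat.add (Nat.add (Nat.add (Nat.add C x48984) x54816) x52872) x53520) x53412) x53340) x53364) x53356) (Nat.mul x53358 (nat_lit 4))) x33676)
    (Nat.sub (Nat.add (Nat.add (Nat.add (Nat.add (Nat.add (Nat.add (Nat.add (Nat.add C x48988) x54820) x52876) x53524) x53416) x53344) x53356) x53364) x33680)
    (Nat.sub (Nat.sub (Nat.add (Nat.add (Nat.add (Nat.add (Nat.add (Nat.add (Nat.add (Nat.add (Nat.add C x48990) x54822) x52878) x53526) x53418) x53346) x53358) x53370) x53362) x53364) x33682)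
    (Nat.sub (Nat.add (Nat.add (Nat.add (Nat.add (Nat.add (Nat.add C x48996) x54828) x52884) x53532) x53424) x53364) x33688)
    (Nat.add (Nat.add (Nat.add (Nat.add (Nat.add (Nat.add (Nat.add C x49010) x54842) x52898) x53546) x53330) x53390) x53386)
    (Nat.sub (Nat.sub (Nat.add (Nat.add (Nat.add (Nat.add (Nat.add (Nat.add (Nat.add C x49012) x54844) x52900) x53548) x53332) x53392) x53384) (Nat.mul x53386 (nat_lit 2))) x33704)
    (Nat.sub (Nat.add (Nat.add (Nat.add (Nat.add (Nat.add (Nat.add (Nat.add (Nat.add C x49016) x54848) x52904) x53552) x53336) x53408) x53384) x53392) (Nat.mul x53390 (nat_lit 2)))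
    (Nat.sub (Nat.sub (Nat.add (Nat.add (Nat.add (Nat.add (Nat.add (Nat.add (Nat.add (Nat.add (Nat.add (Nat.add C x49018) x54850) x52906) x53554) x53338) x53410) x53386) x53398) x53390) x53394) (Nat.mul x53392 (nat_lit 2))) x33710)
    (Nat.sub (Nat.sub (Nat.add (Nat.add (Nat.add (Nat.add (Nat.add (Nat.add (Nat.add (Nat.add C x49020) x54852) x52908) x53556) x53340) x53412) x53400) x53392) (Nat.mul x53394 (nat_lit 4))) x33712)
    (Nat.sub (Nat.sub (Nat.add (Nat.add (Nat.add (Nat.add (Nat.add (Nat.add (Nat.add (Nat.add C x49024) x54856) x52912) x53560) x53344) x53416) x53392) x53400) (Nat.mul x53398 (nat_lit 4))) x33716)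
    (Nat.sub (Nat.sub (Nat.add (Nat.add (Nat.add (Nat.add (Nat.add (Nat.add (Nat.add (Nat.add C x49026) x54858) x52914) x53562) x53346) x53418) x53394) x53398) (Nat.mul x53400 (nat_lit 4))) x33718)
    (Nat.add (Nat.add (Nat.add (Nat.add (Nat.add (Nat.add (Nat.add C x49034) x54866) x52922) x53570) x53354) x53390) x53410)
    (Nat.sub (Nat.sub (Nat.add (Nat.add (Nat.add (Nat.add (Nat.add (Nat.add (Nat.add (Nat.add (Nat.add C x49036) x54868) x52924) x53572) x53356) x53392) x53416) x53408) x53412) x53410) x33728)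
    (Nat.sub (Nat.sub (Nat.add (Nat.add (Nat.add (Nat.add (Nat.add (Nat.add (Nat.add (Nat.add C x49038) x54870) x52926) x53574) x53358) x53394) x53418) x53410) (Nat.mul x53412 (nat_lit 4))) x33730)
    (Nat.sub (Nat.sub (Nat.add (Nat.add (Nat.add (Nat.add (Nat.add (Nat.add (Nat.add (Nat.add (Nat.add C x49042) x54874) x52930) x53578) x53362) x53398) x53434) x53410) x53418) x53416) x33734)
    (Nat.sub (Nat.sub (Nat.add (Nat.add (Nat.add (Nat.add (Nat.add (Nat.add (Nat.add (Nat.add (Nat.add (Nat.add C x49044) x54876) x52932) x53580) x53364) x53400) x53436) x53412) x53424) x53416) (Nat.mul x53418 (nat_lit 2))) x33736)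
    (Nat.sub (Nat.sub (Nat.add (Nat.add (Nat.add (Nat.add (Nat.add (Nat.add (Nat.add C x49050) x54882) x52938) x53586) x53370) x53442) x53418) (Nat.mul x53424 (nat_lit 2))) x33742)
    (Nat.sub (Nat.add (Nat.add (Nat.add (Nat.add (Nat.add (Nat.add C x49060) x54892) x52948) x53596) x53416) x53436) x33752)
    (Nat.sub (Nat.sub (Nat.add (Nat.add (Nat.add (Nat.add (Nat.add (Nat.add (Nat.add C x49062) x54894) x52950) x53598) x53418) x53442) x53434) (Nat.mul x53436 (nat_lit 2))) x33754)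
    (Nat.sub (Nat.add (Nat.add (Nat.add (Nat.add (Nat.add (Nat.add C x49068) x54900) x52956) x53604) x53424) x53436) x33760)
    (Nat.add (Nat.add (Nat.add (Nat.add (Nat.add (Nat.add (Nat.add C (Nat.mul x53468 (nat_lit 3))) x49094) x54926) x52982) x53954) x53306) x53474)
    (Nat.add (Nat.add (Nat.add (Nat.add (Nat.add (Nat.add (Nat.add (Nat.add (Nat.add (Nat.add C (Nat.mul x53474 (nat_lit 2))) x49100) x54932) x52988) x53960) x53312) x53492) x53468) x53480) x53476)
    (Nat.sub (Nat.add (Nat.add (Nat.add (Nat.add (Nat.add (Nat.add (Nat.add (Nat.add (Nat.add C x53476) x49102) x54934) x52990) x53962) x53314) x53494) x53482) x53474) x33794)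
    (Nat.sub (Nat.add (Nat.add (Nat.add (Nat.add (Nat.add (Nat.add (Nat.add (Nat.add C x49106) x54938) x52994) x53966) x53318) x53498) x53474) x53482) x53480)
    (Nat.sub (Nat.add (Nat.add (Nat.add (Nat.add (Nat.add (Nat.add (Nat.add (Nat.add (Nat.add C x49108) x54940) x52996) x53968) x53320) x53500) x53476) x53480) x53484) x33800)
    (Nat.sub (Nat.sub (Nat.add (Nat.add (Nat.add (Nat.add (Nat.add (Nat.add (Nat.add C x49110) x54942) x52998) x53970) x53322) x53502) x53482) x53484) x33802)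
    (Nat.add (Nat.add (Nat.add (Nat.add (Nat.add (Nat.add (Nat.add (Nat.add (Nat.add (Nat.add C x53492) x49118) x54950) x53006) x53978) x53330) x53546) x53474) x53498) x53494)
    (Nat.sub (Nat.sub (Nat.add (Nat.add (Nat.add (Nat.add (Nat.add (Nat.add (Nat.add (Nat.add (Nat.add C x49120) x54952) x53008) x53980) x53332) x53548) x53476) x53500) x53492) x53494) x33812)
    (Nat.add (Nat.add (Nat.add (Nat.add (Nat.add (Nat.add (Nat.add (Nat.add (Nat.add (Nat.add C x49124) x54956) x53012) x53984) x53336) x53552) x53480) x53516) x53492) x53500)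
    (Nat.sub (Nat.add (Nat.add (Nat.add (Nat.add (Nat.add (Nat.add (Nat.add (Nat.add (Nat.add (Nat.add (Nat.add (Nat.add C x49126) x54958) x53014) x53986) x53338) x53554) x53482) x53518) x53494) x53506) x53498) x53502) x33818)
    (Nat.sub (Nat.sub (Nat.add (Nat.add (Nat.add (Nat.add (Nat.add (Nat.add (Nat.add (Nat.add (Nat.add (Nat.add C x49128) x54960) x53016) x53988) x53340) x53556) x53484) x53520) x53508) x53500) (Nat.mul x53502 (nat_lit 2))) x33820)
    (Nat.sub (Nat.sub (Nat.add (Nat.add (Nat.add (Nat.add (Nat.add (Nat.add (Nat.add (Nat.add (Nat.add C x49132) x54964) x53020) x53992) x53344) x53560) x53524) x53500) x53508) x53506) x33824)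
    (Nat.sub (Nat.sub (Nat.add (Nat.add (Nat.add (Nat.add (Nat.add (Nat.add (Nat.add (Nat.add (Nat.add C x49134) x54966) x53022) x53994) x53346) x53562) x53526) x53502) x53506) x53508) x33826)
    (Nat.sub (Nat.add (Nat.add (Nat.add (Nat.add (Nat.add (Nat.add (Nat.add (Nat.add C x49142) x54974) x53030) x54002) x53354) x53570) x53498) x53518) x53516)
    (Nat.sub (Nat.sub (Nat.add (Nat.add (Nat.add (Nat.add (Nat.add (Nat.add (Nat.add (Nat.add (Nat.add (Nat.add C x49144) x54976) x53032) x54004) x53356) x53572) x53500) x53524) x53516) x53520) (Nat.mul x53518 (nat_lit 2))) x33836)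
    (Nat.sub (Nat.sub (Nat.add (Nat.add (Nat.add (Nat.add (Nat.add (Nat.add (Nat.add (Nat.add (Nat.add C x49146) x54978) x53034) x54006) x53358) x53574) x53502) x53526) x53518) (Nat.mul x53520 (nat_lit 5))) x33838)
    (Nat.sub (Nat.sub (Nat.add (Nat.add (Nat.add (Nat.add (Nat.add (Nat.add (Nat.add (Nat.add (Nat.add C x49150) x54982) x53038) x54010) x53362) x53578) x53506) x53518) x53526) x53524) x33842)
    (Nat.sub (Nat.sub (Nat.add (Nat.add (Nat.add (Nat.add (Nat.add (Nat.add (Nat.add (Nat.add (Nat.add (Nat.add C x49152) x54984) x53040) x54012) x53364) x53580) x53508) x53520) x53532) x53524) (Nat.mul x53526 (nat_lit 2))) x33844)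
    (Nat.sub (Nat.sub (Nat.add (Nat.add (Nat.add (Nat.add (Nat.add (Nat.add (Nat.add C x49158) x54990) x53046) x54018) x53370) x53586) x53526) x53532) x33850)
    (Nat.add (Nat.add (Nat.add (Nat.add (Nat.add (Nat.add (Nat.add (Nat.add (Nat.add (Nat.add C (Nat.mul x53546 (nat_lit 2))) x49172) x55004) x53060) x54032) x53384) x53708) x53492) x53552) x53548)
    (Nat.sub (Nat.add (Nat.add (Nat.add (Nat.add (Nat.add (Nat.add (Nat.add (Nat.add (Nat.add C x49174) x55006) x53062) x54034) x53386) x53710) x53494) x53554) x53546) x33866)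
    (Nat.add (Nat.add (Nat.add (Nat.add (Nat.add (Nat.add (Nat.add (Nat.add (Nat.add (Nat.add C x49178) x55010) x53066) x54038) x53390) x53714) x53498) x53570) x53546) x53554)
    (Nat.sub (Nat.add (Nat.add (Nat.add (Nat.add (Nat.add (Nat.add (Nat.add (Nat.add (Nat.add (Nat.add (Nat.add (Nat.add C x49180) x55012) x53068) x54040) x53392) x53716) x53500) x53572) x53548) x53560) x53552) x53556) x33872)
    (Nat.sub (Nat.sub (Nat.add (Nat.add (Nat.add (Nat.add (Nat.add (Nat.add (Nat.add (Nat.add (Nat.add (Nat.add C x49182) x55014) x53070) x54042) x53394) x53718) x53502) x53574) x53562) x53554) (Nat.mul x53556 (nat_lit 2))) x33874)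
    (Nat.sub (Nat.sub (Nat.add (Nat.add (Nat.add (Nat.add (Nat.add (Nat.add (Nat.add (Nat.add (Nat.add (Nat.add C x49186) x55018) x53074) x54046) x53398) x53722) x53506) x53578) x53554) x53562) (Nat.mul x53560 (nat_lit 2))) x33878)
    (Nat.sub (Nat.sub (Nat.add (Nat.add (Nat.add (Nat.add (Nat.add (Nat.add (Nat.add (Nat.add (Nat.add (Nat.add C x49188) x55020) x53076) x54048) x53400) x53724) x53508) x53580) x53556) x53560) (Nat.mul x53562 (nat_lit 2))) x33880)
    (Nat.add (Nat.add (Nat.add (Nat.add (Nat.add (Nat.add (Nat.add (Nat.add (Nat.add (Nat.add (Nat.add C x53570) x49196) x55028) x53084) x54056) x53408) x53732) x53516) x53624) x53552) x53572)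
    (Nat.sub (Nat.add (Nat.add (Nat.add (Nat.add (Nat.add (Nat.add (Nat.add (Nat.add (Nat.add (Nat.add (Nat.add (Nat.add C x49198) x55030) x53086) x54058) x53410) x53734) x53518) x53626) x53554) x53578) x53570) x53574) x33890)
    (Nat.sub (Nat.sub (Nat.add (Nat.add (Nat.add (Nat.add (Nat.add (Nat.add (Nat.add (Nat.add (Nat.add (Nat.add (Nat.add C x49200) x55032) x53088) x54060) x53412) x53736) x53520) x53628) x53556) x53580) x53572) (Nat.mul x53574 (nat_lit 3))) x33892)
    (Nat.sub (Nat.add (Nat.add (Nat.add (Nat.add (Nat.add (Nat.add (Nat.add (Nat.add (Nat.add (Nat.add (Nat.add (Nat.add C x49204) x55036) x53092) x54064) x53416) x53740) x53524) x53632) x53560) x53596) x53572) x53580) x33896)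
    (Nat.sub (Nat.sub (Nat.add (Nat.add (Nat.add (Nat.add (Nat.add (Nat.add (Nat.add (Nat.add (Nat.add (Nat.add (Nat.add (Nat.add (Nat.add C x49206) x55038) x53094) x54066) x53418) x53742) x53526) x53634) x53562) x53598) x53574) x53586) x53578) x53580) x33898)
    (Nat.sub (Nat.sub (Nat.add (Nat.add (Nat.add (Nat.add (Nat.add (Nat.add (Nat.add (Nat.add (Nat.add (Nat.add C x49212) x55044) x53100) x54072) x53424) x53748) x53532) x53640) x53604) x53580) x53586) x33904)
    (Nat.sub (Nat.add (Nat.add (Nat.add (Nat.add (Nat.add (Nat.add (Nat.add (Nat.add (Nat.add C x49222) x55054) x53110) x54082) x53434) x53758) x53650) x53578) x53598) x33914)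
    (Nat.sub (Nat.sub (Nat.add (Nat.add (Nat.add (Nat.add (Nat.add (Nat.add (Nat.add (Nat.add (Nat.add (Nat.add C x49224) x55056) x53112) x54084) x53436) x53760) x53652) x53580) x53604) x53596) (Nat.mul x53598 (nat_lit 2))) x33916)
    (Nat.sub (Nat.add (Nat.add (Nat.add (Nat.add (Nat.add (Nat.add (Nat.add (Nat.add (Nat.add C x49230) x55062) x53118) x54090) x53442) x53766) x53658) x53586) x53598) x33922)
    (Nat.add (Nat.add (Nat.add (Nat.add (Nat.add (Nat.add (Nat.add (Nat.add C x53624) x49250) x55082) x53138) x54110) x53786) x53570) x53626)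
    (Nat.sub (Nat.add (Nat.add (Nat.add (Nat.add (Nat.add (Nat.add (Nat.add (Nat.add (Nat.add C x49252) x55084) x53140) x54112) x53788) x53572) x53632) x53624) x53628) x33944)
    (Nat.sub (Nat.sub (Nat.add (Nat.add (Nat.add (Nat.add (Nat.add (Nat.add (Nat.add (Nat.add C x49254) x55086) x53142) x54114) x53790) x53574) x53634) x53626) (Nat.mul x53628 (nat_lit 3))) x33946)
    (Nat.sub (Nat.sub (Nat.add (Nat.add (Nat.add (Nat.add (Nat.add (Nat.add (Nat.add (Nat.add (Nat.add C x49258) x55090) x53146) x54118) x53794) x53578) x53650) x53626) x53634) x53632) x33950)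
    (Nat.sub (Nat.sub (Nat.add (Nat.add (Nat.add (Nat.add (Nat.add (Nat.add (Nat.add (Nat.add (Nat.add (Nat.add C x49260) x55092) x53148) x54120) x53796) x53580) x53652) x53628) x53640) x53632) (Nat.mul x53634 (nat_lit 2))) x33952)
    (Nat.sub (Nat.sub (Nat.add (Nat.add (Nat.add (Nat.add (Nat.add (Nat.add (Nat.add (Nat.add C x49266) x55098) x53154) x54126) x53802) x53586) x53658) x53634) (Nat.mul x53640 (nat_lit 3))) x33958)
    (Nat.sub (Nat.add (Nat.add (Nat.add (Nat.add (Nat.add (Nat.add (Nat.add (Nat.add (Nat.add C x53650) x49276) x55108) x53164) x54136) x53812) x53596) x53632) x53652) x33968)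
    (Nat.sub (Nat.sub (Nat.add (Nat.add (Nat.add (Nat.add (Nat.add (Nat.add (Nat.add (Nat.add (Nat.add C x49278) x55110) x53166) x54138) x53814) x53598) x53634) x53658) x53650) x53652) x33970)
    (Nat.sub (Nat.add (Nat.add (Nat.add (Nat.add (Nat.add (Nat.add (Nat.add (Nat.add (Nat.add C x49284) x55116) x53172) x54144) x53820) x53604) x53640) x53676) x53652) x33976)
    (Nat.sub (Nat.add (Nat.add (Nat.add (Nat.add (Nat.add (Nat.add (Nat.add C x53676) x49302) x55134) x53190) x54162) x53838) x53658) x33994)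
    (Nat.add (Nat.add (Nat.add (Nat.add (Nat.add (Nat.add (Nat.add C (Nat.mul x53708 (nat_lit 2))) x49334) x55166) x54194) x53546) x53714) x53710)
    (Nat.sub (Nat.add (Nat.add (Nat.add (Nat.add (Nat.add (Nat.add C x49336) x55168) x54196) x53548) x53716) x53708) x34028)
    (Nat.add (Nat.add (Nat.add (Nat.add (Nat.add (Nat.add (Nat.add C x49340) x55172) x54200) x53552) x53732) x53708) x53716)
    (Nat.sub (Nat.add (Nat.add (Nat.add (Nat.add (Nat.add (Nat.add (Nat.add (Nat.add (Nat.add C x49342) x55174) x54202) x53554) x53734) x53710) x53722) x53714) x53718) x34034)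
    (Nat.sub (Nat.sub (Nat.add (Nat.add (Nat.add (Nat.add (Nat.add (Nat.add (Nat.add C x49344) x55176) x54204) x53556) x53736) x53724) x53716) (Nat.mul x53718 (nat_lit 2))) x34036)
    (Nat.sub (Nat.sub (Nat.add (Nat.add (Nat.add (Nat.add (Nat.add (Nat.add (Nat.add C x49348) x55180) x54208) x53560) x53740) x53716) x53724) (Nat.mul x53722 (nat_lit 2))) x34040)
    (Nat.sub (Nat.sub (Nat.add (Nat.add (Nat.add (Nat.add (Nat.add (Nat.add (Nat.add C x49350) x55182) x54210) x53562) x53742) x53718) x53722) (Nat.mul x53724 (nat_lit 2))) x34042)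
    (Nat.add (Nat.add (Nat.add (Nat.add (Nat.add (Nat.add (Nat.add C x49358) x55190) x54218) x53570) x53786) x53714) x53734)
    (Nat.sub (Nat.sub (Nat.add (Nat.add (Nat.add (Nat.add (Nat.add (Nat.add (Nat.add (Nat.add (Nat.add C x49360) x55192) x54220) x53572) x53788) x53716) x53740) x53732) x53736) x53734) x34052)
    (Nat.sub (Nat.sub (Nat.add (Nat.add (Nat.add (Nat.add (Nat.add (Nat.add (Nat.add (Nat.add C x49362) x55194) x54222) x53574) x53790) x53718) x53742) x53734) (Nat.mul x53736 (nat_lit 4))) x34054)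
    (Nat.sub (Nat.sub (Nat.add (Nat.add (Nat.add (Nat.add (Nat.add (Nat.add (Nat.add (Nat.add (Nat.add C x49366) x55198) x54226) x53578) x53794) x53722) x53758) x53734) x53742) x53740) x34058)
    (Nat.sub (Nat.sub (Nat.add (Nat.add (Nat.add (Nat.add (Nat.add (Nat.add (Nat.add (Nat.add (Nat.add (Nat.add C x49368) x55200) x54228) x53580) x53796) x53724) x53760) x53736) x53748) x53740) (Nat.mul x53742 (nat_lit 2))) x34060)
    (Nat.sub (Nat.sub (Nat.add (Nat.add (Nat.add (Nat.add (Nat.add (Nat.add (Nat.add C x49374) x55206) x54234) x53586) x53802) x53766) x53742) (Nat.mul x53748 (nat_lit 2))) x34066)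
    (Nat.sub (Nat.sub (Nat.add (Nat.add (Nat.add (Nat.add (Nat.add (Nat.add (Nat.add C x49384) x55216) x54244) x53596) x53812) x53740) x53760) (Nat.mul x53758 (nat_lit 2))) x34076)
    (Nat.sub (Nat.sub (Nat.add (Nat.add (Nat.add (Nat.add (Nat.add (Nat.add (Nat.add (Nat.add C x49386) x55218) x54246) x53598) x53814) x53742) x53766) x53758) (Nat.mul x53760 (nat_lit 4))) x34078)
    (Nat.sub (Nat.sub (Nat.add (Nat.add (Nat.add (Nat.add (Nat.add (Nat.add (Nat.add C x49392) x55224) x54252) x53604) x53820) x53748) x53760) (Nat.mul x53766 (nat_lit 2))) x34084)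
    (Nat.add (Nat.add (Nat.add (Nat.add (Nat.add (Nat.add (Nat.add C (Nat.mul x53786 (nat_lit 2))) x49412) x55244) x54272) x53624) x53732) x53788)
    (Nat.sub (Nat.add (Nat.add (Nat.add (Nat.add (Nat.add (Nat.add (Nat.add (Nat.add (Nat.add C x53788) x49414) x55246) x54274) x53626) x53734) x53794) x53786) x53790) x34106)
    (Nat.sub (Nat.sub (Nat.add (Nat.add (Nat.add (Nat.add (Nat.add (Nat.add (Nat.add C x49416) x55248) x54276) x53628) x53736) x53796) x53788) (Nat.mul x53790 (nat_lit 2))) x34108)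
    (Nat.sub (Nat.add (Nat.add (Nat.add (Nat.add (Nat.add (Nat.add (Nat.add (Nat.add C x49420) x55252) x54280) x53632) x53740) x53812) x53788) x53796) x34112)
    (Nat.sub (Nat.sub (Nat.add (Nat.add (Nat.add (Nat.add (Nat.add (Nat.add (Nat.add (Nat.add (Nat.add C x49422) x55254) x54282) x53634) x53742) x53814) x53790) x53802) x53794) x53796) x34114)
    (Nat.sub (Nat.sub (Nat.add (Nat.add (Nat.add (Nat.add (Nat.add (Nat.add (Nat.add C x49428) x55260) x54288) x53640) x53748) x53820) x53796) (Nat.mul x53802 (nat_lit 2))) x34120)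
    (Nat.sub (Nat.add (Nat.add (Nat.add (Nat.add (Nat.add (Nat.add (Nat.add (Nat.add (Nat.add C x53812) x49438) x55270) x54298) x53650) x53758) x53866) x53794) x53814) x34130)
    (Nat.sub (Nat.sub (Nat.add (Nat.add (Nat.add (Nat.add (Nat.add (Nat.add (Nat.add (Nat.add (Nat.add C x49440) x55272) x54300) x53652) x53760) x53868) x53796) x53820) x53812) x53814) x34132)
    (Nat.sub (Nat.add (Nat.add (Nat.add (Nat.add (Nat.add (Nat.add (Nat.add (Nat.add (Nat.add C x49446) x55278) x54306) x53658) x53766) x53874) x53802) x53838) x53814) x34138)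
    (Nat.sub (Nat.add (Nat.add (Nat.add (Nat.add (Nat.add (Nat.add C x49464) x55296) x54324) x53676) x53892) x53820) x34156)
    (Nat.sub (Nat.add (Nat.add (Nat.add (Nat.add (Nat.add (Nat.add C (Nat.mul x53866 (nat_lit 2))) x49492) x55324) x54352) x53812) x53868) x34184)
    (Nat.sub (Nat.add (Nat.add (Nat.add (Nat.add (Nat.add (Nat.add C x49494) x55326) x54354) x53814) x53874) x53866) x34186)
    (Nat.sub (Nat.add (Nat.add (Nat.add (Nat.add (Nat.add (Nat.add C x49500) x55332) x54360) x53820) x53892) x53868) x34192)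
    (Nat.sub (Nat.add (Nat.add (Nat.add (Nat.add (Nat.add (Nat.add C (Nat.mul x53892 (nat_lit 2))) x49518) x55350) x54378) x53838) x53874) x34210)
    (Nat.add (Nat.add (Nat.add (Nat.add (Nat.add C (Nat.mul x53954 (nat_lit 2))) x49580) x55412) x53468) x53960)
    (Nat.add (Nat.add (Nat.add (Nat.add (Nat.add (Nat.add (Nat.add (Nat.add C x53960) x49586) x55418) x53474) x53978) x53954) x53966) x53962)
    (Nat.sub (Nat.add (Nat.add (Nat.add (Nat.add (Nat.add (Nat.add C x49588) x55420) x53476) x53980) x53968) x53960) x34280)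
    (Nat.sub (Nat.add (Nat.add (Nat.add (Nat.add (Nat.add (Nat.add C x49592) x55424) x53480) x53984) x53960) x53968) (Nat.mul x53966 (nat_lit 2)))
    (Nat.sub (Nat.sub (Nat.add (Nat.add (Nat.add (Nat.add (Nat.add (Nat.add (Nat.add C x49594) x55426) x53482) x53986) x53962) x53966) x53970) x53968) x34286)
    (Nat.sub (Nat.sub (Nat.add (Nat.add (Nat.add (Nat.add (Nat.add C x49596) x55428) x53484) x53988) x53968) (Nat.mul x53970 (nat_lit 2))) x34288)
    (Nat.add (Nat.add (Nat.add (Nat.add (Nat.add (Nat.add (Nat.add C x49604) x55436) x53492) x54032) x53960) x53984) x53980)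
    (Nat.sub (Nat.sub (Nat.add (Nat.add (Nat.add (Nat.add (Nat.add (Nat.add (Nat.add C x49606) x55438) x53494) x54034) x53962) x53986) x53978) (Nat.mul x53980 (nat_lit 2))) x34298)
    (Nat.sub (Nat.add (Nat.add (Nat.add (Nat.add (Nat.add (Nat.add (Nat.add (Nat.add C x49610) x55442) x53498) x54038) x53966) x54002) x53978) x53986) x53984)
    (Nat.sub (Nat.sub (Nat.add (Nat.add (Nat.add (Nat.add (Nat.add (Nat.add (Nat.add (Nat.add (Nat.add (Nat.add C x49612) x55444) x53500) x54040) x53968) x54004) x53980) x53992) x53984) x53988) x53986) x34304)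
    (Nat.sub (Nat.sub (Nat.add (Nat.add (Nat.add (Nat.add (Nat.add (Nat.add (Nat.add (Nat.add C x49614) x55446) x53502) x54042) x53970) x54006) x53994) x53986) (Nat.mul x53988 (nat_lit 3))) x34306)
    (Nat.sub (Nat.sub (Nat.add (Nat.add (Nat.add (Nat.add (Nat.add (Nat.add (Nat.add C x49618) x55450) x53506) x54046) x54010) x53986) x53994) (Nat.mul x53992 (nat_lit 2))) x34310)
    (Nat.sub (Nat.sub (Nat.add (Nat.add (Nat.add (Nat.add (Nat.add (Nat.add (Nat.add C x49620) x55452) x53508) x54048) x54012) x53988) x53992) (Nat.mul x53994 (nat_lit 2))) x34312)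
    (Nat.sub (Nat.add (Nat.add (Nat.add (Nat.add (Nat.add (Nat.add C x49628) x55460) x53516) x54056) x53984) x54004) (Nat.mul x54002 (nat_lit 2)))
    (Nat.sub (Nat.sub (Nat.add (Nat.add (Nat.add (Nat.add (Nat.add (Nat.add (Nat.add (Nat.add C x49630) x55462) x53518) x54058) x53986) x54010) x54002) x54006) (Nat.mul x54004 (nat_lit 3))) x34322)
    (Nat.sub (Nat.sub (Nat.add (Nat.add (Nat.add (Nat.add (Nat.add (Nat.add (Nat.add C x49632) x55464) x53520) x54060) x53988) x54012) x54004) (Nat.mul x54006 (nat_lit 6))) x34324)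
    (Nat.sub (Nat.sub (Nat.add (Nat.add (Nat.add (Nat.add (Nat.add (Nat.add (Nat.add C x49636) x55468) x53524) x54064) x53992) x54004) x54012) (Nat.mul x54010 (nat_lit 2))) x34328)
    (Nat.sub (Nat.sub (Nat.add (Nat.add (Nat.add (Nat.add (Nat.add (Nat.add (Nat.add (Nat.add C x49638) x55470) x53526) x54066) x53994) x54006) x54018) x54010) (Nat.mul x54012 (nat_lit 3))) x34330)
    (Nat.sub (Nat.sub (Nat.add (Nat.add (Nat.add (Nat.add (Nat.add C x49644) x55476) x53532) x54072) x54012) (Nat.mul x54018 (nat_lit 2))) x34336)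
    (Nat.add (Nat.add (Nat.add (Nat.add (Nat.add (Nat.add (Nat.add C x49658) x55490) x53546) x54194) x53978) x54038) x54034)
    (Nat.sub (Nat.sub (Nat.add (Nat.add (Nat.add (Nat.add (Nat.add (Nat.add (Nat.add C x49660) x55492) x53548) x54196) x53980) x54040) x54032) (Nat.mul x54034 (nat_lit 2))) x34352)
    (Nat.sub (Nat.add (Nat.add (Nat.add (Nat.add (Nat.add (Nat.add (Nat.add (Nat.add C x49664) x55496) x53552) x54200) x53984) x54056) x54032) x54040) (Nat.mul x54038 (nat_lit 2)))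
    (Nat.sub (Nat.sub (Nat.add (Nat.add (Nat.add (Nat.add (Nat.add (Nat.add (Nat.add (Nat.add (Nat.add (Nat.add C x49666) x55498) x53554) x54202) x53986) x54058) x54034) x54046) x54038) x54042) (Nat.mul x54040 (nat_lit 2))) x34358)
    (Nat.sub (Nat.sub (Nat.add (Nat.add (Nat.add (Nat.add (Nat.add (Nat.add (Nat.add (Nat.add C x49668) x55500) x53556) x54204) x53988) x54060) x54048) x54040) (Nat.mul x54042 (nat_lit 4))) x34360)
    (Nat.sub (Nat.sub (Nat.add (Nat.add (Nat.add (Nat.add (Nat.add (Nat.add (Nat.add (Nat.add C x49672) x55504) x53560) x54208) x53992) x54064) x54040) x54048) (Nat.mul x54046 (nat_lit 4))) x34364)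
    (Nat.sub (Nat.sub (Nat.add (Nat.add (Nat.add (Nat.add (Nat.add (Nat.add (Nat.add (Nat.add C x49674) x55506) x53562) x54210) x53994) x54066) x54042) x54046) (Nat.mul x54048 (nat_lit 4))) x34366)
    (Nat.sub (Nat.add (Nat.add (Nat.add (Nat.add (Nat.add (Nat.add (Nat.add (Nat.add C x49682) x55514) x53570) x54218) x54002) x54110) x54038) x54058) x54056)
    (Nat.sub (Nat.sub (Nat.add (Nat.add (Nat.add (Nat.add (Nat.add (Nat.add (Nat.add (Nat.add (Nat.add (Nat.add C x49684) x55516) x53572) x54220) x54004) x54112) x54040) x54064) x54056) x54060) (Nat.mul x54058 (nat_lit 2))) x34376)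
    (Nat.sub (Nat.sub (Nat.add (Nat.add (Nat.add (Nat.add (Nat.add (Nat.add (Nat.add (Nat.add (Nat.add C x49686) x55518) x53574) x54222) x54006) x54114) x54042) x54066) x54058) (Nat.mul x54060 (nat_lit 5))) x34378)
    (Nat.sub (Nat.sub (Nat.add (Nat.add (Nat.add (Nat.add (Nat.add (Nat.add (Nat.add (Nat.add (Nat.add (Nat.add C x49690) x55522) x53578) x54226) x54010) x54118) x54046) x54082) x54058) x54066) (Nat.mul x54064 (nat_lit 2))) x34382)
    (Nat.sub (Nat.sub (Nat.add (Nat.add (Nat.add (Nat.add (Nat.add (Nat.add (Nat.add (Nat.add (Nat.add (Nat.add (Nat.add C x49692) x55524) x53580) x54228) x54012) x54120) x54048) x54084) x54060) x54072) x54064) (Nat.mul x54066 (nat_lit 3))) x34384)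
    (Nat.sub (Nat.sub (Nat.add (Nat.add (Nat.add (Nat.add (Nat.add (Nat.add (Nat.add (Nat.add C x49698) x55530) x53586) x54234) x54018) x54126) x54090) x54066) (Nat.mul x54072 (nat_lit 3))) x34390)
    (Nat.sub (Nat.sub (Nat.add (Nat.add (Nat.add (Nat.add (Nat.add (Nat.add (Nat.add C x49708) x55540) x53596) x54244) x54136) x54064) x54084) (Nat.mul x54082 (nat_lit 2))) x34400)
    (Nat.sub (Nat.sub (Nat.add (Nat.add (Nat.add (Nat.add (Nat.add (Nat.add (Nat.add (Nat.add C x49710) x55542) x53598) x54246) x54138) x54066) x54090) x54082) (Nat.mul x54084 (nat_lit 4))) x34402)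
    (Nat.sub (Nat.sub (Nat.add (Nat.add (Nat.add (Nat.add (Nat.add (Nat.add (Nat.add C x49716) x55548) x53604) x54252) x54144) x54072) x54084) (Nat.mul x54090 (nat_lit 2))) x34408)
    (Nat.sub (Nat.add (Nat.add (Nat.add (Nat.add (Nat.add (Nat.add C x49736) x55568) x53624) x54272) x54056) x54112) (Nat.mul x54110 (nat_lit 2)))
    (Nat.sub (Nat.sub (Nat.add (Nat.add (Nat.add (Nat.add (Nat.add (Nat.add (Nat.add (Nat.add C x49738) x55570) x53626) x54274) x54058) x54118) x54110) x54114) (Nat.mul x54112 (nat_lit 3))) x34430)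
    (Nat.sub (Nat.sub (Nat.add (Nat.add (Nat.add (Nat.add (Nat.add (Nat.add (Nat.add C x49740) x55572) x53628) x54276) x54060) x54120) x54112) (Nat.mul x54114 (nat_lit 6))) x34432)
    (Nat.sub (Nat.sub (Nat.add (Nat.add (Nat.add (Nat.add (Nat.add (Nat.add (Nat.add (Nat.add C x49744) x55576) x53632) x54280) x54064) x54136) x54112) x54120) (Nat.mul x54118 (nat_lit 4))) x34436)
    (Nat.sub (Nat.sub (Nat.add (Nat.add (Nat.add (Nat.add (Nat.add (Nat.add (Nat.add (Nat.add (Nat.add C x49746) x55578) x53634) x54282) x54066) x54138) x54114) x54126) x54118) (Nat.mul x54120 (nat_lit 5))) x34438)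
    (Nat.sub (Nat.sub (Nat.add (Nat.add (Nat.add (Nat.add (Nat.add (Nat.add (Nat.add C x49752) x55584) x53640) x54288) x54072) x54144) x54120) (Nat.mul x54126 (nat_lit 6))) x34444)
    (Nat.sub (Nat.sub (Nat.add (Nat.add (Nat.add (Nat.add (Nat.add (Nat.add (Nat.add C x49762) x55594) x53650) x54298) x54082) x54118) x54138) (Nat.mul x54136 (nat_lit 2))) x34454)
    (Nat.sub (Nat.sub (Nat.add (Nat.add (Nat.add (Nat.add (Nat.add (Nat.add (Nat.add (Nat.add C x49764) x55596) x53652) x54300) x54084) x54120) x54144) x54136) (Nat.mul x54138 (nat_lit 4))) x34456)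
    (Nat.sub (Nat.sub (Nat.add (Nat.add (Nat.add (Nat.add (Nat.add (Nat.add (Nat.add (Nat.add C x49770) x55602) x53658) x54306) x54090) x54126) x54162) x54138) (Nat.mul x54144 (nat_lit 3))) x34462)
    (Nat.sub (Nat.sub (Nat.add (Nat.add (Nat.add (Nat.add (Nat.add C x49788) x55620) x53676) x54324) x54144) (Nat.mul x54162 (nat_lit 2))) x34480)
    (Nat.add (Nat.add (Nat.add (Nat.add (Nat.add (Nat.add (Nat.add C (Nat.mul x54194 (nat_lit 2))) x49820) x55652) x53708) x54032) x54200) x54196)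
    (Nat.sub (Nat.add (Nat.add (Nat.add (Nat.add (Nat.add (Nat.add C x49822) x55654) x53710) x54034) x54202) x54194) x34514)
    (Nat.add (Nat.add (Nat.add (Nat.add (Nat.add (Nat.add (Nat.add C x49826) x55658) x53714) x54038) x54218) x54194) x54202)
    (Nat.sub (Nat.add (Nat.add (Nat.add (Nat.add (Nat.add (Nat.add (Nat.add (Nat.add (Nat.add C x49828) x55660) x53716) x54040) x54220) x54196) x54208) x54200) x54204) x34520)
    (Nat.sub (Nat.sub (Nat.add (Nat.add (Nat.add (Nat.add (Nat.add (Nat.add (Nat.add C x49830) x55662) x53718) x54042) x54222) x54210) x54202) (Nat.mul x54204 (nat_lit 2))) x34522)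
    (Nat.sub (Nat.sub (Nat.add (Nat.add (Nat.add (Nat.add (Nat.add (Nat.add (Nat.add C x49834) x55666) x53722) x54046) x54226) x54202) x54210) (Nat.mul x54208 (nat_lit 2))) x34526)
    (Nat.sub (Nat.sub (Nat.add (Nat.add (Nat.add (Nat.add (Nat.add (Nat.add (Nat.add C x49836) x55668) x53724) x54048) x54228) x54204) x54208) (Nat.mul x54210 (nat_lit 2))) x34528)
    (Nat.add (Nat.add (Nat.add (Nat.add (Nat.add (Nat.add (Nat.add C x49844) x55676) x53732) x54056) x54272) x54200) x54220)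
    (Nat.sub (Nat.sub (Nat.add (Nat.add (Nat.add (Nat.add (Nat.add (Nat.add (Nat.add (Nat.add (Nat.add C x49846) x55678) x53734) x54058) x54274) x54202) x54226) x54218) x54222) x54220) x34538)
    (Nat.sub (Nat.sub (Nat.add (Nat.add (Nat.add (Nat.add (Nat.add (Nat.add (Nat.add (Nat.add C x49848) x55680) x53736) x54060) x54276) x54204) x54228) x54220) (Nat.mul x54222 (nat_lit 4))) x34540)
    (Nat.sub (Nat.sub (Nat.add (Nat.add (Nat.add (Nat.add (Nat.add (Nat.add (Nat.add (Nat.add (Nat.add C x49852) x55684) x53740) x54064) x54280) x54208) x54244) x54220) x54228) x54226) x34544)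
    (Nat.sub (Nat.sub (Nat.add (Nat.add (Nat.add (Nat.add (Nat.add (Nat.add (Nat.add (Nat.add (Nat.add (Nat.add C x49854) x55686) x53742) x54066) x54282) x54210) x54246) x54222) x54234) x54226) (Nat.mul x54228 (nat_lit 2))) x34546)
    (Nat.sub (Nat.sub (Nat.add (Nat.add (Nat.add (Nat.add (Nat.add (Nat.add (Nat.add C x49860) x55692) x53748) x54072) x54288) x54252) x54228) (Nat.mul x54234 (nat_lit 2))) x34552)
    (Nat.sub (Nat.sub (Nat.add (Nat.add (Nat.add (Nat.add (Nat.add (Nat.add (Nat.add C x49870) x55702) x53758) x54082) x54298) x54226) x54246) (Nat.mul x54244 (nat_lit 2))) x34562)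
    (Nat.sub (Nat.sub (Nat.add (Nat.add (Nat.add (Nat.add (Nat.add (Nat.add (Nat.add (Nat.add C x49872) x55704) x53760) x54084) x54300) x54228) x54252) x54244) (Nat.mul x54246 (nat_lit 4))) x34564)
    (Nat.sub (Nat.sub (Nat.add (Nat.add (Nat.add (Nat.add (Nat.add (Nat.add (Nat.add C x49878) x55710) x53766) x54090) x54306) x54234) x54246) (Nat.mul x54252 (nat_lit 2))) x34570)
    (Nat.add (Nat.add (Nat.add (Nat.add (Nat.add (Nat.add (Nat.add (Nat.add C x54272) x49898) x55730) x53786) x54110) x54434) x54218) x54274)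
    (Nat.sub (Nat.add (Nat.add (Nat.add (Nat.add (Nat.add (Nat.add (Nat.add (Nat.add (Nat.add C x49900) x55732) x53788) x54112) x54436) x54220) x54280) x54272) x54276) x34592)
    (Nat.sub (Nat.sub (Nat.add (Nat.add (Nat.add (Nat.add (Nat.add (Nat.add (Nat.add (Nat.add C x49902) x55734) x53790) x54114) x54438) x54222) x54282) x54274) (Nat.mul x54276 (nat_lit 3))) x34594)
    (Nat.sub (Nat.sub (Nat.add (Nat.add (Nat.add (Nat.add (Nat.add (Nat.add (Nat.add (Nat.add (Nat.add C x49906) x55738) x53794) x54118) x54442) x54226) x54298) x54274) x54282) x54280) x34598)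
    (Nat.sub (Nat.sub (Nat.add (Nat.add (Nat.add (Nat.add (Nat.add (Nat.add (Nat.add (Nat.add (Nat.add (Nat.add C x49908) x55740) x53796) x54120) x54444) x54228) x54300) x54276) x54288) x54280) (Nat.mul x54282 (nat_lit 2))) x34600)
    (Nat.sub (Nat.sub (Nat.add (Nat.add (Nat.add (Nat.add (Nat.add (Nat.add (Nat.add (Nat.add C x49914) x55746) x53802) x54126) x54450) x54234) x54306) x54282) (Nat.mul x54288 (nat_lit 3))) x34606)
    (Nat.sub (Nat.add (Nat.add (Nat.add (Nat.add (Nat.add (Nat.add (Nat.add (Nat.add (Nat.add C x49924) x55756) x53812) x54136) x54460) x54244) x54352) x54280) x54300) x34616)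
    (Nat.sub (Nat.sub (Nat.add (Nat.add (Nat.add (Nat.add (Nat.add (Nat.add (Nat.add (Nat.add (Nat.add (Nat.add C x49926) x55758) x53814) x54138) x54462) x54246) x54354) x54282) x54306) x54298) (Nat.mul x54300 (nat_lit 2))) x34618)
    (Nat.sub (Nat.sub (Nat.add (Nat.add (Nat.add (Nat.add (Nat.add (Nat.add (Nat.add (Nat.add (Nat.add (Nat.add C x49932) x55764) x53820) x54144) x54468) x54252) x54360) x54288) x54324) x54300) x54306) x34624)
    (Nat.sub (Nat.sub (Nat.add (Nat.add (Nat.add (Nat.add (Nat.add (Nat.add (Nat.add C x49950) x55782) x53838) x54162) x54486) x54378) x54306) x54324) x34642)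
    (Nat.sub (Nat.add (Nat.add (Nat.add (Nat.add (Nat.add (Nat.add C x49978) x55810) x53866) x54514) x54298) x54354) x34670)
    (Nat.sub (Nat.sub (Nat.add (Nat.add (Nat.add (Nat.add (Nat.add (Nat.add (Nat.add C x49980) x55812) x53868) x54516) x54300) x54360) x54352) (Nat.mul x54354 (nat_lit 2))) x34672)
    (Nat.sub (Nat.sub (Nat.add (Nat.add (Nat.add (Nat.add (Nat.add (Nat.add (Nat.add C x49986) x55818) x53874) x54522) x54306) x54378) x54354) (Nat.mul x54360 (nat_lit 2))) x34678)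
    (Nat.sub (Nat.add (Nat.add (Nat.add (Nat.add (Nat.add (Nat.add C x50004) x55836) x53892) x54540) x54324) x54360) x34696)
    (Nat.add (Nat.add (Nat.add (Nat.add (Nat.add C (Nat.mul x54434 (nat_lit 2))) x50060) x55892) x54272) x54436)
    (Nat.sub (Nat.add (Nat.add (Nat.add (Nat.add (Nat.add (Nat.add (Nat.add C x54436) x50062) x55894) x54274) x54442) x54434) x54438) x34754)
    (Nat.sub (Nat.sub (Nat.add (Nat.add (Nat.add (Nat.add (Nat.add C x50064) x55896) x54276) x54444) x54436) (Nat.mul x54438 (nat_lit 2))) x34756)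
    (Nat.sub (Nat.add (Nat.add (Nat.add (Nat.add (Nat.add (Nat.add C x50068) x55900) x54280) x54460) x54436) x54444) x34760)
    (Nat.sub (Nat.sub (Nat.add (Nat.add (Nat.add (Nat.add (Nat.add (Nat.add (Nat.add C x50070) x55902) x54282) x54462) x54438) x54450) x54442) x54444) x34762)
    (Nat.sub (Nat.sub (Nat.add (Nat.add (Nat.add (Nat.add (Nat.add C x50076) x55908) x54288) x54468) x54444) (Nat.mul x54450 (nat_lit 2))) x34768)
    (Nat.sub (Nat.add (Nat.add (Nat.add (Nat.add (Nat.add (Nat.add C x50086) x55918) x54298) x54514) x54442) x54462) x34778)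
    (Nat.sub (Nat.sub (Nat.add (Nat.add (Nat.add (Nat.add (Nat.add (Nat.add (Nat.add C x50088) x55920) x54300) x54516) x54444) x54468) x54460) (Nat.mul x54462 (nat_lit 2))) x34780)
    (Nat.sub (Nat.sub (Nat.add (Nat.add (Nat.add (Nat.add (Nat.add (Nat.add (Nat.add C x50094) x55926) x54306) x54522) x54450) x54486) x54462) x54468) x34786)
    (Nat.sub (Nat.sub (Nat.add (Nat.add (Nat.add (Nat.add (Nat.add C x50112) x55944) x54324) x54540) x54468) (Nat.mul x54486 (nat_lit 2))) x34804)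
    (Nat.sub (Nat.add (Nat.add (Nat.add (Nat.add (Nat.add (Nat.add C (Nat.mul x54514 (nat_lit 2))) x50140) x55972) x54352) x54460) x54516) x34832)
    (Nat.sub (Nat.add (Nat.add (Nat.add (Nat.add (Nat.add (Nat.add C x50142) x55974) x54354) x54462) x54522) x54514) x34834)
    (Nat.sub (Nat.add (Nat.add (Nat.add (Nat.add (Nat.add (Nat.add C x50148) x55980) x54360) x54468) x54540) x54516) x34840)
    (Nat.sub (Nat.add (Nat.add (Nat.add (Nat.add (Nat.add (Nat.add (Nat.add C x54540) x50166) x55998) x54378) x54486) x54594) x54522) x34858)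
    (Nat.sub (Nat.add (Nat.add (Nat.add (Nat.add C (Nat.mul x54594 (nat_lit 2))) x50220) x56052) x54540) x34912)
    (Nat.add (Nat.add (Nat.add (Nat.add (Nat.add C (Nat.mul x54692 (nat_lit 6))) x50318) x53234) x54710) x54698)
    (Nat.add (Nat.add (Nat.add (Nat.add (Nat.add (Nat.add C (Nat.mul x54698 (nat_lit 4))) x50324) x53240) x54716) x54692) x54700)
    (Nat.sub (Nat.add (Nat.add (Nat.add (Nat.add (Nat.add C (Nat.mul x54700 (nat_lit 4))) x50326) x53242) x54718) x54698) x35018)
    (Nat.add (Nat.add (Nat.add (Nat.add (Nat.add (Nat.add C (Nat.mul x54710 (nat_lit 4))) x50336) x53252) x54764) x54692) x54716)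
    (Nat.add (Nat.add (Nat.add (Nat.add (Nat.add (Nat.add (Nat.add (Nat.add (Nat.add C (Nat.mul x54716 (nat_lit 4))) x50342) x53258) x54770) x54698) x54734) x54710) x54722) x54718)
    (Nat.sub (Nat.add (Nat.add (Nat.add (Nat.add (Nat.add (Nat.add (Nat.add (Nat.add C (Nat.mul x54718 (nat_lit 3))) x50344) x53260) x54772) x54700) x54736) x54724) x54716) x35036)
    (Nat.add (Nat.add (Nat.add (Nat.add (Nat.add (Nat.add (Nat.add C (Nat.mul x54722 (nat_lit 2))) x50348) x53264) x54776) x54740) x54716) x54724)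
    (Nat.sub (Nat.add (Nat.add (Nat.add (Nat.add (Nat.add (Nat.add (Nat.add (Nat.add C (Nat.mul x54724 (nat_lit 3))) x50350) x53266) x54778) x54742) x54718) x54722) x54726) x35042)
    (Nat.sub (Nat.add (Nat.add (Nat.add (Nat.add (Nat.add (Nat.add C (Nat.mul x54726 (nat_lit 2))) x50352) x53268) x54780) x54744) x54724) x35044)
    (Nat.add (Nat.add (Nat.add (Nat.add (Nat.add (Nat.add (Nat.add C (Nat.mul x54734 (nat_lit 2))) x50360) x53276) x54788) x54716) x54740) x54736)
    (Nat.sub (Nat.add (Nat.add (Nat.add (Nat.add (Nat.add (Nat.add C x50362) x53278) x54790) x54718) x54742) x54734) x35054)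
    (Nat.add (Nat.add (Nat.add (Nat.add (Nat.add (Nat.add (Nat.add C (Nat.mul x54740 (nat_lit 2))) x50366) x53282) x54794) x54722) x54734) x54742)
    (Nat.sub (Nat.add (Nat.add (Nat.add (Nat.add (Nat.add (Nat.add (Nat.add (Nat.add (Nat.add C (Nat.mul x54742 (nat_lit 2))) x50368) x53284) x54796) x54724) x54736) x54748) x54740) x54744) x35060)
    (Nat.sub (Nat.add (Nat.add (Nat.add (Nat.add (Nat.add (Nat.add C x50370) x53286) x54798) x54726) x54750) x54742) x35062)
    (Nat.sub (Nat.add (Nat.add (Nat.add (Nat.add (Nat.add (Nat.add C (Nat.mul x54748 (nat_lit 2))) x50374) x53290) x54802) x54742) x54750) x35066)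
    (Nat.sub (Nat.add (Nat.add (Nat.add (Nat.add (Nat.add (Nat.add C (Nat.mul x54750 (nat_lit 2))) x50376) x53292) x54804) x54744) x54748) x35068)
    (Nat.add (Nat.add (Nat.add (Nat.add (Nat.add (Nat.add C (Nat.mul x54764 (nat_lit 4))) x50390) x53306) x54926) x54710) x54770)
    (Nat.add (Nat.add (Nat.add (Nat.add (Nat.add (Nat.add (Nat.add (Nat.add (Nat.add C (Nat.mul x54770 (nat_lit 3))) x50396) x53312) x54932) x54716) x54788) x54764) x54776) x54772)
    (Nat.sub (Nat.add (Nat.add (Nat.add (Nat.add (Nat.add (Nat.add (Nat.add (Nat.add C (Nat.mul x54772 (nat_lit 2))) x50398) x53314) x54934) x54718) x54790) x54778) x54770) x35090)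
    (Nat.add (Nat.add (Nat.add (Nat.add (Nat.add (Nat.add (Nat.add C x50402) x53318) x54938) x54722) x54794) x54770) x54778)
    (Nat.sub (Nat.add (Nat.add (Nat.add (Nat.add (Nat.add (Nat.add (Nat.add (Nat.add (Nat.add C x54778) x50404) x53320) x54940) x54724) x54796) x54772) x54776) x54780) x35096)
    (Nat.sub (Nat.add (Nat.add (Nat.add (Nat.add (Nat.add (Nat.add C x50406) x53322) x54942) x54726) x54798) x54778) x35098)
    (Nat.add (Nat.add (Nat.add (Nat.add (Nat.add (Nat.add (Nat.add (Nat.add (Nat.add C (Nat.mul x54788 (nat_lit 3))) x50414) x53330) x54950) x54734) x54842) x54770) x54794) x54790)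
    (Nat.sub (Nat.add (Nat.add (Nat.add (Nat.add (Nat.add (Nat.add (Nat.add (Nat.add (Nat.add C x54790) x50416) x53332) x54952) x54736) x54844) x54772) x54796) x54788) x35108)
    (Nat.add (Nat.add (Nat.add (Nat.add (Nat.add (Nat.add (Nat.add (Nat.add (Nat.add (Nat.add C (Nat.mul x54794 (nat_lit 2))) x50420) x53336) x54956) x54740) x54848) x54776) x54812) x54788) x54796)
    (Nat.sub (Nat.add (Nat.add (Nat.add (Nat.add (Nat.add (Nat.add (Nat.add (Nat.add (Nat.add (Nat.add (Nat.add (Nat.add C (Nat.mul x54796 (nat_lit 2))) x50422) x53338) x54958) x54742) x54850) x54778) x54814) x54790) x54802) x54794) x54798) x35114)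
    (Nat.sub (Nat.add (Nat.add (Nat.add (Nat.add (Nat.add (Nat.add (Nat.add (Nat.add (Nat.add C x50424) x53340) x54960) x54744) x54852) x54780) x54816) x54804) x54796) x35116)
    (Nat.sub (Nat.add (Nat.add (Nat.add (Nat.add (Nat.add (Nat.add (Nat.add (Nat.add (Nat.add C x54802) x50428) x53344) x54964) x54748) x54856) x54820) x54796) x54804) x35120)
    (Nat.sub (Nat.add (Nat.add (Nat.add (Nat.add (Nat.add (Nat.add (Nat.add (Nat.add (Nat.add C x54804) x50430) x53346) x54966) x54750) x54858) x54822) x54798) x54802) x35122)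
    (Nat.add (Nat.add (Nat.add (Nat.add (Nat.add (Nat.add (Nat.add C (Nat.mul x54812 (nat_lit 2))) x50438) x53354) x54974) x54866) x54794) x54814)
    (Nat.sub (Nat.add (Nat.add (Nat.add (Nat.add (Nat.add (Nat.add (Nat.add (Nat.add (Nat.add C x54814) x50440) x53356) x54976) x54868) x54796) x54820) x54812) x54816) x35132)
    (Nat.sub (Nat.sub (Nat.add (Nat.add (Nat.add (Nat.add (Nat.add (Nat.add (Nat.add C x50442) x53358) x54978) x54870) x54798) x54822) x54814) (Nat.mul x54816 (nat_lit 2))) x35134)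
    (Nat.sub (Nat.add (Nat.add (Nat.add (Nat.add (Nat.add (Nat.add (Nat.add (Nat.add C (Nat.mul x54820 (nat_lit 2))) x50446) x53362) x54982) x54874) x54802) x54814) x54822) x35138)
    (Nat.sub (Nat.add (Nat.add (Nat.add (Nat.add (Nat.add (Nat.add (Nat.add (Nat.add (Nat.add C x54822) x50448) x53364) x54984) x54876) x54804) x54816) x54828) x54820) x35140)
    (Nat.sub (Nat.add (Nat.add (Nat.add (Nat.add (Nat.add (Nat.add C (Nat.mul x54828 (nat_lit 2))) x50454) x53370) x54990) x54882) x54822) x35146)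
    (Nat.add (Nat.add (Nat.add (Nat.add (Nat.add (Nat.add (Nat.add C (Nat.mul x54842 (nat_lit 2))) x50468) x53384) x55004) x54788) x54848) x54844)
    (Nat.sub (Nat.add (Nat.add (Nat.add (Nat.add (Nat.add (Nat.add C x50470) x53386) x55006) x54790) x54850) x54842) x35162)
    (Nat.add (Nat.add (Nat.add (Nat.add (Nat.add (Nat.add (Nat.add C x50474) x53390) x55010) x54794) x54866) x54842) x54850)
    (Nat.sub (Nat.add (Nat.add (Nat.add (Nat.add (Nat.add (Nat.add (Nat.add (Nat.add (Nat.add C x50476) x53392) x55012) x54796) x54868) x54844) x54856) x54848) x54852) x35168)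
    (Nat.sub (Nat.sub (Nat.add (Nat.add (Nat.add (Nat.add (Nat.add (Nat.add (Nat.add C x50478) x53394) x55014) x54798) x54870) x54858) x54850) (Nat.mul x54852 (nat_lit 2))) x35170)
    (Nat.sub (Nat.sub (Nat.add (Nat.add (Nat.add (Nat.add (Nat.add (Nat.add (Nat.add C x50482) x53398) x55018) x54802) x54874) x54850) x54858) (Nat.mul x54856 (nat_lit 2))) x35174)
    (Nat.sub (Nat.sub (Nat.add (Nat.add (Nat.add (Nat.add (Nat.add (Nat.add (Nat.add C x50484) x53400) x55020) x54804) x54876) x54852) x54856) (Nat.mul x54858 (nat_lit 2))) x35176)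
    (Nat.add (Nat.add (Nat.add (Nat.add (Nat.add (Nat.add (Nat.add C (Nat.mul x54866 (nat_lit 2))) x50492) x53408) x55028) x54812) x54848) x54868)
    (Nat.sub (Nat.add (Nat.add (Nat.add (Nat.add (Nat.add (Nat.add (Nat.add (Nat.add (Nat.add C x54868) x50494) x53410) x55030) x54814) x54850) x54874) x54866) x54870) x35186)
    (Nat.sub (Nat.sub (Nat.add (Nat.add (Nat.add (Nat.add (Nat.add (Nat.add (Nat.add C x50496) x53412) x55032) x54816) x54852) x54876) x54868) (Nat.mul x54870 (nat_lit 2))) x35188)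
    (Nat.sub (Nat.add (Nat.add (Nat.add (Nat.add (Nat.add (Nat.add (Nat.add (Nat.add (Nat.add C x54874) x50500) x53416) x55036) x54820) x54856) x54892) x54868) x54876) x35192)
    (Nat.sub (Nat.add (Nat.add (Nat.add (Nat.add (Nat.add (Nat.add (Nat.add (Nat.add (Nat.add C x50502) x53418) x55038) x54822) x54858) x54894) x54870) x54882) x54874) x35194)
    (Nat.sub (Nat.add (Nat.add (Nat.add (Nat.add (Nat.add (Nat.add C x50508) x53424) x55044) x54828) x54900) x54876) x35200)
    (Nat.sub (Nat.add (Nat.add (Nat.add (Nat.add (Nat.add (Nat.add C (Nat.mul x54892 (nat_lit 2))) x50518) x53434) x55054) x54874) x54894) x35210)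
    (Nat.sub (Nat.add (Nat.add (Nat.add (Nat.add (Nat.add (Nat.add C x50520) x53436) x55056) x54876) x54900) x54892) x35212)
    (Nat.sub (Nat.add (Nat.add (Nat.add (Nat.add (Nat.add (Nat.add C (Nat.mul x54900 (nat_lit 2))) x50526) x53442) x55062) x54882) x54894) x35218)
    (Nat.add (Nat.add (Nat.add (Nat.add (Nat.add (Nat.add C (Nat.mul x54926 (nat_lit 4))) x50552) x53468) x55412) x54764) x54932)
    (Nat.add (Nat.add (Nat.add (Nat.add (Nat.add (Nat.add (Nat.add (Nat.add (Nat.add C (Nat.mul x54932 (nat_lit 3))) x50558) x53474) x55418) x54770) x54950) x54926) x54938) x54934)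
    (Nat.sub (Nat.add (Nat.add (Nat.add (Nat.add (Nat.add (Nat.add (Nat.add (Nat.add C (Nat.mul x54934 (nat_lit 2))) x50560) x53476) x55420) x54772) x54952) x54940) x54932) x35252)
    (Nat.add (Nat.add (Nat.add (Nat.add (Nat.add (Nat.add (Nat.add C x50564) x53480) x55424) x54776) x54956) x54932) x54940)
    (Nat.sub (Nat.add (Nat.add (Nat.add (Nat.add (Nat.add (Nat.add (Nat.add (Nat.add (Nat.add C x54940) x50566) x53482) x55426) x54778) x54958) x54934) x54938) x54942) x35258)
    (Nat.sub (Nat.add (Nat.add (Nat.add (Nat.add (Nat.add (Nat.add C x50568) x53484) x55428) x54780) x54960) x54940) x35260)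
    (Nat.add (Nat.add (Nat.add (Nat.add (Nat.add (Nat.add (Nat.add (Nat.add (Nat.add C (Nat.mul x54950 (nat_lit 2))) x50576) x53492) x55436) x54788) x55004) x54932) x54956) x54952)
    (Nat.sub (Nat.add (Nat.add (Nat.add (Nat.add (Nat.add (Nat.add (Nat.add (Nat.add C x50578) x53494) x55438) x54790) x55006) x54934) x54958) x54950) x35270)
    (Nat.add (Nat.add (Nat.add (Nat.add (Nat.add (Nat.add (Nat.add (Nat.add (Nat.add (Nat.add C x54956) x50582) x53498) x55442) x54794) x55010) x54938) x54974) x54950) x54958)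
    (Nat.sub (Nat.add (Nat.add (Nat.add (Nat.add (Nat.add (Nat.add (Nat.add (Nat.add (Nat.add (Nat.add (Nat.add (Nat.add C x54958) x50584) x53500) x55444) x54796) x55012) x54940) x54976) x54952) x54964) x54956) x54960) x35276)
    (Nat.sub (Nat.sub (Nat.add (Nat.add (Nat.add (Nat.add (Nat.add (Nat.add (Nat.add (Nat.add (Nat.add C x50586) x53502) x55446) x54798) x55014) x54942) x54978) x54966) x54958) x54960) x35278)
    (Nat.sub (Nat.add (Nat.add (Nat.add (Nat.add (Nat.add (Nat.add (Nat.add (Nat.add C x50590) x53506) x55450) x54802) x55018) x54982) x54958) x54966) x35282)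
    (Nat.sub (Nat.add (Nat.add (Nat.add (Nat.add (Nat.add (Nat.add (Nat.add (Nat.add C x50592) x53508) x55452) x54804) x55020) x54984) x54960) x54964) x35284)
    (Nat.add (Nat.add (Nat.add (Nat.add (Nat.add (Nat.add (Nat.add C x50600) x53516) x55460) x54812) x55028) x54956) x54976)
    (Nat.sub (Nat.sub (Nat.add (Nat.add (Nat.add (Nat.add (Nat.add (Nat.add (Nat.add (Nat.add (Nat.add C x50602) x53518) x55462) x54814) x55030) x54958) x54982) x54974) x54978) x54976) x35294)
    (Nat.sub (Nat.sub (Nat.add (Nat.add (Nat.add (Nat.add (Nat.add (Nat.add (Nat.add (Nat.add C x50604) x53520) x55464) x54816) x55032) x54960) x54984) x54976) (Nat.mul x54978 (nat_lit 4))) x35296)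
    (Nat.sub (Nat.add (Nat.add (Nat.add (Nat.add (Nat.add (Nat.add (Nat.add (Nat.add C x50608) x53524) x55468) x54820) x55036) x54964) x54976) x54984) x35300)
    (Nat.sub (Nat.sub (Nat.add (Nat.add (Nat.add (Nat.add (Nat.add (Nat.add (Nat.add (Nat.add (Nat.add C x50610) x53526) x55470) x54822) x55038) x54966) x54978) x54990) x54982) x54984) x35302)
    (Nat.sub (Nat.add (Nat.add (Nat.add (Nat.add (Nat.add (Nat.add C x50616) x53532) x55476) x54828) x55044) x54984) x35308)
    (Nat.add (Nat.add (Nat.add (Nat.add (Nat.add (Nat.add (Nat.add (Nat.add (Nat.add C (Nat.mul x55004 (nat_lit 3))) x50630) x53546) x55490) x54842) x55166) x54950) x55010) x55006)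
    (Nat.sub (Nat.add (Nat.add (Nat.add (Nat.add (Nat.add (Nat.add (Nat.add (Nat.add (Nat.add C x55006) x50632) x53548) x55492) x54844) x55168) x54952) x55012) x55004) x35324)
    (Nat.add (Nat.add (Nat.add (Nat.add (Nat.add (Nat.add (Nat.add (Nat.add (Nat.add (Nat.add C x55010) x50636) x53552) x55496) x54848) x55172) x54956) x55028) x55004) x55012)
    (Nat.sub (Nat.add (Nat.add (Nat.add (Nat.add (Nat.add (Nat.add (Nat.add (Nat.add (Nat.add (Nat.add (Nat.add (Nat.add C x55012) x50638) x53554) x55498) x54850) x55174) x54958) x55030) x55006) x55018) x55010) x55014) x35330)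
    (Nat.sub (Nat.sub (Nat.add (Nat.add (Nat.add (Nat.add (Nat.add (Nat.add (Nat.add (Nat.add (Nat.add C x50640) x53556) x55500) x54852) x55176) x54960) x55032) x55020) x55012) x55014) x35332)
    (Nat.sub (Nat.sub (Nat.add (Nat.add (Nat.add (Nat.add (Nat.add (Nat.add (Nat.add (Nat.add (Nat.add C x50644) x53560) x55504) x54856) x55180) x54964) x55036) x55012) x55020) x55018) x35336)
    (Nat.sub (Nat.sub (Nat.add (Nat.add (Nat.add (Nat.add (Nat.add (Nat.add (Nat.add (Nat.add (Nat.add C x50646) x53562) x55506) x54858) x55182) x54966) x55038) x55014) x55018) x55020) x35338)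
    (Nat.add (Nat.add (Nat.add (Nat.add (Nat.add (Nat.add (Nat.add (Nat.add (Nat.add (Nat.add C (Nat.mul x55028 (nat_lit 2))) x50654) x53570) x55514) x54866) x55190) x54974) x55082) x55010) x55030)
    (Nat.sub (Nat.add (Nat.add (Nat.add (Nat.add (Nat.add (Nat.add (Nat.add (Nat.add (Nat.add (Nat.add (Nat.add (Nat.add C x55030) x50656) x53572) x55516) x54868) x55192) x54976) x55084) x55012) x55036) x55028) x55032) x35348)
    (Nat.sub (Nat.sub (Nat.add (Nat.add (Nat.add (Nat.add (Nat.add (Nat.add (Nat.add (Nat.add (Nat.add (Nat.add C x50658) x53574) x55518) x54870) x55194) x54978) x55086) x55014) x55038) x55030) (Nat.mul x55032 (nat_lit 2))) x35350)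
    (Nat.sub (Nat.add (Nat.add (Nat.add (Nat.add (Nat.add (Nat.add (Nat.add (Nat.add (Nat.add (Nat.add (Nat.add (Nat.add C x55036) x50662) x53578) x55522) x54874) x55198) x54982) x55090) x55018) x55054) x55030) x55038) x35354)
    (Nat.sub (Nat.add (Nat.add (Nat.add (Nat.add (Nat.add (Nat.add (Nat.add (Nat.add (Nat.add (Nat.add (Nat.add (Nat.add C x50664) x53580) x55524) x54876) x55200) x54984) x55092) x55020) x55056) x55032) x55044) x55036) x35356)
    (Nat.sub (Nat.add (Nat.add (Nat.add (Nat.add (Nat.add (Nat.add (Nat.add (Nat.add (Nat.add C x50670) x53586) x55530) x54882) x55206) x54990) x55098) x55062) x55038) x35362)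
    (Nat.sub (Nat.add (Nat.add (Nat.add (Nat.add (Nat.add (Nat.add (Nat.add (Nat.add (Nat.add C x55054) x50680) x53596) x55540) x54892) x55216) x55108) x55036) x55056) x35372)
    (Nat.sub (Nat.sub (Nat.add (Nat.add (Nat.add (Nat.add (Nat.add (Nat.add (Nat.add (Nat.add (Nat.add C x50682) x53598) x55542) x54894) x55218) x55110) x55038) x55062) x55054) x55056) x35374)
    (Nat.sub (Nat.add (Nat.add (Nat.add (Nat.add (Nat.add (Nat.add (Nat.add (Nat.add (Nat.add C x55062) x50688) x53604) x55548) x54900) x55224) x55116) x55044) x55056) x35380)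
    (Nat.add (Nat.add (Nat.add (Nat.add (Nat.add (Nat.add (Nat.add C (Nat.mul x55082 (nat_lit 2))) x50708) x53624) x55568) x55244) x55028) x55084)
    (Nat.sub (Nat.add (Nat.add (Nat.add (Nat.add (Nat.add (Nat.add (Nat.add (Nat.add (Nat.add C x55084) x50710) x53626) x55570) x55246) x55030) x55090) x55082) x55086) x35402)
    (Nat.sub (Nat.sub (Nat.add (Nat.add (Nat.add (Nat.add (Nat.add (Nat.add (Nat.add C x50712) x53628) x55572) x55248) x55032) x55092) x55084) (Nat.mul x55086 (nat_lit 2))) x35404)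
    (Nat.sub (Nat.add (Nat.add (Nat.add (Nat.add (Nat.add (Nat.add (Nat.add (Nat.add C x50716) x53632) x55576) x55252) x55036) x55108) x55084) x55092) x35408)
    (Nat.sub (Nat.sub (Nat.add (Nat.add (Nat.add (Nat.add (Nat.add (Nat.add (Nat.add (Nat.add (Nat.add C x50718) x53634) x55578) x55254) x55038) x55110) x55086) x55098) x55090) x55092) x35410)
    (Nat.sub (Nat.sub (Nat.add (Nat.add (Nat.add (Nat.add (Nat.add (Nat.add (Nat.add C x50724) x53640) x55584) x55260) x55044) x55116) x55092) (Nat.mul x55098 (nat_lit 2))) x35416)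
    (Nat.sub (Nat.add (Nat.add (Nat.add (Nat.add (Nat.add (Nat.add (Nat.add (Nat.add C (Nat.mul x55108 (nat_lit 2))) x50734) x53650) x55594) x55270) x55054) x55090) x55110) x35426)
    (Nat.sub (Nat.add (Nat.add (Nat.add (Nat.add (Nat.add (Nat.add (Nat.add (Nat.add C x50736) x53652) x55596) x55272) x55056) x55092) x55116) x55108) x35428)
    (Nat.sub (Nat.add (Nat.add (Nat.add (Nat.add (Nat.add (Nat.add (Nat.add (Nat.add (Nat.add C x55116) x50742) x53658) x55602) x55278) x55062) x55098) x55134) x55110) x35434)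
    (Nat.sub (Nat.add (Nat.add (Nat.add (Nat.add (Nat.add (Nat.add C (Nat.mul x55134 (nat_lit 2))) x50760) x53676) x55620) x55296) x55116) x35452)
    (Nat.add (Nat.add (Nat.add (Nat.add (Nat.add (Nat.add (Nat.add C (Nat.mul x55166 (nat_lit 2))) x50792) x53708) x55652) x55004) x55172) x55168)
    (Nat.sub (Nat.add (Nat.add (Nat.add (Nat.add (Nat.add (Nat.add C x50794) x53710) x55654) x55006) x55174) x55166) x35486)
    (Nat.add (Nat.add (Nat.add (Nat.add (Nat.add (Nat.add (Nat.add C x50798) x53714) x55658) x55010) x55190) x55166) x55174)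
    (Nat.sub (Nat.add (Nat.add (Nat.add (Nat.add (Nat.add (Nat.add (Nat.add (Nat.add (Nat.add C x50800) x53716) x55660) x55012) x55192) x55168) x55180) x55172) x55176) x35492)
    (Nat.sub (Nat.sub (Nat.add (Nat.add (Nat.add (Nat.add (Nat.add (Nat.add (Nat.add C x50802) x53718) x55662) x55014) x55194) x55182) x55174) (Nat.mul x55176 (nat_lit 2))) x35494)
    (Nat.sub (Nat.sub (Nat.add (Nat.add (Nat.add (Nat.add (Nat.add (Nat.add (Nat.add C x50806) x53722) x55666) x55018) x55198) x55174) x55182) (Nat.mul x55180 (nat_lit 2))) x35498)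
    (Nat.sub (Nat.sub (Nat.add (Nat.add (Nat.add (Nat.add (Nat.add (Nat.add (Nat.add C x50808) x53724) x55668) x55020) x55200) x55176) x55180) (Nat.mul x55182 (nat_lit 2))) x35500)
    (Nat.add (Nat.add (Nat.add (Nat.add (Nat.add (Nat.add (Nat.add C x50816) x53732) x55676) x55028) x55244) x55172) x55192)
    (Nat.sub (Nat.sub (Nat.add (Nat.add (Nat.add (Nat.add (Nat.add (Nat.add (Nat.add (Nat.add (Nat.add C x50818) x53734) x55678) x55030) x55246) x55174) x55198) x55190) x55194) x55192) x35510)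
    (Nat.sub (Nat.sub (Nat.add (Nat.add (Nat.add (Nat.add (Nat.add (Nat.add (Nat.add (Nat.add C x50820) x53736) x55680) x55032) x55248) x55176) x55200) x55192) (Nat.mul x55194 (nat_lit 4))) x35512)
    (Nat.sub (Nat.sub (Nat.add (Nat.add (Nat.add (Nat.add (Nat.add (Nat.add (Nat.add (Nat.add (Nat.add C x50824) x53740) x55684) x55036) x55252) x55180) x55216) x55192) x55200) x55198) x35516)
    (Nat.sub (Nat.sub (Nat.add (Nat.add (Nat.add (Nat.add (Nat.add (Nat.add (Nat.add (Nat.add (Nat.add (Nat.add C x50826) x53742) x55686) x55038) x55254) x55182) x55218) x55194) x55206) x55198) (Nat.mul x55200 (nat_lit 2))) x35518)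
    (Nat.sub (Nat.sub (Nat.add (Nat.add (Nat.add (Nat.add (Nat.add (Nat.add (Nat.add C x50832) x53748) x55692) x55044) x55260) x55224) x55200) (Nat.mul x55206 (nat_lit 2))) x35524)
    (Nat.sub (Nat.sub (Nat.add (Nat.add (Nat.add (Nat.add (Nat.add (Nat.add (Nat.add C x50842) x53758) x55702) x55054) x55270) x55198) x55218) (Nat.mul x55216 (nat_lit 2))) x35534)
    (Nat.sub (Nat.sub (Nat.add (Nat.add (Nat.add (Nat.add (Nat.add (Nat.add (Nat.add (Nat.add C x50844) x53760) x55704) x55056) x55272) x55200) x55224) x55216) (Nat.mul x55218 (nat_lit 4))) x35536)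
    (Nat.sub (Nat.sub (Nat.add (Nat.add (Nat.add (Nat.add (Nat.add (Nat.add (Nat.add C x50850) x53766) x55710) x55062) x55278) x55206) x55218) (Nat.mul x55224 (nat_lit 2))) x35542)
    (Nat.add (Nat.add (Nat.add (Nat.add (Nat.add (Nat.add (Nat.add C (Nat.mul x55244 (nat_lit 2))) x50870) x53786) x55730) x55082) x55190) x55246)
    (Nat.sub (Nat.add (Nat.add (Nat.add (Nat.add (Nat.add (Nat.add (Nat.add (Nat.add (Nat.add C x55246) x50872) x53788) x55732) x55084) x55192) x55252) x55244) x55248) x35564)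
    (Nat.sub (Nat.sub (Nat.add (Nat.add (Nat.add (Nat.add (Nat.add (Nat.add (Nat.add C x50874) x53790) x55734) x55086) x55194) x55254) x55246) (Nat.mul x55248 (nat_lit 2))) x35566)
    (Nat.sub (Nat.add (Nat.add (Nat.add (Nat.add (Nat.add (Nat.add (Nat.add (Nat.add C x50878) x53794) x55738) x55090) x55198) x55270) x55246) x55254) x35570)
    (Nat.sub (Nat.sub (Nat.add (Nat.add (Nat.add (Nat.add (Nat.add (Nat.add (Nat.add (Nat.add (Nat.add C x50880) x53796) x55740) x55092) x55200) x55272) x55248) x55260) x55252) x55254) x35572)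
    (Nat.sub (Nat.sub (Nat.add (Nat.add (Nat.add (Nat.add (Nat.add (Nat.add (Nat.add C x50886) x53802) x55746) x55098) x55206) x55278) x55254) (Nat.mul x55260 (nat_lit 2))) x35578)
    (Nat.sub (Nat.add (Nat.add (Nat.add (Nat.add (Nat.add (Nat.add (Nat.add (Nat.add (Nat.add C x55270) x50896) x53812) x55756) x55108) x55216) x55324) x55252) x55272) x35588)
    (Nat.sub (Nat.sub (Nat.add (Nat.add (Nat.add (Nat.add (Nat.add (Nat.add (Nat.add (Nat.add (Nat.add C x50898) x53814) x55758) x55110) x55218) x55326) x55254) x55278) x55270) x55272) x35590)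
    (Nat.sub (Nat.add (Nat.add (Nat.add (Nat.add (Nat.add (Nat.add (Nat.add (Nat.add (Nat.add C x50904) x53820) x55764) x55116) x55224) x55332) x55260) x55296) x55272) x35596)
    (Nat.sub (Nat.add (Nat.add (Nat.add (Nat.add (Nat.add (Nat.add C x50922) x53838) x55782) x55134) x55350) x55278) x35614)
    (Nat.sub (Nat.add (Nat.add (Nat.add (Nat.add (Nat.add (Nat.add C (Nat.mul x55324 (nat_lit 2))) x50950) x53866) x55810) x55270) x55326) x35642)
    (Nat.sub (Nat.add (Nat.add (Nat.add (Nat.add (Nat.add (Nat.add C x50952) x53868) x55812) x55272) x55332) x55324) x35644)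
    (Nat.sub (Nat.add (Nat.add (Nat.add (Nat.add (Nat.add (Nat.add C x50958) x53874) x55818) x55278) x55350) x55326) x35650)
    (Nat.sub (Nat.add (Nat.add (Nat.add (Nat.add (Nat.add (Nat.add C (Nat.mul x55350 (nat_lit 2))) x50976) x53892) x55836) x55296) x55332) x35668)
    (Nat.add (Nat.add (Nat.add (Nat.add (Nat.add (Nat.add C (Nat.mul x55412 (nat_lit 5))) x51038) x53954) x56870) x54926) x55418)
    (Nat.add (Nat.add (Nat.add (Nat.add (Nat.add (Nat.add (Nat.add (Nat.add (Nat.add C (Nat.mul x55418 (nat_lit 4))) x51044) x53960) x56876) x54932) x55436) x55412) x55424) x55420)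
    (Nat.sub (Nat.add (Nat.add (Nat.add (Nat.add (Nat.add (Nat.add (Nat.add (Nat.add C (Nat.mul x55420 (nat_lit 3))) x51046) x53962) x56878) x54934) x55438) x55426) x55418) x35738)
    (Nat.add (Nat.add (Nat.add (Nat.add (Nat.add (Nat.add (Nat.add (Nat.add C x55424) x51050) x53966) x56882) x54938) x55442) x55418) x55426)
    (Nat.sub (Nat.add (Nat.add (Nat.add (Nat.add (Nat.add (Nat.add (Nat.add (Nat.add (Nat.add C (Nat.mul x55426 (nat_lit 2))) x51052) x53968) x56884) x54940) x55444) x55420) x55424) x55428) x35744)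
    (Nat.sub (Nat.add (Nat.add (Nat.add (Nat.add (Nat.add (Nat.add (Nat.add C x55428) x51054) x53970) x56886) x54942) x55446) x55426) x35746)
    (Nat.add (Nat.add (Nat.add (Nat.add (Nat.add (Nat.add (Nat.add (Nat.add (Nat.add C (Nat.mul x55436 (nat_lit 3))) x51062) x53978) x56894) x54950) x55490) x55418) x55442) x55438)
    (Nat.sub (Nat.add (Nat.add (Nat.add (Nat.add (Nat.add (Nat.add (Nat.add (Nat.add (Nat.add C x55438) x51064) x53980) x56896) x54952) x55492) x55420) x55444) x55436) x35756)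
    (Nat.add (Nat.add (Nat.add (Nat.add (Nat.add (Nat.add (Nat.add (Nat.add (Nat.add (Nat.add C (Nat.mul x55442 (nat_lit 2))) x51068) x53984) x56900) x54956) x55496) x55424) x55460) x55436) x55444)
    (Nat.sub (Nat.add (Nat.add (Nat.add (Nat.add (Nat.add (Nat.add (Nat.add (Nat.add (Nat.add (Nat.add (Nat.add (Nat.add C (Nat.mul x55444 (nat_lit 2))) x51070) x53986) x56902) x54958) x55498) x55426) x55462) x55438) x55450) x55442) x55446) x35762)
    (Nat.sub (Nat.add (Nat.add (Nat.add (Nat.add (Nat.add (Nat.add (Nat.add (Nat.add (Nat.add C x51072) x53988) x56904) x54960) x55500) x55428) x55464) x55452) x55444) x35764)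
    (Nat.sub (Nat.add (Nat.add (Nat.add (Nat.add (Nat.add (Nat.add (Nat.add (Nat.add (Nat.add C x55450) x51076) x53992) x56908) x54964) x55504) x55468) x55444) x55452) x35768)
    (Nat.sub (Nat.add (Nat.add (Nat.add (Nat.add (Nat.add (Nat.add (Nat.add (Nat.add (Nat.add C x55452) x51078) x53994) x56910) x54966) x55506) x55470) x55446) x55450) x35770)
    (Nat.add (Nat.add (Nat.add (Nat.add (Nat.add (Nat.add (Nat.add (Nat.add C x55460) x51086) x54002) x56918) x54974) x55514) x55442) x55462)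
    (Nat.sub (Nat.add (Nat.add (Nat.add (Nat.add (Nat.add (Nat.add (Nat.add (Nat.add (Nat.add C x51088) x54004) x56920) x54976) x55516) x55444) x55468) x55460) x55464) x35780)
    (Nat.sub (Nat.sub (Nat.add (Nat.add (Nat.add (Nat.add (Nat.add (Nat.add (Nat.add (Nat.add C x51090) x54006) x56922) x54978) x55518) x55446) x55470) x55462) (Nat.mul x55464 (nat_lit 3))) x35782)
    (Nat.sub (Nat.add (Nat.add (Nat.add (Nat.add (Nat.add (Nat.add (Nat.add (Nat.add (Nat.add C x55468) x51094) x54010) x56926) x54982) x55522) x55450) x55462) x55470) x35786)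
    (Nat.sub (Nat.add (Nat.add (Nat.add (Nat.add (Nat.add (Nat.add (Nat.add (Nat.add (Nat.add C x51096) x54012) x56928) x54984) x55524) x55452) x55464) x55476) x55468) x35788)
    (Nat.sub (Nat.add (Nat.add (Nat.add (Nat.add (Nat.add (Nat.add (Nat.add C x55476) x51102) x54018) x56934) x54990) x55530) x55470) x35794)
    (Nat.add (Nat.add (Nat.add (Nat.add (Nat.add (Nat.add (Nat.add (Nat.add (Nat.add C (Nat.mul x55490 (nat_lit 3))) x51116) x54032) x56948) x55004) x55652) x55436) x55496) x55492)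
    (Nat.sub (Nat.add (Nat.add (Nat.add (Nat.add (Nat.add (Nat.add (Nat.add (Nat.add (Nat.add C x55492) x51118) x54034) x56950) x55006) x55654) x55438) x55498) x55490) x35810)
    (Nat.add (Nat.add (Nat.add (Nat.add (Nat.add (Nat.add (Nat.add (Nat.add (Nat.add (Nat.add C x55496) x51122) x54038) x56954) x55010) x55658) x55442) x55514) x55490) x55498)
    (Nat.sub (Nat.add (Nat.add (Nat.add (Nat.add (Nat.add (Nat.add (Nat.add (Nat.add (Nat.add (Nat.add (Nat.add (Nat.add C x55498) x51124) x54040) x56956) x55012) x55660) x55444) x55516) x55492) x55504) x55496) x55500) x35816)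
    (Nat.sub (Nat.sub (Nat.add (Nat.add (Nat.add (Nat.add (Nat.add (Nat.add (Nat.add (Nat.add (Nat.add C x51126) x54042) x56958) x55014) x55662) x55446) x55518) x55506) x55498) x55500) x35818)
    (Nat.sub (Nat.sub (Nat.add (Nat.add (Nat.add (Nat.add (Nat.add (Nat.add (Nat.add (Nat.add (Nat.add C x51130) x54046) x56962) x55018) x55666) x55450) x55522) x55498) x55506) x55504) x35822)
    (Nat.sub (Nat.sub (Nat.add (Nat.add (Nat.add (Nat.add (Nat.add (Nat.add (Nat.add (Nat.add (Nat.add C x51132) x54048) x56964) x55020) x55668) x55452) x55524) x55500) x55504) x55506) x35824)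
    (Nat.add (Nat.add (Nat.add (Nat.add (Nat.add (Nat.add (Nat.add (Nat.add (Nat.add (Nat.add C (Nat.mul x55514 (nat_lit 2))) x51140) x54056) x56972) x55028) x55676) x55460) x55568) x55496) x55516)
    (Nat.sub (Nat.add (Nat.add (Nat.add (Nat.add (Nat.add (Nat.add (Nat.add (Nat.add (Nat.add (Nat.add (Nat.add (Nat.add C x55516) x51142) x54058) x56974) x55030) x55678) x55462) x55570) x55498) x55522) x55514) x55518) x35834)
    (Nat.sub (Nat.sub (Nat.add (Nat.add (Nat.add (Nat.add (Nat.add (Nat.add (Nat.add (Nat.add (Nat.add (Nat.add C x51144) x54060) x56976) x55032) x55680) x55464) x55572) x55500) x55524) x55516) (Nat.mul x55518 (nat_lit 2))) x35836)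
    (Nat.sub (Nat.add (Nat.add (Nat.add (Nat.add (Nat.add (Nat.add (Nat.add (Nat.add (Nat.add (Nat.add (Nat.add (Nat.add C x55522) x51148) x54064) x56980) x55036) x55684) x55468) x55576) x55504) x55540) x55516) x55524) x35840)
    (Nat.sub (Nat.add (Nat.add (Nat.add (Nat.add (Nat.add (Nat.add (Nat.add (Nat.add (Nat.add (Nat.add (Nat.add (Nat.add C x51150) x54066) x56982) x55038) x55686) x55470) x55578) x55506) x55542) x55518) x55530) x55522) x35842)
    (Nat.sub (Nat.add (Nat.add (Nat.add (Nat.add (Nat.add (Nat.add (Nat.add (Nat.add (Nat.add C x51156) x54072) x56988) x55044) x55692) x55476) x55584) x55548) x55524) x35848)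
    (Nat.sub (Nat.add (Nat.add (Nat.add (Nat.add (Nat.add (Nat.add (Nat.add (Nat.add (Nat.add C x55540) x51166) x54082) x56998) x55054) x55702) x55594) x55522) x55542) x35858)
    (Nat.sub (Nat.sub (Nat.add (Nat.add (Nat.add (Nat.add (Nat.add (Nat.add (Nat.add (Nat.add (Nat.add C x51168) x54084) x57000) x55056) x55704) x55596) x55524) x55548) x55540) x55542) x35860)
    (Nat.sub (Nat.add (Nat.add (Nat.add (Nat.add (Nat.add (Nat.add (Nat.add (Nat.add (Nat.add C x55548) x51174) x54090) x57006) x55062) x55710) x55602) x55530) x55542) x35866)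
    (Nat.add (Nat.add (Nat.add (Nat.add (Nat.add (Nat.add (Nat.add (Nat.add C x55568) x51194) x54110) x57026) x55082) x55730) x55514) x55570)
    (Nat.sub (Nat.add (Nat.add (Nat.add (Nat.add (Nat.add (Nat.add (Nat.add (Nat.add (Nat.add C x51196) x54112) x57028) x55084) x55732) x55516) x55576) x55568) x55572) x35888)
    (Nat.sub (Nat.sub (Nat.add (Nat.add (Nat.add (Nat.add (Nat.add (Nat.add (Nat.add (Nat.add C x51198) x54114) x57030) x55086) x55734) x55518) x55578) x55570) (Nat.mul x55572 (nat_lit 3))) x35890)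
    (Nat.sub (Nat.sub (Nat.add (Nat.add (Nat.add (Nat.add (Nat.add (Nat.add (Nat.add (Nat.add (Nat.add C x51202) x54118) x57034) x55090) x55738) x55522) x55594) x55570) x55578) x55576) x35894)
    (Nat.sub (Nat.sub (Nat.add (Nat.add (Nat.add (Nat.add (Nat.add (Nat.add (Nat.add (Nat.add (Nat.add (Nat.add C x51204) x54120) x57036) x55092) x55740) x55524) x55596) x55572) x55584) x55576) (Nat.mul x55578 (nat_lit 2))) x35896)
    (Nat.sub (Nat.sub (Nat.add (Nat.add (Nat.add (Nat.add (Nat.add (Nat.add (Nat.add (Nat.add C x51210) x54126) x57042) x55098) x55746) x55530) x55602) x55578) (Nat.mul x55584 (nat_lit 3))) x35902)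
    (Nat.sub (Nat.add (Nat.add (Nat.add (Nat.add (Nat.add (Nat.add (Nat.add (Nat.add (Nat.add C x55594) x51220) x54136) x57052) x55108) x55756) x55540) x55576) x55596) x35912)
    (Nat.sub (Nat.sub (Nat.add (Nat.add (Nat.add (Nat.add (Nat.add (Nat.add (Nat.add (Nat.add (Nat.add C x51222) x54138) x57054) x55110) x55758) x55542) x55578) x55602) x55594) x55596) x35914)
    (Nat.sub (Nat.add (Nat.add (Nat.add (Nat.add (Nat.add (Nat.add (Nat.add (Nat.add (Nat.add C x51228) x54144) x57060) x55116) x55764) x55548) x55584) x55620) x55596) x35920)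
    (Nat.sub (Nat.add (Nat.add (Nat.add (Nat.add (Nat.add (Nat.add (Nat.add C x55620) x51246) x54162) x57078) x55134) x55782) x55602) x35938)
    (Nat.add (Nat.add (Nat.add (Nat.add (Nat.add (Nat.add (Nat.add (Nat.add (Nat.add C (Nat.mul x55652 (nat_lit 4))) x51278) x54194) x57110) x55166) x56138) x55490) x55658) x55654)
    (Nat.sub (Nat.add (Nat.add (Nat.add (Nat.add (Nat.add (Nat.add (Nat.add (Nat.add (Nat.add C (Nat.mul x55654 (nat_lit 2))) x51280) x54196) x57112) x55168) x56140) x55492) x55660) x55652) x35972)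
    (Nat.add (Nat.add (Nat.add (Nat.add (Nat.add (Nat.add (Nat.add (Nat.add (Nat.add (Nat.add C (Nat.mul x55658 (nat_lit 2))) x51284) x54200) x57116) x55172) x56144) x55496) x55676) x55652) x55660)
    (Nat.sub (Nat.add (Nat.add (Nat.add (Nat.add (Nat.add (Nat.add (Nat.add (Nat.add (Nat.add (Nat.add (Nat.add (Nat.add C (Nat.mul x55660 (nat_lit 2))) x51286) x54202) x57118) x55174) x56146) x55498) x55678) x55654) x55666) x55658) x55662) x35978)
    (Nat.sub (Nat.add (Nat.add (Nat.add (Nat.add (Nat.add (Nat.add (Nat.add (Nat.add (Nat.add C x51288) x54204) x57120) x55176) x56148) x55500) x55680) x55668) x55660) x35980)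
    (Nat.sub (Nat.add (Nat.add (Nat.add (Nat.add (Nat.add (Nat.add (Nat.add (Nat.add (Nat.add C x51292) x54208) x57124) x55180) x56152) x55504) x55684) x55660) x55668) x35984)
    (Nat.sub (Nat.add (Nat.add (Nat.add (Nat.add (Nat.add (Nat.add (Nat.add (Nat.add (Nat.add C x51294) x54210) x57126) x55182) x56154) x55506) x55686) x55662) x55666) x35986)
    (Nat.add (Nat.add (Nat.add (Nat.add (Nat.add (Nat.add (Nat.add (Nat.add (Nat.add (Nat.add C (Nat.mul x55676 (nat_lit 2))) x51302) x54218) x57134) x55190) x56162) x55514) x55730) x55658) x55678)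
    (Nat.sub (Nat.add (Nat.add (Nat.add (Nat.add (Nat.add (Nat.add (Nat.add (Nat.add (Nat.add (Nat.add (Nat.add (Nat.add C x55678) x51304) x54220) x57136) x55192) x56164) x55516) x55732) x55660) x55684) x55676) x55680) x35996)
    (Nat.sub (Nat.sub (Nat.add (Nat.add (Nat.add (Nat.add (Nat.add (Nat.add (Nat.add (Nat.add (Nat.add (Nat.add C x51306) x54222) x57138) x55194) x56166) x55518) x55734) x55662) x55686) x55678) (Nat.mul x55680 (nat_lit 2))) x35998)
    (Nat.sub (Nat.add (Nat.add (Nat.add (Nat.add (Nat.add (Nat.add (Nat.add (Nat.add (Nat.add (Nat.add (Nat.add (Nat.add C x55684) x51310) x54226) x57142) x55198) x56170) x55522) x55738) x55666) x55702) x55678) x55686) x36002)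
    (Nat.sub (Nat.add (Nat.add (Nat.add (Nat.add (Nat.add (Nat.add (Nat.add (Nat.add (Nat.add (Nat.add (Nat.add (Nat.add C x51312) x54228) x57144) x55200) x56172) x55524) x55740) x55668) x55704) x55680) x55692) x55684) x36004)
    (Nat.sub (Nat.add (Nat.add (Nat.add (Nat.add (Nat.add (Nat.add (Nat.add (Nat.add (Nat.add C x51318) x54234) x57150) x55206) x56178) x55530) x55746) x55710) x55686) x36010)
    (Nat.sub (Nat.add (Nat.add (Nat.add (Nat.add (Nat.add (Nat.add (Nat.add (Nat.add (Nat.add C x51328) x54244) x57160) x55216) x56188) x55540) x55756) x55684) x55704) x36020)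
    (Nat.sub (Nat.sub (Nat.add (Nat.add (Nat.add (Nat.add (Nat.add (Nat.add (Nat.add (Nat.add (Nat.add (Nat.add C x51330) x54246) x57162) x55218) x56190) x55542) x55758) x55686) x55710) x55702) (Nat.mul x55704 (nat_lit 2))) x36022)
    (Nat.sub (Nat.add (Nat.add (Nat.add (Nat.add (Nat.add (Nat.add (Nat.add (Nat.add (Nat.add C x51336) x54252) x57168) x55224) x56196) x55548) x55764) x55692) x55704) x36028)
    (Nat.add (Nat.add (Nat.add (Nat.add (Nat.add (Nat.add (Nat.add (Nat.add (Nat.add (Nat.add C (Nat.mul x55730 (nat_lit 3))) x51356) x54272) x57188) x55244) x56216) x55568) x55892) x55676) x55732)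
    (Nat.sub (Nat.add (Nat.add (Nat.add (Nat.add (Nat.add (Nat.add (Nat.add (Nat.add (Nat.add (Nat.add (Nat.add (Nat.add C (Nat.mul x55732 (nat_lit 2))) x51358) x54274) x57190) x55246) x56218) x55570) x55894) x55678) x55738) x55730) x55734) x36050)
    (Nat.sub (Nat.sub (Nat.add (Nat.add (Nat.add (Nat.add (Nat.add (Nat.add (Nat.add (Nat.add (Nat.add (Nat.add C x51360) x54276) x57192) x55248) x56220) x55572) x55896) x55680) x55740) x55732) x55734) x36052)
    (Nat.sub (Nat.add (Nat.add (Nat.add (Nat.add (Nat.add (Nat.add (Nat.add (Nat.add (Nat.add (Nat.add (Nat.add (Nat.add C x55738) x51364) x54280) x57196) x55252) x56224) x55576) x55900) x55684) x55756) x55732) x55740) x36056)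
    (Nat.sub (Nat.add (Nat.add (Nat.add (Nat.add (Nat.add (Nat.add (Nat.add (Nat.add (Nat.add (Nat.add (Nat.add (Nat.add C x51366) x54282) x57198) x55254) x56226) x55578) x55902) x55686) x55758) x55734) x55746) x55738) x36058)
    (Nat.sub (Nat.sub (Nat.add (Nat.add (Nat.add (Nat.add (Nat.add (Nat.add (Nat.add (Nat.add (Nat.add (Nat.add C x51372) x54288) x57204) x55260) x56232) x55584) x55908) x55692) x55764) x55740) x55746) x36064)
    (Nat.sub (Nat.add (Nat.add (Nat.add (Nat.add (Nat.add (Nat.add (Nat.add (Nat.add (Nat.add (Nat.add (Nat.add (Nat.add C (Nat.mul x55756 (nat_lit 2))) x51382) x54298) x57214) x55270) x56242) x55594) x55918) x55702) x55810) x55738) x55758) x36074)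
    (Nat.sub (Nat.add (Nat.add (Nat.add (Nat.add (Nat.add (Nat.add (Nat.add (Nat.add (Nat.add (Nat.add (Nat.add (Nat.add C x51384) x54300) x57216) x55272) x56244) x55596) x55920) x55704) x55812) x55740) x55764) x55756) x36076)
    (Nat.sub (Nat.add (Nat.add (Nat.add (Nat.add (Nat.add (Nat.add (Nat.add (Nat.add (Nat.add (Nat.add (Nat.add (Nat.add (Nat.add C x55764) x51390) x54306) x57222) x55278) x56250) x55602) x55926) x55710) x55818) x55746) x55782) x55758) x36082)
    (Nat.sub (Nat.add (Nat.add (Nat.add (Nat.add (Nat.add (Nat.add (Nat.add (Nat.add (Nat.add (Nat.add C x55782) x51408) x54324) x57240) x55296) x56268) x55620) x55944) x55836) x55764) x36100)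
    (Nat.sub (Nat.add (Nat.add (Nat.add (Nat.add (Nat.add (Nat.add (Nat.add (Nat.add (Nat.add C (Nat.mul x55810 (nat_lit 2))) x51436) x54352) x57268) x55324) x56296) x55972) x55756) x55812) x36128)
    (Nat.sub (Nat.add (Nat.add (Nat.add (Nat.add (Nat.add (Nat.add (Nat.add (Nat.add (Nat.add C x51438) x54354) x57270) x55326) x56298) x55974) x55758) x55818) x55810) x36130)
    (Nat.sub (Nat.add (Nat.add (Nat.add (Nat.add (Nat.add (Nat.add (Nat.add (Nat.add (Nat.add C x51444) x54360) x57276) x55332) x56304) x55980) x55764) x55836) x55812) x36136)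
    (Nat.sub (Nat.add (Nat.add (Nat.add (Nat.add (Nat.add (Nat.add (Nat.add (Nat.add (Nat.add C (Nat.mul x55836 (nat_lit 2))) x51462) x54378) x57294) x55350) x56322) x55998) x55782) x55818) x36154)
    (Nat.add (Nat.add (Nat.add (Nat.add (Nat.add (Nat.add (Nat.add C (Nat.mul x55892 (nat_lit 3))) x51518) x54434) x57350) x56378) x55730) x55894)
    (Nat.sub (Nat.add (Nat.add (Nat.add (Nat.add (Nat.add (Nat.add (Nat.add (Nat.add (Nat.add C (Nat.mul x55894 (nat_lit 2))) x51520) x54436) x57352) x56380) x55732) x55900) x55892) x55896) x36212)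
    (Nat.sub (Nat.sub (Nat.add (Nat.add (Nat.add (Nat.add (Nat.add (Nat.add (Nat.add C x51522) x54438) x57354) x56382) x55734) x55902) x55894) x55896) x36214)
    (Nat.sub (Nat.add (Nat.add (Nat.add (Nat.add (Nat.add (Nat.add (Nat.add (Nat.add (Nat.add C x55900) x51526) x54442) x57358) x56386) x55738) x55918) x55894) x55902) x36218)
    (Nat.sub (Nat.add (Nat.add (Nat.add (Nat.add (Nat.add (Nat.add (Nat.add (Nat.add (Nat.add C x51528) x54444) x57360) x56388) x55740) x55920) x55896) x55908) x55900) x36220)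
    (Nat.sub (Nat.sub (Nat.add (Nat.add (Nat.add (Nat.add (Nat.add (Nat.add (Nat.add C x51534) x54450) x57366) x56394) x55746) x55926) x55902) x55908) x36226)
    (Nat.sub (Nat.add (Nat.add (Nat.add (Nat.add (Nat.add (Nat.add (Nat.add (Nat.add (Nat.add C x55918) x51544) x54460) x57376) x56404) x55756) x55972) x55900) x55920) x36236)
    (Nat.sub (Nat.sub (Nat.add (Nat.add (Nat.add (Nat.add (Nat.add (Nat.add (Nat.add (Nat.add (Nat.add C x51546) x54462) x57378) x56406) x55758) x55974) x55902) x55926) x55918) x55920) x36238)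
    (Nat.sub (Nat.add (Nat.add (Nat.add (Nat.add (Nat.add (Nat.add (Nat.add (Nat.add (Nat.add C x51552) x54468) x57384) x56412) x55764) x55980) x55908) x55944) x55920) x36244)
    (Nat.sub (Nat.sub (Nat.add (Nat.add (Nat.add (Nat.add (Nat.add (Nat.add (Nat.add C x51570) x54486) x57402) x56430) x55782) x55998) x55926) x55944) x36262)
    (Nat.sub (Nat.add (Nat.add (Nat.add (Nat.add (Nat.add (Nat.add (Nat.add (Nat.add C (Nat.mul x55972 (nat_lit 3))) x51598) x54514) x57430) x56458) x55810) x55918) x55974) x36290)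
    (Nat.sub (Nat.add (Nat.add (Nat.add (Nat.add (Nat.add (Nat.add (Nat.add (Nat.add (Nat.add C x55974) x51600) x54516) x57432) x56460) x55812) x55920) x55980) x55972) x36292)
    (Nat.sub (Nat.add (Nat.add (Nat.add (Nat.add (Nat.add (Nat.add (Nat.add (Nat.add (Nat.add C x55980) x51606) x54522) x57438) x56466) x55818) x55926) x55998) x55974) x36298)
    (Nat.sub (Nat.add (Nat.add (Nat.add (Nat.add (Nat.add (Nat.add (Nat.add (Nat.add (Nat.add C (Nat.mul x55998 (nat_lit 2))) x51624) x54540) x57456) x56484) x55836) x55944) x56052) x55980) x36316)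
    (Nat.sub (Nat.add (Nat.add (Nat.add (Nat.add (Nat.add (Nat.add C (Nat.mul x56052 (nat_lit 3))) x51678) x54594) x57510) x56538) x55998) x36370)
    (Nat.add (Nat.add (Nat.add (Nat.add (Nat.add (Nat.add C (Nat.mul x56138 (nat_lit 4))) x51764) x57596) x55652) x56144) x56140)
    (Nat.sub (Nat.add (Nat.add (Nat.add (Nat.add (Nat.add (Nat.add C (Nat.mul x56140 (nat_lit 2))) x51766) x57598) x55654) x56146) x56138) x36458)
    (Nat.add (Nat.add (Nat.add (Nat.add (Nat.add (Nat.add (Nat.add C (Nat.mul x56144 (nat_lit 2))) x51770) x57602) x55658) x56162) x56138) x56146)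
    (Nat.sub (Nat.add (Nat.add (Nat.add (Nat.add (Nat.add (Nat.add (Nat.add (Nat.add (Nat.add C (Nat.mul x56146 (nat_lit 2))) x51772) x57604) x55660) x56164) x56140) x56152) x56144) x56148) x36464)
    (Nat.sub (Nat.add (Nat.add (Nat.add (Nat.add (Nat.add (Nat.add C x51774) x57606) x55662) x56166) x56154) x56146) x36466)
    (Nat.sub (Nat.add (Nat.add (Nat.add (Nat.add (Nat.add (Nat.add C x51778) x57610) x55666) x56170) x56146) x56154) x36470)
    (Nat.sub (Nat.add (Nat.add (Nat.add (Nat.add (Nat.add (Nat.add C x51780) x57612) x55668) x56172) x56148) x56152) x36472)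
    (Nat.add (Nat.add (Nat.add (Nat.add (Nat.add (Nat.add (Nat.add C (Nat.mul x56162 (nat_lit 2))) x51788) x57620) x55676) x56216) x56144) x56164)
    (Nat.sub (Nat.add (Nat.add (Nat.add (Nat.add (Nat.add (Nat.add (Nat.add (Nat.add (Nat.add C x56164) x51790) x57622) x55678) x56218) x56146) x56170) x56162) x56166) x36482)
    (Nat.sub (Nat.sub (Nat.add (Nat.add (Nat.add (Nat.add (Nat.add (Nat.add (Nat.add C x51792) x57624) x55680) x56220) x56148) x56172) x56164) (Nat.mul x56166 (nat_lit 2))) x36484)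
    (Nat.sub (Nat.add (Nat.add (Nat.add (Nat.add (Nat.add (Nat.add (Nat.add (Nat.add (Nat.add C x56170) x51796) x57628) x55684) x56224) x56152) x56188) x56164) x56172) x36488)
    (Nat.sub (Nat.add (Nat.add (Nat.add (Nat.add (Nat.add (Nat.add (Nat.add (Nat.add (Nat.add C x51798) x57630) x55686) x56226) x56154) x56190) x56166) x56178) x56170) x36490)
    (Nat.sub (Nat.add (Nat.add (Nat.add (Nat.add (Nat.add (Nat.add C x51804) x57636) x55692) x56232) x56196) x56172) x36496)
    (Nat.sub (Nat.add (Nat.add (Nat.add (Nat.add (Nat.add (Nat.add C x51814) x57646) x55702) x56242) x56170) x56190) x36506)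
    (Nat.sub (Nat.sub (Nat.add (Nat.add (Nat.add (Nat.add (Nat.add (Nat.add (Nat.add C x51816) x57648) x55704) x56244) x56172) x56196) x56188) (Nat.mul x56190 (nat_lit 2))) x36508)
    (Nat.sub (Nat.add (Nat.add (Nat.add (Nat.add (Nat.add (Nat.add C x51822) x57654) x55710) x56250) x56178) x56190) x36514)
    (Nat.add (Nat.add (Nat.add (Nat.add (Nat.add (Nat.add (Nat.add C (Nat.mul x56216 (nat_lit 2))) x51842) x57674) x55730) x56378) x56162) x56218)
    (Nat.sub (Nat.add (Nat.add (Nat.add (Nat.add (Nat.add (Nat.add (Nat.add (Nat.add (Nat.add C x56218) x51844) x57676) x55732) x56380) x56164) x56224) x56216) x56220) x36536)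
    (Nat.sub (Nat.sub (Nat.add (Nat.add (Nat.add (Nat.add (Nat.add (Nat.add (Nat.add C x51846) x57678) x55734) x56382) x56166) x56226) x56218) (Nat.mul x56220 (nat_lit 2))) x36538)
    (Nat.sub (Nat.add (Nat.add (Nat.add (Nat.add (Nat.add (Nat.add (Nat.add (Nat.add C x51850) x57682) x55738) x56386) x56170) x56242) x56218) x56226) x36542)
    (Nat.sub (Nat.sub (Nat.add (Nat.add (Nat.add (Nat.add (Nat.add (Nat.add (Nat.add (Nat.add (Nat.add C x51852) x57684) x55740) x56388) x56172) x56244) x56220) x56232) x56224) x56226) x36544)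
    (Nat.sub (Nat.sub (Nat.add (Nat.add (Nat.add (Nat.add (Nat.add (Nat.add (Nat.add C x51858) x57690) x55746) x56394) x56178) x56250) x56226) (Nat.mul x56232 (nat_lit 2))) x36550)
    (Nat.sub (Nat.add (Nat.add (Nat.add (Nat.add (Nat.add (Nat.add (Nat.add (Nat.add (Nat.add C x56242) x51868) x57700) x55756) x56404) x56188) x56296) x56224) x56244) x36560)
    (Nat.sub (Nat.sub (Nat.add (Nat.add (Nat.add (Nat.add (Nat.add (Nat.add (Nat.add (Nat.add (Nat.add C x51870) x57702) x55758) x56406) x56190) x56298) x56226) x56250) x56242) x56244) x36562)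
    (Nat.sub (Nat.add (Nat.add (Nat.add (Nat.add (Nat.add (Nat.add (Nat.add (Nat.add (Nat.add C x51876) x57708) x55764) x56412) x56196) x56304) x56232) x56268) x56244) x36568)
    (Nat.sub (Nat.add (Nat.add (Nat.add (Nat.add (Nat.add (Nat.add C x51894) x57726) x55782) x56430) x56322) x56250) x36586)
    (Nat.sub (Nat.add (Nat.add (Nat.add (Nat.add (Nat.add (Nat.add C x51922) x57754) x55810) x56458) x56242) x56298) x36614)
    (Nat.sub (Nat.sub (Nat.add (Nat.add (Nat.add (Nat.add (Nat.add (Nat.add (Nat.add C x51924) x57756) x55812) x56460) x56244) x56304) x56296) (Nat.mul x56298 (nat_lit 2))) x36616)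
    (Nat.sub (Nat.sub (Nat.add (Nat.add (Nat.add (Nat.add (Nat.add (Nat.add (Nat.add C x51930) x57762) x55818) x56466) x56250) x56322) x56298) (Nat.mul x56304 (nat_lit 2))) x36622)
    (Nat.sub (Nat.add (Nat.add (Nat.add (Nat.add (Nat.add (Nat.add C x51948) x57780) x55836) x56484) x56268) x56304) x36640)
    (Nat.add (Nat.add (Nat.add (Nat.add (Nat.add (Nat.add C (Nat.mul x56378 (nat_lit 4))) x52004) x57836) x55892) x56216) x56380)
    (Nat.sub (Nat.add (Nat.add (Nat.add (Nat.add (Nat.add (Nat.add (Nat.add (Nat.add C (Nat.mul x56380 (nat_lit 3))) x52006) x57838) x55894) x56218) x56386) x56378) x56382) x36698)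
    (Nat.sub (Nat.add (Nat.add (Nat.add (Nat.add (Nat.add (Nat.add C x52008) x57840) x55896) x56220) x56388) x56380) x36700)
    (Nat.sub (Nat.add (Nat.add (Nat.add (Nat.add (Nat.add (Nat.add (Nat.add (Nat.add C (Nat.mul x56386 (nat_lit 2))) x52012) x57844) x55900) x56224) x56404) x56380) x56388) x36704)
    (Nat.sub (Nat.add (Nat.add (Nat.add (Nat.add (Nat.add (Nat.add (Nat.add (Nat.add (Nat.add C x56388) x52014) x57846) x55902) x56226) x56406) x56382) x56394) x56386) x36706)
    (Nat.sub (Nat.add (Nat.add (Nat.add (Nat.add (Nat.add (Nat.add C x52020) x57852) x55908) x56232) x56412) x56388) x36712)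
    (Nat.sub (Nat.add (Nat.add (Nat.add (Nat.add (Nat.add (Nat.add (Nat.add (Nat.add C (Nat.mul x56404 (nat_lit 2))) x52030) x57862) x55918) x56242) x56458) x56386) x56406) x36722)
    (Nat.sub (Nat.add (Nat.add (Nat.add (Nat.add (Nat.add (Nat.add (Nat.add (Nat.add C x52032) x57864) x55920) x56244) x56460) x56388) x56412) x56404) x36724)
    (Nat.sub (Nat.add (Nat.add (Nat.add (Nat.add (Nat.add (Nat.add (Nat.add (Nat.add (Nat.add C x56412) x52038) x57870) x55926) x56250) x56466) x56394) x56430) x56406) x36730)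
    (Nat.sub (Nat.add (Nat.add (Nat.add (Nat.add (Nat.add (Nat.add C x52056) x57888) x55944) x56268) x56484) x56412) x36748)
    (Nat.sub (Nat.add (Nat.add (Nat.add (Nat.add (Nat.add (Nat.add (Nat.add (Nat.add C (Nat.mul x56458 (nat_lit 3))) x52084) x57916) x55972) x56296) x56620) x56404) x56460) x36776)
    (Nat.sub (Nat.add (Nat.add (Nat.add (Nat.add (Nat.add (Nat.add (Nat.add (Nat.add (Nat.add C x56460) x52086) x57918) x55974) x56298) x56622) x56406) x56466) x56458) x36778)
    (Nat.sub (Nat.add (Nat.add (Nat.add (Nat.add (Nat.add (Nat.add (Nat.add (Nat.add (Nat.add C x56466) x52092) x57924) x55980) x56304) x56628) x56412) x56484) x56460) x36784)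
    (Nat.sub (Nat.add (Nat.add (Nat.add (Nat.add (Nat.add (Nat.add (Nat.add (Nat.add (Nat.add C (Nat.mul x56484 (nat_lit 2))) x52110) x57942) x55998) x56322) x56646) x56430) x56538) x56466) x36802)
    (Nat.sub (Nat.add (Nat.add (Nat.add (Nat.add (Nat.add (Nat.add C (Nat.mul x56538 (nat_lit 2))) x52164) x57996) x56052) x56700) x56484) x36856)
    (Nat.sub (Nat.add (Nat.add (Nat.add (Nat.add (Nat.add C (Nat.mul x56620 (nat_lit 4))) x52246) x58078) x56458) x56622) x36938)
    (Nat.sub (Nat.add (Nat.add (Nat.add (Nat.add (Nat.add (Nat.add C (Nat.mul x56622 (nat_lit 2))) x52248) x58080) x56460) x56628) x56620) x36940)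
    (Nat.sub (Nat.add (Nat.add (Nat.add (Nat.add (Nat.add (Nat.add C (Nat.mul x56628 (nat_lit 2))) x52254) x58086) x56466) x56646) x56622) x36946)
    (Nat.sub (Nat.add (Nat.add (Nat.add (Nat.add (Nat.add (Nat.add C (Nat.mul x56646 (nat_lit 2))) x52272) x58104) x56484) x56700) x56628) x36964)
    (Nat.sub (Nat.add (Nat.add (Nat.add (Nat.add (Nat.add C (Nat.mul x56700 (nat_lit 4))) x52326) x58158) x56538) x56646) x37018)
    (Nat.add (Nat.add (Nat.add C (Nat.mul x56870 (nat_lit 6))) x55412) x56876)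
    (Nat.add (Nat.add (Nat.add (Nat.add (Nat.add (Nat.add C (Nat.mul x56876 (nat_lit 5))) x55418) x56894) x56870) x56882) x56878)
    (Nat.sub (Nat.add (Nat.add (Nat.add (Nat.add (Nat.add C (Nat.mul x56878 (nat_lit 4))) x55420) x56896) x56884) x56876) x37196)
    (Nat.add (Nat.add (Nat.add (Nat.add (Nat.add C (Nat.mul x56882 (nat_lit 2))) x55424) x56900) x56876) x56884)
    (Nat.sub (Nat.add (Nat.add (Nat.add (Nat.add (Nat.add (Nat.add C (Nat.mul x56884 (nat_lit 3))) x55426) x56902) x56878) x56882) x56886) x37202)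
    (Nat.sub (Nat.add (Nat.add (Nat.add (Nat.add C (Nat.mul x56886 (nat_lit 2))) x55428) x56904) x56884) x37204)
    (Nat.add (Nat.add (Nat.add (Nat.add (Nat.add (Nat.add C (Nat.mul x56894 (nat_lit 4))) x55436) x56948) x56876) x56900) x56896)
    (Nat.sub (Nat.add (Nat.add (Nat.add (Nat.add (Nat.add (Nat.add C (Nat.mul x56896 (nat_lit 2))) x55438) x56950) x56878) x56902) x56894) x37214)
    (Nat.add (Nat.add (Nat.add (Nat.add (Nat.add (Nat.add (Nat.add C (Nat.mul x56900 (nat_lit 3))) x55442) x56954) x56882) x56918) x56894) x56902)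
    (Nat.sub (Nat.add (Nat.add (Nat.add (Nat.add (Nat.add (Nat.add (Nat.add (Nat.add (Nat.add C (Nat.mul x56902 (nat_lit 3))) x55444) x56956) x56884) x56920) x56896) x56908) x56900) x56904) x37220)
    (Nat.sub (Nat.add (Nat.add (Nat.add (Nat.add (Nat.add (Nat.add (Nat.add C x56904) x55446) x56958) x56886) x56922) x56910) x56902) x37222)
    (Nat.sub (Nat.add (Nat.add (Nat.add (Nat.add (Nat.add (Nat.add C (Nat.mul x56908 (nat_lit 2))) x55450) x56962) x56926) x56902) x56910) x37226)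
    (Nat.sub (Nat.add (Nat.add (Nat.add (Nat.add (Nat.add (Nat.add C (Nat.mul x56910 (nat_lit 2))) x55452) x56964) x56928) x56904) x56908) x37228)
    (Nat.add (Nat.add (Nat.add (Nat.add (Nat.add C (Nat.mul x56918 (nat_lit 2))) x55460) x56972) x56900) x56920)
    (Nat.sub (Nat.add (Nat.add (Nat.add (Nat.add (Nat.add (Nat.add (Nat.add C x56920) x55462) x56974) x56902) x56926) x56918) x56922) x37238)
    (Nat.sub (Nat.sub (Nat.add (Nat.add (Nat.add (Nat.add (Nat.add C x55464) x56976) x56904) x56928) x56920) (Nat.mul x56922 (nat_lit 2))) x37240)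
    (Nat.sub (Nat.add (Nat.add (Nat.add (Nat.add (Nat.add (Nat.add C (Nat.mul x56926 (nat_lit 2))) x55468) x56980) x56908) x56920) x56928) x37244)
    (Nat.sub (Nat.add (Nat.add (Nat.add (Nat.add (Nat.add (Nat.add (Nat.add C x56928) x55470) x56982) x56910) x56922) x56934) x56926) x37246)
    (Nat.sub (Nat.add (Nat.add (Nat.add (Nat.add C (Nat.mul x56934 (nat_lit 2))) x55476) x56988) x56928) x37252)
    (Nat.add (Nat.add (Nat.add (Nat.add (Nat.add (Nat.add C (Nat.mul x56948 (nat_lit 4))) x55490) x57110) x56894) x56954) x56950)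
    (Nat.sub (Nat.add (Nat.add (Nat.add (Nat.add (Nat.add (Nat.add C (Nat.mul x56950 (nat_lit 2))) x55492) x57112) x56896) x56956) x56948) x37268)
    (Nat.add (Nat.add (Nat.add (Nat.add (Nat.add (Nat.add (Nat.add C (Nat.mul x56954 (nat_lit 2))) x55496) x57116) x56900) x56972) x56948) x56956)
    (Nat.sub (Nat.add (Nat.add (Nat.add (Nat.add (Nat.add (Nat.add (Nat.add (Nat.add (Nat.add C (Nat.mul x56956 (nat_lit 2))) x55498) x57118) x56902) x56974) x56950) x56962) x56954) x56958) x37274)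
    (Nat.sub (Nat.add (Nat.add (Nat.add (Nat.add (Nat.add (Nat.add C x55500) x57120) x56904) x56976) x56964) x56956) x37276)
    (Nat.sub (Nat.add (Nat.add (Nat.add (Nat.add (Nat.add (Nat.add C x55504) x57124) x56908) x56980) x56956) x56964) x37280)
    (Nat.sub (Nat.add (Nat.add (Nat.add (Nat.add (Nat.add (Nat.add C x55506) x57126) x56910) x56982) x56958) x56962) x37282)
    (Nat.add (Nat.add (Nat.add (Nat.add (Nat.add (Nat.add (Nat.add C (Nat.mul x56972 (nat_lit 3))) x55514) x57134) x56918) x57026) x56954) x56974)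
    (Nat.sub (Nat.add (Nat.add (Nat.add (Nat.add (Nat.add (Nat.add (Nat.add (Nat.add (Nat.add C (Nat.mul x56974 (nat_lit 2))) x55516) x57136) x56920) x57028) x56956) x56980) x56972) x56976) x37292)
    (Nat.sub (Nat.sub (Nat.add (Nat.add (Nat.add (Nat.add (Nat.add (Nat.add (Nat.add C x55518) x57138) x56922) x57030) x56958) x56982) x56974) x56976) x37294)
    (Nat.sub (Nat.add (Nat.add (Nat.add (Nat.add (Nat.add (Nat.add (Nat.add (Nat.add (Nat.add C (Nat.mul x56980 (nat_lit 2))) x55522) x57142) x56926) x57034) x56962) x56998) x56974) x56982) x37298)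
    (Nat.sub (Nat.add (Nat.add (Nat.add (Nat.add (Nat.add (Nat.add (Nat.add (Nat.add (Nat.add (Nat.add C x56982) x55524) x57144) x56928) x57036) x56964) x57000) x56976) x56988) x56980) x37300)
    (Nat.sub (Nat.add (Nat.add (Nat.add (Nat.add (Nat.add (Nat.add (Nat.add C x56988) x55530) x57150) x56934) x57042) x57006) x56982) x37306)
    (Nat.sub (Nat.add (Nat.add (Nat.add (Nat.add (Nat.add (Nat.add C (Nat.mul x56998 (nat_lit 2))) x55540) x57160) x57052) x56980) x57000) x37316)
    (Nat.sub (Nat.add (Nat.add (Nat.add (Nat.add (Nat.add (Nat.add C x55542) x57162) x57054) x56982) x57006) x56998) x37318)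
    (Nat.sub (Nat.add (Nat.add (Nat.add (Nat.add (Nat.add (Nat.add C (Nat.mul x57006 (nat_lit 2))) x55548) x57168) x57060) x56988) x57000) x37324)
    (Nat.add (Nat.add (Nat.add (Nat.add (Nat.add C (Nat.mul x57026 (nat_lit 2))) x55568) x57188) x56972) x57028)
    (Nat.sub (Nat.add (Nat.add (Nat.add (Nat.add (Nat.add (Nat.add (Nat.add C x57028) x55570) x57190) x56974) x57034) x57026) x57030) x37346)
    (Nat.sub (Nat.sub (Nat.add (Nat.add (Nat.add (Nat.add (Nat.add C x55572) x57192) x56976) x57036) x57028) (Nat.mul x57030 (nat_lit 2))) x37348)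
    (Nat.sub (Nat.add (Nat.add (Nat.add (Nat.add (Nat.add (Nat.add C x55576) x57196) x56980) x57052) x57028) x57036) x37352)
    (Nat.sub (Nat.sub (Nat.add (Nat.add (Nat.add (Nat.add (Nat.add (Nat.add (Nat.add C x55578) x57198) x56982) x57054) x57030) x57042) x57034) x57036) x37354)
    (Nat.sub (Nat.sub (Nat.add (Nat.add (Nat.add (Nat.add (Nat.add C x55584) x57204) x56988) x57060) x57036) (Nat.mul x57042 (nat_lit 2))) x37360)
    (Nat.sub (Nat.add (Nat.add (Nat.add (Nat.add (Nat.add (Nat.add C (Nat.mul x57052 (nat_lit 2))) x55594) x57214) x56998) x57034) x57054) x37370)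
    (Nat.sub (Nat.add (Nat.add (Nat.add (Nat.add (Nat.add (Nat.add C x55596) x57216) x57000) x57036) x57060) x57052) x37372)
    (Nat.sub (Nat.add (Nat.add (Nat.add (Nat.add (Nat.add (Nat.add (Nat.add C x57060) x55602) x57222) x57006) x57042) x57078) x57054) x37378)
    (Nat.sub (Nat.add (Nat.add (Nat.add (Nat.add C (Nat.mul x57078 (nat_lit 2))) x55620) x57240) x57060) x37396)
    (Nat.add (Nat.add (Nat.add (Nat.add (Nat.add (Nat.add C (Nat.mul x57110 (nat_lit 4))) x55652) x57596) x56948) x57116) x57112)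
    (Nat.sub (Nat.add (Nat.add (Nat.add (Nat.add (Nat.add (Nat.add C (Nat.mul x57112 (nat_lit 2))) x55654) x57598) x56950) x57118) x57110) x37430)
    (Nat.add (Nat.add (Nat.add (Nat.add (Nat.add (Nat.add (Nat.add C (Nat.mul x57116 (nat_lit 2))) x55658) x57602) x56954) x57134) x57110) x57118)
    (Nat.sub (Nat.add (Nat.add (Nat.add (Nat.add (Nat.add (Nat.add (Nat.add (Nat.add (Nat.add C (Nat.mul x57118 (nat_lit 2))) x55660) x57604) x56956) x57136) x57112) x57124) x57116) x57120) x37436)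
    (Nat.sub (Nat.add (Nat.add (Nat.add (Nat.add (Nat.add (Nat.add C x55662) x57606) x56958) x57138) x57126) x57118) x37438)
    (Nat.sub (Nat.add (Nat.add (Nat.add (Nat.add (Nat.add (Nat.add C x55666) x57610) x56962) x57142) x57118) x57126) x37442)
    (Nat.sub (Nat.add (Nat.add (Nat.add (Nat.add (Nat.add (Nat.add C x55668) x57612) x56964) x57144) x57120) x57124) x37444)
    (Nat.add (Nat.add (Nat.add (Nat.add (Nat.add (Nat.add (Nat.add C (Nat.mul x57134 (nat_lit 2))) x55676) x57620) x56972) x57188) x57116) x57136)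
    (Nat.sub (Nat.add (Nat.add (Nat.add (Nat.add (Nat.add (Nat.add (Nat.add (Nat.add (Nat.add C x57136) x55678) x57622) x56974) x57190) x57118) x57142) x57134) x57138) x37454)
    (Nat.sub (Nat.sub (Nat.add (Nat.add (Nat.add (Nat.add (Nat.add (Nat.add (Nat.add C x55680) x57624) x56976) x57192) x57120) x57144) x57136) (Nat.mul x57138 (nat_lit 2))) x37456)
    (Nat.sub (Nat.add (Nat.add (Nat.add (Nat.add (Nat.add (Nat.add (Nat.add (Nat.add (Nat.add C x57142) x55684) x57628) x56980) x57196) x57124) x57160) x57136) x57144) x37460)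
    (Nat.sub (Nat.add (Nat.add (Nat.add (Nat.add (Nat.add (Nat.add (Nat.add (Nat.add (Nat.add C x55686) x57630) x56982) x57198) x57126) x57162) x57138) x57150) x57142) x37462)
    (Nat.sub (Nat.add (Nat.add (Nat.add (Nat.add (Nat.add (Nat.add C x55692) x57636) x56988) x57204) x57168) x57144) x37468)
    (Nat.sub (Nat.add (Nat.add (Nat.add (Nat.add (Nat.add (Nat.add C x55702) x57646) x56998) x57214) x57142) x57162) x37478)
    (Nat.sub (Nat.sub (Nat.add (Nat.add (Nat.add (Nat.add (Nat.add (Nat.add (Nat.add C x55704) x57648) x57000) x57216) x57144) x57168) x57160) (Nat.mul x57162 (nat_lit 2))) x37480)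
    (Nat.sub (Nat.add (Nat.add (Nat.add (Nat.add (Nat.add (Nat.add C x55710) x57654) x57006) x57222) x57150) x57162) x37486)
    (Nat.add (Nat.add (Nat.add (Nat.add (Nat.add (Nat.add (Nat.add C (Nat.mul x57188 (nat_lit 3))) x55730) x57674) x57026) x57350) x57134) x57190)
    (Nat.sub (Nat.add (Nat.add (Nat.add (Nat.add (Nat.add (Nat.add (Nat.add (Nat.add (Nat.add C (Nat.mul x57190 (nat_lit 2))) x55732) x57676) x57028) x57352) x57136) x57196) x57188) x57192) x37508)
    (Nat.sub (Nat.sub (Nat.add (Nat.add (Nat.add (Nat.add (Nat.add (Nat.add (Nat.add C x55734) x57678) x57030) x57354) x57138) x57198) x57190) x57192) x37510)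
    (Nat.sub (Nat.add (Nat.add (Nat.add (Nat.add (Nat.add (Nat.add (Nat.add (Nat.add (Nat.add C x57196) x55738) x57682) x57034) x57358) x57142) x57214) x57190) x57198) x37514)
    (Nat.sub (Nat.add (Nat.add (Nat.add (Nat.add (Nat.add (Nat.add (Nat.add (Nat.add (Nat.add C x55740) x57684) x57036) x57360) x57144) x57216) x57192) x57204) x57196) x37516)
    (Nat.sub (Nat.sub (Nat.add (Nat.add (Nat.add (Nat.add (Nat.add (Nat.add (Nat.add C x55746) x57690) x57042) x57366) x57150) x57222) x57198) x57204) x37522)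
    (Nat.sub (Nat.add (Nat.add (Nat.add (Nat.add (Nat.add (Nat.add (Nat.add (Nat.add (Nat.add C (Nat.mul x57214 (nat_lit 2))) x55756) x57700) x57052) x57376) x57160) x57268) x57196) x57216) x37532)
    (Nat.sub (Nat.add (Nat.add (Nat.add (Nat.add (Nat.add (Nat.add (Nat.add (Nat.add (Nat.add C x55758) x57702) x57054) x57378) x57162) x57270) x57198) x57222) x57214) x37534)
    (Nat.sub (Nat.add (Nat.add (Nat.add (Nat.add (Nat.add (Nat.add (Nat.add (Nat.add (Nat.add (Nat.add C x57222) x55764) x57708) x57060) x57384) x57168) x57276) x57204) x57240) x57216) x37540)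
    (Nat.sub (Nat.add (Nat.add (Nat.add (Nat.add (Nat.add (Nat.add (Nat.add C x57240) x55782) x57726) x57078) x57402) x57294) x57222) x37558)
    (Nat.sub (Nat.add (Nat.add (Nat.add (Nat.add (Nat.add (Nat.add C (Nat.mul x57268 (nat_lit 2))) x55810) x57754) x57430) x57214) x57270) x37586)
    (Nat.sub (Nat.add (Nat.add (Nat.add (Nat.add (Nat.add (Nat.add C x55812) x57756) x57432) x57216) x57276) x57268) x37588)
    (Nat.sub (Nat.add (Nat.add (Nat.add (Nat.add (Nat.add (Nat.add C x55818) x57762) x57438) x57222) x57294) x57270) x37594)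
    (Nat.sub (Nat.add (Nat.add (Nat.add (Nat.add (Nat.add (Nat.add C (Nat.mul x57294 (nat_lit 2))) x55836) x57780) x57456) x57240) x57276) x37612)
    (Nat.add (Nat.add (Nat.add (Nat.add (Nat.add C (Nat.mul x57350 (nat_lit 2))) x55892) x57836) x57188) x57352)
    (Nat.sub (Nat.add (Nat.add (Nat.add (Nat.add (Nat.add (Nat.add (Nat.add C x57352) x55894) x57838) x57190) x57358) x57350) x57354) x37670)
    (Nat.sub (Nat.sub (Nat.add (Nat.add (Nat.add (Nat.add (Nat.add C x55896) x57840) x57192) x57360) x57352) (Nat.mul x57354 (nat_lit 2))) x37672)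
    (Nat.sub (Nat.add (Nat.add (Nat.add (Nat.add (Nat.add (Nat.add C x55900) x57844) x57196) x57376) x57352) x57360) x37676)
    (Nat.sub (Nat.sub (Nat.add (Nat.add (Nat.add (Nat.add (Nat.add (Nat.add (Nat.add C x55902) x57846) x57198) x57378) x57354) x57366) x57358) x57360) x37678)
    (Nat.sub (Nat.sub (Nat.add (Nat.add (Nat.add (Nat.add (Nat.add C x55908) x57852) x57204) x57384) x57360) (Nat.mul x57366 (nat_lit 2))) x37684)
    (Nat.sub (Nat.add (Nat.add (Nat.add (Nat.add (Nat.add (Nat.add C x55918) x57862) x57214) x57430) x57358) x57378) x37694)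
    (Nat.sub (Nat.sub (Nat.add (Nat.add (Nat.add (Nat.add (Nat.add (Nat.add (Nat.add C x55920) x57864) x57216) x57432) x57360) x57384) x57376) (Nat.mul x57378 (nat_lit 2))) x37696)
    (Nat.sub (Nat.sub (Nat.add (Nat.add (Nat.add (Nat.add (Nat.add (Nat.add (Nat.add C x55926) x57870) x57222) x57438) x57366) x57402) x57378) x57384) x37702)
    (Nat.sub (Nat.sub (Nat.add (Nat.add (Nat.add (Nat.add (Nat.add C x55944) x57888) x57240) x57456) x57384) (Nat.mul x57402 (nat_lit 2))) x37720)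
    (Nat.sub (Nat.add (Nat.add (Nat.add (Nat.add (Nat.add (Nat.add C (Nat.mul x57430 (nat_lit 2))) x55972) x57916) x57268) x57376) x57432) x37748)
    (Nat.sub (Nat.add (Nat.add (Nat.add (Nat.add (Nat.add (Nat.add C x55974) x57918) x57270) x57378) x57438) x57430) x37750)
    (Nat.sub (Nat.add (Nat.add (Nat.add (Nat.add (Nat.add (Nat.add C x55980) x57924) x57276) x57384) x57456) x57432) x37756)
    (Nat.sub (Nat.add (Nat.add (Nat.add (Nat.add (Nat.add (Nat.add (Nat.add C x57456) x55998) x57942) x57294) x57402) x57510) x57438) x37774)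
    (Nat.sub (Nat.add (Nat.add (Nat.add (Nat.add C (Nat.mul x57510 (nat_lit 2))) x56052) x57996) x57456) x37828)
    (Nat.add (Nat.add (Nat.add (Nat.add (Nat.add C (Nat.mul x57596 (nat_lit 6))) x56138) x57110) x57602) x57598)
    (Nat.sub (Nat.add (Nat.add (Nat.add (Nat.add (Nat.add C (Nat.mul x57598 (nat_lit 4))) x56140) x57112) x57604) x57596) x37916)
    (Nat.add (Nat.add (Nat.add (Nat.add (Nat.add (Nat.add C (Nat.mul x57602 (nat_lit 4))) x56144) x57116) x57620) x57596) x57604)
    (Nat.sub (Nat.add (Nat.add (Nat.add (Nat.add (Nat.add (Nat.add (Nat.add (Nat.add C (Nat.mul x57604 (nat_lit 4))) x56146) x57118) x57622) x57598) x57610) x57602) x57606) x37922)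
    (Nat.sub (Nat.add (Nat.add (Nat.add (Nat.add (Nat.add (Nat.add C (Nat.mul x57606 (nat_lit 2))) x56148) x57120) x57624) x57612) x57604) x37924)
    (Nat.sub (Nat.add (Nat.add (Nat.add (Nat.add (Nat.add (Nat.add C (Nat.mul x57610 (nat_lit 2))) x56152) x57124) x57628) x57604) x57612) x37928)
    (Nat.sub (Nat.add (Nat.add (Nat.add (Nat.add (Nat.add (Nat.add C (Nat.mul x57612 (nat_lit 2))) x56154) x57126) x57630) x57606) x57610) x37930)
    (Nat.add (Nat.add (Nat.add (Nat.add (Nat.add (Nat.add C (Nat.mul x57620 (nat_lit 4))) x56162) x57134) x57674) x57602) x57622)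
    (Nat.sub (Nat.add (Nat.add (Nat.add (Nat.add (Nat.add (Nat.add (Nat.add (Nat.add C (Nat.mul x57622 (nat_lit 3))) x56164) x57136) x57676) x57604) x57628) x57620) x57624) x37940)
    (Nat.sub (Nat.add (Nat.add (Nat.add (Nat.add (Nat.add (Nat.add C x56166) x57138) x57678) x57606) x57630) x57622) x37942)
    (Nat.sub (Nat.add (Nat.add (Nat.add (Nat.add (Nat.add (Nat.add (Nat.add (Nat.add C (Nat.mul x57628 (nat_lit 3))) x56170) x57142) x57682) x57610) x57646) x57622) x57630) x37946)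
    (Nat.sub (Nat.add (Nat.add (Nat.add (Nat.add (Nat.add (Nat.add (Nat.add (Nat.add (Nat.add C (Nat.mul x57630 (nat_lit 2))) x56172) x57144) x57684) x57612) x57648) x57624) x57636) x57628) x37948)
    (Nat.sub (Nat.add (Nat.add (Nat.add (Nat.add (Nat.add (Nat.add C (Nat.mul x57636 (nat_lit 2))) x56178) x57150) x57690) x57654) x57630) x37954)
    (Nat.sub (Nat.add (Nat.add (Nat.add (Nat.add (Nat.add (Nat.add C (Nat.mul x57646 (nat_lit 2))) x56188) x57160) x57700) x57628) x57648) x37964)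
    (Nat.sub (Nat.add (Nat.add (Nat.add (Nat.add (Nat.add (Nat.add C x56190) x57162) x57702) x57630) x57654) x57646) x37966)
    (Nat.sub (Nat.add (Nat.add (Nat.add (Nat.add (Nat.add (Nat.add C (Nat.mul x57654 (nat_lit 2))) x56196) x57168) x57708) x57636) x57648) x37972)
    (Nat.add (Nat.add (Nat.add (Nat.add (Nat.add (Nat.add C (Nat.mul x57674 (nat_lit 4))) x56216) x57188) x57836) x57620) x57676)
    (Nat.sub (Nat.add (Nat.add (Nat.add (Nat.add (Nat.add (Nat.add (Nat.add (Nat.add C (Nat.mul x57676 (nat_lit 3))) x56218) x57190) x57838) x57622) x57682) x57674) x57678) x37994)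
    (Nat.sub (Nat.add (Nat.add (Nat.add (Nat.add (Nat.add (Nat.add C x56220) x57192) x57840) x57624) x57684) x57676) x37996)
    (Nat.sub (Nat.add (Nat.add (Nat.add (Nat.add (Nat.add (Nat.add (Nat.add (Nat.add C (Nat.mul x57682 (nat_lit 2))) x56224) x57196) x57844) x57628) x57700) x57676) x57684) x38000)
    (Nat.sub (Nat.add (Nat.add (Nat.add (Nat.add (Nat.add (Nat.add (Nat.add (Nat.add (Nat.add C x57684) x56226) x57198) x57846) x57630) x57702) x57678) x57690) x57682) x38002)
    (Nat.sub (Nat.add (Nat.add (Nat.add (Nat.add (Nat.add (Nat.add C x56232) x57204) x57852) x57636) x57708) x57684) x38008)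
    (Nat.sub (Nat.add (Nat.add (Nat.add (Nat.add (Nat.add (Nat.add (Nat.add (Nat.add C (Nat.mul x57700 (nat_lit 3))) x56242) x57214) x57862) x57646) x57754) x57682) x57702) x38018)
    (Nat.sub (Nat.add (Nat.add (Nat.add (Nat.add (Nat.add (Nat.add (Nat.add (Nat.add (Nat.add C x57702) x56244) x57216) x57864) x57648) x57756) x57684) x57708) x57700) x38020)
    (Nat.sub (Nat.add (Nat.add (Nat.add (Nat.add (Nat.add (Nat.add (Nat.add (Nat.add (Nat.add C (Nat.mul x57708 (nat_lit 2))) x56250) x57222) x57870) x57654) x57762) x57690) x57726) x57702) x38026)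
    (Nat.sub (Nat.add (Nat.add (Nat.add (Nat.add (Nat.add (Nat.add C (Nat.mul x57726 (nat_lit 2))) x56268) x57240) x57888) x57780) x57708) x38044)
    (Nat.sub (Nat.add (Nat.add (Nat.add (Nat.add (Nat.add (Nat.add C (Nat.mul x57754 (nat_lit 2))) x56296) x57268) x57916) x57700) x57756) x38072)
    (Nat.sub (Nat.add (Nat.add (Nat.add (Nat.add (Nat.add (Nat.add C x56298) x57270) x57918) x57702) x57762) x57754) x38074)
    (Nat.sub (Nat.add (Nat.add (Nat.add (Nat.add (Nat.add (Nat.add C x56304) x57276) x57924) x57708) x57780) x57756) x38080)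
    (Nat.sub (Nat.add (Nat.add (Nat.add (Nat.add (Nat.add (Nat.add C (Nat.mul x57780 (nat_lit 2))) x56322) x57294) x57942) x57726) x57762) x38098)
    (Nat.add (Nat.add (Nat.add (Nat.add (Nat.add (Nat.add C (Nat.mul x57836 (nat_lit 5))) x56378) x57350) x58322) x57674) x57838)
    (Nat.sub (Nat.add (Nat.add (Nat.add (Nat.add (Nat.add (Nat.add (Nat.add (Nat.add C (Nat.mul x57838 (nat_lit 4))) x56380) x57352) x58324) x57676) x57844) x57836) x57840) x38156)
    (Nat.sub (Nat.add (Nat.add (Nat.add (Nat.add (Nat.add (Nat.add (Nat.add C x57840) x56382) x57354) x58326) x57678) x57846) x57838) x38158)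
    (Nat.sub (Nat.add (Nat.add (Nat.add (Nat.add (Nat.add (Nat.add (Nat.add (Nat.add C (Nat.mul x57844 (nat_lit 3))) x56386) x57358) x58330) x57682) x57862) x57838) x57846) x38162)
    (Nat.sub (Nat.add (Nat.add (Nat.add (Nat.add (Nat.add (Nat.add (Nat.add (Nat.add (Nat.add C (Nat.mul x57846 (nat_lit 2))) x56388) x57360) x58332) x57684) x57864) x57840) x57852) x57844) x38164)
    (Nat.sub (Nat.add (Nat.add (Nat.add (Nat.add (Nat.add (Nat.add (Nat.add C x57852) x56394) x57366) x58338) x57690) x57870) x57846) x38170)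
    (Nat.sub (Nat.add (Nat.add (Nat.add (Nat.add (Nat.add (Nat.add (Nat.add (Nat.add C (Nat.mul x57862 (nat_lit 3))) x56404) x57376) x58348) x57700) x57916) x57844) x57864) x38180)
    (Nat.sub (Nat.add (Nat.add (Nat.add (Nat.add (Nat.add (Nat.add (Nat.add (Nat.add (Nat.add C x57864) x56406) x57378) x58350) x57702) x57918) x57846) x57870) x57862) x38182)
    (Nat.sub (Nat.add (Nat.add (Nat.add (Nat.add (Nat.add (Nat.add (Nat.add (Nat.add (Nat.add C (Nat.mul x57870 (nat_lit 2))) x56412) x57384) x58356) x57708) x57924) x57852) x57888) x57864) x38188)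
    (Nat.sub (Nat.add (Nat.add (Nat.add (Nat.add (Nat.add (Nat.add (Nat.add C x57888) x56430) x57402) x58374) x57726) x57942) x57870) x38206)
    (Nat.sub (Nat.add (Nat.add (Nat.add (Nat.add (Nat.add (Nat.add (Nat.add (Nat.add C (Nat.mul x57916 (nat_lit 4))) x56458) x57430) x58402) x57754) x58078) x57862) x57918) x38234)
    (Nat.sub (Nat.add (Nat.add (Nat.add (Nat.add (Nat.add (Nat.add (Nat.add (Nat.add (Nat.add C (Nat.mul x57918 (nat_lit 2))) x56460) x57432) x58404) x57756) x58080) x57864) x57924) x57916) x38236)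
    (Nat.sub (Nat.add (Nat.add (Nat.add (Nat.add (Nat.add (Nat.add (Nat.add (Nat.add (Nat.add C (Nat.mul x57924 (nat_lit 2))) x56466) x57438) x58410) x57762) x58086) x57870) x57942) x57918) x38242)
    (Nat.sub (Nat.add (Nat.add (Nat.add (Nat.add (Nat.add (Nat.add (Nat.add (Nat.add (Nat.add C (Nat.mul x57942 (nat_lit 3))) x56484) x57456) x58428) x57780) x58104) x57888) x57996) x57924) x38260)
    (Nat.sub (Nat.add (Nat.add (Nat.add (Nat.add (Nat.add (Nat.add C (Nat.mul x57996 (nat_lit 3))) x56538) x57510) x58482) x58158) x57942) x38314)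
    (Nat.sub (Nat.add (Nat.add (Nat.add (Nat.add (Nat.add C (Nat.mul x58078 (nat_lit 4))) x56620) x58564) x57916) x58080) x38396)
    (Nat.sub (Nat.add (Nat.add (Nat.add (Nat.add (Nat.add (Nat.add C (Nat.mul x58080 (nat_lit 2))) x56622) x58566) x57918) x58086) x58078) x38398)
    (Nat.sub (Nat.add (Nat.add (Nat.add (Nat.add (Nat.add (Nat.add C (Nat.mul x58086 (nat_lit 2))) x56628) x58572) x57924) x58104) x58080) x38404)
    (Nat.sub (Nat.add (Nat.add (Nat.add (Nat.add (Nat.add (Nat.add C (Nat.mul x58104 (nat_lit 2))) x56646) x58590) x57942) x58158) x58086) x38422)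
    (Nat.sub (Nat.add (Nat.add (Nat.add (Nat.add (Nat.add C (Nat.mul x58158 (nat_lit 4))) x56700) x58644) x57996) x58104) x38476)
    (Nat.add (Nat.add (Nat.add C (Nat.mul x58322 (nat_lit 6))) x57836) x58324)
    (Nat.sub (Nat.add (Nat.add (Nat.add (Nat.add (Nat.add C (Nat.mul x58324 (nat_lit 5))) x57838) x58330) x58322) x58326) x38642)
    (Nat.sub (Nat.add (Nat.add (Nat.add (Nat.add C (Nat.mul x58326 (nat_lit 2))) x57840) x58332) x58324) x38644)
    (Nat.sub (Nat.add (Nat.add (Nat.add (Nat.add (Nat.add C (Nat.mul x58330 (nat_lit 4))) x57844) x58348) x58324) x58332) x38648)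
    (Nat.sub (Nat.add (Nat.add (Nat.add (Nat.add (Nat.add (Nat.add C (Nat.mul x58332 (nat_lit 3))) x57846) x58350) x58326) x58338) x58330) x38650)
    (Nat.sub (Nat.add (Nat.add (Nat.add (Nat.add C (Nat.mul x58338 (nat_lit 2))) x57852) x58356) x58332) x38656)
    (Nat.sub (Nat.add (Nat.add (Nat.add (Nat.add (Nat.add C (Nat.mul x58348 (nat_lit 4))) x57862) x58402) x58330) x58350) x38666)
    (Nat.sub (Nat.add (Nat.add (Nat.add (Nat.add (Nat.add (Nat.add C (Nat.mul x58350 (nat_lit 2))) x57864) x58404) x58332) x58356) x58348) x38668)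
    (Nat.sub (Nat.add (Nat.add (Nat.add (Nat.add (Nat.add (Nat.add C (Nat.mul x58356 (nat_lit 3))) x57870) x58410) x58338) x58374) x58350) x38674)
    (Nat.sub (Nat.add (Nat.add (Nat.add (Nat.add C (Nat.mul x58374 (nat_lit 2))) x57888) x58428) x58356) x38692)
    (Nat.sub (Nat.add (Nat.add (Nat.add (Nat.add (Nat.add C (Nat.mul x58402 (nat_lit 4))) x57916) x58564) x58348) x58404) x38720)
    (Nat.sub (Nat.add (Nat.add (Nat.add (Nat.add (Nat.add (Nat.add C (Nat.mul x58404 (nat_lit 2))) x57918) x58566) x58350) x58410) x58402) x38722)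
    (Nat.sub (Nat.add (Nat.add (Nat.add (Nat.add (Nat.add (Nat.add C (Nat.mul x58410 (nat_lit 2))) x57924) x58572) x58356) x58428) x58404) x38728)
    (Nat.sub (Nat.add (Nat.add (Nat.add (Nat.add (Nat.add (Nat.add C (Nat.mul x58428 (nat_lit 3))) x57942) x58590) x58374) x58482) x58410) x38746)
    (Nat.sub (Nat.add (Nat.add (Nat.add (Nat.add C (Nat.mul x58482 (nat_lit 2))) x57996) x58644) x58428) x38800)
    (Nat.sub (Nat.add (Nat.add (Nat.add (Nat.add C (Nat.mul x58564 (nat_lit 6))) x58078) x58402) x58566) x38882)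
    (Nat.sub (Nat.add (Nat.add (Nat.add (Nat.add (Nat.add C (Nat.mul x58566 (nat_lit 4))) x58080) x58404) x58572) x58564) x38884)
    (Nat.sub (Nat.add (Nat.add (Nat.add (Nat.add (Nat.add C (Nat.mul x58572 (nat_lit 4))) x58086) x58410) x58590) x58566) x38890)
    (Nat.sub (Nat.add (Nat.add (Nat.add (Nat.add (Nat.add C (Nat.mul x58590 (nat_lit 4))) x58104) x58428) x58644) x58572) x38908)
    (Nat.sub (Nat.add (Nat.add (Nat.add (Nat.add (Nat.add C (Nat.mul x58644 (nat_lit 5))) x58158) x58482) x58806) x58590) x38962)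
    (Nat.sub (Nat.add (Nat.add C (Nat.mul x58806 (nat_lit 6))) x58644) x39124)

theorem ap_eq (x : Nat → Nat) (k : FnLL specs) : apLL (fun t => x t.cd) specs k = A10_10.ap x k :=
  Eq.refl (A10_10.ap x k)

theorem step_eq0 (e : Nat → Nat) (C p r : Nat) (k : FnLL specs) (x : Nat → Nat) :
    A10_10.ap x (step e C p r k) = apLL (interp e C p r x) specs k :=
  Eq.refl (A10_10.ap x (step e C p r k))

theorem spec_ok : specOK 9 true A10_10.mask specs = true := by decide +kernel

theorem step_eq (e : Nat → Nat) (C p r : Nat) (k : A10_10.KK) (x : Nat → Nat) :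
    A10_10.ap x (step e C p r k) = A10_10.ap (row 9 true A10_10.mask e C p r x) k :=
  ((step_eq0 e C p r k x).trans (apLL_row 9 true A10_10.mask specs spec_ok e C p r x k)).trans
    (ap_eq (row 9 true A10_10.mask e C p r x) k)

end Vale.Agent.P348.G10_10_1
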