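import Vale.Agent.P348.G.A10_5

set_option maxRecDepth 1000000
set_option maxHeartbeats 0
set_option linter.all false

namespace Vale.Agent.P348.G10_5_1

noncomputable def sp0 : List Spec :=
  [Spec.mk (nat_lit 17) (nat_lit 6) [nat_lit 35, nat_lit 23] (nat_lit 0) [nat_lit 19699] true,
   Spec.mk (nat_lit 23) (nat_lit 4) [nat_lit 41, nat_lit 17, nat_lit 25] (nat_lit 0) [nat_lit 19705] true,
   Spec.mk (nat_lit 25) (nat_lit 6) [nat_lit 43, nat_lit 23] (nat_lit 0) [nat_lit 19707] false,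
   Spec.mk (nat_lit 35) (nat_lit 4) [nat_lit 89, nat_lit 17, nat_lit 41] (nat_lit 0) [nat_lit 19717] true,
   Spec.mk (nat_lit 41) (nat_lit 4) [nat_lit 95, nat_lit 23, nat_lit 59, nat_lit 35, nat_lit 47, nat_lit 43] (nat_lit 0) [nat_lit 19723] true,
   Spec.mk (nat_lit 43) (nat_lit 5) [nat_lit 97, nat_lit 25, nat_lit 61, nat_lit 49, nat_lit 41] (nat_lit 0) [nat_lit 19725] true,
   Spec.mk (nat_lit 47) (nat_lit 2) [nat_lit 101, nat_lit 65, nat_lit 41, nat_lit 49] (nat_lit 0) [nat_lit 19729] true,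
   Spec.mk (nat_lit 49) (nat_lit 5) [nat_lit 103, nat_lit 67, nat_lit 43, nat_lit 47, nat_lit 51] (nat_lit 0) [nat_lit 19731] false,
   Spec.mk (nat_lit 51) (nat_lit 6) [nat_lit 105, nat_lit 69, nat_lit 49] (nat_lit 0) [] false,
   Spec.mk (nat_lit 59) (nat_lit 2) [nat_lit 113, nat_lit 41, nat_lit 65, nat_lit 61] (nat_lit 0) [nat_lit 19741] true,
   Spec.mk (nat_lit 61) (nat_lit 2) [nat_lit 115, nat_lit 43, nat_lit 67, nat_lit 59] (nat_lit 0) [nat_lit 19743] false,
   Spec.mk (nat_lit 65) (nat_lit 2) [nat_lit 119, nat_lit 47, nat_lit 59, nat_lit 67] (nat_lit 0) [nat_lit 19747] false,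
   Spec.mk (nat_lit 67) (nat_lit 4) [nat_lit 121, nat_lit 49, nat_lit 61, nat_lit 73, nat_lit 65, nat_lit 69] (nat_lit 0) [nat_lit 19749] false,
   Spec.mk (nat_lit 69) (nat_lit 4) [nat_lit 123, nat_lit 51, nat_lit 75, nat_lit 67] (nat_lit 0) [] false,
   Spec.mk (nat_lit 73) (nat_lit 4) [nat_lit 127, nat_lit 67, nat_lit 75] (nat_lit 0) [nat_lit 19755] false,
   Spec.mk (nat_lit 75) (nat_lit 6) [nat_lit 129, nat_lit 69, nat_lit 73] (nat_lit 0) [] false,
   Spec.mk (nat_lit 89) (nat_lit 4) [nat_lit 251, nat_lit 35, nat_lit 95] (nat_lit 0) [nat_lit 19771] true,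
   Spec.mk (nat_lit 95) (nat_lit 3) [nat_lit 257, nat_lit 41, nat_lit 113, nat_lit 89, nat_lit 101, nat_lit 97] (nat_lit 0) [nat_lit 19777] true,
   Spec.mk (nat_lit 97) (nat_lit 4) [nat_lit 259, nat_lit 43, nat_lit 115, nat_lit 103, nat_lit 95] (nat_lit 0) [nat_lit 19779] true,
   Spec.mk (nat_lit 101) (nat_lit 0) [nat_lit 263, nat_lit 47, nat_lit 119, nat_lit 95, nat_lit 103] (nat_lit 0) [nat_lit 19783] true,
   Spec.mk (nat_lit 103) (nat_lit 3) [nat_lit 265, nat_lit 49, nat_lit 121, nat_lit 97, nat_lit 101, nat_lit 105] (nat_lit 0) [nat_lit 19785] true,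
   Spec.mk (nat_lit 105) (nat_lit 4) [nat_lit 267, nat_lit 51, nat_lit 123, nat_lit 103] (nat_lit 0) [] false,
   Spec.mk (nat_lit 113) (nat_lit 3) [nat_lit 275, nat_lit 59, nat_lit 167, nat_lit 95, nat_lit 119, nat_lit 115] (nat_lit 0) [nat_lit 19795] true,
   Spec.mk (nat_lit 115) (nat_lit 3) [nat_lit 277, nat_lit 61, nat_lit 169, nat_lit 97, nat_lit 121, nat_lit 113] (nat_lit 0) [nat_lit 19797] true,
   Spec.mk (nat_lit 119) (nat_lit 2) [nat_lit 281, nat_lit 65, nat_lit 173, nat_lit 101, nat_lit 137, nat_lit 113, nat_lit 121] (nat_lit 0) [nat_lit 19801] true,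
   Spec.mk (nat_lit 121) (nat_lit 4) [nat_lit 283, nat_lit 67, nat_lit 175, nat_lit 103, nat_lit 139, nat_lit 115, nat_lit 127, nat_lit 119, nat_lit 123] (nat_lit 0) [nat_lit 19803] true,
   Spec.mk (nat_lit 123) (nat_lit 4) [nat_lit 285, nat_lit 69, nat_lit 177, nat_lit 105, nat_lit 141, nat_lit 129, nat_lit 121] (nat_lit 0) [] false,
   Spec.mk (nat_lit 127) (nat_lit 3) [nat_lit 289, nat_lit 73, nat_lit 181, nat_lit 145, nat_lit 121, nat_lit 129] (nat_lit 0) [nat_lit 19809] false,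
   Spec.mk (nat_lit 129) (nat_lit 5) [nat_lit 291, nat_lit 75, nat_lit 183, nat_lit 147, nat_lit 123, nat_lit 127] (nat_lit 0) [] false,
   Spec.mk (nat_lit 137) (nat_lit 2) [nat_lit 299, nat_lit 191, nat_lit 119, nat_lit 139] (nat_lit 0) [nat_lit 19819] true,
   Spec.mk (nat_lit 139) (nat_lit 3) [nat_lit 301, nat_lit 193, nat_lit 121, nat_lit 145, nat_lit 137, nat_lit 141] (nat_lit 0) [nat_lit 19821] false,
   Spec.mk (nat_lit 141) (nat_lit 2) [nat_lit 303, nat_lit 195, nat_lit 123, nat_lit 147, nat_lit 139] (nat_lit 0) [] false,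
   Spec.mk (nat_lit 145) (nat_lit 4) [nat_lit 307, nat_lit 199, nat_lit 127, nat_lit 139, nat_lit 147] (nat_lit 0) [nat_lit 19827] false,
   Spec.mk (nat_lit 147) (nat_lit 5) [nat_lit 309, nat_lit 201, nat_lit 129, nat_lit 141, nat_lit 153, nat_lit 145] (nat_lit 0) [] false,
   Spec.mk (nat_lit 153) (nat_lit 6) [nat_lit 315, nat_lit 207, nat_lit 147] (nat_lit 0) [] false,
   Spec.mk (nat_lit 167) (nat_lit 2) [nat_lit 329, nat_lit 113, nat_lit 173, nat_lit 169] (nat_lit 0) [nat_lit 19849] true,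
   Spec.mk (nat_lit 169) (nat_lit 2) [nat_lit 331, nat_lit 115, nat_lit 175, nat_lit 167] (nat_lit 0) [nat_lit 19851] false,
   Spec.mk (nat_lit 173) (nat_lit 0) [nat_lit 335, nat_lit 119, nat_lit 191, nat_lit 167, nat_lit 175] (nat_lit 0) [nat_lit 19855] true,
   Spec.mk (nat_lit 175) (nat_lit 2) [nat_lit 337, nat_lit 121, nat_lit 193, nat_lit 169, nat_lit 181, nat_lit 173, nat_lit 177] (nat_lit 0) [nat_lit 19857] false,
   Spec.mk (nat_lit 177) (nat_lit 2) [nat_lit 339, nat_lit 123, nat_lit 195, nat_lit 183, nat_lit 175] (nat_lit 0) [] false,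
   Spec.mk (nat_lit 181) (nat_lit 0) [nat_lit 343, nat_lit 127, nat_lit 199, nat_lit 175, nat_lit 183] (nat_lit 0) [nat_lit 19863] false,
   Spec.mk (nat_lit 183) (nat_lit 2) [nat_lit 345, nat_lit 129, nat_lit 201, nat_lit 177, nat_lit 181] (nat_lit 0) [] false,
   Spec.mk (nat_lit 191) (nat_lit 2) [nat_lit 353, nat_lit 137, nat_lit 173, nat_lit 193] (nat_lit 0) [nat_lit 19873] false,
   Spec.mk (nat_lit 193) (nat_lit 3) [nat_lit 355, nat_lit 139, nat_lit 175, nat_lit 199, nat_lit 191, nat_lit 195] (nat_lit 0) [nat_lit 19875] false,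
   Spec.mk (nat_lit 195) (nat_lit 2) [nat_lit 357, nat_lit 141, nat_lit 177, nat_lit 201, nat_lit 193] (nat_lit 0) [] false,
   Spec.mk (nat_lit 199) (nat_lit 3) [nat_lit 361, nat_lit 145, nat_lit 181, nat_lit 217, nat_lit 193, nat_lit 201] (nat_lit 0) [nat_lit 19881] false,
   Spec.mk (nat_lit 201) (nat_lit 4) [nat_lit 363, nat_lit 147, nat_lit 183, nat_lit 219, nat_lit 195, nat_lit 207, nat_lit 199] (nat_lit 0) [] false,
   Spec.mk (nat_lit 207) (nat_lit 4) [nat_lit 369, nat_lit 153, nat_lit 225, nat_lit 201] (nat_lit 0) [] false,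
   Spec.mk (nat_lit 217) (nat_lit 4) [nat_lit 379, nat_lit 199, nat_lit 219] (nat_lit 0) [nat_lit 19899] false,
   Spec.mk (nat_lit 219) (nat_lit 4) [nat_lit 381, nat_lit 201, nat_lit 225, nat_lit 217] (nat_lit 0) [] false,
   Spec.mk (nat_lit 225) (nat_lit 6) [nat_lit 387, nat_lit 207, nat_lit 219] (nat_lit 0) [] false,
   Spec.mk (nat_lit 251) (nat_lit 4) [nat_lit 737, nat_lit 89, nat_lit 257] (nat_lit 0) [nat_lit 19933] true,
   Spec.mk (nat_lit 257) (nat_lit 3) [nat_lit 743, nat_lit 95, nat_lit 275, nat_lit 251, nat_lit 263, nat_lit 259] (nat_lit 0) [nat_lit 19939] true,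
   Spec.mk (nat_lit 259) (nat_lit 4) [nat_lit 745, nat_lit 97, nat_lit 277, nat_lit 265, nat_lit 257] (nat_lit 0) [nat_lit 19941] true,
   Spec.mk (nat_lit 263) (nat_lit 0) [nat_lit 749, nat_lit 101, nat_lit 281, nat_lit 257, nat_lit 265] (nat_lit 0) [nat_lit 19945] true,
   Spec.mk (nat_lit 265) (nat_lit 3) [nat_lit 751, nat_lit 103, nat_lit 283, nat_lit 259, nat_lit 263, nat_lit 267] (nat_lit 0) [nat_lit 19947] true,
   Spec.mk (nat_lit 267) (nat_lit 4) [nat_lit 753, nat_lit 105, nat_lit 285, nat_lit 265] (nat_lit 0) [] false,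
   Spec.mk (nat_lit 275) (nat_lit 2) [nat_lit 761, nat_lit 113, nat_lit 329, nat_lit 257, nat_lit 281, nat_lit 277] (nat_lit 0) [nat_lit 19957] true,
   Spec.mk (nat_lit 277) (nat_lit 2) [nat_lit 763, nat_lit 115, nat_lit 331, nat_lit 259, nat_lit 283, nat_lit 275] (nat_lit 0) [nat_lit 19959] true,
   Spec.mk (nat_lit 281) (nat_lit 1) [nat_lit 767, nat_lit 119, nat_lit 335, nat_lit 263, nat_lit 299, nat_lit 275, nat_lit 283] (nat_lit 0) [nat_lit 19963] true]

noncomputable def sp1 : List Spec :=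
  [Spec.mk (nat_lit 283) (nat_lit 3) [nat_lit 769, nat_lit 121, nat_lit 337, nat_lit 265, nat_lit 301, nat_lit 277, nat_lit 289, nat_lit 281, nat_lit 285] (nat_lit 0) [nat_lit 19965] true,
   Spec.mk (nat_lit 285) (nat_lit 3) [nat_lit 771, nat_lit 123, nat_lit 339, nat_lit 267, nat_lit 303, nat_lit 291, nat_lit 283] (nat_lit 0) [] false,
   Spec.mk (nat_lit 289) (nat_lit 2) [nat_lit 775, nat_lit 127, nat_lit 343, nat_lit 307, nat_lit 283, nat_lit 291] (nat_lit 0) [nat_lit 19971] true,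
   Spec.mk (nat_lit 291) (nat_lit 4) [nat_lit 777, nat_lit 129, nat_lit 345, nat_lit 309, nat_lit 285, nat_lit 289] (nat_lit 0) [] false,
   Spec.mk (nat_lit 299) (nat_lit 0) [nat_lit 785, nat_lit 137, nat_lit 353, nat_lit 281, nat_lit 301] (nat_lit 0) [nat_lit 19981] true,
   Spec.mk (nat_lit 301) (nat_lit 1) [nat_lit 787, nat_lit 139, nat_lit 355, nat_lit 283, nat_lit 307, nat_lit 299, nat_lit 303] (nat_lit 0) [nat_lit 19983] true,
   Spec.mk (nat_lit 303) (nat_lit 0) [nat_lit 789, nat_lit 141, nat_lit 357, nat_lit 285, nat_lit 309, nat_lit 301] (nat_lit 0) [] false,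
   Spec.mk (nat_lit 307) (nat_lit 2) [nat_lit 793, nat_lit 145, nat_lit 361, nat_lit 289, nat_lit 301, nat_lit 309] (nat_lit 0) [nat_lit 19989] false,
   Spec.mk (nat_lit 309) (nat_lit 3) [nat_lit 795, nat_lit 147, nat_lit 363, nat_lit 291, nat_lit 303, nat_lit 315, nat_lit 307] (nat_lit 0) [] false,
   Spec.mk (nat_lit 315) (nat_lit 4) [nat_lit 801, nat_lit 153, nat_lit 369, nat_lit 309] (nat_lit 0) [] false,
   Spec.mk (nat_lit 329) (nat_lit 3) [nat_lit 815, nat_lit 167, nat_lit 491, nat_lit 275, nat_lit 335, nat_lit 331] (nat_lit 0) [nat_lit 20011] true,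
   Spec.mk (nat_lit 331) (nat_lit 3) [nat_lit 817, nat_lit 169, nat_lit 493, nat_lit 277, nat_lit 337, nat_lit 329] (nat_lit 0) [nat_lit 20013] true,
   Spec.mk (nat_lit 335) (nat_lit 1) [nat_lit 821, nat_lit 173, nat_lit 497, nat_lit 281, nat_lit 353, nat_lit 329, nat_lit 337] (nat_lit 0) [nat_lit 20017] true,
   Spec.mk (nat_lit 337) (nat_lit 3) [nat_lit 823, nat_lit 175, nat_lit 499, nat_lit 283, nat_lit 355, nat_lit 331, nat_lit 343, nat_lit 335, nat_lit 339] (nat_lit 0) [nat_lit 20019] true,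
   Spec.mk (nat_lit 339) (nat_lit 3) [nat_lit 825, nat_lit 177, nat_lit 501, nat_lit 285, nat_lit 357, nat_lit 345, nat_lit 337] (nat_lit 0) [] false,
   Spec.mk (nat_lit 343) (nat_lit 1) [nat_lit 829, nat_lit 181, nat_lit 505, nat_lit 289, nat_lit 361, nat_lit 337, nat_lit 345] (nat_lit 0) [nat_lit 20025] false,
   Spec.mk (nat_lit 345) (nat_lit 3) [nat_lit 831, nat_lit 183, nat_lit 507, nat_lit 291, nat_lit 363, nat_lit 339, nat_lit 343] (nat_lit 0) [] false,
   Spec.mk (nat_lit 353) (nat_lit 2) [nat_lit 839, nat_lit 191, nat_lit 515, nat_lit 299, nat_lit 407, nat_lit 335, nat_lit 355] (nat_lit 0) [nat_lit 20035] true,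
   Spec.mk (nat_lit 355) (nat_lit 3) [nat_lit 841, nat_lit 193, nat_lit 517, nat_lit 301, nat_lit 409, nat_lit 337, nat_lit 361, nat_lit 353, nat_lit 357] (nat_lit 0) [nat_lit 20037] false,
   Spec.mk (nat_lit 357) (nat_lit 2) [nat_lit 843, nat_lit 195, nat_lit 519, nat_lit 303, nat_lit 411, nat_lit 339, nat_lit 363, nat_lit 355] (nat_lit 0) [] false,
   Spec.mk (nat_lit 361) (nat_lit 3) [nat_lit 847, nat_lit 199, nat_lit 523, nat_lit 307, nat_lit 415, nat_lit 343, nat_lit 379, nat_lit 355, nat_lit 363] (nat_lit 0) [nat_lit 20043] false,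
   Spec.mk (nat_lit 363) (nat_lit 4) [nat_lit 849, nat_lit 201, nat_lit 525, nat_lit 309, nat_lit 417, nat_lit 345, nat_lit 381, nat_lit 357, nat_lit 369, nat_lit 361] (nat_lit 0) [] false,
   Spec.mk (nat_lit 369) (nat_lit 4) [nat_lit 855, nat_lit 207, nat_lit 531, nat_lit 315, nat_lit 423, nat_lit 387, nat_lit 363] (nat_lit 0) [] false,
   Spec.mk (nat_lit 379) (nat_lit 3) [nat_lit 865, nat_lit 217, nat_lit 541, nat_lit 433, nat_lit 361, nat_lit 381] (nat_lit 0) [nat_lit 20061] false,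
   Spec.mk (nat_lit 381) (nat_lit 3) [nat_lit 867, nat_lit 219, nat_lit 543, nat_lit 435, nat_lit 363, nat_lit 387, nat_lit 379] (nat_lit 0) [] false,
   Spec.mk (nat_lit 387) (nat_lit 5) [nat_lit 873, nat_lit 225, nat_lit 549, nat_lit 441, nat_lit 369, nat_lit 381] (nat_lit 0) [] false,
   Spec.mk (nat_lit 407) (nat_lit 2) [nat_lit 893, nat_lit 569, nat_lit 353, nat_lit 409] (nat_lit 0) [nat_lit 20089] true,
   Spec.mk (nat_lit 409) (nat_lit 3) [nat_lit 895, nat_lit 571, nat_lit 355, nat_lit 415, nat_lit 407, nat_lit 411] (nat_lit 0) [nat_lit 20091] false,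
   Spec.mk (nat_lit 411) (nat_lit 2) [nat_lit 897, nat_lit 573, nat_lit 357, nat_lit 417, nat_lit 409] (nat_lit 0) [] false,
   Spec.mk (nat_lit 415) (nat_lit 2) [nat_lit 901, nat_lit 577, nat_lit 361, nat_lit 433, nat_lit 409, nat_lit 417] (nat_lit 0) [nat_lit 20097] false,
   Spec.mk (nat_lit 417) (nat_lit 3) [nat_lit 903, nat_lit 579, nat_lit 363, nat_lit 435, nat_lit 411, nat_lit 423, nat_lit 415] (nat_lit 0) [] false,
   Spec.mk (nat_lit 423) (nat_lit 2) [nat_lit 909, nat_lit 585, nat_lit 369, nat_lit 441, nat_lit 417] (nat_lit 0) [] false,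
   Spec.mk (nat_lit 433) (nat_lit 4) [nat_lit 919, nat_lit 595, nat_lit 379, nat_lit 415, nat_lit 435] (nat_lit 0) [nat_lit 20115] false,
   Spec.mk (nat_lit 435) (nat_lit 4) [nat_lit 921, nat_lit 597, nat_lit 381, nat_lit 417, nat_lit 441, nat_lit 433] (nat_lit 0) [] false,
   Spec.mk (nat_lit 441) (nat_lit 5) [nat_lit 927, nat_lit 603, nat_lit 387, nat_lit 423, nat_lit 459, nat_lit 435] (nat_lit 0) [] false,
   Spec.mk (nat_lit 459) (nat_lit 6) [nat_lit 945, nat_lit 621, nat_lit 441] (nat_lit 0) [] false,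
   Spec.mk (nat_lit 491) (nat_lit 2) [nat_lit 977, nat_lit 329, nat_lit 497, nat_lit 493] (nat_lit 0) [nat_lit 20173] true,
   Spec.mk (nat_lit 493) (nat_lit 2) [nat_lit 979, nat_lit 331, nat_lit 499, nat_lit 491] (nat_lit 0) [nat_lit 20175] false,
   Spec.mk (nat_lit 497) (nat_lit 0) [nat_lit 983, nat_lit 335, nat_lit 515, nat_lit 491, nat_lit 499] (nat_lit 0) [nat_lit 20179] true,
   Spec.mk (nat_lit 499) (nat_lit 2) [nat_lit 985, nat_lit 337, nat_lit 517, nat_lit 493, nat_lit 505, nat_lit 497, nat_lit 501] (nat_lit 0) [nat_lit 20181] false,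
   Spec.mk (nat_lit 501) (nat_lit 2) [nat_lit 987, nat_lit 339, nat_lit 519, nat_lit 507, nat_lit 499] (nat_lit 0) [] false,
   Spec.mk (nat_lit 505) (nat_lit 0) [nat_lit 991, nat_lit 343, nat_lit 523, nat_lit 499, nat_lit 507] (nat_lit 0) [nat_lit 20187] false,
   Spec.mk (nat_lit 507) (nat_lit 2) [nat_lit 993, nat_lit 345, nat_lit 525, nat_lit 501, nat_lit 505] (nat_lit 0) [] false,
   Spec.mk (nat_lit 515) (nat_lit 0) [nat_lit 1001, nat_lit 353, nat_lit 569, nat_lit 497, nat_lit 517] (nat_lit 0) [nat_lit 20197] false,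
   Spec.mk (nat_lit 517) (nat_lit 1) [nat_lit 1003, nat_lit 355, nat_lit 571, nat_lit 499, nat_lit 523, nat_lit 515, nat_lit 519] (nat_lit 0) [nat_lit 20199] false,
   Spec.mk (nat_lit 519) (nat_lit 0) [nat_lit 1005, nat_lit 357, nat_lit 573, nat_lit 501, nat_lit 525, nat_lit 517] (nat_lit 0) [] false,
   Spec.mk (nat_lit 523) (nat_lit 1) [nat_lit 1009, nat_lit 361, nat_lit 577, nat_lit 505, nat_lit 541, nat_lit 517, nat_lit 525] (nat_lit 0) [nat_lit 20205] false,
   Spec.mk (nat_lit 525) (nat_lit 2) [nat_lit 1011, nat_lit 363, nat_lit 579, nat_lit 507, nat_lit 543, nat_lit 519, nat_lit 531, nat_lit 523] (nat_lit 0) [] false,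
   Spec.mk (nat_lit 531) (nat_lit 2) [nat_lit 1017, nat_lit 369, nat_lit 585, nat_lit 549, nat_lit 525] (nat_lit 0) [] false,
   Spec.mk (nat_lit 541) (nat_lit 0) [nat_lit 1027, nat_lit 379, nat_lit 595, nat_lit 523, nat_lit 543] (nat_lit 0) [nat_lit 20223] false,
   Spec.mk (nat_lit 543) (nat_lit 0) [nat_lit 1029, nat_lit 381, nat_lit 597, nat_lit 525, nat_lit 549, nat_lit 541] (nat_lit 0) [] false,
   Spec.mk (nat_lit 549) (nat_lit 2) [nat_lit 1035, nat_lit 387, nat_lit 603, nat_lit 531, nat_lit 543] (nat_lit 0) [] false,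
   Spec.mk (nat_lit 569) (nat_lit 2) [nat_lit 1055, nat_lit 407, nat_lit 515, nat_lit 571] (nat_lit 0) [nat_lit 20251] false,
   Spec.mk (nat_lit 571) (nat_lit 3) [nat_lit 1057, nat_lit 409, nat_lit 517, nat_lit 577, nat_lit 569, nat_lit 573] (nat_lit 0) [nat_lit 20253] false,
   Spec.mk (nat_lit 573) (nat_lit 2) [nat_lit 1059, nat_lit 411, nat_lit 519, nat_lit 579, nat_lit 571] (nat_lit 0) [] false,
   Spec.mk (nat_lit 577) (nat_lit 2) [nat_lit 1063, nat_lit 415, nat_lit 523, nat_lit 595, nat_lit 571, nat_lit 579] (nat_lit 0) [nat_lit 20259] false,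
   Spec.mk (nat_lit 579) (nat_lit 3) [nat_lit 1065, nat_lit 417, nat_lit 525, nat_lit 597, nat_lit 573, nat_lit 585, nat_lit 577] (nat_lit 0) [] false,
   Spec.mk (nat_lit 585) (nat_lit 2) [nat_lit 1071, nat_lit 423, nat_lit 531, nat_lit 603, nat_lit 579] (nat_lit 0) [] false,
   Spec.mk (nat_lit 595) (nat_lit 3) [nat_lit 1081, nat_lit 433, nat_lit 541, nat_lit 649, nat_lit 577, nat_lit 597] (nat_lit 0) [nat_lit 20277] false,
   Spec.mk (nat_lit 597) (nat_lit 3) [nat_lit 1083, nat_lit 435, nat_lit 543, nat_lit 651, nat_lit 579, nat_lit 603, nat_lit 595] (nat_lit 0) [] false]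

noncomputable def sp2 : List Spec :=
  [Spec.mk (nat_lit 603) (nat_lit 4) [nat_lit 1089, nat_lit 441, nat_lit 549, nat_lit 657, nat_lit 585, nat_lit 621, nat_lit 597] (nat_lit 0) [] false,
   Spec.mk (nat_lit 621) (nat_lit 4) [nat_lit 1107, nat_lit 459, nat_lit 675, nat_lit 603] (nat_lit 0) [] false,
   Spec.mk (nat_lit 649) (nat_lit 4) [nat_lit 1135, nat_lit 595, nat_lit 651] (nat_lit 0) [nat_lit 20331] false,
   Spec.mk (nat_lit 651) (nat_lit 4) [nat_lit 1137, nat_lit 597, nat_lit 657, nat_lit 649] (nat_lit 0) [] false,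
   Spec.mk (nat_lit 657) (nat_lit 4) [nat_lit 1143, nat_lit 603, nat_lit 675, nat_lit 651] (nat_lit 0) [] false,
   Spec.mk (nat_lit 675) (nat_lit 6) [nat_lit 1161, nat_lit 621, nat_lit 657] (nat_lit 0) [] false,
   Spec.mk (nat_lit 737) (nat_lit 4) [nat_lit 2195, nat_lit 251, nat_lit 743] (nat_lit 0) [nat_lit 20419] false,
   Spec.mk (nat_lit 743) (nat_lit 3) [nat_lit 2201, nat_lit 257, nat_lit 761, nat_lit 737, nat_lit 749, nat_lit 745] (nat_lit 0) [nat_lit 20425] true,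
   Spec.mk (nat_lit 745) (nat_lit 4) [nat_lit 2203, nat_lit 259, nat_lit 763, nat_lit 751, nat_lit 743] (nat_lit 0) [nat_lit 20427] true,
   Spec.mk (nat_lit 749) (nat_lit 0) [nat_lit 2207, nat_lit 263, nat_lit 767, nat_lit 743, nat_lit 751] (nat_lit 0) [nat_lit 20431] true,
   Spec.mk (nat_lit 751) (nat_lit 3) [nat_lit 2209, nat_lit 265, nat_lit 769, nat_lit 745, nat_lit 749, nat_lit 753] (nat_lit 0) [nat_lit 20433] false,
   Spec.mk (nat_lit 753) (nat_lit 4) [nat_lit 2211, nat_lit 267, nat_lit 771, nat_lit 751] (nat_lit 0) [] false,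
   Spec.mk (nat_lit 761) (nat_lit 2) [nat_lit 2219, nat_lit 275, nat_lit 815, nat_lit 743, nat_lit 767, nat_lit 763] (nat_lit 0) [nat_lit 20443] true,
   Spec.mk (nat_lit 763) (nat_lit 2) [nat_lit 2221, nat_lit 277, nat_lit 817, nat_lit 745, nat_lit 769, nat_lit 761] (nat_lit 0) [nat_lit 20445] true,
   Spec.mk (nat_lit 767) (nat_lit 1) [nat_lit 2225, nat_lit 281, nat_lit 821, nat_lit 749, nat_lit 785, nat_lit 761, nat_lit 769] (nat_lit 0) [nat_lit 20449] true,
   Spec.mk (nat_lit 769) (nat_lit 3) [nat_lit 2227, nat_lit 283, nat_lit 823, nat_lit 751, nat_lit 787, nat_lit 763, nat_lit 775, nat_lit 767, nat_lit 771] (nat_lit 0) [nat_lit 20451] true,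
   Spec.mk (nat_lit 771) (nat_lit 3) [nat_lit 2229, nat_lit 285, nat_lit 825, nat_lit 753, nat_lit 789, nat_lit 777, nat_lit 769] (nat_lit 0) [] false,
   Spec.mk (nat_lit 775) (nat_lit 2) [nat_lit 2233, nat_lit 289, nat_lit 829, nat_lit 793, nat_lit 769, nat_lit 777] (nat_lit 0) [nat_lit 20457] true,
   Spec.mk (nat_lit 777) (nat_lit 4) [nat_lit 2235, nat_lit 291, nat_lit 831, nat_lit 795, nat_lit 771, nat_lit 775] (nat_lit 0) [] false,
   Spec.mk (nat_lit 785) (nat_lit 0) [nat_lit 2243, nat_lit 299, nat_lit 839, nat_lit 767, nat_lit 787] (nat_lit 0) [nat_lit 20467] true,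
   Spec.mk (nat_lit 787) (nat_lit 1) [nat_lit 2245, nat_lit 301, nat_lit 841, nat_lit 769, nat_lit 793, nat_lit 785, nat_lit 789] (nat_lit 0) [nat_lit 20469] true,
   Spec.mk (nat_lit 789) (nat_lit 0) [nat_lit 2247, nat_lit 303, nat_lit 843, nat_lit 771, nat_lit 795, nat_lit 787] (nat_lit 0) [] false,
   Spec.mk (nat_lit 793) (nat_lit 2) [nat_lit 2251, nat_lit 307, nat_lit 847, nat_lit 775, nat_lit 787, nat_lit 795] (nat_lit 0) [nat_lit 20475] true,
   Spec.mk (nat_lit 795) (nat_lit 3) [nat_lit 2253, nat_lit 309, nat_lit 849, nat_lit 777, nat_lit 789, nat_lit 801, nat_lit 793] (nat_lit 0) [] false,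
   Spec.mk (nat_lit 801) (nat_lit 4) [nat_lit 2259, nat_lit 315, nat_lit 855, nat_lit 795] (nat_lit 0) [] false,
   Spec.mk (nat_lit 815) (nat_lit 2) [nat_lit 2273, nat_lit 329, nat_lit 977, nat_lit 761, nat_lit 821, nat_lit 817] (nat_lit 0) [nat_lit 20497] true,
   Spec.mk (nat_lit 817) (nat_lit 2) [nat_lit 2275, nat_lit 331, nat_lit 979, nat_lit 763, nat_lit 823, nat_lit 815] (nat_lit 0) [nat_lit 20499] true,
   Spec.mk (nat_lit 821) (nat_lit 0) [nat_lit 2279, nat_lit 335, nat_lit 983, nat_lit 767, nat_lit 839, nat_lit 815, nat_lit 823] (nat_lit 0) [nat_lit 20503] true,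
   Spec.mk (nat_lit 823) (nat_lit 2) [nat_lit 2281, nat_lit 337, nat_lit 985, nat_lit 769, nat_lit 841, nat_lit 817, nat_lit 829, nat_lit 821, nat_lit 825] (nat_lit 0) [nat_lit 20505] true,
   Spec.mk (nat_lit 825) (nat_lit 2) [nat_lit 2283, nat_lit 339, nat_lit 987, nat_lit 771, nat_lit 843, nat_lit 831, nat_lit 823] (nat_lit 0) [] false,
   Spec.mk (nat_lit 829) (nat_lit 0) [nat_lit 2287, nat_lit 343, nat_lit 991, nat_lit 775, nat_lit 847, nat_lit 823, nat_lit 831] (nat_lit 0) [nat_lit 20511] true,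
   Spec.mk (nat_lit 831) (nat_lit 2) [nat_lit 2289, nat_lit 345, nat_lit 993, nat_lit 777, nat_lit 849, nat_lit 825, nat_lit 829] (nat_lit 0) [] false,
   Spec.mk (nat_lit 839) (nat_lit 1) [nat_lit 2297, nat_lit 353, nat_lit 1001, nat_lit 785, nat_lit 893, nat_lit 821, nat_lit 841] (nat_lit 0) [nat_lit 20521] true,
   Spec.mk (nat_lit 841) (nat_lit 2) [nat_lit 2299, nat_lit 355, nat_lit 1003, nat_lit 787, nat_lit 895, nat_lit 823, nat_lit 847, nat_lit 839, nat_lit 843] (nat_lit 0) [nat_lit 20523] true,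
   Spec.mk (nat_lit 843) (nat_lit 1) [nat_lit 2301, nat_lit 357, nat_lit 1005, nat_lit 789, nat_lit 897, nat_lit 825, nat_lit 849, nat_lit 841] (nat_lit 0) [] false,
   Spec.mk (nat_lit 847) (nat_lit 2) [nat_lit 2305, nat_lit 361, nat_lit 1009, nat_lit 793, nat_lit 901, nat_lit 829, nat_lit 865, nat_lit 841, nat_lit 849] (nat_lit 0) [nat_lit 20529] true,
   Spec.mk (nat_lit 849) (nat_lit 3) [nat_lit 2307, nat_lit 363, nat_lit 1011, nat_lit 795, nat_lit 903, nat_lit 831, nat_lit 867, nat_lit 843, nat_lit 855, nat_lit 847] (nat_lit 0) [] false,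
   Spec.mk (nat_lit 855) (nat_lit 3) [nat_lit 2313, nat_lit 369, nat_lit 1017, nat_lit 801, nat_lit 909, nat_lit 873, nat_lit 849] (nat_lit 0) [] false,
   Spec.mk (nat_lit 865) (nat_lit 2) [nat_lit 2323, nat_lit 379, nat_lit 1027, nat_lit 919, nat_lit 847, nat_lit 867] (nat_lit 0) [nat_lit 20547] false,
   Spec.mk (nat_lit 867) (nat_lit 2) [nat_lit 2325, nat_lit 381, nat_lit 1029, nat_lit 921, nat_lit 849, nat_lit 873, nat_lit 865] (nat_lit 0) [] false,
   Spec.mk (nat_lit 873) (nat_lit 4) [nat_lit 2331, nat_lit 387, nat_lit 1035, nat_lit 927, nat_lit 855, nat_lit 867] (nat_lit 0) [] false,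
   Spec.mk (nat_lit 893) (nat_lit 0) [nat_lit 2351, nat_lit 407, nat_lit 1055, nat_lit 839, nat_lit 895] (nat_lit 0) [nat_lit 20575] true,
   Spec.mk (nat_lit 895) (nat_lit 1) [nat_lit 2353, nat_lit 409, nat_lit 1057, nat_lit 841, nat_lit 901, nat_lit 893, nat_lit 897] (nat_lit 0) [nat_lit 20577] true,
   Spec.mk (nat_lit 897) (nat_lit 0) [nat_lit 2355, nat_lit 411, nat_lit 1059, nat_lit 843, nat_lit 903, nat_lit 895] (nat_lit 0) [] false,
   Spec.mk (nat_lit 901) (nat_lit 0) [nat_lit 2359, nat_lit 415, nat_lit 1063, nat_lit 847, nat_lit 919, nat_lit 895, nat_lit 903] (nat_lit 0) [nat_lit 20583] false,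
   Spec.mk (nat_lit 903) (nat_lit 1) [nat_lit 2361, nat_lit 417, nat_lit 1065, nat_lit 849, nat_lit 921, nat_lit 897, nat_lit 909, nat_lit 901] (nat_lit 0) [] false,
   Spec.mk (nat_lit 909) (nat_lit 0) [nat_lit 2367, nat_lit 423, nat_lit 1071, nat_lit 855, nat_lit 927, nat_lit 903] (nat_lit 0) [] false,
   Spec.mk (nat_lit 919) (nat_lit 2) [nat_lit 2377, nat_lit 433, nat_lit 1081, nat_lit 865, nat_lit 901, nat_lit 921] (nat_lit 0) [nat_lit 20601] false,
   Spec.mk (nat_lit 921) (nat_lit 2) [nat_lit 2379, nat_lit 435, nat_lit 1083, nat_lit 867, nat_lit 903, nat_lit 927, nat_lit 919] (nat_lit 0) [] false,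
   Spec.mk (nat_lit 927) (nat_lit 3) [nat_lit 2385, nat_lit 441, nat_lit 1089, nat_lit 873, nat_lit 909, nat_lit 945, nat_lit 921] (nat_lit 0) [] false,
   Spec.mk (nat_lit 945) (nat_lit 4) [nat_lit 2403, nat_lit 459, nat_lit 1107, nat_lit 927] (nat_lit 0) [] false,
   Spec.mk (nat_lit 977) (nat_lit 3) [nat_lit 2435, nat_lit 491, nat_lit 1463, nat_lit 815, nat_lit 983, nat_lit 979] (nat_lit 0) [nat_lit 20659] true,
   Spec.mk (nat_lit 979) (nat_lit 3) [nat_lit 2437, nat_lit 493, nat_lit 1465, nat_lit 817, nat_lit 985, nat_lit 977] (nat_lit 0) [nat_lit 20661] false,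
   Spec.mk (nat_lit 983) (nat_lit 1) [nat_lit 2441, nat_lit 497, nat_lit 1469, nat_lit 821, nat_lit 1001, nat_lit 977, nat_lit 985] (nat_lit 0) [nat_lit 20665] true,
   Spec.mk (nat_lit 985) (nat_lit 3) [nat_lit 2443, nat_lit 499, nat_lit 1471, nat_lit 823, nat_lit 1003, nat_lit 979, nat_lit 991, nat_lit 983, nat_lit 987] (nat_lit 0) [nat_lit 20667] true,
   Spec.mk (nat_lit 987) (nat_lit 3) [nat_lit 2445, nat_lit 501, nat_lit 1473, nat_lit 825, nat_lit 1005, nat_lit 993, nat_lit 985] (nat_lit 0) [] false,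
   Spec.mk (nat_lit 991) (nat_lit 1) [nat_lit 2449, nat_lit 505, nat_lit 1477, nat_lit 829, nat_lit 1009, nat_lit 985, nat_lit 993] (nat_lit 0) [nat_lit 20673] false,
   Spec.mk (nat_lit 993) (nat_lit 3) [nat_lit 2451, nat_lit 507, nat_lit 1479, nat_lit 831, nat_lit 1011, nat_lit 987, nat_lit 991] (nat_lit 0) [] false,
   Spec.mk (nat_lit 1001) (nat_lit 1) [nat_lit 2459, nat_lit 515, nat_lit 1487, nat_lit 839, nat_lit 1055, nat_lit 983, nat_lit 1003] (nat_lit 0) [nat_lit 20683] true,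
   Spec.mk (nat_lit 1003) (nat_lit 2) [nat_lit 2461, nat_lit 517, nat_lit 1489, nat_lit 841, nat_lit 1057, nat_lit 985, nat_lit 1009, nat_lit 1001, nat_lit 1005] (nat_lit 0) [nat_lit 20685] true]

noncomputable def sp3 : List Spec :=
  [Spec.mk (nat_lit 1005) (nat_lit 1) [nat_lit 2463, nat_lit 519, nat_lit 1491, nat_lit 843, nat_lit 1059, nat_lit 987, nat_lit 1011, nat_lit 1003] (nat_lit 0) [] false,
   Spec.mk (nat_lit 1009) (nat_lit 2) [nat_lit 2467, nat_lit 523, nat_lit 1495, nat_lit 847, nat_lit 1063, nat_lit 991, nat_lit 1027, nat_lit 1003, nat_lit 1011] (nat_lit 0) [nat_lit 20691] false,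
   Spec.mk (nat_lit 1011) (nat_lit 3) [nat_lit 2469, nat_lit 525, nat_lit 1497, nat_lit 849, nat_lit 1065, nat_lit 993, nat_lit 1029, nat_lit 1005, nat_lit 1017, nat_lit 1009] (nat_lit 0) [] false,
   Spec.mk (nat_lit 1017) (nat_lit 3) [nat_lit 2475, nat_lit 531, nat_lit 1503, nat_lit 855, nat_lit 1071, nat_lit 1035, nat_lit 1011] (nat_lit 0) [] false,
   Spec.mk (nat_lit 1027) (nat_lit 1) [nat_lit 2485, nat_lit 541, nat_lit 1513, nat_lit 865, nat_lit 1081, nat_lit 1009, nat_lit 1029] (nat_lit 0) [nat_lit 20709] false,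
   Spec.mk (nat_lit 1029) (nat_lit 1) [nat_lit 2487, nat_lit 543, nat_lit 1515, nat_lit 867, nat_lit 1083, nat_lit 1011, nat_lit 1035, nat_lit 1027] (nat_lit 0) [] false,
   Spec.mk (nat_lit 1035) (nat_lit 3) [nat_lit 2493, nat_lit 549, nat_lit 1521, nat_lit 873, nat_lit 1089, nat_lit 1017, nat_lit 1029] (nat_lit 0) [] false,
   Spec.mk (nat_lit 1055) (nat_lit 2) [nat_lit 2513, nat_lit 569, nat_lit 1541, nat_lit 893, nat_lit 1217, nat_lit 1001, nat_lit 1057] (nat_lit 0) [nat_lit 20737] true,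
   Spec.mk (nat_lit 1057) (nat_lit 3) [nat_lit 2515, nat_lit 571, nat_lit 1543, nat_lit 895, nat_lit 1219, nat_lit 1003, nat_lit 1063, nat_lit 1055, nat_lit 1059] (nat_lit 0) [nat_lit 20739] false,
   Spec.mk (nat_lit 1059) (nat_lit 2) [nat_lit 2517, nat_lit 573, nat_lit 1545, nat_lit 897, nat_lit 1221, nat_lit 1005, nat_lit 1065, nat_lit 1057] (nat_lit 0) [] false,
   Spec.mk (nat_lit 1063) (nat_lit 2) [nat_lit 2521, nat_lit 577, nat_lit 1549, nat_lit 901, nat_lit 1225, nat_lit 1009, nat_lit 1081, nat_lit 1057, nat_lit 1065] (nat_lit 0) [nat_lit 20745] false,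
   Spec.mk (nat_lit 1065) (nat_lit 3) [nat_lit 2523, nat_lit 579, nat_lit 1551, nat_lit 903, nat_lit 1227, nat_lit 1011, nat_lit 1083, nat_lit 1059, nat_lit 1071, nat_lit 1063] (nat_lit 0) [] false,
   Spec.mk (nat_lit 1071) (nat_lit 2) [nat_lit 2529, nat_lit 585, nat_lit 1557, nat_lit 909, nat_lit 1233, nat_lit 1017, nat_lit 1089, nat_lit 1065] (nat_lit 0) [] false,
   Spec.mk (nat_lit 1081) (nat_lit 3) [nat_lit 2539, nat_lit 595, nat_lit 1567, nat_lit 919, nat_lit 1243, nat_lit 1027, nat_lit 1135, nat_lit 1063, nat_lit 1083] (nat_lit 0) [nat_lit 20763] false,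
   Spec.mk (nat_lit 1083) (nat_lit 3) [nat_lit 2541, nat_lit 597, nat_lit 1569, nat_lit 921, nat_lit 1245, nat_lit 1029, nat_lit 1137, nat_lit 1065, nat_lit 1089, nat_lit 1081] (nat_lit 0) [] false,
   Spec.mk (nat_lit 1089) (nat_lit 4) [nat_lit 2547, nat_lit 603, nat_lit 1575, nat_lit 927, nat_lit 1251, nat_lit 1035, nat_lit 1143, nat_lit 1071, nat_lit 1107, nat_lit 1083] (nat_lit 0) [] false,
   Spec.mk (nat_lit 1107) (nat_lit 4) [nat_lit 2565, nat_lit 621, nat_lit 1593, nat_lit 945, nat_lit 1269, nat_lit 1161, nat_lit 1089] (nat_lit 0) [] false,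
   Spec.mk (nat_lit 1135) (nat_lit 3) [nat_lit 2593, nat_lit 649, nat_lit 1621, nat_lit 1297, nat_lit 1081, nat_lit 1137] (nat_lit 0) [nat_lit 20817] false,
   Spec.mk (nat_lit 1137) (nat_lit 3) [nat_lit 2595, nat_lit 651, nat_lit 1623, nat_lit 1299, nat_lit 1083, nat_lit 1143, nat_lit 1135] (nat_lit 0) [] false,
   Spec.mk (nat_lit 1143) (nat_lit 3) [nat_lit 2601, nat_lit 657, nat_lit 1629, nat_lit 1305, nat_lit 1089, nat_lit 1161, nat_lit 1137] (nat_lit 0) [] false,
   Spec.mk (nat_lit 1161) (nat_lit 5) [nat_lit 2619, nat_lit 675, nat_lit 1647, nat_lit 1323, nat_lit 1107, nat_lit 1143] (nat_lit 0) [] false,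
   Spec.mk (nat_lit 1217) (nat_lit 2) [nat_lit 2675, nat_lit 1703, nat_lit 1055, nat_lit 1219] (nat_lit 0) [nat_lit 20899] false,
   Spec.mk (nat_lit 1219) (nat_lit 3) [nat_lit 2677, nat_lit 1705, nat_lit 1057, nat_lit 1225, nat_lit 1217, nat_lit 1221] (nat_lit 0) [nat_lit 20901] false,
   Spec.mk (nat_lit 1221) (nat_lit 2) [nat_lit 2679, nat_lit 1707, nat_lit 1059, nat_lit 1227, nat_lit 1219] (nat_lit 0) [] false,
   Spec.mk (nat_lit 1225) (nat_lit 2) [nat_lit 2683, nat_lit 1711, nat_lit 1063, nat_lit 1243, nat_lit 1219, nat_lit 1227] (nat_lit 0) [nat_lit 20907] false,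
   Spec.mk (nat_lit 1227) (nat_lit 3) [nat_lit 2685, nat_lit 1713, nat_lit 1065, nat_lit 1245, nat_lit 1221, nat_lit 1233, nat_lit 1225] (nat_lit 0) [] false,
   Spec.mk (nat_lit 1233) (nat_lit 2) [nat_lit 2691, nat_lit 1719, nat_lit 1071, nat_lit 1251, nat_lit 1227] (nat_lit 0) [] false,
   Spec.mk (nat_lit 1243) (nat_lit 2) [nat_lit 2701, nat_lit 1729, nat_lit 1081, nat_lit 1297, nat_lit 1225, nat_lit 1245] (nat_lit 0) [nat_lit 20925] false,
   Spec.mk (nat_lit 1245) (nat_lit 2) [nat_lit 2703, nat_lit 1731, nat_lit 1083, nat_lit 1299, nat_lit 1227, nat_lit 1251, nat_lit 1243] (nat_lit 0) [] false,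
   Spec.mk (nat_lit 1251) (nat_lit 3) [nat_lit 2709, nat_lit 1737, nat_lit 1089, nat_lit 1305, nat_lit 1233, nat_lit 1269, nat_lit 1245] (nat_lit 0) [] false,
   Spec.mk (nat_lit 1269) (nat_lit 2) [nat_lit 2727, nat_lit 1755, nat_lit 1107, nat_lit 1323, nat_lit 1251] (nat_lit 0) [] false,
   Spec.mk (nat_lit 1297) (nat_lit 4) [nat_lit 2755, nat_lit 1783, nat_lit 1135, nat_lit 1243, nat_lit 1299] (nat_lit 0) [nat_lit 20979] false,
   Spec.mk (nat_lit 1299) (nat_lit 4) [nat_lit 2757, nat_lit 1785, nat_lit 1137, nat_lit 1245, nat_lit 1305, nat_lit 1297] (nat_lit 0) [] false,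
   Spec.mk (nat_lit 1305) (nat_lit 4) [nat_lit 2763, nat_lit 1791, nat_lit 1143, nat_lit 1251, nat_lit 1323, nat_lit 1299] (nat_lit 0) [] false,
   Spec.mk (nat_lit 1323) (nat_lit 5) [nat_lit 2781, nat_lit 1809, nat_lit 1161, nat_lit 1269, nat_lit 1377, nat_lit 1305] (nat_lit 0) [] false,
   Spec.mk (nat_lit 1377) (nat_lit 6) [nat_lit 2835, nat_lit 1863, nat_lit 1323] (nat_lit 0) [] false,
   Spec.mk (nat_lit 1463) (nat_lit 2) [nat_lit 2921, nat_lit 977, nat_lit 1469, nat_lit 1465] (nat_lit 0) [nat_lit 21145] false,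
   Spec.mk (nat_lit 1465) (nat_lit 2) [nat_lit 2923, nat_lit 979, nat_lit 1471, nat_lit 1463] (nat_lit 0) [nat_lit 21147] false,
   Spec.mk (nat_lit 1469) (nat_lit 0) [nat_lit 2927, nat_lit 983, nat_lit 1487, nat_lit 1463, nat_lit 1471] (nat_lit 0) [nat_lit 21151] false,
   Spec.mk (nat_lit 1471) (nat_lit 2) [nat_lit 2929, nat_lit 985, nat_lit 1489, nat_lit 1465, nat_lit 1477, nat_lit 1469, nat_lit 1473] (nat_lit 0) [nat_lit 21153] false,
   Spec.mk (nat_lit 1473) (nat_lit 2) [nat_lit 2931, nat_lit 987, nat_lit 1491, nat_lit 1479, nat_lit 1471] (nat_lit 0) [] false,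
   Spec.mk (nat_lit 1477) (nat_lit 0) [nat_lit 2935, nat_lit 991, nat_lit 1495, nat_lit 1471, nat_lit 1479] (nat_lit 0) [nat_lit 21159] false,
   Spec.mk (nat_lit 1479) (nat_lit 2) [nat_lit 2937, nat_lit 993, nat_lit 1497, nat_lit 1473, nat_lit 1477] (nat_lit 0) [] false,
   Spec.mk (nat_lit 1487) (nat_lit 0) [nat_lit 2945, nat_lit 1001, nat_lit 1541, nat_lit 1469, nat_lit 1489] (nat_lit 0) [nat_lit 21169] true,
   Spec.mk (nat_lit 1489) (nat_lit 1) [nat_lit 2947, nat_lit 1003, nat_lit 1543, nat_lit 1471, nat_lit 1495, nat_lit 1487, nat_lit 1491] (nat_lit 0) [nat_lit 21171] false,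
   Spec.mk (nat_lit 1491) (nat_lit 0) [nat_lit 2949, nat_lit 1005, nat_lit 1545, nat_lit 1473, nat_lit 1497, nat_lit 1489] (nat_lit 0) [] false,
   Spec.mk (nat_lit 1495) (nat_lit 1) [nat_lit 2953, nat_lit 1009, nat_lit 1549, nat_lit 1477, nat_lit 1513, nat_lit 1489, nat_lit 1497] (nat_lit 0) [nat_lit 21177] false,
   Spec.mk (nat_lit 1497) (nat_lit 2) [nat_lit 2955, nat_lit 1011, nat_lit 1551, nat_lit 1479, nat_lit 1515, nat_lit 1491, nat_lit 1503, nat_lit 1495] (nat_lit 0) [] false,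
   Spec.mk (nat_lit 1503) (nat_lit 2) [nat_lit 2961, nat_lit 1017, nat_lit 1557, nat_lit 1521, nat_lit 1497] (nat_lit 0) [] false,
   Spec.mk (nat_lit 1513) (nat_lit 0) [nat_lit 2971, nat_lit 1027, nat_lit 1567, nat_lit 1495, nat_lit 1515] (nat_lit 0) [nat_lit 21195] false,
   Spec.mk (nat_lit 1515) (nat_lit 0) [nat_lit 2973, nat_lit 1029, nat_lit 1569, nat_lit 1497, nat_lit 1521, nat_lit 1513] (nat_lit 0) [] false,
   Spec.mk (nat_lit 1521) (nat_lit 2) [nat_lit 2979, nat_lit 1035, nat_lit 1575, nat_lit 1503, nat_lit 1515] (nat_lit 0) [] false,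
   Spec.mk (nat_lit 1541) (nat_lit 0) [nat_lit 2999, nat_lit 1055, nat_lit 1703, nat_lit 1487, nat_lit 1543] (nat_lit 0) [nat_lit 21223] false,
   Spec.mk (nat_lit 1543) (nat_lit 1) [nat_lit 3001, nat_lit 1057, nat_lit 1705, nat_lit 1489, nat_lit 1549, nat_lit 1541, nat_lit 1545] (nat_lit 0) [nat_lit 21225] false,
   Spec.mk (nat_lit 1545) (nat_lit 0) [nat_lit 3003, nat_lit 1059, nat_lit 1707, nat_lit 1491, nat_lit 1551, nat_lit 1543] (nat_lit 0) [] false,
   Spec.mk (nat_lit 1549) (nat_lit 0) [nat_lit 3007, nat_lit 1063, nat_lit 1711, nat_lit 1495, nat_lit 1567, nat_lit 1543, nat_lit 1551] (nat_lit 0) [nat_lit 21231] false,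
   Spec.mk (nat_lit 1551) (nat_lit 1) [nat_lit 3009, nat_lit 1065, nat_lit 1713, nat_lit 1497, nat_lit 1569, nat_lit 1545, nat_lit 1557, nat_lit 1549] (nat_lit 0) [] false,
   Spec.mk (nat_lit 1557) (nat_lit 0) [nat_lit 3015, nat_lit 1071, nat_lit 1719, nat_lit 1503, nat_lit 1575, nat_lit 1551] (nat_lit 0) [] false,
   Spec.mk (nat_lit 1567) (nat_lit 1) [nat_lit 3025, nat_lit 1081, nat_lit 1729, nat_lit 1513, nat_lit 1621, nat_lit 1549, nat_lit 1569] (nat_lit 0) [nat_lit 21249] false,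
   Spec.mk (nat_lit 1569) (nat_lit 1) [nat_lit 3027, nat_lit 1083, nat_lit 1731, nat_lit 1515, nat_lit 1623, nat_lit 1551, nat_lit 1575, nat_lit 1567] (nat_lit 0) [] false]

noncomputable def sp4 : List Spec :=
  [Spec.mk (nat_lit 1575) (nat_lit 2) [nat_lit 3033, nat_lit 1089, nat_lit 1737, nat_lit 1521, nat_lit 1629, nat_lit 1557, nat_lit 1593, nat_lit 1569] (nat_lit 0) [] false,
   Spec.mk (nat_lit 1593) (nat_lit 2) [nat_lit 3051, nat_lit 1107, nat_lit 1755, nat_lit 1647, nat_lit 1575] (nat_lit 0) [] false,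
   Spec.mk (nat_lit 1621) (nat_lit 0) [nat_lit 3079, nat_lit 1135, nat_lit 1783, nat_lit 1567, nat_lit 1623] (nat_lit 0) [nat_lit 21303] false,
   Spec.mk (nat_lit 1623) (nat_lit 0) [nat_lit 3081, nat_lit 1137, nat_lit 1785, nat_lit 1569, nat_lit 1629, nat_lit 1621] (nat_lit 0) [] false,
   Spec.mk (nat_lit 1629) (nat_lit 0) [nat_lit 3087, nat_lit 1143, nat_lit 1791, nat_lit 1575, nat_lit 1647, nat_lit 1623] (nat_lit 0) [] false,
   Spec.mk (nat_lit 1647) (nat_lit 2) [nat_lit 3105, nat_lit 1161, nat_lit 1809, nat_lit 1593, nat_lit 1629] (nat_lit 0) [] false,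
   Spec.mk (nat_lit 1703) (nat_lit 2) [nat_lit 3161, nat_lit 1217, nat_lit 1541, nat_lit 1705] (nat_lit 0) [nat_lit 21385] false,
   Spec.mk (nat_lit 1705) (nat_lit 3) [nat_lit 3163, nat_lit 1219, nat_lit 1543, nat_lit 1711, nat_lit 1703, nat_lit 1707] (nat_lit 0) [nat_lit 21387] false,
   Spec.mk (nat_lit 1707) (nat_lit 2) [nat_lit 3165, nat_lit 1221, nat_lit 1545, nat_lit 1713, nat_lit 1705] (nat_lit 0) [] false,
   Spec.mk (nat_lit 1711) (nat_lit 2) [nat_lit 3169, nat_lit 1225, nat_lit 1549, nat_lit 1729, nat_lit 1705, nat_lit 1713] (nat_lit 0) [nat_lit 21393] false,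
   Spec.mk (nat_lit 1713) (nat_lit 3) [nat_lit 3171, nat_lit 1227, nat_lit 1551, nat_lit 1731, nat_lit 1707, nat_lit 1719, nat_lit 1711] (nat_lit 0) [] false,
   Spec.mk (nat_lit 1719) (nat_lit 2) [nat_lit 3177, nat_lit 1233, nat_lit 1557, nat_lit 1737, nat_lit 1713] (nat_lit 0) [] false,
   Spec.mk (nat_lit 1729) (nat_lit 2) [nat_lit 3187, nat_lit 1243, nat_lit 1567, nat_lit 1783, nat_lit 1711, nat_lit 1731] (nat_lit 0) [nat_lit 21411] false,
   Spec.mk (nat_lit 1731) (nat_lit 2) [nat_lit 3189, nat_lit 1245, nat_lit 1569, nat_lit 1785, nat_lit 1713, nat_lit 1737, nat_lit 1729] (nat_lit 0) [] false,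
   Spec.mk (nat_lit 1737) (nat_lit 3) [nat_lit 3195, nat_lit 1251, nat_lit 1575, nat_lit 1791, nat_lit 1719, nat_lit 1755, nat_lit 1731] (nat_lit 0) [] false,
   Spec.mk (nat_lit 1755) (nat_lit 2) [nat_lit 3213, nat_lit 1269, nat_lit 1593, nat_lit 1809, nat_lit 1737] (nat_lit 0) [] false,
   Spec.mk (nat_lit 1783) (nat_lit 3) [nat_lit 3241, nat_lit 1297, nat_lit 1621, nat_lit 1945, nat_lit 1729, nat_lit 1785] (nat_lit 0) [nat_lit 21465] false,
   Spec.mk (nat_lit 1785) (nat_lit 3) [nat_lit 3243, nat_lit 1299, nat_lit 1623, nat_lit 1947, nat_lit 1731, nat_lit 1791, nat_lit 1783] (nat_lit 0) [] false,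
   Spec.mk (nat_lit 1791) (nat_lit 3) [nat_lit 3249, nat_lit 1305, nat_lit 1629, nat_lit 1953, nat_lit 1737, nat_lit 1809, nat_lit 1785] (nat_lit 0) [] false,
   Spec.mk (nat_lit 1809) (nat_lit 4) [nat_lit 3267, nat_lit 1323, nat_lit 1647, nat_lit 1971, nat_lit 1755, nat_lit 1863, nat_lit 1791] (nat_lit 0) [] false,
   Spec.mk (nat_lit 1863) (nat_lit 4) [nat_lit 3321, nat_lit 1377, nat_lit 2025, nat_lit 1809] (nat_lit 0) [] false,
   Spec.mk (nat_lit 1945) (nat_lit 4) [nat_lit 3403, nat_lit 1783, nat_lit 1947] (nat_lit 0) [nat_lit 21627] false,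
   Spec.mk (nat_lit 1947) (nat_lit 4) [nat_lit 3405, nat_lit 1785, nat_lit 1953, nat_lit 1945] (nat_lit 0) [] false,
   Spec.mk (nat_lit 1953) (nat_lit 4) [nat_lit 3411, nat_lit 1791, nat_lit 1971, nat_lit 1947] (nat_lit 0) [] false,
   Spec.mk (nat_lit 1971) (nat_lit 4) [nat_lit 3429, nat_lit 1809, nat_lit 2025, nat_lit 1953] (nat_lit 0) [] false,
   Spec.mk (nat_lit 2025) (nat_lit 6) [nat_lit 3483, nat_lit 1863, nat_lit 1971] (nat_lit 0) [] false,
   Spec.mk (nat_lit 2195) (nat_lit 4) [nat_lit 6569, nat_lit 737, nat_lit 2201] (nat_lit 0) [nat_lit 21877] false,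
   Spec.mk (nat_lit 2201) (nat_lit 3) [nat_lit 6575, nat_lit 743, nat_lit 2219, nat_lit 2195, nat_lit 2207, nat_lit 2203] (nat_lit 0) [nat_lit 21883] false,
   Spec.mk (nat_lit 2203) (nat_lit 4) [nat_lit 6577, nat_lit 745, nat_lit 2221, nat_lit 2209, nat_lit 2201] (nat_lit 0) [nat_lit 21885] false,
   Spec.mk (nat_lit 2207) (nat_lit 0) [nat_lit 6581, nat_lit 749, nat_lit 2225, nat_lit 2201, nat_lit 2209] (nat_lit 0) [nat_lit 21889] false,
   Spec.mk (nat_lit 2209) (nat_lit 3) [nat_lit 6583, nat_lit 751, nat_lit 2227, nat_lit 2203, nat_lit 2207, nat_lit 2211] (nat_lit 0) [nat_lit 21891] false,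
   Spec.mk (nat_lit 2211) (nat_lit 4) [nat_lit 6585, nat_lit 753, nat_lit 2229, nat_lit 2209] (nat_lit 0) [] false,
   Spec.mk (nat_lit 2219) (nat_lit 2) [nat_lit 6593, nat_lit 761, nat_lit 2273, nat_lit 2201, nat_lit 2225, nat_lit 2221] (nat_lit 0) [nat_lit 21901] false,
   Spec.mk (nat_lit 2221) (nat_lit 2) [nat_lit 6595, nat_lit 763, nat_lit 2275, nat_lit 2203, nat_lit 2227, nat_lit 2219] (nat_lit 0) [nat_lit 21903] false,
   Spec.mk (nat_lit 2225) (nat_lit 1) [nat_lit 6599, nat_lit 767, nat_lit 2279, nat_lit 2207, nat_lit 2243, nat_lit 2219, nat_lit 2227] (nat_lit 0) [nat_lit 21907] false,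
   Spec.mk (nat_lit 2227) (nat_lit 3) [nat_lit 6601, nat_lit 769, nat_lit 2281, nat_lit 2209, nat_lit 2245, nat_lit 2221, nat_lit 2233, nat_lit 2225, nat_lit 2229] (nat_lit 0) [nat_lit 21909] false,
   Spec.mk (nat_lit 2229) (nat_lit 3) [nat_lit 6603, nat_lit 771, nat_lit 2283, nat_lit 2211, nat_lit 2247, nat_lit 2235, nat_lit 2227] (nat_lit 0) [] false,
   Spec.mk (nat_lit 2233) (nat_lit 2) [nat_lit 6607, nat_lit 775, nat_lit 2287, nat_lit 2251, nat_lit 2227, nat_lit 2235] (nat_lit 0) [nat_lit 21915] false,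
   Spec.mk (nat_lit 2235) (nat_lit 4) [nat_lit 6609, nat_lit 777, nat_lit 2289, nat_lit 2253, nat_lit 2229, nat_lit 2233] (nat_lit 0) [] false,
   Spec.mk (nat_lit 2243) (nat_lit 0) [nat_lit 6617, nat_lit 785, nat_lit 2297, nat_lit 2225, nat_lit 2245] (nat_lit 0) [nat_lit 21925] false,
   Spec.mk (nat_lit 2245) (nat_lit 1) [nat_lit 6619, nat_lit 787, nat_lit 2299, nat_lit 2227, nat_lit 2251, nat_lit 2243, nat_lit 2247] (nat_lit 0) [nat_lit 21927] false,
   Spec.mk (nat_lit 2247) (nat_lit 0) [nat_lit 6621, nat_lit 789, nat_lit 2301, nat_lit 2229, nat_lit 2253, nat_lit 2245] (nat_lit 0) [] false,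
   Spec.mk (nat_lit 2251) (nat_lit 2) [nat_lit 6625, nat_lit 793, nat_lit 2305, nat_lit 2233, nat_lit 2245, nat_lit 2253] (nat_lit 0) [nat_lit 21933] false,
   Spec.mk (nat_lit 2253) (nat_lit 3) [nat_lit 6627, nat_lit 795, nat_lit 2307, nat_lit 2235, nat_lit 2247, nat_lit 2259, nat_lit 2251] (nat_lit 0) [] false,
   Spec.mk (nat_lit 2259) (nat_lit 4) [nat_lit 6633, nat_lit 801, nat_lit 2313, nat_lit 2253] (nat_lit 0) [] false,
   Spec.mk (nat_lit 2273) (nat_lit 2) [nat_lit 6647, nat_lit 815, nat_lit 2435, nat_lit 2219, nat_lit 2279, nat_lit 2275] (nat_lit 0) [nat_lit 21955] true,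
   Spec.mk (nat_lit 2275) (nat_lit 2) [nat_lit 6649, nat_lit 817, nat_lit 2437, nat_lit 2221, nat_lit 2281, nat_lit 2273] (nat_lit 0) [nat_lit 21957] false,
   Spec.mk (nat_lit 2279) (nat_lit 0) [nat_lit 6653, nat_lit 821, nat_lit 2441, nat_lit 2225, nat_lit 2297, nat_lit 2273, nat_lit 2281] (nat_lit 0) [nat_lit 21961] true,
   Spec.mk (nat_lit 2281) (nat_lit 2) [nat_lit 6655, nat_lit 823, nat_lit 2443, nat_lit 2227, nat_lit 2299, nat_lit 2275, nat_lit 2287, nat_lit 2279, nat_lit 2283] (nat_lit 0) [nat_lit 21963] true,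
   Spec.mk (nat_lit 2283) (nat_lit 2) [nat_lit 6657, nat_lit 825, nat_lit 2445, nat_lit 2229, nat_lit 2301, nat_lit 2289, nat_lit 2281] (nat_lit 0) [] false,
   Spec.mk (nat_lit 2287) (nat_lit 0) [nat_lit 6661, nat_lit 829, nat_lit 2449, nat_lit 2233, nat_lit 2305, nat_lit 2281, nat_lit 2289] (nat_lit 0) [nat_lit 21969] true,
   Spec.mk (nat_lit 2289) (nat_lit 2) [nat_lit 6663, nat_lit 831, nat_lit 2451, nat_lit 2235, nat_lit 2307, nat_lit 2283, nat_lit 2287] (nat_lit 0) [] false,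
   Spec.mk (nat_lit 2297) (nat_lit 1) [nat_lit 6671, nat_lit 839, nat_lit 2459, nat_lit 2243, nat_lit 2351, nat_lit 2279, nat_lit 2299] (nat_lit 0) [nat_lit 21979] true,
   Spec.mk (nat_lit 2299) (nat_lit 2) [nat_lit 6673, nat_lit 841, nat_lit 2461, nat_lit 2245, nat_lit 2353, nat_lit 2281, nat_lit 2305, nat_lit 2297, nat_lit 2301] (nat_lit 0) [nat_lit 21981] true,
   Spec.mk (nat_lit 2301) (nat_lit 1) [nat_lit 6675, nat_lit 843, nat_lit 2463, nat_lit 2247, nat_lit 2355, nat_lit 2283, nat_lit 2307, nat_lit 2299] (nat_lit 0) [] false,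
   Spec.mk (nat_lit 2305) (nat_lit 2) [nat_lit 6679, nat_lit 847, nat_lit 2467, nat_lit 2251, nat_lit 2359, nat_lit 2287, nat_lit 2323, nat_lit 2299, nat_lit 2307] (nat_lit 0) [nat_lit 21987] false,
   Spec.mk (nat_lit 2307) (nat_lit 3) [nat_lit 6681, nat_lit 849, nat_lit 2469, nat_lit 2253, nat_lit 2361, nat_lit 2289, nat_lit 2325, nat_lit 2301, nat_lit 2313, nat_lit 2305] (nat_lit 0) [] false,
   Spec.mk (nat_lit 2313) (nat_lit 3) [nat_lit 6687, nat_lit 855, nat_lit 2475, nat_lit 2259, nat_lit 2367, nat_lit 2331, nat_lit 2307] (nat_lit 0) [] false,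
   Spec.mk (nat_lit 2323) (nat_lit 2) [nat_lit 6697, nat_lit 865, nat_lit 2485, nat_lit 2377, nat_lit 2305, nat_lit 2325] (nat_lit 0) [nat_lit 22005] false,
   Spec.mk (nat_lit 2325) (nat_lit 2) [nat_lit 6699, nat_lit 867, nat_lit 2487, nat_lit 2379, nat_lit 2307, nat_lit 2331, nat_lit 2323] (nat_lit 0) [] false]

noncomputable def sp5 : List Spec :=
  [Spec.mk (nat_lit 2331) (nat_lit 4) [nat_lit 6705, nat_lit 873, nat_lit 2493, nat_lit 2385, nat_lit 2313, nat_lit 2325] (nat_lit 0) [] false,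
   Spec.mk (nat_lit 2351) (nat_lit 0) [nat_lit 6725, nat_lit 893, nat_lit 2513, nat_lit 2297, nat_lit 2353] (nat_lit 0) [nat_lit 22033] false,
   Spec.mk (nat_lit 2353) (nat_lit 1) [nat_lit 6727, nat_lit 895, nat_lit 2515, nat_lit 2299, nat_lit 2359, nat_lit 2351, nat_lit 2355] (nat_lit 0) [nat_lit 22035] false,
   Spec.mk (nat_lit 2355) (nat_lit 0) [nat_lit 6729, nat_lit 897, nat_lit 2517, nat_lit 2301, nat_lit 2361, nat_lit 2353] (nat_lit 0) [] false,
   Spec.mk (nat_lit 2359) (nat_lit 0) [nat_lit 6733, nat_lit 901, nat_lit 2521, nat_lit 2305, nat_lit 2377, nat_lit 2353, nat_lit 2361] (nat_lit 0) [nat_lit 22041] false,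
   Spec.mk (nat_lit 2361) (nat_lit 1) [nat_lit 6735, nat_lit 903, nat_lit 2523, nat_lit 2307, nat_lit 2379, nat_lit 2355, nat_lit 2367, nat_lit 2359] (nat_lit 0) [] false,
   Spec.mk (nat_lit 2367) (nat_lit 0) [nat_lit 6741, nat_lit 909, nat_lit 2529, nat_lit 2313, nat_lit 2385, nat_lit 2361] (nat_lit 0) [] false,
   Spec.mk (nat_lit 2377) (nat_lit 2) [nat_lit 6751, nat_lit 919, nat_lit 2539, nat_lit 2323, nat_lit 2359, nat_lit 2379] (nat_lit 0) [nat_lit 22059] false,
   Spec.mk (nat_lit 2379) (nat_lit 2) [nat_lit 6753, nat_lit 921, nat_lit 2541, nat_lit 2325, nat_lit 2361, nat_lit 2385, nat_lit 2377] (nat_lit 0) [] false,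
   Spec.mk (nat_lit 2385) (nat_lit 3) [nat_lit 6759, nat_lit 927, nat_lit 2547, nat_lit 2331, nat_lit 2367, nat_lit 2403, nat_lit 2379] (nat_lit 0) [] false,
   Spec.mk (nat_lit 2403) (nat_lit 4) [nat_lit 6777, nat_lit 945, nat_lit 2565, nat_lit 2385] (nat_lit 0) [] false,
   Spec.mk (nat_lit 2435) (nat_lit 2) [nat_lit 6809, nat_lit 977, nat_lit 2921, nat_lit 2273, nat_lit 2441, nat_lit 2437] (nat_lit 0) [nat_lit 22117] false,
   Spec.mk (nat_lit 2437) (nat_lit 2) [nat_lit 6811, nat_lit 979, nat_lit 2923, nat_lit 2275, nat_lit 2443, nat_lit 2435] (nat_lit 0) [nat_lit 22119] false,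
   Spec.mk (nat_lit 2441) (nat_lit 0) [nat_lit 6815, nat_lit 983, nat_lit 2927, nat_lit 2279, nat_lit 2459, nat_lit 2435, nat_lit 2443] (nat_lit 0) [nat_lit 22123] true,
   Spec.mk (nat_lit 2443) (nat_lit 2) [nat_lit 6817, nat_lit 985, nat_lit 2929, nat_lit 2281, nat_lit 2461, nat_lit 2437, nat_lit 2449, nat_lit 2441, nat_lit 2445] (nat_lit 0) [nat_lit 22125] true,
   Spec.mk (nat_lit 2445) (nat_lit 2) [nat_lit 6819, nat_lit 987, nat_lit 2931, nat_lit 2283, nat_lit 2463, nat_lit 2451, nat_lit 2443] (nat_lit 0) [] false,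
   Spec.mk (nat_lit 2449) (nat_lit 0) [nat_lit 6823, nat_lit 991, nat_lit 2935, nat_lit 2287, nat_lit 2467, nat_lit 2443, nat_lit 2451] (nat_lit 0) [nat_lit 22131] false,
   Spec.mk (nat_lit 2451) (nat_lit 2) [nat_lit 6825, nat_lit 993, nat_lit 2937, nat_lit 2289, nat_lit 2469, nat_lit 2445, nat_lit 2449] (nat_lit 0) [] false,
   Spec.mk (nat_lit 2459) (nat_lit 0) [nat_lit 6833, nat_lit 1001, nat_lit 2945, nat_lit 2297, nat_lit 2513, nat_lit 2441, nat_lit 2461] (nat_lit 0) [nat_lit 22141] true,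
   Spec.mk (nat_lit 2461) (nat_lit 1) [nat_lit 6835, nat_lit 1003, nat_lit 2947, nat_lit 2299, nat_lit 2515, nat_lit 2443, nat_lit 2467, nat_lit 2459, nat_lit 2463] (nat_lit 0) [nat_lit 22143] true,
   Spec.mk (nat_lit 2463) (nat_lit 0) [nat_lit 6837, nat_lit 1005, nat_lit 2949, nat_lit 2301, nat_lit 2517, nat_lit 2445, nat_lit 2469, nat_lit 2461] (nat_lit 0) [] false,
   Spec.mk (nat_lit 2467) (nat_lit 1) [nat_lit 6841, nat_lit 1009, nat_lit 2953, nat_lit 2305, nat_lit 2521, nat_lit 2449, nat_lit 2485, nat_lit 2461, nat_lit 2469] (nat_lit 0) [nat_lit 22149] true,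
   Spec.mk (nat_lit 2469) (nat_lit 2) [nat_lit 6843, nat_lit 1011, nat_lit 2955, nat_lit 2307, nat_lit 2523, nat_lit 2451, nat_lit 2487, nat_lit 2463, nat_lit 2475, nat_lit 2467] (nat_lit 0) [] false,
   Spec.mk (nat_lit 2475) (nat_lit 2) [nat_lit 6849, nat_lit 1017, nat_lit 2961, nat_lit 2313, nat_lit 2529, nat_lit 2493, nat_lit 2469] (nat_lit 0) [] false,
   Spec.mk (nat_lit 2485) (nat_lit 0) [nat_lit 6859, nat_lit 1027, nat_lit 2971, nat_lit 2323, nat_lit 2539, nat_lit 2467, nat_lit 2487] (nat_lit 0) [nat_lit 22167] false,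
   Spec.mk (nat_lit 2487) (nat_lit 0) [nat_lit 6861, nat_lit 1029, nat_lit 2973, nat_lit 2325, nat_lit 2541, nat_lit 2469, nat_lit 2493, nat_lit 2485] (nat_lit 0) [] false,
   Spec.mk (nat_lit 2493) (nat_lit 2) [nat_lit 6867, nat_lit 1035, nat_lit 2979, nat_lit 2331, nat_lit 2547, nat_lit 2475, nat_lit 2487] (nat_lit 0) [] false,
   Spec.mk (nat_lit 2513) (nat_lit 1) [nat_lit 6887, nat_lit 1055, nat_lit 2999, nat_lit 2351, nat_lit 2675, nat_lit 2459, nat_lit 2515] (nat_lit 0) [nat_lit 22195] false,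
   Spec.mk (nat_lit 2515) (nat_lit 2) [nat_lit 6889, nat_lit 1057, nat_lit 3001, nat_lit 2353, nat_lit 2677, nat_lit 2461, nat_lit 2521, nat_lit 2513, nat_lit 2517] (nat_lit 0) [nat_lit 22197] true,
   Spec.mk (nat_lit 2517) (nat_lit 1) [nat_lit 6891, nat_lit 1059, nat_lit 3003, nat_lit 2355, nat_lit 2679, nat_lit 2463, nat_lit 2523, nat_lit 2515] (nat_lit 0) [] false,
   Spec.mk (nat_lit 2521) (nat_lit 1) [nat_lit 6895, nat_lit 1063, nat_lit 3007, nat_lit 2359, nat_lit 2683, nat_lit 2467, nat_lit 2539, nat_lit 2515, nat_lit 2523] (nat_lit 0) [nat_lit 22203] false,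
   Spec.mk (nat_lit 2523) (nat_lit 2) [nat_lit 6897, nat_lit 1065, nat_lit 3009, nat_lit 2361, nat_lit 2685, nat_lit 2469, nat_lit 2541, nat_lit 2517, nat_lit 2529, nat_lit 2521] (nat_lit 0) [] false,
   Spec.mk (nat_lit 2529) (nat_lit 1) [nat_lit 6903, nat_lit 1071, nat_lit 3015, nat_lit 2367, nat_lit 2691, nat_lit 2475, nat_lit 2547, nat_lit 2523] (nat_lit 0) [] false,
   Spec.mk (nat_lit 2539) (nat_lit 2) [nat_lit 6913, nat_lit 1081, nat_lit 3025, nat_lit 2377, nat_lit 2701, nat_lit 2485, nat_lit 2593, nat_lit 2521, nat_lit 2541] (nat_lit 0) [nat_lit 22221] false,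
   Spec.mk (nat_lit 2541) (nat_lit 2) [nat_lit 6915, nat_lit 1083, nat_lit 3027, nat_lit 2379, nat_lit 2703, nat_lit 2487, nat_lit 2595, nat_lit 2523, nat_lit 2547, nat_lit 2539] (nat_lit 0) [] false,
   Spec.mk (nat_lit 2547) (nat_lit 3) [nat_lit 6921, nat_lit 1089, nat_lit 3033, nat_lit 2385, nat_lit 2709, nat_lit 2493, nat_lit 2601, nat_lit 2529, nat_lit 2565, nat_lit 2541] (nat_lit 0) [] false,
   Spec.mk (nat_lit 2565) (nat_lit 3) [nat_lit 6939, nat_lit 1107, nat_lit 3051, nat_lit 2403, nat_lit 2727, nat_lit 2619, nat_lit 2547] (nat_lit 0) [] false,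
   Spec.mk (nat_lit 2593) (nat_lit 2) [nat_lit 6967, nat_lit 1135, nat_lit 3079, nat_lit 2755, nat_lit 2539, nat_lit 2595] (nat_lit 0) [nat_lit 22275] false,
   Spec.mk (nat_lit 2595) (nat_lit 2) [nat_lit 6969, nat_lit 1137, nat_lit 3081, nat_lit 2757, nat_lit 2541, nat_lit 2601, nat_lit 2593] (nat_lit 0) [] false,
   Spec.mk (nat_lit 2601) (nat_lit 2) [nat_lit 6975, nat_lit 1143, nat_lit 3087, nat_lit 2763, nat_lit 2547, nat_lit 2619, nat_lit 2595] (nat_lit 0) [] false,
   Spec.mk (nat_lit 2619) (nat_lit 4) [nat_lit 6993, nat_lit 1161, nat_lit 3105, nat_lit 2781, nat_lit 2565, nat_lit 2601] (nat_lit 0) [] false,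
   Spec.mk (nat_lit 2675) (nat_lit 0) [nat_lit 7049, nat_lit 1217, nat_lit 3161, nat_lit 2513, nat_lit 2677] (nat_lit 0) [nat_lit 22357] false,
   Spec.mk (nat_lit 2677) (nat_lit 1) [nat_lit 7051, nat_lit 1219, nat_lit 3163, nat_lit 2515, nat_lit 2683, nat_lit 2675, nat_lit 2679] (nat_lit 0) [nat_lit 22359] false,
   Spec.mk (nat_lit 2679) (nat_lit 0) [nat_lit 7053, nat_lit 1221, nat_lit 3165, nat_lit 2517, nat_lit 2685, nat_lit 2677] (nat_lit 0) [] false,
   Spec.mk (nat_lit 2683) (nat_lit 0) [nat_lit 7057, nat_lit 1225, nat_lit 3169, nat_lit 2521, nat_lit 2701, nat_lit 2677, nat_lit 2685] (nat_lit 0) [nat_lit 22365] false,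
   Spec.mk (nat_lit 2685) (nat_lit 1) [nat_lit 7059, nat_lit 1227, nat_lit 3171, nat_lit 2523, nat_lit 2703, nat_lit 2679, nat_lit 2691, nat_lit 2683] (nat_lit 0) [] false,
   Spec.mk (nat_lit 2691) (nat_lit 0) [nat_lit 7065, nat_lit 1233, nat_lit 3177, nat_lit 2529, nat_lit 2709, nat_lit 2685] (nat_lit 0) [] false,
   Spec.mk (nat_lit 2701) (nat_lit 0) [nat_lit 7075, nat_lit 1243, nat_lit 3187, nat_lit 2539, nat_lit 2755, nat_lit 2683, nat_lit 2703] (nat_lit 0) [nat_lit 22383] false,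
   Spec.mk (nat_lit 2703) (nat_lit 0) [nat_lit 7077, nat_lit 1245, nat_lit 3189, nat_lit 2541, nat_lit 2757, nat_lit 2685, nat_lit 2709, nat_lit 2701] (nat_lit 0) [] false,
   Spec.mk (nat_lit 2709) (nat_lit 1) [nat_lit 7083, nat_lit 1251, nat_lit 3195, nat_lit 2547, nat_lit 2763, nat_lit 2691, nat_lit 2727, nat_lit 2703] (nat_lit 0) [] false,
   Spec.mk (nat_lit 2727) (nat_lit 0) [nat_lit 7101, nat_lit 1269, nat_lit 3213, nat_lit 2565, nat_lit 2781, nat_lit 2709] (nat_lit 0) [] false,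
   Spec.mk (nat_lit 2755) (nat_lit 2) [nat_lit 7129, nat_lit 1297, nat_lit 3241, nat_lit 2593, nat_lit 2701, nat_lit 2757] (nat_lit 0) [nat_lit 22437] false,
   Spec.mk (nat_lit 2757) (nat_lit 2) [nat_lit 7131, nat_lit 1299, nat_lit 3243, nat_lit 2595, nat_lit 2703, nat_lit 2763, nat_lit 2755] (nat_lit 0) [] false,
   Spec.mk (nat_lit 2763) (nat_lit 2) [nat_lit 7137, nat_lit 1305, nat_lit 3249, nat_lit 2601, nat_lit 2709, nat_lit 2781, nat_lit 2757] (nat_lit 0) [] false,
   Spec.mk (nat_lit 2781) (nat_lit 3) [nat_lit 7155, nat_lit 1323, nat_lit 3267, nat_lit 2619, nat_lit 2727, nat_lit 2835, nat_lit 2763] (nat_lit 0) [] false,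
   Spec.mk (nat_lit 2835) (nat_lit 4) [nat_lit 7209, nat_lit 1377, nat_lit 3321, nat_lit 2781] (nat_lit 0) [] false,
   Spec.mk (nat_lit 2921) (nat_lit 3) [nat_lit 7295, nat_lit 1463, nat_lit 4379, nat_lit 2435, nat_lit 2927, nat_lit 2923] (nat_lit 0) [nat_lit 22603] false,
   Spec.mk (nat_lit 2923) (nat_lit 3) [nat_lit 7297, nat_lit 1465, nat_lit 4381, nat_lit 2437, nat_lit 2929, nat_lit 2921] (nat_lit 0) [nat_lit 22605] false,
   Spec.mk (nat_lit 2927) (nat_lit 1) [nat_lit 7301, nat_lit 1469, nat_lit 4385, nat_lit 2441, nat_lit 2945, nat_lit 2921, nat_lit 2929] (nat_lit 0) [nat_lit 22609] false,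
   Spec.mk (nat_lit 2929) (nat_lit 3) [nat_lit 7303, nat_lit 1471, nat_lit 4387, nat_lit 2443, nat_lit 2947, nat_lit 2923, nat_lit 2935, nat_lit 2927, nat_lit 2931] (nat_lit 0) [nat_lit 22611] false]

noncomputable def sp6 : List Spec :=
  [Spec.mk (nat_lit 2931) (nat_lit 3) [nat_lit 7305, nat_lit 1473, nat_lit 4389, nat_lit 2445, nat_lit 2949, nat_lit 2937, nat_lit 2929] (nat_lit 0) [] false,
   Spec.mk (nat_lit 2935) (nat_lit 1) [nat_lit 7309, nat_lit 1477, nat_lit 4393, nat_lit 2449, nat_lit 2953, nat_lit 2929, nat_lit 2937] (nat_lit 0) [nat_lit 22617] false,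
   Spec.mk (nat_lit 2937) (nat_lit 3) [nat_lit 7311, nat_lit 1479, nat_lit 4395, nat_lit 2451, nat_lit 2955, nat_lit 2931, nat_lit 2935] (nat_lit 0) [] false,
   Spec.mk (nat_lit 2945) (nat_lit 1) [nat_lit 7319, nat_lit 1487, nat_lit 4403, nat_lit 2459, nat_lit 2999, nat_lit 2927, nat_lit 2947] (nat_lit 0) [nat_lit 22627] false,
   Spec.mk (nat_lit 2947) (nat_lit 2) [nat_lit 7321, nat_lit 1489, nat_lit 4405, nat_lit 2461, nat_lit 3001, nat_lit 2929, nat_lit 2953, nat_lit 2945, nat_lit 2949] (nat_lit 0) [nat_lit 22629] false,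
   Spec.mk (nat_lit 2949) (nat_lit 1) [nat_lit 7323, nat_lit 1491, nat_lit 4407, nat_lit 2463, nat_lit 3003, nat_lit 2931, nat_lit 2955, nat_lit 2947] (nat_lit 0) [] false,
   Spec.mk (nat_lit 2953) (nat_lit 2) [nat_lit 7327, nat_lit 1495, nat_lit 4411, nat_lit 2467, nat_lit 3007, nat_lit 2935, nat_lit 2971, nat_lit 2947, nat_lit 2955] (nat_lit 0) [nat_lit 22635] false,
   Spec.mk (nat_lit 2955) (nat_lit 3) [nat_lit 7329, nat_lit 1497, nat_lit 4413, nat_lit 2469, nat_lit 3009, nat_lit 2937, nat_lit 2973, nat_lit 2949, nat_lit 2961, nat_lit 2953] (nat_lit 0) [] false,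
   Spec.mk (nat_lit 2961) (nat_lit 3) [nat_lit 7335, nat_lit 1503, nat_lit 4419, nat_lit 2475, nat_lit 3015, nat_lit 2979, nat_lit 2955] (nat_lit 0) [] false,
   Spec.mk (nat_lit 2971) (nat_lit 1) [nat_lit 7345, nat_lit 1513, nat_lit 4429, nat_lit 2485, nat_lit 3025, nat_lit 2953, nat_lit 2973] (nat_lit 0) [nat_lit 22653] false,
   Spec.mk (nat_lit 2973) (nat_lit 1) [nat_lit 7347, nat_lit 1515, nat_lit 4431, nat_lit 2487, nat_lit 3027, nat_lit 2955, nat_lit 2979, nat_lit 2971] (nat_lit 0) [] false,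
   Spec.mk (nat_lit 2979) (nat_lit 3) [nat_lit 7353, nat_lit 1521, nat_lit 4437, nat_lit 2493, nat_lit 3033, nat_lit 2961, nat_lit 2973] (nat_lit 0) [] false,
   Spec.mk (nat_lit 2999) (nat_lit 1) [nat_lit 7373, nat_lit 1541, nat_lit 4457, nat_lit 2513, nat_lit 3161, nat_lit 2945, nat_lit 3001] (nat_lit 0) [nat_lit 22681] false,
   Spec.mk (nat_lit 3001) (nat_lit 2) [nat_lit 7375, nat_lit 1543, nat_lit 4459, nat_lit 2515, nat_lit 3163, nat_lit 2947, nat_lit 3007, nat_lit 2999, nat_lit 3003] (nat_lit 0) [nat_lit 22683] false,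
   Spec.mk (nat_lit 3003) (nat_lit 1) [nat_lit 7377, nat_lit 1545, nat_lit 4461, nat_lit 2517, nat_lit 3165, nat_lit 2949, nat_lit 3009, nat_lit 3001] (nat_lit 0) [] false,
   Spec.mk (nat_lit 3007) (nat_lit 1) [nat_lit 7381, nat_lit 1549, nat_lit 4465, nat_lit 2521, nat_lit 3169, nat_lit 2953, nat_lit 3025, nat_lit 3001, nat_lit 3009] (nat_lit 0) [nat_lit 22689] false,
   Spec.mk (nat_lit 3009) (nat_lit 2) [nat_lit 7383, nat_lit 1551, nat_lit 4467, nat_lit 2523, nat_lit 3171, nat_lit 2955, nat_lit 3027, nat_lit 3003, nat_lit 3015, nat_lit 3007] (nat_lit 0) [] false,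
   Spec.mk (nat_lit 3015) (nat_lit 1) [nat_lit 7389, nat_lit 1557, nat_lit 4473, nat_lit 2529, nat_lit 3177, nat_lit 2961, nat_lit 3033, nat_lit 3009] (nat_lit 0) [] false,
   Spec.mk (nat_lit 3025) (nat_lit 2) [nat_lit 7399, nat_lit 1567, nat_lit 4483, nat_lit 2539, nat_lit 3187, nat_lit 2971, nat_lit 3079, nat_lit 3007, nat_lit 3027] (nat_lit 0) [nat_lit 22707] false,
   Spec.mk (nat_lit 3027) (nat_lit 2) [nat_lit 7401, nat_lit 1569, nat_lit 4485, nat_lit 2541, nat_lit 3189, nat_lit 2973, nat_lit 3081, nat_lit 3009, nat_lit 3033, nat_lit 3025] (nat_lit 0) [] false,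
   Spec.mk (nat_lit 3033) (nat_lit 3) [nat_lit 7407, nat_lit 1575, nat_lit 4491, nat_lit 2547, nat_lit 3195, nat_lit 2979, nat_lit 3087, nat_lit 3015, nat_lit 3051, nat_lit 3027] (nat_lit 0) [] false,
   Spec.mk (nat_lit 3051) (nat_lit 3) [nat_lit 7425, nat_lit 1593, nat_lit 4509, nat_lit 2565, nat_lit 3213, nat_lit 3105, nat_lit 3033] (nat_lit 0) [] false,
   Spec.mk (nat_lit 3079) (nat_lit 1) [nat_lit 7453, nat_lit 1621, nat_lit 4537, nat_lit 2593, nat_lit 3241, nat_lit 3025, nat_lit 3081] (nat_lit 0) [nat_lit 22761] false,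
   Spec.mk (nat_lit 3081) (nat_lit 1) [nat_lit 7455, nat_lit 1623, nat_lit 4539, nat_lit 2595, nat_lit 3243, nat_lit 3027, nat_lit 3087, nat_lit 3079] (nat_lit 0) [] false,
   Spec.mk (nat_lit 3087) (nat_lit 1) [nat_lit 7461, nat_lit 1629, nat_lit 4545, nat_lit 2601, nat_lit 3249, nat_lit 3033, nat_lit 3105, nat_lit 3081] (nat_lit 0) [] false,
   Spec.mk (nat_lit 3105) (nat_lit 3) [nat_lit 7479, nat_lit 1647, nat_lit 4563, nat_lit 2619, nat_lit 3267, nat_lit 3051, nat_lit 3087] (nat_lit 0) [] false,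
   Spec.mk (nat_lit 3161) (nat_lit 2) [nat_lit 7535, nat_lit 1703, nat_lit 4619, nat_lit 2675, nat_lit 3647, nat_lit 2999, nat_lit 3163] (nat_lit 0) [nat_lit 22843] false,
   Spec.mk (nat_lit 3163) (nat_lit 3) [nat_lit 7537, nat_lit 1705, nat_lit 4621, nat_lit 2677, nat_lit 3649, nat_lit 3001, nat_lit 3169, nat_lit 3161, nat_lit 3165] (nat_lit 0) [nat_lit 22845] false,
   Spec.mk (nat_lit 3165) (nat_lit 2) [nat_lit 7539, nat_lit 1707, nat_lit 4623, nat_lit 2679, nat_lit 3651, nat_lit 3003, nat_lit 3171, nat_lit 3163] (nat_lit 0) [] false,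
   Spec.mk (nat_lit 3169) (nat_lit 2) [nat_lit 7543, nat_lit 1711, nat_lit 4627, nat_lit 2683, nat_lit 3655, nat_lit 3007, nat_lit 3187, nat_lit 3163, nat_lit 3171] (nat_lit 0) [nat_lit 22851] false,
   Spec.mk (nat_lit 3171) (nat_lit 3) [nat_lit 7545, nat_lit 1713, nat_lit 4629, nat_lit 2685, nat_lit 3657, nat_lit 3009, nat_lit 3189, nat_lit 3165, nat_lit 3177, nat_lit 3169] (nat_lit 0) [] false,
   Spec.mk (nat_lit 3177) (nat_lit 2) [nat_lit 7551, nat_lit 1719, nat_lit 4635, nat_lit 2691, nat_lit 3663, nat_lit 3015, nat_lit 3195, nat_lit 3171] (nat_lit 0) [] false,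
   Spec.mk (nat_lit 3187) (nat_lit 2) [nat_lit 7561, nat_lit 1729, nat_lit 4645, nat_lit 2701, nat_lit 3673, nat_lit 3025, nat_lit 3241, nat_lit 3169, nat_lit 3189] (nat_lit 0) [nat_lit 22869] false,
   Spec.mk (nat_lit 3189) (nat_lit 2) [nat_lit 7563, nat_lit 1731, nat_lit 4647, nat_lit 2703, nat_lit 3675, nat_lit 3027, nat_lit 3243, nat_lit 3171, nat_lit 3195, nat_lit 3187] (nat_lit 0) [] false,
   Spec.mk (nat_lit 3195) (nat_lit 3) [nat_lit 7569, nat_lit 1737, nat_lit 4653, nat_lit 2709, nat_lit 3681, nat_lit 3033, nat_lit 3249, nat_lit 3177, nat_lit 3213, nat_lit 3189] (nat_lit 0) [] false,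
   Spec.mk (nat_lit 3213) (nat_lit 2) [nat_lit 7587, nat_lit 1755, nat_lit 4671, nat_lit 2727, nat_lit 3699, nat_lit 3051, nat_lit 3267, nat_lit 3195] (nat_lit 0) [] false,
   Spec.mk (nat_lit 3241) (nat_lit 3) [nat_lit 7615, nat_lit 1783, nat_lit 4699, nat_lit 2755, nat_lit 3727, nat_lit 3079, nat_lit 3403, nat_lit 3187, nat_lit 3243] (nat_lit 0) [nat_lit 22923] false,
   Spec.mk (nat_lit 3243) (nat_lit 3) [nat_lit 7617, nat_lit 1785, nat_lit 4701, nat_lit 2757, nat_lit 3729, nat_lit 3081, nat_lit 3405, nat_lit 3189, nat_lit 3249, nat_lit 3241] (nat_lit 0) [] false,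
   Spec.mk (nat_lit 3249) (nat_lit 3) [nat_lit 7623, nat_lit 1791, nat_lit 4707, nat_lit 2763, nat_lit 3735, nat_lit 3087, nat_lit 3411, nat_lit 3195, nat_lit 3267, nat_lit 3243] (nat_lit 0) [] false,
   Spec.mk (nat_lit 3267) (nat_lit 4) [nat_lit 7641, nat_lit 1809, nat_lit 4725, nat_lit 2781, nat_lit 3753, nat_lit 3105, nat_lit 3429, nat_lit 3213, nat_lit 3321, nat_lit 3249] (nat_lit 0) [] false,
   Spec.mk (nat_lit 3321) (nat_lit 4) [nat_lit 7695, nat_lit 1863, nat_lit 4779, nat_lit 2835, nat_lit 3807, nat_lit 3483, nat_lit 3267] (nat_lit 0) [] false,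
   Spec.mk (nat_lit 3403) (nat_lit 3) [nat_lit 7777, nat_lit 1945, nat_lit 4861, nat_lit 3889, nat_lit 3241, nat_lit 3405] (nat_lit 0) [nat_lit 23085] false,
   Spec.mk (nat_lit 3405) (nat_lit 3) [nat_lit 7779, nat_lit 1947, nat_lit 4863, nat_lit 3891, nat_lit 3243, nat_lit 3411, nat_lit 3403] (nat_lit 0) [] false,
   Spec.mk (nat_lit 3411) (nat_lit 3) [nat_lit 7785, nat_lit 1953, nat_lit 4869, nat_lit 3897, nat_lit 3249, nat_lit 3429, nat_lit 3405] (nat_lit 0) [] false,
   Spec.mk (nat_lit 3429) (nat_lit 3) [nat_lit 7803, nat_lit 1971, nat_lit 4887, nat_lit 3915, nat_lit 3267, nat_lit 3483, nat_lit 3411] (nat_lit 0) [] false,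
   Spec.mk (nat_lit 3483) (nat_lit 5) [nat_lit 7857, nat_lit 2025, nat_lit 4941, nat_lit 3969, nat_lit 3321, nat_lit 3429] (nat_lit 0) [] false,
   Spec.mk (nat_lit 3647) (nat_lit 2) [nat_lit 8021, nat_lit 5105, nat_lit 3161, nat_lit 3649] (nat_lit 0) [nat_lit 23329] false,
   Spec.mk (nat_lit 3649) (nat_lit 3) [nat_lit 8023, nat_lit 5107, nat_lit 3163, nat_lit 3655, nat_lit 3647, nat_lit 3651] (nat_lit 0) [nat_lit 23331] false,
   Spec.mk (nat_lit 3651) (nat_lit 2) [nat_lit 8025, nat_lit 5109, nat_lit 3165, nat_lit 3657, nat_lit 3649] (nat_lit 0) [] false,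
   Spec.mk (nat_lit 3655) (nat_lit 2) [nat_lit 8029, nat_lit 5113, nat_lit 3169, nat_lit 3673, nat_lit 3649, nat_lit 3657] (nat_lit 0) [nat_lit 23337] false,
   Spec.mk (nat_lit 3657) (nat_lit 3) [nat_lit 8031, nat_lit 5115, nat_lit 3171, nat_lit 3675, nat_lit 3651, nat_lit 3663, nat_lit 3655] (nat_lit 0) [] false,
   Spec.mk (nat_lit 3663) (nat_lit 2) [nat_lit 8037, nat_lit 5121, nat_lit 3177, nat_lit 3681, nat_lit 3657] (nat_lit 0) [] false,
   Spec.mk (nat_lit 3673) (nat_lit 2) [nat_lit 8047, nat_lit 5131, nat_lit 3187, nat_lit 3727, nat_lit 3655, nat_lit 3675] (nat_lit 0) [nat_lit 23355] false,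
   Spec.mk (nat_lit 3675) (nat_lit 2) [nat_lit 8049, nat_lit 5133, nat_lit 3189, nat_lit 3729, nat_lit 3657, nat_lit 3681, nat_lit 3673] (nat_lit 0) [] false,
   Spec.mk (nat_lit 3681) (nat_lit 3) [nat_lit 8055, nat_lit 5139, nat_lit 3195, nat_lit 3735, nat_lit 3663, nat_lit 3699, nat_lit 3675] (nat_lit 0) [] false,
   Spec.mk (nat_lit 3699) (nat_lit 2) [nat_lit 8073, nat_lit 5157, nat_lit 3213, nat_lit 3753, nat_lit 3681] (nat_lit 0) [] false,
   Spec.mk (nat_lit 3727) (nat_lit 2) [nat_lit 8101, nat_lit 5185, nat_lit 3241, nat_lit 3889, nat_lit 3673, nat_lit 3729] (nat_lit 0) [nat_lit 23409] false,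
   Spec.mk (nat_lit 3729) (nat_lit 2) [nat_lit 8103, nat_lit 5187, nat_lit 3243, nat_lit 3891, nat_lit 3675, nat_lit 3735, nat_lit 3727] (nat_lit 0) [] false,
   Spec.mk (nat_lit 3735) (nat_lit 2) [nat_lit 8109, nat_lit 5193, nat_lit 3249, nat_lit 3897, nat_lit 3681, nat_lit 3753, nat_lit 3729] (nat_lit 0) [] false,
   Spec.mk (nat_lit 3753) (nat_lit 3) [nat_lit 8127, nat_lit 5211, nat_lit 3267, nat_lit 3915, nat_lit 3699, nat_lit 3807, nat_lit 3735] (nat_lit 0) [] false]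

noncomputable def sp7 : List Spec :=
  [Spec.mk (nat_lit 3807) (nat_lit 2) [nat_lit 8181, nat_lit 5265, nat_lit 3321, nat_lit 3969, nat_lit 3753] (nat_lit 0) [] false,
   Spec.mk (nat_lit 3889) (nat_lit 4) [nat_lit 8263, nat_lit 5347, nat_lit 3403, nat_lit 3727, nat_lit 3891] (nat_lit 0) [nat_lit 23571] false,
   Spec.mk (nat_lit 3891) (nat_lit 4) [nat_lit 8265, nat_lit 5349, nat_lit 3405, nat_lit 3729, nat_lit 3897, nat_lit 3889] (nat_lit 0) [] false,
   Spec.mk (nat_lit 3897) (nat_lit 4) [nat_lit 8271, nat_lit 5355, nat_lit 3411, nat_lit 3735, nat_lit 3915, nat_lit 3891] (nat_lit 0) [] false,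
   Spec.mk (nat_lit 3915) (nat_lit 4) [nat_lit 8289, nat_lit 5373, nat_lit 3429, nat_lit 3753, nat_lit 3969, nat_lit 3897] (nat_lit 0) [] false,
   Spec.mk (nat_lit 3969) (nat_lit 5) [nat_lit 8343, nat_lit 5427, nat_lit 3483, nat_lit 3807, nat_lit 4131, nat_lit 3915] (nat_lit 0) [] false,
   Spec.mk (nat_lit 4131) (nat_lit 6) [nat_lit 8505, nat_lit 5589, nat_lit 3969] (nat_lit 0) [] false,
   Spec.mk (nat_lit 4379) (nat_lit 2) [nat_lit 8753, nat_lit 2921, nat_lit 4385, nat_lit 4381] (nat_lit 0) [nat_lit 24061] false,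
   Spec.mk (nat_lit 4381) (nat_lit 2) [nat_lit 8755, nat_lit 2923, nat_lit 4387, nat_lit 4379] (nat_lit 0) [nat_lit 24063] false,
   Spec.mk (nat_lit 4385) (nat_lit 0) [nat_lit 8759, nat_lit 2927, nat_lit 4403, nat_lit 4379, nat_lit 4387] (nat_lit 0) [nat_lit 24067] false,
   Spec.mk (nat_lit 4387) (nat_lit 2) [nat_lit 8761, nat_lit 2929, nat_lit 4405, nat_lit 4381, nat_lit 4393, nat_lit 4385, nat_lit 4389] (nat_lit 0) [nat_lit 24069] false,
   Spec.mk (nat_lit 4389) (nat_lit 2) [nat_lit 8763, nat_lit 2931, nat_lit 4407, nat_lit 4395, nat_lit 4387] (nat_lit 0) [] false,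
   Spec.mk (nat_lit 4393) (nat_lit 0) [nat_lit 8767, nat_lit 2935, nat_lit 4411, nat_lit 4387, nat_lit 4395] (nat_lit 0) [nat_lit 24075] false,
   Spec.mk (nat_lit 4395) (nat_lit 2) [nat_lit 8769, nat_lit 2937, nat_lit 4413, nat_lit 4389, nat_lit 4393] (nat_lit 0) [] false,
   Spec.mk (nat_lit 4403) (nat_lit 0) [nat_lit 8777, nat_lit 2945, nat_lit 4457, nat_lit 4385, nat_lit 4405] (nat_lit 0) [nat_lit 24085] false,
   Spec.mk (nat_lit 4405) (nat_lit 1) [nat_lit 8779, nat_lit 2947, nat_lit 4459, nat_lit 4387, nat_lit 4411, nat_lit 4403, nat_lit 4407] (nat_lit 0) [nat_lit 24087] false,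
   Spec.mk (nat_lit 4407) (nat_lit 0) [nat_lit 8781, nat_lit 2949, nat_lit 4461, nat_lit 4389, nat_lit 4413, nat_lit 4405] (nat_lit 0) [] false,
   Spec.mk (nat_lit 4411) (nat_lit 1) [nat_lit 8785, nat_lit 2953, nat_lit 4465, nat_lit 4393, nat_lit 4429, nat_lit 4405, nat_lit 4413] (nat_lit 0) [nat_lit 24093] false,
   Spec.mk (nat_lit 4413) (nat_lit 2) [nat_lit 8787, nat_lit 2955, nat_lit 4467, nat_lit 4395, nat_lit 4431, nat_lit 4407, nat_lit 4419, nat_lit 4411] (nat_lit 0) [] false,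
   Spec.mk (nat_lit 4419) (nat_lit 2) [nat_lit 8793, nat_lit 2961, nat_lit 4473, nat_lit 4437, nat_lit 4413] (nat_lit 0) [] false,
   Spec.mk (nat_lit 4429) (nat_lit 0) [nat_lit 8803, nat_lit 2971, nat_lit 4483, nat_lit 4411, nat_lit 4431] (nat_lit 0) [nat_lit 24111] false,
   Spec.mk (nat_lit 4431) (nat_lit 0) [nat_lit 8805, nat_lit 2973, nat_lit 4485, nat_lit 4413, nat_lit 4437, nat_lit 4429] (nat_lit 0) [] false,
   Spec.mk (nat_lit 4437) (nat_lit 2) [nat_lit 8811, nat_lit 2979, nat_lit 4491, nat_lit 4419, nat_lit 4431] (nat_lit 0) [] false,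
   Spec.mk (nat_lit 4457) (nat_lit 0) [nat_lit 8831, nat_lit 2999, nat_lit 4619, nat_lit 4403, nat_lit 4459] (nat_lit 0) [nat_lit 24139] false,
   Spec.mk (nat_lit 4459) (nat_lit 1) [nat_lit 8833, nat_lit 3001, nat_lit 4621, nat_lit 4405, nat_lit 4465, nat_lit 4457, nat_lit 4461] (nat_lit 0) [nat_lit 24141] false,
   Spec.mk (nat_lit 4461) (nat_lit 0) [nat_lit 8835, nat_lit 3003, nat_lit 4623, nat_lit 4407, nat_lit 4467, nat_lit 4459] (nat_lit 0) [] false,
   Spec.mk (nat_lit 4465) (nat_lit 0) [nat_lit 8839, nat_lit 3007, nat_lit 4627, nat_lit 4411, nat_lit 4483, nat_lit 4459, nat_lit 4467] (nat_lit 0) [nat_lit 24147] false,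
   Spec.mk (nat_lit 4467) (nat_lit 1) [nat_lit 8841, nat_lit 3009, nat_lit 4629, nat_lit 4413, nat_lit 4485, nat_lit 4461, nat_lit 4473, nat_lit 4465] (nat_lit 0) [] false,
   Spec.mk (nat_lit 4473) (nat_lit 0) [nat_lit 8847, nat_lit 3015, nat_lit 4635, nat_lit 4419, nat_lit 4491, nat_lit 4467] (nat_lit 0) [] false,
   Spec.mk (nat_lit 4483) (nat_lit 1) [nat_lit 8857, nat_lit 3025, nat_lit 4645, nat_lit 4429, nat_lit 4537, nat_lit 4465, nat_lit 4485] (nat_lit 0) [nat_lit 24165] false,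
   Spec.mk (nat_lit 4485) (nat_lit 1) [nat_lit 8859, nat_lit 3027, nat_lit 4647, nat_lit 4431, nat_lit 4539, nat_lit 4467, nat_lit 4491, nat_lit 4483] (nat_lit 0) [] false,
   Spec.mk (nat_lit 4491) (nat_lit 2) [nat_lit 8865, nat_lit 3033, nat_lit 4653, nat_lit 4437, nat_lit 4545, nat_lit 4473, nat_lit 4509, nat_lit 4485] (nat_lit 0) [] false,
   Spec.mk (nat_lit 4509) (nat_lit 2) [nat_lit 8883, nat_lit 3051, nat_lit 4671, nat_lit 4563, nat_lit 4491] (nat_lit 0) [] false,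
   Spec.mk (nat_lit 4537) (nat_lit 0) [nat_lit 8911, nat_lit 3079, nat_lit 4699, nat_lit 4483, nat_lit 4539] (nat_lit 0) [nat_lit 24219] false,
   Spec.mk (nat_lit 4539) (nat_lit 0) [nat_lit 8913, nat_lit 3081, nat_lit 4701, nat_lit 4485, nat_lit 4545, nat_lit 4537] (nat_lit 0) [] false,
   Spec.mk (nat_lit 4545) (nat_lit 0) [nat_lit 8919, nat_lit 3087, nat_lit 4707, nat_lit 4491, nat_lit 4563, nat_lit 4539] (nat_lit 0) [] false,
   Spec.mk (nat_lit 4563) (nat_lit 2) [nat_lit 8937, nat_lit 3105, nat_lit 4725, nat_lit 4509, nat_lit 4545] (nat_lit 0) [] false,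
   Spec.mk (nat_lit 4619) (nat_lit 0) [nat_lit 8993, nat_lit 3161, nat_lit 5105, nat_lit 4457, nat_lit 4621] (nat_lit 0) [nat_lit 24301] false,
   Spec.mk (nat_lit 4621) (nat_lit 1) [nat_lit 8995, nat_lit 3163, nat_lit 5107, nat_lit 4459, nat_lit 4627, nat_lit 4619, nat_lit 4623] (nat_lit 0) [nat_lit 24303] false,
   Spec.mk (nat_lit 4623) (nat_lit 0) [nat_lit 8997, nat_lit 3165, nat_lit 5109, nat_lit 4461, nat_lit 4629, nat_lit 4621] (nat_lit 0) [] false,
   Spec.mk (nat_lit 4627) (nat_lit 0) [nat_lit 9001, nat_lit 3169, nat_lit 5113, nat_lit 4465, nat_lit 4645, nat_lit 4621, nat_lit 4629] (nat_lit 0) [nat_lit 24309] false,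
   Spec.mk (nat_lit 4629) (nat_lit 1) [nat_lit 9003, nat_lit 3171, nat_lit 5115, nat_lit 4467, nat_lit 4647, nat_lit 4623, nat_lit 4635, nat_lit 4627] (nat_lit 0) [] false,
   Spec.mk (nat_lit 4635) (nat_lit 0) [nat_lit 9009, nat_lit 3177, nat_lit 5121, nat_lit 4473, nat_lit 4653, nat_lit 4629] (nat_lit 0) [] false,
   Spec.mk (nat_lit 4645) (nat_lit 0) [nat_lit 9019, nat_lit 3187, nat_lit 5131, nat_lit 4483, nat_lit 4699, nat_lit 4627, nat_lit 4647] (nat_lit 0) [nat_lit 24327] false,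
   Spec.mk (nat_lit 4647) (nat_lit 0) [nat_lit 9021, nat_lit 3189, nat_lit 5133, nat_lit 4485, nat_lit 4701, nat_lit 4629, nat_lit 4653, nat_lit 4645] (nat_lit 0) [] false,
   Spec.mk (nat_lit 4653) (nat_lit 1) [nat_lit 9027, nat_lit 3195, nat_lit 5139, nat_lit 4491, nat_lit 4707, nat_lit 4635, nat_lit 4671, nat_lit 4647] (nat_lit 0) [] false,
   Spec.mk (nat_lit 4671) (nat_lit 0) [nat_lit 9045, nat_lit 3213, nat_lit 5157, nat_lit 4509, nat_lit 4725, nat_lit 4653] (nat_lit 0) [] false,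
   Spec.mk (nat_lit 4699) (nat_lit 1) [nat_lit 9073, nat_lit 3241, nat_lit 5185, nat_lit 4537, nat_lit 4861, nat_lit 4645, nat_lit 4701] (nat_lit 0) [nat_lit 24381] false,
   Spec.mk (nat_lit 4701) (nat_lit 1) [nat_lit 9075, nat_lit 3243, nat_lit 5187, nat_lit 4539, nat_lit 4863, nat_lit 4647, nat_lit 4707, nat_lit 4699] (nat_lit 0) [] false,
   Spec.mk (nat_lit 4707) (nat_lit 1) [nat_lit 9081, nat_lit 3249, nat_lit 5193, nat_lit 4545, nat_lit 4869, nat_lit 4653, nat_lit 4725, nat_lit 4701] (nat_lit 0) [] false,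
   Spec.mk (nat_lit 4725) (nat_lit 2) [nat_lit 9099, nat_lit 3267, nat_lit 5211, nat_lit 4563, nat_lit 4887, nat_lit 4671, nat_lit 4779, nat_lit 4707] (nat_lit 0) [] false,
   Spec.mk (nat_lit 4779) (nat_lit 2) [nat_lit 9153, nat_lit 3321, nat_lit 5265, nat_lit 4941, nat_lit 4725] (nat_lit 0) [] false,
   Spec.mk (nat_lit 4861) (nat_lit 0) [nat_lit 9235, nat_lit 3403, nat_lit 5347, nat_lit 4699, nat_lit 4863] (nat_lit 0) [nat_lit 24543] false,
   Spec.mk (nat_lit 4863) (nat_lit 0) [nat_lit 9237, nat_lit 3405, nat_lit 5349, nat_lit 4701, nat_lit 4869, nat_lit 4861] (nat_lit 0) [] false,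
   Spec.mk (nat_lit 4869) (nat_lit 0) [nat_lit 9243, nat_lit 3411, nat_lit 5355, nat_lit 4707, nat_lit 4887, nat_lit 4863] (nat_lit 0) [] false,
   Spec.mk (nat_lit 4887) (nat_lit 0) [nat_lit 9261, nat_lit 3429, nat_lit 5373, nat_lit 4725, nat_lit 4941, nat_lit 4869] (nat_lit 0) [] false,
   Spec.mk (nat_lit 4941) (nat_lit 2) [nat_lit 9315, nat_lit 3483, nat_lit 5427, nat_lit 4779, nat_lit 4887] (nat_lit 0) [] false,
   Spec.mk (nat_lit 5105) (nat_lit 2) [nat_lit 9479, nat_lit 3647, nat_lit 4619, nat_lit 5107] (nat_lit 0) [nat_lit 24787] false,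
   Spec.mk (nat_lit 5107) (nat_lit 3) [nat_lit 9481, nat_lit 3649, nat_lit 4621, nat_lit 5113, nat_lit 5105, nat_lit 5109] (nat_lit 0) [nat_lit 24789] false,
   Spec.mk (nat_lit 5109) (nat_lit 2) [nat_lit 9483, nat_lit 3651, nat_lit 4623, nat_lit 5115, nat_lit 5107] (nat_lit 0) [] false]

noncomputable def sp8 : List Spec :=
  [Spec.mk (nat_lit 5113) (nat_lit 2) [nat_lit 9487, nat_lit 3655, nat_lit 4627, nat_lit 5131, nat_lit 5107, nat_lit 5115] (nat_lit 0) [nat_lit 24795] false,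
   Spec.mk (nat_lit 5115) (nat_lit 3) [nat_lit 9489, nat_lit 3657, nat_lit 4629, nat_lit 5133, nat_lit 5109, nat_lit 5121, nat_lit 5113] (nat_lit 0) [] false,
   Spec.mk (nat_lit 5121) (nat_lit 2) [nat_lit 9495, nat_lit 3663, nat_lit 4635, nat_lit 5139, nat_lit 5115] (nat_lit 0) [] false,
   Spec.mk (nat_lit 5131) (nat_lit 2) [nat_lit 9505, nat_lit 3673, nat_lit 4645, nat_lit 5185, nat_lit 5113, nat_lit 5133] (nat_lit 0) [nat_lit 24813] false,
   Spec.mk (nat_lit 5133) (nat_lit 2) [nat_lit 9507, nat_lit 3675, nat_lit 4647, nat_lit 5187, nat_lit 5115, nat_lit 5139, nat_lit 5131] (nat_lit 0) [] false,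
   Spec.mk (nat_lit 5139) (nat_lit 3) [nat_lit 9513, nat_lit 3681, nat_lit 4653, nat_lit 5193, nat_lit 5121, nat_lit 5157, nat_lit 5133] (nat_lit 0) [] false,
   Spec.mk (nat_lit 5157) (nat_lit 2) [nat_lit 9531, nat_lit 3699, nat_lit 4671, nat_lit 5211, nat_lit 5139] (nat_lit 0) [] false,
   Spec.mk (nat_lit 5185) (nat_lit 2) [nat_lit 9559, nat_lit 3727, nat_lit 4699, nat_lit 5347, nat_lit 5131, nat_lit 5187] (nat_lit 0) [nat_lit 24867] false,
   Spec.mk (nat_lit 5187) (nat_lit 2) [nat_lit 9561, nat_lit 3729, nat_lit 4701, nat_lit 5349, nat_lit 5133, nat_lit 5193, nat_lit 5185] (nat_lit 0) [] false,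
   Spec.mk (nat_lit 5193) (nat_lit 2) [nat_lit 9567, nat_lit 3735, nat_lit 4707, nat_lit 5355, nat_lit 5139, nat_lit 5211, nat_lit 5187] (nat_lit 0) [] false,
   Spec.mk (nat_lit 5211) (nat_lit 3) [nat_lit 9585, nat_lit 3753, nat_lit 4725, nat_lit 5373, nat_lit 5157, nat_lit 5265, nat_lit 5193] (nat_lit 0) [] false,
   Spec.mk (nat_lit 5265) (nat_lit 2) [nat_lit 9639, nat_lit 3807, nat_lit 4779, nat_lit 5427, nat_lit 5211] (nat_lit 0) [] false,
   Spec.mk (nat_lit 5347) (nat_lit 3) [nat_lit 9721, nat_lit 3889, nat_lit 4861, nat_lit 5833, nat_lit 5185, nat_lit 5349] (nat_lit 0) [nat_lit 25029] false,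
   Spec.mk (nat_lit 5349) (nat_lit 3) [nat_lit 9723, nat_lit 3891, nat_lit 4863, nat_lit 5835, nat_lit 5187, nat_lit 5355, nat_lit 5347] (nat_lit 0) [] false,
   Spec.mk (nat_lit 5355) (nat_lit 3) [nat_lit 9729, nat_lit 3897, nat_lit 4869, nat_lit 5841, nat_lit 5193, nat_lit 5373, nat_lit 5349] (nat_lit 0) [] false,
   Spec.mk (nat_lit 5373) (nat_lit 3) [nat_lit 9747, nat_lit 3915, nat_lit 4887, nat_lit 5859, nat_lit 5211, nat_lit 5427, nat_lit 5355] (nat_lit 0) [] false,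
   Spec.mk (nat_lit 5427) (nat_lit 4) [nat_lit 9801, nat_lit 3969, nat_lit 4941, nat_lit 5913, nat_lit 5265, nat_lit 5589, nat_lit 5373] (nat_lit 0) [] false,
   Spec.mk (nat_lit 5589) (nat_lit 4) [nat_lit 9963, nat_lit 4131, nat_lit 6075, nat_lit 5427] (nat_lit 0) [] false,
   Spec.mk (nat_lit 5833) (nat_lit 4) [nat_lit 10207, nat_lit 5347, nat_lit 5835] (nat_lit 0) [nat_lit 25515] false,
   Spec.mk (nat_lit 5835) (nat_lit 4) [nat_lit 10209, nat_lit 5349, nat_lit 5841, nat_lit 5833] (nat_lit 0) [] false,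
   Spec.mk (nat_lit 5841) (nat_lit 4) [nat_lit 10215, nat_lit 5355, nat_lit 5859, nat_lit 5835] (nat_lit 0) [] false,
   Spec.mk (nat_lit 5859) (nat_lit 4) [nat_lit 10233, nat_lit 5373, nat_lit 5913, nat_lit 5841] (nat_lit 0) [] false,
   Spec.mk (nat_lit 5913) (nat_lit 4) [nat_lit 10287, nat_lit 5427, nat_lit 6075, nat_lit 5859] (nat_lit 0) [] false,
   Spec.mk (nat_lit 6075) (nat_lit 6) [nat_lit 10449, nat_lit 5589, nat_lit 5913] (nat_lit 0) [] false,
   Spec.mk (nat_lit 6569) (nat_lit 4) [nat_lit 19691, nat_lit 2195, nat_lit 6575] (nat_lit 0) [nat_lit 26251] false,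
   Spec.mk (nat_lit 6575) (nat_lit 3) [nat_lit 19697, nat_lit 2201, nat_lit 6593, nat_lit 6569, nat_lit 6581, nat_lit 6577] (nat_lit 0) [nat_lit 26257] false,
   Spec.mk (nat_lit 6577) (nat_lit 4) [nat_lit 19699, nat_lit 2203, nat_lit 6595, nat_lit 6583, nat_lit 6575] (nat_lit 0) [nat_lit 26259] false,
   Spec.mk (nat_lit 6581) (nat_lit 0) [nat_lit 19703, nat_lit 2207, nat_lit 6599, nat_lit 6575, nat_lit 6583] (nat_lit 0) [nat_lit 26263] false,
   Spec.mk (nat_lit 6583) (nat_lit 3) [nat_lit 19705, nat_lit 2209, nat_lit 6601, nat_lit 6577, nat_lit 6581, nat_lit 6585] (nat_lit 0) [nat_lit 26265] false,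
   Spec.mk (nat_lit 6585) (nat_lit 4) [nat_lit 19707, nat_lit 2211, nat_lit 6603, nat_lit 6583] (nat_lit 0) [] false,
   Spec.mk (nat_lit 6593) (nat_lit 2) [nat_lit 19715, nat_lit 2219, nat_lit 6647, nat_lit 6575, nat_lit 6599, nat_lit 6595] (nat_lit 0) [nat_lit 26275] false,
   Spec.mk (nat_lit 6595) (nat_lit 2) [nat_lit 19717, nat_lit 2221, nat_lit 6649, nat_lit 6577, nat_lit 6601, nat_lit 6593] (nat_lit 0) [nat_lit 26277] false,
   Spec.mk (nat_lit 6599) (nat_lit 1) [nat_lit 19721, nat_lit 2225, nat_lit 6653, nat_lit 6581, nat_lit 6617, nat_lit 6593, nat_lit 6601] (nat_lit 0) [nat_lit 26281] false,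
   Spec.mk (nat_lit 6601) (nat_lit 3) [nat_lit 19723, nat_lit 2227, nat_lit 6655, nat_lit 6583, nat_lit 6619, nat_lit 6595, nat_lit 6607, nat_lit 6599, nat_lit 6603] (nat_lit 0) [nat_lit 26283] false,
   Spec.mk (nat_lit 6603) (nat_lit 3) [nat_lit 19725, nat_lit 2229, nat_lit 6657, nat_lit 6585, nat_lit 6621, nat_lit 6609, nat_lit 6601] (nat_lit 0) [] false,
   Spec.mk (nat_lit 6607) (nat_lit 2) [nat_lit 19729, nat_lit 2233, nat_lit 6661, nat_lit 6625, nat_lit 6601, nat_lit 6609] (nat_lit 0) [nat_lit 26289] false,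
   Spec.mk (nat_lit 6609) (nat_lit 4) [nat_lit 19731, nat_lit 2235, nat_lit 6663, nat_lit 6627, nat_lit 6603, nat_lit 6607] (nat_lit 0) [] false,
   Spec.mk (nat_lit 6617) (nat_lit 0) [nat_lit 19739, nat_lit 2243, nat_lit 6671, nat_lit 6599, nat_lit 6619] (nat_lit 0) [nat_lit 26299] false,
   Spec.mk (nat_lit 6619) (nat_lit 1) [nat_lit 19741, nat_lit 2245, nat_lit 6673, nat_lit 6601, nat_lit 6625, nat_lit 6617, nat_lit 6621] (nat_lit 0) [nat_lit 26301] false,
   Spec.mk (nat_lit 6621) (nat_lit 0) [nat_lit 19743, nat_lit 2247, nat_lit 6675, nat_lit 6603, nat_lit 6627, nat_lit 6619] (nat_lit 0) [] false,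
   Spec.mk (nat_lit 6625) (nat_lit 2) [nat_lit 19747, nat_lit 2251, nat_lit 6679, nat_lit 6607, nat_lit 6619, nat_lit 6627] (nat_lit 0) [nat_lit 26307] false,
   Spec.mk (nat_lit 6627) (nat_lit 3) [nat_lit 19749, nat_lit 2253, nat_lit 6681, nat_lit 6609, nat_lit 6621, nat_lit 6633, nat_lit 6625] (nat_lit 0) [] false,
   Spec.mk (nat_lit 6633) (nat_lit 4) [nat_lit 19755, nat_lit 2259, nat_lit 6687, nat_lit 6627] (nat_lit 0) [] false,
   Spec.mk (nat_lit 6647) (nat_lit 2) [nat_lit 19769, nat_lit 2273, nat_lit 6809, nat_lit 6593, nat_lit 6653, nat_lit 6649] (nat_lit 0) [nat_lit 26329] false,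
   Spec.mk (nat_lit 6649) (nat_lit 2) [nat_lit 19771, nat_lit 2275, nat_lit 6811, nat_lit 6595, nat_lit 6655, nat_lit 6647] (nat_lit 0) [nat_lit 26331] false,
   Spec.mk (nat_lit 6653) (nat_lit 0) [nat_lit 19775, nat_lit 2279, nat_lit 6815, nat_lit 6599, nat_lit 6671, nat_lit 6647, nat_lit 6655] (nat_lit 0) [nat_lit 26335] false,
   Spec.mk (nat_lit 6655) (nat_lit 2) [nat_lit 19777, nat_lit 2281, nat_lit 6817, nat_lit 6601, nat_lit 6673, nat_lit 6649, nat_lit 6661, nat_lit 6653, nat_lit 6657] (nat_lit 0) [nat_lit 26337] false,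
   Spec.mk (nat_lit 6657) (nat_lit 2) [nat_lit 19779, nat_lit 2283, nat_lit 6819, nat_lit 6603, nat_lit 6675, nat_lit 6663, nat_lit 6655] (nat_lit 0) [] false,
   Spec.mk (nat_lit 6661) (nat_lit 0) [nat_lit 19783, nat_lit 2287, nat_lit 6823, nat_lit 6607, nat_lit 6679, nat_lit 6655, nat_lit 6663] (nat_lit 0) [nat_lit 26343] false,
   Spec.mk (nat_lit 6663) (nat_lit 2) [nat_lit 19785, nat_lit 2289, nat_lit 6825, nat_lit 6609, nat_lit 6681, nat_lit 6657, nat_lit 6661] (nat_lit 0) [] false,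
   Spec.mk (nat_lit 6671) (nat_lit 1) [nat_lit 19793, nat_lit 2297, nat_lit 6833, nat_lit 6617, nat_lit 6725, nat_lit 6653, nat_lit 6673] (nat_lit 0) [nat_lit 26353] false,
   Spec.mk (nat_lit 6673) (nat_lit 2) [nat_lit 19795, nat_lit 2299, nat_lit 6835, nat_lit 6619, nat_lit 6727, nat_lit 6655, nat_lit 6679, nat_lit 6671, nat_lit 6675] (nat_lit 0) [nat_lit 26355] false,
   Spec.mk (nat_lit 6675) (nat_lit 1) [nat_lit 19797, nat_lit 2301, nat_lit 6837, nat_lit 6621, nat_lit 6729, nat_lit 6657, nat_lit 6681, nat_lit 6673] (nat_lit 0) [] false,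
   Spec.mk (nat_lit 6679) (nat_lit 2) [nat_lit 19801, nat_lit 2305, nat_lit 6841, nat_lit 6625, nat_lit 6733, nat_lit 6661, nat_lit 6697, nat_lit 6673, nat_lit 6681] (nat_lit 0) [nat_lit 26361] false,
   Spec.mk (nat_lit 6681) (nat_lit 3) [nat_lit 19803, nat_lit 2307, nat_lit 6843, nat_lit 6627, nat_lit 6735, nat_lit 6663, nat_lit 6699, nat_lit 6675, nat_lit 6687, nat_lit 6679] (nat_lit 0) [] false,
   Spec.mk (nat_lit 6687) (nat_lit 3) [nat_lit 19809, nat_lit 2313, nat_lit 6849, nat_lit 6633, nat_lit 6741, nat_lit 6705, nat_lit 6681] (nat_lit 0) [] false,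
   Spec.mk (nat_lit 6697) (nat_lit 2) [nat_lit 19819, nat_lit 2323, nat_lit 6859, nat_lit 6751, nat_lit 6679, nat_lit 6699] (nat_lit 0) [nat_lit 26379] false,
   Spec.mk (nat_lit 6699) (nat_lit 2) [nat_lit 19821, nat_lit 2325, nat_lit 6861, nat_lit 6753, nat_lit 6681, nat_lit 6705, nat_lit 6697] (nat_lit 0) [] false,
   Spec.mk (nat_lit 6705) (nat_lit 4) [nat_lit 19827, nat_lit 2331, nat_lit 6867, nat_lit 6759, nat_lit 6687, nat_lit 6699] (nat_lit 0) [] false,
   Spec.mk (nat_lit 6725) (nat_lit 0) [nat_lit 19847, nat_lit 2351, nat_lit 6887, nat_lit 6671, nat_lit 6727] (nat_lit 0) [nat_lit 26407] false]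

noncomputable def sp9 : List Spec :=
  [Spec.mk (nat_lit 6727) (nat_lit 1) [nat_lit 19849, nat_lit 2353, nat_lit 6889, nat_lit 6673, nat_lit 6733, nat_lit 6725, nat_lit 6729] (nat_lit 0) [nat_lit 26409] false,
   Spec.mk (nat_lit 6729) (nat_lit 0) [nat_lit 19851, nat_lit 2355, nat_lit 6891, nat_lit 6675, nat_lit 6735, nat_lit 6727] (nat_lit 0) [] false,
   Spec.mk (nat_lit 6733) (nat_lit 0) [nat_lit 19855, nat_lit 2359, nat_lit 6895, nat_lit 6679, nat_lit 6751, nat_lit 6727, nat_lit 6735] (nat_lit 0) [nat_lit 26415] false,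
   Spec.mk (nat_lit 6735) (nat_lit 1) [nat_lit 19857, nat_lit 2361, nat_lit 6897, nat_lit 6681, nat_lit 6753, nat_lit 6729, nat_lit 6741, nat_lit 6733] (nat_lit 0) [] false,
   Spec.mk (nat_lit 6741) (nat_lit 0) [nat_lit 19863, nat_lit 2367, nat_lit 6903, nat_lit 6687, nat_lit 6759, nat_lit 6735] (nat_lit 0) [] false,
   Spec.mk (nat_lit 6751) (nat_lit 2) [nat_lit 19873, nat_lit 2377, nat_lit 6913, nat_lit 6697, nat_lit 6733, nat_lit 6753] (nat_lit 0) [nat_lit 26433] false,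
   Spec.mk (nat_lit 6753) (nat_lit 2) [nat_lit 19875, nat_lit 2379, nat_lit 6915, nat_lit 6699, nat_lit 6735, nat_lit 6759, nat_lit 6751] (nat_lit 0) [] false,
   Spec.mk (nat_lit 6759) (nat_lit 3) [nat_lit 19881, nat_lit 2385, nat_lit 6921, nat_lit 6705, nat_lit 6741, nat_lit 6777, nat_lit 6753] (nat_lit 0) [] false,
   Spec.mk (nat_lit 6777) (nat_lit 4) [nat_lit 19899, nat_lit 2403, nat_lit 6939, nat_lit 6759] (nat_lit 0) [] false,
   Spec.mk (nat_lit 6809) (nat_lit 2) [nat_lit 19931, nat_lit 2435, nat_lit 7295, nat_lit 6647, nat_lit 6815, nat_lit 6811] (nat_lit 0) [nat_lit 26491] false,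
   Spec.mk (nat_lit 6811) (nat_lit 2) [nat_lit 19933, nat_lit 2437, nat_lit 7297, nat_lit 6649, nat_lit 6817, nat_lit 6809] (nat_lit 0) [nat_lit 26493] false,
   Spec.mk (nat_lit 6815) (nat_lit 0) [nat_lit 19937, nat_lit 2441, nat_lit 7301, nat_lit 6653, nat_lit 6833, nat_lit 6809, nat_lit 6817] (nat_lit 0) [nat_lit 26497] false,
   Spec.mk (nat_lit 6817) (nat_lit 2) [nat_lit 19939, nat_lit 2443, nat_lit 7303, nat_lit 6655, nat_lit 6835, nat_lit 6811, nat_lit 6823, nat_lit 6815, nat_lit 6819] (nat_lit 0) [nat_lit 26499] false,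
   Spec.mk (nat_lit 6819) (nat_lit 2) [nat_lit 19941, nat_lit 2445, nat_lit 7305, nat_lit 6657, nat_lit 6837, nat_lit 6825, nat_lit 6817] (nat_lit 0) [] false,
   Spec.mk (nat_lit 6823) (nat_lit 0) [nat_lit 19945, nat_lit 2449, nat_lit 7309, nat_lit 6661, nat_lit 6841, nat_lit 6817, nat_lit 6825] (nat_lit 0) [nat_lit 26505] false,
   Spec.mk (nat_lit 6825) (nat_lit 2) [nat_lit 19947, nat_lit 2451, nat_lit 7311, nat_lit 6663, nat_lit 6843, nat_lit 6819, nat_lit 6823] (nat_lit 0) [] false,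
   Spec.mk (nat_lit 6833) (nat_lit 0) [nat_lit 19955, nat_lit 2459, nat_lit 7319, nat_lit 6671, nat_lit 6887, nat_lit 6815, nat_lit 6835] (nat_lit 0) [nat_lit 26515] false,
   Spec.mk (nat_lit 6835) (nat_lit 1) [nat_lit 19957, nat_lit 2461, nat_lit 7321, nat_lit 6673, nat_lit 6889, nat_lit 6817, nat_lit 6841, nat_lit 6833, nat_lit 6837] (nat_lit 0) [nat_lit 26517] false,
   Spec.mk (nat_lit 6837) (nat_lit 0) [nat_lit 19959, nat_lit 2463, nat_lit 7323, nat_lit 6675, nat_lit 6891, nat_lit 6819, nat_lit 6843, nat_lit 6835] (nat_lit 0) [] false,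
   Spec.mk (nat_lit 6841) (nat_lit 1) [nat_lit 19963, nat_lit 2467, nat_lit 7327, nat_lit 6679, nat_lit 6895, nat_lit 6823, nat_lit 6859, nat_lit 6835, nat_lit 6843] (nat_lit 0) [nat_lit 26523] false,
   Spec.mk (nat_lit 6843) (nat_lit 2) [nat_lit 19965, nat_lit 2469, nat_lit 7329, nat_lit 6681, nat_lit 6897, nat_lit 6825, nat_lit 6861, nat_lit 6837, nat_lit 6849, nat_lit 6841] (nat_lit 0) [] false,
   Spec.mk (nat_lit 6849) (nat_lit 2) [nat_lit 19971, nat_lit 2475, nat_lit 7335, nat_lit 6687, nat_lit 6903, nat_lit 6867, nat_lit 6843] (nat_lit 0) [] false,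
   Spec.mk (nat_lit 6859) (nat_lit 0) [nat_lit 19981, nat_lit 2485, nat_lit 7345, nat_lit 6697, nat_lit 6913, nat_lit 6841, nat_lit 6861] (nat_lit 0) [nat_lit 26541] false,
   Spec.mk (nat_lit 6861) (nat_lit 0) [nat_lit 19983, nat_lit 2487, nat_lit 7347, nat_lit 6699, nat_lit 6915, nat_lit 6843, nat_lit 6867, nat_lit 6859] (nat_lit 0) [] false,
   Spec.mk (nat_lit 6867) (nat_lit 2) [nat_lit 19989, nat_lit 2493, nat_lit 7353, nat_lit 6705, nat_lit 6921, nat_lit 6849, nat_lit 6861] (nat_lit 0) [] false,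
   Spec.mk (nat_lit 6887) (nat_lit 1) [nat_lit 20009, nat_lit 2513, nat_lit 7373, nat_lit 6725, nat_lit 7049, nat_lit 6833, nat_lit 6889] (nat_lit 0) [nat_lit 26569] false,
   Spec.mk (nat_lit 6889) (nat_lit 2) [nat_lit 20011, nat_lit 2515, nat_lit 7375, nat_lit 6727, nat_lit 7051, nat_lit 6835, nat_lit 6895, nat_lit 6887, nat_lit 6891] (nat_lit 0) [nat_lit 26571] false,
   Spec.mk (nat_lit 6891) (nat_lit 1) [nat_lit 20013, nat_lit 2517, nat_lit 7377, nat_lit 6729, nat_lit 7053, nat_lit 6837, nat_lit 6897, nat_lit 6889] (nat_lit 0) [] false,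
   Spec.mk (nat_lit 6895) (nat_lit 1) [nat_lit 20017, nat_lit 2521, nat_lit 7381, nat_lit 6733, nat_lit 7057, nat_lit 6841, nat_lit 6913, nat_lit 6889, nat_lit 6897] (nat_lit 0) [nat_lit 26577] false,
   Spec.mk (nat_lit 6897) (nat_lit 2) [nat_lit 20019, nat_lit 2523, nat_lit 7383, nat_lit 6735, nat_lit 7059, nat_lit 6843, nat_lit 6915, nat_lit 6891, nat_lit 6903, nat_lit 6895] (nat_lit 0) [] false,
   Spec.mk (nat_lit 6903) (nat_lit 1) [nat_lit 20025, nat_lit 2529, nat_lit 7389, nat_lit 6741, nat_lit 7065, nat_lit 6849, nat_lit 6921, nat_lit 6897] (nat_lit 0) [] false,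
   Spec.mk (nat_lit 6913) (nat_lit 2) [nat_lit 20035, nat_lit 2539, nat_lit 7399, nat_lit 6751, nat_lit 7075, nat_lit 6859, nat_lit 6967, nat_lit 6895, nat_lit 6915] (nat_lit 0) [nat_lit 26595] false,
   Spec.mk (nat_lit 6915) (nat_lit 2) [nat_lit 20037, nat_lit 2541, nat_lit 7401, nat_lit 6753, nat_lit 7077, nat_lit 6861, nat_lit 6969, nat_lit 6897, nat_lit 6921, nat_lit 6913] (nat_lit 0) [] false,
   Spec.mk (nat_lit 6921) (nat_lit 3) [nat_lit 20043, nat_lit 2547, nat_lit 7407, nat_lit 6759, nat_lit 7083, nat_lit 6867, nat_lit 6975, nat_lit 6903, nat_lit 6939, nat_lit 6915] (nat_lit 0) [] false,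
   Spec.mk (nat_lit 6939) (nat_lit 3) [nat_lit 20061, nat_lit 2565, nat_lit 7425, nat_lit 6777, nat_lit 7101, nat_lit 6993, nat_lit 6921] (nat_lit 0) [] false,
   Spec.mk (nat_lit 6967) (nat_lit 2) [nat_lit 20089, nat_lit 2593, nat_lit 7453, nat_lit 7129, nat_lit 6913, nat_lit 6969] (nat_lit 0) [nat_lit 26649] false,
   Spec.mk (nat_lit 6969) (nat_lit 2) [nat_lit 20091, nat_lit 2595, nat_lit 7455, nat_lit 7131, nat_lit 6915, nat_lit 6975, nat_lit 6967] (nat_lit 0) [] false,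
   Spec.mk (nat_lit 6975) (nat_lit 2) [nat_lit 20097, nat_lit 2601, nat_lit 7461, nat_lit 7137, nat_lit 6921, nat_lit 6993, nat_lit 6969] (nat_lit 0) [] false,
   Spec.mk (nat_lit 6993) (nat_lit 4) [nat_lit 20115, nat_lit 2619, nat_lit 7479, nat_lit 7155, nat_lit 6939, nat_lit 6975] (nat_lit 0) [] false,
   Spec.mk (nat_lit 7049) (nat_lit 0) [nat_lit 20171, nat_lit 2675, nat_lit 7535, nat_lit 6887, nat_lit 7051] (nat_lit 0) [nat_lit 26731] false,
   Spec.mk (nat_lit 7051) (nat_lit 1) [nat_lit 20173, nat_lit 2677, nat_lit 7537, nat_lit 6889, nat_lit 7057, nat_lit 7049, nat_lit 7053] (nat_lit 0) [nat_lit 26733] false,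
   Spec.mk (nat_lit 7053) (nat_lit 0) [nat_lit 20175, nat_lit 2679, nat_lit 7539, nat_lit 6891, nat_lit 7059, nat_lit 7051] (nat_lit 0) [] false,
   Spec.mk (nat_lit 7057) (nat_lit 0) [nat_lit 20179, nat_lit 2683, nat_lit 7543, nat_lit 6895, nat_lit 7075, nat_lit 7051, nat_lit 7059] (nat_lit 0) [nat_lit 26739] false,
   Spec.mk (nat_lit 7059) (nat_lit 1) [nat_lit 20181, nat_lit 2685, nat_lit 7545, nat_lit 6897, nat_lit 7077, nat_lit 7053, nat_lit 7065, nat_lit 7057] (nat_lit 0) [] false,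
   Spec.mk (nat_lit 7065) (nat_lit 0) [nat_lit 20187, nat_lit 2691, nat_lit 7551, nat_lit 6903, nat_lit 7083, nat_lit 7059] (nat_lit 0) [] false,
   Spec.mk (nat_lit 7075) (nat_lit 0) [nat_lit 20197, nat_lit 2701, nat_lit 7561, nat_lit 6913, nat_lit 7129, nat_lit 7057, nat_lit 7077] (nat_lit 0) [nat_lit 26757] false,
   Spec.mk (nat_lit 7077) (nat_lit 0) [nat_lit 20199, nat_lit 2703, nat_lit 7563, nat_lit 6915, nat_lit 7131, nat_lit 7059, nat_lit 7083, nat_lit 7075] (nat_lit 0) [] false,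
   Spec.mk (nat_lit 7083) (nat_lit 1) [nat_lit 20205, nat_lit 2709, nat_lit 7569, nat_lit 6921, nat_lit 7137, nat_lit 7065, nat_lit 7101, nat_lit 7077] (nat_lit 0) [] false,
   Spec.mk (nat_lit 7101) (nat_lit 0) [nat_lit 20223, nat_lit 2727, nat_lit 7587, nat_lit 6939, nat_lit 7155, nat_lit 7083] (nat_lit 0) [] false,
   Spec.mk (nat_lit 7129) (nat_lit 2) [nat_lit 20251, nat_lit 2755, nat_lit 7615, nat_lit 6967, nat_lit 7075, nat_lit 7131] (nat_lit 0) [nat_lit 26811] false,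
   Spec.mk (nat_lit 7131) (nat_lit 2) [nat_lit 20253, nat_lit 2757, nat_lit 7617, nat_lit 6969, nat_lit 7077, nat_lit 7137, nat_lit 7129] (nat_lit 0) [] false,
   Spec.mk (nat_lit 7137) (nat_lit 2) [nat_lit 20259, nat_lit 2763, nat_lit 7623, nat_lit 6975, nat_lit 7083, nat_lit 7155, nat_lit 7131] (nat_lit 0) [] false,
   Spec.mk (nat_lit 7155) (nat_lit 3) [nat_lit 20277, nat_lit 2781, nat_lit 7641, nat_lit 6993, nat_lit 7101, nat_lit 7209, nat_lit 7137] (nat_lit 0) [] false,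
   Spec.mk (nat_lit 7209) (nat_lit 4) [nat_lit 20331, nat_lit 2835, nat_lit 7695, nat_lit 7155] (nat_lit 0) [] false,
   Spec.mk (nat_lit 7295) (nat_lit 2) [nat_lit 20417, nat_lit 2921, nat_lit 8753, nat_lit 6809, nat_lit 7301, nat_lit 7297] (nat_lit 0) [nat_lit 26977] false,
   Spec.mk (nat_lit 7297) (nat_lit 2) [nat_lit 20419, nat_lit 2923, nat_lit 8755, nat_lit 6811, nat_lit 7303, nat_lit 7295] (nat_lit 0) [nat_lit 26979] false,
   Spec.mk (nat_lit 7301) (nat_lit 0) [nat_lit 20423, nat_lit 2927, nat_lit 8759, nat_lit 6815, nat_lit 7319, nat_lit 7295, nat_lit 7303] (nat_lit 0) [nat_lit 26983] false,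
   Spec.mk (nat_lit 7303) (nat_lit 2) [nat_lit 20425, nat_lit 2929, nat_lit 8761, nat_lit 6817, nat_lit 7321, nat_lit 7297, nat_lit 7309, nat_lit 7301, nat_lit 7305] (nat_lit 0) [nat_lit 26985] false,
   Spec.mk (nat_lit 7305) (nat_lit 2) [nat_lit 20427, nat_lit 2931, nat_lit 8763, nat_lit 6819, nat_lit 7323, nat_lit 7311, nat_lit 7303] (nat_lit 0) [] false,
   Spec.mk (nat_lit 7309) (nat_lit 0) [nat_lit 20431, nat_lit 2935, nat_lit 8767, nat_lit 6823, nat_lit 7327, nat_lit 7303, nat_lit 7311] (nat_lit 0) [nat_lit 26991] false]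

noncomputable def sp10 : List Spec :=
  [Spec.mk (nat_lit 7311) (nat_lit 2) [nat_lit 20433, nat_lit 2937, nat_lit 8769, nat_lit 6825, nat_lit 7329, nat_lit 7305, nat_lit 7309] (nat_lit 0) [] false,
   Spec.mk (nat_lit 7319) (nat_lit 0) [nat_lit 20441, nat_lit 2945, nat_lit 8777, nat_lit 6833, nat_lit 7373, nat_lit 7301, nat_lit 7321] (nat_lit 0) [nat_lit 27001] false,
   Spec.mk (nat_lit 7321) (nat_lit 1) [nat_lit 20443, nat_lit 2947, nat_lit 8779, nat_lit 6835, nat_lit 7375, nat_lit 7303, nat_lit 7327, nat_lit 7319, nat_lit 7323] (nat_lit 0) [nat_lit 27003] false,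
   Spec.mk (nat_lit 7323) (nat_lit 0) [nat_lit 20445, nat_lit 2949, nat_lit 8781, nat_lit 6837, nat_lit 7377, nat_lit 7305, nat_lit 7329, nat_lit 7321] (nat_lit 0) [] false,
   Spec.mk (nat_lit 7327) (nat_lit 1) [nat_lit 20449, nat_lit 2953, nat_lit 8785, nat_lit 6841, nat_lit 7381, nat_lit 7309, nat_lit 7345, nat_lit 7321, nat_lit 7329] (nat_lit 0) [nat_lit 27009] false,
   Spec.mk (nat_lit 7329) (nat_lit 2) [nat_lit 20451, nat_lit 2955, nat_lit 8787, nat_lit 6843, nat_lit 7383, nat_lit 7311, nat_lit 7347, nat_lit 7323, nat_lit 7335, nat_lit 7327] (nat_lit 0) [] false,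
   Spec.mk (nat_lit 7335) (nat_lit 2) [nat_lit 20457, nat_lit 2961, nat_lit 8793, nat_lit 6849, nat_lit 7389, nat_lit 7353, nat_lit 7329] (nat_lit 0) [] false,
   Spec.mk (nat_lit 7345) (nat_lit 0) [nat_lit 20467, nat_lit 2971, nat_lit 8803, nat_lit 6859, nat_lit 7399, nat_lit 7327, nat_lit 7347] (nat_lit 0) [nat_lit 27027] false,
   Spec.mk (nat_lit 7347) (nat_lit 0) [nat_lit 20469, nat_lit 2973, nat_lit 8805, nat_lit 6861, nat_lit 7401, nat_lit 7329, nat_lit 7353, nat_lit 7345] (nat_lit 0) [] false,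
   Spec.mk (nat_lit 7353) (nat_lit 2) [nat_lit 20475, nat_lit 2979, nat_lit 8811, nat_lit 6867, nat_lit 7407, nat_lit 7335, nat_lit 7347] (nat_lit 0) [] false,
   Spec.mk (nat_lit 7373) (nat_lit 0) [nat_lit 20495, nat_lit 2999, nat_lit 8831, nat_lit 6887, nat_lit 7535, nat_lit 7319, nat_lit 7375] (nat_lit 0) [nat_lit 27055] false,
   Spec.mk (nat_lit 7375) (nat_lit 1) [nat_lit 20497, nat_lit 3001, nat_lit 8833, nat_lit 6889, nat_lit 7537, nat_lit 7321, nat_lit 7381, nat_lit 7373, nat_lit 7377] (nat_lit 0) [nat_lit 27057] false,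
   Spec.mk (nat_lit 7377) (nat_lit 0) [nat_lit 20499, nat_lit 3003, nat_lit 8835, nat_lit 6891, nat_lit 7539, nat_lit 7323, nat_lit 7383, nat_lit 7375] (nat_lit 0) [] false,
   Spec.mk (nat_lit 7381) (nat_lit 0) [nat_lit 20503, nat_lit 3007, nat_lit 8839, nat_lit 6895, nat_lit 7543, nat_lit 7327, nat_lit 7399, nat_lit 7375, nat_lit 7383] (nat_lit 0) [nat_lit 27063] true,
   Spec.mk (nat_lit 7383) (nat_lit 1) [nat_lit 20505, nat_lit 3009, nat_lit 8841, nat_lit 6897, nat_lit 7545, nat_lit 7329, nat_lit 7401, nat_lit 7377, nat_lit 7389, nat_lit 7381] (nat_lit 0) [] false,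
   Spec.mk (nat_lit 7389) (nat_lit 0) [nat_lit 20511, nat_lit 3015, nat_lit 8847, nat_lit 6903, nat_lit 7551, nat_lit 7335, nat_lit 7407, nat_lit 7383] (nat_lit 0) [] false,
   Spec.mk (nat_lit 7399) (nat_lit 1) [nat_lit 20521, nat_lit 3025, nat_lit 8857, nat_lit 6913, nat_lit 7561, nat_lit 7345, nat_lit 7453, nat_lit 7381, nat_lit 7401] (nat_lit 0) [nat_lit 27081] false,
   Spec.mk (nat_lit 7401) (nat_lit 1) [nat_lit 20523, nat_lit 3027, nat_lit 8859, nat_lit 6915, nat_lit 7563, nat_lit 7347, nat_lit 7455, nat_lit 7383, nat_lit 7407, nat_lit 7399] (nat_lit 0) [] false,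
   Spec.mk (nat_lit 7407) (nat_lit 2) [nat_lit 20529, nat_lit 3033, nat_lit 8865, nat_lit 6921, nat_lit 7569, nat_lit 7353, nat_lit 7461, nat_lit 7389, nat_lit 7425, nat_lit 7401] (nat_lit 0) [] false,
   Spec.mk (nat_lit 7425) (nat_lit 2) [nat_lit 20547, nat_lit 3051, nat_lit 8883, nat_lit 6939, nat_lit 7587, nat_lit 7479, nat_lit 7407] (nat_lit 0) [] false,
   Spec.mk (nat_lit 7453) (nat_lit 0) [nat_lit 20575, nat_lit 3079, nat_lit 8911, nat_lit 6967, nat_lit 7615, nat_lit 7399, nat_lit 7455] (nat_lit 0) [nat_lit 27135] false,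
   Spec.mk (nat_lit 7455) (nat_lit 0) [nat_lit 20577, nat_lit 3081, nat_lit 8913, nat_lit 6969, nat_lit 7617, nat_lit 7401, nat_lit 7461, nat_lit 7453] (nat_lit 0) [] false,
   Spec.mk (nat_lit 7461) (nat_lit 0) [nat_lit 20583, nat_lit 3087, nat_lit 8919, nat_lit 6975, nat_lit 7623, nat_lit 7407, nat_lit 7479, nat_lit 7455] (nat_lit 0) [] false,
   Spec.mk (nat_lit 7479) (nat_lit 2) [nat_lit 20601, nat_lit 3105, nat_lit 8937, nat_lit 6993, nat_lit 7641, nat_lit 7425, nat_lit 7461] (nat_lit 0) [] false,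
   Spec.mk (nat_lit 7535) (nat_lit 1) [nat_lit 20657, nat_lit 3161, nat_lit 8993, nat_lit 7049, nat_lit 8021, nat_lit 7373, nat_lit 7537] (nat_lit 0) [nat_lit 27217] false,
   Spec.mk (nat_lit 7537) (nat_lit 2) [nat_lit 20659, nat_lit 3163, nat_lit 8995, nat_lit 7051, nat_lit 8023, nat_lit 7375, nat_lit 7543, nat_lit 7535, nat_lit 7539] (nat_lit 0) [nat_lit 27219] false,
   Spec.mk (nat_lit 7539) (nat_lit 1) [nat_lit 20661, nat_lit 3165, nat_lit 8997, nat_lit 7053, nat_lit 8025, nat_lit 7377, nat_lit 7545, nat_lit 7537] (nat_lit 0) [] false,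
   Spec.mk (nat_lit 7543) (nat_lit 1) [nat_lit 20665, nat_lit 3169, nat_lit 9001, nat_lit 7057, nat_lit 8029, nat_lit 7381, nat_lit 7561, nat_lit 7537, nat_lit 7545] (nat_lit 0) [nat_lit 27225] false,
   Spec.mk (nat_lit 7545) (nat_lit 2) [nat_lit 20667, nat_lit 3171, nat_lit 9003, nat_lit 7059, nat_lit 8031, nat_lit 7383, nat_lit 7563, nat_lit 7539, nat_lit 7551, nat_lit 7543] (nat_lit 0) [] false,
   Spec.mk (nat_lit 7551) (nat_lit 1) [nat_lit 20673, nat_lit 3177, nat_lit 9009, nat_lit 7065, nat_lit 8037, nat_lit 7389, nat_lit 7569, nat_lit 7545] (nat_lit 0) [] false,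
   Spec.mk (nat_lit 7561) (nat_lit 1) [nat_lit 20683, nat_lit 3187, nat_lit 9019, nat_lit 7075, nat_lit 8047, nat_lit 7399, nat_lit 7615, nat_lit 7543, nat_lit 7563] (nat_lit 0) [nat_lit 27243] false,
   Spec.mk (nat_lit 7563) (nat_lit 1) [nat_lit 20685, nat_lit 3189, nat_lit 9021, nat_lit 7077, nat_lit 8049, nat_lit 7401, nat_lit 7617, nat_lit 7545, nat_lit 7569, nat_lit 7561] (nat_lit 0) [] false,
   Spec.mk (nat_lit 7569) (nat_lit 2) [nat_lit 20691, nat_lit 3195, nat_lit 9027, nat_lit 7083, nat_lit 8055, nat_lit 7407, nat_lit 7623, nat_lit 7551, nat_lit 7587, nat_lit 7563] (nat_lit 0) [] false,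
   Spec.mk (nat_lit 7587) (nat_lit 1) [nat_lit 20709, nat_lit 3213, nat_lit 9045, nat_lit 7101, nat_lit 8073, nat_lit 7425, nat_lit 7641, nat_lit 7569] (nat_lit 0) [] false,
   Spec.mk (nat_lit 7615) (nat_lit 2) [nat_lit 20737, nat_lit 3241, nat_lit 9073, nat_lit 7129, nat_lit 8101, nat_lit 7453, nat_lit 7777, nat_lit 7561, nat_lit 7617] (nat_lit 0) [nat_lit 27297] false,
   Spec.mk (nat_lit 7617) (nat_lit 2) [nat_lit 20739, nat_lit 3243, nat_lit 9075, nat_lit 7131, nat_lit 8103, nat_lit 7455, nat_lit 7779, nat_lit 7563, nat_lit 7623, nat_lit 7615] (nat_lit 0) [] false,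
   Spec.mk (nat_lit 7623) (nat_lit 2) [nat_lit 20745, nat_lit 3249, nat_lit 9081, nat_lit 7137, nat_lit 8109, nat_lit 7461, nat_lit 7785, nat_lit 7569, nat_lit 7641, nat_lit 7617] (nat_lit 0) [] false,
   Spec.mk (nat_lit 7641) (nat_lit 3) [nat_lit 20763, nat_lit 3267, nat_lit 9099, nat_lit 7155, nat_lit 8127, nat_lit 7479, nat_lit 7803, nat_lit 7587, nat_lit 7695, nat_lit 7623] (nat_lit 0) [] false,
   Spec.mk (nat_lit 7695) (nat_lit 3) [nat_lit 20817, nat_lit 3321, nat_lit 9153, nat_lit 7209, nat_lit 8181, nat_lit 7857, nat_lit 7641] (nat_lit 0) [] false,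
   Spec.mk (nat_lit 7777) (nat_lit 2) [nat_lit 20899, nat_lit 3403, nat_lit 9235, nat_lit 8263, nat_lit 7615, nat_lit 7779] (nat_lit 0) [nat_lit 27459] false,
   Spec.mk (nat_lit 7779) (nat_lit 2) [nat_lit 20901, nat_lit 3405, nat_lit 9237, nat_lit 8265, nat_lit 7617, nat_lit 7785, nat_lit 7777] (nat_lit 0) [] false,
   Spec.mk (nat_lit 7785) (nat_lit 2) [nat_lit 20907, nat_lit 3411, nat_lit 9243, nat_lit 8271, nat_lit 7623, nat_lit 7803, nat_lit 7779] (nat_lit 0) [] false,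
   Spec.mk (nat_lit 7803) (nat_lit 2) [nat_lit 20925, nat_lit 3429, nat_lit 9261, nat_lit 8289, nat_lit 7641, nat_lit 7857, nat_lit 7785] (nat_lit 0) [] false,
   Spec.mk (nat_lit 7857) (nat_lit 4) [nat_lit 20979, nat_lit 3483, nat_lit 9315, nat_lit 8343, nat_lit 7695, nat_lit 7803] (nat_lit 0) [] false,
   Spec.mk (nat_lit 8021) (nat_lit 0) [nat_lit 21143, nat_lit 3647, nat_lit 9479, nat_lit 7535, nat_lit 8023] (nat_lit 0) [nat_lit 27703] false,
   Spec.mk (nat_lit 8023) (nat_lit 1) [nat_lit 21145, nat_lit 3649, nat_lit 9481, nat_lit 7537, nat_lit 8029, nat_lit 8021, nat_lit 8025] (nat_lit 0) [nat_lit 27705] false,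
   Spec.mk (nat_lit 8025) (nat_lit 0) [nat_lit 21147, nat_lit 3651, nat_lit 9483, nat_lit 7539, nat_lit 8031, nat_lit 8023] (nat_lit 0) [] false,
   Spec.mk (nat_lit 8029) (nat_lit 0) [nat_lit 21151, nat_lit 3655, nat_lit 9487, nat_lit 7543, nat_lit 8047, nat_lit 8023, nat_lit 8031] (nat_lit 0) [nat_lit 27711] false,
   Spec.mk (nat_lit 8031) (nat_lit 1) [nat_lit 21153, nat_lit 3657, nat_lit 9489, nat_lit 7545, nat_lit 8049, nat_lit 8025, nat_lit 8037, nat_lit 8029] (nat_lit 0) [] false,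
   Spec.mk (nat_lit 8037) (nat_lit 0) [nat_lit 21159, nat_lit 3663, nat_lit 9495, nat_lit 7551, nat_lit 8055, nat_lit 8031] (nat_lit 0) [] false,
   Spec.mk (nat_lit 8047) (nat_lit 0) [nat_lit 21169, nat_lit 3673, nat_lit 9505, nat_lit 7561, nat_lit 8101, nat_lit 8029, nat_lit 8049] (nat_lit 0) [nat_lit 27729] false,
   Spec.mk (nat_lit 8049) (nat_lit 0) [nat_lit 21171, nat_lit 3675, nat_lit 9507, nat_lit 7563, nat_lit 8103, nat_lit 8031, nat_lit 8055, nat_lit 8047] (nat_lit 0) [] false,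
   Spec.mk (nat_lit 8055) (nat_lit 1) [nat_lit 21177, nat_lit 3681, nat_lit 9513, nat_lit 7569, nat_lit 8109, nat_lit 8037, nat_lit 8073, nat_lit 8049] (nat_lit 0) [] false,
   Spec.mk (nat_lit 8073) (nat_lit 0) [nat_lit 21195, nat_lit 3699, nat_lit 9531, nat_lit 7587, nat_lit 8127, nat_lit 8055] (nat_lit 0) [] false,
   Spec.mk (nat_lit 8101) (nat_lit 0) [nat_lit 21223, nat_lit 3727, nat_lit 9559, nat_lit 7615, nat_lit 8263, nat_lit 8047, nat_lit 8103] (nat_lit 0) [nat_lit 27783] false,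
   Spec.mk (nat_lit 8103) (nat_lit 0) [nat_lit 21225, nat_lit 3729, nat_lit 9561, nat_lit 7617, nat_lit 8265, nat_lit 8049, nat_lit 8109, nat_lit 8101] (nat_lit 0) [] false,
   Spec.mk (nat_lit 8109) (nat_lit 0) [nat_lit 21231, nat_lit 3735, nat_lit 9567, nat_lit 7623, nat_lit 8271, nat_lit 8055, nat_lit 8127, nat_lit 8103] (nat_lit 0) [] false,
   Spec.mk (nat_lit 8127) (nat_lit 1) [nat_lit 21249, nat_lit 3753, nat_lit 9585, nat_lit 7641, nat_lit 8289, nat_lit 8073, nat_lit 8181, nat_lit 8109] (nat_lit 0) [] false,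
   Spec.mk (nat_lit 8181) (nat_lit 0) [nat_lit 21303, nat_lit 3807, nat_lit 9639, nat_lit 7695, nat_lit 8343, nat_lit 8127] (nat_lit 0) [] false,
   Spec.mk (nat_lit 8263) (nat_lit 2) [nat_lit 21385, nat_lit 3889, nat_lit 9721, nat_lit 7777, nat_lit 8101, nat_lit 8265] (nat_lit 0) [nat_lit 27945] false]

noncomputable def sp11 : List Spec :=
  [Spec.mk (nat_lit 8265) (nat_lit 2) [nat_lit 21387, nat_lit 3891, nat_lit 9723, nat_lit 7779, nat_lit 8103, nat_lit 8271, nat_lit 8263] (nat_lit 0) [] false,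
   Spec.mk (nat_lit 8271) (nat_lit 2) [nat_lit 21393, nat_lit 3897, nat_lit 9729, nat_lit 7785, nat_lit 8109, nat_lit 8289, nat_lit 8265] (nat_lit 0) [] false,
   Spec.mk (nat_lit 8289) (nat_lit 2) [nat_lit 21411, nat_lit 3915, nat_lit 9747, nat_lit 7803, nat_lit 8127, nat_lit 8343, nat_lit 8271] (nat_lit 0) [] false,
   Spec.mk (nat_lit 8343) (nat_lit 3) [nat_lit 21465, nat_lit 3969, nat_lit 9801, nat_lit 7857, nat_lit 8181, nat_lit 8505, nat_lit 8289] (nat_lit 0) [] false,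
   Spec.mk (nat_lit 8505) (nat_lit 4) [nat_lit 21627, nat_lit 4131, nat_lit 9963, nat_lit 8343] (nat_lit 0) [] false,
   Spec.mk (nat_lit 8753) (nat_lit 3) [nat_lit 21875, nat_lit 4379, nat_lit 13127, nat_lit 7295, nat_lit 8759, nat_lit 8755] (nat_lit 0) [nat_lit 28435] false,
   Spec.mk (nat_lit 8755) (nat_lit 3) [nat_lit 21877, nat_lit 4381, nat_lit 13129, nat_lit 7297, nat_lit 8761, nat_lit 8753] (nat_lit 0) [nat_lit 28437] false,
   Spec.mk (nat_lit 8759) (nat_lit 1) [nat_lit 21881, nat_lit 4385, nat_lit 13133, nat_lit 7301, nat_lit 8777, nat_lit 8753, nat_lit 8761] (nat_lit 0) [nat_lit 28441] false,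
   Spec.mk (nat_lit 8761) (nat_lit 3) [nat_lit 21883, nat_lit 4387, nat_lit 13135, nat_lit 7303, nat_lit 8779, nat_lit 8755, nat_lit 8767, nat_lit 8759, nat_lit 8763] (nat_lit 0) [nat_lit 28443] false,
   Spec.mk (nat_lit 8763) (nat_lit 3) [nat_lit 21885, nat_lit 4389, nat_lit 13137, nat_lit 7305, nat_lit 8781, nat_lit 8769, nat_lit 8761] (nat_lit 0) [] false,
   Spec.mk (nat_lit 8767) (nat_lit 1) [nat_lit 21889, nat_lit 4393, nat_lit 13141, nat_lit 7309, nat_lit 8785, nat_lit 8761, nat_lit 8769] (nat_lit 0) [nat_lit 28449] false,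
   Spec.mk (nat_lit 8769) (nat_lit 3) [nat_lit 21891, nat_lit 4395, nat_lit 13143, nat_lit 7311, nat_lit 8787, nat_lit 8763, nat_lit 8767] (nat_lit 0) [] false,
   Spec.mk (nat_lit 8777) (nat_lit 1) [nat_lit 21899, nat_lit 4403, nat_lit 13151, nat_lit 7319, nat_lit 8831, nat_lit 8759, nat_lit 8779] (nat_lit 0) [nat_lit 28459] false,
   Spec.mk (nat_lit 8779) (nat_lit 2) [nat_lit 21901, nat_lit 4405, nat_lit 13153, nat_lit 7321, nat_lit 8833, nat_lit 8761, nat_lit 8785, nat_lit 8777, nat_lit 8781] (nat_lit 0) [nat_lit 28461] false,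
   Spec.mk (nat_lit 8781) (nat_lit 1) [nat_lit 21903, nat_lit 4407, nat_lit 13155, nat_lit 7323, nat_lit 8835, nat_lit 8763, nat_lit 8787, nat_lit 8779] (nat_lit 0) [] false,
   Spec.mk (nat_lit 8785) (nat_lit 2) [nat_lit 21907, nat_lit 4411, nat_lit 13159, nat_lit 7327, nat_lit 8839, nat_lit 8767, nat_lit 8803, nat_lit 8779, nat_lit 8787] (nat_lit 0) [nat_lit 28467] false,
   Spec.mk (nat_lit 8787) (nat_lit 3) [nat_lit 21909, nat_lit 4413, nat_lit 13161, nat_lit 7329, nat_lit 8841, nat_lit 8769, nat_lit 8805, nat_lit 8781, nat_lit 8793, nat_lit 8785] (nat_lit 0) [] false,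
   Spec.mk (nat_lit 8793) (nat_lit 3) [nat_lit 21915, nat_lit 4419, nat_lit 13167, nat_lit 7335, nat_lit 8847, nat_lit 8811, nat_lit 8787] (nat_lit 0) [] false,
   Spec.mk (nat_lit 8803) (nat_lit 1) [nat_lit 21925, nat_lit 4429, nat_lit 13177, nat_lit 7345, nat_lit 8857, nat_lit 8785, nat_lit 8805] (nat_lit 0) [nat_lit 28485] false,
   Spec.mk (nat_lit 8805) (nat_lit 1) [nat_lit 21927, nat_lit 4431, nat_lit 13179, nat_lit 7347, nat_lit 8859, nat_lit 8787, nat_lit 8811, nat_lit 8803] (nat_lit 0) [] false,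
   Spec.mk (nat_lit 8811) (nat_lit 3) [nat_lit 21933, nat_lit 4437, nat_lit 13185, nat_lit 7353, nat_lit 8865, nat_lit 8793, nat_lit 8805] (nat_lit 0) [] false,
   Spec.mk (nat_lit 8831) (nat_lit 1) [nat_lit 21953, nat_lit 4457, nat_lit 13205, nat_lit 7373, nat_lit 8993, nat_lit 8777, nat_lit 8833] (nat_lit 0) [nat_lit 28513] false,
   Spec.mk (nat_lit 8833) (nat_lit 2) [nat_lit 21955, nat_lit 4459, nat_lit 13207, nat_lit 7375, nat_lit 8995, nat_lit 8779, nat_lit 8839, nat_lit 8831, nat_lit 8835] (nat_lit 0) [nat_lit 28515] false,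
   Spec.mk (nat_lit 8835) (nat_lit 1) [nat_lit 21957, nat_lit 4461, nat_lit 13209, nat_lit 7377, nat_lit 8997, nat_lit 8781, nat_lit 8841, nat_lit 8833] (nat_lit 0) [] false,
   Spec.mk (nat_lit 8839) (nat_lit 1) [nat_lit 21961, nat_lit 4465, nat_lit 13213, nat_lit 7381, nat_lit 9001, nat_lit 8785, nat_lit 8857, nat_lit 8833, nat_lit 8841] (nat_lit 0) [nat_lit 28521] false,
   Spec.mk (nat_lit 8841) (nat_lit 2) [nat_lit 21963, nat_lit 4467, nat_lit 13215, nat_lit 7383, nat_lit 9003, nat_lit 8787, nat_lit 8859, nat_lit 8835, nat_lit 8847, nat_lit 8839] (nat_lit 0) [] false,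
   Spec.mk (nat_lit 8847) (nat_lit 1) [nat_lit 21969, nat_lit 4473, nat_lit 13221, nat_lit 7389, nat_lit 9009, nat_lit 8793, nat_lit 8865, nat_lit 8841] (nat_lit 0) [] false,
   Spec.mk (nat_lit 8857) (nat_lit 2) [nat_lit 21979, nat_lit 4483, nat_lit 13231, nat_lit 7399, nat_lit 9019, nat_lit 8803, nat_lit 8911, nat_lit 8839, nat_lit 8859] (nat_lit 0) [nat_lit 28539] false,
   Spec.mk (nat_lit 8859) (nat_lit 2) [nat_lit 21981, nat_lit 4485, nat_lit 13233, nat_lit 7401, nat_lit 9021, nat_lit 8805, nat_lit 8913, nat_lit 8841, nat_lit 8865, nat_lit 8857] (nat_lit 0) [] false,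
   Spec.mk (nat_lit 8865) (nat_lit 3) [nat_lit 21987, nat_lit 4491, nat_lit 13239, nat_lit 7407, nat_lit 9027, nat_lit 8811, nat_lit 8919, nat_lit 8847, nat_lit 8883, nat_lit 8859] (nat_lit 0) [] false,
   Spec.mk (nat_lit 8883) (nat_lit 3) [nat_lit 22005, nat_lit 4509, nat_lit 13257, nat_lit 7425, nat_lit 9045, nat_lit 8937, nat_lit 8865] (nat_lit 0) [] false,
   Spec.mk (nat_lit 8911) (nat_lit 1) [nat_lit 22033, nat_lit 4537, nat_lit 13285, nat_lit 7453, nat_lit 9073, nat_lit 8857, nat_lit 8913] (nat_lit 0) [nat_lit 28593] false,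
   Spec.mk (nat_lit 8913) (nat_lit 1) [nat_lit 22035, nat_lit 4539, nat_lit 13287, nat_lit 7455, nat_lit 9075, nat_lit 8859, nat_lit 8919, nat_lit 8911] (nat_lit 0) [] false,
   Spec.mk (nat_lit 8919) (nat_lit 1) [nat_lit 22041, nat_lit 4545, nat_lit 13293, nat_lit 7461, nat_lit 9081, nat_lit 8865, nat_lit 8937, nat_lit 8913] (nat_lit 0) [] false,
   Spec.mk (nat_lit 8937) (nat_lit 3) [nat_lit 22059, nat_lit 4563, nat_lit 13311, nat_lit 7479, nat_lit 9099, nat_lit 8883, nat_lit 8919] (nat_lit 0) [] false,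
   Spec.mk (nat_lit 8993) (nat_lit 1) [nat_lit 22115, nat_lit 4619, nat_lit 13367, nat_lit 7535, nat_lit 9479, nat_lit 8831, nat_lit 8995] (nat_lit 0) [nat_lit 28675] false,
   Spec.mk (nat_lit 8995) (nat_lit 2) [nat_lit 22117, nat_lit 4621, nat_lit 13369, nat_lit 7537, nat_lit 9481, nat_lit 8833, nat_lit 9001, nat_lit 8993, nat_lit 8997] (nat_lit 0) [nat_lit 28677] false,
   Spec.mk (nat_lit 8997) (nat_lit 1) [nat_lit 22119, nat_lit 4623, nat_lit 13371, nat_lit 7539, nat_lit 9483, nat_lit 8835, nat_lit 9003, nat_lit 8995] (nat_lit 0) [] false,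
   Spec.mk (nat_lit 9001) (nat_lit 1) [nat_lit 22123, nat_lit 4627, nat_lit 13375, nat_lit 7543, nat_lit 9487, nat_lit 8839, nat_lit 9019, nat_lit 8995, nat_lit 9003] (nat_lit 0) [nat_lit 28683] false,
   Spec.mk (nat_lit 9003) (nat_lit 2) [nat_lit 22125, nat_lit 4629, nat_lit 13377, nat_lit 7545, nat_lit 9489, nat_lit 8841, nat_lit 9021, nat_lit 8997, nat_lit 9009, nat_lit 9001] (nat_lit 0) [] false,
   Spec.mk (nat_lit 9009) (nat_lit 1) [nat_lit 22131, nat_lit 4635, nat_lit 13383, nat_lit 7551, nat_lit 9495, nat_lit 8847, nat_lit 9027, nat_lit 9003] (nat_lit 0) [] false,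
   Spec.mk (nat_lit 9019) (nat_lit 1) [nat_lit 22141, nat_lit 4645, nat_lit 13393, nat_lit 7561, nat_lit 9505, nat_lit 8857, nat_lit 9073, nat_lit 9001, nat_lit 9021] (nat_lit 0) [nat_lit 28701] false,
   Spec.mk (nat_lit 9021) (nat_lit 1) [nat_lit 22143, nat_lit 4647, nat_lit 13395, nat_lit 7563, nat_lit 9507, nat_lit 8859, nat_lit 9075, nat_lit 9003, nat_lit 9027, nat_lit 9019] (nat_lit 0) [] false,
   Spec.mk (nat_lit 9027) (nat_lit 2) [nat_lit 22149, nat_lit 4653, nat_lit 13401, nat_lit 7569, nat_lit 9513, nat_lit 8865, nat_lit 9081, nat_lit 9009, nat_lit 9045, nat_lit 9021] (nat_lit 0) [] false,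
   Spec.mk (nat_lit 9045) (nat_lit 1) [nat_lit 22167, nat_lit 4671, nat_lit 13419, nat_lit 7587, nat_lit 9531, nat_lit 8883, nat_lit 9099, nat_lit 9027] (nat_lit 0) [] false,
   Spec.mk (nat_lit 9073) (nat_lit 2) [nat_lit 22195, nat_lit 4699, nat_lit 13447, nat_lit 7615, nat_lit 9559, nat_lit 8911, nat_lit 9235, nat_lit 9019, nat_lit 9075] (nat_lit 0) [nat_lit 28755] false,
   Spec.mk (nat_lit 9075) (nat_lit 2) [nat_lit 22197, nat_lit 4701, nat_lit 13449, nat_lit 7617, nat_lit 9561, nat_lit 8913, nat_lit 9237, nat_lit 9021, nat_lit 9081, nat_lit 9073] (nat_lit 0) [] false,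
   Spec.mk (nat_lit 9081) (nat_lit 2) [nat_lit 22203, nat_lit 4707, nat_lit 13455, nat_lit 7623, nat_lit 9567, nat_lit 8919, nat_lit 9243, nat_lit 9027, nat_lit 9099, nat_lit 9075] (nat_lit 0) [] false,
   Spec.mk (nat_lit 9099) (nat_lit 3) [nat_lit 22221, nat_lit 4725, nat_lit 13473, nat_lit 7641, nat_lit 9585, nat_lit 8937, nat_lit 9261, nat_lit 9045, nat_lit 9153, nat_lit 9081] (nat_lit 0) [] false,
   Spec.mk (nat_lit 9153) (nat_lit 3) [nat_lit 22275, nat_lit 4779, nat_lit 13527, nat_lit 7695, nat_lit 9639, nat_lit 9315, nat_lit 9099] (nat_lit 0) [] false,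
   Spec.mk (nat_lit 9235) (nat_lit 1) [nat_lit 22357, nat_lit 4861, nat_lit 13609, nat_lit 7777, nat_lit 9721, nat_lit 9073, nat_lit 9237] (nat_lit 0) [nat_lit 28917] false,
   Spec.mk (nat_lit 9237) (nat_lit 1) [nat_lit 22359, nat_lit 4863, nat_lit 13611, nat_lit 7779, nat_lit 9723, nat_lit 9075, nat_lit 9243, nat_lit 9235] (nat_lit 0) [] false,
   Spec.mk (nat_lit 9243) (nat_lit 1) [nat_lit 22365, nat_lit 4869, nat_lit 13617, nat_lit 7785, nat_lit 9729, nat_lit 9081, nat_lit 9261, nat_lit 9237] (nat_lit 0) [] false,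
   Spec.mk (nat_lit 9261) (nat_lit 1) [nat_lit 22383, nat_lit 4887, nat_lit 13635, nat_lit 7803, nat_lit 9747, nat_lit 9099, nat_lit 9315, nat_lit 9243] (nat_lit 0) [] false,
   Spec.mk (nat_lit 9315) (nat_lit 3) [nat_lit 22437, nat_lit 4941, nat_lit 13689, nat_lit 7857, nat_lit 9801, nat_lit 9153, nat_lit 9261] (nat_lit 0) [] false,
   Spec.mk (nat_lit 9479) (nat_lit 2) [nat_lit 22601, nat_lit 5105, nat_lit 13853, nat_lit 8021, nat_lit 10937, nat_lit 8993, nat_lit 9481] (nat_lit 0) [nat_lit 29161] false,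
   Spec.mk (nat_lit 9481) (nat_lit 3) [nat_lit 22603, nat_lit 5107, nat_lit 13855, nat_lit 8023, nat_lit 10939, nat_lit 8995, nat_lit 9487, nat_lit 9479, nat_lit 9483] (nat_lit 0) [nat_lit 29163] false,
   Spec.mk (nat_lit 9483) (nat_lit 2) [nat_lit 22605, nat_lit 5109, nat_lit 13857, nat_lit 8025, nat_lit 10941, nat_lit 8997, nat_lit 9489, nat_lit 9481] (nat_lit 0) [] false,
   Spec.mk (nat_lit 9487) (nat_lit 2) [nat_lit 22609, nat_lit 5113, nat_lit 13861, nat_lit 8029, nat_lit 10945, nat_lit 9001, nat_lit 9505, nat_lit 9481, nat_lit 9489] (nat_lit 0) [nat_lit 29169] false,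
   Spec.mk (nat_lit 9489) (nat_lit 3) [nat_lit 22611, nat_lit 5115, nat_lit 13863, nat_lit 8031, nat_lit 10947, nat_lit 9003, nat_lit 9507, nat_lit 9483, nat_lit 9495, nat_lit 9487] (nat_lit 0) [] false]

noncomputable def sp12 : List Spec :=
  [Spec.mk (nat_lit 9495) (nat_lit 2) [nat_lit 22617, nat_lit 5121, nat_lit 13869, nat_lit 8037, nat_lit 10953, nat_lit 9009, nat_lit 9513, nat_lit 9489] (nat_lit 0) [] false,
   Spec.mk (nat_lit 9505) (nat_lit 2) [nat_lit 22627, nat_lit 5131, nat_lit 13879, nat_lit 8047, nat_lit 10963, nat_lit 9019, nat_lit 9559, nat_lit 9487, nat_lit 9507] (nat_lit 0) [nat_lit 29187] false,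
   Spec.mk (nat_lit 9507) (nat_lit 2) [nat_lit 22629, nat_lit 5133, nat_lit 13881, nat_lit 8049, nat_lit 10965, nat_lit 9021, nat_lit 9561, nat_lit 9489, nat_lit 9513, nat_lit 9505] (nat_lit 0) [] false,
   Spec.mk (nat_lit 9513) (nat_lit 3) [nat_lit 22635, nat_lit 5139, nat_lit 13887, nat_lit 8055, nat_lit 10971, nat_lit 9027, nat_lit 9567, nat_lit 9495, nat_lit 9531, nat_lit 9507] (nat_lit 0) [] false,
   Spec.mk (nat_lit 9531) (nat_lit 2) [nat_lit 22653, nat_lit 5157, nat_lit 13905, nat_lit 8073, nat_lit 10989, nat_lit 9045, nat_lit 9585, nat_lit 9513] (nat_lit 0) [] false,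
   Spec.mk (nat_lit 9559) (nat_lit 2) [nat_lit 22681, nat_lit 5185, nat_lit 13933, nat_lit 8101, nat_lit 11017, nat_lit 9073, nat_lit 9721, nat_lit 9505, nat_lit 9561] (nat_lit 0) [nat_lit 29241] false,
   Spec.mk (nat_lit 9561) (nat_lit 2) [nat_lit 22683, nat_lit 5187, nat_lit 13935, nat_lit 8103, nat_lit 11019, nat_lit 9075, nat_lit 9723, nat_lit 9507, nat_lit 9567, nat_lit 9559] (nat_lit 0) [] false,
   Spec.mk (nat_lit 9567) (nat_lit 2) [nat_lit 22689, nat_lit 5193, nat_lit 13941, nat_lit 8109, nat_lit 11025, nat_lit 9081, nat_lit 9729, nat_lit 9513, nat_lit 9585, nat_lit 9561] (nat_lit 0) [] false,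
   Spec.mk (nat_lit 9585) (nat_lit 3) [nat_lit 22707, nat_lit 5211, nat_lit 13959, nat_lit 8127, nat_lit 11043, nat_lit 9099, nat_lit 9747, nat_lit 9531, nat_lit 9639, nat_lit 9567] (nat_lit 0) [] false,
   Spec.mk (nat_lit 9639) (nat_lit 2) [nat_lit 22761, nat_lit 5265, nat_lit 14013, nat_lit 8181, nat_lit 11097, nat_lit 9153, nat_lit 9801, nat_lit 9585] (nat_lit 0) [] false,
   Spec.mk (nat_lit 9721) (nat_lit 3) [nat_lit 22843, nat_lit 5347, nat_lit 14095, nat_lit 8263, nat_lit 11179, nat_lit 9235, nat_lit 10207, nat_lit 9559, nat_lit 9723] (nat_lit 0) [nat_lit 29403] false,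
   Spec.mk (nat_lit 9723) (nat_lit 3) [nat_lit 22845, nat_lit 5349, nat_lit 14097, nat_lit 8265, nat_lit 11181, nat_lit 9237, nat_lit 10209, nat_lit 9561, nat_lit 9729, nat_lit 9721] (nat_lit 0) [] false,
   Spec.mk (nat_lit 9729) (nat_lit 3) [nat_lit 22851, nat_lit 5355, nat_lit 14103, nat_lit 8271, nat_lit 11187, nat_lit 9243, nat_lit 10215, nat_lit 9567, nat_lit 9747, nat_lit 9723] (nat_lit 0) [] false,
   Spec.mk (nat_lit 9747) (nat_lit 3) [nat_lit 22869, nat_lit 5373, nat_lit 14121, nat_lit 8289, nat_lit 11205, nat_lit 9261, nat_lit 10233, nat_lit 9585, nat_lit 9801, nat_lit 9729] (nat_lit 0) [] false,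
   Spec.mk (nat_lit 9801) (nat_lit 4) [nat_lit 22923, nat_lit 5427, nat_lit 14175, nat_lit 8343, nat_lit 11259, nat_lit 9315, nat_lit 10287, nat_lit 9639, nat_lit 9963, nat_lit 9747] (nat_lit 0) [] false,
   Spec.mk (nat_lit 9963) (nat_lit 4) [nat_lit 23085, nat_lit 5589, nat_lit 14337, nat_lit 8505, nat_lit 11421, nat_lit 10449, nat_lit 9801] (nat_lit 0) [] false,
   Spec.mk (nat_lit 10207) (nat_lit 3) [nat_lit 23329, nat_lit 5833, nat_lit 14581, nat_lit 11665, nat_lit 9721, nat_lit 10209] (nat_lit 0) [nat_lit 29889] false,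
   Spec.mk (nat_lit 10209) (nat_lit 3) [nat_lit 23331, nat_lit 5835, nat_lit 14583, nat_lit 11667, nat_lit 9723, nat_lit 10215, nat_lit 10207] (nat_lit 0) [] false,
   Spec.mk (nat_lit 10215) (nat_lit 3) [nat_lit 23337, nat_lit 5841, nat_lit 14589, nat_lit 11673, nat_lit 9729, nat_lit 10233, nat_lit 10209] (nat_lit 0) [] false,
   Spec.mk (nat_lit 10233) (nat_lit 3) [nat_lit 23355, nat_lit 5859, nat_lit 14607, nat_lit 11691, nat_lit 9747, nat_lit 10287, nat_lit 10215] (nat_lit 0) [] false,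
   Spec.mk (nat_lit 10287) (nat_lit 3) [nat_lit 23409, nat_lit 5913, nat_lit 14661, nat_lit 11745, nat_lit 9801, nat_lit 10449, nat_lit 10233] (nat_lit 0) [] false,
   Spec.mk (nat_lit 10449) (nat_lit 5) [nat_lit 23571, nat_lit 6075, nat_lit 14823, nat_lit 11907, nat_lit 9963, nat_lit 10287] (nat_lit 0) [] false,
   Spec.mk (nat_lit 10937) (nat_lit 2) [nat_lit 24059, nat_lit 15311, nat_lit 9479, nat_lit 10939] (nat_lit 0) [nat_lit 30619] false,
   Spec.mk (nat_lit 10939) (nat_lit 3) [nat_lit 24061, nat_lit 15313, nat_lit 9481, nat_lit 10945, nat_lit 10937, nat_lit 10941] (nat_lit 0) [nat_lit 30621] false,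
   Spec.mk (nat_lit 10941) (nat_lit 2) [nat_lit 24063, nat_lit 15315, nat_lit 9483, nat_lit 10947, nat_lit 10939] (nat_lit 0) [] false,
   Spec.mk (nat_lit 10945) (nat_lit 2) [nat_lit 24067, nat_lit 15319, nat_lit 9487, nat_lit 10963, nat_lit 10939, nat_lit 10947] (nat_lit 0) [nat_lit 30627] false,
   Spec.mk (nat_lit 10947) (nat_lit 3) [nat_lit 24069, nat_lit 15321, nat_lit 9489, nat_lit 10965, nat_lit 10941, nat_lit 10953, nat_lit 10945] (nat_lit 0) [] false,
   Spec.mk (nat_lit 10953) (nat_lit 2) [nat_lit 24075, nat_lit 15327, nat_lit 9495, nat_lit 10971, nat_lit 10947] (nat_lit 0) [] false,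
   Spec.mk (nat_lit 10963) (nat_lit 2) [nat_lit 24085, nat_lit 15337, nat_lit 9505, nat_lit 11017, nat_lit 10945, nat_lit 10965] (nat_lit 0) [nat_lit 30645] false,
   Spec.mk (nat_lit 10965) (nat_lit 2) [nat_lit 24087, nat_lit 15339, nat_lit 9507, nat_lit 11019, nat_lit 10947, nat_lit 10971, nat_lit 10963] (nat_lit 0) [] false,
   Spec.mk (nat_lit 10971) (nat_lit 3) [nat_lit 24093, nat_lit 15345, nat_lit 9513, nat_lit 11025, nat_lit 10953, nat_lit 10989, nat_lit 10965] (nat_lit 0) [] false,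
   Spec.mk (nat_lit 10989) (nat_lit 2) [nat_lit 24111, nat_lit 15363, nat_lit 9531, nat_lit 11043, nat_lit 10971] (nat_lit 0) [] false,
   Spec.mk (nat_lit 11017) (nat_lit 2) [nat_lit 24139, nat_lit 15391, nat_lit 9559, nat_lit 11179, nat_lit 10963, nat_lit 11019] (nat_lit 0) [nat_lit 30699] false,
   Spec.mk (nat_lit 11019) (nat_lit 2) [nat_lit 24141, nat_lit 15393, nat_lit 9561, nat_lit 11181, nat_lit 10965, nat_lit 11025, nat_lit 11017] (nat_lit 0) [] false,
   Spec.mk (nat_lit 11025) (nat_lit 2) [nat_lit 24147, nat_lit 15399, nat_lit 9567, nat_lit 11187, nat_lit 10971, nat_lit 11043, nat_lit 11019] (nat_lit 0) [] false,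
   Spec.mk (nat_lit 11043) (nat_lit 3) [nat_lit 24165, nat_lit 15417, nat_lit 9585, nat_lit 11205, nat_lit 10989, nat_lit 11097, nat_lit 11025] (nat_lit 0) [] false,
   Spec.mk (nat_lit 11097) (nat_lit 2) [nat_lit 24219, nat_lit 15471, nat_lit 9639, nat_lit 11259, nat_lit 11043] (nat_lit 0) [] false,
   Spec.mk (nat_lit 11179) (nat_lit 2) [nat_lit 24301, nat_lit 15553, nat_lit 9721, nat_lit 11665, nat_lit 11017, nat_lit 11181] (nat_lit 0) [nat_lit 30861] false,
   Spec.mk (nat_lit 11181) (nat_lit 2) [nat_lit 24303, nat_lit 15555, nat_lit 9723, nat_lit 11667, nat_lit 11019, nat_lit 11187, nat_lit 11179] (nat_lit 0) [] false,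
   Spec.mk (nat_lit 11187) (nat_lit 2) [nat_lit 24309, nat_lit 15561, nat_lit 9729, nat_lit 11673, nat_lit 11025, nat_lit 11205, nat_lit 11181] (nat_lit 0) [] false,
   Spec.mk (nat_lit 11205) (nat_lit 2) [nat_lit 24327, nat_lit 15579, nat_lit 9747, nat_lit 11691, nat_lit 11043, nat_lit 11259, nat_lit 11187] (nat_lit 0) [] false,
   Spec.mk (nat_lit 11259) (nat_lit 3) [nat_lit 24381, nat_lit 15633, nat_lit 9801, nat_lit 11745, nat_lit 11097, nat_lit 11421, nat_lit 11205] (nat_lit 0) [] false,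
   Spec.mk (nat_lit 11421) (nat_lit 2) [nat_lit 24543, nat_lit 15795, nat_lit 9963, nat_lit 11907, nat_lit 11259] (nat_lit 0) [] false,
   Spec.mk (nat_lit 11665) (nat_lit 4) [nat_lit 24787, nat_lit 16039, nat_lit 10207, nat_lit 11179, nat_lit 11667] (nat_lit 0) [nat_lit 31347] false,
   Spec.mk (nat_lit 11667) (nat_lit 4) [nat_lit 24789, nat_lit 16041, nat_lit 10209, nat_lit 11181, nat_lit 11673, nat_lit 11665] (nat_lit 0) [] false,
   Spec.mk (nat_lit 11673) (nat_lit 4) [nat_lit 24795, nat_lit 16047, nat_lit 10215, nat_lit 11187, nat_lit 11691, nat_lit 11667] (nat_lit 0) [] false,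
   Spec.mk (nat_lit 11691) (nat_lit 4) [nat_lit 24813, nat_lit 16065, nat_lit 10233, nat_lit 11205, nat_lit 11745, nat_lit 11673] (nat_lit 0) [] false,
   Spec.mk (nat_lit 11745) (nat_lit 4) [nat_lit 24867, nat_lit 16119, nat_lit 10287, nat_lit 11259, nat_lit 11907, nat_lit 11691] (nat_lit 0) [] false,
   Spec.mk (nat_lit 11907) (nat_lit 5) [nat_lit 25029, nat_lit 16281, nat_lit 10449, nat_lit 11421, nat_lit 12393, nat_lit 11745] (nat_lit 0) [] false,
   Spec.mk (nat_lit 12393) (nat_lit 6) [nat_lit 25515, nat_lit 16767, nat_lit 11907] (nat_lit 0) [] false,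
   Spec.mk (nat_lit 13127) (nat_lit 2) [nat_lit 26249, nat_lit 8753, nat_lit 13133, nat_lit 13129] (nat_lit 0) [nat_lit 32809] false,
   Spec.mk (nat_lit 13129) (nat_lit 2) [nat_lit 26251, nat_lit 8755, nat_lit 13135, nat_lit 13127] (nat_lit 0) [nat_lit 32811] false,
   Spec.mk (nat_lit 13133) (nat_lit 0) [nat_lit 26255, nat_lit 8759, nat_lit 13151, nat_lit 13127, nat_lit 13135] (nat_lit 0) [nat_lit 32815] false,
   Spec.mk (nat_lit 13135) (nat_lit 2) [nat_lit 26257, nat_lit 8761, nat_lit 13153, nat_lit 13129, nat_lit 13141, nat_lit 13133, nat_lit 13137] (nat_lit 0) [nat_lit 32817] false,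
   Spec.mk (nat_lit 13137) (nat_lit 2) [nat_lit 26259, nat_lit 8763, nat_lit 13155, nat_lit 13143, nat_lit 13135] (nat_lit 0) [] false,
   Spec.mk (nat_lit 13141) (nat_lit 0) [nat_lit 26263, nat_lit 8767, nat_lit 13159, nat_lit 13135, nat_lit 13143] (nat_lit 0) [nat_lit 32823] false,
   Spec.mk (nat_lit 13143) (nat_lit 2) [nat_lit 26265, nat_lit 8769, nat_lit 13161, nat_lit 13137, nat_lit 13141] (nat_lit 0) [] false,
   Spec.mk (nat_lit 13151) (nat_lit 0) [nat_lit 26273, nat_lit 8777, nat_lit 13205, nat_lit 13133, nat_lit 13153] (nat_lit 0) [nat_lit 32833] false,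
   Spec.mk (nat_lit 13153) (nat_lit 1) [nat_lit 26275, nat_lit 8779, nat_lit 13207, nat_lit 13135, nat_lit 13159, nat_lit 13151, nat_lit 13155] (nat_lit 0) [nat_lit 32835] false,
   Spec.mk (nat_lit 13155) (nat_lit 0) [nat_lit 26277, nat_lit 8781, nat_lit 13209, nat_lit 13137, nat_lit 13161, nat_lit 13153] (nat_lit 0) [] false]

noncomputable def sp13 : List Spec :=
  [Spec.mk (nat_lit 13159) (nat_lit 1) [nat_lit 26281, nat_lit 8785, nat_lit 13213, nat_lit 13141, nat_lit 13177, nat_lit 13153, nat_lit 13161] (nat_lit 0) [nat_lit 32841] false,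
   Spec.mk (nat_lit 13161) (nat_lit 2) [nat_lit 26283, nat_lit 8787, nat_lit 13215, nat_lit 13143, nat_lit 13179, nat_lit 13155, nat_lit 13167, nat_lit 13159] (nat_lit 0) [] false,
   Spec.mk (nat_lit 13167) (nat_lit 2) [nat_lit 26289, nat_lit 8793, nat_lit 13221, nat_lit 13185, nat_lit 13161] (nat_lit 0) [] false,
   Spec.mk (nat_lit 13177) (nat_lit 0) [nat_lit 26299, nat_lit 8803, nat_lit 13231, nat_lit 13159, nat_lit 13179] (nat_lit 0) [nat_lit 32859] false,
   Spec.mk (nat_lit 13179) (nat_lit 0) [nat_lit 26301, nat_lit 8805, nat_lit 13233, nat_lit 13161, nat_lit 13185, nat_lit 13177] (nat_lit 0) [] false,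
   Spec.mk (nat_lit 13185) (nat_lit 2) [nat_lit 26307, nat_lit 8811, nat_lit 13239, nat_lit 13167, nat_lit 13179] (nat_lit 0) [] false,
   Spec.mk (nat_lit 13205) (nat_lit 0) [nat_lit 26327, nat_lit 8831, nat_lit 13367, nat_lit 13151, nat_lit 13207] (nat_lit 0) [nat_lit 32887] false,
   Spec.mk (nat_lit 13207) (nat_lit 1) [nat_lit 26329, nat_lit 8833, nat_lit 13369, nat_lit 13153, nat_lit 13213, nat_lit 13205, nat_lit 13209] (nat_lit 0) [nat_lit 32889] false,
   Spec.mk (nat_lit 13209) (nat_lit 0) [nat_lit 26331, nat_lit 8835, nat_lit 13371, nat_lit 13155, nat_lit 13215, nat_lit 13207] (nat_lit 0) [] false,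
   Spec.mk (nat_lit 13213) (nat_lit 0) [nat_lit 26335, nat_lit 8839, nat_lit 13375, nat_lit 13159, nat_lit 13231, nat_lit 13207, nat_lit 13215] (nat_lit 0) [nat_lit 32895] false,
   Spec.mk (nat_lit 13215) (nat_lit 1) [nat_lit 26337, nat_lit 8841, nat_lit 13377, nat_lit 13161, nat_lit 13233, nat_lit 13209, nat_lit 13221, nat_lit 13213] (nat_lit 0) [] false,
   Spec.mk (nat_lit 13221) (nat_lit 0) [nat_lit 26343, nat_lit 8847, nat_lit 13383, nat_lit 13167, nat_lit 13239, nat_lit 13215] (nat_lit 0) [] false,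
   Spec.mk (nat_lit 13231) (nat_lit 1) [nat_lit 26353, nat_lit 8857, nat_lit 13393, nat_lit 13177, nat_lit 13285, nat_lit 13213, nat_lit 13233] (nat_lit 0) [nat_lit 32913] false,
   Spec.mk (nat_lit 13233) (nat_lit 1) [nat_lit 26355, nat_lit 8859, nat_lit 13395, nat_lit 13179, nat_lit 13287, nat_lit 13215, nat_lit 13239, nat_lit 13231] (nat_lit 0) [] false,
   Spec.mk (nat_lit 13239) (nat_lit 2) [nat_lit 26361, nat_lit 8865, nat_lit 13401, nat_lit 13185, nat_lit 13293, nat_lit 13221, nat_lit 13257, nat_lit 13233] (nat_lit 0) [] false,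
   Spec.mk (nat_lit 13257) (nat_lit 2) [nat_lit 26379, nat_lit 8883, nat_lit 13419, nat_lit 13311, nat_lit 13239] (nat_lit 0) [] false,
   Spec.mk (nat_lit 13285) (nat_lit 0) [nat_lit 26407, nat_lit 8911, nat_lit 13447, nat_lit 13231, nat_lit 13287] (nat_lit 0) [nat_lit 32967] false,
   Spec.mk (nat_lit 13287) (nat_lit 0) [nat_lit 26409, nat_lit 8913, nat_lit 13449, nat_lit 13233, nat_lit 13293, nat_lit 13285] (nat_lit 0) [] false,
   Spec.mk (nat_lit 13293) (nat_lit 0) [nat_lit 26415, nat_lit 8919, nat_lit 13455, nat_lit 13239, nat_lit 13311, nat_lit 13287] (nat_lit 0) [] false,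
   Spec.mk (nat_lit 13311) (nat_lit 2) [nat_lit 26433, nat_lit 8937, nat_lit 13473, nat_lit 13257, nat_lit 13293] (nat_lit 0) [] false,
   Spec.mk (nat_lit 13367) (nat_lit 0) [nat_lit 26489, nat_lit 8993, nat_lit 13853, nat_lit 13205, nat_lit 13369] (nat_lit 0) [nat_lit 33049] false,
   Spec.mk (nat_lit 13369) (nat_lit 1) [nat_lit 26491, nat_lit 8995, nat_lit 13855, nat_lit 13207, nat_lit 13375, nat_lit 13367, nat_lit 13371] (nat_lit 0) [nat_lit 33051] false,
   Spec.mk (nat_lit 13371) (nat_lit 0) [nat_lit 26493, nat_lit 8997, nat_lit 13857, nat_lit 13209, nat_lit 13377, nat_lit 13369] (nat_lit 0) [] false,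
   Spec.mk (nat_lit 13375) (nat_lit 0) [nat_lit 26497, nat_lit 9001, nat_lit 13861, nat_lit 13213, nat_lit 13393, nat_lit 13369, nat_lit 13377] (nat_lit 0) [nat_lit 33057] false,
   Spec.mk (nat_lit 13377) (nat_lit 1) [nat_lit 26499, nat_lit 9003, nat_lit 13863, nat_lit 13215, nat_lit 13395, nat_lit 13371, nat_lit 13383, nat_lit 13375] (nat_lit 0) [] false,
   Spec.mk (nat_lit 13383) (nat_lit 0) [nat_lit 26505, nat_lit 9009, nat_lit 13869, nat_lit 13221, nat_lit 13401, nat_lit 13377] (nat_lit 0) [] false,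
   Spec.mk (nat_lit 13393) (nat_lit 0) [nat_lit 26515, nat_lit 9019, nat_lit 13879, nat_lit 13231, nat_lit 13447, nat_lit 13375, nat_lit 13395] (nat_lit 0) [nat_lit 33075] false,
   Spec.mk (nat_lit 13395) (nat_lit 0) [nat_lit 26517, nat_lit 9021, nat_lit 13881, nat_lit 13233, nat_lit 13449, nat_lit 13377, nat_lit 13401, nat_lit 13393] (nat_lit 0) [] false,
   Spec.mk (nat_lit 13401) (nat_lit 1) [nat_lit 26523, nat_lit 9027, nat_lit 13887, nat_lit 13239, nat_lit 13455, nat_lit 13383, nat_lit 13419, nat_lit 13395] (nat_lit 0) [] false,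
   Spec.mk (nat_lit 13419) (nat_lit 0) [nat_lit 26541, nat_lit 9045, nat_lit 13905, nat_lit 13257, nat_lit 13473, nat_lit 13401] (nat_lit 0) [] false,
   Spec.mk (nat_lit 13447) (nat_lit 1) [nat_lit 26569, nat_lit 9073, nat_lit 13933, nat_lit 13285, nat_lit 13609, nat_lit 13393, nat_lit 13449] (nat_lit 0) [nat_lit 33129] false,
   Spec.mk (nat_lit 13449) (nat_lit 1) [nat_lit 26571, nat_lit 9075, nat_lit 13935, nat_lit 13287, nat_lit 13611, nat_lit 13395, nat_lit 13455, nat_lit 13447] (nat_lit 0) [] false,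
   Spec.mk (nat_lit 13455) (nat_lit 1) [nat_lit 26577, nat_lit 9081, nat_lit 13941, nat_lit 13293, nat_lit 13617, nat_lit 13401, nat_lit 13473, nat_lit 13449] (nat_lit 0) [] false,
   Spec.mk (nat_lit 13473) (nat_lit 2) [nat_lit 26595, nat_lit 9099, nat_lit 13959, nat_lit 13311, nat_lit 13635, nat_lit 13419, nat_lit 13527, nat_lit 13455] (nat_lit 0) [] false,
   Spec.mk (nat_lit 13527) (nat_lit 2) [nat_lit 26649, nat_lit 9153, nat_lit 14013, nat_lit 13689, nat_lit 13473] (nat_lit 0) [] false,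
   Spec.mk (nat_lit 13609) (nat_lit 0) [nat_lit 26731, nat_lit 9235, nat_lit 14095, nat_lit 13447, nat_lit 13611] (nat_lit 0) [nat_lit 33291] false,
   Spec.mk (nat_lit 13611) (nat_lit 0) [nat_lit 26733, nat_lit 9237, nat_lit 14097, nat_lit 13449, nat_lit 13617, nat_lit 13609] (nat_lit 0) [] false,
   Spec.mk (nat_lit 13617) (nat_lit 0) [nat_lit 26739, nat_lit 9243, nat_lit 14103, nat_lit 13455, nat_lit 13635, nat_lit 13611] (nat_lit 0) [] false,
   Spec.mk (nat_lit 13635) (nat_lit 0) [nat_lit 26757, nat_lit 9261, nat_lit 14121, nat_lit 13473, nat_lit 13689, nat_lit 13617] (nat_lit 0) [] false,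
   Spec.mk (nat_lit 13689) (nat_lit 2) [nat_lit 26811, nat_lit 9315, nat_lit 14175, nat_lit 13527, nat_lit 13635] (nat_lit 0) [] false,
   Spec.mk (nat_lit 13853) (nat_lit 0) [nat_lit 26975, nat_lit 9479, nat_lit 15311, nat_lit 13367, nat_lit 13855] (nat_lit 0) [nat_lit 33535] false,
   Spec.mk (nat_lit 13855) (nat_lit 1) [nat_lit 26977, nat_lit 9481, nat_lit 15313, nat_lit 13369, nat_lit 13861, nat_lit 13853, nat_lit 13857] (nat_lit 0) [nat_lit 33537] false,
   Spec.mk (nat_lit 13857) (nat_lit 0) [nat_lit 26979, nat_lit 9483, nat_lit 15315, nat_lit 13371, nat_lit 13863, nat_lit 13855] (nat_lit 0) [] false,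
   Spec.mk (nat_lit 13861) (nat_lit 0) [nat_lit 26983, nat_lit 9487, nat_lit 15319, nat_lit 13375, nat_lit 13879, nat_lit 13855, nat_lit 13863] (nat_lit 0) [nat_lit 33543] false,
   Spec.mk (nat_lit 13863) (nat_lit 1) [nat_lit 26985, nat_lit 9489, nat_lit 15321, nat_lit 13377, nat_lit 13881, nat_lit 13857, nat_lit 13869, nat_lit 13861] (nat_lit 0) [] false,
   Spec.mk (nat_lit 13869) (nat_lit 0) [nat_lit 26991, nat_lit 9495, nat_lit 15327, nat_lit 13383, nat_lit 13887, nat_lit 13863] (nat_lit 0) [] false,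
   Spec.mk (nat_lit 13879) (nat_lit 0) [nat_lit 27001, nat_lit 9505, nat_lit 15337, nat_lit 13393, nat_lit 13933, nat_lit 13861, nat_lit 13881] (nat_lit 0) [nat_lit 33561] false,
   Spec.mk (nat_lit 13881) (nat_lit 0) [nat_lit 27003, nat_lit 9507, nat_lit 15339, nat_lit 13395, nat_lit 13935, nat_lit 13863, nat_lit 13887, nat_lit 13879] (nat_lit 0) [] false,
   Spec.mk (nat_lit 13887) (nat_lit 1) [nat_lit 27009, nat_lit 9513, nat_lit 15345, nat_lit 13401, nat_lit 13941, nat_lit 13869, nat_lit 13905, nat_lit 13881] (nat_lit 0) [] false,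
   Spec.mk (nat_lit 13905) (nat_lit 0) [nat_lit 27027, nat_lit 9531, nat_lit 15363, nat_lit 13419, nat_lit 13959, nat_lit 13887] (nat_lit 0) [] false,
   Spec.mk (nat_lit 13933) (nat_lit 0) [nat_lit 27055, nat_lit 9559, nat_lit 15391, nat_lit 13447, nat_lit 14095, nat_lit 13879, nat_lit 13935] (nat_lit 0) [nat_lit 33615] false,
   Spec.mk (nat_lit 13935) (nat_lit 0) [nat_lit 27057, nat_lit 9561, nat_lit 15393, nat_lit 13449, nat_lit 14097, nat_lit 13881, nat_lit 13941, nat_lit 13933] (nat_lit 0) [] false,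
   Spec.mk (nat_lit 13941) (nat_lit 0) [nat_lit 27063, nat_lit 9567, nat_lit 15399, nat_lit 13455, nat_lit 14103, nat_lit 13887, nat_lit 13959, nat_lit 13935] (nat_lit 0) [] false,
   Spec.mk (nat_lit 13959) (nat_lit 1) [nat_lit 27081, nat_lit 9585, nat_lit 15417, nat_lit 13473, nat_lit 14121, nat_lit 13905, nat_lit 14013, nat_lit 13941] (nat_lit 0) [] false,
   Spec.mk (nat_lit 14013) (nat_lit 0) [nat_lit 27135, nat_lit 9639, nat_lit 15471, nat_lit 13527, nat_lit 14175, nat_lit 13959] (nat_lit 0) [] false,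
   Spec.mk (nat_lit 14095) (nat_lit 1) [nat_lit 27217, nat_lit 9721, nat_lit 15553, nat_lit 13609, nat_lit 14581, nat_lit 13933, nat_lit 14097] (nat_lit 0) [nat_lit 33777] false,
   Spec.mk (nat_lit 14097) (nat_lit 1) [nat_lit 27219, nat_lit 9723, nat_lit 15555, nat_lit 13611, nat_lit 14583, nat_lit 13935, nat_lit 14103, nat_lit 14095] (nat_lit 0) [] false,
   Spec.mk (nat_lit 14103) (nat_lit 1) [nat_lit 27225, nat_lit 9729, nat_lit 15561, nat_lit 13617, nat_lit 14589, nat_lit 13941, nat_lit 14121, nat_lit 14097] (nat_lit 0) [] false,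
   Spec.mk (nat_lit 14121) (nat_lit 1) [nat_lit 27243, nat_lit 9747, nat_lit 15579, nat_lit 13635, nat_lit 14607, nat_lit 13959, nat_lit 14175, nat_lit 14103] (nat_lit 0) [] false,
   Spec.mk (nat_lit 14175) (nat_lit 2) [nat_lit 27297, nat_lit 9801, nat_lit 15633, nat_lit 13689, nat_lit 14661, nat_lit 14013, nat_lit 14337, nat_lit 14121] (nat_lit 0) [] false]

noncomputable def sp14 : List Spec :=
  [Spec.mk (nat_lit 14337) (nat_lit 2) [nat_lit 27459, nat_lit 9963, nat_lit 15795, nat_lit 14823, nat_lit 14175] (nat_lit 0) [] false,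
   Spec.mk (nat_lit 14581) (nat_lit 0) [nat_lit 27703, nat_lit 10207, nat_lit 16039, nat_lit 14095, nat_lit 14583] (nat_lit 0) [nat_lit 34263] false,
   Spec.mk (nat_lit 14583) (nat_lit 0) [nat_lit 27705, nat_lit 10209, nat_lit 16041, nat_lit 14097, nat_lit 14589, nat_lit 14581] (nat_lit 0) [] false,
   Spec.mk (nat_lit 14589) (nat_lit 0) [nat_lit 27711, nat_lit 10215, nat_lit 16047, nat_lit 14103, nat_lit 14607, nat_lit 14583] (nat_lit 0) [] false,
   Spec.mk (nat_lit 14607) (nat_lit 0) [nat_lit 27729, nat_lit 10233, nat_lit 16065, nat_lit 14121, nat_lit 14661, nat_lit 14589] (nat_lit 0) [] false,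
   Spec.mk (nat_lit 14661) (nat_lit 0) [nat_lit 27783, nat_lit 10287, nat_lit 16119, nat_lit 14175, nat_lit 14823, nat_lit 14607] (nat_lit 0) [] false,
   Spec.mk (nat_lit 14823) (nat_lit 2) [nat_lit 27945, nat_lit 10449, nat_lit 16281, nat_lit 14337, nat_lit 14661] (nat_lit 0) [] false,
   Spec.mk (nat_lit 15311) (nat_lit 2) [nat_lit 28433, nat_lit 10937, nat_lit 13853, nat_lit 15313] (nat_lit 0) [nat_lit 34993] false,
   Spec.mk (nat_lit 15313) (nat_lit 3) [nat_lit 28435, nat_lit 10939, nat_lit 13855, nat_lit 15319, nat_lit 15311, nat_lit 15315] (nat_lit 0) [nat_lit 34995] false,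
   Spec.mk (nat_lit 15315) (nat_lit 2) [nat_lit 28437, nat_lit 10941, nat_lit 13857, nat_lit 15321, nat_lit 15313] (nat_lit 0) [] false,
   Spec.mk (nat_lit 15319) (nat_lit 2) [nat_lit 28441, nat_lit 10945, nat_lit 13861, nat_lit 15337, nat_lit 15313, nat_lit 15321] (nat_lit 0) [nat_lit 35001] false,
   Spec.mk (nat_lit 15321) (nat_lit 3) [nat_lit 28443, nat_lit 10947, nat_lit 13863, nat_lit 15339, nat_lit 15315, nat_lit 15327, nat_lit 15319] (nat_lit 0) [] false,
   Spec.mk (nat_lit 15327) (nat_lit 2) [nat_lit 28449, nat_lit 10953, nat_lit 13869, nat_lit 15345, nat_lit 15321] (nat_lit 0) [] false,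
   Spec.mk (nat_lit 15337) (nat_lit 2) [nat_lit 28459, nat_lit 10963, nat_lit 13879, nat_lit 15391, nat_lit 15319, nat_lit 15339] (nat_lit 0) [nat_lit 35019] false,
   Spec.mk (nat_lit 15339) (nat_lit 2) [nat_lit 28461, nat_lit 10965, nat_lit 13881, nat_lit 15393, nat_lit 15321, nat_lit 15345, nat_lit 15337] (nat_lit 0) [] false,
   Spec.mk (nat_lit 15345) (nat_lit 3) [nat_lit 28467, nat_lit 10971, nat_lit 13887, nat_lit 15399, nat_lit 15327, nat_lit 15363, nat_lit 15339] (nat_lit 0) [] false,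
   Spec.mk (nat_lit 15363) (nat_lit 2) [nat_lit 28485, nat_lit 10989, nat_lit 13905, nat_lit 15417, nat_lit 15345] (nat_lit 0) [] false,
   Spec.mk (nat_lit 15391) (nat_lit 2) [nat_lit 28513, nat_lit 11017, nat_lit 13933, nat_lit 15553, nat_lit 15337, nat_lit 15393] (nat_lit 0) [nat_lit 35073] false,
   Spec.mk (nat_lit 15393) (nat_lit 2) [nat_lit 28515, nat_lit 11019, nat_lit 13935, nat_lit 15555, nat_lit 15339, nat_lit 15399, nat_lit 15391] (nat_lit 0) [] false,
   Spec.mk (nat_lit 15399) (nat_lit 2) [nat_lit 28521, nat_lit 11025, nat_lit 13941, nat_lit 15561, nat_lit 15345, nat_lit 15417, nat_lit 15393] (nat_lit 0) [] false,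
   Spec.mk (nat_lit 15417) (nat_lit 3) [nat_lit 28539, nat_lit 11043, nat_lit 13959, nat_lit 15579, nat_lit 15363, nat_lit 15471, nat_lit 15399] (nat_lit 0) [] false,
   Spec.mk (nat_lit 15471) (nat_lit 2) [nat_lit 28593, nat_lit 11097, nat_lit 14013, nat_lit 15633, nat_lit 15417] (nat_lit 0) [] false,
   Spec.mk (nat_lit 15553) (nat_lit 2) [nat_lit 28675, nat_lit 11179, nat_lit 14095, nat_lit 16039, nat_lit 15391, nat_lit 15555] (nat_lit 0) [nat_lit 35235] false,
   Spec.mk (nat_lit 15555) (nat_lit 2) [nat_lit 28677, nat_lit 11181, nat_lit 14097, nat_lit 16041, nat_lit 15393, nat_lit 15561, nat_lit 15553] (nat_lit 0) [] false,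
   Spec.mk (nat_lit 15561) (nat_lit 2) [nat_lit 28683, nat_lit 11187, nat_lit 14103, nat_lit 16047, nat_lit 15399, nat_lit 15579, nat_lit 15555] (nat_lit 0) [] false,
   Spec.mk (nat_lit 15579) (nat_lit 2) [nat_lit 28701, nat_lit 11205, nat_lit 14121, nat_lit 16065, nat_lit 15417, nat_lit 15633, nat_lit 15561] (nat_lit 0) [] false,
   Spec.mk (nat_lit 15633) (nat_lit 3) [nat_lit 28755, nat_lit 11259, nat_lit 14175, nat_lit 16119, nat_lit 15471, nat_lit 15795, nat_lit 15579] (nat_lit 0) [] false,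
   Spec.mk (nat_lit 15795) (nat_lit 2) [nat_lit 28917, nat_lit 11421, nat_lit 14337, nat_lit 16281, nat_lit 15633] (nat_lit 0) [] false,
   Spec.mk (nat_lit 16039) (nat_lit 3) [nat_lit 29161, nat_lit 11665, nat_lit 14581, nat_lit 17497, nat_lit 15553, nat_lit 16041] (nat_lit 0) [nat_lit 35721] false,
   Spec.mk (nat_lit 16041) (nat_lit 3) [nat_lit 29163, nat_lit 11667, nat_lit 14583, nat_lit 17499, nat_lit 15555, nat_lit 16047, nat_lit 16039] (nat_lit 0) [] false,
   Spec.mk (nat_lit 16047) (nat_lit 3) [nat_lit 29169, nat_lit 11673, nat_lit 14589, nat_lit 17505, nat_lit 15561, nat_lit 16065, nat_lit 16041] (nat_lit 0) [] false,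
   Spec.mk (nat_lit 16065) (nat_lit 3) [nat_lit 29187, nat_lit 11691, nat_lit 14607, nat_lit 17523, nat_lit 15579, nat_lit 16119, nat_lit 16047] (nat_lit 0) [] false,
   Spec.mk (nat_lit 16119) (nat_lit 3) [nat_lit 29241, nat_lit 11745, nat_lit 14661, nat_lit 17577, nat_lit 15633, nat_lit 16281, nat_lit 16065] (nat_lit 0) [] false,
   Spec.mk (nat_lit 16281) (nat_lit 4) [nat_lit 29403, nat_lit 11907, nat_lit 14823, nat_lit 17739, nat_lit 15795, nat_lit 16767, nat_lit 16119] (nat_lit 0) [] false,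
   Spec.mk (nat_lit 16767) (nat_lit 4) [nat_lit 29889, nat_lit 12393, nat_lit 18225, nat_lit 16281] (nat_lit 0) [] false,
   Spec.mk (nat_lit 17497) (nat_lit 4) [nat_lit 30619, nat_lit 16039, nat_lit 17499] (nat_lit 0) [nat_lit 37179] false,
   Spec.mk (nat_lit 17499) (nat_lit 4) [nat_lit 30621, nat_lit 16041, nat_lit 17505, nat_lit 17497] (nat_lit 0) [] false,
   Spec.mk (nat_lit 17505) (nat_lit 4) [nat_lit 30627, nat_lit 16047, nat_lit 17523, nat_lit 17499] (nat_lit 0) [] false,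
   Spec.mk (nat_lit 17523) (nat_lit 4) [nat_lit 30645, nat_lit 16065, nat_lit 17577, nat_lit 17505] (nat_lit 0) [] false,
   Spec.mk (nat_lit 17577) (nat_lit 4) [nat_lit 30699, nat_lit 16119, nat_lit 17739, nat_lit 17523] (nat_lit 0) [] false,
   Spec.mk (nat_lit 17739) (nat_lit 4) [nat_lit 30861, nat_lit 16281, nat_lit 18225, nat_lit 17577] (nat_lit 0) [] false,
   Spec.mk (nat_lit 18225) (nat_lit 6) [nat_lit 31347, nat_lit 16767, nat_lit 17739] (nat_lit 0) [] false,
   Spec.mk (nat_lit 19691) (nat_lit 6) [nat_lit 6569, nat_lit 19697] (nat_lit 0) [nat_lit 39373] false,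
   Spec.mk (nat_lit 19697) (nat_lit 5) [nat_lit 6575, nat_lit 19715, nat_lit 19691, nat_lit 19703, nat_lit 19699] (nat_lit 0) [nat_lit 39379] false,
   Spec.mk (nat_lit 19699) (nat_lit 5) [nat_lit 6577, nat_lit 19717, nat_lit 19705, nat_lit 19697] (nat_lit 0) [nat_lit 39381, nat_lit 17] false,
   Spec.mk (nat_lit 19703) (nat_lit 2) [nat_lit 6581, nat_lit 19721, nat_lit 19697, nat_lit 19705] (nat_lit 0) [nat_lit 39385] false,
   Spec.mk (nat_lit 19705) (nat_lit 4) [nat_lit 6583, nat_lit 19723, nat_lit 19699, nat_lit 19703, nat_lit 19707] (nat_lit 0) [nat_lit 39387, nat_lit 23] false,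
   Spec.mk (nat_lit 19707) (nat_lit 4) [nat_lit 6585, nat_lit 19725, nat_lit 19705] (nat_lit 0) [nat_lit 25] false,
   Spec.mk (nat_lit 19715) (nat_lit 4) [nat_lit 6593, nat_lit 19769, nat_lit 19697, nat_lit 19721, nat_lit 19717] (nat_lit 0) [nat_lit 39397] false,
   Spec.mk (nat_lit 19717) (nat_lit 3) [nat_lit 6595, nat_lit 19771, nat_lit 19699, nat_lit 19723, nat_lit 19715] (nat_lit 0) [nat_lit 39399, nat_lit 35] false,
   Spec.mk (nat_lit 19721) (nat_lit 3) [nat_lit 6599, nat_lit 19775, nat_lit 19703, nat_lit 19739, nat_lit 19715, nat_lit 19723] (nat_lit 0) [nat_lit 39403] false,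
   Spec.mk (nat_lit 19723) (nat_lit 4) [nat_lit 6601, nat_lit 19777, nat_lit 19705, nat_lit 19741, nat_lit 19717, nat_lit 19729, nat_lit 19721, nat_lit 19725] (nat_lit 0) [nat_lit 39405, nat_lit 41] false,
   Spec.mk (nat_lit 19725) (nat_lit 3) [nat_lit 6603, nat_lit 19779, nat_lit 19707, nat_lit 19743, nat_lit 19731, nat_lit 19723] (nat_lit 0) [nat_lit 43] false,
   Spec.mk (nat_lit 19729) (nat_lit 3) [nat_lit 6607, nat_lit 19783, nat_lit 19747, nat_lit 19723, nat_lit 19731] (nat_lit 0) [nat_lit 39411, nat_lit 47] false,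
   Spec.mk (nat_lit 19731) (nat_lit 4) [nat_lit 6609, nat_lit 19785, nat_lit 19749, nat_lit 19725, nat_lit 19729] (nat_lit 0) [nat_lit 49] false,
   Spec.mk (nat_lit 19739) (nat_lit 2) [nat_lit 6617, nat_lit 19793, nat_lit 19721, nat_lit 19741] (nat_lit 0) [nat_lit 39421] false,
   Spec.mk (nat_lit 19741) (nat_lit 2) [nat_lit 6619, nat_lit 19795, nat_lit 19723, nat_lit 19747, nat_lit 19739, nat_lit 19743] (nat_lit 0) [nat_lit 39423, nat_lit 59] false,
   Spec.mk (nat_lit 19743) (nat_lit 0) [nat_lit 6621, nat_lit 19797, nat_lit 19725, nat_lit 19749, nat_lit 19741] (nat_lit 0) [nat_lit 61] false,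
   Spec.mk (nat_lit 19747) (nat_lit 3) [nat_lit 6625, nat_lit 19801, nat_lit 19729, nat_lit 19741, nat_lit 19749] (nat_lit 0) [nat_lit 39429, nat_lit 65] false,
   Spec.mk (nat_lit 19749) (nat_lit 3) [nat_lit 6627, nat_lit 19803, nat_lit 19731, nat_lit 19743, nat_lit 19755, nat_lit 19747] (nat_lit 0) [nat_lit 67] false]

noncomputable def sp15 : List Spec :=
  [Spec.mk (nat_lit 19755) (nat_lit 4) [nat_lit 6633, nat_lit 19809, nat_lit 19749] (nat_lit 0) [nat_lit 73] false,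
   Spec.mk (nat_lit 19769) (nat_lit 4) [nat_lit 6647, nat_lit 19931, nat_lit 19715, nat_lit 19775, nat_lit 19771] (nat_lit 0) [nat_lit 39451] false,
   Spec.mk (nat_lit 19771) (nat_lit 3) [nat_lit 6649, nat_lit 19933, nat_lit 19717, nat_lit 19777, nat_lit 19769] (nat_lit 0) [nat_lit 39453, nat_lit 89] false,
   Spec.mk (nat_lit 19775) (nat_lit 2) [nat_lit 6653, nat_lit 19937, nat_lit 19721, nat_lit 19793, nat_lit 19769, nat_lit 19777] (nat_lit 0) [nat_lit 39457] false,
   Spec.mk (nat_lit 19777) (nat_lit 3) [nat_lit 6655, nat_lit 19939, nat_lit 19723, nat_lit 19795, nat_lit 19771, nat_lit 19783, nat_lit 19775, nat_lit 19779] (nat_lit 0) [nat_lit 39459, nat_lit 95] false,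
   Spec.mk (nat_lit 19779) (nat_lit 2) [nat_lit 6657, nat_lit 19941, nat_lit 19725, nat_lit 19797, nat_lit 19785, nat_lit 19777] (nat_lit 0) [nat_lit 97] false,
   Spec.mk (nat_lit 19783) (nat_lit 1) [nat_lit 6661, nat_lit 19945, nat_lit 19729, nat_lit 19801, nat_lit 19777, nat_lit 19785] (nat_lit 0) [nat_lit 39465, nat_lit 101] false,
   Spec.mk (nat_lit 19785) (nat_lit 2) [nat_lit 6663, nat_lit 19947, nat_lit 19731, nat_lit 19803, nat_lit 19779, nat_lit 19783] (nat_lit 0) [nat_lit 103] false,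
   Spec.mk (nat_lit 19793) (nat_lit 3) [nat_lit 6671, nat_lit 19955, nat_lit 19739, nat_lit 19847, nat_lit 19775, nat_lit 19795] (nat_lit 0) [nat_lit 39475] false,
   Spec.mk (nat_lit 19795) (nat_lit 3) [nat_lit 6673, nat_lit 19957, nat_lit 19741, nat_lit 19849, nat_lit 19777, nat_lit 19801, nat_lit 19793, nat_lit 19797] (nat_lit 0) [nat_lit 39477, nat_lit 113] false,
   Spec.mk (nat_lit 19797) (nat_lit 1) [nat_lit 6675, nat_lit 19959, nat_lit 19743, nat_lit 19851, nat_lit 19779, nat_lit 19803, nat_lit 19795] (nat_lit 0) [nat_lit 115] false,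
   Spec.mk (nat_lit 19801) (nat_lit 3) [nat_lit 6679, nat_lit 19963, nat_lit 19747, nat_lit 19855, nat_lit 19783, nat_lit 19819, nat_lit 19795, nat_lit 19803] (nat_lit 0) [nat_lit 39483, nat_lit 119] false,
   Spec.mk (nat_lit 19803) (nat_lit 3) [nat_lit 6681, nat_lit 19965, nat_lit 19749, nat_lit 19857, nat_lit 19785, nat_lit 19821, nat_lit 19797, nat_lit 19809, nat_lit 19801] (nat_lit 0) [nat_lit 121] false,
   Spec.mk (nat_lit 19809) (nat_lit 3) [nat_lit 6687, nat_lit 19971, nat_lit 19755, nat_lit 19863, nat_lit 19827, nat_lit 19803] (nat_lit 0) [nat_lit 127] false,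
   Spec.mk (nat_lit 19819) (nat_lit 3) [nat_lit 6697, nat_lit 19981, nat_lit 19873, nat_lit 19801, nat_lit 19821] (nat_lit 0) [nat_lit 39501, nat_lit 137] false,
   Spec.mk (nat_lit 19821) (nat_lit 2) [nat_lit 6699, nat_lit 19983, nat_lit 19875, nat_lit 19803, nat_lit 19827, nat_lit 19819] (nat_lit 0) [nat_lit 139] false,
   Spec.mk (nat_lit 19827) (nat_lit 4) [nat_lit 6705, nat_lit 19989, nat_lit 19881, nat_lit 19809, nat_lit 19821] (nat_lit 0) [nat_lit 145] false,
   Spec.mk (nat_lit 19847) (nat_lit 2) [nat_lit 6725, nat_lit 20009, nat_lit 19793, nat_lit 19849] (nat_lit 0) [nat_lit 39529] false,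
   Spec.mk (nat_lit 19849) (nat_lit 2) [nat_lit 6727, nat_lit 20011, nat_lit 19795, nat_lit 19855, nat_lit 19847, nat_lit 19851] (nat_lit 0) [nat_lit 39531, nat_lit 167] false,
   Spec.mk (nat_lit 19851) (nat_lit 0) [nat_lit 6729, nat_lit 20013, nat_lit 19797, nat_lit 19857, nat_lit 19849] (nat_lit 0) [nat_lit 169] false,
   Spec.mk (nat_lit 19855) (nat_lit 1) [nat_lit 6733, nat_lit 20017, nat_lit 19801, nat_lit 19873, nat_lit 19849, nat_lit 19857] (nat_lit 0) [nat_lit 39537, nat_lit 173] false,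
   Spec.mk (nat_lit 19857) (nat_lit 1) [nat_lit 6735, nat_lit 20019, nat_lit 19803, nat_lit 19875, nat_lit 19851, nat_lit 19863, nat_lit 19855] (nat_lit 0) [nat_lit 175] false,
   Spec.mk (nat_lit 19863) (nat_lit 0) [nat_lit 6741, nat_lit 20025, nat_lit 19809, nat_lit 19881, nat_lit 19857] (nat_lit 0) [nat_lit 181] false,
   Spec.mk (nat_lit 19873) (nat_lit 3) [nat_lit 6751, nat_lit 20035, nat_lit 19819, nat_lit 19855, nat_lit 19875] (nat_lit 0) [nat_lit 39555, nat_lit 191] false,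
   Spec.mk (nat_lit 19875) (nat_lit 2) [nat_lit 6753, nat_lit 20037, nat_lit 19821, nat_lit 19857, nat_lit 19881, nat_lit 19873] (nat_lit 0) [nat_lit 193] false,
   Spec.mk (nat_lit 19881) (nat_lit 3) [nat_lit 6759, nat_lit 20043, nat_lit 19827, nat_lit 19863, nat_lit 19899, nat_lit 19875] (nat_lit 0) [nat_lit 199] false,
   Spec.mk (nat_lit 19899) (nat_lit 4) [nat_lit 6777, nat_lit 20061, nat_lit 19881] (nat_lit 0) [nat_lit 217] false,
   Spec.mk (nat_lit 19931) (nat_lit 4) [nat_lit 6809, nat_lit 20417, nat_lit 19769, nat_lit 19937, nat_lit 19933] (nat_lit 0) [nat_lit 39613] false,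
   Spec.mk (nat_lit 19933) (nat_lit 3) [nat_lit 6811, nat_lit 20419, nat_lit 19771, nat_lit 19939, nat_lit 19931] (nat_lit 0) [nat_lit 39615, nat_lit 251] false,
   Spec.mk (nat_lit 19937) (nat_lit 2) [nat_lit 6815, nat_lit 20423, nat_lit 19775, nat_lit 19955, nat_lit 19931, nat_lit 19939] (nat_lit 0) [nat_lit 39619] false,
   Spec.mk (nat_lit 19939) (nat_lit 3) [nat_lit 6817, nat_lit 20425, nat_lit 19777, nat_lit 19957, nat_lit 19933, nat_lit 19945, nat_lit 19937, nat_lit 19941] (nat_lit 0) [nat_lit 39621, nat_lit 257] false,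
   Spec.mk (nat_lit 19941) (nat_lit 2) [nat_lit 6819, nat_lit 20427, nat_lit 19779, nat_lit 19959, nat_lit 19947, nat_lit 19939] (nat_lit 0) [nat_lit 259] false,
   Spec.mk (nat_lit 19945) (nat_lit 1) [nat_lit 6823, nat_lit 20431, nat_lit 19783, nat_lit 19963, nat_lit 19939, nat_lit 19947] (nat_lit 0) [nat_lit 39627, nat_lit 263] false,
   Spec.mk (nat_lit 19947) (nat_lit 2) [nat_lit 6825, nat_lit 20433, nat_lit 19785, nat_lit 19965, nat_lit 19941, nat_lit 19945] (nat_lit 0) [nat_lit 265] false,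
   Spec.mk (nat_lit 19955) (nat_lit 2) [nat_lit 6833, nat_lit 20441, nat_lit 19793, nat_lit 20009, nat_lit 19937, nat_lit 19957] (nat_lit 0) [nat_lit 39637] false,
   Spec.mk (nat_lit 19957) (nat_lit 2) [nat_lit 6835, nat_lit 20443, nat_lit 19795, nat_lit 20011, nat_lit 19939, nat_lit 19963, nat_lit 19955, nat_lit 19959] (nat_lit 0) [nat_lit 39639, nat_lit 275] false,
   Spec.mk (nat_lit 19959) (nat_lit 0) [nat_lit 6837, nat_lit 20445, nat_lit 19797, nat_lit 20013, nat_lit 19941, nat_lit 19965, nat_lit 19957] (nat_lit 0) [nat_lit 277] false,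
   Spec.mk (nat_lit 19963) (nat_lit 2) [nat_lit 6841, nat_lit 20449, nat_lit 19801, nat_lit 20017, nat_lit 19945, nat_lit 19981, nat_lit 19957, nat_lit 19965] (nat_lit 0) [nat_lit 39645, nat_lit 281] false,
   Spec.mk (nat_lit 19965) (nat_lit 2) [nat_lit 6843, nat_lit 20451, nat_lit 19803, nat_lit 20019, nat_lit 19947, nat_lit 19983, nat_lit 19959, nat_lit 19971, nat_lit 19963] (nat_lit 0) [nat_lit 283] false,
   Spec.mk (nat_lit 19971) (nat_lit 2) [nat_lit 6849, nat_lit 20457, nat_lit 19809, nat_lit 20025, nat_lit 19989, nat_lit 19965] (nat_lit 0) [nat_lit 289] false,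
   Spec.mk (nat_lit 19981) (nat_lit 1) [nat_lit 6859, nat_lit 20467, nat_lit 19819, nat_lit 20035, nat_lit 19963, nat_lit 19983] (nat_lit 0) [nat_lit 39663, nat_lit 299] false,
   Spec.mk (nat_lit 19983) (nat_lit 0) [nat_lit 6861, nat_lit 20469, nat_lit 19821, nat_lit 20037, nat_lit 19965, nat_lit 19989, nat_lit 19981] (nat_lit 0) [nat_lit 301] false,
   Spec.mk (nat_lit 19989) (nat_lit 2) [nat_lit 6867, nat_lit 20475, nat_lit 19827, nat_lit 20043, nat_lit 19971, nat_lit 19983] (nat_lit 0) [nat_lit 307] false,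
   Spec.mk (nat_lit 20009) (nat_lit 3) [nat_lit 6887, nat_lit 20495, nat_lit 19847, nat_lit 20171, nat_lit 19955, nat_lit 20011] (nat_lit 0) [nat_lit 39691] false,
   Spec.mk (nat_lit 20011) (nat_lit 3) [nat_lit 6889, nat_lit 20497, nat_lit 19849, nat_lit 20173, nat_lit 19957, nat_lit 20017, nat_lit 20009, nat_lit 20013] (nat_lit 0) [nat_lit 39693, nat_lit 329] false,
   Spec.mk (nat_lit 20013) (nat_lit 1) [nat_lit 6891, nat_lit 20499, nat_lit 19851, nat_lit 20175, nat_lit 19959, nat_lit 20019, nat_lit 20011] (nat_lit 0) [nat_lit 331] false,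
   Spec.mk (nat_lit 20017) (nat_lit 2) [nat_lit 6895, nat_lit 20503, nat_lit 19855, nat_lit 20179, nat_lit 19963, nat_lit 20035, nat_lit 20011, nat_lit 20019] (nat_lit 0) [nat_lit 39699, nat_lit 335] false,
   Spec.mk (nat_lit 20019) (nat_lit 2) [nat_lit 6897, nat_lit 20505, nat_lit 19857, nat_lit 20181, nat_lit 19965, nat_lit 20037, nat_lit 20013, nat_lit 20025, nat_lit 20017] (nat_lit 0) [nat_lit 337] false,
   Spec.mk (nat_lit 20025) (nat_lit 1) [nat_lit 6903, nat_lit 20511, nat_lit 19863, nat_lit 20187, nat_lit 19971, nat_lit 20043, nat_lit 20019] (nat_lit 0) [nat_lit 343] false,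
   Spec.mk (nat_lit 20035) (nat_lit 3) [nat_lit 6913, nat_lit 20521, nat_lit 19873, nat_lit 20197, nat_lit 19981, nat_lit 20089, nat_lit 20017, nat_lit 20037] (nat_lit 0) [nat_lit 39717, nat_lit 353] false,
   Spec.mk (nat_lit 20037) (nat_lit 2) [nat_lit 6915, nat_lit 20523, nat_lit 19875, nat_lit 20199, nat_lit 19983, nat_lit 20091, nat_lit 20019, nat_lit 20043, nat_lit 20035] (nat_lit 0) [nat_lit 355] false,
   Spec.mk (nat_lit 20043) (nat_lit 3) [nat_lit 6921, nat_lit 20529, nat_lit 19881, nat_lit 20205, nat_lit 19989, nat_lit 20097, nat_lit 20025, nat_lit 20061, nat_lit 20037] (nat_lit 0) [nat_lit 361] false,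
   Spec.mk (nat_lit 20061) (nat_lit 3) [nat_lit 6939, nat_lit 20547, nat_lit 19899, nat_lit 20223, nat_lit 20115, nat_lit 20043] (nat_lit 0) [nat_lit 379] false,
   Spec.mk (nat_lit 20089) (nat_lit 3) [nat_lit 6967, nat_lit 20575, nat_lit 20251, nat_lit 20035, nat_lit 20091] (nat_lit 0) [nat_lit 39771, nat_lit 407] false,
   Spec.mk (nat_lit 20091) (nat_lit 2) [nat_lit 6969, nat_lit 20577, nat_lit 20253, nat_lit 20037, nat_lit 20097, nat_lit 20089] (nat_lit 0) [nat_lit 409] false,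
   Spec.mk (nat_lit 20097) (nat_lit 2) [nat_lit 6975, nat_lit 20583, nat_lit 20259, nat_lit 20043, nat_lit 20115, nat_lit 20091] (nat_lit 0) [nat_lit 415] false,
   Spec.mk (nat_lit 20115) (nat_lit 4) [nat_lit 6993, nat_lit 20601, nat_lit 20277, nat_lit 20061, nat_lit 20097] (nat_lit 0) [nat_lit 433] false,
   Spec.mk (nat_lit 20171) (nat_lit 2) [nat_lit 7049, nat_lit 20657, nat_lit 20009, nat_lit 20173] (nat_lit 0) [nat_lit 39853] false,
   Spec.mk (nat_lit 20173) (nat_lit 2) [nat_lit 7051, nat_lit 20659, nat_lit 20011, nat_lit 20179, nat_lit 20171, nat_lit 20175] (nat_lit 0) [nat_lit 39855, nat_lit 491] false,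
   Spec.mk (nat_lit 20175) (nat_lit 0) [nat_lit 7053, nat_lit 20661, nat_lit 20013, nat_lit 20181, nat_lit 20173] (nat_lit 0) [nat_lit 493] false]

noncomputable def sp16 : List Spec :=
  [Spec.mk (nat_lit 20179) (nat_lit 1) [nat_lit 7057, nat_lit 20665, nat_lit 20017, nat_lit 20197, nat_lit 20173, nat_lit 20181] (nat_lit 0) [nat_lit 39861, nat_lit 497] false,
   Spec.mk (nat_lit 20181) (nat_lit 1) [nat_lit 7059, nat_lit 20667, nat_lit 20019, nat_lit 20199, nat_lit 20175, nat_lit 20187, nat_lit 20179] (nat_lit 0) [nat_lit 499] false,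
   Spec.mk (nat_lit 20187) (nat_lit 0) [nat_lit 7065, nat_lit 20673, nat_lit 20025, nat_lit 20205, nat_lit 20181] (nat_lit 0) [nat_lit 505] false,
   Spec.mk (nat_lit 20197) (nat_lit 1) [nat_lit 7075, nat_lit 20683, nat_lit 20035, nat_lit 20251, nat_lit 20179, nat_lit 20199] (nat_lit 0) [nat_lit 39879, nat_lit 515] false,
   Spec.mk (nat_lit 20199) (nat_lit 0) [nat_lit 7077, nat_lit 20685, nat_lit 20037, nat_lit 20253, nat_lit 20181, nat_lit 20205, nat_lit 20197] (nat_lit 0) [nat_lit 517] false,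
   Spec.mk (nat_lit 20205) (nat_lit 1) [nat_lit 7083, nat_lit 20691, nat_lit 20043, nat_lit 20259, nat_lit 20187, nat_lit 20223, nat_lit 20199] (nat_lit 0) [nat_lit 523] false,
   Spec.mk (nat_lit 20223) (nat_lit 0) [nat_lit 7101, nat_lit 20709, nat_lit 20061, nat_lit 20277, nat_lit 20205] (nat_lit 0) [nat_lit 541] false,
   Spec.mk (nat_lit 20251) (nat_lit 3) [nat_lit 7129, nat_lit 20737, nat_lit 20089, nat_lit 20197, nat_lit 20253] (nat_lit 0) [nat_lit 39933, nat_lit 569] false,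
   Spec.mk (nat_lit 20253) (nat_lit 2) [nat_lit 7131, nat_lit 20739, nat_lit 20091, nat_lit 20199, nat_lit 20259, nat_lit 20251] (nat_lit 0) [nat_lit 571] false,
   Spec.mk (nat_lit 20259) (nat_lit 2) [nat_lit 7137, nat_lit 20745, nat_lit 20097, nat_lit 20205, nat_lit 20277, nat_lit 20253] (nat_lit 0) [nat_lit 577] false,
   Spec.mk (nat_lit 20277) (nat_lit 3) [nat_lit 7155, nat_lit 20763, nat_lit 20115, nat_lit 20223, nat_lit 20331, nat_lit 20259] (nat_lit 0) [nat_lit 595] false,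
   Spec.mk (nat_lit 20331) (nat_lit 4) [nat_lit 7209, nat_lit 20817, nat_lit 20277] (nat_lit 0) [nat_lit 649] false,
   Spec.mk (nat_lit 20417) (nat_lit 4) [nat_lit 7295, nat_lit 21875, nat_lit 19931, nat_lit 20423, nat_lit 20419] (nat_lit 0) [nat_lit 40099] false,
   Spec.mk (nat_lit 20419) (nat_lit 3) [nat_lit 7297, nat_lit 21877, nat_lit 19933, nat_lit 20425, nat_lit 20417] (nat_lit 0) [nat_lit 40101, nat_lit 737] false,
   Spec.mk (nat_lit 20423) (nat_lit 2) [nat_lit 7301, nat_lit 21881, nat_lit 19937, nat_lit 20441, nat_lit 20417, nat_lit 20425] (nat_lit 0) [nat_lit 40105] false,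
   Spec.mk (nat_lit 20425) (nat_lit 3) [nat_lit 7303, nat_lit 21883, nat_lit 19939, nat_lit 20443, nat_lit 20419, nat_lit 20431, nat_lit 20423, nat_lit 20427] (nat_lit 0) [nat_lit 40107, nat_lit 743] false,
   Spec.mk (nat_lit 20427) (nat_lit 2) [nat_lit 7305, nat_lit 21885, nat_lit 19941, nat_lit 20445, nat_lit 20433, nat_lit 20425] (nat_lit 0) [nat_lit 745] false,
   Spec.mk (nat_lit 20431) (nat_lit 1) [nat_lit 7309, nat_lit 21889, nat_lit 19945, nat_lit 20449, nat_lit 20425, nat_lit 20433] (nat_lit 0) [nat_lit 40113, nat_lit 749] false,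
   Spec.mk (nat_lit 20433) (nat_lit 2) [nat_lit 7311, nat_lit 21891, nat_lit 19947, nat_lit 20451, nat_lit 20427, nat_lit 20431] (nat_lit 0) [nat_lit 751] false,
   Spec.mk (nat_lit 20441) (nat_lit 2) [nat_lit 7319, nat_lit 21899, nat_lit 19955, nat_lit 20495, nat_lit 20423, nat_lit 20443] (nat_lit 0) [nat_lit 40123] false,
   Spec.mk (nat_lit 20443) (nat_lit 2) [nat_lit 7321, nat_lit 21901, nat_lit 19957, nat_lit 20497, nat_lit 20425, nat_lit 20449, nat_lit 20441, nat_lit 20445] (nat_lit 0) [nat_lit 40125, nat_lit 761] false,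
   Spec.mk (nat_lit 20445) (nat_lit 0) [nat_lit 7323, nat_lit 21903, nat_lit 19959, nat_lit 20499, nat_lit 20427, nat_lit 20451, nat_lit 20443] (nat_lit 0) [nat_lit 763] false,
   Spec.mk (nat_lit 20449) (nat_lit 2) [nat_lit 7327, nat_lit 21907, nat_lit 19963, nat_lit 20503, nat_lit 20431, nat_lit 20467, nat_lit 20443, nat_lit 20451] (nat_lit 0) [nat_lit 40131, nat_lit 767] false,
   Spec.mk (nat_lit 20451) (nat_lit 2) [nat_lit 7329, nat_lit 21909, nat_lit 19965, nat_lit 20505, nat_lit 20433, nat_lit 20469, nat_lit 20445, nat_lit 20457, nat_lit 20449] (nat_lit 0) [nat_lit 769] false,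
   Spec.mk (nat_lit 20457) (nat_lit 2) [nat_lit 7335, nat_lit 21915, nat_lit 19971, nat_lit 20511, nat_lit 20475, nat_lit 20451] (nat_lit 0) [nat_lit 775] false,
   Spec.mk (nat_lit 20467) (nat_lit 1) [nat_lit 7345, nat_lit 21925, nat_lit 19981, nat_lit 20521, nat_lit 20449, nat_lit 20469] (nat_lit 0) [nat_lit 40149, nat_lit 785] false,
   Spec.mk (nat_lit 20469) (nat_lit 0) [nat_lit 7347, nat_lit 21927, nat_lit 19983, nat_lit 20523, nat_lit 20451, nat_lit 20475, nat_lit 20467] (nat_lit 0) [nat_lit 787] false,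
   Spec.mk (nat_lit 20475) (nat_lit 2) [nat_lit 7353, nat_lit 21933, nat_lit 19989, nat_lit 20529, nat_lit 20457, nat_lit 20469] (nat_lit 0) [nat_lit 793] false,
   Spec.mk (nat_lit 20495) (nat_lit 2) [nat_lit 7373, nat_lit 21953, nat_lit 20009, nat_lit 20657, nat_lit 20441, nat_lit 20497] (nat_lit 0) [nat_lit 40177] false,
   Spec.mk (nat_lit 20497) (nat_lit 2) [nat_lit 7375, nat_lit 21955, nat_lit 20011, nat_lit 20659, nat_lit 20443, nat_lit 20503, nat_lit 20495, nat_lit 20499] (nat_lit 0) [nat_lit 40179, nat_lit 815] false,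
   Spec.mk (nat_lit 20499) (nat_lit 0) [nat_lit 7377, nat_lit 21957, nat_lit 20013, nat_lit 20661, nat_lit 20445, nat_lit 20505, nat_lit 20497] (nat_lit 0) [nat_lit 817] false,
   Spec.mk (nat_lit 20503) (nat_lit 1) [nat_lit 7381, nat_lit 21961, nat_lit 20017, nat_lit 20665, nat_lit 20449, nat_lit 20521, nat_lit 20497, nat_lit 20505] (nat_lit 0) [nat_lit 40185, nat_lit 821] false,
   Spec.mk (nat_lit 20505) (nat_lit 1) [nat_lit 7383, nat_lit 21963, nat_lit 20019, nat_lit 20667, nat_lit 20451, nat_lit 20523, nat_lit 20499, nat_lit 20511, nat_lit 20503] (nat_lit 0) [nat_lit 823] false,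
   Spec.mk (nat_lit 20511) (nat_lit 0) [nat_lit 7389, nat_lit 21969, nat_lit 20025, nat_lit 20673, nat_lit 20457, nat_lit 20529, nat_lit 20505] (nat_lit 0) [nat_lit 829] false,
   Spec.mk (nat_lit 20521) (nat_lit 2) [nat_lit 7399, nat_lit 21979, nat_lit 20035, nat_lit 20683, nat_lit 20467, nat_lit 20575, nat_lit 20503, nat_lit 20523] (nat_lit 0) [nat_lit 40203, nat_lit 839] false,
   Spec.mk (nat_lit 20523) (nat_lit 1) [nat_lit 7401, nat_lit 21981, nat_lit 20037, nat_lit 20685, nat_lit 20469, nat_lit 20577, nat_lit 20505, nat_lit 20529, nat_lit 20521] (nat_lit 0) [nat_lit 841] false,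
   Spec.mk (nat_lit 20529) (nat_lit 2) [nat_lit 7407, nat_lit 21987, nat_lit 20043, nat_lit 20691, nat_lit 20475, nat_lit 20583, nat_lit 20511, nat_lit 20547, nat_lit 20523] (nat_lit 0) [nat_lit 847] false,
   Spec.mk (nat_lit 20547) (nat_lit 2) [nat_lit 7425, nat_lit 22005, nat_lit 20061, nat_lit 20709, nat_lit 20601, nat_lit 20529] (nat_lit 0) [nat_lit 865] false,
   Spec.mk (nat_lit 20575) (nat_lit 1) [nat_lit 7453, nat_lit 22033, nat_lit 20089, nat_lit 20737, nat_lit 20521, nat_lit 20577] (nat_lit 0) [nat_lit 40257, nat_lit 893] false,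
   Spec.mk (nat_lit 20577) (nat_lit 0) [nat_lit 7455, nat_lit 22035, nat_lit 20091, nat_lit 20739, nat_lit 20523, nat_lit 20583, nat_lit 20575] (nat_lit 0) [nat_lit 895] false,
   Spec.mk (nat_lit 20583) (nat_lit 0) [nat_lit 7461, nat_lit 22041, nat_lit 20097, nat_lit 20745, nat_lit 20529, nat_lit 20601, nat_lit 20577] (nat_lit 0) [nat_lit 901] false,
   Spec.mk (nat_lit 20601) (nat_lit 2) [nat_lit 7479, nat_lit 22059, nat_lit 20115, nat_lit 20763, nat_lit 20547, nat_lit 20583] (nat_lit 0) [nat_lit 919] false,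
   Spec.mk (nat_lit 20657) (nat_lit 3) [nat_lit 7535, nat_lit 22115, nat_lit 20171, nat_lit 21143, nat_lit 20495, nat_lit 20659] (nat_lit 0) [nat_lit 40339] false,
   Spec.mk (nat_lit 20659) (nat_lit 3) [nat_lit 7537, nat_lit 22117, nat_lit 20173, nat_lit 21145, nat_lit 20497, nat_lit 20665, nat_lit 20657, nat_lit 20661] (nat_lit 0) [nat_lit 40341, nat_lit 977] false,
   Spec.mk (nat_lit 20661) (nat_lit 1) [nat_lit 7539, nat_lit 22119, nat_lit 20175, nat_lit 21147, nat_lit 20499, nat_lit 20667, nat_lit 20659] (nat_lit 0) [nat_lit 979] false,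
   Spec.mk (nat_lit 20665) (nat_lit 2) [nat_lit 7543, nat_lit 22123, nat_lit 20179, nat_lit 21151, nat_lit 20503, nat_lit 20683, nat_lit 20659, nat_lit 20667] (nat_lit 0) [nat_lit 40347, nat_lit 983] false,
   Spec.mk (nat_lit 20667) (nat_lit 2) [nat_lit 7545, nat_lit 22125, nat_lit 20181, nat_lit 21153, nat_lit 20505, nat_lit 20685, nat_lit 20661, nat_lit 20673, nat_lit 20665] (nat_lit 0) [nat_lit 985] false,
   Spec.mk (nat_lit 20673) (nat_lit 1) [nat_lit 7551, nat_lit 22131, nat_lit 20187, nat_lit 21159, nat_lit 20511, nat_lit 20691, nat_lit 20667] (nat_lit 0) [nat_lit 991] false,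
   Spec.mk (nat_lit 20683) (nat_lit 2) [nat_lit 7561, nat_lit 22141, nat_lit 20197, nat_lit 21169, nat_lit 20521, nat_lit 20737, nat_lit 20665, nat_lit 20685] (nat_lit 0) [nat_lit 40365, nat_lit 1001] false,
   Spec.mk (nat_lit 20685) (nat_lit 1) [nat_lit 7563, nat_lit 22143, nat_lit 20199, nat_lit 21171, nat_lit 20523, nat_lit 20739, nat_lit 20667, nat_lit 20691, nat_lit 20683] (nat_lit 0) [nat_lit 1003] false,
   Spec.mk (nat_lit 20691) (nat_lit 2) [nat_lit 7569, nat_lit 22149, nat_lit 20205, nat_lit 21177, nat_lit 20529, nat_lit 20745, nat_lit 20673, nat_lit 20709, nat_lit 20685] (nat_lit 0) [nat_lit 1009] false,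
   Spec.mk (nat_lit 20709) (nat_lit 1) [nat_lit 7587, nat_lit 22167, nat_lit 20223, nat_lit 21195, nat_lit 20547, nat_lit 20763, nat_lit 20691] (nat_lit 0) [nat_lit 1027] false,
   Spec.mk (nat_lit 20737) (nat_lit 3) [nat_lit 7615, nat_lit 22195, nat_lit 20251, nat_lit 21223, nat_lit 20575, nat_lit 20899, nat_lit 20683, nat_lit 20739] (nat_lit 0) [nat_lit 40419, nat_lit 1055] false,
   Spec.mk (nat_lit 20739) (nat_lit 2) [nat_lit 7617, nat_lit 22197, nat_lit 20253, nat_lit 21225, nat_lit 20577, nat_lit 20901, nat_lit 20685, nat_lit 20745, nat_lit 20737] (nat_lit 0) [nat_lit 1057] false,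
   Spec.mk (nat_lit 20745) (nat_lit 2) [nat_lit 7623, nat_lit 22203, nat_lit 20259, nat_lit 21231, nat_lit 20583, nat_lit 20907, nat_lit 20691, nat_lit 20763, nat_lit 20739] (nat_lit 0) [nat_lit 1063] false,
   Spec.mk (nat_lit 20763) (nat_lit 3) [nat_lit 7641, nat_lit 22221, nat_lit 20277, nat_lit 21249, nat_lit 20601, nat_lit 20925, nat_lit 20709, nat_lit 20817, nat_lit 20745] (nat_lit 0) [nat_lit 1081] false,
   Spec.mk (nat_lit 20817) (nat_lit 3) [nat_lit 7695, nat_lit 22275, nat_lit 20331, nat_lit 21303, nat_lit 20979, nat_lit 20763] (nat_lit 0) [nat_lit 1135] false,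
   Spec.mk (nat_lit 20899) (nat_lit 3) [nat_lit 7777, nat_lit 22357, nat_lit 21385, nat_lit 20737, nat_lit 20901] (nat_lit 0) [nat_lit 40581, nat_lit 1217] false,
   Spec.mk (nat_lit 20901) (nat_lit 2) [nat_lit 7779, nat_lit 22359, nat_lit 21387, nat_lit 20739, nat_lit 20907, nat_lit 20899] (nat_lit 0) [nat_lit 1219] false,
   Spec.mk (nat_lit 20907) (nat_lit 2) [nat_lit 7785, nat_lit 22365, nat_lit 21393, nat_lit 20745, nat_lit 20925, nat_lit 20901] (nat_lit 0) [nat_lit 1225] false]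

noncomputable def sp17 : List Spec :=
  [Spec.mk (nat_lit 20925) (nat_lit 2) [nat_lit 7803, nat_lit 22383, nat_lit 21411, nat_lit 20763, nat_lit 20979, nat_lit 20907] (nat_lit 0) [nat_lit 1243] false,
   Spec.mk (nat_lit 20979) (nat_lit 4) [nat_lit 7857, nat_lit 22437, nat_lit 21465, nat_lit 20817, nat_lit 20925] (nat_lit 0) [nat_lit 1297] false,
   Spec.mk (nat_lit 21143) (nat_lit 2) [nat_lit 8021, nat_lit 22601, nat_lit 20657, nat_lit 21145] (nat_lit 0) [nat_lit 40825] false,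
   Spec.mk (nat_lit 21145) (nat_lit 2) [nat_lit 8023, nat_lit 22603, nat_lit 20659, nat_lit 21151, nat_lit 21143, nat_lit 21147] (nat_lit 0) [nat_lit 40827, nat_lit 1463] false,
   Spec.mk (nat_lit 21147) (nat_lit 0) [nat_lit 8025, nat_lit 22605, nat_lit 20661, nat_lit 21153, nat_lit 21145] (nat_lit 0) [nat_lit 1465] false,
   Spec.mk (nat_lit 21151) (nat_lit 1) [nat_lit 8029, nat_lit 22609, nat_lit 20665, nat_lit 21169, nat_lit 21145, nat_lit 21153] (nat_lit 0) [nat_lit 40833, nat_lit 1469] false,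
   Spec.mk (nat_lit 21153) (nat_lit 1) [nat_lit 8031, nat_lit 22611, nat_lit 20667, nat_lit 21171, nat_lit 21147, nat_lit 21159, nat_lit 21151] (nat_lit 0) [nat_lit 1471] false,
   Spec.mk (nat_lit 21159) (nat_lit 0) [nat_lit 8037, nat_lit 22617, nat_lit 20673, nat_lit 21177, nat_lit 21153] (nat_lit 0) [nat_lit 1477] false,
   Spec.mk (nat_lit 21169) (nat_lit 1) [nat_lit 8047, nat_lit 22627, nat_lit 20683, nat_lit 21223, nat_lit 21151, nat_lit 21171] (nat_lit 0) [nat_lit 40851, nat_lit 1487] false,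
   Spec.mk (nat_lit 21171) (nat_lit 0) [nat_lit 8049, nat_lit 22629, nat_lit 20685, nat_lit 21225, nat_lit 21153, nat_lit 21177, nat_lit 21169] (nat_lit 0) [nat_lit 1489] false,
   Spec.mk (nat_lit 21177) (nat_lit 1) [nat_lit 8055, nat_lit 22635, nat_lit 20691, nat_lit 21231, nat_lit 21159, nat_lit 21195, nat_lit 21171] (nat_lit 0) [nat_lit 1495] false,
   Spec.mk (nat_lit 21195) (nat_lit 0) [nat_lit 8073, nat_lit 22653, nat_lit 20709, nat_lit 21249, nat_lit 21177] (nat_lit 0) [nat_lit 1513] false,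
   Spec.mk (nat_lit 21223) (nat_lit 1) [nat_lit 8101, nat_lit 22681, nat_lit 20737, nat_lit 21385, nat_lit 21169, nat_lit 21225] (nat_lit 0) [nat_lit 40905, nat_lit 1541] false,
   Spec.mk (nat_lit 21225) (nat_lit 0) [nat_lit 8103, nat_lit 22683, nat_lit 20739, nat_lit 21387, nat_lit 21171, nat_lit 21231, nat_lit 21223] (nat_lit 0) [nat_lit 1543] false,
   Spec.mk (nat_lit 21231) (nat_lit 0) [nat_lit 8109, nat_lit 22689, nat_lit 20745, nat_lit 21393, nat_lit 21177, nat_lit 21249, nat_lit 21225] (nat_lit 0) [nat_lit 1549] false,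
   Spec.mk (nat_lit 21249) (nat_lit 1) [nat_lit 8127, nat_lit 22707, nat_lit 20763, nat_lit 21411, nat_lit 21195, nat_lit 21303, nat_lit 21231] (nat_lit 0) [nat_lit 1567] false,
   Spec.mk (nat_lit 21303) (nat_lit 0) [nat_lit 8181, nat_lit 22761, nat_lit 20817, nat_lit 21465, nat_lit 21249] (nat_lit 0) [nat_lit 1621] false,
   Spec.mk (nat_lit 21385) (nat_lit 3) [nat_lit 8263, nat_lit 22843, nat_lit 20899, nat_lit 21223, nat_lit 21387] (nat_lit 0) [nat_lit 41067, nat_lit 1703] false,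
   Spec.mk (nat_lit 21387) (nat_lit 2) [nat_lit 8265, nat_lit 22845, nat_lit 20901, nat_lit 21225, nat_lit 21393, nat_lit 21385] (nat_lit 0) [nat_lit 1705] false,
   Spec.mk (nat_lit 21393) (nat_lit 2) [nat_lit 8271, nat_lit 22851, nat_lit 20907, nat_lit 21231, nat_lit 21411, nat_lit 21387] (nat_lit 0) [nat_lit 1711] false,
   Spec.mk (nat_lit 21411) (nat_lit 2) [nat_lit 8289, nat_lit 22869, nat_lit 20925, nat_lit 21249, nat_lit 21465, nat_lit 21393] (nat_lit 0) [nat_lit 1729] false,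
   Spec.mk (nat_lit 21465) (nat_lit 3) [nat_lit 8343, nat_lit 22923, nat_lit 20979, nat_lit 21303, nat_lit 21627, nat_lit 21411] (nat_lit 0) [nat_lit 1783] false,
   Spec.mk (nat_lit 21627) (nat_lit 4) [nat_lit 8505, nat_lit 23085, nat_lit 21465] (nat_lit 0) [nat_lit 1945] false,
   Spec.mk (nat_lit 21875) (nat_lit 4) [nat_lit 8753, nat_lit 26249, nat_lit 20417, nat_lit 21881, nat_lit 21877] (nat_lit 0) [nat_lit 41557] false,
   Spec.mk (nat_lit 21877) (nat_lit 3) [nat_lit 8755, nat_lit 26251, nat_lit 20419, nat_lit 21883, nat_lit 21875] (nat_lit 0) [nat_lit 41559, nat_lit 2195] false,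
   Spec.mk (nat_lit 21881) (nat_lit 2) [nat_lit 8759, nat_lit 26255, nat_lit 20423, nat_lit 21899, nat_lit 21875, nat_lit 21883] (nat_lit 0) [nat_lit 41563] false,
   Spec.mk (nat_lit 21883) (nat_lit 3) [nat_lit 8761, nat_lit 26257, nat_lit 20425, nat_lit 21901, nat_lit 21877, nat_lit 21889, nat_lit 21881, nat_lit 21885] (nat_lit 0) [nat_lit 41565, nat_lit 2201] false,
   Spec.mk (nat_lit 21885) (nat_lit 2) [nat_lit 8763, nat_lit 26259, nat_lit 20427, nat_lit 21903, nat_lit 21891, nat_lit 21883] (nat_lit 0) [nat_lit 2203] false,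
   Spec.mk (nat_lit 21889) (nat_lit 1) [nat_lit 8767, nat_lit 26263, nat_lit 20431, nat_lit 21907, nat_lit 21883, nat_lit 21891] (nat_lit 0) [nat_lit 41571, nat_lit 2207] false,
   Spec.mk (nat_lit 21891) (nat_lit 2) [nat_lit 8769, nat_lit 26265, nat_lit 20433, nat_lit 21909, nat_lit 21885, nat_lit 21889] (nat_lit 0) [nat_lit 2209] false,
   Spec.mk (nat_lit 21899) (nat_lit 2) [nat_lit 8777, nat_lit 26273, nat_lit 20441, nat_lit 21953, nat_lit 21881, nat_lit 21901] (nat_lit 0) [nat_lit 41581] false,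
   Spec.mk (nat_lit 21901) (nat_lit 2) [nat_lit 8779, nat_lit 26275, nat_lit 20443, nat_lit 21955, nat_lit 21883, nat_lit 21907, nat_lit 21899, nat_lit 21903] (nat_lit 0) [nat_lit 41583, nat_lit 2219] false,
   Spec.mk (nat_lit 21903) (nat_lit 0) [nat_lit 8781, nat_lit 26277, nat_lit 20445, nat_lit 21957, nat_lit 21885, nat_lit 21909, nat_lit 21901] (nat_lit 0) [nat_lit 2221] false,
   Spec.mk (nat_lit 21907) (nat_lit 2) [nat_lit 8785, nat_lit 26281, nat_lit 20449, nat_lit 21961, nat_lit 21889, nat_lit 21925, nat_lit 21901, nat_lit 21909] (nat_lit 0) [nat_lit 41589, nat_lit 2225] false,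
   Spec.mk (nat_lit 21909) (nat_lit 2) [nat_lit 8787, nat_lit 26283, nat_lit 20451, nat_lit 21963, nat_lit 21891, nat_lit 21927, nat_lit 21903, nat_lit 21915, nat_lit 21907] (nat_lit 0) [nat_lit 2227] false,
   Spec.mk (nat_lit 21915) (nat_lit 2) [nat_lit 8793, nat_lit 26289, nat_lit 20457, nat_lit 21969, nat_lit 21933, nat_lit 21909] (nat_lit 0) [nat_lit 2233] false,
   Spec.mk (nat_lit 21925) (nat_lit 1) [nat_lit 8803, nat_lit 26299, nat_lit 20467, nat_lit 21979, nat_lit 21907, nat_lit 21927] (nat_lit 0) [nat_lit 41607, nat_lit 2243] false,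
   Spec.mk (nat_lit 21927) (nat_lit 0) [nat_lit 8805, nat_lit 26301, nat_lit 20469, nat_lit 21981, nat_lit 21909, nat_lit 21933, nat_lit 21925] (nat_lit 0) [nat_lit 2245] false,
   Spec.mk (nat_lit 21933) (nat_lit 2) [nat_lit 8811, nat_lit 26307, nat_lit 20475, nat_lit 21987, nat_lit 21915, nat_lit 21927] (nat_lit 0) [nat_lit 2251] false,
   Spec.mk (nat_lit 21953) (nat_lit 2) [nat_lit 8831, nat_lit 26327, nat_lit 20495, nat_lit 22115, nat_lit 21899, nat_lit 21955] (nat_lit 0) [nat_lit 41635] false,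
   Spec.mk (nat_lit 21955) (nat_lit 2) [nat_lit 8833, nat_lit 26329, nat_lit 20497, nat_lit 22117, nat_lit 21901, nat_lit 21961, nat_lit 21953, nat_lit 21957] (nat_lit 0) [nat_lit 41637, nat_lit 2273] false,
   Spec.mk (nat_lit 21957) (nat_lit 0) [nat_lit 8835, nat_lit 26331, nat_lit 20499, nat_lit 22119, nat_lit 21903, nat_lit 21963, nat_lit 21955] (nat_lit 0) [nat_lit 2275] false,
   Spec.mk (nat_lit 21961) (nat_lit 1) [nat_lit 8839, nat_lit 26335, nat_lit 20503, nat_lit 22123, nat_lit 21907, nat_lit 21979, nat_lit 21955, nat_lit 21963] (nat_lit 0) [nat_lit 41643, nat_lit 2279] false,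
   Spec.mk (nat_lit 21963) (nat_lit 1) [nat_lit 8841, nat_lit 26337, nat_lit 20505, nat_lit 22125, nat_lit 21909, nat_lit 21981, nat_lit 21957, nat_lit 21969, nat_lit 21961] (nat_lit 0) [nat_lit 2281] false,
   Spec.mk (nat_lit 21969) (nat_lit 0) [nat_lit 8847, nat_lit 26343, nat_lit 20511, nat_lit 22131, nat_lit 21915, nat_lit 21987, nat_lit 21963] (nat_lit 0) [nat_lit 2287] false,
   Spec.mk (nat_lit 21979) (nat_lit 2) [nat_lit 8857, nat_lit 26353, nat_lit 20521, nat_lit 22141, nat_lit 21925, nat_lit 22033, nat_lit 21961, nat_lit 21981] (nat_lit 0) [nat_lit 41661, nat_lit 2297] false,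
   Spec.mk (nat_lit 21981) (nat_lit 1) [nat_lit 8859, nat_lit 26355, nat_lit 20523, nat_lit 22143, nat_lit 21927, nat_lit 22035, nat_lit 21963, nat_lit 21987, nat_lit 21979] (nat_lit 0) [nat_lit 2299] false,
   Spec.mk (nat_lit 21987) (nat_lit 2) [nat_lit 8865, nat_lit 26361, nat_lit 20529, nat_lit 22149, nat_lit 21933, nat_lit 22041, nat_lit 21969, nat_lit 22005, nat_lit 21981] (nat_lit 0) [nat_lit 2305] false,
   Spec.mk (nat_lit 22005) (nat_lit 2) [nat_lit 8883, nat_lit 26379, nat_lit 20547, nat_lit 22167, nat_lit 22059, nat_lit 21987] (nat_lit 0) [nat_lit 2323] false,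
   Spec.mk (nat_lit 22033) (nat_lit 1) [nat_lit 8911, nat_lit 26407, nat_lit 20575, nat_lit 22195, nat_lit 21979, nat_lit 22035] (nat_lit 0) [nat_lit 41715, nat_lit 2351] false,
   Spec.mk (nat_lit 22035) (nat_lit 0) [nat_lit 8913, nat_lit 26409, nat_lit 20577, nat_lit 22197, nat_lit 21981, nat_lit 22041, nat_lit 22033] (nat_lit 0) [nat_lit 2353] false,
   Spec.mk (nat_lit 22041) (nat_lit 0) [nat_lit 8919, nat_lit 26415, nat_lit 20583, nat_lit 22203, nat_lit 21987, nat_lit 22059, nat_lit 22035] (nat_lit 0) [nat_lit 2359] false,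
   Spec.mk (nat_lit 22059) (nat_lit 2) [nat_lit 8937, nat_lit 26433, nat_lit 20601, nat_lit 22221, nat_lit 22005, nat_lit 22041] (nat_lit 0) [nat_lit 2377] false,
   Spec.mk (nat_lit 22115) (nat_lit 2) [nat_lit 8993, nat_lit 26489, nat_lit 20657, nat_lit 22601, nat_lit 21953, nat_lit 22117] (nat_lit 0) [nat_lit 41797] false,
   Spec.mk (nat_lit 22117) (nat_lit 2) [nat_lit 8995, nat_lit 26491, nat_lit 20659, nat_lit 22603, nat_lit 21955, nat_lit 22123, nat_lit 22115, nat_lit 22119] (nat_lit 0) [nat_lit 41799, nat_lit 2435] false,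
   Spec.mk (nat_lit 22119) (nat_lit 0) [nat_lit 8997, nat_lit 26493, nat_lit 20661, nat_lit 22605, nat_lit 21957, nat_lit 22125, nat_lit 22117] (nat_lit 0) [nat_lit 2437] false,
   Spec.mk (nat_lit 22123) (nat_lit 1) [nat_lit 9001, nat_lit 26497, nat_lit 20665, nat_lit 22609, nat_lit 21961, nat_lit 22141, nat_lit 22117, nat_lit 22125] (nat_lit 0) [nat_lit 41805, nat_lit 2441] false,
   Spec.mk (nat_lit 22125) (nat_lit 1) [nat_lit 9003, nat_lit 26499, nat_lit 20667, nat_lit 22611, nat_lit 21963, nat_lit 22143, nat_lit 22119, nat_lit 22131, nat_lit 22123] (nat_lit 0) [nat_lit 2443] false,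
   Spec.mk (nat_lit 22131) (nat_lit 0) [nat_lit 9009, nat_lit 26505, nat_lit 20673, nat_lit 22617, nat_lit 21969, nat_lit 22149, nat_lit 22125] (nat_lit 0) [nat_lit 2449] false,
   Spec.mk (nat_lit 22141) (nat_lit 1) [nat_lit 9019, nat_lit 26515, nat_lit 20683, nat_lit 22627, nat_lit 21979, nat_lit 22195, nat_lit 22123, nat_lit 22143] (nat_lit 0) [nat_lit 41823, nat_lit 2459] false]

noncomputable def sp18 : List Spec :=
  [Spec.mk (nat_lit 22143) (nat_lit 0) [nat_lit 9021, nat_lit 26517, nat_lit 20685, nat_lit 22629, nat_lit 21981, nat_lit 22197, nat_lit 22125, nat_lit 22149, nat_lit 22141] (nat_lit 0) [nat_lit 2461] false,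
   Spec.mk (nat_lit 22149) (nat_lit 1) [nat_lit 9027, nat_lit 26523, nat_lit 20691, nat_lit 22635, nat_lit 21987, nat_lit 22203, nat_lit 22131, nat_lit 22167, nat_lit 22143] (nat_lit 0) [nat_lit 2467] false,
   Spec.mk (nat_lit 22167) (nat_lit 0) [nat_lit 9045, nat_lit 26541, nat_lit 20709, nat_lit 22653, nat_lit 22005, nat_lit 22221, nat_lit 22149] (nat_lit 0) [nat_lit 2485] false,
   Spec.mk (nat_lit 22195) (nat_lit 2) [nat_lit 9073, nat_lit 26569, nat_lit 20737, nat_lit 22681, nat_lit 22033, nat_lit 22357, nat_lit 22141, nat_lit 22197] (nat_lit 0) [nat_lit 41877, nat_lit 2513] false,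
   Spec.mk (nat_lit 22197) (nat_lit 1) [nat_lit 9075, nat_lit 26571, nat_lit 20739, nat_lit 22683, nat_lit 22035, nat_lit 22359, nat_lit 22143, nat_lit 22203, nat_lit 22195] (nat_lit 0) [nat_lit 2515] false,
   Spec.mk (nat_lit 22203) (nat_lit 1) [nat_lit 9081, nat_lit 26577, nat_lit 20745, nat_lit 22689, nat_lit 22041, nat_lit 22365, nat_lit 22149, nat_lit 22221, nat_lit 22197] (nat_lit 0) [nat_lit 2521] false,
   Spec.mk (nat_lit 22221) (nat_lit 2) [nat_lit 9099, nat_lit 26595, nat_lit 20763, nat_lit 22707, nat_lit 22059, nat_lit 22383, nat_lit 22167, nat_lit 22275, nat_lit 22203] (nat_lit 0) [nat_lit 2539] false,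
   Spec.mk (nat_lit 22275) (nat_lit 2) [nat_lit 9153, nat_lit 26649, nat_lit 20817, nat_lit 22761, nat_lit 22437, nat_lit 22221] (nat_lit 0) [nat_lit 2593] false,
   Spec.mk (nat_lit 22357) (nat_lit 1) [nat_lit 9235, nat_lit 26731, nat_lit 20899, nat_lit 22843, nat_lit 22195, nat_lit 22359] (nat_lit 0) [nat_lit 42039, nat_lit 2675] false,
   Spec.mk (nat_lit 22359) (nat_lit 0) [nat_lit 9237, nat_lit 26733, nat_lit 20901, nat_lit 22845, nat_lit 22197, nat_lit 22365, nat_lit 22357] (nat_lit 0) [nat_lit 2677] false,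
   Spec.mk (nat_lit 22365) (nat_lit 0) [nat_lit 9243, nat_lit 26739, nat_lit 20907, nat_lit 22851, nat_lit 22203, nat_lit 22383, nat_lit 22359] (nat_lit 0) [nat_lit 2683] false,
   Spec.mk (nat_lit 22383) (nat_lit 0) [nat_lit 9261, nat_lit 26757, nat_lit 20925, nat_lit 22869, nat_lit 22221, nat_lit 22437, nat_lit 22365] (nat_lit 0) [nat_lit 2701] false,
   Spec.mk (nat_lit 22437) (nat_lit 2) [nat_lit 9315, nat_lit 26811, nat_lit 20979, nat_lit 22923, nat_lit 22275, nat_lit 22383] (nat_lit 0) [nat_lit 2755] false,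
   Spec.mk (nat_lit 22601) (nat_lit 3) [nat_lit 9479, nat_lit 26975, nat_lit 21143, nat_lit 24059, nat_lit 22115, nat_lit 22603] (nat_lit 0) [nat_lit 42283] false,
   Spec.mk (nat_lit 22603) (nat_lit 3) [nat_lit 9481, nat_lit 26977, nat_lit 21145, nat_lit 24061, nat_lit 22117, nat_lit 22609, nat_lit 22601, nat_lit 22605] (nat_lit 0) [nat_lit 42285, nat_lit 2921] false,
   Spec.mk (nat_lit 22605) (nat_lit 1) [nat_lit 9483, nat_lit 26979, nat_lit 21147, nat_lit 24063, nat_lit 22119, nat_lit 22611, nat_lit 22603] (nat_lit 0) [nat_lit 2923] false,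
   Spec.mk (nat_lit 22609) (nat_lit 2) [nat_lit 9487, nat_lit 26983, nat_lit 21151, nat_lit 24067, nat_lit 22123, nat_lit 22627, nat_lit 22603, nat_lit 22611] (nat_lit 0) [nat_lit 42291, nat_lit 2927] false,
   Spec.mk (nat_lit 22611) (nat_lit 2) [nat_lit 9489, nat_lit 26985, nat_lit 21153, nat_lit 24069, nat_lit 22125, nat_lit 22629, nat_lit 22605, nat_lit 22617, nat_lit 22609] (nat_lit 0) [nat_lit 2929] false,
   Spec.mk (nat_lit 22617) (nat_lit 1) [nat_lit 9495, nat_lit 26991, nat_lit 21159, nat_lit 24075, nat_lit 22131, nat_lit 22635, nat_lit 22611] (nat_lit 0) [nat_lit 2935] false,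
   Spec.mk (nat_lit 22627) (nat_lit 2) [nat_lit 9505, nat_lit 27001, nat_lit 21169, nat_lit 24085, nat_lit 22141, nat_lit 22681, nat_lit 22609, nat_lit 22629] (nat_lit 0) [nat_lit 42309, nat_lit 2945] false,
   Spec.mk (nat_lit 22629) (nat_lit 1) [nat_lit 9507, nat_lit 27003, nat_lit 21171, nat_lit 24087, nat_lit 22143, nat_lit 22683, nat_lit 22611, nat_lit 22635, nat_lit 22627] (nat_lit 0) [nat_lit 2947] false,
   Spec.mk (nat_lit 22635) (nat_lit 2) [nat_lit 9513, nat_lit 27009, nat_lit 21177, nat_lit 24093, nat_lit 22149, nat_lit 22689, nat_lit 22617, nat_lit 22653, nat_lit 22629] (nat_lit 0) [nat_lit 2953] false,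
   Spec.mk (nat_lit 22653) (nat_lit 1) [nat_lit 9531, nat_lit 27027, nat_lit 21195, nat_lit 24111, nat_lit 22167, nat_lit 22707, nat_lit 22635] (nat_lit 0) [nat_lit 2971] false,
   Spec.mk (nat_lit 22681) (nat_lit 2) [nat_lit 9559, nat_lit 27055, nat_lit 21223, nat_lit 24139, nat_lit 22195, nat_lit 22843, nat_lit 22627, nat_lit 22683] (nat_lit 0) [nat_lit 42363, nat_lit 2999] false,
   Spec.mk (nat_lit 22683) (nat_lit 1) [nat_lit 9561, nat_lit 27057, nat_lit 21225, nat_lit 24141, nat_lit 22197, nat_lit 22845, nat_lit 22629, nat_lit 22689, nat_lit 22681] (nat_lit 0) [nat_lit 3001] false,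
   Spec.mk (nat_lit 22689) (nat_lit 1) [nat_lit 9567, nat_lit 27063, nat_lit 21231, nat_lit 24147, nat_lit 22203, nat_lit 22851, nat_lit 22635, nat_lit 22707, nat_lit 22683] (nat_lit 0) [nat_lit 3007] false,
   Spec.mk (nat_lit 22707) (nat_lit 2) [nat_lit 9585, nat_lit 27081, nat_lit 21249, nat_lit 24165, nat_lit 22221, nat_lit 22869, nat_lit 22653, nat_lit 22761, nat_lit 22689] (nat_lit 0) [nat_lit 3025] false,
   Spec.mk (nat_lit 22761) (nat_lit 1) [nat_lit 9639, nat_lit 27135, nat_lit 21303, nat_lit 24219, nat_lit 22275, nat_lit 22923, nat_lit 22707] (nat_lit 0) [nat_lit 3079] false,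
   Spec.mk (nat_lit 22843) (nat_lit 3) [nat_lit 9721, nat_lit 27217, nat_lit 21385, nat_lit 24301, nat_lit 22357, nat_lit 23329, nat_lit 22681, nat_lit 22845] (nat_lit 0) [nat_lit 42525, nat_lit 3161] false,
   Spec.mk (nat_lit 22845) (nat_lit 2) [nat_lit 9723, nat_lit 27219, nat_lit 21387, nat_lit 24303, nat_lit 22359, nat_lit 23331, nat_lit 22683, nat_lit 22851, nat_lit 22843] (nat_lit 0) [nat_lit 3163] false,
   Spec.mk (nat_lit 22851) (nat_lit 2) [nat_lit 9729, nat_lit 27225, nat_lit 21393, nat_lit 24309, nat_lit 22365, nat_lit 23337, nat_lit 22689, nat_lit 22869, nat_lit 22845] (nat_lit 0) [nat_lit 3169] false,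
   Spec.mk (nat_lit 22869) (nat_lit 2) [nat_lit 9747, nat_lit 27243, nat_lit 21411, nat_lit 24327, nat_lit 22383, nat_lit 23355, nat_lit 22707, nat_lit 22923, nat_lit 22851] (nat_lit 0) [nat_lit 3187] false,
   Spec.mk (nat_lit 22923) (nat_lit 3) [nat_lit 9801, nat_lit 27297, nat_lit 21465, nat_lit 24381, nat_lit 22437, nat_lit 23409, nat_lit 22761, nat_lit 23085, nat_lit 22869] (nat_lit 0) [nat_lit 3241] false,
   Spec.mk (nat_lit 23085) (nat_lit 3) [nat_lit 9963, nat_lit 27459, nat_lit 21627, nat_lit 24543, nat_lit 23571, nat_lit 22923] (nat_lit 0) [nat_lit 3403] false,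
   Spec.mk (nat_lit 23329) (nat_lit 3) [nat_lit 10207, nat_lit 27703, nat_lit 24787, nat_lit 22843, nat_lit 23331] (nat_lit 0) [nat_lit 43011, nat_lit 3647] false,
   Spec.mk (nat_lit 23331) (nat_lit 2) [nat_lit 10209, nat_lit 27705, nat_lit 24789, nat_lit 22845, nat_lit 23337, nat_lit 23329] (nat_lit 0) [nat_lit 3649] false,
   Spec.mk (nat_lit 23337) (nat_lit 2) [nat_lit 10215, nat_lit 27711, nat_lit 24795, nat_lit 22851, nat_lit 23355, nat_lit 23331] (nat_lit 0) [nat_lit 3655] false,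
   Spec.mk (nat_lit 23355) (nat_lit 2) [nat_lit 10233, nat_lit 27729, nat_lit 24813, nat_lit 22869, nat_lit 23409, nat_lit 23337] (nat_lit 0) [nat_lit 3673] false,
   Spec.mk (nat_lit 23409) (nat_lit 2) [nat_lit 10287, nat_lit 27783, nat_lit 24867, nat_lit 22923, nat_lit 23571, nat_lit 23355] (nat_lit 0) [nat_lit 3727] false,
   Spec.mk (nat_lit 23571) (nat_lit 4) [nat_lit 10449, nat_lit 27945, nat_lit 25029, nat_lit 23085, nat_lit 23409] (nat_lit 0) [nat_lit 3889] false,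
   Spec.mk (nat_lit 24059) (nat_lit 2) [nat_lit 10937, nat_lit 28433, nat_lit 22601, nat_lit 24061] (nat_lit 0) [nat_lit 43741] false,
   Spec.mk (nat_lit 24061) (nat_lit 2) [nat_lit 10939, nat_lit 28435, nat_lit 22603, nat_lit 24067, nat_lit 24059, nat_lit 24063] (nat_lit 0) [nat_lit 43743, nat_lit 4379] false,
   Spec.mk (nat_lit 24063) (nat_lit 0) [nat_lit 10941, nat_lit 28437, nat_lit 22605, nat_lit 24069, nat_lit 24061] (nat_lit 0) [nat_lit 4381] false,
   Spec.mk (nat_lit 24067) (nat_lit 1) [nat_lit 10945, nat_lit 28441, nat_lit 22609, nat_lit 24085, nat_lit 24061, nat_lit 24069] (nat_lit 0) [nat_lit 43749, nat_lit 4385] false,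
   Spec.mk (nat_lit 24069) (nat_lit 1) [nat_lit 10947, nat_lit 28443, nat_lit 22611, nat_lit 24087, nat_lit 24063, nat_lit 24075, nat_lit 24067] (nat_lit 0) [nat_lit 4387] false,
   Spec.mk (nat_lit 24075) (nat_lit 0) [nat_lit 10953, nat_lit 28449, nat_lit 22617, nat_lit 24093, nat_lit 24069] (nat_lit 0) [nat_lit 4393] false,
   Spec.mk (nat_lit 24085) (nat_lit 1) [nat_lit 10963, nat_lit 28459, nat_lit 22627, nat_lit 24139, nat_lit 24067, nat_lit 24087] (nat_lit 0) [nat_lit 43767, nat_lit 4403] false,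
   Spec.mk (nat_lit 24087) (nat_lit 0) [nat_lit 10965, nat_lit 28461, nat_lit 22629, nat_lit 24141, nat_lit 24069, nat_lit 24093, nat_lit 24085] (nat_lit 0) [nat_lit 4405] false,
   Spec.mk (nat_lit 24093) (nat_lit 1) [nat_lit 10971, nat_lit 28467, nat_lit 22635, nat_lit 24147, nat_lit 24075, nat_lit 24111, nat_lit 24087] (nat_lit 0) [nat_lit 4411] false,
   Spec.mk (nat_lit 24111) (nat_lit 0) [nat_lit 10989, nat_lit 28485, nat_lit 22653, nat_lit 24165, nat_lit 24093] (nat_lit 0) [nat_lit 4429] false,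
   Spec.mk (nat_lit 24139) (nat_lit 1) [nat_lit 11017, nat_lit 28513, nat_lit 22681, nat_lit 24301, nat_lit 24085, nat_lit 24141] (nat_lit 0) [nat_lit 43821, nat_lit 4457] false,
   Spec.mk (nat_lit 24141) (nat_lit 0) [nat_lit 11019, nat_lit 28515, nat_lit 22683, nat_lit 24303, nat_lit 24087, nat_lit 24147, nat_lit 24139] (nat_lit 0) [nat_lit 4459] false,
   Spec.mk (nat_lit 24147) (nat_lit 0) [nat_lit 11025, nat_lit 28521, nat_lit 22689, nat_lit 24309, nat_lit 24093, nat_lit 24165, nat_lit 24141] (nat_lit 0) [nat_lit 4465] false,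
   Spec.mk (nat_lit 24165) (nat_lit 1) [nat_lit 11043, nat_lit 28539, nat_lit 22707, nat_lit 24327, nat_lit 24111, nat_lit 24219, nat_lit 24147] (nat_lit 0) [nat_lit 4483] false,
   Spec.mk (nat_lit 24219) (nat_lit 0) [nat_lit 11097, nat_lit 28593, nat_lit 22761, nat_lit 24381, nat_lit 24165] (nat_lit 0) [nat_lit 4537] false,
   Spec.mk (nat_lit 24301) (nat_lit 1) [nat_lit 11179, nat_lit 28675, nat_lit 22843, nat_lit 24787, nat_lit 24139, nat_lit 24303] (nat_lit 0) [nat_lit 43983, nat_lit 4619] false,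
   Spec.mk (nat_lit 24303) (nat_lit 0) [nat_lit 11181, nat_lit 28677, nat_lit 22845, nat_lit 24789, nat_lit 24141, nat_lit 24309, nat_lit 24301] (nat_lit 0) [nat_lit 4621] false,
   Spec.mk (nat_lit 24309) (nat_lit 0) [nat_lit 11187, nat_lit 28683, nat_lit 22851, nat_lit 24795, nat_lit 24147, nat_lit 24327, nat_lit 24303] (nat_lit 0) [nat_lit 4627] false,
   Spec.mk (nat_lit 24327) (nat_lit 0) [nat_lit 11205, nat_lit 28701, nat_lit 22869, nat_lit 24813, nat_lit 24165, nat_lit 24381, nat_lit 24309] (nat_lit 0) [nat_lit 4645] false,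
   Spec.mk (nat_lit 24381) (nat_lit 1) [nat_lit 11259, nat_lit 28755, nat_lit 22923, nat_lit 24867, nat_lit 24219, nat_lit 24543, nat_lit 24327] (nat_lit 0) [nat_lit 4699] false]

noncomputable def sp19 : List Spec :=
  [Spec.mk (nat_lit 24543) (nat_lit 0) [nat_lit 11421, nat_lit 28917, nat_lit 23085, nat_lit 25029, nat_lit 24381] (nat_lit 0) [nat_lit 4861] false,
   Spec.mk (nat_lit 24787) (nat_lit 3) [nat_lit 11665, nat_lit 29161, nat_lit 23329, nat_lit 24301, nat_lit 24789] (nat_lit 0) [nat_lit 44469, nat_lit 5105] false,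
   Spec.mk (nat_lit 24789) (nat_lit 2) [nat_lit 11667, nat_lit 29163, nat_lit 23331, nat_lit 24303, nat_lit 24795, nat_lit 24787] (nat_lit 0) [nat_lit 5107] false,
   Spec.mk (nat_lit 24795) (nat_lit 2) [nat_lit 11673, nat_lit 29169, nat_lit 23337, nat_lit 24309, nat_lit 24813, nat_lit 24789] (nat_lit 0) [nat_lit 5113] false,
   Spec.mk (nat_lit 24813) (nat_lit 2) [nat_lit 11691, nat_lit 29187, nat_lit 23355, nat_lit 24327, nat_lit 24867, nat_lit 24795] (nat_lit 0) [nat_lit 5131] false,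
   Spec.mk (nat_lit 24867) (nat_lit 2) [nat_lit 11745, nat_lit 29241, nat_lit 23409, nat_lit 24381, nat_lit 25029, nat_lit 24813] (nat_lit 0) [nat_lit 5185] false,
   Spec.mk (nat_lit 25029) (nat_lit 3) [nat_lit 11907, nat_lit 29403, nat_lit 23571, nat_lit 24543, nat_lit 25515, nat_lit 24867] (nat_lit 0) [nat_lit 5347] false,
   Spec.mk (nat_lit 25515) (nat_lit 4) [nat_lit 12393, nat_lit 29889, nat_lit 25029] (nat_lit 0) [nat_lit 5833] false,
   Spec.mk (nat_lit 26249) (nat_lit 5) [nat_lit 13127, nat_lit 39371, nat_lit 21875, nat_lit 26255, nat_lit 26251] (nat_lit 0) [nat_lit 45931] false,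
   Spec.mk (nat_lit 26251) (nat_lit 4) [nat_lit 13129, nat_lit 39373, nat_lit 21877, nat_lit 26257, nat_lit 26249] (nat_lit 0) [nat_lit 45933, nat_lit 6569] false,
   Spec.mk (nat_lit 26255) (nat_lit 3) [nat_lit 13133, nat_lit 39377, nat_lit 21881, nat_lit 26273, nat_lit 26249, nat_lit 26257] (nat_lit 0) [nat_lit 45937] false,
   Spec.mk (nat_lit 26257) (nat_lit 4) [nat_lit 13135, nat_lit 39379, nat_lit 21883, nat_lit 26275, nat_lit 26251, nat_lit 26263, nat_lit 26255, nat_lit 26259] (nat_lit 0) [nat_lit 45939, nat_lit 6575] false,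
   Spec.mk (nat_lit 26259) (nat_lit 3) [nat_lit 13137, nat_lit 39381, nat_lit 21885, nat_lit 26277, nat_lit 26265, nat_lit 26257] (nat_lit 0) [nat_lit 6577] false,
   Spec.mk (nat_lit 26263) (nat_lit 2) [nat_lit 13141, nat_lit 39385, nat_lit 21889, nat_lit 26281, nat_lit 26257, nat_lit 26265] (nat_lit 0) [nat_lit 45945, nat_lit 6581] false,
   Spec.mk (nat_lit 26265) (nat_lit 3) [nat_lit 13143, nat_lit 39387, nat_lit 21891, nat_lit 26283, nat_lit 26259, nat_lit 26263] (nat_lit 0) [nat_lit 6583] false,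
   Spec.mk (nat_lit 26273) (nat_lit 3) [nat_lit 13151, nat_lit 39395, nat_lit 21899, nat_lit 26327, nat_lit 26255, nat_lit 26275] (nat_lit 0) [nat_lit 45955] false,
   Spec.mk (nat_lit 26275) (nat_lit 3) [nat_lit 13153, nat_lit 39397, nat_lit 21901, nat_lit 26329, nat_lit 26257, nat_lit 26281, nat_lit 26273, nat_lit 26277] (nat_lit 0) [nat_lit 45957, nat_lit 6593] false,
   Spec.mk (nat_lit 26277) (nat_lit 1) [nat_lit 13155, nat_lit 39399, nat_lit 21903, nat_lit 26331, nat_lit 26259, nat_lit 26283, nat_lit 26275] (nat_lit 0) [nat_lit 6595] false,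
   Spec.mk (nat_lit 26281) (nat_lit 3) [nat_lit 13159, nat_lit 39403, nat_lit 21907, nat_lit 26335, nat_lit 26263, nat_lit 26299, nat_lit 26275, nat_lit 26283] (nat_lit 0) [nat_lit 45963, nat_lit 6599] false,
   Spec.mk (nat_lit 26283) (nat_lit 3) [nat_lit 13161, nat_lit 39405, nat_lit 21909, nat_lit 26337, nat_lit 26265, nat_lit 26301, nat_lit 26277, nat_lit 26289, nat_lit 26281] (nat_lit 0) [nat_lit 6601] false,
   Spec.mk (nat_lit 26289) (nat_lit 3) [nat_lit 13167, nat_lit 39411, nat_lit 21915, nat_lit 26343, nat_lit 26307, nat_lit 26283] (nat_lit 0) [nat_lit 6607] false,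
   Spec.mk (nat_lit 26299) (nat_lit 2) [nat_lit 13177, nat_lit 39421, nat_lit 21925, nat_lit 26353, nat_lit 26281, nat_lit 26301] (nat_lit 0) [nat_lit 45981, nat_lit 6617] false,
   Spec.mk (nat_lit 26301) (nat_lit 1) [nat_lit 13179, nat_lit 39423, nat_lit 21927, nat_lit 26355, nat_lit 26283, nat_lit 26307, nat_lit 26299] (nat_lit 0) [nat_lit 6619] false,
   Spec.mk (nat_lit 26307) (nat_lit 3) [nat_lit 13185, nat_lit 39429, nat_lit 21933, nat_lit 26361, nat_lit 26289, nat_lit 26301] (nat_lit 0) [nat_lit 6625] false,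
   Spec.mk (nat_lit 26327) (nat_lit 3) [nat_lit 13205, nat_lit 39449, nat_lit 21953, nat_lit 26489, nat_lit 26273, nat_lit 26329] (nat_lit 0) [nat_lit 46009] false,
   Spec.mk (nat_lit 26329) (nat_lit 3) [nat_lit 13207, nat_lit 39451, nat_lit 21955, nat_lit 26491, nat_lit 26275, nat_lit 26335, nat_lit 26327, nat_lit 26331] (nat_lit 0) [nat_lit 46011, nat_lit 6647] false,
   Spec.mk (nat_lit 26331) (nat_lit 1) [nat_lit 13209, nat_lit 39453, nat_lit 21957, nat_lit 26493, nat_lit 26277, nat_lit 26337, nat_lit 26329] (nat_lit 0) [nat_lit 6649] false,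
   Spec.mk (nat_lit 26335) (nat_lit 2) [nat_lit 13213, nat_lit 39457, nat_lit 21961, nat_lit 26497, nat_lit 26281, nat_lit 26353, nat_lit 26329, nat_lit 26337] (nat_lit 0) [nat_lit 46017, nat_lit 6653] false,
   Spec.mk (nat_lit 26337) (nat_lit 2) [nat_lit 13215, nat_lit 39459, nat_lit 21963, nat_lit 26499, nat_lit 26283, nat_lit 26355, nat_lit 26331, nat_lit 26343, nat_lit 26335] (nat_lit 0) [nat_lit 6655] false,
   Spec.mk (nat_lit 26343) (nat_lit 1) [nat_lit 13221, nat_lit 39465, nat_lit 21969, nat_lit 26505, nat_lit 26289, nat_lit 26361, nat_lit 26337] (nat_lit 0) [nat_lit 6661] false,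
   Spec.mk (nat_lit 26353) (nat_lit 3) [nat_lit 13231, nat_lit 39475, nat_lit 21979, nat_lit 26515, nat_lit 26299, nat_lit 26407, nat_lit 26335, nat_lit 26355] (nat_lit 0) [nat_lit 46035, nat_lit 6671] false,
   Spec.mk (nat_lit 26355) (nat_lit 2) [nat_lit 13233, nat_lit 39477, nat_lit 21981, nat_lit 26517, nat_lit 26301, nat_lit 26409, nat_lit 26337, nat_lit 26361, nat_lit 26353] (nat_lit 0) [nat_lit 6673] false,
   Spec.mk (nat_lit 26361) (nat_lit 3) [nat_lit 13239, nat_lit 39483, nat_lit 21987, nat_lit 26523, nat_lit 26307, nat_lit 26415, nat_lit 26343, nat_lit 26379, nat_lit 26355] (nat_lit 0) [nat_lit 6679] false,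
   Spec.mk (nat_lit 26379) (nat_lit 3) [nat_lit 13257, nat_lit 39501, nat_lit 22005, nat_lit 26541, nat_lit 26433, nat_lit 26361] (nat_lit 0) [nat_lit 6697] false,
   Spec.mk (nat_lit 26407) (nat_lit 2) [nat_lit 13285, nat_lit 39529, nat_lit 22033, nat_lit 26569, nat_lit 26353, nat_lit 26409] (nat_lit 0) [nat_lit 46089, nat_lit 6725] false,
   Spec.mk (nat_lit 26409) (nat_lit 1) [nat_lit 13287, nat_lit 39531, nat_lit 22035, nat_lit 26571, nat_lit 26355, nat_lit 26415, nat_lit 26407] (nat_lit 0) [nat_lit 6727] false,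
   Spec.mk (nat_lit 26415) (nat_lit 1) [nat_lit 13293, nat_lit 39537, nat_lit 22041, nat_lit 26577, nat_lit 26361, nat_lit 26433, nat_lit 26409] (nat_lit 0) [nat_lit 6733] false,
   Spec.mk (nat_lit 26433) (nat_lit 3) [nat_lit 13311, nat_lit 39555, nat_lit 22059, nat_lit 26595, nat_lit 26379, nat_lit 26415] (nat_lit 0) [nat_lit 6751] false,
   Spec.mk (nat_lit 26489) (nat_lit 3) [nat_lit 13367, nat_lit 39611, nat_lit 22115, nat_lit 26975, nat_lit 26327, nat_lit 26491] (nat_lit 0) [nat_lit 46171] false,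
   Spec.mk (nat_lit 26491) (nat_lit 3) [nat_lit 13369, nat_lit 39613, nat_lit 22117, nat_lit 26977, nat_lit 26329, nat_lit 26497, nat_lit 26489, nat_lit 26493] (nat_lit 0) [nat_lit 46173, nat_lit 6809] false,
   Spec.mk (nat_lit 26493) (nat_lit 1) [nat_lit 13371, nat_lit 39615, nat_lit 22119, nat_lit 26979, nat_lit 26331, nat_lit 26499, nat_lit 26491] (nat_lit 0) [nat_lit 6811] false,
   Spec.mk (nat_lit 26497) (nat_lit 2) [nat_lit 13375, nat_lit 39619, nat_lit 22123, nat_lit 26983, nat_lit 26335, nat_lit 26515, nat_lit 26491, nat_lit 26499] (nat_lit 0) [nat_lit 46179, nat_lit 6815] false,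
   Spec.mk (nat_lit 26499) (nat_lit 2) [nat_lit 13377, nat_lit 39621, nat_lit 22125, nat_lit 26985, nat_lit 26337, nat_lit 26517, nat_lit 26493, nat_lit 26505, nat_lit 26497] (nat_lit 0) [nat_lit 6817] false,
   Spec.mk (nat_lit 26505) (nat_lit 1) [nat_lit 13383, nat_lit 39627, nat_lit 22131, nat_lit 26991, nat_lit 26343, nat_lit 26523, nat_lit 26499] (nat_lit 0) [nat_lit 6823] false,
   Spec.mk (nat_lit 26515) (nat_lit 2) [nat_lit 13393, nat_lit 39637, nat_lit 22141, nat_lit 27001, nat_lit 26353, nat_lit 26569, nat_lit 26497, nat_lit 26517] (nat_lit 0) [nat_lit 46197, nat_lit 6833] false,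
   Spec.mk (nat_lit 26517) (nat_lit 1) [nat_lit 13395, nat_lit 39639, nat_lit 22143, nat_lit 27003, nat_lit 26355, nat_lit 26571, nat_lit 26499, nat_lit 26523, nat_lit 26515] (nat_lit 0) [nat_lit 6835] false,
   Spec.mk (nat_lit 26523) (nat_lit 2) [nat_lit 13401, nat_lit 39645, nat_lit 22149, nat_lit 27009, nat_lit 26361, nat_lit 26577, nat_lit 26505, nat_lit 26541, nat_lit 26517] (nat_lit 0) [nat_lit 6841] false,
   Spec.mk (nat_lit 26541) (nat_lit 1) [nat_lit 13419, nat_lit 39663, nat_lit 22167, nat_lit 27027, nat_lit 26379, nat_lit 26595, nat_lit 26523] (nat_lit 0) [nat_lit 6859] false,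
   Spec.mk (nat_lit 26569) (nat_lit 3) [nat_lit 13447, nat_lit 39691, nat_lit 22195, nat_lit 27055, nat_lit 26407, nat_lit 26731, nat_lit 26515, nat_lit 26571] (nat_lit 0) [nat_lit 46251, nat_lit 6887] false,
   Spec.mk (nat_lit 26571) (nat_lit 2) [nat_lit 13449, nat_lit 39693, nat_lit 22197, nat_lit 27057, nat_lit 26409, nat_lit 26733, nat_lit 26517, nat_lit 26577, nat_lit 26569] (nat_lit 0) [nat_lit 6889] false,
   Spec.mk (nat_lit 26577) (nat_lit 2) [nat_lit 13455, nat_lit 39699, nat_lit 22203, nat_lit 27063, nat_lit 26415, nat_lit 26739, nat_lit 26523, nat_lit 26595, nat_lit 26571] (nat_lit 0) [nat_lit 6895] false,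
   Spec.mk (nat_lit 26595) (nat_lit 3) [nat_lit 13473, nat_lit 39717, nat_lit 22221, nat_lit 27081, nat_lit 26433, nat_lit 26757, nat_lit 26541, nat_lit 26649, nat_lit 26577] (nat_lit 0) [nat_lit 6913] false,
   Spec.mk (nat_lit 26649) (nat_lit 3) [nat_lit 13527, nat_lit 39771, nat_lit 22275, nat_lit 27135, nat_lit 26811, nat_lit 26595] (nat_lit 0) [nat_lit 6967] false,
   Spec.mk (nat_lit 26731) (nat_lit 2) [nat_lit 13609, nat_lit 39853, nat_lit 22357, nat_lit 27217, nat_lit 26569, nat_lit 26733] (nat_lit 0) [nat_lit 46413, nat_lit 7049] false,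
   Spec.mk (nat_lit 26733) (nat_lit 1) [nat_lit 13611, nat_lit 39855, nat_lit 22359, nat_lit 27219, nat_lit 26571, nat_lit 26739, nat_lit 26731] (nat_lit 0) [nat_lit 7051] false,
   Spec.mk (nat_lit 26739) (nat_lit 1) [nat_lit 13617, nat_lit 39861, nat_lit 22365, nat_lit 27225, nat_lit 26577, nat_lit 26757, nat_lit 26733] (nat_lit 0) [nat_lit 7057] false,
   Spec.mk (nat_lit 26757) (nat_lit 1) [nat_lit 13635, nat_lit 39879, nat_lit 22383, nat_lit 27243, nat_lit 26595, nat_lit 26811, nat_lit 26739] (nat_lit 0) [nat_lit 7075] false,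
   Spec.mk (nat_lit 26811) (nat_lit 3) [nat_lit 13689, nat_lit 39933, nat_lit 22437, nat_lit 27297, nat_lit 26649, nat_lit 26757] (nat_lit 0) [nat_lit 7129] false,
   Spec.mk (nat_lit 26975) (nat_lit 3) [nat_lit 13853, nat_lit 40097, nat_lit 22601, nat_lit 28433, nat_lit 26489, nat_lit 26977] (nat_lit 0) [nat_lit 46657] false,
   Spec.mk (nat_lit 26977) (nat_lit 3) [nat_lit 13855, nat_lit 40099, nat_lit 22603, nat_lit 28435, nat_lit 26491, nat_lit 26983, nat_lit 26975, nat_lit 26979] (nat_lit 0) [nat_lit 46659, nat_lit 7295] false]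

noncomputable def sp20 : List Spec :=
  [Spec.mk (nat_lit 26979) (nat_lit 1) [nat_lit 13857, nat_lit 40101, nat_lit 22605, nat_lit 28437, nat_lit 26493, nat_lit 26985, nat_lit 26977] (nat_lit 0) [nat_lit 7297] false,
   Spec.mk (nat_lit 26983) (nat_lit 2) [nat_lit 13861, nat_lit 40105, nat_lit 22609, nat_lit 28441, nat_lit 26497, nat_lit 27001, nat_lit 26977, nat_lit 26985] (nat_lit 0) [nat_lit 46665, nat_lit 7301] false,
   Spec.mk (nat_lit 26985) (nat_lit 2) [nat_lit 13863, nat_lit 40107, nat_lit 22611, nat_lit 28443, nat_lit 26499, nat_lit 27003, nat_lit 26979, nat_lit 26991, nat_lit 26983] (nat_lit 0) [nat_lit 7303] false,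
   Spec.mk (nat_lit 26991) (nat_lit 1) [nat_lit 13869, nat_lit 40113, nat_lit 22617, nat_lit 28449, nat_lit 26505, nat_lit 27009, nat_lit 26985] (nat_lit 0) [nat_lit 7309] false,
   Spec.mk (nat_lit 27001) (nat_lit 2) [nat_lit 13879, nat_lit 40123, nat_lit 22627, nat_lit 28459, nat_lit 26515, nat_lit 27055, nat_lit 26983, nat_lit 27003] (nat_lit 0) [nat_lit 46683, nat_lit 7319] false,
   Spec.mk (nat_lit 27003) (nat_lit 1) [nat_lit 13881, nat_lit 40125, nat_lit 22629, nat_lit 28461, nat_lit 26517, nat_lit 27057, nat_lit 26985, nat_lit 27009, nat_lit 27001] (nat_lit 0) [nat_lit 7321] false,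
   Spec.mk (nat_lit 27009) (nat_lit 2) [nat_lit 13887, nat_lit 40131, nat_lit 22635, nat_lit 28467, nat_lit 26523, nat_lit 27063, nat_lit 26991, nat_lit 27027, nat_lit 27003] (nat_lit 0) [nat_lit 7327] false,
   Spec.mk (nat_lit 27027) (nat_lit 1) [nat_lit 13905, nat_lit 40149, nat_lit 22653, nat_lit 28485, nat_lit 26541, nat_lit 27081, nat_lit 27009] (nat_lit 0) [nat_lit 7345] false,
   Spec.mk (nat_lit 27055) (nat_lit 2) [nat_lit 13933, nat_lit 40177, nat_lit 22681, nat_lit 28513, nat_lit 26569, nat_lit 27217, nat_lit 27001, nat_lit 27057] (nat_lit 0) [nat_lit 46737, nat_lit 7373] false,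
   Spec.mk (nat_lit 27057) (nat_lit 1) [nat_lit 13935, nat_lit 40179, nat_lit 22683, nat_lit 28515, nat_lit 26571, nat_lit 27219, nat_lit 27003, nat_lit 27063, nat_lit 27055] (nat_lit 0) [nat_lit 7375] false,
   Spec.mk (nat_lit 27063) (nat_lit 1) [nat_lit 13941, nat_lit 40185, nat_lit 22689, nat_lit 28521, nat_lit 26577, nat_lit 27225, nat_lit 27009, nat_lit 27081, nat_lit 27057] (nat_lit 0) [nat_lit 7381] false,
   Spec.mk (nat_lit 27081) (nat_lit 2) [nat_lit 13959, nat_lit 40203, nat_lit 22707, nat_lit 28539, nat_lit 26595, nat_lit 27243, nat_lit 27027, nat_lit 27135, nat_lit 27063] (nat_lit 0) [nat_lit 7399] false,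
   Spec.mk (nat_lit 27135) (nat_lit 1) [nat_lit 14013, nat_lit 40257, nat_lit 22761, nat_lit 28593, nat_lit 26649, nat_lit 27297, nat_lit 27081] (nat_lit 0) [nat_lit 7453] false,
   Spec.mk (nat_lit 27217) (nat_lit 3) [nat_lit 14095, nat_lit 40339, nat_lit 22843, nat_lit 28675, nat_lit 26731, nat_lit 27703, nat_lit 27055, nat_lit 27219] (nat_lit 0) [nat_lit 46899, nat_lit 7535] false,
   Spec.mk (nat_lit 27219) (nat_lit 2) [nat_lit 14097, nat_lit 40341, nat_lit 22845, nat_lit 28677, nat_lit 26733, nat_lit 27705, nat_lit 27057, nat_lit 27225, nat_lit 27217] (nat_lit 0) [nat_lit 7537] false,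
   Spec.mk (nat_lit 27225) (nat_lit 2) [nat_lit 14103, nat_lit 40347, nat_lit 22851, nat_lit 28683, nat_lit 26739, nat_lit 27711, nat_lit 27063, nat_lit 27243, nat_lit 27219] (nat_lit 0) [nat_lit 7543] false,
   Spec.mk (nat_lit 27243) (nat_lit 2) [nat_lit 14121, nat_lit 40365, nat_lit 22869, nat_lit 28701, nat_lit 26757, nat_lit 27729, nat_lit 27081, nat_lit 27297, nat_lit 27225] (nat_lit 0) [nat_lit 7561] false,
   Spec.mk (nat_lit 27297) (nat_lit 3) [nat_lit 14175, nat_lit 40419, nat_lit 22923, nat_lit 28755, nat_lit 26811, nat_lit 27783, nat_lit 27135, nat_lit 27459, nat_lit 27243] (nat_lit 0) [nat_lit 7615] false,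
   Spec.mk (nat_lit 27459) (nat_lit 3) [nat_lit 14337, nat_lit 40581, nat_lit 23085, nat_lit 28917, nat_lit 27945, nat_lit 27297] (nat_lit 0) [nat_lit 7777] false,
   Spec.mk (nat_lit 27703) (nat_lit 2) [nat_lit 14581, nat_lit 40825, nat_lit 23329, nat_lit 29161, nat_lit 27217, nat_lit 27705] (nat_lit 0) [nat_lit 47385, nat_lit 8021] false,
   Spec.mk (nat_lit 27705) (nat_lit 1) [nat_lit 14583, nat_lit 40827, nat_lit 23331, nat_lit 29163, nat_lit 27219, nat_lit 27711, nat_lit 27703] (nat_lit 0) [nat_lit 8023] false,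
   Spec.mk (nat_lit 27711) (nat_lit 1) [nat_lit 14589, nat_lit 40833, nat_lit 23337, nat_lit 29169, nat_lit 27225, nat_lit 27729, nat_lit 27705] (nat_lit 0) [nat_lit 8029] false,
   Spec.mk (nat_lit 27729) (nat_lit 1) [nat_lit 14607, nat_lit 40851, nat_lit 23355, nat_lit 29187, nat_lit 27243, nat_lit 27783, nat_lit 27711] (nat_lit 0) [nat_lit 8047] false,
   Spec.mk (nat_lit 27783) (nat_lit 1) [nat_lit 14661, nat_lit 40905, nat_lit 23409, nat_lit 29241, nat_lit 27297, nat_lit 27945, nat_lit 27729] (nat_lit 0) [nat_lit 8101] false,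
   Spec.mk (nat_lit 27945) (nat_lit 3) [nat_lit 14823, nat_lit 41067, nat_lit 23571, nat_lit 29403, nat_lit 27459, nat_lit 27783] (nat_lit 0) [nat_lit 8263] false,
   Spec.mk (nat_lit 28433) (nat_lit 4) [nat_lit 15311, nat_lit 41555, nat_lit 24059, nat_lit 32807, nat_lit 26975, nat_lit 28435] (nat_lit 0) [nat_lit 48115] false,
   Spec.mk (nat_lit 28435) (nat_lit 4) [nat_lit 15313, nat_lit 41557, nat_lit 24061, nat_lit 32809, nat_lit 26977, nat_lit 28441, nat_lit 28433, nat_lit 28437] (nat_lit 0) [nat_lit 48117, nat_lit 8753] false,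
   Spec.mk (nat_lit 28437) (nat_lit 2) [nat_lit 15315, nat_lit 41559, nat_lit 24063, nat_lit 32811, nat_lit 26979, nat_lit 28443, nat_lit 28435] (nat_lit 0) [nat_lit 8755] false,
   Spec.mk (nat_lit 28441) (nat_lit 3) [nat_lit 15319, nat_lit 41563, nat_lit 24067, nat_lit 32815, nat_lit 26983, nat_lit 28459, nat_lit 28435, nat_lit 28443] (nat_lit 0) [nat_lit 48123, nat_lit 8759] false,
   Spec.mk (nat_lit 28443) (nat_lit 3) [nat_lit 15321, nat_lit 41565, nat_lit 24069, nat_lit 32817, nat_lit 26985, nat_lit 28461, nat_lit 28437, nat_lit 28449, nat_lit 28441] (nat_lit 0) [nat_lit 8761] false,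
   Spec.mk (nat_lit 28449) (nat_lit 2) [nat_lit 15327, nat_lit 41571, nat_lit 24075, nat_lit 32823, nat_lit 26991, nat_lit 28467, nat_lit 28443] (nat_lit 0) [nat_lit 8767] false,
   Spec.mk (nat_lit 28459) (nat_lit 3) [nat_lit 15337, nat_lit 41581, nat_lit 24085, nat_lit 32833, nat_lit 27001, nat_lit 28513, nat_lit 28441, nat_lit 28461] (nat_lit 0) [nat_lit 48141, nat_lit 8777] false,
   Spec.mk (nat_lit 28461) (nat_lit 2) [nat_lit 15339, nat_lit 41583, nat_lit 24087, nat_lit 32835, nat_lit 27003, nat_lit 28515, nat_lit 28443, nat_lit 28467, nat_lit 28459] (nat_lit 0) [nat_lit 8779] false,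
   Spec.mk (nat_lit 28467) (nat_lit 3) [nat_lit 15345, nat_lit 41589, nat_lit 24093, nat_lit 32841, nat_lit 27009, nat_lit 28521, nat_lit 28449, nat_lit 28485, nat_lit 28461] (nat_lit 0) [nat_lit 8785] false,
   Spec.mk (nat_lit 28485) (nat_lit 2) [nat_lit 15363, nat_lit 41607, nat_lit 24111, nat_lit 32859, nat_lit 27027, nat_lit 28539, nat_lit 28467] (nat_lit 0) [nat_lit 8803] false,
   Spec.mk (nat_lit 28513) (nat_lit 3) [nat_lit 15391, nat_lit 41635, nat_lit 24139, nat_lit 32887, nat_lit 27055, nat_lit 28675, nat_lit 28459, nat_lit 28515] (nat_lit 0) [nat_lit 48195, nat_lit 8831] false,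
   Spec.mk (nat_lit 28515) (nat_lit 2) [nat_lit 15393, nat_lit 41637, nat_lit 24141, nat_lit 32889, nat_lit 27057, nat_lit 28677, nat_lit 28461, nat_lit 28521, nat_lit 28513] (nat_lit 0) [nat_lit 8833] false,
   Spec.mk (nat_lit 28521) (nat_lit 2) [nat_lit 15399, nat_lit 41643, nat_lit 24147, nat_lit 32895, nat_lit 27063, nat_lit 28683, nat_lit 28467, nat_lit 28539, nat_lit 28515] (nat_lit 0) [nat_lit 8839] false,
   Spec.mk (nat_lit 28539) (nat_lit 3) [nat_lit 15417, nat_lit 41661, nat_lit 24165, nat_lit 32913, nat_lit 27081, nat_lit 28701, nat_lit 28485, nat_lit 28593, nat_lit 28521] (nat_lit 0) [nat_lit 8857] false,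
   Spec.mk (nat_lit 28593) (nat_lit 2) [nat_lit 15471, nat_lit 41715, nat_lit 24219, nat_lit 32967, nat_lit 27135, nat_lit 28755, nat_lit 28539] (nat_lit 0) [nat_lit 8911] false,
   Spec.mk (nat_lit 28675) (nat_lit 3) [nat_lit 15553, nat_lit 41797, nat_lit 24301, nat_lit 33049, nat_lit 27217, nat_lit 29161, nat_lit 28513, nat_lit 28677] (nat_lit 0) [nat_lit 48357, nat_lit 8993] false,
   Spec.mk (nat_lit 28677) (nat_lit 2) [nat_lit 15555, nat_lit 41799, nat_lit 24303, nat_lit 33051, nat_lit 27219, nat_lit 29163, nat_lit 28515, nat_lit 28683, nat_lit 28675] (nat_lit 0) [nat_lit 8995] false,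
   Spec.mk (nat_lit 28683) (nat_lit 2) [nat_lit 15561, nat_lit 41805, nat_lit 24309, nat_lit 33057, nat_lit 27225, nat_lit 29169, nat_lit 28521, nat_lit 28701, nat_lit 28677] (nat_lit 0) [nat_lit 9001] false,
   Spec.mk (nat_lit 28701) (nat_lit 2) [nat_lit 15579, nat_lit 41823, nat_lit 24327, nat_lit 33075, nat_lit 27243, nat_lit 29187, nat_lit 28539, nat_lit 28755, nat_lit 28683] (nat_lit 0) [nat_lit 9019] false,
   Spec.mk (nat_lit 28755) (nat_lit 3) [nat_lit 15633, nat_lit 41877, nat_lit 24381, nat_lit 33129, nat_lit 27297, nat_lit 29241, nat_lit 28593, nat_lit 28917, nat_lit 28701] (nat_lit 0) [nat_lit 9073] false,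
   Spec.mk (nat_lit 28917) (nat_lit 2) [nat_lit 15795, nat_lit 42039, nat_lit 24543, nat_lit 33291, nat_lit 27459, nat_lit 29403, nat_lit 28755] (nat_lit 0) [nat_lit 9235] false,
   Spec.mk (nat_lit 29161) (nat_lit 4) [nat_lit 16039, nat_lit 42283, nat_lit 24787, nat_lit 33535, nat_lit 27703, nat_lit 30619, nat_lit 28675, nat_lit 29163] (nat_lit 0) [nat_lit 48843, nat_lit 9479] false,
   Spec.mk (nat_lit 29163) (nat_lit 3) [nat_lit 16041, nat_lit 42285, nat_lit 24789, nat_lit 33537, nat_lit 27705, nat_lit 30621, nat_lit 28677, nat_lit 29169, nat_lit 29161] (nat_lit 0) [nat_lit 9481] false,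
   Spec.mk (nat_lit 29169) (nat_lit 3) [nat_lit 16047, nat_lit 42291, nat_lit 24795, nat_lit 33543, nat_lit 27711, nat_lit 30627, nat_lit 28683, nat_lit 29187, nat_lit 29163] (nat_lit 0) [nat_lit 9487] false,
   Spec.mk (nat_lit 29187) (nat_lit 3) [nat_lit 16065, nat_lit 42309, nat_lit 24813, nat_lit 33561, nat_lit 27729, nat_lit 30645, nat_lit 28701, nat_lit 29241, nat_lit 29169] (nat_lit 0) [nat_lit 9505] false,
   Spec.mk (nat_lit 29241) (nat_lit 3) [nat_lit 16119, nat_lit 42363, nat_lit 24867, nat_lit 33615, nat_lit 27783, nat_lit 30699, nat_lit 28755, nat_lit 29403, nat_lit 29187] (nat_lit 0) [nat_lit 9559] false,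
   Spec.mk (nat_lit 29403) (nat_lit 4) [nat_lit 16281, nat_lit 42525, nat_lit 25029, nat_lit 33777, nat_lit 27945, nat_lit 30861, nat_lit 28917, nat_lit 29889, nat_lit 29241] (nat_lit 0) [nat_lit 9721] false,
   Spec.mk (nat_lit 29889) (nat_lit 4) [nat_lit 16767, nat_lit 43011, nat_lit 25515, nat_lit 34263, nat_lit 31347, nat_lit 29403] (nat_lit 0) [nat_lit 10207] false,
   Spec.mk (nat_lit 30619) (nat_lit 4) [nat_lit 17497, nat_lit 43741, nat_lit 34993, nat_lit 29161, nat_lit 30621] (nat_lit 0) [nat_lit 50301, nat_lit 10937] false,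
   Spec.mk (nat_lit 30621) (nat_lit 3) [nat_lit 17499, nat_lit 43743, nat_lit 34995, nat_lit 29163, nat_lit 30627, nat_lit 30619] (nat_lit 0) [nat_lit 10939] false,
   Spec.mk (nat_lit 30627) (nat_lit 3) [nat_lit 17505, nat_lit 43749, nat_lit 35001, nat_lit 29169, nat_lit 30645, nat_lit 30621] (nat_lit 0) [nat_lit 10945] false,
   Spec.mk (nat_lit 30645) (nat_lit 3) [nat_lit 17523, nat_lit 43767, nat_lit 35019, nat_lit 29187, nat_lit 30699, nat_lit 30627] (nat_lit 0) [nat_lit 10963] false,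
   Spec.mk (nat_lit 30699) (nat_lit 3) [nat_lit 17577, nat_lit 43821, nat_lit 35073, nat_lit 29241, nat_lit 30861, nat_lit 30645] (nat_lit 0) [nat_lit 11017] false,
   Spec.mk (nat_lit 30861) (nat_lit 3) [nat_lit 17739, nat_lit 43983, nat_lit 35235, nat_lit 29403, nat_lit 31347, nat_lit 30699] (nat_lit 0) [nat_lit 11179] false,
   Spec.mk (nat_lit 31347) (nat_lit 5) [nat_lit 18225, nat_lit 44469, nat_lit 35721, nat_lit 29889, nat_lit 30861] (nat_lit 0) [nat_lit 11665] false]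

noncomputable def sp21 : List Spec :=
  [Spec.mk (nat_lit 32807) (nat_lit 4) [nat_lit 45929, nat_lit 28433, nat_lit 32809] (nat_lit 0) [nat_lit 52489] false,
   Spec.mk (nat_lit 32809) (nat_lit 4) [nat_lit 45931, nat_lit 28435, nat_lit 32815, nat_lit 32807, nat_lit 32811] (nat_lit 0) [nat_lit 52491, nat_lit 13127] false,
   Spec.mk (nat_lit 32811) (nat_lit 2) [nat_lit 45933, nat_lit 28437, nat_lit 32817, nat_lit 32809] (nat_lit 0) [nat_lit 13129] false,
   Spec.mk (nat_lit 32815) (nat_lit 3) [nat_lit 45937, nat_lit 28441, nat_lit 32833, nat_lit 32809, nat_lit 32817] (nat_lit 0) [nat_lit 52497, nat_lit 13133] false,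
   Spec.mk (nat_lit 32817) (nat_lit 3) [nat_lit 45939, nat_lit 28443, nat_lit 32835, nat_lit 32811, nat_lit 32823, nat_lit 32815] (nat_lit 0) [nat_lit 13135] false,
   Spec.mk (nat_lit 32823) (nat_lit 2) [nat_lit 45945, nat_lit 28449, nat_lit 32841, nat_lit 32817] (nat_lit 0) [nat_lit 13141] false,
   Spec.mk (nat_lit 32833) (nat_lit 3) [nat_lit 45955, nat_lit 28459, nat_lit 32887, nat_lit 32815, nat_lit 32835] (nat_lit 0) [nat_lit 52515, nat_lit 13151] false,
   Spec.mk (nat_lit 32835) (nat_lit 2) [nat_lit 45957, nat_lit 28461, nat_lit 32889, nat_lit 32817, nat_lit 32841, nat_lit 32833] (nat_lit 0) [nat_lit 13153] false,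
   Spec.mk (nat_lit 32841) (nat_lit 3) [nat_lit 45963, nat_lit 28467, nat_lit 32895, nat_lit 32823, nat_lit 32859, nat_lit 32835] (nat_lit 0) [nat_lit 13159] false,
   Spec.mk (nat_lit 32859) (nat_lit 2) [nat_lit 45981, nat_lit 28485, nat_lit 32913, nat_lit 32841] (nat_lit 0) [nat_lit 13177] false,
   Spec.mk (nat_lit 32887) (nat_lit 3) [nat_lit 46009, nat_lit 28513, nat_lit 33049, nat_lit 32833, nat_lit 32889] (nat_lit 0) [nat_lit 52569, nat_lit 13205] false,
   Spec.mk (nat_lit 32889) (nat_lit 2) [nat_lit 46011, nat_lit 28515, nat_lit 33051, nat_lit 32835, nat_lit 32895, nat_lit 32887] (nat_lit 0) [nat_lit 13207] false,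
   Spec.mk (nat_lit 32895) (nat_lit 2) [nat_lit 46017, nat_lit 28521, nat_lit 33057, nat_lit 32841, nat_lit 32913, nat_lit 32889] (nat_lit 0) [nat_lit 13213] false,
   Spec.mk (nat_lit 32913) (nat_lit 3) [nat_lit 46035, nat_lit 28539, nat_lit 33075, nat_lit 32859, nat_lit 32967, nat_lit 32895] (nat_lit 0) [nat_lit 13231] false,
   Spec.mk (nat_lit 32967) (nat_lit 2) [nat_lit 46089, nat_lit 28593, nat_lit 33129, nat_lit 32913] (nat_lit 0) [nat_lit 13285] false,
   Spec.mk (nat_lit 33049) (nat_lit 3) [nat_lit 46171, nat_lit 28675, nat_lit 33535, nat_lit 32887, nat_lit 33051] (nat_lit 0) [nat_lit 52731, nat_lit 13367] false,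
   Spec.mk (nat_lit 33051) (nat_lit 2) [nat_lit 46173, nat_lit 28677, nat_lit 33537, nat_lit 32889, nat_lit 33057, nat_lit 33049] (nat_lit 0) [nat_lit 13369] false,
   Spec.mk (nat_lit 33057) (nat_lit 2) [nat_lit 46179, nat_lit 28683, nat_lit 33543, nat_lit 32895, nat_lit 33075, nat_lit 33051] (nat_lit 0) [nat_lit 13375] false,
   Spec.mk (nat_lit 33075) (nat_lit 2) [nat_lit 46197, nat_lit 28701, nat_lit 33561, nat_lit 32913, nat_lit 33129, nat_lit 33057] (nat_lit 0) [nat_lit 13393] false,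
   Spec.mk (nat_lit 33129) (nat_lit 3) [nat_lit 46251, nat_lit 28755, nat_lit 33615, nat_lit 32967, nat_lit 33291, nat_lit 33075] (nat_lit 0) [nat_lit 13447] false,
   Spec.mk (nat_lit 33291) (nat_lit 2) [nat_lit 46413, nat_lit 28917, nat_lit 33777, nat_lit 33129] (nat_lit 0) [nat_lit 13609] false,
   Spec.mk (nat_lit 33535) (nat_lit 3) [nat_lit 46657, nat_lit 29161, nat_lit 34993, nat_lit 33049, nat_lit 33537] (nat_lit 0) [nat_lit 53217, nat_lit 13853] false,
   Spec.mk (nat_lit 33537) (nat_lit 2) [nat_lit 46659, nat_lit 29163, nat_lit 34995, nat_lit 33051, nat_lit 33543, nat_lit 33535] (nat_lit 0) [nat_lit 13855] false,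
   Spec.mk (nat_lit 33543) (nat_lit 2) [nat_lit 46665, nat_lit 29169, nat_lit 35001, nat_lit 33057, nat_lit 33561, nat_lit 33537] (nat_lit 0) [nat_lit 13861] false,
   Spec.mk (nat_lit 33561) (nat_lit 2) [nat_lit 46683, nat_lit 29187, nat_lit 35019, nat_lit 33075, nat_lit 33615, nat_lit 33543] (nat_lit 0) [nat_lit 13879] false,
   Spec.mk (nat_lit 33615) (nat_lit 2) [nat_lit 46737, nat_lit 29241, nat_lit 35073, nat_lit 33129, nat_lit 33777, nat_lit 33561] (nat_lit 0) [nat_lit 13933] false,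
   Spec.mk (nat_lit 33777) (nat_lit 3) [nat_lit 46899, nat_lit 29403, nat_lit 35235, nat_lit 33291, nat_lit 34263, nat_lit 33615] (nat_lit 0) [nat_lit 14095] false,
   Spec.mk (nat_lit 34263) (nat_lit 2) [nat_lit 47385, nat_lit 29889, nat_lit 35721, nat_lit 33777] (nat_lit 0) [nat_lit 14581] false,
   Spec.mk (nat_lit 34993) (nat_lit 5) [nat_lit 48115, nat_lit 30619, nat_lit 33535, nat_lit 34995] (nat_lit 0) [nat_lit 54675, nat_lit 15311] false,
   Spec.mk (nat_lit 34995) (nat_lit 4) [nat_lit 48117, nat_lit 30621, nat_lit 33537, nat_lit 35001, nat_lit 34993] (nat_lit 0) [nat_lit 15313] false,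
   Spec.mk (nat_lit 35001) (nat_lit 4) [nat_lit 48123, nat_lit 30627, nat_lit 33543, nat_lit 35019, nat_lit 34995] (nat_lit 0) [nat_lit 15319] false,
   Spec.mk (nat_lit 35019) (nat_lit 4) [nat_lit 48141, nat_lit 30645, nat_lit 33561, nat_lit 35073, nat_lit 35001] (nat_lit 0) [nat_lit 15337] false,
   Spec.mk (nat_lit 35073) (nat_lit 4) [nat_lit 48195, nat_lit 30699, nat_lit 33615, nat_lit 35235, nat_lit 35019] (nat_lit 0) [nat_lit 15391] false,
   Spec.mk (nat_lit 35235) (nat_lit 4) [nat_lit 48357, nat_lit 30861, nat_lit 33777, nat_lit 35721, nat_lit 35073] (nat_lit 0) [nat_lit 15553] false,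
   Spec.mk (nat_lit 35721) (nat_lit 5) [nat_lit 48843, nat_lit 31347, nat_lit 34263, nat_lit 37179, nat_lit 35235] (nat_lit 0) [nat_lit 16039] false,
   Spec.mk (nat_lit 37179) (nat_lit 6) [nat_lit 50301, nat_lit 35721] (nat_lit 0) [nat_lit 17497] false,
   Spec.mk (nat_lit 39371) (nat_lit 6) [nat_lit 26249, nat_lit 39377, nat_lit 39373] (nat_lit 0) [] false,
   Spec.mk (nat_lit 39373) (nat_lit 4) [nat_lit 26251, nat_lit 39379, nat_lit 39371] (nat_lit 0) [nat_lit 19691] false,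
   Spec.mk (nat_lit 39377) (nat_lit 4) [nat_lit 26255, nat_lit 39395, nat_lit 39371, nat_lit 39379] (nat_lit 0) [] false,
   Spec.mk (nat_lit 39379) (nat_lit 4) [nat_lit 26257, nat_lit 39397, nat_lit 39373, nat_lit 39385, nat_lit 39377, nat_lit 39381] (nat_lit 0) [nat_lit 19697] false,
   Spec.mk (nat_lit 39381) (nat_lit 2) [nat_lit 26259, nat_lit 39399, nat_lit 39387, nat_lit 39379] (nat_lit 0) [nat_lit 19699] false,
   Spec.mk (nat_lit 39385) (nat_lit 2) [nat_lit 26263, nat_lit 39403, nat_lit 39379, nat_lit 39387] (nat_lit 0) [nat_lit 19703] false,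
   Spec.mk (nat_lit 39387) (nat_lit 2) [nat_lit 26265, nat_lit 39405, nat_lit 39381, nat_lit 39385] (nat_lit 0) [nat_lit 19705] false,
   Spec.mk (nat_lit 39395) (nat_lit 4) [nat_lit 26273, nat_lit 39449, nat_lit 39377, nat_lit 39397] (nat_lit 0) [] false,
   Spec.mk (nat_lit 39397) (nat_lit 3) [nat_lit 26275, nat_lit 39451, nat_lit 39379, nat_lit 39403, nat_lit 39395, nat_lit 39399] (nat_lit 0) [nat_lit 19715] false,
   Spec.mk (nat_lit 39399) (nat_lit 0) [nat_lit 26277, nat_lit 39453, nat_lit 39381, nat_lit 39405, nat_lit 39397] (nat_lit 0) [nat_lit 19717] false,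
   Spec.mk (nat_lit 39403) (nat_lit 3) [nat_lit 26281, nat_lit 39457, nat_lit 39385, nat_lit 39421, nat_lit 39397, nat_lit 39405] (nat_lit 0) [nat_lit 19721] false,
   Spec.mk (nat_lit 39405) (nat_lit 2) [nat_lit 26283, nat_lit 39459, nat_lit 39387, nat_lit 39423, nat_lit 39399, nat_lit 39411, nat_lit 39403] (nat_lit 0) [nat_lit 19723] false,
   Spec.mk (nat_lit 39411) (nat_lit 2) [nat_lit 26289, nat_lit 39465, nat_lit 39429, nat_lit 39405] (nat_lit 0) [nat_lit 19729] false,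
   Spec.mk (nat_lit 39421) (nat_lit 2) [nat_lit 26299, nat_lit 39475, nat_lit 39403, nat_lit 39423] (nat_lit 0) [nat_lit 19739] false,
   Spec.mk (nat_lit 39423) (nat_lit 0) [nat_lit 26301, nat_lit 39477, nat_lit 39405, nat_lit 39429, nat_lit 39421] (nat_lit 0) [nat_lit 19741] false,
   Spec.mk (nat_lit 39429) (nat_lit 2) [nat_lit 26307, nat_lit 39483, nat_lit 39411, nat_lit 39423] (nat_lit 0) [nat_lit 19747] false,
   Spec.mk (nat_lit 39449) (nat_lit 4) [nat_lit 26327, nat_lit 39611, nat_lit 39395, nat_lit 39451] (nat_lit 0) [] false,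
   Spec.mk (nat_lit 39451) (nat_lit 3) [nat_lit 26329, nat_lit 39613, nat_lit 39397, nat_lit 39457, nat_lit 39449, nat_lit 39453] (nat_lit 0) [nat_lit 19769] false,
   Spec.mk (nat_lit 39453) (nat_lit 0) [nat_lit 26331, nat_lit 39615, nat_lit 39399, nat_lit 39459, nat_lit 39451] (nat_lit 0) [nat_lit 19771] false,
   Spec.mk (nat_lit 39457) (nat_lit 2) [nat_lit 26335, nat_lit 39619, nat_lit 39403, nat_lit 39475, nat_lit 39451, nat_lit 39459] (nat_lit 0) [nat_lit 19775] false,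
   Spec.mk (nat_lit 39459) (nat_lit 1) [nat_lit 26337, nat_lit 39621, nat_lit 39405, nat_lit 39477, nat_lit 39453, nat_lit 39465, nat_lit 39457] (nat_lit 0) [nat_lit 19777] false,
   Spec.mk (nat_lit 39465) (nat_lit 0) [nat_lit 26343, nat_lit 39627, nat_lit 39411, nat_lit 39483, nat_lit 39459] (nat_lit 0) [nat_lit 19783] false,
   Spec.mk (nat_lit 39475) (nat_lit 3) [nat_lit 26353, nat_lit 39637, nat_lit 39421, nat_lit 39529, nat_lit 39457, nat_lit 39477] (nat_lit 0) [nat_lit 19793] false,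
   Spec.mk (nat_lit 39477) (nat_lit 1) [nat_lit 26355, nat_lit 39639, nat_lit 39423, nat_lit 39531, nat_lit 39459, nat_lit 39483, nat_lit 39475] (nat_lit 0) [nat_lit 19795] false]

noncomputable def sp22 : List Spec :=
  [Spec.mk (nat_lit 39483) (nat_lit 2) [nat_lit 26361, nat_lit 39645, nat_lit 39429, nat_lit 39537, nat_lit 39465, nat_lit 39501, nat_lit 39477] (nat_lit 0) [nat_lit 19801] false,
   Spec.mk (nat_lit 39501) (nat_lit 2) [nat_lit 26379, nat_lit 39663, nat_lit 39555, nat_lit 39483] (nat_lit 0) [nat_lit 19819] false,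
   Spec.mk (nat_lit 39529) (nat_lit 2) [nat_lit 26407, nat_lit 39691, nat_lit 39475, nat_lit 39531] (nat_lit 0) [nat_lit 19847] false,
   Spec.mk (nat_lit 39531) (nat_lit 0) [nat_lit 26409, nat_lit 39693, nat_lit 39477, nat_lit 39537, nat_lit 39529] (nat_lit 0) [nat_lit 19849] false,
   Spec.mk (nat_lit 39537) (nat_lit 0) [nat_lit 26415, nat_lit 39699, nat_lit 39483, nat_lit 39555, nat_lit 39531] (nat_lit 0) [nat_lit 19855] false,
   Spec.mk (nat_lit 39555) (nat_lit 2) [nat_lit 26433, nat_lit 39717, nat_lit 39501, nat_lit 39537] (nat_lit 0) [nat_lit 19873] false,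
   Spec.mk (nat_lit 39611) (nat_lit 4) [nat_lit 26489, nat_lit 40097, nat_lit 39449, nat_lit 39613] (nat_lit 0) [] false,
   Spec.mk (nat_lit 39613) (nat_lit 3) [nat_lit 26491, nat_lit 40099, nat_lit 39451, nat_lit 39619, nat_lit 39611, nat_lit 39615] (nat_lit 0) [nat_lit 19931] false,
   Spec.mk (nat_lit 39615) (nat_lit 0) [nat_lit 26493, nat_lit 40101, nat_lit 39453, nat_lit 39621, nat_lit 39613] (nat_lit 0) [nat_lit 19933] false,
   Spec.mk (nat_lit 39619) (nat_lit 2) [nat_lit 26497, nat_lit 40105, nat_lit 39457, nat_lit 39637, nat_lit 39613, nat_lit 39621] (nat_lit 0) [nat_lit 19937] false,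
   Spec.mk (nat_lit 39621) (nat_lit 1) [nat_lit 26499, nat_lit 40107, nat_lit 39459, nat_lit 39639, nat_lit 39615, nat_lit 39627, nat_lit 39619] (nat_lit 0) [nat_lit 19939] false,
   Spec.mk (nat_lit 39627) (nat_lit 0) [nat_lit 26505, nat_lit 40113, nat_lit 39465, nat_lit 39645, nat_lit 39621] (nat_lit 0) [nat_lit 19945] false,
   Spec.mk (nat_lit 39637) (nat_lit 2) [nat_lit 26515, nat_lit 40123, nat_lit 39475, nat_lit 39691, nat_lit 39619, nat_lit 39639] (nat_lit 0) [nat_lit 19955] false,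
   Spec.mk (nat_lit 39639) (nat_lit 0) [nat_lit 26517, nat_lit 40125, nat_lit 39477, nat_lit 39693, nat_lit 39621, nat_lit 39645, nat_lit 39637] (nat_lit 0) [nat_lit 19957] false,
   Spec.mk (nat_lit 39645) (nat_lit 1) [nat_lit 26523, nat_lit 40131, nat_lit 39483, nat_lit 39699, nat_lit 39627, nat_lit 39663, nat_lit 39639] (nat_lit 0) [nat_lit 19963] false,
   Spec.mk (nat_lit 39663) (nat_lit 0) [nat_lit 26541, nat_lit 40149, nat_lit 39501, nat_lit 39717, nat_lit 39645] (nat_lit 0) [nat_lit 19981] false,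
   Spec.mk (nat_lit 39691) (nat_lit 3) [nat_lit 26569, nat_lit 40177, nat_lit 39529, nat_lit 39853, nat_lit 39637, nat_lit 39693] (nat_lit 0) [nat_lit 20009] false,
   Spec.mk (nat_lit 39693) (nat_lit 1) [nat_lit 26571, nat_lit 40179, nat_lit 39531, nat_lit 39855, nat_lit 39639, nat_lit 39699, nat_lit 39691] (nat_lit 0) [nat_lit 20011] false,
   Spec.mk (nat_lit 39699) (nat_lit 1) [nat_lit 26577, nat_lit 40185, nat_lit 39537, nat_lit 39861, nat_lit 39645, nat_lit 39717, nat_lit 39693] (nat_lit 0) [nat_lit 20017] false,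
   Spec.mk (nat_lit 39717) (nat_lit 2) [nat_lit 26595, nat_lit 40203, nat_lit 39555, nat_lit 39879, nat_lit 39663, nat_lit 39771, nat_lit 39699] (nat_lit 0) [nat_lit 20035] false,
   Spec.mk (nat_lit 39771) (nat_lit 2) [nat_lit 26649, nat_lit 40257, nat_lit 39933, nat_lit 39717] (nat_lit 0) [nat_lit 20089] false,
   Spec.mk (nat_lit 39853) (nat_lit 2) [nat_lit 26731, nat_lit 40339, nat_lit 39691, nat_lit 39855] (nat_lit 0) [nat_lit 20171] false,
   Spec.mk (nat_lit 39855) (nat_lit 0) [nat_lit 26733, nat_lit 40341, nat_lit 39693, nat_lit 39861, nat_lit 39853] (nat_lit 0) [nat_lit 20173] false,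
   Spec.mk (nat_lit 39861) (nat_lit 0) [nat_lit 26739, nat_lit 40347, nat_lit 39699, nat_lit 39879, nat_lit 39855] (nat_lit 0) [nat_lit 20179] false,
   Spec.mk (nat_lit 39879) (nat_lit 0) [nat_lit 26757, nat_lit 40365, nat_lit 39717, nat_lit 39933, nat_lit 39861] (nat_lit 0) [nat_lit 20197] false,
   Spec.mk (nat_lit 39933) (nat_lit 2) [nat_lit 26811, nat_lit 40419, nat_lit 39771, nat_lit 39879] (nat_lit 0) [nat_lit 20251] false,
   Spec.mk (nat_lit 40097) (nat_lit 4) [nat_lit 26975, nat_lit 41555, nat_lit 39611, nat_lit 40099] (nat_lit 0) [] false,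
   Spec.mk (nat_lit 40099) (nat_lit 3) [nat_lit 26977, nat_lit 41557, nat_lit 39613, nat_lit 40105, nat_lit 40097, nat_lit 40101] (nat_lit 0) [nat_lit 20417] false,
   Spec.mk (nat_lit 40101) (nat_lit 0) [nat_lit 26979, nat_lit 41559, nat_lit 39615, nat_lit 40107, nat_lit 40099] (nat_lit 0) [nat_lit 20419] false,
   Spec.mk (nat_lit 40105) (nat_lit 2) [nat_lit 26983, nat_lit 41563, nat_lit 39619, nat_lit 40123, nat_lit 40099, nat_lit 40107] (nat_lit 0) [nat_lit 20423] false,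
   Spec.mk (nat_lit 40107) (nat_lit 1) [nat_lit 26985, nat_lit 41565, nat_lit 39621, nat_lit 40125, nat_lit 40101, nat_lit 40113, nat_lit 40105] (nat_lit 0) [nat_lit 20425] false,
   Spec.mk (nat_lit 40113) (nat_lit 0) [nat_lit 26991, nat_lit 41571, nat_lit 39627, nat_lit 40131, nat_lit 40107] (nat_lit 0) [nat_lit 20431] false,
   Spec.mk (nat_lit 40123) (nat_lit 2) [nat_lit 27001, nat_lit 41581, nat_lit 39637, nat_lit 40177, nat_lit 40105, nat_lit 40125] (nat_lit 0) [nat_lit 20441] false,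
   Spec.mk (nat_lit 40125) (nat_lit 0) [nat_lit 27003, nat_lit 41583, nat_lit 39639, nat_lit 40179, nat_lit 40107, nat_lit 40131, nat_lit 40123] (nat_lit 0) [nat_lit 20443] false,
   Spec.mk (nat_lit 40131) (nat_lit 1) [nat_lit 27009, nat_lit 41589, nat_lit 39645, nat_lit 40185, nat_lit 40113, nat_lit 40149, nat_lit 40125] (nat_lit 0) [nat_lit 20449] false,
   Spec.mk (nat_lit 40149) (nat_lit 0) [nat_lit 27027, nat_lit 41607, nat_lit 39663, nat_lit 40203, nat_lit 40131] (nat_lit 0) [nat_lit 20467] false,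
   Spec.mk (nat_lit 40177) (nat_lit 2) [nat_lit 27055, nat_lit 41635, nat_lit 39691, nat_lit 40339, nat_lit 40123, nat_lit 40179] (nat_lit 0) [nat_lit 20495] false,
   Spec.mk (nat_lit 40179) (nat_lit 0) [nat_lit 27057, nat_lit 41637, nat_lit 39693, nat_lit 40341, nat_lit 40125, nat_lit 40185, nat_lit 40177] (nat_lit 0) [nat_lit 20497] false,
   Spec.mk (nat_lit 40185) (nat_lit 0) [nat_lit 27063, nat_lit 41643, nat_lit 39699, nat_lit 40347, nat_lit 40131, nat_lit 40203, nat_lit 40179] (nat_lit 0) [nat_lit 20503] false,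
   Spec.mk (nat_lit 40203) (nat_lit 1) [nat_lit 27081, nat_lit 41661, nat_lit 39717, nat_lit 40365, nat_lit 40149, nat_lit 40257, nat_lit 40185] (nat_lit 0) [nat_lit 20521] false,
   Spec.mk (nat_lit 40257) (nat_lit 0) [nat_lit 27135, nat_lit 41715, nat_lit 39771, nat_lit 40419, nat_lit 40203] (nat_lit 0) [nat_lit 20575] false,
   Spec.mk (nat_lit 40339) (nat_lit 3) [nat_lit 27217, nat_lit 41797, nat_lit 39853, nat_lit 40825, nat_lit 40177, nat_lit 40341] (nat_lit 0) [nat_lit 20657] false,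
   Spec.mk (nat_lit 40341) (nat_lit 1) [nat_lit 27219, nat_lit 41799, nat_lit 39855, nat_lit 40827, nat_lit 40179, nat_lit 40347, nat_lit 40339] (nat_lit 0) [nat_lit 20659] false,
   Spec.mk (nat_lit 40347) (nat_lit 1) [nat_lit 27225, nat_lit 41805, nat_lit 39861, nat_lit 40833, nat_lit 40185, nat_lit 40365, nat_lit 40341] (nat_lit 0) [nat_lit 20665] false,
   Spec.mk (nat_lit 40365) (nat_lit 1) [nat_lit 27243, nat_lit 41823, nat_lit 39879, nat_lit 40851, nat_lit 40203, nat_lit 40419, nat_lit 40347] (nat_lit 0) [nat_lit 20683] false,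
   Spec.mk (nat_lit 40419) (nat_lit 2) [nat_lit 27297, nat_lit 41877, nat_lit 39933, nat_lit 40905, nat_lit 40257, nat_lit 40581, nat_lit 40365] (nat_lit 0) [nat_lit 20737] false,
   Spec.mk (nat_lit 40581) (nat_lit 2) [nat_lit 27459, nat_lit 42039, nat_lit 41067, nat_lit 40419] (nat_lit 0) [nat_lit 20899] false,
   Spec.mk (nat_lit 40825) (nat_lit 2) [nat_lit 27703, nat_lit 42283, nat_lit 40339, nat_lit 40827] (nat_lit 0) [nat_lit 21143] false,
   Spec.mk (nat_lit 40827) (nat_lit 0) [nat_lit 27705, nat_lit 42285, nat_lit 40341, nat_lit 40833, nat_lit 40825] (nat_lit 0) [nat_lit 21145] false,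
   Spec.mk (nat_lit 40833) (nat_lit 0) [nat_lit 27711, nat_lit 42291, nat_lit 40347, nat_lit 40851, nat_lit 40827] (nat_lit 0) [nat_lit 21151] false,
   Spec.mk (nat_lit 40851) (nat_lit 0) [nat_lit 27729, nat_lit 42309, nat_lit 40365, nat_lit 40905, nat_lit 40833] (nat_lit 0) [nat_lit 21169] false,
   Spec.mk (nat_lit 40905) (nat_lit 0) [nat_lit 27783, nat_lit 42363, nat_lit 40419, nat_lit 41067, nat_lit 40851] (nat_lit 0) [nat_lit 21223] false,
   Spec.mk (nat_lit 41067) (nat_lit 2) [nat_lit 27945, nat_lit 42525, nat_lit 40581, nat_lit 40905] (nat_lit 0) [nat_lit 21385] false,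
   Spec.mk (nat_lit 41555) (nat_lit 4) [nat_lit 28433, nat_lit 45929, nat_lit 40097, nat_lit 41557] (nat_lit 0) [] false,
   Spec.mk (nat_lit 41557) (nat_lit 3) [nat_lit 28435, nat_lit 45931, nat_lit 40099, nat_lit 41563, nat_lit 41555, nat_lit 41559] (nat_lit 0) [nat_lit 21875] false,
   Spec.mk (nat_lit 41559) (nat_lit 0) [nat_lit 28437, nat_lit 45933, nat_lit 40101, nat_lit 41565, nat_lit 41557] (nat_lit 0) [nat_lit 21877] false,
   Spec.mk (nat_lit 41563) (nat_lit 2) [nat_lit 28441, nat_lit 45937, nat_lit 40105, nat_lit 41581, nat_lit 41557, nat_lit 41565] (nat_lit 0) [nat_lit 21881] false,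
   Spec.mk (nat_lit 41565) (nat_lit 1) [nat_lit 28443, nat_lit 45939, nat_lit 40107, nat_lit 41583, nat_lit 41559, nat_lit 41571, nat_lit 41563] (nat_lit 0) [nat_lit 21883] false,
   Spec.mk (nat_lit 41571) (nat_lit 0) [nat_lit 28449, nat_lit 45945, nat_lit 40113, nat_lit 41589, nat_lit 41565] (nat_lit 0) [nat_lit 21889] false,
   Spec.mk (nat_lit 41581) (nat_lit 2) [nat_lit 28459, nat_lit 45955, nat_lit 40123, nat_lit 41635, nat_lit 41563, nat_lit 41583] (nat_lit 0) [nat_lit 21899] false]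

noncomputable def sp23 : List Spec :=
  [Spec.mk (nat_lit 41583) (nat_lit 0) [nat_lit 28461, nat_lit 45957, nat_lit 40125, nat_lit 41637, nat_lit 41565, nat_lit 41589, nat_lit 41581] (nat_lit 0) [nat_lit 21901] false,
   Spec.mk (nat_lit 41589) (nat_lit 1) [nat_lit 28467, nat_lit 45963, nat_lit 40131, nat_lit 41643, nat_lit 41571, nat_lit 41607, nat_lit 41583] (nat_lit 0) [nat_lit 21907] false,
   Spec.mk (nat_lit 41607) (nat_lit 0) [nat_lit 28485, nat_lit 45981, nat_lit 40149, nat_lit 41661, nat_lit 41589] (nat_lit 0) [nat_lit 21925] false,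
   Spec.mk (nat_lit 41635) (nat_lit 2) [nat_lit 28513, nat_lit 46009, nat_lit 40177, nat_lit 41797, nat_lit 41581, nat_lit 41637] (nat_lit 0) [nat_lit 21953] false,
   Spec.mk (nat_lit 41637) (nat_lit 0) [nat_lit 28515, nat_lit 46011, nat_lit 40179, nat_lit 41799, nat_lit 41583, nat_lit 41643, nat_lit 41635] (nat_lit 0) [nat_lit 21955] false,
   Spec.mk (nat_lit 41643) (nat_lit 0) [nat_lit 28521, nat_lit 46017, nat_lit 40185, nat_lit 41805, nat_lit 41589, nat_lit 41661, nat_lit 41637] (nat_lit 0) [nat_lit 21961] false,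
   Spec.mk (nat_lit 41661) (nat_lit 1) [nat_lit 28539, nat_lit 46035, nat_lit 40203, nat_lit 41823, nat_lit 41607, nat_lit 41715, nat_lit 41643] (nat_lit 0) [nat_lit 21979] false,
   Spec.mk (nat_lit 41715) (nat_lit 0) [nat_lit 28593, nat_lit 46089, nat_lit 40257, nat_lit 41877, nat_lit 41661] (nat_lit 0) [nat_lit 22033] false,
   Spec.mk (nat_lit 41797) (nat_lit 2) [nat_lit 28675, nat_lit 46171, nat_lit 40339, nat_lit 42283, nat_lit 41635, nat_lit 41799] (nat_lit 0) [nat_lit 22115] false,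
   Spec.mk (nat_lit 41799) (nat_lit 0) [nat_lit 28677, nat_lit 46173, nat_lit 40341, nat_lit 42285, nat_lit 41637, nat_lit 41805, nat_lit 41797] (nat_lit 0) [nat_lit 22117] false,
   Spec.mk (nat_lit 41805) (nat_lit 0) [nat_lit 28683, nat_lit 46179, nat_lit 40347, nat_lit 42291, nat_lit 41643, nat_lit 41823, nat_lit 41799] (nat_lit 0) [nat_lit 22123] false,
   Spec.mk (nat_lit 41823) (nat_lit 0) [nat_lit 28701, nat_lit 46197, nat_lit 40365, nat_lit 42309, nat_lit 41661, nat_lit 41877, nat_lit 41805] (nat_lit 0) [nat_lit 22141] false,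
   Spec.mk (nat_lit 41877) (nat_lit 1) [nat_lit 28755, nat_lit 46251, nat_lit 40419, nat_lit 42363, nat_lit 41715, nat_lit 42039, nat_lit 41823] (nat_lit 0) [nat_lit 22195] false,
   Spec.mk (nat_lit 42039) (nat_lit 0) [nat_lit 28917, nat_lit 46413, nat_lit 40581, nat_lit 42525, nat_lit 41877] (nat_lit 0) [nat_lit 22357] false,
   Spec.mk (nat_lit 42283) (nat_lit 3) [nat_lit 29161, nat_lit 46657, nat_lit 40825, nat_lit 43741, nat_lit 41797, nat_lit 42285] (nat_lit 0) [nat_lit 22601] false,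
   Spec.mk (nat_lit 42285) (nat_lit 1) [nat_lit 29163, nat_lit 46659, nat_lit 40827, nat_lit 43743, nat_lit 41799, nat_lit 42291, nat_lit 42283] (nat_lit 0) [nat_lit 22603] false,
   Spec.mk (nat_lit 42291) (nat_lit 1) [nat_lit 29169, nat_lit 46665, nat_lit 40833, nat_lit 43749, nat_lit 41805, nat_lit 42309, nat_lit 42285] (nat_lit 0) [nat_lit 22609] false,
   Spec.mk (nat_lit 42309) (nat_lit 1) [nat_lit 29187, nat_lit 46683, nat_lit 40851, nat_lit 43767, nat_lit 41823, nat_lit 42363, nat_lit 42291] (nat_lit 0) [nat_lit 22627] false,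
   Spec.mk (nat_lit 42363) (nat_lit 1) [nat_lit 29241, nat_lit 46737, nat_lit 40905, nat_lit 43821, nat_lit 41877, nat_lit 42525, nat_lit 42309] (nat_lit 0) [nat_lit 22681] false,
   Spec.mk (nat_lit 42525) (nat_lit 2) [nat_lit 29403, nat_lit 46899, nat_lit 41067, nat_lit 43983, nat_lit 42039, nat_lit 43011, nat_lit 42363] (nat_lit 0) [nat_lit 22843] false,
   Spec.mk (nat_lit 43011) (nat_lit 2) [nat_lit 29889, nat_lit 47385, nat_lit 44469, nat_lit 42525] (nat_lit 0) [nat_lit 23329] false,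
   Spec.mk (nat_lit 43741) (nat_lit 2) [nat_lit 30619, nat_lit 48115, nat_lit 42283, nat_lit 43743] (nat_lit 0) [nat_lit 24059] false,
   Spec.mk (nat_lit 43743) (nat_lit 0) [nat_lit 30621, nat_lit 48117, nat_lit 42285, nat_lit 43749, nat_lit 43741] (nat_lit 0) [nat_lit 24061] false,
   Spec.mk (nat_lit 43749) (nat_lit 0) [nat_lit 30627, nat_lit 48123, nat_lit 42291, nat_lit 43767, nat_lit 43743] (nat_lit 0) [nat_lit 24067] false,
   Spec.mk (nat_lit 43767) (nat_lit 0) [nat_lit 30645, nat_lit 48141, nat_lit 42309, nat_lit 43821, nat_lit 43749] (nat_lit 0) [nat_lit 24085] false,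
   Spec.mk (nat_lit 43821) (nat_lit 0) [nat_lit 30699, nat_lit 48195, nat_lit 42363, nat_lit 43983, nat_lit 43767] (nat_lit 0) [nat_lit 24139] false,
   Spec.mk (nat_lit 43983) (nat_lit 0) [nat_lit 30861, nat_lit 48357, nat_lit 42525, nat_lit 44469, nat_lit 43821] (nat_lit 0) [nat_lit 24301] false,
   Spec.mk (nat_lit 44469) (nat_lit 2) [nat_lit 31347, nat_lit 48843, nat_lit 43011, nat_lit 43983] (nat_lit 0) [nat_lit 24787] false,
   Spec.mk (nat_lit 45929) (nat_lit 6) [nat_lit 32807, nat_lit 41555, nat_lit 45931] (nat_lit 0) [] false,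
   Spec.mk (nat_lit 45931) (nat_lit 5) [nat_lit 32809, nat_lit 41557, nat_lit 45937, nat_lit 45929, nat_lit 45933] (nat_lit 0) [nat_lit 26249] false,
   Spec.mk (nat_lit 45933) (nat_lit 2) [nat_lit 32811, nat_lit 41559, nat_lit 45939, nat_lit 45931] (nat_lit 0) [nat_lit 26251] false,
   Spec.mk (nat_lit 45937) (nat_lit 4) [nat_lit 32815, nat_lit 41563, nat_lit 45955, nat_lit 45931, nat_lit 45939] (nat_lit 0) [nat_lit 26255] false,
   Spec.mk (nat_lit 45939) (nat_lit 3) [nat_lit 32817, nat_lit 41565, nat_lit 45957, nat_lit 45933, nat_lit 45945, nat_lit 45937] (nat_lit 0) [nat_lit 26257] false,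
   Spec.mk (nat_lit 45945) (nat_lit 2) [nat_lit 32823, nat_lit 41571, nat_lit 45963, nat_lit 45939] (nat_lit 0) [nat_lit 26263] false,
   Spec.mk (nat_lit 45955) (nat_lit 4) [nat_lit 32833, nat_lit 41581, nat_lit 46009, nat_lit 45937, nat_lit 45957] (nat_lit 0) [nat_lit 26273] false,
   Spec.mk (nat_lit 45957) (nat_lit 2) [nat_lit 32835, nat_lit 41583, nat_lit 46011, nat_lit 45939, nat_lit 45963, nat_lit 45955] (nat_lit 0) [nat_lit 26275] false,
   Spec.mk (nat_lit 45963) (nat_lit 3) [nat_lit 32841, nat_lit 41589, nat_lit 46017, nat_lit 45945, nat_lit 45981, nat_lit 45957] (nat_lit 0) [nat_lit 26281] false,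
   Spec.mk (nat_lit 45981) (nat_lit 2) [nat_lit 32859, nat_lit 41607, nat_lit 46035, nat_lit 45963] (nat_lit 0) [nat_lit 26299] false,
   Spec.mk (nat_lit 46009) (nat_lit 4) [nat_lit 32887, nat_lit 41635, nat_lit 46171, nat_lit 45955, nat_lit 46011] (nat_lit 0) [nat_lit 26327] false,
   Spec.mk (nat_lit 46011) (nat_lit 2) [nat_lit 32889, nat_lit 41637, nat_lit 46173, nat_lit 45957, nat_lit 46017, nat_lit 46009] (nat_lit 0) [nat_lit 26329] false,
   Spec.mk (nat_lit 46017) (nat_lit 2) [nat_lit 32895, nat_lit 41643, nat_lit 46179, nat_lit 45963, nat_lit 46035, nat_lit 46011] (nat_lit 0) [nat_lit 26335] false,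
   Spec.mk (nat_lit 46035) (nat_lit 3) [nat_lit 32913, nat_lit 41661, nat_lit 46197, nat_lit 45981, nat_lit 46089, nat_lit 46017] (nat_lit 0) [nat_lit 26353] false,
   Spec.mk (nat_lit 46089) (nat_lit 2) [nat_lit 32967, nat_lit 41715, nat_lit 46251, nat_lit 46035] (nat_lit 0) [nat_lit 26407] false,
   Spec.mk (nat_lit 46171) (nat_lit 4) [nat_lit 33049, nat_lit 41797, nat_lit 46657, nat_lit 46009, nat_lit 46173] (nat_lit 0) [nat_lit 26489] false,
   Spec.mk (nat_lit 46173) (nat_lit 2) [nat_lit 33051, nat_lit 41799, nat_lit 46659, nat_lit 46011, nat_lit 46179, nat_lit 46171] (nat_lit 0) [nat_lit 26491] false,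
   Spec.mk (nat_lit 46179) (nat_lit 2) [nat_lit 33057, nat_lit 41805, nat_lit 46665, nat_lit 46017, nat_lit 46197, nat_lit 46173] (nat_lit 0) [nat_lit 26497] false,
   Spec.mk (nat_lit 46197) (nat_lit 2) [nat_lit 33075, nat_lit 41823, nat_lit 46683, nat_lit 46035, nat_lit 46251, nat_lit 46179] (nat_lit 0) [nat_lit 26515] false,
   Spec.mk (nat_lit 46251) (nat_lit 3) [nat_lit 33129, nat_lit 41877, nat_lit 46737, nat_lit 46089, nat_lit 46413, nat_lit 46197] (nat_lit 0) [nat_lit 26569] false,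
   Spec.mk (nat_lit 46413) (nat_lit 2) [nat_lit 33291, nat_lit 42039, nat_lit 46899, nat_lit 46251] (nat_lit 0) [nat_lit 26731] false,
   Spec.mk (nat_lit 46657) (nat_lit 4) [nat_lit 33535, nat_lit 42283, nat_lit 48115, nat_lit 46171, nat_lit 46659] (nat_lit 0) [nat_lit 26975] false,
   Spec.mk (nat_lit 46659) (nat_lit 2) [nat_lit 33537, nat_lit 42285, nat_lit 48117, nat_lit 46173, nat_lit 46665, nat_lit 46657] (nat_lit 0) [nat_lit 26977] false,
   Spec.mk (nat_lit 46665) (nat_lit 2) [nat_lit 33543, nat_lit 42291, nat_lit 48123, nat_lit 46179, nat_lit 46683, nat_lit 46659] (nat_lit 0) [nat_lit 26983] false,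
   Spec.mk (nat_lit 46683) (nat_lit 2) [nat_lit 33561, nat_lit 42309, nat_lit 48141, nat_lit 46197, nat_lit 46737, nat_lit 46665] (nat_lit 0) [nat_lit 27001] false,
   Spec.mk (nat_lit 46737) (nat_lit 2) [nat_lit 33615, nat_lit 42363, nat_lit 48195, nat_lit 46251, nat_lit 46899, nat_lit 46683] (nat_lit 0) [nat_lit 27055] false,
   Spec.mk (nat_lit 46899) (nat_lit 3) [nat_lit 33777, nat_lit 42525, nat_lit 48357, nat_lit 46413, nat_lit 47385, nat_lit 46737] (nat_lit 0) [nat_lit 27217] false,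
   Spec.mk (nat_lit 47385) (nat_lit 2) [nat_lit 34263, nat_lit 43011, nat_lit 48843, nat_lit 46899] (nat_lit 0) [nat_lit 27703] false,
   Spec.mk (nat_lit 48115) (nat_lit 5) [nat_lit 34993, nat_lit 43741, nat_lit 52489, nat_lit 46657, nat_lit 48117] (nat_lit 0) [nat_lit 28433] false,
   Spec.mk (nat_lit 48117) (nat_lit 3) [nat_lit 34995, nat_lit 43743, nat_lit 52491, nat_lit 46659, nat_lit 48123, nat_lit 48115] (nat_lit 0) [nat_lit 28435] false,
   Spec.mk (nat_lit 48123) (nat_lit 3) [nat_lit 35001, nat_lit 43749, nat_lit 52497, nat_lit 46665, nat_lit 48141, nat_lit 48117] (nat_lit 0) [nat_lit 28441] false,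
   Spec.mk (nat_lit 48141) (nat_lit 3) [nat_lit 35019, nat_lit 43767, nat_lit 52515, nat_lit 46683, nat_lit 48195, nat_lit 48123] (nat_lit 0) [nat_lit 28459] false]

noncomputable def sp24 : List Spec :=
  [Spec.mk (nat_lit 48195) (nat_lit 3) [nat_lit 35073, nat_lit 43821, nat_lit 52569, nat_lit 46737, nat_lit 48357, nat_lit 48141] (nat_lit 0) [nat_lit 28513] false,
   Spec.mk (nat_lit 48357) (nat_lit 3) [nat_lit 35235, nat_lit 43983, nat_lit 52731, nat_lit 46899, nat_lit 48843, nat_lit 48195] (nat_lit 0) [nat_lit 28675] false,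
   Spec.mk (nat_lit 48843) (nat_lit 4) [nat_lit 35721, nat_lit 44469, nat_lit 53217, nat_lit 47385, nat_lit 50301, nat_lit 48357] (nat_lit 0) [nat_lit 29161] false,
   Spec.mk (nat_lit 50301) (nat_lit 4) [nat_lit 37179, nat_lit 54675, nat_lit 48843] (nat_lit 0) [nat_lit 30619] false,
   Spec.mk (nat_lit 52489) (nat_lit 6) [nat_lit 48115, nat_lit 52491] (nat_lit 0) [nat_lit 32807] false,
   Spec.mk (nat_lit 52491) (nat_lit 4) [nat_lit 48117, nat_lit 52497, nat_lit 52489] (nat_lit 0) [nat_lit 32809] false,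
   Spec.mk (nat_lit 52497) (nat_lit 4) [nat_lit 48123, nat_lit 52515, nat_lit 52491] (nat_lit 0) [nat_lit 32815] false,
   Spec.mk (nat_lit 52515) (nat_lit 4) [nat_lit 48141, nat_lit 52569, nat_lit 52497] (nat_lit 0) [nat_lit 32833] false,
   Spec.mk (nat_lit 52569) (nat_lit 4) [nat_lit 48195, nat_lit 52731, nat_lit 52515] (nat_lit 0) [nat_lit 32887] false,
   Spec.mk (nat_lit 52731) (nat_lit 4) [nat_lit 48357, nat_lit 53217, nat_lit 52569] (nat_lit 0) [nat_lit 33049] false,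
   Spec.mk (nat_lit 53217) (nat_lit 4) [nat_lit 48843, nat_lit 54675, nat_lit 52731] (nat_lit 0) [nat_lit 33535] false,
   Spec.mk (nat_lit 54675) (nat_lit 6) [nat_lit 50301, nat_lit 53217] (nat_lit 0) [nat_lit 34993] false]

noncomputable def specs : List (List Spec) :=
    sp0 :: sp1 :: sp2 :: sp3 :: sp4 :: sp5 :: sp6 :: sp7 :: sp8 :: sp9 :: sp10 :: sp11 :: sp12 ::
    sp13 :: sp14 :: sp15 :: sp16 :: sp17 :: sp18 :: sp19 :: sp20 :: sp21 :: sp22 :: sp23 :: sp24 ::
    []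

noncomputable def step (e : Nat → Nat) (C ap an : Nat) (k :
    Nat → Nat → Nat → Nat → Nat → Nat → Nat → Nat → Nat → Nat → Nat → Nat → Nat → Nat → Nat → Nat →
    Nat → Nat → Nat → Nat → Nat → Nat → Nat → Nat → Nat → Nat → Nat → Nat → Nat → Nat → Nat → Nat →
    Nat → Nat → Nat → Nat → Nat → Nat → Nat → Nat → Nat → Nat → Nat → Nat → Nat → Nat → Nat → Nat →
    Nat → Nat → Nat → Nat → Nat → Nat → Nat → Nat → Nat → Nat → Nat → Nat → Nat → Nat → Nat → Nat →
    Nat → Nat → Nat → Nat → Nat → Nat → Nat → Nat → Nat → Nat → Nat → Nat → Nat → Nat → Nat → Nat →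
    Nat → Nat → Nat → Nat → Nat → Nat → Nat → Nat → Nat → Nat → Nat → Nat → Nat → Nat → Nat → Nat →
    Nat → Nat → Nat → Nat → Nat → Nat → Nat → Nat → Nat → Nat → Nat → Nat → Nat → Nat → Nat → Nat →
    Nat → Nat → Nat → Nat → Nat → Nat → Nat → Nat → Nat → Nat → Nat → Nat → Nat → Nat → Nat → Nat →
    Nat → Nat → Nat → Nat → Nat → Nat → Nat → Nat → Nat → Nat → Nat → Nat → Nat → Nat → Nat → Nat →
    Nat → Nat → Nat → Nat → Nat → Nat → Nat → Nat → Nat → Nat → Nat → Nat → Nat → Nat → Nat → Nat →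
    Nat → Nat → Nat → Nat → Nat → Nat → Nat → Nat → Nat → Nat → Nat → Nat → Nat → Nat → Nat → Nat →
    Nat → Nat → Nat → Nat → Nat → Nat → Nat → Nat → Nat → Nat → Nat → Nat → Nat → Nat → Nat → Nat →
    Nat → Nat → Nat → Nat → Nat → Nat → Nat → Nat → Nat → Nat → Nat → Nat → Nat → Nat → Nat → Nat →
    Nat → Nat → Nat → Nat → Nat → Nat → Nat → Nat → Nat → Nat → Nat → Nat → Nat → Nat → Nat → Nat →
    Nat → Nat → Nat → Nat → Nat → Nat → Nat → Nat → Nat → Nat → Nat → Nat → Nat → Nat → Nat → Nat →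
    Nat → Nat → Nat → Nat → Nat → Nat → Nat → Nat → Nat → Nat → Nat → Nat → Nat → Nat → Nat → Nat →
    Nat → Nat → Nat → Nat → Nat → Nat → Nat → Nat → Nat → Nat → Nat → Nat → Nat → Nat → Nat → Nat →
    Nat → Nat → Nat → Nat → Nat → Nat → Nat → Nat → Nat → Nat → Nat → Nat → Nat → Nat → Nat → Nat →
    Nat → Nat → Nat → Nat → Nat → Nat → Nat → Nat → Nat → Nat → Nat → Nat → Nat → Nat → Nat → Nat →
    Nat → Nat → Nat → Nat → Nat → Nat → Nat → Nat → Nat → Nat → Nat → Nat → Nat → Nat → Nat → Nat →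
    Nat → Nat → Nat → Nat → Nat → Nat → Nat → Nat → Nat → Nat → Nat → Nat → Nat → Nat → Nat → Nat →
    Nat → Nat → Nat → Nat → Nat → Nat → Nat → Nat → Nat → Nat → Nat → Nat → Nat → Nat → Nat → Nat →
    Nat → Nat → Nat → Nat → Nat → Nat → Nat → Nat → Nat → Nat → Nat → Nat → Nat → Nat → Nat → Nat →
    Nat → Nat → Nat → Nat → Nat → Nat → Nat → Nat → Nat → Nat → Nat → Nat → Nat → Nat → Nat → Nat →
    Nat → Nat → Nat → Nat → Nat → Nat → Nat → Nat → Nat → Nat → Nat → Nat → Nat → Nat → Nat → Nat →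
    Nat → Nat → Nat → Nat → Nat → Nat → Nat → Nat → Nat → Nat → Nat → Nat → Nat → Nat → Nat → Nat →
    Nat → Nat → Nat → Nat → Nat → Nat → Nat → Nat → Nat → Nat → Nat → Nat → Nat → Nat → Nat → Nat →
    Nat → Nat → Nat → Nat → Nat → Nat → Nat → Nat → Nat → Nat → Nat → Nat → Nat → Nat → Nat → Nat →
    Nat → Nat → Nat → Nat → Nat → Nat → Nat → Nat → Nat → Nat → Nat → Nat → Nat → Nat → Nat → Nat →
    Nat → Nat → Nat → Nat → Nat → Nat → Nat → Nat → Nat → Nat → Nat → Nat → Nat → Nat → Nat → Nat →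
    Nat → Nat → Nat → Nat → Nat → Nat → Nat → Nat → Nat → Nat → Nat → Nat → Nat → Nat → Nat → Nat →
    Nat → Nat → Nat → Nat → Nat → Nat → Nat → Nat → Nat → Nat → Nat → Nat → Nat → Nat → Nat → Nat →
    Nat → Nat → Nat → Nat → Nat → Nat → Nat → Nat → Nat → Nat → Nat → Nat → Nat → Nat → Nat → Nat →
    Nat → Nat → Nat → Nat → Nat → Nat → Nat → Nat → Nat → Nat → Nat → Nat → Nat → Nat → Nat → Nat →
    Nat → Nat → Nat → Nat → Nat → Nat → Nat → Nat → Nat → Nat → Nat → Nat → Nat → Nat → Nat → Nat →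
    Nat → Nat → Nat → Nat → Nat → Nat → Nat → Nat → Nat → Nat → Nat → Nat → Nat → Nat → Nat → Nat →
    Nat → Nat → Nat → Nat → Nat → Nat → Nat → Nat → Nat → Nat → Nat → Nat → Nat → Nat → Nat → Nat →
    Nat → Nat → Nat → Nat → Nat → Nat → Nat → Nat → Nat → Nat → Nat → Nat → Nat → Nat → Nat → Nat →
    Nat → Nat → Nat → Nat → Nat → Nat → Nat → Nat → Nat → Nat → Nat → Nat → Nat → Nat → Nat → Nat →
    Nat → Nat → Nat → Nat → Nat → Nat → Nat → Nat → Nat → Nat → Nat → Nat → Nat → Nat → Nat → Nat →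
    Nat → Nat → Nat → Nat → Nat → Nat → Nat → Nat → Nat → Nat → Nat → Nat → Nat → Nat → Nat → Nat →
    Nat → Nat → Nat → Nat → Nat → Nat → Nat → Nat → Nat → Nat → Nat → Nat → Nat → Nat → Nat → Nat →
    Nat → Nat → Nat → Nat → Nat → Nat → Nat → Nat → Nat → Nat → Nat → Nat → Nat → Nat → Nat → Nat →
    Nat → Nat → Nat → Nat → Nat → Nat → Nat → Nat → Nat → Nat → Nat → Nat → Nat → Nat → Nat → Nat →
    Nat → Nat → Nat → Nat → Nat → Nat → Nat → Nat → Nat → Nat → Nat → Nat → Nat → Nat → Nat → Nat →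
    Nat → Nat → Nat → Nat → Nat → Nat → Nat → Nat → Nat → Nat → Nat → Nat → Nat → Nat → Nat → Nat →
    Nat → Nat → Nat → Nat → Nat → Nat → Nat → Nat → Nat → Nat → Nat → Nat → Nat → Nat → Nat → Nat →
    Nat → Nat → Nat → Nat → Nat → Nat → Nat → Nat → Nat → Nat → Nat → Nat → Nat → Nat → Nat → Nat →
    Nat → Nat → Nat → Nat → Nat → Nat → Nat → Nat → Nat → Nat → Nat → Nat → Nat → Nat → Nat → Nat →
    Nat → Nat → Nat → Nat → Nat → Nat → Nat → Nat → Nat → Nat → Nat → Nat → Nat → Nat → Nat → Nat →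
    Nat → Nat → Nat → Nat → Nat → Nat → Nat → Nat → Nat → Nat → Nat → Nat → Nat → Nat → Nat → Nat →
    Nat → Nat → Nat → Nat → Nat → Nat → Nat → Nat → Nat → Nat → Nat → Nat → Nat → Nat → Nat → Nat →
    Nat → Nat → Nat → Nat → Nat → Nat → Nat → Nat → Nat → Nat → Nat → Nat → Nat → Nat → Nat → Nat →
    Nat → Nat → Nat → Nat → Nat → Nat → Nat → Nat → Nat → Nat → Nat → Nat → Nat → Nat → Nat → Nat →
    Nat → Nat → Nat → Nat → Nat → Nat → Nat → Nat → Nat → Nat → Nat → Nat → Nat → Nat → Nat → Nat →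
    Nat → Nat → Nat → Nat → Nat → Nat → Nat → Nat → Nat → Nat → Nat → Nat → Nat → Nat → Nat → Nat →
    Nat → Nat → Nat → Nat → Nat → Nat → Nat → Nat → Nat → Nat → Nat → Nat → Nat → Nat → Nat → Nat →
    Nat → Nat → Nat → Nat → Nat → Nat → Nat → Nat → Nat → Nat → Nat → Nat → Nat → Nat → Nat → Nat →
    Nat → Nat → Nat → Nat → Nat → Nat → Nat → Nat → Nat → Nat → Nat → Nat → Nat → Nat → Nat → Nat →
    Nat → Nat → Nat → Nat → Nat → Nat → Nat → Nat → Nat → Nat → Nat → Nat → Nat → Nat → Nat → Nat →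
    Nat → Nat → Nat → Nat → Nat → Nat → Nat → Nat → Nat → Nat → Nat → Nat → Nat → Nat → Nat → Nat →
    Nat → Nat → Nat → Nat → Nat → Nat → Nat → Nat → Nat → Nat → Nat → Nat → Nat → Nat → Nat → Nat →
    Nat → Nat → Nat → Nat → Nat → Nat → Nat → Nat → Nat → Nat → Nat → Nat → Nat → Nat → Nat → Nat →
    Nat → Nat → Nat → Nat → Nat → Nat → Nat → Nat → Nat → Nat → Nat → Nat → Nat → Nat → Nat → Nat →
    Nat → Nat → Nat → Nat → Nat → Nat → Nat → Nat → Nat → Nat → Nat → Nat → Nat → Nat → Nat → Nat →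
    Nat → Nat → Nat → Nat → Nat → Nat → Nat → Nat → Nat → Nat → Nat → Nat → Nat → Nat → Nat → Nat →
    Nat → Nat → Nat → Nat → Nat → Nat → Nat → Nat → Nat → Nat → Nat → Nat → Nat → Nat → Nat → Nat →
    Nat → Nat → Nat → Nat → Nat → Nat → Nat → Nat → Nat → Nat → Nat → Nat → Nat → Nat → Nat → Nat →
    Nat → Nat → Nat → Nat → Nat → Nat → Nat → Nat → Nat → Nat → Nat → Nat → Nat → Nat → Nat → Nat →
    Nat → Nat → Nat → Nat → Nat → Nat → Nat → Nat → Nat → Nat → Nat → Nat → Nat → Nat → Nat → Nat →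
    Nat → Nat → Nat → Nat → Nat → Nat → Nat → Nat → Nat → Nat → Nat → Nat → Nat → Nat → Nat → Nat →
    Nat → Nat → Nat → Nat → Nat → Nat → Nat → Nat → Nat → Nat → Nat → Nat → Nat → Nat → Nat → Nat →
    Nat → Nat → Nat → Nat → Nat → Nat → Nat → Nat → Nat → Nat → Nat → Nat → Nat → Nat → Nat → Nat →
    Nat → Nat → Nat → Nat → Nat → Nat → Nat → Nat → Nat → Nat → Nat → Nat → Nat → Nat → Nat → Nat →
    Nat → Nat → Nat → Nat → Nat → Nat → Nat → Nat → Nat → Nat → Nat → Nat → Nat → Nat → Nat → Nat →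
    Nat → Nat → Nat → Nat → Nat → Nat → Nat → Nat → Nat → Nat → Nat → Nat → Nat → Nat → Nat → Nat →
    Nat → Nat → Nat → Nat → Nat → Nat → Nat → Nat → Nat → Nat → Nat → Nat → Nat → Nat → Nat → Nat →
    Nat → Nat → Nat → Nat → Nat → Nat → Nat → Nat → Nat → Nat → Nat → Nat → Nat → Nat → Nat → Nat →
    Nat → Nat → Nat → Nat → Nat → Nat → Nat → Nat → Nat → Nat → Nat → Nat → Nat → Nat → Nat → Nat →
    Nat → Nat → Nat → Nat → Nat → Nat → Nat → Nat → Nat → Nat → Nat → Nat → Nat → Nat → Nat → Nat →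
    Nat → Nat → Nat → Nat → Nat → Nat → Nat → Nat → Nat → Nat → Nat → Nat → Nat → Nat → Nat → Nat →
    Nat → Nat → Nat → Nat → Nat → Nat → Nat → Nat → Nat → Nat → Nat → Nat → Nat → Nat → Nat → Nat →
    Nat → Nat → Nat → Nat → Nat → Nat → Nat → Nat → Nat → Nat → Nat → Nat → Nat → Nat → Nat → Nat →
    Nat → Nat → Nat → Nat → Nat → Nat → Nat → Nat → Nat → Nat → Nat → Nat → Nat → Nat → Nat → Nat →
    Nat → Nat → Nat → Nat → Nat → Nat → Nat → Nat → Nat → Nat → Nat → Nat → Nat → Nat → Nat → Nat →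
    Nat → Nat → Nat → Nat → Nat → Nat → Nat → Nat → Nat → Nat → Nat → Nat → Nat → Nat → Nat → Nat →
    Nat → Nat → Nat → Nat → Nat → Nat → Nat → Nat → Nat → Nat → Nat → Nat → Nat → Nat → Nat → Nat →
    Nat → Nat → Nat → Nat → Nat → Nat → Nat → Nat → Nat → Nat → Nat → Nat → Nat → Nat → Nat → Nat →
    Nat → Nat → Nat → Nat → Nat → Nat → Nat → Nat → Nat → Nat → Nat → Nat → Nat → Nat → Nat → Nat →
    Nat → Nat → Nat → Nat → Nat → Nat → Nat → Nat → Nat → Nat → Nat → Nat → Nat → Nat → Nat → Nat →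
    Nat → Nat → Nat → Nat → Nat → Nat → Nat → Nat → Nat → Nat → Nat → Nat → Bool)
  (
    x17 x23 x25 x35 x41 x43 x47 x49 x51 x59 x61 x65 x67 x69 x73 x75 x89 x95 x97 x101 x103 x105 x113
    x115 x119 x121 x123 x127 x129 x137 x139 x141 x145 x147 x153 x167 x169 x173 x175 x177 x181 x183
    x191 x193 x195 x199 x201 x207 x217 x219 x225 x251 x257 x259 x263 x265 x267 x275 x277 x281 x283
    x285 x289 x291 x299 x301 x303 x307 x309 x315 x329 x331 x335 x337 x339 x343 x345 x353 x355 x357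
    x361 x363 x369 x379 x381 x387 x407 x409 x411 x415 x417 x423 x433 x435 x441 x459 x491 x493 x497
    x499 x501 x505 x507 x515 x517 x519 x523 x525 x531 x541 x543 x549 x569 x571 x573 x577 x579 x585
    x595 x597 x603 x621 x649 x651 x657 x675 x737 x743 x745 x749 x751 x753 x761 x763 x767 x769 x771
    x775 x777 x785 x787 x789 x793 x795 x801 x815 x817 x821 x823 x825 x829 x831 x839 x841 x843 x847
    x849 x855 x865 x867 x873 x893 x895 x897 x901 x903 x909 x919 x921 x927 x945 x977 x979 x983 x985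
    x987 x991 x993 x1001 x1003 x1005 x1009 x1011 x1017 x1027 x1029 x1035 x1055 x1057 x1059 x1063
    x1065 x1071 x1081 x1083 x1089 x1107 x1135 x1137 x1143 x1161 x1217 x1219 x1221 x1225 x1227 x1233
    x1243 x1245 x1251 x1269 x1297 x1299 x1305 x1323 x1377 x1463 x1465 x1469 x1471 x1473 x1477 x1479
    x1487 x1489 x1491 x1495 x1497 x1503 x1513 x1515 x1521 x1541 x1543 x1545 x1549 x1551 x1557 x1567
    x1569 x1575 x1593 x1621 x1623 x1629 x1647 x1703 x1705 x1707 x1711 x1713 x1719 x1729 x1731 x1737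
    x1755 x1783 x1785 x1791 x1809 x1863 x1945 x1947 x1953 x1971 x2025 x2195 x2201 x2203 x2207 x2209
    x2211 x2219 x2221 x2225 x2227 x2229 x2233 x2235 x2243 x2245 x2247 x2251 x2253 x2259 x2273 x2275
    x2279 x2281 x2283 x2287 x2289 x2297 x2299 x2301 x2305 x2307 x2313 x2323 x2325 x2331 x2351 x2353
    x2355 x2359 x2361 x2367 x2377 x2379 x2385 x2403 x2435 x2437 x2441 x2443 x2445 x2449 x2451 x2459
    x2461 x2463 x2467 x2469 x2475 x2485 x2487 x2493 x2513 x2515 x2517 x2521 x2523 x2529 x2539 x2541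
    x2547 x2565 x2593 x2595 x2601 x2619 x2675 x2677 x2679 x2683 x2685 x2691 x2701 x2703 x2709 x2727
    x2755 x2757 x2763 x2781 x2835 x2921 x2923 x2927 x2929 x2931 x2935 x2937 x2945 x2947 x2949 x2953
    x2955 x2961 x2971 x2973 x2979 x2999 x3001 x3003 x3007 x3009 x3015 x3025 x3027 x3033 x3051 x3079
    x3081 x3087 x3105 x3161 x3163 x3165 x3169 x3171 x3177 x3187 x3189 x3195 x3213 x3241 x3243 x3249
    x3267 x3321 x3403 x3405 x3411 x3429 x3483 x3647 x3649 x3651 x3655 x3657 x3663 x3673 x3675 x3681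
    x3699 x3727 x3729 x3735 x3753 x3807 x3889 x3891 x3897 x3915 x3969 x4131 x4379 x4381 x4385 x4387
    x4389 x4393 x4395 x4403 x4405 x4407 x4411 x4413 x4419 x4429 x4431 x4437 x4457 x4459 x4461 x4465
    x4467 x4473 x4483 x4485 x4491 x4509 x4537 x4539 x4545 x4563 x4619 x4621 x4623 x4627 x4629 x4635
    x4645 x4647 x4653 x4671 x4699 x4701 x4707 x4725 x4779 x4861 x4863 x4869 x4887 x4941 x5105 x5107
    x5109 x5113 x5115 x5121 x5131 x5133 x5139 x5157 x5185 x5187 x5193 x5211 x5265 x5347 x5349 x5355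
    x5373 x5427 x5589 x5833 x5835 x5841 x5859 x5913 x6075 x6569 x6575 x6577 x6581 x6583 x6585 x6593
    x6595 x6599 x6601 x6603 x6607 x6609 x6617 x6619 x6621 x6625 x6627 x6633 x6647 x6649 x6653 x6655
    x6657 x6661 x6663 x6671 x6673 x6675 x6679 x6681 x6687 x6697 x6699 x6705 x6725 x6727 x6729 x6733
    x6735 x6741 x6751 x6753 x6759 x6777 x6809 x6811 x6815 x6817 x6819 x6823 x6825 x6833 x6835 x6837
    x6841 x6843 x6849 x6859 x6861 x6867 x6887 x6889 x6891 x6895 x6897 x6903 x6913 x6915 x6921 x6939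
    x6967 x6969 x6975 x6993 x7049 x7051 x7053 x7057 x7059 x7065 x7075 x7077 x7083 x7101 x7129 x7131
    x7137 x7155 x7209 x7295 x7297 x7301 x7303 x7305 x7309 x7311 x7319 x7321 x7323 x7327 x7329 x7335
    x7345 x7347 x7353 x7373 x7375 x7377 x7381 x7383 x7389 x7399 x7401 x7407 x7425 x7453 x7455 x7461
    x7479 x7535 x7537 x7539 x7543 x7545 x7551 x7561 x7563 x7569 x7587 x7615 x7617 x7623 x7641 x7695
    x7777 x7779 x7785 x7803 x7857 x8021 x8023 x8025 x8029 x8031 x8037 x8047 x8049 x8055 x8073 x8101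
    x8103 x8109 x8127 x8181 x8263 x8265 x8271 x8289 x8343 x8505 x8753 x8755 x8759 x8761 x8763 x8767
    x8769 x8777 x8779 x8781 x8785 x8787 x8793 x8803 x8805 x8811 x8831 x8833 x8835 x8839 x8841 x8847
    x8857 x8859 x8865 x8883 x8911 x8913 x8919 x8937 x8993 x8995 x8997 x9001 x9003 x9009 x9019 x9021
    x9027 x9045 x9073 x9075 x9081 x9099 x9153 x9235 x9237 x9243 x9261 x9315 x9479 x9481 x9483 x9487
    x9489 x9495 x9505 x9507 x9513 x9531 x9559 x9561 x9567 x9585 x9639 x9721 x9723 x9729 x9747 x9801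
    x9963 x10207 x10209 x10215 x10233 x10287 x10449 x10937 x10939 x10941 x10945 x10947 x10953
    x10963 x10965 x10971 x10989 x11017 x11019 x11025 x11043 x11097 x11179 x11181 x11187 x11205
    x11259 x11421 x11665 x11667 x11673 x11691 x11745 x11907 x12393 x13127 x13129 x13133 x13135
    x13137 x13141 x13143 x13151 x13153 x13155 x13159 x13161 x13167 x13177 x13179 x13185 x13205
    x13207 x13209 x13213 x13215 x13221 x13231 x13233 x13239 x13257 x13285 x13287 x13293 x13311
    x13367 x13369 x13371 x13375 x13377 x13383 x13393 x13395 x13401 x13419 x13447 x13449 x13455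
    x13473 x13527 x13609 x13611 x13617 x13635 x13689 x13853 x13855 x13857 x13861 x13863 x13869
    x13879 x13881 x13887 x13905 x13933 x13935 x13941 x13959 x14013 x14095 x14097 x14103 x14121
    x14175 x14337 x14581 x14583 x14589 x14607 x14661 x14823 x15311 x15313 x15315 x15319 x15321
    x15327 x15337 x15339 x15345 x15363 x15391 x15393 x15399 x15417 x15471 x15553 x15555 x15561
    x15579 x15633 x15795 x16039 x16041 x16047 x16065 x16119 x16281 x16767 x17497 x17499 x17505
    x17523 x17577 x17739 x18225 x19691 x19697 x19699 x19703 x19705 x19707 x19715 x19717 x19721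
    x19723 x19725 x19729 x19731 x19739 x19741 x19743 x19747 x19749 x19755 x19769 x19771 x19775
    x19777 x19779 x19783 x19785 x19793 x19795 x19797 x19801 x19803 x19809 x19819 x19821 x19827
    x19847 x19849 x19851 x19855 x19857 x19863 x19873 x19875 x19881 x19899 x19931 x19933 x19937
    x19939 x19941 x19945 x19947 x19955 x19957 x19959 x19963 x19965 x19971 x19981 x19983 x19989
    x20009 x20011 x20013 x20017 x20019 x20025 x20035 x20037 x20043 x20061 x20089 x20091 x20097
    x20115 x20171 x20173 x20175 x20179 x20181 x20187 x20197 x20199 x20205 x20223 x20251 x20253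
    x20259 x20277 x20331 x20417 x20419 x20423 x20425 x20427 x20431 x20433 x20441 x20443 x20445
    x20449 x20451 x20457 x20467 x20469 x20475 x20495 x20497 x20499 x20503 x20505 x20511 x20521
    x20523 x20529 x20547 x20575 x20577 x20583 x20601 x20657 x20659 x20661 x20665 x20667 x20673
    x20683 x20685 x20691 x20709 x20737 x20739 x20745 x20763 x20817 x20899 x20901 x20907 x20925
    x20979 x21143 x21145 x21147 x21151 x21153 x21159 x21169 x21171 x21177 x21195 x21223 x21225
    x21231 x21249 x21303 x21385 x21387 x21393 x21411 x21465 x21627 x21875 x21877 x21881 x21883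
    x21885 x21889 x21891 x21899 x21901 x21903 x21907 x21909 x21915 x21925 x21927 x21933 x21953
    x21955 x21957 x21961 x21963 x21969 x21979 x21981 x21987 x22005 x22033 x22035 x22041 x22059
    x22115 x22117 x22119 x22123 x22125 x22131 x22141 x22143 x22149 x22167 x22195 x22197 x22203
    x22221 x22275 x22357 x22359 x22365 x22383 x22437 x22601 x22603 x22605 x22609 x22611 x22617
    x22627 x22629 x22635 x22653 x22681 x22683 x22689 x22707 x22761 x22843 x22845 x22851 x22869
    x22923 x23085 x23329 x23331 x23337 x23355 x23409 x23571 x24059 x24061 x24063 x24067 x24069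
    x24075 x24085 x24087 x24093 x24111 x24139 x24141 x24147 x24165 x24219 x24301 x24303 x24309
    x24327 x24381 x24543 x24787 x24789 x24795 x24813 x24867 x25029 x25515 x26249 x26251 x26255
    x26257 x26259 x26263 x26265 x26273 x26275 x26277 x26281 x26283 x26289 x26299 x26301 x26307
    x26327 x26329 x26331 x26335 x26337 x26343 x26353 x26355 x26361 x26379 x26407 x26409 x26415
    x26433 x26489 x26491 x26493 x26497 x26499 x26505 x26515 x26517 x26523 x26541 x26569 x26571
    x26577 x26595 x26649 x26731 x26733 x26739 x26757 x26811 x26975 x26977 x26979 x26983 x26985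
    x26991 x27001 x27003 x27009 x27027 x27055 x27057 x27063 x27081 x27135 x27217 x27219 x27225
    x27243 x27297 x27459 x27703 x27705 x27711 x27729 x27783 x27945 x28433 x28435 x28437 x28441
    x28443 x28449 x28459 x28461 x28467 x28485 x28513 x28515 x28521 x28539 x28593 x28675 x28677
    x28683 x28701 x28755 x28917 x29161 x29163 x29169 x29187 x29241 x29403 x29889 x30619 x30621
    x30627 x30645 x30699 x30861 x31347 x32807 x32809 x32811 x32815 x32817 x32823 x32833 x32835
    x32841 x32859 x32887 x32889 x32895 x32913 x32967 x33049 x33051 x33057 x33075 x33129 x33291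
    x33535 x33537 x33543 x33561 x33615 x33777 x34263 x34993 x34995 x35001 x35019 x35073 x35235
    x35721 x37179 x39371 x39373 x39377 x39379 x39381 x39385 x39387 x39395 x39397 x39399 x39403
    x39405 x39411 x39421 x39423 x39429 x39449 x39451 x39453 x39457 x39459 x39465 x39475 x39477
    x39483 x39501 x39529 x39531 x39537 x39555 x39611 x39613 x39615 x39619 x39621 x39627 x39637
    x39639 x39645 x39663 x39691 x39693 x39699 x39717 x39771 x39853 x39855 x39861 x39879 x39933
    x40097 x40099 x40101 x40105 x40107 x40113 x40123 x40125 x40131 x40149 x40177 x40179 x40185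
    x40203 x40257 x40339 x40341 x40347 x40365 x40419 x40581 x40825 x40827 x40833 x40851 x40905
    x41067 x41555 x41557 x41559 x41563 x41565 x41571 x41581 x41583 x41589 x41607 x41635 x41637
    x41643 x41661 x41715 x41797 x41799 x41805 x41823 x41877 x42039 x42283 x42285 x42291 x42309
    x42363 x42525 x43011 x43741 x43743 x43749 x43767 x43821 x43983 x44469 x45929 x45931 x45933
    x45937 x45939 x45945 x45955 x45957 x45963 x45981 x46009 x46011 x46017 x46035 x46089 x46171
    x46173 x46179 x46197 x46251 x46413 x46657 x46659 x46665 x46683 x46737 x46899 x47385 x48115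
    x48117 x48123 x48141 x48195 x48357 x48843 x50301 x52489 x52491 x52497 x52515 x52569 x52731
    x53217 x54675 : Nat) : Bool :=
  k
    (Nat.sub (Nat.sub (Nat.add (Nat.add (Nat.add (Nat.add C (Nat.mul x17 (nat_lit 6))) x35) x23) (Nat.mul (e (nat_lit 17)) ap)) x19699) (Nat.mul (e (nat_lit 17)) an))
    (Nat.sub (Nat.sub (Nat.add (Nat.add (Nat.add (Nat.add (Nat.add C (Nat.mul x23 (nat_lit 4))) x41) x17) x25) (Nat.mul (e (nat_lit 23)) ap)) x19705) (Nat.mul (e (nat_lit 23)) an))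
    (Nat.sub (Nat.add (Nat.add (Nat.add C (Nat.mul x25 (nat_lit 6))) x43) x23) x19707)
    (Nat.sub (Nat.sub (Nat.add (Nat.add (Nat.add (Nat.add (Nat.add C (Nat.mul x35 (nat_lit 4))) x89) x17) x41) (Nat.mul (e (nat_lit 35)) ap)) x19717) (Nat.mul (e (nat_lit 35)) an))
    (Nat.sub (Nat.sub (Nat.add (Nat.add (Nat.add (Nat.add (Nat.add (Nat.add (Nat.add (Nat.add C (Nat.mul x41 (nat_lit 4))) x95) x23) x59) x35) x47) x43) (Nat.mul (e (nat_lit 41)) ap)) x19723) (Nat.mul (e (nat_lit 41)) an))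
    (Nat.sub (Nat.sub (Nat.add (Nat.add (Nat.add (Nat.add (Nat.add (Nat.add (Nat.add C (Nat.mul x43 (nat_lit 5))) x97) x25) x61) x49) x41) (Nat.mul (e (nat_lit 43)) ap)) x19725) (Nat.mul (e (nat_lit 43)) an))
    (Nat.sub (Nat.sub (Nat.add (Nat.add (Nat.add (Nat.add (Nat.add (Nat.add C (Nat.mul x47 (nat_lit 2))) x101) x65) x41) x49) (Nat.mul (e (nat_lit 47)) ap)) x19729) (Nat.mul (e (nat_lit 47)) an))
    (Nat.sub (Nat.add (Nat.add (Nat.add (Nat.add (Nat.add (Nat.add C (Nat.mul x49 (nat_lit 5))) x103) x67) x43) x47) x51) x19731)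
    (Nat.add (Nat.add (Nat.add (Nat.add C (Nat.mul x51 (nat_lit 6))) x105) x69) x49)
    (Nat.sub (Nat.sub (Nat.add (Nat.add (Nat.add (Nat.add (Nat.add (Nat.add C (Nat.mul x59 (nat_lit 2))) x113) x41) x65) x61) (Nat.mul (e (nat_lit 59)) ap)) x19741) (Nat.mul (e (nat_lit 59)) an))
    (Nat.sub (Nat.add (Nat.add (Nat.add (Nat.add (Nat.add C (Nat.mul x61 (nat_lit 2))) x115) x43) x67) x59) x19743)
    (Nat.sub (Nat.add (Nat.add (Nat.add (Nat.add (Nat.add C (Nat.mul x65 (nat_lit 2))) x119) x47) x59) x67) x19747)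
    (Nat.sub (Nat.add (Nat.add (Nat.add (Nat.add (Nat.add (Nat.add (Nat.add C (Nat.mul x67 (nat_lit 4))) x121) x49) x61) x73) x65) x69) x19749)
    (Nat.add (Nat.add (Nat.add (Nat.add (Nat.add C (Nat.mul x69 (nat_lit 4))) x123) x51) x75) x67)
    (Nat.sub (Nat.add (Nat.add (Nat.add (Nat.add C (Nat.mul x73 (nat_lit 4))) x127) x67) x75) x19755)
    (Nat.add (Nat.add (Nat.add (Nat.add C (Nat.mul x75 (nat_lit 6))) x129) x69) x73)
    (Nat.sub (Nat.sub (Nat.add (Nat.add (Nat.add (Nat.add (Nat.add C (Nat.mul x89 (nat_lit 4))) x251) x35) x95) (Nat.mul (e (nat_lit 89)) ap)) x19771) (Nat.mul (e (nat_lit 89)) an))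
    (Nat.sub (Nat.sub (Nat.add (Nat.add (Nat.add (Nat.add (Nat.add (Nat.add (Nat.add (Nat.add C (Nat.mul x95 (nat_lit 3))) x257) x41) x113) x89) x101) x97) (Nat.mul (e (nat_lit 95)) ap)) x19777) (Nat.mul (e (nat_lit 95)) an))
    (Nat.sub (Nat.sub (Nat.add (Nat.add (Nat.add (Nat.add (Nat.add (Nat.add (Nat.add C (Nat.mul x97 (nat_lit 4))) x259) x43) x115) x103) x95) (Nat.mul (e (nat_lit 97)) ap)) x19779) (Nat.mul (e (nat_lit 97)) an))
    (Nat.sub (Nat.sub (Nat.add (Nat.add (Nat.add (Nat.add (Nat.add (Nat.add C x263) x47) x119) x95) x103) (Nat.mul (e (nat_lit 101)) ap)) x19783) (Nat.mul (e (nat_lit 101)) an))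
    (Nat.sub (Nat.sub (Nat.add (Nat.add (Nat.add (Nat.add (Nat.add (Nat.add (Nat.add (Nat.add C (Nat.mul x103 (nat_lit 3))) x265) x49) x121) x97) x101) x105) (Nat.mul (e (nat_lit 103)) ap)) x19785) (Nat.mul (e (nat_lit 103)) an))
    (Nat.add (Nat.add (Nat.add (Nat.add (Nat.add C (Nat.mul x105 (nat_lit 4))) x267) x51) x123) x103)
    (Nat.sub (Nat.sub (Nat.add (Nat.add (Nat.add (Nat.add (Nat.add (Nat.add (Nat.add (Nat.add C (Nat.mul x113 (nat_lit 3))) x275) x59) x167) x95) x119) x115) (Nat.mul (e (nat_lit 113)) ap)) x19795) (Nat.mul (e (nat_lit 113)) an))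
    (Nat.sub (Nat.sub (Nat.add (Nat.add (Nat.add (Nat.add (Nat.add (Nat.add (Nat.add (Nat.add C (Nat.mul x115 (nat_lit 3))) x277) x61) x169) x97) x121) x113) (Nat.mul (e (nat_lit 115)) ap)) x19797) (Nat.mul (e (nat_lit 115)) an))
    (Nat.sub (Nat.sub (Nat.add (Nat.add (Nat.add (Nat.add (Nat.add (Nat.add (Nat.add (Nat.add (Nat.add C (Nat.mul x119 (nat_lit 2))) x281) x65) x173) x101) x137) x113) x121) (Nat.mul (e (nat_lit 119)) ap)) x19801) (Nat.mul (e (nat_lit 119)) an))
    (Nat.sub (Nat.sub (Nat.add (Nat.add (Nat.add (Nat.add (Nat.add (Nat.add (Nat.add (Nat.add (Nat.add (Nat.add (Nat.add C (Nat.mul x121 (nat_lit 4))) x283) x67) x175) x103) x139) x115) x127) x119) x123) (Nat.mul (e (nat_lit 121)) ap)) x19803) (Nat.mul (e (nat_lit 121)) an))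
    (Nat.add (Nat.add (Nat.add (Nat.add (Nat.add (Nat.add (Nat.add (Nat.add C (Nat.mul x123 (nat_lit 4))) x285) x69) x177) x105) x141) x129) x121)
    (Nat.sub (Nat.add (Nat.add (Nat.add (Nat.add (Nat.add (Nat.add (Nat.add C (Nat.mul x127 (nat_lit 3))) x289) x73) x181) x145) x121) x129) x19809)
    (Nat.add (Nat.add (Nat.add (Nat.add (Nat.add (Nat.add (Nat.add C (Nat.mul x129 (nat_lit 5))) x291) x75) x183) x147) x123) x127)
    (Nat.sub (Nat.sub (Nat.add (Nat.add (Nat.add (Nat.add (Nat.add (Nat.add C (Nat.mul x137 (nat_lit 2))) x299) x191) x119) x139) (Nat.mul (e (nat_lit 137)) ap)) x19819) (Nat.mul (e (nat_lit 137)) an))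
    (Nat.sub (Nat.add (Nat.add (Nat.add (Nat.add (Nat.add (Nat.add (Nat.add C (Nat.mul x139 (nat_lit 3))) x301) x193) x121) x145) x137) x141) x19821)
    (Nat.add (Nat.add (Nat.add (Nat.add (Nat.add (Nat.add C (Nat.mul x141 (nat_lit 2))) x303) x195) x123) x147) x139)
    (Nat.sub (Nat.add (Nat.add (Nat.add (Nat.add (Nat.add (Nat.add C (Nat.mul x145 (nat_lit 4))) x307) x199) x127) x139) x147) x19827)
    (Nat.add (Nat.add (Nat.add (Nat.add (Nat.add (Nat.add (Nat.add C (Nat.mul x147 (nat_lit 5))) x309) x201) x129) x141) x153) x145)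
    (Nat.add (Nat.add (Nat.add (Nat.add C (Nat.mul x153 (nat_lit 6))) x315) x207) x147)
    (Nat.sub (Nat.sub (Nat.add (Nat.add (Nat.add (Nat.add (Nat.add (Nat.add C (Nat.mul x167 (nat_lit 2))) x329) x113) x173) x169) (Nat.mul (e (nat_lit 167)) ap)) x19849) (Nat.mul (e (nat_lit 167)) an))
    (Nat.sub (Nat.add (Nat.add (Nat.add (Nat.add (Nat.add C (Nat.mul x169 (nat_lit 2))) x331) x115) x175) x167) x19851)
    (Nat.sub (Nat.sub (Nat.add (Nat.add (Nat.add (Nat.add (Nat.add (Nat.add C x335) x119) x191) x167) x175) (Nat.mul (e (nat_lit 173)) ap)) x19855) (Nat.mul (e (nat_lit 173)) an))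
    (Nat.sub (Nat.add (Nat.add (Nat.add (Nat.add (Nat.add (Nat.add (Nat.add (Nat.add C (Nat.mul x175 (nat_lit 2))) x337) x121) x193) x169) x181) x173) x177) x19857)
    (Nat.add (Nat.add (Nat.add (Nat.add (Nat.add (Nat.add C (Nat.mul x177 (nat_lit 2))) x339) x123) x195) x183) x175)
    (Nat.sub (Nat.add (Nat.add (Nat.add (Nat.add (Nat.add C x343) x127) x199) x175) x183) x19863)
    (Nat.add (Nat.add (Nat.add (Nat.add (Nat.add (Nat.add C (Nat.mul x183 (nat_lit 2))) x345) x129) x201) x177) x181)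
    (Nat.sub (Nat.add (Nat.add (Nat.add (Nat.add (Nat.add C (Nat.mul x191 (nat_lit 2))) x353) x137) x173) x193) x19873)
    (Nat.sub (Nat.add (Nat.add (Nat.add (Nat.add (Nat.add (Nat.add (Nat.add C (Nat.mul x193 (nat_lit 3))) x355) x139) x175) x199) x191) x195) x19875)
    (Nat.add (Nat.add (Nat.add (Nat.add (Nat.add (Nat.add C (Nat.mul x195 (nat_lit 2))) x357) x141) x177) x201) x193)
    (Nat.sub (Nat.add (Nat.add (Nat.add (Nat.add (Nat.add (Nat.add (Nat.add C (Nat.mul x199 (nat_lit 3))) x361) x145) x181) x217) x193) x201) x19881)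
    (Nat.add (Nat.add (Nat.add (Nat.add (Nat.add (Nat.add (Nat.add (Nat.add C (Nat.mul x201 (nat_lit 4))) x363) x147) x183) x219) x195) x207) x199)
    (Nat.add (Nat.add (Nat.add (Nat.add (Nat.add C (Nat.mul x207 (nat_lit 4))) x369) x153) x225) x201)
    (Nat.sub (Nat.add (Nat.add (Nat.add (Nat.add C (Nat.mul x217 (nat_lit 4))) x379) x199) x219) x19899)
    (Nat.add (Nat.add (Nat.add (Nat.add (Nat.add C (Nat.mul x219 (nat_lit 4))) x381) x201) x225) x217)
    (Nat.add (Nat.add (Nat.add (Nat.add C (Nat.mul x225 (nat_lit 6))) x387) x207) x219)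
    (Nat.sub (Nat.sub (Nat.add (Nat.add (Nat.add (Nat.add (Nat.add C (Nat.mul x251 (nat_lit 4))) x737) x89) x257) (Nat.mul (e (nat_lit 251)) ap)) x19933) (Nat.mul (e (nat_lit 251)) an))
    (Nat.sub (Nat.sub (Nat.add (Nat.add (Nat.add (Nat.add (Nat.add (Nat.add (Nat.add (Nat.add C (Nat.mul x257 (nat_lit 3))) x743) x95) x275) x251) x263) x259) (Nat.mul (e (nat_lit 257)) ap)) x19939) (Nat.mul (e (nat_lit 257)) an))
    (Nat.sub (Nat.sub (Nat.add (Nat.add (Nat.add (Nat.add (Nat.add (Nat.add (Nat.add C (Nat.mul x259 (nat_lit 4))) x745) x97) x277) x265) x257) (Nat.mul (e (nat_lit 259)) ap)) x19941) (Nat.mul (e (nat_lit 259)) an))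
    (Nat.sub (Nat.sub (Nat.add (Nat.add (Nat.add (Nat.add (Nat.add (Nat.add C x749) x101) x281) x257) x265) (Nat.mul (e (nat_lit 263)) ap)) x19945) (Nat.mul (e (nat_lit 263)) an))
    (Nat.sub (Nat.sub (Nat.add (Nat.add (Nat.add (Nat.add (Nat.add (Nat.add (Nat.add (Nat.add C (Nat.mul x265 (nat_lit 3))) x751) x103) x283) x259) x263) x267) (Nat.mul (e (nat_lit 265)) ap)) x19947) (Nat.mul (e (nat_lit 265)) an))
    (Nat.add (Nat.add (Nat.add (Nat.add (Nat.add C (Nat.mul x267 (nat_lit 4))) x753) x105) x285) x265)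
    (Nat.sub (Nat.sub (Nat.add (Nat.add (Nat.add (Nat.add (Nat.add (Nat.add (Nat.add (Nat.add C (Nat.mul x275 (nat_lit 2))) x761) x113) x329) x257) x281) x277) (Nat.mul (e (nat_lit 275)) ap)) x19957) (Nat.mul (e (nat_lit 275)) an))
    (Nat.sub (Nat.sub (Nat.add (Nat.add (Nat.add (Nat.add (Nat.add (Nat.add (Nat.add (Nat.add C (Nat.mul x277 (nat_lit 2))) x763) x115) x331) x259) x283) x275) (Nat.mul (e (nat_lit 277)) ap)) x19959) (Nat.mul (e (nat_lit 277)) an))
    (Nat.sub (Nat.sub (Nat.add (Nat.add (Nat.add (Nat.add (Nat.add (Nat.add (Nat.add (Nat.add (Nat.add C x281) x767) x119) x335) x263) x299) x275) x283) (Nat.mul (e (nat_lit 281)) ap)) x19963) (Nat.mul (e (nat_lit 281)) an))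
    (Nat.sub (Nat.sub (Nat.add (Nat.add (Nat.add (Nat.add (Nat.add (Nat.add (Nat.add (Nat.add (Nat.add (Nat.add (Nat.add C (Nat.mul x283 (nat_lit 3))) x769) x121) x337) x265) x301) x277) x289) x281) x285) (Nat.mul (e (nat_lit 283)) ap)) x19965) (Nat.mul (e (nat_lit 283)) an))
    (Nat.add (Nat.add (Nat.add (Nat.add (Nat.add (Nat.add (Nat.add (Nat.add C (Nat.mul x285 (nat_lit 3))) x771) x123) x339) x267) x303) x291) x283)
    (Nat.sub (Nat.sub (Nat.add (Nat.add (Nat.add (Nat.add (Nat.add (Nat.add (Nat.add (Nat.add C (Nat.mul x289 (nat_lit 2))) x775) x127) x343) x307) x283) x291) (Nat.mul (e (nat_lit 289)) ap)) x19971) (Nat.mul (e (nat_lit 289)) an))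
    (Nat.add (Nat.add (Nat.add (Nat.add (Nat.add (Nat.add (Nat.add C (Nat.mul x291 (nat_lit 4))) x777) x129) x345) x309) x285) x289)
    (Nat.sub (Nat.sub (Nat.add (Nat.add (Nat.add (Nat.add (Nat.add (Nat.add C x785) x137) x353) x281) x301) (Nat.mul (e (nat_lit 299)) ap)) x19981) (Nat.mul (e (nat_lit 299)) an))
    (Nat.sub (Nat.sub (Nat.add (Nat.add (Nat.add (Nat.add (Nat.add (Nat.add (Nat.add (Nat.add (Nat.add C x301) x787) x139) x355) x283) x307) x299) x303) (Nat.mul (e (nat_lit 301)) ap)) x19983) (Nat.mul (e (nat_lit 301)) an))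
    (Nat.add (Nat.add (Nat.add (Nat.add (Nat.add (Nat.add C x789) x141) x357) x285) x309) x301)
    (Nat.sub (Nat.add (Nat.add (Nat.add (Nat.add (Nat.add (Nat.add (Nat.add C (Nat.mul x307 (nat_lit 2))) x793) x145) x361) x289) x301) x309) x19989)
    (Nat.add (Nat.add (Nat.add (Nat.add (Nat.add (Nat.add (Nat.add (Nat.add C (Nat.mul x309 (nat_lit 3))) x795) x147) x363) x291) x303) x315) x307)
    (Nat.add (Nat.add (Nat.add (Nat.add (Nat.add C (Nat.mul x315 (nat_lit 4))) x801) x153) x369) x309)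
    (Nat.sub (Nat.sub (Nat.add (Nat.add (Nat.add (Nat.add (Nat.add (Nat.add (Nat.add (Nat.add C (Nat.mul x329 (nat_lit 3))) x815) x167) x491) x275) x335) x331) (Nat.mul (e (nat_lit 329)) ap)) x20011) (Nat.mul (e (nat_lit 329)) an))
    (Nat.sub (Nat.sub (Nat.add (Nat.add (Nat.add (Nat.add (Nat.add (Nat.add (Nat.add (Nat.add C (Nat.mul x331 (nat_lit 3))) x817) x169) x493) x277) x337) x329) (Nat.mul (e (nat_lit 331)) ap)) x20013) (Nat.mul (e (nat_lit 331)) an))
    (Nat.sub (Nat.sub (Nat.add (Nat.add (Nat.add (Nat.add (Nat.add (Nat.add (Nat.add (Nat.add (Nat.add C x335) x821) x173) x497) x281) x353) x329) x337) (Nat.mul (e (nat_lit 335)) ap)) x20017) (Nat.mul (e (nat_lit 335)) an))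
    (Nat.sub (Nat.sub (Nat.add (Nat.add (Nat.add (Nat.add (Nat.add (Nat.add (Nat.add (Nat.add (Nat.add (Nat.add (Nat.add C (Nat.mul x337 (nat_lit 3))) x823) x175) x499) x283) x355) x331) x343) x335) x339) (Nat.mul (e (nat_lit 337)) ap)) x20019) (Nat.mul (e (nat_lit 337)) an))
    (Nat.add (Nat.add (Nat.add (Nat.add (Nat.add (Nat.add (Nat.add (Nat.add C (Nat.mul x339 (nat_lit 3))) x825) x177) x501) x285) x357) x345) x337)
    (Nat.sub (Nat.add (Nat.add (Nat.add (Nat.add (Nat.add (Nat.add (Nat.add (Nat.add C x343) x829) x181) x505) x289) x361) x337) x345) x20025)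
    (Nat.add (Nat.add (Nat.add (Nat.add (Nat.add (Nat.add (Nat.add (Nat.add C (Nat.mul x345 (nat_lit 3))) x831) x183) x507) x291) x363) x339) x343)
    (Nat.sub (Nat.sub (Nat.add (Nat.add (Nat.add (Nat.add (Nat.add (Nat.add (Nat.add (Nat.add (Nat.add C (Nat.mul x353 (nat_lit 2))) x839) x191) x515) x299) x407) x335) x355) (Nat.mul (e (nat_lit 353)) ap)) x20035) (Nat.mul (e (nat_lit 353)) an))
    (Nat.sub (Nat.add (Nat.add (Nat.add (Nat.add (Nat.add (Nat.add (Nat.add (Nat.add (Nat.add (Nat.add C (Nat.mul x355 (nat_lit 3))) x841) x193) x517) x301) x409) x337) x361) x353) x357) x20037)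
    (Nat.add (Nat.add (Nat.add (Nat.add (Nat.add (Nat.add (Nat.add (Nat.add (Nat.add C (Nat.mul x357 (nat_lit 2))) x843) x195) x519) x303) x411) x339) x363) x355)
    (Nat.sub (Nat.add (Nat.add (Nat.add (Nat.add (Nat.add (Nat.add (Nat.add (Nat.add (Nat.add (Nat.add C (Nat.mul x361 (nat_lit 3))) x847) x199) x523) x307) x415) x343) x379) x355) x363) x20043)
    (Nat.add (Nat.add (Nat.add (Nat.add (Nat.add (Nat.add (Nat.add (Nat.add (Nat.add (Nat.add (Nat.add C (Nat.mul x363 (nat_lit 4))) x849) x201) x525) x309) x417) x345) x381) x357) x369) x361)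
    (Nat.add (Nat.add (Nat.add (Nat.add (Nat.add (Nat.add (Nat.add (Nat.add C (Nat.mul x369 (nat_lit 4))) x855) x207) x531) x315) x423) x387) x363)
    (Nat.sub (Nat.add (Nat.add (Nat.add (Nat.add (Nat.add (Nat.add (Nat.add C (Nat.mul x379 (nat_lit 3))) x865) x217) x541) x433) x361) x381) x20061)
    (Nat.add (Nat.add (Nat.add (Nat.add (Nat.add (Nat.add (Nat.add (Nat.add C (Nat.mul x381 (nat_lit 3))) x867) x219) x543) x435) x363) x387) x379)
    (Nat.add (Nat.add (Nat.add (Nat.add (Nat.add (Nat.add (Nat.add C (Nat.mul x387 (nat_lit 5))) x873) x225) x549) x441) x369) x381)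
    (Nat.sub (Nat.sub (Nat.add (Nat.add (Nat.add (Nat.add (Nat.add (Nat.add C (Nat.mul x407 (nat_lit 2))) x893) x569) x353) x409) (Nat.mul (e (nat_lit 407)) ap)) x20089) (Nat.mul (e (nat_lit 407)) an))
    (Nat.sub (Nat.add (Nat.add (Nat.add (Nat.add (Nat.add (Nat.add (Nat.add C (Nat.mul x409 (nat_lit 3))) x895) x571) x355) x415) x407) x411) x20091)
    (Nat.add (Nat.add (Nat.add (Nat.add (Nat.add (Nat.add C (Nat.mul x411 (nat_lit 2))) x897) x573) x357) x417) x409)
    (Nat.sub (Nat.add (Nat.add (Nat.add (Nat.add (Nat.add (Nat.add (Nat.add C (Nat.mul x415 (nat_lit 2))) x901) x577) x361) x433) x409) x417) x20097)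
    (Nat.add (Nat.add (Nat.add (Nat.add (Nat.add (Nat.add (Nat.add (Nat.add C (Nat.mul x417 (nat_lit 3))) x903) x579) x363) x435) x411) x423) x415)
    (Nat.add (Nat.add (Nat.add (Nat.add (Nat.add (Nat.add C (Nat.mul x423 (nat_lit 2))) x909) x585) x369) x441) x417)
    (Nat.sub (Nat.add (Nat.add (Nat.add (Nat.add (Nat.add (Nat.add C (Nat.mul x433 (nat_lit 4))) x919) x595) x379) x415) x435) x20115)
    (Nat.add (Nat.add (Nat.add (Nat.add (Nat.add (Nat.add (Nat.add C (Nat.mul x435 (nat_lit 4))) x921) x597) x381) x417) x441) x433)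
    (Nat.add (Nat.add (Nat.add (Nat.add (Nat.add (Nat.add (Nat.add C (Nat.mul x441 (nat_lit 5))) x927) x603) x387) x423) x459) x435)
    (Nat.add (Nat.add (Nat.add (Nat.add C (Nat.mul x459 (nat_lit 6))) x945) x621) x441)
    (Nat.sub (Nat.sub (Nat.add (Nat.add (Nat.add (Nat.add (Nat.add (Nat.add C (Nat.mul x491 (nat_lit 2))) x977) x329) x497) x493) (Nat.mul (e (nat_lit 491)) ap)) x20173) (Nat.mul (e (nat_lit 491)) an))
    (Nat.sub (Nat.add (Nat.add (Nat.add (Nat.add (Nat.add C (Nat.mul x493 (nat_lit 2))) x979) x331) x499) x491) x20175)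
    (Nat.sub (Nat.sub (Nat.add (Nat.add (Nat.add (Nat.add (Nat.add (Nat.add C x983) x335) x515) x491) x499) (Nat.mul (e (nat_lit 497)) ap)) x20179) (Nat.mul (e (nat_lit 497)) an))
    (Nat.sub (Nat.add (Nat.add (Nat.add (Nat.add (Nat.add (Nat.add (Nat.add (Nat.add C (Nat.mul x499 (nat_lit 2))) x985) x337) x517) x493) x505) x497) x501) x20181)
    (Nat.add (Nat.add (Nat.add (Nat.add (Nat.add (Nat.add C (Nat.mul x501 (nat_lit 2))) x987) x339) x519) x507) x499)
    (Nat.sub (Nat.add (Nat.add (Nat.add (Nat.add (Nat.add C x991) x343) x523) x499) x507) x20187)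
    (Nat.add (Nat.add (Nat.add (Nat.add (Nat.add (Nat.add C (Nat.mul x507 (nat_lit 2))) x993) x345) x525) x501) x505)
    (Nat.sub (Nat.add (Nat.add (Nat.add (Nat.add (Nat.add C x1001) x353) x569) x497) x517) x20197)
    (Nat.sub (Nat.add (Nat.add (Nat.add (Nat.add (Nat.add (Nat.add (Nat.add (Nat.add C x517) x1003) x355) x571) x499) x523) x515) x519) x20199)
    (Nat.add (Nat.add (Nat.add (Nat.add (Nat.add (Nat.add C x1005) x357) x573) x501) x525) x517)
    (Nat.sub (Nat.add (Nat.add (Nat.add (Nat.add (Nat.add (Nat.add (Nat.add (Nat.add C x523) x1009) x361) x577) x505) x541) x517) x525) x20205)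
    (Nat.add (Nat.add (Nat.add (Nat.add (Nat.add (Nat.add (Nat.add (Nat.add (Nat.add C (Nat.mul x525 (nat_lit 2))) x1011) x363) x579) x507) x543) x519) x531) x523)
    (Nat.add (Nat.add (Nat.add (Nat.add (Nat.add (Nat.add C (Nat.mul x531 (nat_lit 2))) x1017) x369) x585) x549) x525)
    (Nat.sub (Nat.add (Nat.add (Nat.add (Nat.add (Nat.add C x1027) x379) x595) x523) x543) x20223)
    (Nat.add (Nat.add (Nat.add (Nat.add (Nat.add (Nat.add C x1029) x381) x597) x525) x549) x541)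
    (Nat.add (Nat.add (Nat.add (Nat.add (Nat.add (Nat.add C (Nat.mul x549 (nat_lit 2))) x1035) x387) x603) x531) x543)
    (Nat.sub (Nat.add (Nat.add (Nat.add (Nat.add (Nat.add C (Nat.mul x569 (nat_lit 2))) x1055) x407) x515) x571) x20251)
    (Nat.sub (Nat.add (Nat.add (Nat.add (Nat.add (Nat.add (Nat.add (Nat.add C (Nat.mul x571 (nat_lit 3))) x1057) x409) x517) x577) x569) x573) x20253)
    (Nat.add (Nat.add (Nat.add (Nat.add (Nat.add (Nat.add C (Nat.mul x573 (nat_lit 2))) x1059) x411) x519) x579) x571)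
    (Nat.sub (Nat.add (Nat.add (Nat.add (Nat.add (Nat.add (Nat.add (Nat.add C (Nat.mul x577 (nat_lit 2))) x1063) x415) x523) x595) x571) x579) x20259)
    (Nat.add (Nat.add (Nat.add (Nat.add (Nat.add (Nat.add (Nat.add (Nat.add C (Nat.mul x579 (nat_lit 3))) x1065) x417) x525) x597) x573) x585) x577)
    (Nat.add (Nat.add (Nat.add (Nat.add (Nat.add (Nat.add C (Nat.mul x585 (nat_lit 2))) x1071) x423) x531) x603) x579)
    (Nat.sub (Nat.add (Nat.add (Nat.add (Nat.add (Nat.add (Nat.add (Nat.add C (Nat.mul x595 (nat_lit 3))) x1081) x433) x541) x649) x577) x597) x20277)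
    (Nat.add (Nat.add (Nat.add (Nat.add (Nat.add (Nat.add (Nat.add (Nat.add C (Nat.mul x597 (nat_lit 3))) x1083) x435) x543) x651) x579) x603) x595)
    (Nat.add (Nat.add (Nat.add (Nat.add (Nat.add (Nat.add (Nat.add (Nat.add C (Nat.mul x603 (nat_lit 4))) x1089) x441) x549) x657) x585) x621) x597)
    (Nat.add (Nat.add (Nat.add (Nat.add (Nat.add C (Nat.mul x621 (nat_lit 4))) x1107) x459) x675) x603)
    (Nat.sub (Nat.add (Nat.add (Nat.add (Nat.add C (Nat.mul x649 (nat_lit 4))) x1135) x595) x651) x20331)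
    (Nat.add (Nat.add (Nat.add (Nat.add (Nat.add C (Nat.mul x651 (nat_lit 4))) x1137) x597) x657) x649)
    (Nat.add (Nat.add (Nat.add (Nat.add (Nat.add C (Nat.mul x657 (nat_lit 4))) x1143) x603) x675) x651)
    (Nat.add (Nat.add (Nat.add (Nat.add C (Nat.mul x675 (nat_lit 6))) x1161) x621) x657)
    (Nat.sub (Nat.add (Nat.add (Nat.add (Nat.add C (Nat.mul x737 (nat_lit 4))) x2195) x251) x743) x20419)
    (Nat.sub (Nat.sub (Nat.add (Nat.add (Nat.add (Nat.add (Nat.add (Nat.add (Nat.add (Nat.add C (Nat.mul x743 (nat_lit 3))) x2201) x257) x761) x737) x749) x745) (Nat.mul (e (nat_lit 743)) ap)) x20425) (Nat.mul (e (nat_lit 743)) an))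
    (Nat.sub (Nat.sub (Nat.add (Nat.add (Nat.add (Nat.add (Nat.add (Nat.add (Nat.add C (Nat.mul x745 (nat_lit 4))) x2203) x259) x763) x751) x743) (Nat.mul (e (nat_lit 745)) ap)) x20427) (Nat.mul (e (nat_lit 745)) an))
    (Nat.sub (Nat.sub (Nat.add (Nat.add (Nat.add (Nat.add (Nat.add (Nat.add C x2207) x263) x767) x743) x751) (Nat.mul (e (nat_lit 749)) ap)) x20431) (Nat.mul (e (nat_lit 749)) an))
    (Nat.sub (Nat.add (Nat.add (Nat.add (Nat.add (Nat.add (Nat.add (Nat.add C (Nat.mul x751 (nat_lit 3))) x2209) x265) x769) x745) x749) x753) x20433)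
    (Nat.add (Nat.add (Nat.add (Nat.add (Nat.add C (Nat.mul x753 (nat_lit 4))) x2211) x267) x771) x751)
    (Nat.sub (Nat.sub (Nat.add (Nat.add (Nat.add (Nat.add (Nat.add (Nat.add (Nat.add (Nat.add C (Nat.mul x761 (nat_lit 2))) x2219) x275) x815) x743) x767) x763) (Nat.mul (e (nat_lit 761)) ap)) x20443) (Nat.mul (e (nat_lit 761)) an))
    (Nat.sub (Nat.sub (Nat.add (Nat.add (Nat.add (Nat.add (Nat.add (Nat.add (Nat.add (Nat.add C (Nat.mul x763 (nat_lit 2))) x2221) x277) x817) x745) x769) x761) (Nat.mul (e (nat_lit 763)) ap)) x20445) (Nat.mul (e (nat_lit 763)) an))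
    (Nat.sub (Nat.sub (Nat.add (Nat.add (Nat.add (Nat.add (Nat.add (Nat.add (Nat.add (Nat.add (Nat.add C x767) x2225) x281) x821) x749) x785) x761) x769) (Nat.mul (e (nat_lit 767)) ap)) x20449) (Nat.mul (e (nat_lit 767)) an))
    (Nat.sub (Nat.sub (Nat.add (Nat.add (Nat.add (Nat.add (Nat.add (Nat.add (Nat.add (Nat.add (Nat.add (Nat.add (Nat.add C (Nat.mul x769 (nat_lit 3))) x2227) x283) x823) x751) x787) x763) x775) x767) x771) (Nat.mul (e (nat_lit 769)) ap)) x20451) (Nat.mul (e (nat_lit 769)) an))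
    (Nat.add (Nat.add (Nat.add (Nat.add (Nat.add (Nat.add (Nat.add (Nat.add C (Nat.mul x771 (nat_lit 3))) x2229) x285) x825) x753) x789) x777) x769)
    (Nat.sub (Nat.sub (Nat.add (Nat.add (Nat.add (Nat.add (Nat.add (Nat.add (Nat.add (Nat.add C (Nat.mul x775 (nat_lit 2))) x2233) x289) x829) x793) x769) x777) (Nat.mul (e (nat_lit 775)) ap)) x20457) (Nat.mul (e (nat_lit 775)) an))
    (Nat.add (Nat.add (Nat.add (Nat.add (Nat.add (Nat.add (Nat.add C (Nat.mul x777 (nat_lit 4))) x2235) x291) x831) x795) x771) x775)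
    (Nat.sub (Nat.sub (Nat.add (Nat.add (Nat.add (Nat.add (Nat.add (Nat.add C x2243) x299) x839) x767) x787) (Nat.mul (e (nat_lit 785)) ap)) x20467) (Nat.mul (e (nat_lit 785)) an))
    (Nat.sub (Nat.sub (Nat.add (Nat.add (Nat.add (Nat.add (Nat.add (Nat.add (Nat.add (Nat.add (Nat.add C x787) x2245) x301) x841) x769) x793) x785) x789) (Nat.mul (e (nat_lit 787)) ap)) x20469) (Nat.mul (e (nat_lit 787)) an))
    (Nat.add (Nat.add (Nat.add (Nat.add (Nat.add (Nat.add C x2247) x303) x843) x771) x795) x787)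
    (Nat.sub (Nat.sub (Nat.add (Nat.add (Nat.add (Nat.add (Nat.add (Nat.add (Nat.add (Nat.add C (Nat.mul x793 (nat_lit 2))) x2251) x307) x847) x775) x787) x795) (Nat.mul (e (nat_lit 793)) ap)) x20475) (Nat.mul (e (nat_lit 793)) an))
    (Nat.add (Nat.add (Nat.add (Nat.add (Nat.add (Nat.add (Nat.add (Nat.add C (Nat.mul x795 (nat_lit 3))) x2253) x309) x849) x777) x789) x801) x793)
    (Nat.add (Nat.add (Nat.add (Nat.add (Nat.add C (Nat.mul x801 (nat_lit 4))) x2259) x315) x855) x795)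
    (Nat.sub (Nat.sub (Nat.add (Nat.add (Nat.add (Nat.add (Nat.add (Nat.add (Nat.add (Nat.add C (Nat.mul x815 (nat_lit 2))) x2273) x329) x977) x761) x821) x817) (Nat.mul (e (nat_lit 815)) ap)) x20497) (Nat.mul (e (nat_lit 815)) an))
    (Nat.sub (Nat.sub (Nat.add (Nat.add (Nat.add (Nat.add (Nat.add (Nat.add (Nat.add (Nat.add C (Nat.mul x817 (nat_lit 2))) x2275) x331) x979) x763) x823) x815) (Nat.mul (e (nat_lit 817)) ap)) x20499) (Nat.mul (e (nat_lit 817)) an))
    (Nat.sub (Nat.sub (Nat.add (Nat.add (Nat.add (Nat.add (Nat.add (Nat.add (Nat.add (Nat.add C x2279) x335) x983) x767) x839) x815) x823) (Nat.mul (e (nat_lit 821)) ap)) x20503) (Nat.mul (e (nat_lit 821)) an))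
    (Nat.sub (Nat.sub (Nat.add (Nat.add (Nat.add (Nat.add (Nat.add (Nat.add (Nat.add (Nat.add (Nat.add (Nat.add (Nat.add C (Nat.mul x823 (nat_lit 2))) x2281) x337) x985) x769) x841) x817) x829) x821) x825) (Nat.mul (e (nat_lit 823)) ap)) x20505) (Nat.mul (e (nat_lit 823)) an))
    (Nat.add (Nat.add (Nat.add (Nat.add (Nat.add (Nat.add (Nat.add (Nat.add C (Nat.mul x825 (nat_lit 2))) x2283) x339) x987) x771) x843) x831) x823)
    (Nat.sub (Nat.sub (Nat.add (Nat.add (Nat.add (Nat.add (Nat.add (Nat.add (Nat.add (Nat.add C x2287) x343) x991) x775) x847) x823) x831) (Nat.mul (e (nat_lit 829)) ap)) x20511) (Nat.mul (e (nat_lit 829)) an))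
    (Nat.add (Nat.add (Nat.add (Nat.add (Nat.add (Nat.add (Nat.add (Nat.add C (Nat.mul x831 (nat_lit 2))) x2289) x345) x993) x777) x849) x825) x829)
    (Nat.sub (Nat.sub (Nat.add (Nat.add (Nat.add (Nat.add (Nat.add (Nat.add (Nat.add (Nat.add (Nat.add C x839) x2297) x353) x1001) x785) x893) x821) x841) (Nat.mul (e (nat_lit 839)) ap)) x20521) (Nat.mul (e (nat_lit 839)) an))
    (Nat.sub (Nat.sub (Nat.add (Nat.add (Nat.add (Nat.add (Nat.add (Nat.add (Nat.add (Nat.add (Nat.add (Nat.add (Nat.add C (Nat.mul x841 (nat_lit 2))) x2299) x355) x1003) x787) x895) x823) x847) x839) x843) (Nat.mul (e (nat_lit 841)) ap)) x20523) (Nat.mul (e (nat_lit 841)) an))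
    (Nat.add (Nat.add (Nat.add (Nat.add (Nat.add (Nat.add (Nat.add (Nat.add (Nat.add C x843) x2301) x357) x1005) x789) x897) x825) x849) x841)
    (Nat.sub (Nat.sub (Nat.add (Nat.add (Nat.add (Nat.add (Nat.add (Nat.add (Nat.add (Nat.add (Nat.add (Nat.add (Nat.add C (Nat.mul x847 (nat_lit 2))) x2305) x361) x1009) x793) x901) x829) x865) x841) x849) (Nat.mul (e (nat_lit 847)) ap)) x20529) (Nat.mul (e (nat_lit 847)) an))
    (Nat.add (Nat.add (Nat.add (Nat.add (Nat.add (Nat.add (Nat.add (Nat.add (Nat.add (Nat.add (Nat.add C (Nat.mul x849 (nat_lit 3))) x2307) x363) x1011) x795) x903) x831) x867) x843) x855) x847)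
    (Nat.add (Nat.add (Nat.add (Nat.add (Nat.add (Nat.add (Nat.add (Nat.add C (Nat.mul x855 (nat_lit 3))) x2313) x369) x1017) x801) x909) x873) x849)
    (Nat.sub (Nat.add (Nat.add (Nat.add (Nat.add (Nat.add (Nat.add (Nat.add C (Nat.mul x865 (nat_lit 2))) x2323) x379) x1027) x919) x847) x867) x20547)
    (Nat.add (Nat.add (Nat.add (Nat.add (Nat.add (Nat.add (Nat.add (Nat.add C (Nat.mul x867 (nat_lit 2))) x2325) x381) x1029) x921) x849) x873) x865)
    (Nat.add (Nat.add (Nat.add (Nat.add (Nat.add (Nat.add (Nat.add C (Nat.mul x873 (nat_lit 4))) x2331) x387) x1035) x927) x855) x867)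
    (Nat.sub (Nat.sub (Nat.add (Nat.add (Nat.add (Nat.add (Nat.add (Nat.add C x2351) x407) x1055) x839) x895) (Nat.mul (e (nat_lit 893)) ap)) x20575) (Nat.mul (e (nat_lit 893)) an))
    (Nat.sub (Nat.sub (Nat.add (Nat.add (Nat.add (Nat.add (Nat.add (Nat.add (Nat.add (Nat.add (Nat.add C x895) x2353) x409) x1057) x841) x901) x893) x897) (Nat.mul (e (nat_lit 895)) ap)) x20577) (Nat.mul (e (nat_lit 895)) an))
    (Nat.add (Nat.add (Nat.add (Nat.add (Nat.add (Nat.add C x2355) x411) x1059) x843) x903) x895)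
    (Nat.sub (Nat.add (Nat.add (Nat.add (Nat.add (Nat.add (Nat.add (Nat.add C x2359) x415) x1063) x847) x919) x895) x903) x20583)
    (Nat.add (Nat.add (Nat.add (Nat.add (Nat.add (Nat.add (Nat.add (Nat.add (Nat.add C x903) x2361) x417) x1065) x849) x921) x897) x909) x901)
    (Nat.add (Nat.add (Nat.add (Nat.add (Nat.add (Nat.add C x2367) x423) x1071) x855) x927) x903)
    (Nat.sub (Nat.add (Nat.add (Nat.add (Nat.add (Nat.add (Nat.add (Nat.add C (Nat.mul x919 (nat_lit 2))) x2377) x433) x1081) x865) x901) x921) x20601)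
    (Nat.add (Nat.add (Nat.add (Nat.add (Nat.add (Nat.add (Nat.add (Nat.add C (Nat.mul x921 (nat_lit 2))) x2379) x435) x1083) x867) x903) x927) x919)
    (Nat.add (Nat.add (Nat.add (Nat.add (Nat.add (Nat.add (Nat.add (Nat.add C (Nat.mul x927 (nat_lit 3))) x2385) x441) x1089) x873) x909) x945) x921)
    (Nat.add (Nat.add (Nat.add (Nat.add (Nat.add C (Nat.mul x945 (nat_lit 4))) x2403) x459) x1107) x927)
    (Nat.sub (Nat.sub (Nat.add (Nat.add (Nat.add (Nat.add (Nat.add (Nat.add (Nat.add (Nat.add C (Nat.mul x977 (nat_lit 3))) x2435) x491) x1463) x815) x983) x979) (Nat.mul (e (nat_lit 977)) ap)) x20659) (Nat.mul (e (nat_lit 977)) an))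
    (Nat.sub (Nat.add (Nat.add (Nat.add (Nat.add (Nat.add (Nat.add (Nat.add C (Nat.mul x979 (nat_lit 3))) x2437) x493) x1465) x817) x985) x977) x20661)
    (Nat.sub (Nat.sub (Nat.add (Nat.add (Nat.add (Nat.add (Nat.add (Nat.add (Nat.add (Nat.add (Nat.add C x983) x2441) x497) x1469) x821) x1001) x977) x985) (Nat.mul (e (nat_lit 983)) ap)) x20665) (Nat.mul (e (nat_lit 983)) an))
    (Nat.sub (Nat.sub (Nat.add (Nat.add (Nat.add (Nat.add (Nat.add (Nat.add (Nat.add (Nat.add (Nat.add (Nat.add (Nat.add C (Nat.mul x985 (nat_lit 3))) x2443) x499) x1471) x823) x1003) x979) x991) x983) x987) (Nat.mul (e (nat_lit 985)) ap)) x20667) (Nat.mul (e (nat_lit 985)) an))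
    (Nat.add (Nat.add (Nat.add (Nat.add (Nat.add (Nat.add (Nat.add (Nat.add C (Nat.mul x987 (nat_lit 3))) x2445) x501) x1473) x825) x1005) x993) x985)
    (Nat.sub (Nat.add (Nat.add (Nat.add (Nat.add (Nat.add (Nat.add (Nat.add (Nat.add C x991) x2449) x505) x1477) x829) x1009) x985) x993) x20673)
    (Nat.add (Nat.add (Nat.add (Nat.add (Nat.add (Nat.add (Nat.add (Nat.add C (Nat.mul x993 (nat_lit 3))) x2451) x507) x1479) x831) x1011) x987) x991)
    (Nat.sub (Nat.sub (Nat.add (Nat.add (Nat.add (Nat.add (Nat.add (Nat.add (Nat.add (Nat.add (Nat.add C x1001) x2459) x515) x1487) x839) x1055) x983) x1003) (Nat.mul (e (nat_lit 1001)) ap)) x20683) (Nat.mul (e (nat_lit 1001)) an))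
    (Nat.sub (Nat.sub (Nat.add (Nat.add (Nat.add (Nat.add (Nat.add (Nat.add (Nat.add (Nat.add (Nat.add (Nat.add (Nat.add C (Nat.mul x1003 (nat_lit 2))) x2461) x517) x1489) x841) x1057) x985) x1009) x1001) x1005) (Nat.mul (e (nat_lit 1003)) ap)) x20685) (Nat.mul (e (nat_lit 1003)) an))
    (Nat.add (Nat.add (Nat.add (Nat.add (Nat.add (Nat.add (Nat.add (Nat.add (Nat.add C x1005) x2463) x519) x1491) x843) x1059) x987) x1011) x1003)
    (Nat.sub (Nat.add (Nat.add (Nat.add (Nat.add (Nat.add (Nat.add (Nat.add (Nat.add (Nat.add (Nat.add C (Nat.mul x1009 (nat_lit 2))) x2467) x523) x1495) x847) x1063) x991) x1027) x1003) x1011) x20691)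
    (Nat.add (Nat.add (Nat.add (Nat.add (Nat.add (Nat.add (Nat.add (Nat.add (Nat.add (Nat.add (Nat.add C (Nat.mul x1011 (nat_lit 3))) x2469) x525) x1497) x849) x1065) x993) x1029) x1005) x1017) x1009)
    (Nat.add (Nat.add (Nat.add (Nat.add (Nat.add (Nat.add (Nat.add (Nat.add C (Nat.mul x1017 (nat_lit 3))) x2475) x531) x1503) x855) x1071) x1035) x1011)
    (Nat.sub (Nat.add (Nat.add (Nat.add (Nat.add (Nat.add (Nat.add (Nat.add (Nat.add C x1027) x2485) x541) x1513) x865) x1081) x1009) x1029) x20709)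
    (Nat.add (Nat.add (Nat.add (Nat.add (Nat.add (Nat.add (Nat.add (Nat.add (Nat.add C x1029) x2487) x543) x1515) x867) x1083) x1011) x1035) x1027)
    (Nat.add (Nat.add (Nat.add (Nat.add (Nat.add (Nat.add (Nat.add (Nat.add C (Nat.mul x1035 (nat_lit 3))) x2493) x549) x1521) x873) x1089) x1017) x1029)
    (Nat.sub (Nat.sub (Nat.add (Nat.add (Nat.add (Nat.add (Nat.add (Nat.add (Nat.add (Nat.add (Nat.add C (Nat.mul x1055 (nat_lit 2))) x2513) x569) x1541) x893) x1217) x1001) x1057) (Nat.mul (e (nat_lit 1055)) ap)) x20737) (Nat.mul (e (nat_lit 1055)) an))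
    (Nat.sub (Nat.add (Nat.add (Nat.add (Nat.add (Nat.add (Nat.add (Nat.add (Nat.add (Nat.add (Nat.add C (Nat.mul x1057 (nat_lit 3))) x2515) x571) x1543) x895) x1219) x1003) x1063) x1055) x1059) x20739)
    (Nat.add (Nat.add (Nat.add (Nat.add (Nat.add (Nat.add (Nat.add (Nat.add (Nat.add C (Nat.mul x1059 (nat_lit 2))) x2517) x573) x1545) x897) x1221) x1005) x1065) x1057)
    (Nat.sub (Nat.add (Nat.add (Nat.add (Nat.add (Nat.add (Nat.add (Nat.add (Nat.add (Nat.add (Nat.add C (Nat.mul x1063 (nat_lit 2))) x2521) x577) x1549) x901) x1225) x1009) x1081) x1057) x1065) x20745)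
    (Nat.add (Nat.add (Nat.add (Nat.add (Nat.add (Nat.add (Nat.add (Nat.add (Nat.add (Nat.add (Nat.add C (Nat.mul x1065 (nat_lit 3))) x2523) x579) x1551) x903) x1227) x1011) x1083) x1059) x1071) x1063)
    (Nat.add (Nat.add (Nat.add (Nat.add (Nat.add (Nat.add (Nat.add (Nat.add (Nat.add C (Nat.mul x1071 (nat_lit 2))) x2529) x585) x1557) x909) x1233) x1017) x1089) x1065)
    (Nat.sub (Nat.add (Nat.add (Nat.add (Nat.add (Nat.add (Nat.add (Nat.add (Nat.add (Nat.add (Nat.add C (Nat.mul x1081 (nat_lit 3))) x2539) x595) x1567) x919) x1243) x1027) x1135) x1063) x1083) x20763)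
    (Nat.add (Nat.add (Nat.add (Nat.add (Nat.add (Nat.add (Nat.add (Nat.add (Nat.add (Nat.add (Nat.add C (Nat.mul x1083 (nat_lit 3))) x2541) x597) x1569) x921) x1245) x1029) x1137) x1065) x1089) x1081)
    (Nat.add (Nat.add (Nat.add (Nat.add (Nat.add (Nat.add (Nat.add (Nat.add (Nat.add (Nat.add (Nat.add C (Nat.mul x1089 (nat_lit 4))) x2547) x603) x1575) x927) x1251) x1035) x1143) x1071) x1107) x1083)
    (Nat.add (Nat.add (Nat.add (Nat.add (Nat.add (Nat.add (Nat.add (Nat.add C (Nat.mul x1107 (nat_lit 4))) x2565) x621) x1593) x945) x1269) x1161) x1089)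
    (Nat.sub (Nat.add (Nat.add (Nat.add (Nat.add (Nat.add (Nat.add (Nat.add C (Nat.mul x1135 (nat_lit 3))) x2593) x649) x1621) x1297) x1081) x1137) x20817)
    (Nat.add (Nat.add (Nat.add (Nat.add (Nat.add (Nat.add (Nat.add (Nat.add C (Nat.mul x1137 (nat_lit 3))) x2595) x651) x1623) x1299) x1083) x1143) x1135)
    (Nat.add (Nat.add (Nat.add (Nat.add (Nat.add (Nat.add (Nat.add (Nat.add C (Nat.mul x1143 (nat_lit 3))) x2601) x657) x1629) x1305) x1089) x1161) x1137)
    (Nat.add (Nat.add (Nat.add (Nat.add (Nat.add (Nat.add (Nat.add C (Nat.mul x1161 (nat_lit 5))) x2619) x675) x1647) x1323) x1107) x1143)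
    (Nat.sub (Nat.add (Nat.add (Nat.add (Nat.add (Nat.add C (Nat.mul x1217 (nat_lit 2))) x2675) x1703) x1055) x1219) x20899)
    (Nat.sub (Nat.add (Nat.add (Nat.add (Nat.add (Nat.add (Nat.add (Nat.add C (Nat.mul x1219 (nat_lit 3))) x2677) x1705) x1057) x1225) x1217) x1221) x20901)
    (Nat.add (Nat.add (Nat.add (Nat.add (Nat.add (Nat.add C (Nat.mul x1221 (nat_lit 2))) x2679) x1707) x1059) x1227) x1219)
    (Nat.sub (Nat.add (Nat.add (Nat.add (Nat.add (Nat.add (Nat.add (Nat.add C (Nat.mul x1225 (nat_lit 2))) x2683) x1711) x1063) x1243) x1219) x1227) x20907)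
    (Nat.add (Nat.add (Nat.add (Nat.add (Nat.add (Nat.add (Nat.add (Nat.add C (Nat.mul x1227 (nat_lit 3))) x2685) x1713) x1065) x1245) x1221) x1233) x1225)
    (Nat.add (Nat.add (Nat.add (Nat.add (Nat.add (Nat.add C (Nat.mul x1233 (nat_lit 2))) x2691) x1719) x1071) x1251) x1227)
    (Nat.sub (Nat.add (Nat.add (Nat.add (Nat.add (Nat.add (Nat.add (Nat.add C (Nat.mul x1243 (nat_lit 2))) x2701) x1729) x1081) x1297) x1225) x1245) x20925)
    (Nat.add (Nat.add (Nat.add (Nat.add (Nat.add (Nat.add (Nat.add (Nat.add C (Nat.mul x1245 (nat_lit 2))) x2703) x1731) x1083) x1299) x1227) x1251) x1243)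
    (Nat.add (Nat.add (Nat.add (Nat.add (Nat.add (Nat.add (Nat.add (Nat.add C (Nat.mul x1251 (nat_lit 3))) x2709) x1737) x1089) x1305) x1233) x1269) x1245)
    (Nat.add (Nat.add (Nat.add (Nat.add (Nat.add (Nat.add C (Nat.mul x1269 (nat_lit 2))) x2727) x1755) x1107) x1323) x1251)
    (Nat.sub (Nat.add (Nat.add (Nat.add (Nat.add (Nat.add (Nat.add C (Nat.mul x1297 (nat_lit 4))) x2755) x1783) x1135) x1243) x1299) x20979)
    (Nat.add (Nat.add (Nat.add (Nat.add (Nat.add (Nat.add (Nat.add C (Nat.mul x1299 (nat_lit 4))) x2757) x1785) x1137) x1245) x1305) x1297)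
    (Nat.add (Nat.add (Nat.add (Nat.add (Nat.add (Nat.add (Nat.add C (Nat.mul x1305 (nat_lit 4))) x2763) x1791) x1143) x1251) x1323) x1299)
    (Nat.add (Nat.add (Nat.add (Nat.add (Nat.add (Nat.add (Nat.add C (Nat.mul x1323 (nat_lit 5))) x2781) x1809) x1161) x1269) x1377) x1305)
    (Nat.add (Nat.add (Nat.add (Nat.add C (Nat.mul x1377 (nat_lit 6))) x2835) x1863) x1323)
    (Nat.sub (Nat.add (Nat.add (Nat.add (Nat.add (Nat.add C (Nat.mul x1463 (nat_lit 2))) x2921) x977) x1469) x1465) x21145)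
    (Nat.sub (Nat.add (Nat.add (Nat.add (Nat.add (Nat.add C (Nat.mul x1465 (nat_lit 2))) x2923) x979) x1471) x1463) x21147)
    (Nat.sub (Nat.add (Nat.add (Nat.add (Nat.add (Nat.add C x2927) x983) x1487) x1463) x1471) x21151)
    (Nat.sub (Nat.add (Nat.add (Nat.add (Nat.add (Nat.add (Nat.add (Nat.add (Nat.add C (Nat.mul x1471 (nat_lit 2))) x2929) x985) x1489) x1465) x1477) x1469) x1473) x21153)
    (Nat.add (Nat.add (Nat.add (Nat.add (Nat.add (Nat.add C (Nat.mul x1473 (nat_lit 2))) x2931) x987) x1491) x1479) x1471)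
    (Nat.sub (Nat.add (Nat.add (Nat.add (Nat.add (Nat.add C x2935) x991) x1495) x1471) x1479) x21159)
    (Nat.add (Nat.add (Nat.add (Nat.add (Nat.add (Nat.add C (Nat.mul x1479 (nat_lit 2))) x2937) x993) x1497) x1473) x1477)
    (Nat.sub (Nat.sub (Nat.add (Nat.add (Nat.add (Nat.add (Nat.add (Nat.add C x2945) x1001) x1541) x1469) x1489) (Nat.mul (e (nat_lit 1487)) ap)) x21169) (Nat.mul (e (nat_lit 1487)) an))
    (Nat.sub (Nat.add (Nat.add (Nat.add (Nat.add (Nat.add (Nat.add (Nat.add (Nat.add C x1489) x2947) x1003) x1543) x1471) x1495) x1487) x1491) x21171)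
    (Nat.add (Nat.add (Nat.add (Nat.add (Nat.add (Nat.add C x2949) x1005) x1545) x1473) x1497) x1489)
    (Nat.sub (Nat.add (Nat.add (Nat.add (Nat.add (Nat.add (Nat.add (Nat.add (Nat.add C x1495) x2953) x1009) x1549) x1477) x1513) x1489) x1497) x21177)
    (Nat.add (Nat.add (Nat.add (Nat.add (Nat.add (Nat.add (Nat.add (Nat.add (Nat.add C (Nat.mul x1497 (nat_lit 2))) x2955) x1011) x1551) x1479) x1515) x1491) x1503) x1495)
    (Nat.add (Nat.add (Nat.add (Nat.add (Nat.add (Nat.add C (Nat.mul x1503 (nat_lit 2))) x2961) x1017) x1557) x1521) x1497)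
    (Nat.sub (Nat.add (Nat.add (Nat.add (Nat.add (Nat.add C x2971) x1027) x1567) x1495) x1515) x21195)
    (Nat.add (Nat.add (Nat.add (Nat.add (Nat.add (Nat.add C x2973) x1029) x1569) x1497) x1521) x1513)
    (Nat.add (Nat.add (Nat.add (Nat.add (Nat.add (Nat.add C (Nat.mul x1521 (nat_lit 2))) x2979) x1035) x1575) x1503) x1515)
    (Nat.sub (Nat.add (Nat.add (Nat.add (Nat.add (Nat.add C x2999) x1055) x1703) x1487) x1543) x21223)
    (Nat.sub (Nat.add (Nat.add (Nat.add (Nat.add (Nat.add (Nat.add (Nat.add (Nat.add C x1543) x3001) x1057) x1705) x1489) x1549) x1541) x1545) x21225)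
    (Nat.add (Nat.add (Nat.add (Nat.add (Nat.add (Nat.add C x3003) x1059) x1707) x1491) x1551) x1543)
    (Nat.sub (Nat.add (Nat.add (Nat.add (Nat.add (Nat.add (Nat.add (Nat.add C x3007) x1063) x1711) x1495) x1567) x1543) x1551) x21231)
    (Nat.add (Nat.add (Nat.add (Nat.add (Nat.add (Nat.add (Nat.add (Nat.add (Nat.add C x1551) x3009) x1065) x1713) x1497) x1569) x1545) x1557) x1549)
    (Nat.add (Nat.add (Nat.add (Nat.add (Nat.add (Nat.add C x3015) x1071) x1719) x1503) x1575) x1551)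
    (Nat.sub (Nat.add (Nat.add (Nat.add (Nat.add (Nat.add (Nat.add (Nat.add (Nat.add C x1567) x3025) x1081) x1729) x1513) x1621) x1549) x1569) x21249)
    (Nat.add (Nat.add (Nat.add (Nat.add (Nat.add (Nat.add (Nat.add (Nat.add (Nat.add C x1569) x3027) x1083) x1731) x1515) x1623) x1551) x1575) x1567)
    (Nat.add (Nat.add (Nat.add (Nat.add (Nat.add (Nat.add (Nat.add (Nat.add (Nat.add C (Nat.mul x1575 (nat_lit 2))) x3033) x1089) x1737) x1521) x1629) x1557) x1593) x1569)
    (Nat.add (Nat.add (Nat.add (Nat.add (Nat.add (Nat.add C (Nat.mul x1593 (nat_lit 2))) x3051) x1107) x1755) x1647) x1575)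
    (Nat.sub (Nat.add (Nat.add (Nat.add (Nat.add (Nat.add C x3079) x1135) x1783) x1567) x1623) x21303)
    (Nat.add (Nat.add (Nat.add (Nat.add (Nat.add (Nat.add C x3081) x1137) x1785) x1569) x1629) x1621)
    (Nat.add (Nat.add (Nat.add (Nat.add (Nat.add (Nat.add C x3087) x1143) x1791) x1575) x1647) x1623)
    (Nat.add (Nat.add (Nat.add (Nat.add (Nat.add (Nat.add C (Nat.mul x1647 (nat_lit 2))) x3105) x1161) x1809) x1593) x1629)
    (Nat.sub (Nat.add (Nat.add (Nat.add (Nat.add (Nat.add C (Nat.mul x1703 (nat_lit 2))) x3161) x1217) x1541) x1705) x21385)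
    (Nat.sub (Nat.add (Nat.add (Nat.add (Nat.add (Nat.add (Nat.add (Nat.add C (Nat.mul x1705 (nat_lit 3))) x3163) x1219) x1543) x1711) x1703) x1707) x21387)
    (Nat.add (Nat.add (Nat.add (Nat.add (Nat.add (Nat.add C (Nat.mul x1707 (nat_lit 2))) x3165) x1221) x1545) x1713) x1705)
    (Nat.sub (Nat.add (Nat.add (Nat.add (Nat.add (Nat.add (Nat.add (Nat.add C (Nat.mul x1711 (nat_lit 2))) x3169) x1225) x1549) x1729) x1705) x1713) x21393)
    (Nat.add (Nat.add (Nat.add (Nat.add (Nat.add (Nat.add (Nat.add (Nat.add C (Nat.mul x1713 (nat_lit 3))) x3171) x1227) x1551) x1731) x1707) x1719) x1711)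
    (Nat.add (Nat.add (Nat.add (Nat.add (Nat.add (Nat.add C (Nat.mul x1719 (nat_lit 2))) x3177) x1233) x1557) x1737) x1713)
    (Nat.sub (Nat.add (Nat.add (Nat.add (Nat.add (Nat.add (Nat.add (Nat.add C (Nat.mul x1729 (nat_lit 2))) x3187) x1243) x1567) x1783) x1711) x1731) x21411)
    (Nat.add (Nat.add (Nat.add (Nat.add (Nat.add (Nat.add (Nat.add (Nat.add C (Nat.mul x1731 (nat_lit 2))) x3189) x1245) x1569) x1785) x1713) x1737) x1729)
    (Nat.add (Nat.add (Nat.add (Nat.add (Nat.add (Nat.add (Nat.add (Nat.add C (Nat.mul x1737 (nat_lit 3))) x3195) x1251) x1575) x1791) x1719) x1755) x1731)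
    (Nat.add (Nat.add (Nat.add (Nat.add (Nat.add (Nat.add C (Nat.mul x1755 (nat_lit 2))) x3213) x1269) x1593) x1809) x1737)
    (Nat.sub (Nat.add (Nat.add (Nat.add (Nat.add (Nat.add (Nat.add (Nat.add C (Nat.mul x1783 (nat_lit 3))) x3241) x1297) x1621) x1945) x1729) x1785) x21465)
    (Nat.add (Nat.add (Nat.add (Nat.add (Nat.add (Nat.add (Nat.add (Nat.add C (Nat.mul x1785 (nat_lit 3))) x3243) x1299) x1623) x1947) x1731) x1791) x1783)
    (Nat.add (Nat.add (Nat.add (Nat.add (Nat.add (Nat.add (Nat.add (Nat.add C (Nat.mul x1791 (nat_lit 3))) x3249) x1305) x1629) x1953) x1737) x1809) x1785)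
    (Nat.add (Nat.add (Nat.add (Nat.add (Nat.add (Nat.add (Nat.add (Nat.add C (Nat.mul x1809 (nat_lit 4))) x3267) x1323) x1647) x1971) x1755) x1863) x1791)
    (Nat.add (Nat.add (Nat.add (Nat.add (Nat.add C (Nat.mul x1863 (nat_lit 4))) x3321) x1377) x2025) x1809)
    (Nat.sub (Nat.add (Nat.add (Nat.add (Nat.add C (Nat.mul x1945 (nat_lit 4))) x3403) x1783) x1947) x21627)
    (Nat.add (Nat.add (Nat.add (Nat.add (Nat.add C (Nat.mul x1947 (nat_lit 4))) x3405) x1785) x1953) x1945)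
    (Nat.add (Nat.add (Nat.add (Nat.add (Nat.add C (Nat.mul x1953 (nat_lit 4))) x3411) x1791) x1971) x1947)
    (Nat.add (Nat.add (Nat.add (Nat.add (Nat.add C (Nat.mul x1971 (nat_lit 4))) x3429) x1809) x2025) x1953)
    (Nat.add (Nat.add (Nat.add (Nat.add C (Nat.mul x2025 (nat_lit 6))) x3483) x1863) x1971)
    (Nat.sub (Nat.add (Nat.add (Nat.add (Nat.add C (Nat.mul x2195 (nat_lit 4))) x6569) x737) x2201) x21877)
    (Nat.sub (Nat.add (Nat.add (Nat.add (Nat.add (Nat.add (Nat.add (Nat.add C (Nat.mul x2201 (nat_lit 3))) x6575) x743) x2219) x2195) x2207) x2203) x21883)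
    (Nat.sub (Nat.add (Nat.add (Nat.add (Nat.add (Nat.add (Nat.add C (Nat.mul x2203 (nat_lit 4))) x6577) x745) x2221) x2209) x2201) x21885)
    (Nat.sub (Nat.add (Nat.add (Nat.add (Nat.add (Nat.add C x6581) x749) x2225) x2201) x2209) x21889)
    (Nat.sub (Nat.add (Nat.add (Nat.add (Nat.add (Nat.add (Nat.add (Nat.add C (Nat.mul x2209 (nat_lit 3))) x6583) x751) x2227) x2203) x2207) x2211) x21891)
    (Nat.add (Nat.add (Nat.add (Nat.add (Nat.add C (Nat.mul x2211 (nat_lit 4))) x6585) x753) x2229) x2209)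
    (Nat.sub (Nat.add (Nat.add (Nat.add (Nat.add (Nat.add (Nat.add (Nat.add C (Nat.mul x2219 (nat_lit 2))) x6593) x761) x2273) x2201) x2225) x2221) x21901)
    (Nat.sub (Nat.add (Nat.add (Nat.add (Nat.add (Nat.add (Nat.add (Nat.add C (Nat.mul x2221 (nat_lit 2))) x6595) x763) x2275) x2203) x2227) x2219) x21903)
    (Nat.sub (Nat.add (Nat.add (Nat.add (Nat.add (Nat.add (Nat.add (Nat.add (Nat.add C x2225) x6599) x767) x2279) x2207) x2243) x2219) x2227) x21907)
    (Nat.sub (Nat.add (Nat.add (Nat.add (Nat.add (Nat.add (Nat.add (Nat.add (Nat.add (Nat.add (Nat.add C (Nat.mul x2227 (nat_lit 3))) x6601) x769) x2281) x2209) x2245) x2221) x2233) x2225) x2229) x21909)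
    (Nat.add (Nat.add (Nat.add (Nat.add (Nat.add (Nat.add (Nat.add (Nat.add C (Nat.mul x2229 (nat_lit 3))) x6603) x771) x2283) x2211) x2247) x2235) x2227)
    (Nat.sub (Nat.add (Nat.add (Nat.add (Nat.add (Nat.add (Nat.add (Nat.add C (Nat.mul x2233 (nat_lit 2))) x6607) x775) x2287) x2251) x2227) x2235) x21915)
    (Nat.add (Nat.add (Nat.add (Nat.add (Nat.add (Nat.add (Nat.add C (Nat.mul x2235 (nat_lit 4))) x6609) x777) x2289) x2253) x2229) x2233)
    (Nat.sub (Nat.add (Nat.add (Nat.add (Nat.add (Nat.add C x6617) x785) x2297) x2225) x2245) x21925)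
    (Nat.sub (Nat.add (Nat.add (Nat.add (Nat.add (Nat.add (Nat.add (Nat.add (Nat.add C x2245) x6619) x787) x2299) x2227) x2251) x2243) x2247) x21927)
    (Nat.add (Nat.add (Nat.add (Nat.add (Nat.add (Nat.add C x6621) x789) x2301) x2229) x2253) x2245)
    (Nat.sub (Nat.add (Nat.add (Nat.add (Nat.add (Nat.add (Nat.add (Nat.add C (Nat.mul x2251 (nat_lit 2))) x6625) x793) x2305) x2233) x2245) x2253) x21933)
    (Nat.add (Nat.add (Nat.add (Nat.add (Nat.add (Nat.add (Nat.add (Nat.add C (Nat.mul x2253 (nat_lit 3))) x6627) x795) x2307) x2235) x2247) x2259) x2251)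
    (Nat.add (Nat.add (Nat.add (Nat.add (Nat.add C (Nat.mul x2259 (nat_lit 4))) x6633) x801) x2313) x2253)
    (Nat.sub (Nat.sub (Nat.add (Nat.add (Nat.add (Nat.add (Nat.add (Nat.add (Nat.add (Nat.add C (Nat.mul x2273 (nat_lit 2))) x6647) x815) x2435) x2219) x2279) x2275) (Nat.mul (e (nat_lit 2273)) ap)) x21955) (Nat.mul (e (nat_lit 2273)) an))
    (Nat.sub (Nat.add (Nat.add (Nat.add (Nat.add (Nat.add (Nat.add (Nat.add C (Nat.mul x2275 (nat_lit 2))) x6649) x817) x2437) x2221) x2281) x2273) x21957)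
    (Nat.sub (Nat.sub (Nat.add (Nat.add (Nat.add (Nat.add (Nat.add (Nat.add (Nat.add (Nat.add C x6653) x821) x2441) x2225) x2297) x2273) x2281) (Nat.mul (e (nat_lit 2279)) ap)) x21961) (Nat.mul (e (nat_lit 2279)) an))
    (Nat.sub (Nat.sub (Nat.add (Nat.add (Nat.add (Nat.add (Nat.add (Nat.add (Nat.add (Nat.add (Nat.add (Nat.add (Nat.add C (Nat.mul x2281 (nat_lit 2))) x6655) x823) x2443) x2227) x2299) x2275) x2287) x2279) x2283) (Nat.mul (e (nat_lit 2281)) ap)) x21963) (Nat.mul (e (nat_lit 2281)) an))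
    (Nat.add (Nat.add (Nat.add (Nat.add (Nat.add (Nat.add (Nat.add (Nat.add C (Nat.mul x2283 (nat_lit 2))) x6657) x825) x2445) x2229) x2301) x2289) x2281)
    (Nat.sub (Nat.sub (Nat.add (Nat.add (Nat.add (Nat.add (Nat.add (Nat.add (Nat.add (Nat.add C x6661) x829) x2449) x2233) x2305) x2281) x2289) (Nat.mul (e (nat_lit 2287)) ap)) x21969) (Nat.mul (e (nat_lit 2287)) an))
    (Nat.add (Nat.add (Nat.add (Nat.add (Nat.add (Nat.add (Nat.add (Nat.add C (Nat.mul x2289 (nat_lit 2))) x6663) x831) x2451) x2235) x2307) x2283) x2287)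
    (Nat.sub (Nat.sub (Nat.add (Nat.add (Nat.add (Nat.add (Nat.add (Nat.add (Nat.add (Nat.add (Nat.add C x2297) x6671) x839) x2459) x2243) x2351) x2279) x2299) (Nat.mul (e (nat_lit 2297)) ap)) x21979) (Nat.mul (e (nat_lit 2297)) an))
    (Nat.sub (Nat.sub (Nat.add (Nat.add (Nat.add (Nat.add (Nat.add (Nat.add (Nat.add (Nat.add (Nat.add (Nat.add (Nat.add C (Nat.mul x2299 (nat_lit 2))) x6673) x841) x2461) x2245) x2353) x2281) x2305) x2297) x2301) (Nat.mul (e (nat_lit 2299)) ap)) x21981) (Nat.mul (e (nat_lit 2299)) an))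
    (Nat.add (Nat.add (Nat.add (Nat.add (Nat.add (Nat.add (Nat.add (Nat.add (Nat.add C x2301) x6675) x843) x2463) x2247) x2355) x2283) x2307) x2299)
    (Nat.sub (Nat.add (Nat.add (Nat.add (Nat.add (Nat.add (Nat.add (Nat.add (Nat.add (Nat.add (Nat.add C (Nat.mul x2305 (nat_lit 2))) x6679) x847) x2467) x2251) x2359) x2287) x2323) x2299) x2307) x21987)
    (Nat.add (Nat.add (Nat.add (Nat.add (Nat.add (Nat.add (Nat.add (Nat.add (Nat.add (Nat.add (Nat.add C (Nat.mul x2307 (nat_lit 3))) x6681) x849) x2469) x2253) x2361) x2289) x2325) x2301) x2313) x2305)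
    (Nat.add (Nat.add (Nat.add (Nat.add (Nat.add (Nat.add (Nat.add (Nat.add C (Nat.mul x2313 (nat_lit 3))) x6687) x855) x2475) x2259) x2367) x2331) x2307)
    (Nat.sub (Nat.add (Nat.add (Nat.add (Nat.add (Nat.add (Nat.add (Nat.add C (Nat.mul x2323 (nat_lit 2))) x6697) x865) x2485) x2377) x2305) x2325) x22005)
    (Nat.add (Nat.add (Nat.add (Nat.add (Nat.add (Nat.add (Nat.add (Nat.add C (Nat.mul x2325 (nat_lit 2))) x6699) x867) x2487) x2379) x2307) x2331) x2323)
    (Nat.add (Nat.add (Nat.add (Nat.add (Nat.add (Nat.add (Nat.add C (Nat.mul x2331 (nat_lit 4))) x6705) x873) x2493) x2385) x2313) x2325)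
    (Nat.sub (Nat.add (Nat.add (Nat.add (Nat.add (Nat.add C x6725) x893) x2513) x2297) x2353) x22033)
    (Nat.sub (Nat.add (Nat.add (Nat.add (Nat.add (Nat.add (Nat.add (Nat.add (Nat.add C x2353) x6727) x895) x2515) x2299) x2359) x2351) x2355) x22035)
    (Nat.add (Nat.add (Nat.add (Nat.add (Nat.add (Nat.add C x6729) x897) x2517) x2301) x2361) x2353)
    (Nat.sub (Nat.add (Nat.add (Nat.add (Nat.add (Nat.add (Nat.add (Nat.add C x6733) x901) x2521) x2305) x2377) x2353) x2361) x22041)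
    (Nat.add (Nat.add (Nat.add (Nat.add (Nat.add (Nat.add (Nat.add (Nat.add (Nat.add C x2361) x6735) x903) x2523) x2307) x2379) x2355) x2367) x2359)
    (Nat.add (Nat.add (Nat.add (Nat.add (Nat.add (Nat.add C x6741) x909) x2529) x2313) x2385) x2361)
    (Nat.sub (Nat.add (Nat.add (Nat.add (Nat.add (Nat.add (Nat.add (Nat.add C (Nat.mul x2377 (nat_lit 2))) x6751) x919) x2539) x2323) x2359) x2379) x22059)
    (Nat.add (Nat.add (Nat.add (Nat.add (Nat.add (Nat.add (Nat.add (Nat.add C (Nat.mul x2379 (nat_lit 2))) x6753) x921) x2541) x2325) x2361) x2385) x2377)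
    (Nat.add (Nat.add (Nat.add (Nat.add (Nat.add (Nat.add (Nat.add (Nat.add C (Nat.mul x2385 (nat_lit 3))) x6759) x927) x2547) x2331) x2367) x2403) x2379)
    (Nat.add (Nat.add (Nat.add (Nat.add (Nat.add C (Nat.mul x2403 (nat_lit 4))) x6777) x945) x2565) x2385)
    (Nat.sub (Nat.add (Nat.add (Nat.add (Nat.add (Nat.add (Nat.add (Nat.add C (Nat.mul x2435 (nat_lit 2))) x6809) x977) x2921) x2273) x2441) x2437) x22117)
    (Nat.sub (Nat.add (Nat.add (Nat.add (Nat.add (Nat.add (Nat.add (Nat.add C (Nat.mul x2437 (nat_lit 2))) x6811) x979) x2923) x2275) x2443) x2435) x22119)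
    (Nat.sub (Nat.sub (Nat.add (Nat.add (Nat.add (Nat.add (Nat.add (Nat.add (Nat.add (Nat.add C x6815) x983) x2927) x2279) x2459) x2435) x2443) (Nat.mul (e (nat_lit 2441)) ap)) x22123) (Nat.mul (e (nat_lit 2441)) an))
    (Nat.sub (Nat.sub (Nat.add (Nat.add (Nat.add (Nat.add (Nat.add (Nat.add (Nat.add (Nat.add (Nat.add (Nat.add (Nat.add C (Nat.mul x2443 (nat_lit 2))) x6817) x985) x2929) x2281) x2461) x2437) x2449) x2441) x2445) (Nat.mul (e (nat_lit 2443)) ap)) x22125) (Nat.mul (e (nat_lit 2443)) an))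
    (Nat.add (Nat.add (Nat.add (Nat.add (Nat.add (Nat.add (Nat.add (Nat.add C (Nat.mul x2445 (nat_lit 2))) x6819) x987) x2931) x2283) x2463) x2451) x2443)
    (Nat.sub (Nat.add (Nat.add (Nat.add (Nat.add (Nat.add (Nat.add (Nat.add C x6823) x991) x2935) x2287) x2467) x2443) x2451) x22131)
    (Nat.add (Nat.add (Nat.add (Nat.add (Nat.add (Nat.add (Nat.add (Nat.add C (Nat.mul x2451 (nat_lit 2))) x6825) x993) x2937) x2289) x2469) x2445) x2449)
    (Nat.sub (Nat.sub (Nat.add (Nat.add (Nat.add (Nat.add (Nat.add (Nat.add (Nat.add (Nat.add C x6833) x1001) x2945) x2297) x2513) x2441) x2461) (Nat.mul (e (nat_lit 2459)) ap)) x22141) (Nat.mul (e (nat_lit 2459)) an))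
    (Nat.sub (Nat.sub (Nat.add (Nat.add (Nat.add (Nat.add (Nat.add (Nat.add (Nat.add (Nat.add (Nat.add (Nat.add (Nat.add C x2461) x6835) x1003) x2947) x2299) x2515) x2443) x2467) x2459) x2463) (Nat.mul (e (nat_lit 2461)) ap)) x22143) (Nat.mul (e (nat_lit 2461)) an))
    (Nat.add (Nat.add (Nat.add (Nat.add (Nat.add (Nat.add (Nat.add (Nat.add C x6837) x1005) x2949) x2301) x2517) x2445) x2469) x2461)
    (Nat.sub (Nat.sub (Nat.add (Nat.add (Nat.add (Nat.add (Nat.add (Nat.add (Nat.add (Nat.add (Nat.add (Nat.add (Nat.add C x2467) x6841) x1009) x2953) x2305) x2521) x2449) x2485) x2461) x2469) (Nat.mul (e (nat_lit 2467)) ap)) x22149) (Nat.mul (e (nat_lit 2467)) an))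
    (Nat.add (Nat.add (Nat.add (Nat.add (Nat.add (Nat.add (Nat.add (Nat.add (Nat.add (Nat.add (Nat.add C (Nat.mul x2469 (nat_lit 2))) x6843) x1011) x2955) x2307) x2523) x2451) x2487) x2463) x2475) x2467)
    (Nat.add (Nat.add (Nat.add (Nat.add (Nat.add (Nat.add (Nat.add (Nat.add C (Nat.mul x2475 (nat_lit 2))) x6849) x1017) x2961) x2313) x2529) x2493) x2469)
    (Nat.sub (Nat.add (Nat.add (Nat.add (Nat.add (Nat.add (Nat.add (Nat.add C x6859) x1027) x2971) x2323) x2539) x2467) x2487) x22167)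
    (Nat.add (Nat.add (Nat.add (Nat.add (Nat.add (Nat.add (Nat.add (Nat.add C x6861) x1029) x2973) x2325) x2541) x2469) x2493) x2485)
    (Nat.add (Nat.add (Nat.add (Nat.add (Nat.add (Nat.add (Nat.add (Nat.add C (Nat.mul x2493 (nat_lit 2))) x6867) x1035) x2979) x2331) x2547) x2475) x2487)
    (Nat.sub (Nat.add (Nat.add (Nat.add (Nat.add (Nat.add (Nat.add (Nat.add (Nat.add C x2513) x6887) x1055) x2999) x2351) x2675) x2459) x2515) x22195)
    (Nat.sub (Nat.sub (Nat.add (Nat.add (Nat.add (Nat.add (Nat.add (Nat.add (Nat.add (Nat.add (Nat.add (Nat.add (Nat.add C (Nat.mul x2515 (nat_lit 2))) x6889) x1057) x3001) x2353) x2677) x2461) x2521) x2513) x2517) (Nat.mul (e (nat_lit 2515)) ap)) x22197) (Nat.mul (e (nat_lit 2515)) an))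
    (Nat.add (Nat.add (Nat.add (Nat.add (Nat.add (Nat.add (Nat.add (Nat.add (Nat.add C x2517) x6891) x1059) x3003) x2355) x2679) x2463) x2523) x2515)
    (Nat.sub (Nat.add (Nat.add (Nat.add (Nat.add (Nat.add (Nat.add (Nat.add (Nat.add (Nat.add (Nat.add C x2521) x6895) x1063) x3007) x2359) x2683) x2467) x2539) x2515) x2523) x22203)
    (Nat.add (Nat.add (Nat.add (Nat.add (Nat.add (Nat.add (Nat.add (Nat.add (Nat.add (Nat.add (Nat.add C (Nat.mul x2523 (nat_lit 2))) x6897) x1065) x3009) x2361) x2685) x2469) x2541) x2517) x2529) x2521)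
    (Nat.add (Nat.add (Nat.add (Nat.add (Nat.add (Nat.add (Nat.add (Nat.add (Nat.add C x2529) x6903) x1071) x3015) x2367) x2691) x2475) x2547) x2523)
    (Nat.sub (Nat.add (Nat.add (Nat.add (Nat.add (Nat.add (Nat.add (Nat.add (Nat.add (Nat.add (Nat.add C (Nat.mul x2539 (nat_lit 2))) x6913) x1081) x3025) x2377) x2701) x2485) x2593) x2521) x2541) x22221)
    (Nat.add (Nat.add (Nat.add (Nat.add (Nat.add (Nat.add (Nat.add (Nat.add (Nat.add (Nat.add (Nat.add C (Nat.mul x2541 (nat_lit 2))) x6915) x1083) x3027) x2379) x2703) x2487) x2595) x2523) x2547) x2539)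
    (Nat.add (Nat.add (Nat.add (Nat.add (Nat.add (Nat.add (Nat.add (Nat.add (Nat.add (Nat.add (Nat.add C (Nat.mul x2547 (nat_lit 3))) x6921) x1089) x3033) x2385) x2709) x2493) x2601) x2529) x2565) x2541)
    (Nat.add (Nat.add (Nat.add (Nat.add (Nat.add (Nat.add (Nat.add (Nat.add C (Nat.mul x2565 (nat_lit 3))) x6939) x1107) x3051) x2403) x2727) x2619) x2547)
    (Nat.sub (Nat.add (Nat.add (Nat.add (Nat.add (Nat.add (Nat.add (Nat.add C (Nat.mul x2593 (nat_lit 2))) x6967) x1135) x3079) x2755) x2539) x2595) x22275)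
    (Nat.add (Nat.add (Nat.add (Nat.add (Nat.add (Nat.add (Nat.add (Nat.add C (Nat.mul x2595 (nat_lit 2))) x6969) x1137) x3081) x2757) x2541) x2601) x2593)
    (Nat.add (Nat.add (Nat.add (Nat.add (Nat.add (Nat.add (Nat.add (Nat.add C (Nat.mul x2601 (nat_lit 2))) x6975) x1143) x3087) x2763) x2547) x2619) x2595)
    (Nat.add (Nat.add (Nat.add (Nat.add (Nat.add (Nat.add (Nat.add C (Nat.mul x2619 (nat_lit 4))) x6993) x1161) x3105) x2781) x2565) x2601)
    (Nat.sub (Nat.add (Nat.add (Nat.add (Nat.add (Nat.add C x7049) x1217) x3161) x2513) x2677) x22357)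
    (Nat.sub (Nat.add (Nat.add (Nat.add (Nat.add (Nat.add (Nat.add (Nat.add (Nat.add C x2677) x7051) x1219) x3163) x2515) x2683) x2675) x2679) x22359)
    (Nat.add (Nat.add (Nat.add (Nat.add (Nat.add (Nat.add C x7053) x1221) x3165) x2517) x2685) x2677)
    (Nat.sub (Nat.add (Nat.add (Nat.add (Nat.add (Nat.add (Nat.add (Nat.add C x7057) x1225) x3169) x2521) x2701) x2677) x2685) x22365)
    (Nat.add (Nat.add (Nat.add (Nat.add (Nat.add (Nat.add (Nat.add (Nat.add (Nat.add C x2685) x7059) x1227) x3171) x2523) x2703) x2679) x2691) x2683)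
    (Nat.add (Nat.add (Nat.add (Nat.add (Nat.add (Nat.add C x7065) x1233) x3177) x2529) x2709) x2685)
    (Nat.sub (Nat.add (Nat.add (Nat.add (Nat.add (Nat.add (Nat.add (Nat.add C x7075) x1243) x3187) x2539) x2755) x2683) x2703) x22383)
    (Nat.add (Nat.add (Nat.add (Nat.add (Nat.add (Nat.add (Nat.add (Nat.add C x7077) x1245) x3189) x2541) x2757) x2685) x2709) x2701)
    (Nat.add (Nat.add (Nat.add (Nat.add (Nat.add (Nat.add (Nat.add (Nat.add (Nat.add C x2709) x7083) x1251) x3195) x2547) x2763) x2691) x2727) x2703)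
    (Nat.add (Nat.add (Nat.add (Nat.add (Nat.add (Nat.add C x7101) x1269) x3213) x2565) x2781) x2709)
    (Nat.sub (Nat.add (Nat.add (Nat.add (Nat.add (Nat.add (Nat.add (Nat.add C (Nat.mul x2755 (nat_lit 2))) x7129) x1297) x3241) x2593) x2701) x2757) x22437)
    (Nat.add (Nat.add (Nat.add (Nat.add (Nat.add (Nat.add (Nat.add (Nat.add C (Nat.mul x2757 (nat_lit 2))) x7131) x1299) x3243) x2595) x2703) x2763) x2755)
    (Nat.add (Nat.add (Nat.add (Nat.add (Nat.add (Nat.add (Nat.add (Nat.add C (Nat.mul x2763 (nat_lit 2))) x7137) x1305) x3249) x2601) x2709) x2781) x2757)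
    (Nat.add (Nat.add (Nat.add (Nat.add (Nat.add (Nat.add (Nat.add (Nat.add C (Nat.mul x2781 (nat_lit 3))) x7155) x1323) x3267) x2619) x2727) x2835) x2763)
    (Nat.add (Nat.add (Nat.add (Nat.add (Nat.add C (Nat.mul x2835 (nat_lit 4))) x7209) x1377) x3321) x2781)
    (Nat.sub (Nat.add (Nat.add (Nat.add (Nat.add (Nat.add (Nat.add (Nat.add C (Nat.mul x2921 (nat_lit 3))) x7295) x1463) x4379) x2435) x2927) x2923) x22603)
    (Nat.sub (Nat.add (Nat.add (Nat.add (Nat.add (Nat.add (Nat.add (Nat.add C (Nat.mul x2923 (nat_lit 3))) x7297) x1465) x4381) x2437) x2929) x2921) x22605)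
    (Nat.sub (Nat.add (Nat.add (Nat.add (Nat.add (Nat.add (Nat.add (Nat.add (Nat.add C x2927) x7301) x1469) x4385) x2441) x2945) x2921) x2929) x22609)
    (Nat.sub (Nat.add (Nat.add (Nat.add (Nat.add (Nat.add (Nat.add (Nat.add (Nat.add (Nat.add (Nat.add C (Nat.mul x2929 (nat_lit 3))) x7303) x1471) x4387) x2443) x2947) x2923) x2935) x2927) x2931) x22611)
    (Nat.add (Nat.add (Nat.add (Nat.add (Nat.add (Nat.add (Nat.add (Nat.add C (Nat.mul x2931 (nat_lit 3))) x7305) x1473) x4389) x2445) x2949) x2937) x2929)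
    (Nat.sub (Nat.add (Nat.add (Nat.add (Nat.add (Nat.add (Nat.add (Nat.add (Nat.add C x2935) x7309) x1477) x4393) x2449) x2953) x2929) x2937) x22617)
    (Nat.add (Nat.add (Nat.add (Nat.add (Nat.add (Nat.add (Nat.add (Nat.add C (Nat.mul x2937 (nat_lit 3))) x7311) x1479) x4395) x2451) x2955) x2931) x2935)
    (Nat.sub (Nat.add (Nat.add (Nat.add (Nat.add (Nat.add (Nat.add (Nat.add (Nat.add C x2945) x7319) x1487) x4403) x2459) x2999) x2927) x2947) x22627)
    (Nat.sub (Nat.add (Nat.add (Nat.add (Nat.add (Nat.add (Nat.add (Nat.add (Nat.add (Nat.add (Nat.add C (Nat.mul x2947 (nat_lit 2))) x7321) x1489) x4405) x2461) x3001) x2929) x2953) x2945) x2949) x22629)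
    (Nat.add (Nat.add (Nat.add (Nat.add (Nat.add (Nat.add (Nat.add (Nat.add (Nat.add C x2949) x7323) x1491) x4407) x2463) x3003) x2931) x2955) x2947)
    (Nat.sub (Nat.add (Nat.add (Nat.add (Nat.add (Nat.add (Nat.add (Nat.add (Nat.add (Nat.add (Nat.add C (Nat.mul x2953 (nat_lit 2))) x7327) x1495) x4411) x2467) x3007) x2935) x2971) x2947) x2955) x22635)
    (Nat.add (Nat.add (Nat.add (Nat.add (Nat.add (Nat.add (Nat.add (Nat.add (Nat.add (Nat.add (Nat.add C (Nat.mul x2955 (nat_lit 3))) x7329) x1497) x4413) x2469) x3009) x2937) x2973) x2949) x2961) x2953)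
    (Nat.add (Nat.add (Nat.add (Nat.add (Nat.add (Nat.add (Nat.add (Nat.add C (Nat.mul x2961 (nat_lit 3))) x7335) x1503) x4419) x2475) x3015) x2979) x2955)
    (Nat.sub (Nat.add (Nat.add (Nat.add (Nat.add (Nat.add (Nat.add (Nat.add (Nat.add C x2971) x7345) x1513) x4429) x2485) x3025) x2953) x2973) x22653)
    (Nat.add (Nat.add (Nat.add (Nat.add (Nat.add (Nat.add (Nat.add (Nat.add (Nat.add C x2973) x7347) x1515) x4431) x2487) x3027) x2955) x2979) x2971)
    (Nat.add (Nat.add (Nat.add (Nat.add (Nat.add (Nat.add (Nat.add (Nat.add C (Nat.mul x2979 (nat_lit 3))) x7353) x1521) x4437) x2493) x3033) x2961) x2973)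
    (Nat.sub (Nat.add (Nat.add (Nat.add (Nat.add (Nat.add (Nat.add (Nat.add (Nat.add C x2999) x7373) x1541) x4457) x2513) x3161) x2945) x3001) x22681)
    (Nat.sub (Nat.add (Nat.add (Nat.add (Nat.add (Nat.add (Nat.add (Nat.add (Nat.add (Nat.add (Nat.add C (Nat.mul x3001 (nat_lit 2))) x7375) x1543) x4459) x2515) x3163) x2947) x3007) x2999) x3003) x22683)
    (Nat.add (Nat.add (Nat.add (Nat.add (Nat.add (Nat.add (Nat.add (Nat.add (Nat.add C x3003) x7377) x1545) x4461) x2517) x3165) x2949) x3009) x3001)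
    (Nat.sub (Nat.add (Nat.add (Nat.add (Nat.add (Nat.add (Nat.add (Nat.add (Nat.add (Nat.add (Nat.add C x3007) x7381) x1549) x4465) x2521) x3169) x2953) x3025) x3001) x3009) x22689)
    (Nat.add (Nat.add (Nat.add (Nat.add (Nat.add (Nat.add (Nat.add (Nat.add (Nat.add (Nat.add (Nat.add C (Nat.mul x3009 (nat_lit 2))) x7383) x1551) x4467) x2523) x3171) x2955) x3027) x3003) x3015) x3007)
    (Nat.add (Nat.add (Nat.add (Nat.add (Nat.add (Nat.add (Nat.add (Nat.add (Nat.add C x3015) x7389) x1557) x4473) x2529) x3177) x2961) x3033) x3009)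
    (Nat.sub (Nat.add (Nat.add (Nat.add (Nat.add (Nat.add (Nat.add (Nat.add (Nat.add (Nat.add (Nat.add C (Nat.mul x3025 (nat_lit 2))) x7399) x1567) x4483) x2539) x3187) x2971) x3079) x3007) x3027) x22707)
    (Nat.add (Nat.add (Nat.add (Nat.add (Nat.add (Nat.add (Nat.add (Nat.add (Nat.add (Nat.add (Nat.add C (Nat.mul x3027 (nat_lit 2))) x7401) x1569) x4485) x2541) x3189) x2973) x3081) x3009) x3033) x3025)
    (Nat.add (Nat.add (Nat.add (Nat.add (Nat.add (Nat.add (Nat.add (Nat.add (Nat.add (Nat.add (Nat.add C (Nat.mul x3033 (nat_lit 3))) x7407) x1575) x4491) x2547) x3195) x2979) x3087) x3015) x3051) x3027)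
    (Nat.add (Nat.add (Nat.add (Nat.add (Nat.add (Nat.add (Nat.add (Nat.add C (Nat.mul x3051 (nat_lit 3))) x7425) x1593) x4509) x2565) x3213) x3105) x3033)
    (Nat.sub (Nat.add (Nat.add (Nat.add (Nat.add (Nat.add (Nat.add (Nat.add (Nat.add C x3079) x7453) x1621) x4537) x2593) x3241) x3025) x3081) x22761)
    (Nat.add (Nat.add (Nat.add (Nat.add (Nat.add (Nat.add (Nat.add (Nat.add (Nat.add C x3081) x7455) x1623) x4539) x2595) x3243) x3027) x3087) x3079)
    (Nat.add (Nat.add (Nat.add (Nat.add (Nat.add (Nat.add (Nat.add (Nat.add (Nat.add C x3087) x7461) x1629) x4545) x2601) x3249) x3033) x3105) x3081)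
    (Nat.add (Nat.add (Nat.add (Nat.add (Nat.add (Nat.add (Nat.add (Nat.add C (Nat.mul x3105 (nat_lit 3))) x7479) x1647) x4563) x2619) x3267) x3051) x3087)
    (Nat.sub (Nat.add (Nat.add (Nat.add (Nat.add (Nat.add (Nat.add (Nat.add (Nat.add C (Nat.mul x3161 (nat_lit 2))) x7535) x1703) x4619) x2675) x3647) x2999) x3163) x22843)
    (Nat.sub (Nat.add (Nat.add (Nat.add (Nat.add (Nat.add (Nat.add (Nat.add (Nat.add (Nat.add (Nat.add C (Nat.mul x3163 (nat_lit 3))) x7537) x1705) x4621) x2677) x3649) x3001) x3169) x3161) x3165) x22845)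
    (Nat.add (Nat.add (Nat.add (Nat.add (Nat.add (Nat.add (Nat.add (Nat.add (Nat.add C (Nat.mul x3165 (nat_lit 2))) x7539) x1707) x4623) x2679) x3651) x3003) x3171) x3163)
    (Nat.sub (Nat.add (Nat.add (Nat.add (Nat.add (Nat.add (Nat.add (Nat.add (Nat.add (Nat.add (Nat.add C (Nat.mul x3169 (nat_lit 2))) x7543) x1711) x4627) x2683) x3655) x3007) x3187) x3163) x3171) x22851)
    (Nat.add (Nat.add (Nat.add (Nat.add (Nat.add (Nat.add (Nat.add (Nat.add (Nat.add (Nat.add (Nat.add C (Nat.mul x3171 (nat_lit 3))) x7545) x1713) x4629) x2685) x3657) x3009) x3189) x3165) x3177) x3169)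
    (Nat.add (Nat.add (Nat.add (Nat.add (Nat.add (Nat.add (Nat.add (Nat.add (Nat.add C (Nat.mul x3177 (nat_lit 2))) x7551) x1719) x4635) x2691) x3663) x3015) x3195) x3171)
    (Nat.sub (Nat.add (Nat.add (Nat.add (Nat.add (Nat.add (Nat.add (Nat.add (Nat.add (Nat.add (Nat.add C (Nat.mul x3187 (nat_lit 2))) x7561) x1729) x4645) x2701) x3673) x3025) x3241) x3169) x3189) x22869)
    (Nat.add (Nat.add (Nat.add (Nat.add (Nat.add (Nat.add (Nat.add (Nat.add (Nat.add (Nat.add (Nat.add C (Nat.mul x3189 (nat_lit 2))) x7563) x1731) x4647) x2703) x3675) x3027) x3243) x3171) x3195) x3187)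
    (Nat.add (Nat.add (Nat.add (Nat.add (Nat.add (Nat.add (Nat.add (Nat.add (Nat.add (Nat.add (Nat.add C (Nat.mul x3195 (nat_lit 3))) x7569) x1737) x4653) x2709) x3681) x3033) x3249) x3177) x3213) x3189)
    (Nat.add (Nat.add (Nat.add (Nat.add (Nat.add (Nat.add (Nat.add (Nat.add (Nat.add C (Nat.mul x3213 (nat_lit 2))) x7587) x1755) x4671) x2727) x3699) x3051) x3267) x3195)
    (Nat.sub (Nat.add (Nat.add (Nat.add (Nat.add (Nat.add (Nat.add (Nat.add (Nat.add (Nat.add (Nat.add C (Nat.mul x3241 (nat_lit 3))) x7615) x1783) x4699) x2755) x3727) x3079) x3403) x3187) x3243) x22923)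
    (Nat.add (Nat.add (Nat.add (Nat.add (Nat.add (Nat.add (Nat.add (Nat.add (Nat.add (Nat.add (Nat.add C (Nat.mul x3243 (nat_lit 3))) x7617) x1785) x4701) x2757) x3729) x3081) x3405) x3189) x3249) x3241)
    (Nat.add (Nat.add (Nat.add (Nat.add (Nat.add (Nat.add (Nat.add (Nat.add (Nat.add (Nat.add (Nat.add C (Nat.mul x3249 (nat_lit 3))) x7623) x1791) x4707) x2763) x3735) x3087) x3411) x3195) x3267) x3243)
    (Nat.add (Nat.add (Nat.add (Nat.add (Nat.add (Nat.add (Nat.add (Nat.add (Nat.add (Nat.add (Nat.add C (Nat.mul x3267 (nat_lit 4))) x7641) x1809) x4725) x2781) x3753) x3105) x3429) x3213) x3321) x3249)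
    (Nat.add (Nat.add (Nat.add (Nat.add (Nat.add (Nat.add (Nat.add (Nat.add C (Nat.mul x3321 (nat_lit 4))) x7695) x1863) x4779) x2835) x3807) x3483) x3267)
    (Nat.sub (Nat.add (Nat.add (Nat.add (Nat.add (Nat.add (Nat.add (Nat.add C (Nat.mul x3403 (nat_lit 3))) x7777) x1945) x4861) x3889) x3241) x3405) x23085)
    (Nat.add (Nat.add (Nat.add (Nat.add (Nat.add (Nat.add (Nat.add (Nat.add C (Nat.mul x3405 (nat_lit 3))) x7779) x1947) x4863) x3891) x3243) x3411) x3403)
    (Nat.add (Nat.add (Nat.add (Nat.add (Nat.add (Nat.add (Nat.add (Nat.add C (Nat.mul x3411 (nat_lit 3))) x7785) x1953) x4869) x3897) x3249) x3429) x3405)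
    (Nat.add (Nat.add (Nat.add (Nat.add (Nat.add (Nat.add (Nat.add (Nat.add C (Nat.mul x3429 (nat_lit 3))) x7803) x1971) x4887) x3915) x3267) x3483) x3411)
    (Nat.add (Nat.add (Nat.add (Nat.add (Nat.add (Nat.add (Nat.add C (Nat.mul x3483 (nat_lit 5))) x7857) x2025) x4941) x3969) x3321) x3429)
    (Nat.sub (Nat.add (Nat.add (Nat.add (Nat.add (Nat.add C (Nat.mul x3647 (nat_lit 2))) x8021) x5105) x3161) x3649) x23329)
    (Nat.sub (Nat.add (Nat.add (Nat.add (Nat.add (Nat.add (Nat.add (Nat.add C (Nat.mul x3649 (nat_lit 3))) x8023) x5107) x3163) x3655) x3647) x3651) x23331)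
    (Nat.add (Nat.add (Nat.add (Nat.add (Nat.add (Nat.add C (Nat.mul x3651 (nat_lit 2))) x8025) x5109) x3165) x3657) x3649)
    (Nat.sub (Nat.add (Nat.add (Nat.add (Nat.add (Nat.add (Nat.add (Nat.add C (Nat.mul x3655 (nat_lit 2))) x8029) x5113) x3169) x3673) x3649) x3657) x23337)
    (Nat.add (Nat.add (Nat.add (Nat.add (Nat.add (Nat.add (Nat.add (Nat.add C (Nat.mul x3657 (nat_lit 3))) x8031) x5115) x3171) x3675) x3651) x3663) x3655)
    (Nat.add (Nat.add (Nat.add (Nat.add (Nat.add (Nat.add C (Nat.mul x3663 (nat_lit 2))) x8037) x5121) x3177) x3681) x3657)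
    (Nat.sub (Nat.add (Nat.add (Nat.add (Nat.add (Nat.add (Nat.add (Nat.add C (Nat.mul x3673 (nat_lit 2))) x8047) x5131) x3187) x3727) x3655) x3675) x23355)
    (Nat.add (Nat.add (Nat.add (Nat.add (Nat.add (Nat.add (Nat.add (Nat.add C (Nat.mul x3675 (nat_lit 2))) x8049) x5133) x3189) x3729) x3657) x3681) x3673)
    (Nat.add (Nat.add (Nat.add (Nat.add (Nat.add (Nat.add (Nat.add (Nat.add C (Nat.mul x3681 (nat_lit 3))) x8055) x5139) x3195) x3735) x3663) x3699) x3675)
    (Nat.add (Nat.add (Nat.add (Nat.add (Nat.add (Nat.add C (Nat.mul x3699 (nat_lit 2))) x8073) x5157) x3213) x3753) x3681)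
    (Nat.sub (Nat.add (Nat.add (Nat.add (Nat.add (Nat.add (Nat.add (Nat.add C (Nat.mul x3727 (nat_lit 2))) x8101) x5185) x3241) x3889) x3673) x3729) x23409)
    (Nat.add (Nat.add (Nat.add (Nat.add (Nat.add (Nat.add (Nat.add (Nat.add C (Nat.mul x3729 (nat_lit 2))) x8103) x5187) x3243) x3891) x3675) x3735) x3727)
    (Nat.add (Nat.add (Nat.add (Nat.add (Nat.add (Nat.add (Nat.add (Nat.add C (Nat.mul x3735 (nat_lit 2))) x8109) x5193) x3249) x3897) x3681) x3753) x3729)
    (Nat.add (Nat.add (Nat.add (Nat.add (Nat.add (Nat.add (Nat.add (Nat.add C (Nat.mul x3753 (nat_lit 3))) x8127) x5211) x3267) x3915) x3699) x3807) x3735)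
    (Nat.add (Nat.add (Nat.add (Nat.add (Nat.add (Nat.add C (Nat.mul x3807 (nat_lit 2))) x8181) x5265) x3321) x3969) x3753)
    (Nat.sub (Nat.add (Nat.add (Nat.add (Nat.add (Nat.add (Nat.add C (Nat.mul x3889 (nat_lit 4))) x8263) x5347) x3403) x3727) x3891) x23571)
    (Nat.add (Nat.add (Nat.add (Nat.add (Nat.add (Nat.add (Nat.add C (Nat.mul x3891 (nat_lit 4))) x8265) x5349) x3405) x3729) x3897) x3889)
    (Nat.add (Nat.add (Nat.add (Nat.add (Nat.add (Nat.add (Nat.add C (Nat.mul x3897 (nat_lit 4))) x8271) x5355) x3411) x3735) x3915) x3891)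
    (Nat.add (Nat.add (Nat.add (Nat.add (Nat.add (Nat.add (Nat.add C (Nat.mul x3915 (nat_lit 4))) x8289) x5373) x3429) x3753) x3969) x3897)
    (Nat.add (Nat.add (Nat.add (Nat.add (Nat.add (Nat.add (Nat.add C (Nat.mul x3969 (nat_lit 5))) x8343) x5427) x3483) x3807) x4131) x3915)
    (Nat.add (Nat.add (Nat.add (Nat.add C (Nat.mul x4131 (nat_lit 6))) x8505) x5589) x3969)
    (Nat.sub (Nat.add (Nat.add (Nat.add (Nat.add (Nat.add C (Nat.mul x4379 (nat_lit 2))) x8753) x2921) x4385) x4381) x24061)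
    (Nat.sub (Nat.add (Nat.add (Nat.add (Nat.add (Nat.add C (Nat.mul x4381 (nat_lit 2))) x8755) x2923) x4387) x4379) x24063)
    (Nat.sub (Nat.add (Nat.add (Nat.add (Nat.add (Nat.add C x8759) x2927) x4403) x4379) x4387) x24067)
    (Nat.sub (Nat.add (Nat.add (Nat.add (Nat.add (Nat.add (Nat.add (Nat.add (Nat.add C (Nat.mul x4387 (nat_lit 2))) x8761) x2929) x4405) x4381) x4393) x4385) x4389) x24069)
    (Nat.add (Nat.add (Nat.add (Nat.add (Nat.add (Nat.add C (Nat.mul x4389 (nat_lit 2))) x8763) x2931) x4407) x4395) x4387)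
    (Nat.sub (Nat.add (Nat.add (Nat.add (Nat.add (Nat.add C x8767) x2935) x4411) x4387) x4395) x24075)
    (Nat.add (Nat.add (Nat.add (Nat.add (Nat.add (Nat.add C (Nat.mul x4395 (nat_lit 2))) x8769) x2937) x4413) x4389) x4393)
    (Nat.sub (Nat.add (Nat.add (Nat.add (Nat.add (Nat.add C x8777) x2945) x4457) x4385) x4405) x24085)
    (Nat.sub (Nat.add (Nat.add (Nat.add (Nat.add (Nat.add (Nat.add (Nat.add (Nat.add C x4405) x8779) x2947) x4459) x4387) x4411) x4403) x4407) x24087)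
    (Nat.add (Nat.add (Nat.add (Nat.add (Nat.add (Nat.add C x8781) x2949) x4461) x4389) x4413) x4405)
    (Nat.sub (Nat.add (Nat.add (Nat.add (Nat.add (Nat.add (Nat.add (Nat.add (Nat.add C x4411) x8785) x2953) x4465) x4393) x4429) x4405) x4413) x24093)
    (Nat.add (Nat.add (Nat.add (Nat.add (Nat.add (Nat.add (Nat.add (Nat.add (Nat.add C (Nat.mul x4413 (nat_lit 2))) x8787) x2955) x4467) x4395) x4431) x4407) x4419) x4411)
    (Nat.add (Nat.add (Nat.add (Nat.add (Nat.add (Nat.add C (Nat.mul x4419 (nat_lit 2))) x8793) x2961) x4473) x4437) x4413)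
    (Nat.sub (Nat.add (Nat.add (Nat.add (Nat.add (Nat.add C x8803) x2971) x4483) x4411) x4431) x24111)
    (Nat.add (Nat.add (Nat.add (Nat.add (Nat.add (Nat.add C x8805) x2973) x4485) x4413) x4437) x4429)
    (Nat.add (Nat.add (Nat.add (Nat.add (Nat.add (Nat.add C (Nat.mul x4437 (nat_lit 2))) x8811) x2979) x4491) x4419) x4431)
    (Nat.sub (Nat.add (Nat.add (Nat.add (Nat.add (Nat.add C x8831) x2999) x4619) x4403) x4459) x24139)
    (Nat.sub (Nat.add (Nat.add (Nat.add (Nat.add (Nat.add (Nat.add (Nat.add (Nat.add C x4459) x8833) x3001) x4621) x4405) x4465) x4457) x4461) x24141)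
    (Nat.add (Nat.add (Nat.add (Nat.add (Nat.add (Nat.add C x8835) x3003) x4623) x4407) x4467) x4459)
    (Nat.sub (Nat.add (Nat.add (Nat.add (Nat.add (Nat.add (Nat.add (Nat.add C x8839) x3007) x4627) x4411) x4483) x4459) x4467) x24147)
    (Nat.add (Nat.add (Nat.add (Nat.add (Nat.add (Nat.add (Nat.add (Nat.add (Nat.add C x4467) x8841) x3009) x4629) x4413) x4485) x4461) x4473) x4465)
    (Nat.add (Nat.add (Nat.add (Nat.add (Nat.add (Nat.add C x8847) x3015) x4635) x4419) x4491) x4467)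
    (Nat.sub (Nat.add (Nat.add (Nat.add (Nat.add (Nat.add (Nat.add (Nat.add (Nat.add C x4483) x8857) x3025) x4645) x4429) x4537) x4465) x4485) x24165)
    (Nat.add (Nat.add (Nat.add (Nat.add (Nat.add (Nat.add (Nat.add (Nat.add (Nat.add C x4485) x8859) x3027) x4647) x4431) x4539) x4467) x4491) x4483)
    (Nat.add (Nat.add (Nat.add (Nat.add (Nat.add (Nat.add (Nat.add (Nat.add (Nat.add C (Nat.mul x4491 (nat_lit 2))) x8865) x3033) x4653) x4437) x4545) x4473) x4509) x4485)
    (Nat.add (Nat.add (Nat.add (Nat.add (Nat.add (Nat.add C (Nat.mul x4509 (nat_lit 2))) x8883) x3051) x4671) x4563) x4491)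
    (Nat.sub (Nat.add (Nat.add (Nat.add (Nat.add (Nat.add C x8911) x3079) x4699) x4483) x4539) x24219)
    (Nat.add (Nat.add (Nat.add (Nat.add (Nat.add (Nat.add C x8913) x3081) x4701) x4485) x4545) x4537)
    (Nat.add (Nat.add (Nat.add (Nat.add (Nat.add (Nat.add C x8919) x3087) x4707) x4491) x4563) x4539)
    (Nat.add (Nat.add (Nat.add (Nat.add (Nat.add (Nat.add C (Nat.mul x4563 (nat_lit 2))) x8937) x3105) x4725) x4509) x4545)
    (Nat.sub (Nat.add (Nat.add (Nat.add (Nat.add (Nat.add C x8993) x3161) x5105) x4457) x4621) x24301)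
    (Nat.sub (Nat.add (Nat.add (Nat.add (Nat.add (Nat.add (Nat.add (Nat.add (Nat.add C x4621) x8995) x3163) x5107) x4459) x4627) x4619) x4623) x24303)
    (Nat.add (Nat.add (Nat.add (Nat.add (Nat.add (Nat.add C x8997) x3165) x5109) x4461) x4629) x4621)
    (Nat.sub (Nat.add (Nat.add (Nat.add (Nat.add (Nat.add (Nat.add (Nat.add C x9001) x3169) x5113) x4465) x4645) x4621) x4629) x24309)
    (Nat.add (Nat.add (Nat.add (Nat.add (Nat.add (Nat.add (Nat.add (Nat.add (Nat.add C x4629) x9003) x3171) x5115) x4467) x4647) x4623) x4635) x4627)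
    (Nat.add (Nat.add (Nat.add (Nat.add (Nat.add (Nat.add C x9009) x3177) x5121) x4473) x4653) x4629)
    (Nat.sub (Nat.add (Nat.add (Nat.add (Nat.add (Nat.add (Nat.add (Nat.add C x9019) x3187) x5131) x4483) x4699) x4627) x4647) x24327)
    (Nat.add (Nat.add (Nat.add (Nat.add (Nat.add (Nat.add (Nat.add (Nat.add C x9021) x3189) x5133) x4485) x4701) x4629) x4653) x4645)
    (Nat.add (Nat.add (Nat.add (Nat.add (Nat.add (Nat.add (Nat.add (Nat.add (Nat.add C x4653) x9027) x3195) x5139) x4491) x4707) x4635) x4671) x4647)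
    (Nat.add (Nat.add (Nat.add (Nat.add (Nat.add (Nat.add C x9045) x3213) x5157) x4509) x4725) x4653)
    (Nat.sub (Nat.add (Nat.add (Nat.add (Nat.add (Nat.add (Nat.add (Nat.add (Nat.add C x4699) x9073) x3241) x5185) x4537) x4861) x4645) x4701) x24381)
    (Nat.add (Nat.add (Nat.add (Nat.add (Nat.add (Nat.add (Nat.add (Nat.add (Nat.add C x4701) x9075) x3243) x5187) x4539) x4863) x4647) x4707) x4699)
    (Nat.add (Nat.add (Nat.add (Nat.add (Nat.add (Nat.add (Nat.add (Nat.add (Nat.add C x4707) x9081) x3249) x5193) x4545) x4869) x4653) x4725) x4701)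
    (Nat.add (Nat.add (Nat.add (Nat.add (Nat.add (Nat.add (Nat.add (Nat.add (Nat.add C (Nat.mul x4725 (nat_lit 2))) x9099) x3267) x5211) x4563) x4887) x4671) x4779) x4707)
    (Nat.add (Nat.add (Nat.add (Nat.add (Nat.add (Nat.add C (Nat.mul x4779 (nat_lit 2))) x9153) x3321) x5265) x4941) x4725)
    (Nat.sub (Nat.add (Nat.add (Nat.add (Nat.add (Nat.add C x9235) x3403) x5347) x4699) x4863) x24543)
    (Nat.add (Nat.add (Nat.add (Nat.add (Nat.add (Nat.add C x9237) x3405) x5349) x4701) x4869) x4861)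
    (Nat.add (Nat.add (Nat.add (Nat.add (Nat.add (Nat.add C x9243) x3411) x5355) x4707) x4887) x4863)
    (Nat.add (Nat.add (Nat.add (Nat.add (Nat.add (Nat.add C x9261) x3429) x5373) x4725) x4941) x4869)
    (Nat.add (Nat.add (Nat.add (Nat.add (Nat.add (Nat.add C (Nat.mul x4941 (nat_lit 2))) x9315) x3483) x5427) x4779) x4887)
    (Nat.sub (Nat.add (Nat.add (Nat.add (Nat.add (Nat.add C (Nat.mul x5105 (nat_lit 2))) x9479) x3647) x4619) x5107) x24787)
    (Nat.sub (Nat.add (Nat.add (Nat.add (Nat.add (Nat.add (Nat.add (Nat.add C (Nat.mul x5107 (nat_lit 3))) x9481) x3649) x4621) x5113) x5105) x5109) x24789)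
    (Nat.add (Nat.add (Nat.add (Nat.add (Nat.add (Nat.add C (Nat.mul x5109 (nat_lit 2))) x9483) x3651) x4623) x5115) x5107)
    (Nat.sub (Nat.add (Nat.add (Nat.add (Nat.add (Nat.add (Nat.add (Nat.add C (Nat.mul x5113 (nat_lit 2))) x9487) x3655) x4627) x5131) x5107) x5115) x24795)
    (Nat.add (Nat.add (Nat.add (Nat.add (Nat.add (Nat.add (Nat.add (Nat.add C (Nat.mul x5115 (nat_lit 3))) x9489) x3657) x4629) x5133) x5109) x5121) x5113)
    (Nat.add (Nat.add (Nat.add (Nat.add (Nat.add (Nat.add C (Nat.mul x5121 (nat_lit 2))) x9495) x3663) x4635) x5139) x5115)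
    (Nat.sub (Nat.add (Nat.add (Nat.add (Nat.add (Nat.add (Nat.add (Nat.add C (Nat.mul x5131 (nat_lit 2))) x9505) x3673) x4645) x5185) x5113) x5133) x24813)
    (Nat.add (Nat.add (Nat.add (Nat.add (Nat.add (Nat.add (Nat.add (Nat.add C (Nat.mul x5133 (nat_lit 2))) x9507) x3675) x4647) x5187) x5115) x5139) x5131)
    (Nat.add (Nat.add (Nat.add (Nat.add (Nat.add (Nat.add (Nat.add (Nat.add C (Nat.mul x5139 (nat_lit 3))) x9513) x3681) x4653) x5193) x5121) x5157) x5133)
    (Nat.add (Nat.add (Nat.add (Nat.add (Nat.add (Nat.add C (Nat.mul x5157 (nat_lit 2))) x9531) x3699) x4671) x5211) x5139)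
    (Nat.sub (Nat.add (Nat.add (Nat.add (Nat.add (Nat.add (Nat.add (Nat.add C (Nat.mul x5185 (nat_lit 2))) x9559) x3727) x4699) x5347) x5131) x5187) x24867)
    (Nat.add (Nat.add (Nat.add (Nat.add (Nat.add (Nat.add (Nat.add (Nat.add C (Nat.mul x5187 (nat_lit 2))) x9561) x3729) x4701) x5349) x5133) x5193) x5185)
    (Nat.add (Nat.add (Nat.add (Nat.add (Nat.add (Nat.add (Nat.add (Nat.add C (Nat.mul x5193 (nat_lit 2))) x9567) x3735) x4707) x5355) x5139) x5211) x5187)
    (Nat.add (Nat.add (Nat.add (Nat.add (Nat.add (Nat.add (Nat.add (Nat.add C (Nat.mul x5211 (nat_lit 3))) x9585) x3753) x4725) x5373) x5157) x5265) x5193)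
    (Nat.add (Nat.add (Nat.add (Nat.add (Nat.add (Nat.add C (Nat.mul x5265 (nat_lit 2))) x9639) x3807) x4779) x5427) x5211)
    (Nat.sub (Nat.add (Nat.add (Nat.add (Nat.add (Nat.add (Nat.add (Nat.add C (Nat.mul x5347 (nat_lit 3))) x9721) x3889) x4861) x5833) x5185) x5349) x25029)
    (Nat.add (Nat.add (Nat.add (Nat.add (Nat.add (Nat.add (Nat.add (Nat.add C (Nat.mul x5349 (nat_lit 3))) x9723) x3891) x4863) x5835) x5187) x5355) x5347)
    (Nat.add (Nat.add (Nat.add (Nat.add (Nat.add (Nat.add (Nat.add (Nat.add C (Nat.mul x5355 (nat_lit 3))) x9729) x3897) x4869) x5841) x5193) x5373) x5349)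
    (Nat.add (Nat.add (Nat.add (Nat.add (Nat.add (Nat.add (Nat.add (Nat.add C (Nat.mul x5373 (nat_lit 3))) x9747) x3915) x4887) x5859) x5211) x5427) x5355)
    (Nat.add (Nat.add (Nat.add (Nat.add (Nat.add (Nat.add (Nat.add (Nat.add C (Nat.mul x5427 (nat_lit 4))) x9801) x3969) x4941) x5913) x5265) x5589) x5373)
    (Nat.add (Nat.add (Nat.add (Nat.add (Nat.add C (Nat.mul x5589 (nat_lit 4))) x9963) x4131) x6075) x5427)
    (Nat.sub (Nat.add (Nat.add (Nat.add (Nat.add C (Nat.mul x5833 (nat_lit 4))) x10207) x5347) x5835) x25515)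
    (Nat.add (Nat.add (Nat.add (Nat.add (Nat.add C (Nat.mul x5835 (nat_lit 4))) x10209) x5349) x5841) x5833)
    (Nat.add (Nat.add (Nat.add (Nat.add (Nat.add C (Nat.mul x5841 (nat_lit 4))) x10215) x5355) x5859) x5835)
    (Nat.add (Nat.add (Nat.add (Nat.add (Nat.add C (Nat.mul x5859 (nat_lit 4))) x10233) x5373) x5913) x5841)
    (Nat.add (Nat.add (Nat.add (Nat.add (Nat.add C (Nat.mul x5913 (nat_lit 4))) x10287) x5427) x6075) x5859)
    (Nat.add (Nat.add (Nat.add (Nat.add C (Nat.mul x6075 (nat_lit 6))) x10449) x5589) x5913)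
    (Nat.sub (Nat.add (Nat.add (Nat.add (Nat.add C (Nat.mul x6569 (nat_lit 4))) x19691) x2195) x6575) x26251)
    (Nat.sub (Nat.add (Nat.add (Nat.add (Nat.add (Nat.add (Nat.add (Nat.add C (Nat.mul x6575 (nat_lit 3))) x19697) x2201) x6593) x6569) x6581) x6577) x26257)
    (Nat.sub (Nat.add (Nat.add (Nat.add (Nat.add (Nat.add (Nat.add C (Nat.mul x6577 (nat_lit 4))) x19699) x2203) x6595) x6583) x6575) x26259)
    (Nat.sub (Nat.add (Nat.add (Nat.add (Nat.add (Nat.add C x19703) x2207) x6599) x6575) x6583) x26263)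
    (Nat.sub (Nat.add (Nat.add (Nat.add (Nat.add (Nat.add (Nat.add (Nat.add C (Nat.mul x6583 (nat_lit 3))) x19705) x2209) x6601) x6577) x6581) x6585) x26265)
    (Nat.add (Nat.add (Nat.add (Nat.add (Nat.add C (Nat.mul x6585 (nat_lit 4))) x19707) x2211) x6603) x6583)
    (Nat.sub (Nat.add (Nat.add (Nat.add (Nat.add (Nat.add (Nat.add (Nat.add C (Nat.mul x6593 (nat_lit 2))) x19715) x2219) x6647) x6575) x6599) x6595) x26275)
    (Nat.sub (Nat.add (Nat.add (Nat.add (Nat.add (Nat.add (Nat.add (Nat.add C (Nat.mul x6595 (nat_lit 2))) x19717) x2221) x6649) x6577) x6601) x6593) x26277)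
    (Nat.sub (Nat.add (Nat.add (Nat.add (Nat.add (Nat.add (Nat.add (Nat.add (Nat.add C x6599) x19721) x2225) x6653) x6581) x6617) x6593) x6601) x26281)
    (Nat.sub (Nat.add (Nat.add (Nat.add (Nat.add (Nat.add (Nat.add (Nat.add (Nat.add (Nat.add (Nat.add C (Nat.mul x6601 (nat_lit 3))) x19723) x2227) x6655) x6583) x6619) x6595) x6607) x6599) x6603) x26283)
    (Nat.add (Nat.add (Nat.add (Nat.add (Nat.add (Nat.add (Nat.add (Nat.add C (Nat.mul x6603 (nat_lit 3))) x19725) x2229) x6657) x6585) x6621) x6609) x6601)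
    (Nat.sub (Nat.add (Nat.add (Nat.add (Nat.add (Nat.add (Nat.add (Nat.add C (Nat.mul x6607 (nat_lit 2))) x19729) x2233) x6661) x6625) x6601) x6609) x26289)
    (Nat.add (Nat.add (Nat.add (Nat.add (Nat.add (Nat.add (Nat.add C (Nat.mul x6609 (nat_lit 4))) x19731) x2235) x6663) x6627) x6603) x6607)
    (Nat.sub (Nat.add (Nat.add (Nat.add (Nat.add (Nat.add C x19739) x2243) x6671) x6599) x6619) x26299)
    (Nat.sub (Nat.add (Nat.add (Nat.add (Nat.add (Nat.add (Nat.add (Nat.add (Nat.add C x6619) x19741) x2245) x6673) x6601) x6625) x6617) x6621) x26301)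
    (Nat.add (Nat.add (Nat.add (Nat.add (Nat.add (Nat.add C x19743) x2247) x6675) x6603) x6627) x6619)
    (Nat.sub (Nat.add (Nat.add (Nat.add (Nat.add (Nat.add (Nat.add (Nat.add C (Nat.mul x6625 (nat_lit 2))) x19747) x2251) x6679) x6607) x6619) x6627) x26307)
    (Nat.add (Nat.add (Nat.add (Nat.add (Nat.add (Nat.add (Nat.add (Nat.add C (Nat.mul x6627 (nat_lit 3))) x19749) x2253) x6681) x6609) x6621) x6633) x6625)
    (Nat.add (Nat.add (Nat.add (Nat.add (Nat.add C (Nat.mul x6633 (nat_lit 4))) x19755) x2259) x6687) x6627)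
    (Nat.sub (Nat.add (Nat.add (Nat.add (Nat.add (Nat.add (Nat.add (Nat.add C (Nat.mul x6647 (nat_lit 2))) x19769) x2273) x6809) x6593) x6653) x6649) x26329)
    (Nat.sub (Nat.add (Nat.add (Nat.add (Nat.add (Nat.add (Nat.add (Nat.add C (Nat.mul x6649 (nat_lit 2))) x19771) x2275) x6811) x6595) x6655) x6647) x26331)
    (Nat.sub (Nat.add (Nat.add (Nat.add (Nat.add (Nat.add (Nat.add (Nat.add C x19775) x2279) x6815) x6599) x6671) x6647) x6655) x26335)
    (Nat.sub (Nat.add (Nat.add (Nat.add (Nat.add (Nat.add (Nat.add (Nat.add (Nat.add (Nat.add (Nat.add C (Nat.mul x6655 (nat_lit 2))) x19777) x2281) x6817) x6601) x6673) x6649) x6661) x6653) x6657) x26337)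
    (Nat.add (Nat.add (Nat.add (Nat.add (Nat.add (Nat.add (Nat.add (Nat.add C (Nat.mul x6657 (nat_lit 2))) x19779) x2283) x6819) x6603) x6675) x6663) x6655)
    (Nat.sub (Nat.add (Nat.add (Nat.add (Nat.add (Nat.add (Nat.add (Nat.add C x19783) x2287) x6823) x6607) x6679) x6655) x6663) x26343)
    (Nat.add (Nat.add (Nat.add (Nat.add (Nat.add (Nat.add (Nat.add (Nat.add C (Nat.mul x6663 (nat_lit 2))) x19785) x2289) x6825) x6609) x6681) x6657) x6661)
    (Nat.sub (Nat.add (Nat.add (Nat.add (Nat.add (Nat.add (Nat.add (Nat.add (Nat.add C x6671) x19793) x2297) x6833) x6617) x6725) x6653) x6673) x26353)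
    (Nat.sub (Nat.add (Nat.add (Nat.add (Nat.add (Nat.add (Nat.add (Nat.add (Nat.add (Nat.add (Nat.add C (Nat.mul x6673 (nat_lit 2))) x19795) x2299) x6835) x6619) x6727) x6655) x6679) x6671) x6675) x26355)
    (Nat.add (Nat.add (Nat.add (Nat.add (Nat.add (Nat.add (Nat.add (Nat.add (Nat.add C x6675) x19797) x2301) x6837) x6621) x6729) x6657) x6681) x6673)
    (Nat.sub (Nat.add (Nat.add (Nat.add (Nat.add (Nat.add (Nat.add (Nat.add (Nat.add (Nat.add (Nat.add C (Nat.mul x6679 (nat_lit 2))) x19801) x2305) x6841) x6625) x6733) x6661) x6697) x6673) x6681) x26361)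
    (Nat.add (Nat.add (Nat.add (Nat.add (Nat.add (Nat.add (Nat.add (Nat.add (Nat.add (Nat.add (Nat.add C (Nat.mul x6681 (nat_lit 3))) x19803) x2307) x6843) x6627) x6735) x6663) x6699) x6675) x6687) x6679)
    (Nat.add (Nat.add (Nat.add (Nat.add (Nat.add (Nat.add (Nat.add (Nat.add C (Nat.mul x6687 (nat_lit 3))) x19809) x2313) x6849) x6633) x6741) x6705) x6681)
    (Nat.sub (Nat.add (Nat.add (Nat.add (Nat.add (Nat.add (Nat.add (Nat.add C (Nat.mul x6697 (nat_lit 2))) x19819) x2323) x6859) x6751) x6679) x6699) x26379)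
    (Nat.add (Nat.add (Nat.add (Nat.add (Nat.add (Nat.add (Nat.add (Nat.add C (Nat.mul x6699 (nat_lit 2))) x19821) x2325) x6861) x6753) x6681) x6705) x6697)
    (Nat.add (Nat.add (Nat.add (Nat.add (Nat.add (Nat.add (Nat.add C (Nat.mul x6705 (nat_lit 4))) x19827) x2331) x6867) x6759) x6687) x6699)
    (Nat.sub (Nat.add (Nat.add (Nat.add (Nat.add (Nat.add C x19847) x2351) x6887) x6671) x6727) x26407)
    (Nat.sub (Nat.add (Nat.add (Nat.add (Nat.add (Nat.add (Nat.add (Nat.add (Nat.add C x6727) x19849) x2353) x6889) x6673) x6733) x6725) x6729) x26409)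
    (Nat.add (Nat.add (Nat.add (Nat.add (Nat.add (Nat.add C x19851) x2355) x6891) x6675) x6735) x6727)
    (Nat.sub (Nat.add (Nat.add (Nat.add (Nat.add (Nat.add (Nat.add (Nat.add C x19855) x2359) x6895) x6679) x6751) x6727) x6735) x26415)
    (Nat.add (Nat.add (Nat.add (Nat.add (Nat.add (Nat.add (Nat.add (Nat.add (Nat.add C x6735) x19857) x2361) x6897) x6681) x6753) x6729) x6741) x6733)
    (Nat.add (Nat.add (Nat.add (Nat.add (Nat.add (Nat.add C x19863) x2367) x6903) x6687) x6759) x6735)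
    (Nat.sub (Nat.add (Nat.add (Nat.add (Nat.add (Nat.add (Nat.add (Nat.add C (Nat.mul x6751 (nat_lit 2))) x19873) x2377) x6913) x6697) x6733) x6753) x26433)
    (Nat.add (Nat.add (Nat.add (Nat.add (Nat.add (Nat.add (Nat.add (Nat.add C (Nat.mul x6753 (nat_lit 2))) x19875) x2379) x6915) x6699) x6735) x6759) x6751)
    (Nat.add (Nat.add (Nat.add (Nat.add (Nat.add (Nat.add (Nat.add (Nat.add C (Nat.mul x6759 (nat_lit 3))) x19881) x2385) x6921) x6705) x6741) x6777) x6753)
    (Nat.add (Nat.add (Nat.add (Nat.add (Nat.add C (Nat.mul x6777 (nat_lit 4))) x19899) x2403) x6939) x6759)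
    (Nat.sub (Nat.add (Nat.add (Nat.add (Nat.add (Nat.add (Nat.add (Nat.add C (Nat.mul x6809 (nat_lit 2))) x19931) x2435) x7295) x6647) x6815) x6811) x26491)
    (Nat.sub (Nat.add (Nat.add (Nat.add (Nat.add (Nat.add (Nat.add (Nat.add C (Nat.mul x6811 (nat_lit 2))) x19933) x2437) x7297) x6649) x6817) x6809) x26493)
    (Nat.sub (Nat.add (Nat.add (Nat.add (Nat.add (Nat.add (Nat.add (Nat.add C x19937) x2441) x7301) x6653) x6833) x6809) x6817) x26497)
    (Nat.sub (Nat.add (Nat.add (Nat.add (Nat.add (Nat.add (Nat.add (Nat.add (Nat.add (Nat.add (Nat.add C (Nat.mul x6817 (nat_lit 2))) x19939) x2443) x7303) x6655) x6835) x6811) x6823) x6815) x6819) x26499)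
    (Nat.add (Nat.add (Nat.add (Nat.add (Nat.add (Nat.add (Nat.add (Nat.add C (Nat.mul x6819 (nat_lit 2))) x19941) x2445) x7305) x6657) x6837) x6825) x6817)
    (Nat.sub (Nat.add (Nat.add (Nat.add (Nat.add (Nat.add (Nat.add (Nat.add C x19945) x2449) x7309) x6661) x6841) x6817) x6825) x26505)
    (Nat.add (Nat.add (Nat.add (Nat.add (Nat.add (Nat.add (Nat.add (Nat.add C (Nat.mul x6825 (nat_lit 2))) x19947) x2451) x7311) x6663) x6843) x6819) x6823)
    (Nat.sub (Nat.add (Nat.add (Nat.add (Nat.add (Nat.add (Nat.add (Nat.add C x19955) x2459) x7319) x6671) x6887) x6815) x6835) x26515)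
    (Nat.sub (Nat.add (Nat.add (Nat.add (Nat.add (Nat.add (Nat.add (Nat.add (Nat.add (Nat.add (Nat.add C x6835) x19957) x2461) x7321) x6673) x6889) x6817) x6841) x6833) x6837) x26517)
    (Nat.add (Nat.add (Nat.add (Nat.add (Nat.add (Nat.add (Nat.add (Nat.add C x19959) x2463) x7323) x6675) x6891) x6819) x6843) x6835)
    (Nat.sub (Nat.add (Nat.add (Nat.add (Nat.add (Nat.add (Nat.add (Nat.add (Nat.add (Nat.add (Nat.add C x6841) x19963) x2467) x7327) x6679) x6895) x6823) x6859) x6835) x6843) x26523)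
    (Nat.add (Nat.add (Nat.add (Nat.add (Nat.add (Nat.add (Nat.add (Nat.add (Nat.add (Nat.add (Nat.add C (Nat.mul x6843 (nat_lit 2))) x19965) x2469) x7329) x6681) x6897) x6825) x6861) x6837) x6849) x6841)
    (Nat.add (Nat.add (Nat.add (Nat.add (Nat.add (Nat.add (Nat.add (Nat.add C (Nat.mul x6849 (nat_lit 2))) x19971) x2475) x7335) x6687) x6903) x6867) x6843)
    (Nat.sub (Nat.add (Nat.add (Nat.add (Nat.add (Nat.add (Nat.add (Nat.add C x19981) x2485) x7345) x6697) x6913) x6841) x6861) x26541)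
    (Nat.add (Nat.add (Nat.add (Nat.add (Nat.add (Nat.add (Nat.add (Nat.add C x19983) x2487) x7347) x6699) x6915) x6843) x6867) x6859)
    (Nat.add (Nat.add (Nat.add (Nat.add (Nat.add (Nat.add (Nat.add (Nat.add C (Nat.mul x6867 (nat_lit 2))) x19989) x2493) x7353) x6705) x6921) x6849) x6861)
    (Nat.sub (Nat.add (Nat.add (Nat.add (Nat.add (Nat.add (Nat.add (Nat.add (Nat.add C x6887) x20009) x2513) x7373) x6725) x7049) x6833) x6889) x26569)
    (Nat.sub (Nat.add (Nat.add (Nat.add (Nat.add (Nat.add (Nat.add (Nat.add (Nat.add (Nat.add (Nat.add C (Nat.mul x6889 (nat_lit 2))) x20011) x2515) x7375) x6727) x7051) x6835) x6895) x6887) x6891) x26571)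
    (Nat.add (Nat.add (Nat.add (Nat.add (Nat.add (Nat.add (Nat.add (Nat.add (Nat.add C x6891) x20013) x2517) x7377) x6729) x7053) x6837) x6897) x6889)
    (Nat.sub (Nat.add (Nat.add (Nat.add (Nat.add (Nat.add (Nat.add (Nat.add (Nat.add (Nat.add (Nat.add C x6895) x20017) x2521) x7381) x6733) x7057) x6841) x6913) x6889) x6897) x26577)
    (Nat.add (Nat.add (Nat.add (Nat.add (Nat.add (Nat.add (Nat.add (Nat.add (Nat.add (Nat.add (Nat.add C (Nat.mul x6897 (nat_lit 2))) x20019) x2523) x7383) x6735) x7059) x6843) x6915) x6891) x6903) x6895)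
    (Nat.add (Nat.add (Nat.add (Nat.add (Nat.add (Nat.add (Nat.add (Nat.add (Nat.add C x6903) x20025) x2529) x7389) x6741) x7065) x6849) x6921) x6897)
    (Nat.sub (Nat.add (Nat.add (Nat.add (Nat.add (Nat.add (Nat.add (Nat.add (Nat.add (Nat.add (Nat.add C (Nat.mul x6913 (nat_lit 2))) x20035) x2539) x7399) x6751) x7075) x6859) x6967) x6895) x6915) x26595)
    (Nat.add (Nat.add (Nat.add (Nat.add (Nat.add (Nat.add (Nat.add (Nat.add (Nat.add (Nat.add (Nat.add C (Nat.mul x6915 (nat_lit 2))) x20037) x2541) x7401) x6753) x7077) x6861) x6969) x6897) x6921) x6913)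
    (Nat.add (Nat.add (Nat.add (Nat.add (Nat.add (Nat.add (Nat.add (Nat.add (Nat.add (Nat.add (Nat.add C (Nat.mul x6921 (nat_lit 3))) x20043) x2547) x7407) x6759) x7083) x6867) x6975) x6903) x6939) x6915)
    (Nat.add (Nat.add (Nat.add (Nat.add (Nat.add (Nat.add (Nat.add (Nat.add C (Nat.mul x6939 (nat_lit 3))) x20061) x2565) x7425) x6777) x7101) x6993) x6921)
    (Nat.sub (Nat.add (Nat.add (Nat.add (Nat.add (Nat.add (Nat.add (Nat.add C (Nat.mul x6967 (nat_lit 2))) x20089) x2593) x7453) x7129) x6913) x6969) x26649)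
    (Nat.add (Nat.add (Nat.add (Nat.add (Nat.add (Nat.add (Nat.add (Nat.add C (Nat.mul x6969 (nat_lit 2))) x20091) x2595) x7455) x7131) x6915) x6975) x6967)
    (Nat.add (Nat.add (Nat.add (Nat.add (Nat.add (Nat.add (Nat.add (Nat.add C (Nat.mul x6975 (nat_lit 2))) x20097) x2601) x7461) x7137) x6921) x6993) x6969)
    (Nat.add (Nat.add (Nat.add (Nat.add (Nat.add (Nat.add (Nat.add C (Nat.mul x6993 (nat_lit 4))) x20115) x2619) x7479) x7155) x6939) x6975)
    (Nat.sub (Nat.add (Nat.add (Nat.add (Nat.add (Nat.add C x20171) x2675) x7535) x6887) x7051) x26731)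
    (Nat.sub (Nat.add (Nat.add (Nat.add (Nat.add (Nat.add (Nat.add (Nat.add (Nat.add C x7051) x20173) x2677) x7537) x6889) x7057) x7049) x7053) x26733)
    (Nat.add (Nat.add (Nat.add (Nat.add (Nat.add (Nat.add C x20175) x2679) x7539) x6891) x7059) x7051)
    (Nat.sub (Nat.add (Nat.add (Nat.add (Nat.add (Nat.add (Nat.add (Nat.add C x20179) x2683) x7543) x6895) x7075) x7051) x7059) x26739)
    (Nat.add (Nat.add (Nat.add (Nat.add (Nat.add (Nat.add (Nat.add (Nat.add (Nat.add C x7059) x20181) x2685) x7545) x6897) x7077) x7053) x7065) x7057)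
    (Nat.add (Nat.add (Nat.add (Nat.add (Nat.add (Nat.add C x20187) x2691) x7551) x6903) x7083) x7059)
    (Nat.sub (Nat.add (Nat.add (Nat.add (Nat.add (Nat.add (Nat.add (Nat.add C x20197) x2701) x7561) x6913) x7129) x7057) x7077) x26757)
    (Nat.add (Nat.add (Nat.add (Nat.add (Nat.add (Nat.add (Nat.add (Nat.add C x20199) x2703) x7563) x6915) x7131) x7059) x7083) x7075)
    (Nat.add (Nat.add (Nat.add (Nat.add (Nat.add (Nat.add (Nat.add (Nat.add (Nat.add C x7083) x20205) x2709) x7569) x6921) x7137) x7065) x7101) x7077)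
    (Nat.add (Nat.add (Nat.add (Nat.add (Nat.add (Nat.add C x20223) x2727) x7587) x6939) x7155) x7083)
    (Nat.sub (Nat.add (Nat.add (Nat.add (Nat.add (Nat.add (Nat.add (Nat.add C (Nat.mul x7129 (nat_lit 2))) x20251) x2755) x7615) x6967) x7075) x7131) x26811)
    (Nat.add (Nat.add (Nat.add (Nat.add (Nat.add (Nat.add (Nat.add (Nat.add C (Nat.mul x7131 (nat_lit 2))) x20253) x2757) x7617) x6969) x7077) x7137) x7129)
    (Nat.add (Nat.add (Nat.add (Nat.add (Nat.add (Nat.add (Nat.add (Nat.add C (Nat.mul x7137 (nat_lit 2))) x20259) x2763) x7623) x6975) x7083) x7155) x7131)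
    (Nat.add (Nat.add (Nat.add (Nat.add (Nat.add (Nat.add (Nat.add (Nat.add C (Nat.mul x7155 (nat_lit 3))) x20277) x2781) x7641) x6993) x7101) x7209) x7137)
    (Nat.add (Nat.add (Nat.add (Nat.add (Nat.add C (Nat.mul x7209 (nat_lit 4))) x20331) x2835) x7695) x7155)
    (Nat.sub (Nat.add (Nat.add (Nat.add (Nat.add (Nat.add (Nat.add (Nat.add C (Nat.mul x7295 (nat_lit 2))) x20417) x2921) x8753) x6809) x7301) x7297) x26977)
    (Nat.sub (Nat.add (Nat.add (Nat.add (Nat.add (Nat.add (Nat.add (Nat.add C (Nat.mul x7297 (nat_lit 2))) x20419) x2923) x8755) x6811) x7303) x7295) x26979)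
    (Nat.sub (Nat.add (Nat.add (Nat.add (Nat.add (Nat.add (Nat.add (Nat.add C x20423) x2927) x8759) x6815) x7319) x7295) x7303) x26983)
    (Nat.sub (Nat.add (Nat.add (Nat.add (Nat.add (Nat.add (Nat.add (Nat.add (Nat.add (Nat.add (Nat.add C (Nat.mul x7303 (nat_lit 2))) x20425) x2929) x8761) x6817) x7321) x7297) x7309) x7301) x7305) x26985)
    (Nat.add (Nat.add (Nat.add (Nat.add (Nat.add (Nat.add (Nat.add (Nat.add C (Nat.mul x7305 (nat_lit 2))) x20427) x2931) x8763) x6819) x7323) x7311) x7303)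
    (Nat.sub (Nat.add (Nat.add (Nat.add (Nat.add (Nat.add (Nat.add (Nat.add C x20431) x2935) x8767) x6823) x7327) x7303) x7311) x26991)
    (Nat.add (Nat.add (Nat.add (Nat.add (Nat.add (Nat.add (Nat.add (Nat.add C (Nat.mul x7311 (nat_lit 2))) x20433) x2937) x8769) x6825) x7329) x7305) x7309)
    (Nat.sub (Nat.add (Nat.add (Nat.add (Nat.add (Nat.add (Nat.add (Nat.add C x20441) x2945) x8777) x6833) x7373) x7301) x7321) x27001)
    (Nat.sub (Nat.add (Nat.add (Nat.add (Nat.add (Nat.add (Nat.add (Nat.add (Nat.add (Nat.add (Nat.add C x7321) x20443) x2947) x8779) x6835) x7375) x7303) x7327) x7319) x7323) x27003)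
    (Nat.add (Nat.add (Nat.add (Nat.add (Nat.add (Nat.add (Nat.add (Nat.add C x20445) x2949) x8781) x6837) x7377) x7305) x7329) x7321)
    (Nat.sub (Nat.add (Nat.add (Nat.add (Nat.add (Nat.add (Nat.add (Nat.add (Nat.add (Nat.add (Nat.add C x7327) x20449) x2953) x8785) x6841) x7381) x7309) x7345) x7321) x7329) x27009)
    (Nat.add (Nat.add (Nat.add (Nat.add (Nat.add (Nat.add (Nat.add (Nat.add (Nat.add (Nat.add (Nat.add C (Nat.mul x7329 (nat_lit 2))) x20451) x2955) x8787) x6843) x7383) x7311) x7347) x7323) x7335) x7327)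
    (Nat.add (Nat.add (Nat.add (Nat.add (Nat.add (Nat.add (Nat.add (Nat.add C (Nat.mul x7335 (nat_lit 2))) x20457) x2961) x8793) x6849) x7389) x7353) x7329)
    (Nat.sub (Nat.add (Nat.add (Nat.add (Nat.add (Nat.add (Nat.add (Nat.add C x20467) x2971) x8803) x6859) x7399) x7327) x7347) x27027)
    (Nat.add (Nat.add (Nat.add (Nat.add (Nat.add (Nat.add (Nat.add (Nat.add C x20469) x2973) x8805) x6861) x7401) x7329) x7353) x7345)
    (Nat.add (Nat.add (Nat.add (Nat.add (Nat.add (Nat.add (Nat.add (Nat.add C (Nat.mul x7353 (nat_lit 2))) x20475) x2979) x8811) x6867) x7407) x7335) x7347)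
    (Nat.sub (Nat.add (Nat.add (Nat.add (Nat.add (Nat.add (Nat.add (Nat.add C x20495) x2999) x8831) x6887) x7535) x7319) x7375) x27055)
    (Nat.sub (Nat.add (Nat.add (Nat.add (Nat.add (Nat.add (Nat.add (Nat.add (Nat.add (Nat.add (Nat.add C x7375) x20497) x3001) x8833) x6889) x7537) x7321) x7381) x7373) x7377) x27057)
    (Nat.add (Nat.add (Nat.add (Nat.add (Nat.add (Nat.add (Nat.add (Nat.add C x20499) x3003) x8835) x6891) x7539) x7323) x7383) x7375)
    (Nat.sub (Nat.sub (Nat.add (Nat.add (Nat.add (Nat.add (Nat.add (Nat.add (Nat.add (Nat.add (Nat.add (Nat.add C x20503) x3007) x8839) x6895) x7543) x7327) x7399) x7375) x7383) (Nat.mul (e (nat_lit 7381)) ap)) x27063) (Nat.mul (e (nat_lit 7381)) an))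
    (Nat.add (Nat.add (Nat.add (Nat.add (Nat.add (Nat.add (Nat.add (Nat.add (Nat.add (Nat.add (Nat.add C x7383) x20505) x3009) x8841) x6897) x7545) x7329) x7401) x7377) x7389) x7381)
    (Nat.add (Nat.add (Nat.add (Nat.add (Nat.add (Nat.add (Nat.add (Nat.add C x20511) x3015) x8847) x6903) x7551) x7335) x7407) x7383)
    (Nat.sub (Nat.add (Nat.add (Nat.add (Nat.add (Nat.add (Nat.add (Nat.add (Nat.add (Nat.add (Nat.add C x7399) x20521) x3025) x8857) x6913) x7561) x7345) x7453) x7381) x7401) x27081)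
    (Nat.add (Nat.add (Nat.add (Nat.add (Nat.add (Nat.add (Nat.add (Nat.add (Nat.add (Nat.add (Nat.add C x7401) x20523) x3027) x8859) x6915) x7563) x7347) x7455) x7383) x7407) x7399)
    (Nat.add (Nat.add (Nat.add (Nat.add (Nat.add (Nat.add (Nat.add (Nat.add (Nat.add (Nat.add (Nat.add C (Nat.mul x7407 (nat_lit 2))) x20529) x3033) x8865) x6921) x7569) x7353) x7461) x7389) x7425) x7401)
    (Nat.add (Nat.add (Nat.add (Nat.add (Nat.add (Nat.add (Nat.add (Nat.add C (Nat.mul x7425 (nat_lit 2))) x20547) x3051) x8883) x6939) x7587) x7479) x7407)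
    (Nat.sub (Nat.add (Nat.add (Nat.add (Nat.add (Nat.add (Nat.add (Nat.add C x20575) x3079) x8911) x6967) x7615) x7399) x7455) x27135)
    (Nat.add (Nat.add (Nat.add (Nat.add (Nat.add (Nat.add (Nat.add (Nat.add C x20577) x3081) x8913) x6969) x7617) x7401) x7461) x7453)
    (Nat.add (Nat.add (Nat.add (Nat.add (Nat.add (Nat.add (Nat.add (Nat.add C x20583) x3087) x8919) x6975) x7623) x7407) x7479) x7455)
    (Nat.add (Nat.add (Nat.add (Nat.add (Nat.add (Nat.add (Nat.add (Nat.add C (Nat.mul x7479 (nat_lit 2))) x20601) x3105) x8937) x6993) x7641) x7425) x7461)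
    (Nat.sub (Nat.add (Nat.add (Nat.add (Nat.add (Nat.add (Nat.add (Nat.add (Nat.add C x7535) x20657) x3161) x8993) x7049) x8021) x7373) x7537) x27217)
    (Nat.sub (Nat.add (Nat.add (Nat.add (Nat.add (Nat.add (Nat.add (Nat.add (Nat.add (Nat.add (Nat.add C (Nat.mul x7537 (nat_lit 2))) x20659) x3163) x8995) x7051) x8023) x7375) x7543) x7535) x7539) x27219)
    (Nat.add (Nat.add (Nat.add (Nat.add (Nat.add (Nat.add (Nat.add (Nat.add (Nat.add C x7539) x20661) x3165) x8997) x7053) x8025) x7377) x7545) x7537)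
    (Nat.sub (Nat.add (Nat.add (Nat.add (Nat.add (Nat.add (Nat.add (Nat.add (Nat.add (Nat.add (Nat.add C x7543) x20665) x3169) x9001) x7057) x8029) x7381) x7561) x7537) x7545) x27225)
    (Nat.add (Nat.add (Nat.add (Nat.add (Nat.add (Nat.add (Nat.add (Nat.add (Nat.add (Nat.add (Nat.add C (Nat.mul x7545 (nat_lit 2))) x20667) x3171) x9003) x7059) x8031) x7383) x7563) x7539) x7551) x7543)
    (Nat.add (Nat.add (Nat.add (Nat.add (Nat.add (Nat.add (Nat.add (Nat.add (Nat.add C x7551) x20673) x3177) x9009) x7065) x8037) x7389) x7569) x7545)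
    (Nat.sub (Nat.add (Nat.add (Nat.add (Nat.add (Nat.add (Nat.add (Nat.add (Nat.add (Nat.add (Nat.add C x7561) x20683) x3187) x9019) x7075) x8047) x7399) x7615) x7543) x7563) x27243)
    (Nat.add (Nat.add (Nat.add (Nat.add (Nat.add (Nat.add (Nat.add (Nat.add (Nat.add (Nat.add (Nat.add C x7563) x20685) x3189) x9021) x7077) x8049) x7401) x7617) x7545) x7569) x7561)
    (Nat.add (Nat.add (Nat.add (Nat.add (Nat.add (Nat.add (Nat.add (Nat.add (Nat.add (Nat.add (Nat.add C (Nat.mul x7569 (nat_lit 2))) x20691) x3195) x9027) x7083) x8055) x7407) x7623) x7551) x7587) x7563)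
    (Nat.add (Nat.add (Nat.add (Nat.add (Nat.add (Nat.add (Nat.add (Nat.add (Nat.add C x7587) x20709) x3213) x9045) x7101) x8073) x7425) x7641) x7569)
    (Nat.sub (Nat.add (Nat.add (Nat.add (Nat.add (Nat.add (Nat.add (Nat.add (Nat.add (Nat.add (Nat.add C (Nat.mul x7615 (nat_lit 2))) x20737) x3241) x9073) x7129) x8101) x7453) x7777) x7561) x7617) x27297)
    (Nat.add (Nat.add (Nat.add (Nat.add (Nat.add (Nat.add (Nat.add (Nat.add (Nat.add (Nat.add (Nat.add C (Nat.mul x7617 (nat_lit 2))) x20739) x3243) x9075) x7131) x8103) x7455) x7779) x7563) x7623) x7615)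
    (Nat.add (Nat.add (Nat.add (Nat.add (Nat.add (Nat.add (Nat.add (Nat.add (Nat.add (Nat.add (Nat.add C (Nat.mul x7623 (nat_lit 2))) x20745) x3249) x9081) x7137) x8109) x7461) x7785) x7569) x7641) x7617)
    (Nat.add (Nat.add (Nat.add (Nat.add (Nat.add (Nat.add (Nat.add (Nat.add (Nat.add (Nat.add (Nat.add C (Nat.mul x7641 (nat_lit 3))) x20763) x3267) x9099) x7155) x8127) x7479) x7803) x7587) x7695) x7623)
    (Nat.add (Nat.add (Nat.add (Nat.add (Nat.add (Nat.add (Nat.add (Nat.add C (Nat.mul x7695 (nat_lit 3))) x20817) x3321) x9153) x7209) x8181) x7857) x7641)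
    (Nat.sub (Nat.add (Nat.add (Nat.add (Nat.add (Nat.add (Nat.add (Nat.add C (Nat.mul x7777 (nat_lit 2))) x20899) x3403) x9235) x8263) x7615) x7779) x27459)
    (Nat.add (Nat.add (Nat.add (Nat.add (Nat.add (Nat.add (Nat.add (Nat.add C (Nat.mul x7779 (nat_lit 2))) x20901) x3405) x9237) x8265) x7617) x7785) x7777)
    (Nat.add (Nat.add (Nat.add (Nat.add (Nat.add (Nat.add (Nat.add (Nat.add C (Nat.mul x7785 (nat_lit 2))) x20907) x3411) x9243) x8271) x7623) x7803) x7779)
    (Nat.add (Nat.add (Nat.add (Nat.add (Nat.add (Nat.add (Nat.add (Nat.add C (Nat.mul x7803 (nat_lit 2))) x20925) x3429) x9261) x8289) x7641) x7857) x7785)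
    (Nat.add (Nat.add (Nat.add (Nat.add (Nat.add (Nat.add (Nat.add C (Nat.mul x7857 (nat_lit 4))) x20979) x3483) x9315) x8343) x7695) x7803)
    (Nat.sub (Nat.add (Nat.add (Nat.add (Nat.add (Nat.add C x21143) x3647) x9479) x7535) x8023) x27703)
    (Nat.sub (Nat.add (Nat.add (Nat.add (Nat.add (Nat.add (Nat.add (Nat.add (Nat.add C x8023) x21145) x3649) x9481) x7537) x8029) x8021) x8025) x27705)
    (Nat.add (Nat.add (Nat.add (Nat.add (Nat.add (Nat.add C x21147) x3651) x9483) x7539) x8031) x8023)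
    (Nat.sub (Nat.add (Nat.add (Nat.add (Nat.add (Nat.add (Nat.add (Nat.add C x21151) x3655) x9487) x7543) x8047) x8023) x8031) x27711)
    (Nat.add (Nat.add (Nat.add (Nat.add (Nat.add (Nat.add (Nat.add (Nat.add (Nat.add C x8031) x21153) x3657) x9489) x7545) x8049) x8025) x8037) x8029)
    (Nat.add (Nat.add (Nat.add (Nat.add (Nat.add (Nat.add C x21159) x3663) x9495) x7551) x8055) x8031)
    (Nat.sub (Nat.add (Nat.add (Nat.add (Nat.add (Nat.add (Nat.add (Nat.add C x21169) x3673) x9505) x7561) x8101) x8029) x8049) x27729)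
    (Nat.add (Nat.add (Nat.add (Nat.add (Nat.add (Nat.add (Nat.add (Nat.add C x21171) x3675) x9507) x7563) x8103) x8031) x8055) x8047)
    (Nat.add (Nat.add (Nat.add (Nat.add (Nat.add (Nat.add (Nat.add (Nat.add (Nat.add C x8055) x21177) x3681) x9513) x7569) x8109) x8037) x8073) x8049)
    (Nat.add (Nat.add (Nat.add (Nat.add (Nat.add (Nat.add C x21195) x3699) x9531) x7587) x8127) x8055)
    (Nat.sub (Nat.add (Nat.add (Nat.add (Nat.add (Nat.add (Nat.add (Nat.add C x21223) x3727) x9559) x7615) x8263) x8047) x8103) x27783)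
    (Nat.add (Nat.add (Nat.add (Nat.add (Nat.add (Nat.add (Nat.add (Nat.add C x21225) x3729) x9561) x7617) x8265) x8049) x8109) x8101)
    (Nat.add (Nat.add (Nat.add (Nat.add (Nat.add (Nat.add (Nat.add (Nat.add C x21231) x3735) x9567) x7623) x8271) x8055) x8127) x8103)
    (Nat.add (Nat.add (Nat.add (Nat.add (Nat.add (Nat.add (Nat.add (Nat.add (Nat.add C x8127) x21249) x3753) x9585) x7641) x8289) x8073) x8181) x8109)
    (Nat.add (Nat.add (Nat.add (Nat.add (Nat.add (Nat.add C x21303) x3807) x9639) x7695) x8343) x8127)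
    (Nat.sub (Nat.add (Nat.add (Nat.add (Nat.add (Nat.add (Nat.add (Nat.add C (Nat.mul x8263 (nat_lit 2))) x21385) x3889) x9721) x7777) x8101) x8265) x27945)
    (Nat.add (Nat.add (Nat.add (Nat.add (Nat.add (Nat.add (Nat.add (Nat.add C (Nat.mul x8265 (nat_lit 2))) x21387) x3891) x9723) x7779) x8103) x8271) x8263)
    (Nat.add (Nat.add (Nat.add (Nat.add (Nat.add (Nat.add (Nat.add (Nat.add C (Nat.mul x8271 (nat_lit 2))) x21393) x3897) x9729) x7785) x8109) x8289) x8265)
    (Nat.add (Nat.add (Nat.add (Nat.add (Nat.add (Nat.add (Nat.add (Nat.add C (Nat.mul x8289 (nat_lit 2))) x21411) x3915) x9747) x7803) x8127) x8343) x8271)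
    (Nat.add (Nat.add (Nat.add (Nat.add (Nat.add (Nat.add (Nat.add (Nat.add C (Nat.mul x8343 (nat_lit 3))) x21465) x3969) x9801) x7857) x8181) x8505) x8289)
    (Nat.add (Nat.add (Nat.add (Nat.add (Nat.add C (Nat.mul x8505 (nat_lit 4))) x21627) x4131) x9963) x8343)
    (Nat.sub (Nat.add (Nat.add (Nat.add (Nat.add (Nat.add (Nat.add (Nat.add C (Nat.mul x8753 (nat_lit 3))) x21875) x4379) x13127) x7295) x8759) x8755) x28435)
    (Nat.sub (Nat.add (Nat.add (Nat.add (Nat.add (Nat.add (Nat.add (Nat.add C (Nat.mul x8755 (nat_lit 3))) x21877) x4381) x13129) x7297) x8761) x8753) x28437)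
    (Nat.sub (Nat.add (Nat.add (Nat.add (Nat.add (Nat.add (Nat.add (Nat.add (Nat.add C x8759) x21881) x4385) x13133) x7301) x8777) x8753) x8761) x28441)
    (Nat.sub (Nat.add (Nat.add (Nat.add (Nat.add (Nat.add (Nat.add (Nat.add (Nat.add (Nat.add (Nat.add C (Nat.mul x8761 (nat_lit 3))) x21883) x4387) x13135) x7303) x8779) x8755) x8767) x8759) x8763) x28443)
    (Nat.add (Nat.add (Nat.add (Nat.add (Nat.add (Nat.add (Nat.add (Nat.add C (Nat.mul x8763 (nat_lit 3))) x21885) x4389) x13137) x7305) x8781) x8769) x8761)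
    (Nat.sub (Nat.add (Nat.add (Nat.add (Nat.add (Nat.add (Nat.add (Nat.add (Nat.add C x8767) x21889) x4393) x13141) x7309) x8785) x8761) x8769) x28449)
    (Nat.add (Nat.add (Nat.add (Nat.add (Nat.add (Nat.add (Nat.add (Nat.add C (Nat.mul x8769 (nat_lit 3))) x21891) x4395) x13143) x7311) x8787) x8763) x8767)
    (Nat.sub (Nat.add (Nat.add (Nat.add (Nat.add (Nat.add (Nat.add (Nat.add (Nat.add C x8777) x21899) x4403) x13151) x7319) x8831) x8759) x8779) x28459)
    (Nat.sub (Nat.add (Nat.add (Nat.add (Nat.add (Nat.add (Nat.add (Nat.add (Nat.add (Nat.add (Nat.add C (Nat.mul x8779 (nat_lit 2))) x21901) x4405) x13153) x7321) x8833) x8761) x8785) x8777) x8781) x28461)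
    (Nat.add (Nat.add (Nat.add (Nat.add (Nat.add (Nat.add (Nat.add (Nat.add (Nat.add C x8781) x21903) x4407) x13155) x7323) x8835) x8763) x8787) x8779)
    (Nat.sub (Nat.add (Nat.add (Nat.add (Nat.add (Nat.add (Nat.add (Nat.add (Nat.add (Nat.add (Nat.add C (Nat.mul x8785 (nat_lit 2))) x21907) x4411) x13159) x7327) x8839) x8767) x8803) x8779) x8787) x28467)
    (Nat.add (Nat.add (Nat.add (Nat.add (Nat.add (Nat.add (Nat.add (Nat.add (Nat.add (Nat.add (Nat.add C (Nat.mul x8787 (nat_lit 3))) x21909) x4413) x13161) x7329) x8841) x8769) x8805) x8781) x8793) x8785)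
    (Nat.add (Nat.add (Nat.add (Nat.add (Nat.add (Nat.add (Nat.add (Nat.add C (Nat.mul x8793 (nat_lit 3))) x21915) x4419) x13167) x7335) x8847) x8811) x8787)
    (Nat.sub (Nat.add (Nat.add (Nat.add (Nat.add (Nat.add (Nat.add (Nat.add (Nat.add C x8803) x21925) x4429) x13177) x7345) x8857) x8785) x8805) x28485)
    (Nat.add (Nat.add (Nat.add (Nat.add (Nat.add (Nat.add (Nat.add (Nat.add (Nat.add C x8805) x21927) x4431) x13179) x7347) x8859) x8787) x8811) x8803)
    (Nat.add (Nat.add (Nat.add (Nat.add (Nat.add (Nat.add (Nat.add (Nat.add C (Nat.mul x8811 (nat_lit 3))) x21933) x4437) x13185) x7353) x8865) x8793) x8805)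
    (Nat.sub (Nat.add (Nat.add (Nat.add (Nat.add (Nat.add (Nat.add (Nat.add (Nat.add C x8831) x21953) x4457) x13205) x7373) x8993) x8777) x8833) x28513)
    (Nat.sub (Nat.add (Nat.add (Nat.add (Nat.add (Nat.add (Nat.add (Nat.add (Nat.add (Nat.add (Nat.add C (Nat.mul x8833 (nat_lit 2))) x21955) x4459) x13207) x7375) x8995) x8779) x8839) x8831) x8835) x28515)
    (Nat.add (Nat.add (Nat.add (Nat.add (Nat.add (Nat.add (Nat.add (Nat.add (Nat.add C x8835) x21957) x4461) x13209) x7377) x8997) x8781) x8841) x8833)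
    (Nat.sub (Nat.add (Nat.add (Nat.add (Nat.add (Nat.add (Nat.add (Nat.add (Nat.add (Nat.add (Nat.add C x8839) x21961) x4465) x13213) x7381) x9001) x8785) x8857) x8833) x8841) x28521)
    (Nat.add (Nat.add (Nat.add (Nat.add (Nat.add (Nat.add (Nat.add (Nat.add (Nat.add (Nat.add (Nat.add C (Nat.mul x8841 (nat_lit 2))) x21963) x4467) x13215) x7383) x9003) x8787) x8859) x8835) x8847) x8839)
    (Nat.add (Nat.add (Nat.add (Nat.add (Nat.add (Nat.add (Nat.add (Nat.add (Nat.add C x8847) x21969) x4473) x13221) x7389) x9009) x8793) x8865) x8841)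
    (Nat.sub (Nat.add (Nat.add (Nat.add (Nat.add (Nat.add (Nat.add (Nat.add (Nat.add (Nat.add (Nat.add C (Nat.mul x8857 (nat_lit 2))) x21979) x4483) x13231) x7399) x9019) x8803) x8911) x8839) x8859) x28539)
    (Nat.add (Nat.add (Nat.add (Nat.add (Nat.add (Nat.add (Nat.add (Nat.add (Nat.add (Nat.add (Nat.add C (Nat.mul x8859 (nat_lit 2))) x21981) x4485) x13233) x7401) x9021) x8805) x8913) x8841) x8865) x8857)
    (Nat.add (Nat.add (Nat.add (Nat.add (Nat.add (Nat.add (Nat.add (Nat.add (Nat.add (Nat.add (Nat.add C (Nat.mul x8865 (nat_lit 3))) x21987) x4491) x13239) x7407) x9027) x8811) x8919) x8847) x8883) x8859)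
    (Nat.add (Nat.add (Nat.add (Nat.add (Nat.add (Nat.add (Nat.add (Nat.add C (Nat.mul x8883 (nat_lit 3))) x22005) x4509) x13257) x7425) x9045) x8937) x8865)
    (Nat.sub (Nat.add (Nat.add (Nat.add (Nat.add (Nat.add (Nat.add (Nat.add (Nat.add C x8911) x22033) x4537) x13285) x7453) x9073) x8857) x8913) x28593)
    (Nat.add (Nat.add (Nat.add (Nat.add (Nat.add (Nat.add (Nat.add (Nat.add (Nat.add C x8913) x22035) x4539) x13287) x7455) x9075) x8859) x8919) x8911)
    (Nat.add (Nat.add (Nat.add (Nat.add (Nat.add (Nat.add (Nat.add (Nat.add (Nat.add C x8919) x22041) x4545) x13293) x7461) x9081) x8865) x8937) x8913)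
    (Nat.add (Nat.add (Nat.add (Nat.add (Nat.add (Nat.add (Nat.add (Nat.add C (Nat.mul x8937 (nat_lit 3))) x22059) x4563) x13311) x7479) x9099) x8883) x8919)
    (Nat.sub (Nat.add (Nat.add (Nat.add (Nat.add (Nat.add (Nat.add (Nat.add (Nat.add C x8993) x22115) x4619) x13367) x7535) x9479) x8831) x8995) x28675)
    (Nat.sub (Nat.add (Nat.add (Nat.add (Nat.add (Nat.add (Nat.add (Nat.add (Nat.add (Nat.add (Nat.add C (Nat.mul x8995 (nat_lit 2))) x22117) x4621) x13369) x7537) x9481) x8833) x9001) x8993) x8997) x28677)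
    (Nat.add (Nat.add (Nat.add (Nat.add (Nat.add (Nat.add (Nat.add (Nat.add (Nat.add C x8997) x22119) x4623) x13371) x7539) x9483) x8835) x9003) x8995)
    (Nat.sub (Nat.add (Nat.add (Nat.add (Nat.add (Nat.add (Nat.add (Nat.add (Nat.add (Nat.add (Nat.add C x9001) x22123) x4627) x13375) x7543) x9487) x8839) x9019) x8995) x9003) x28683)
    (Nat.add (Nat.add (Nat.add (Nat.add (Nat.add (Nat.add (Nat.add (Nat.add (Nat.add (Nat.add (Nat.add C (Nat.mul x9003 (nat_lit 2))) x22125) x4629) x13377) x7545) x9489) x8841) x9021) x8997) x9009) x9001)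
    (Nat.add (Nat.add (Nat.add (Nat.add (Nat.add (Nat.add (Nat.add (Nat.add (Nat.add C x9009) x22131) x4635) x13383) x7551) x9495) x8847) x9027) x9003)
    (Nat.sub (Nat.add (Nat.add (Nat.add (Nat.add (Nat.add (Nat.add (Nat.add (Nat.add (Nat.add (Nat.add C x9019) x22141) x4645) x13393) x7561) x9505) x8857) x9073) x9001) x9021) x28701)
    (Nat.add (Nat.add (Nat.add (Nat.add (Nat.add (Nat.add (Nat.add (Nat.add (Nat.add (Nat.add (Nat.add C x9021) x22143) x4647) x13395) x7563) x9507) x8859) x9075) x9003) x9027) x9019)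
    (Nat.add (Nat.add (Nat.add (Nat.add (Nat.add (Nat.add (Nat.add (Nat.add (Nat.add (Nat.add (Nat.add C (Nat.mul x9027 (nat_lit 2))) x22149) x4653) x13401) x7569) x9513) x8865) x9081) x9009) x9045) x9021)
    (Nat.add (Nat.add (Nat.add (Nat.add (Nat.add (Nat.add (Nat.add (Nat.add (Nat.add C x9045) x22167) x4671) x13419) x7587) x9531) x8883) x9099) x9027)
    (Nat.sub (Nat.add (Nat.add (Nat.add (Nat.add (Nat.add (Nat.add (Nat.add (Nat.add (Nat.add (Nat.add C (Nat.mul x9073 (nat_lit 2))) x22195) x4699) x13447) x7615) x9559) x8911) x9235) x9019) x9075) x28755)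
    (Nat.add (Nat.add (Nat.add (Nat.add (Nat.add (Nat.add (Nat.add (Nat.add (Nat.add (Nat.add (Nat.add C (Nat.mul x9075 (nat_lit 2))) x22197) x4701) x13449) x7617) x9561) x8913) x9237) x9021) x9081) x9073)
    (Nat.add (Nat.add (Nat.add (Nat.add (Nat.add (Nat.add (Nat.add (Nat.add (Nat.add (Nat.add (Nat.add C (Nat.mul x9081 (nat_lit 2))) x22203) x4707) x13455) x7623) x9567) x8919) x9243) x9027) x9099) x9075)
    (Nat.add (Nat.add (Nat.add (Nat.add (Nat.add (Nat.add (Nat.add (Nat.add (Nat.add (Nat.add (Nat.add C (Nat.mul x9099 (nat_lit 3))) x22221) x4725) x13473) x7641) x9585) x8937) x9261) x9045) x9153) x9081)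
    (Nat.add (Nat.add (Nat.add (Nat.add (Nat.add (Nat.add (Nat.add (Nat.add C (Nat.mul x9153 (nat_lit 3))) x22275) x4779) x13527) x7695) x9639) x9315) x9099)
    (Nat.sub (Nat.add (Nat.add (Nat.add (Nat.add (Nat.add (Nat.add (Nat.add (Nat.add C x9235) x22357) x4861) x13609) x7777) x9721) x9073) x9237) x28917)
    (Nat.add (Nat.add (Nat.add (Nat.add (Nat.add (Nat.add (Nat.add (Nat.add (Nat.add C x9237) x22359) x4863) x13611) x7779) x9723) x9075) x9243) x9235)
    (Nat.add (Nat.add (Nat.add (Nat.add (Nat.add (Nat.add (Nat.add (Nat.add (Nat.add C x9243) x22365) x4869) x13617) x7785) x9729) x9081) x9261) x9237)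
    (Nat.add (Nat.add (Nat.add (Nat.add (Nat.add (Nat.add (Nat.add (Nat.add (Nat.add C x9261) x22383) x4887) x13635) x7803) x9747) x9099) x9315) x9243)
    (Nat.add (Nat.add (Nat.add (Nat.add (Nat.add (Nat.add (Nat.add (Nat.add C (Nat.mul x9315 (nat_lit 3))) x22437) x4941) x13689) x7857) x9801) x9153) x9261)
    (Nat.sub (Nat.add (Nat.add (Nat.add (Nat.add (Nat.add (Nat.add (Nat.add (Nat.add C (Nat.mul x9479 (nat_lit 2))) x22601) x5105) x13853) x8021) x10937) x8993) x9481) x29161)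
    (Nat.sub (Nat.add (Nat.add (Nat.add (Nat.add (Nat.add (Nat.add (Nat.add (Nat.add (Nat.add (Nat.add C (Nat.mul x9481 (nat_lit 3))) x22603) x5107) x13855) x8023) x10939) x8995) x9487) x9479) x9483) x29163)
    (Nat.add (Nat.add (Nat.add (Nat.add (Nat.add (Nat.add (Nat.add (Nat.add (Nat.add C (Nat.mul x9483 (nat_lit 2))) x22605) x5109) x13857) x8025) x10941) x8997) x9489) x9481)
    (Nat.sub (Nat.add (Nat.add (Nat.add (Nat.add (Nat.add (Nat.add (Nat.add (Nat.add (Nat.add (Nat.add C (Nat.mul x9487 (nat_lit 2))) x22609) x5113) x13861) x8029) x10945) x9001) x9505) x9481) x9489) x29169)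
    (Nat.add (Nat.add (Nat.add (Nat.add (Nat.add (Nat.add (Nat.add (Nat.add (Nat.add (Nat.add (Nat.add C (Nat.mul x9489 (nat_lit 3))) x22611) x5115) x13863) x8031) x10947) x9003) x9507) x9483) x9495) x9487)
    (Nat.add (Nat.add (Nat.add (Nat.add (Nat.add (Nat.add (Nat.add (Nat.add (Nat.add C (Nat.mul x9495 (nat_lit 2))) x22617) x5121) x13869) x8037) x10953) x9009) x9513) x9489)
    (Nat.sub (Nat.add (Nat.add (Nat.add (Nat.add (Nat.add (Nat.add (Nat.add (Nat.add (Nat.add (Nat.add C (Nat.mul x9505 (nat_lit 2))) x22627) x5131) x13879) x8047) x10963) x9019) x9559) x9487) x9507) x29187)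
    (Nat.add (Nat.add (Nat.add (Nat.add (Nat.add (Nat.add (Nat.add (Nat.add (Nat.add (Nat.add (Nat.add C (Nat.mul x9507 (nat_lit 2))) x22629) x5133) x13881) x8049) x10965) x9021) x9561) x9489) x9513) x9505)
    (Nat.add (Nat.add (Nat.add (Nat.add (Nat.add (Nat.add (Nat.add (Nat.add (Nat.add (Nat.add (Nat.add C (Nat.mul x9513 (nat_lit 3))) x22635) x5139) x13887) x8055) x10971) x9027) x9567) x9495) x9531) x9507)
    (Nat.add (Nat.add (Nat.add (Nat.add (Nat.add (Nat.add (Nat.add (Nat.add (Nat.add C (Nat.mul x9531 (nat_lit 2))) x22653) x5157) x13905) x8073) x10989) x9045) x9585) x9513)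
    (Nat.sub (Nat.add (Nat.add (Nat.add (Nat.add (Nat.add (Nat.add (Nat.add (Nat.add (Nat.add (Nat.add C (Nat.mul x9559 (nat_lit 2))) x22681) x5185) x13933) x8101) x11017) x9073) x9721) x9505) x9561) x29241)
    (Nat.add (Nat.add (Nat.add (Nat.add (Nat.add (Nat.add (Nat.add (Nat.add (Nat.add (Nat.add (Nat.add C (Nat.mul x9561 (nat_lit 2))) x22683) x5187) x13935) x8103) x11019) x9075) x9723) x9507) x9567) x9559)
    (Nat.add (Nat.add (Nat.add (Nat.add (Nat.add (Nat.add (Nat.add (Nat.add (Nat.add (Nat.add (Nat.add C (Nat.mul x9567 (nat_lit 2))) x22689) x5193) x13941) x8109) x11025) x9081) x9729) x9513) x9585) x9561)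
    (Nat.add (Nat.add (Nat.add (Nat.add (Nat.add (Nat.add (Nat.add (Nat.add (Nat.add (Nat.add (Nat.add C (Nat.mul x9585 (nat_lit 3))) x22707) x5211) x13959) x8127) x11043) x9099) x9747) x9531) x9639) x9567)
    (Nat.add (Nat.add (Nat.add (Nat.add (Nat.add (Nat.add (Nat.add (Nat.add (Nat.add C (Nat.mul x9639 (nat_lit 2))) x22761) x5265) x14013) x8181) x11097) x9153) x9801) x9585)
    (Nat.sub (Nat.add (Nat.add (Nat.add (Nat.add (Nat.add (Nat.add (Nat.add (Nat.add (Nat.add (Nat.add C (Nat.mul x9721 (nat_lit 3))) x22843) x5347) x14095) x8263) x11179) x9235) x10207) x9559) x9723) x29403)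
    (Nat.add (Nat.add (Nat.add (Nat.add (Nat.add (Nat.add (Nat.add (Nat.add (Nat.add (Nat.add (Nat.add C (Nat.mul x9723 (nat_lit 3))) x22845) x5349) x14097) x8265) x11181) x9237) x10209) x9561) x9729) x9721)
    (Nat.add (Nat.add (Nat.add (Nat.add (Nat.add (Nat.add (Nat.add (Nat.add (Nat.add (Nat.add (Nat.add C (Nat.mul x9729 (nat_lit 3))) x22851) x5355) x14103) x8271) x11187) x9243) x10215) x9567) x9747) x9723)
    (Nat.add (Nat.add (Nat.add (Nat.add (Nat.add (Nat.add (Nat.add (Nat.add (Nat.add (Nat.add (Nat.add C (Nat.mul x9747 (nat_lit 3))) x22869) x5373) x14121) x8289) x11205) x9261) x10233) x9585) x9801) x9729)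
    (Nat.add (Nat.add (Nat.add (Nat.add (Nat.add (Nat.add (Nat.add (Nat.add (Nat.add (Nat.add (Nat.add C (Nat.mul x9801 (nat_lit 4))) x22923) x5427) x14175) x8343) x11259) x9315) x10287) x9639) x9963) x9747)
    (Nat.add (Nat.add (Nat.add (Nat.add (Nat.add (Nat.add (Nat.add (Nat.add C (Nat.mul x9963 (nat_lit 4))) x23085) x5589) x14337) x8505) x11421) x10449) x9801)
    (Nat.sub (Nat.add (Nat.add (Nat.add (Nat.add (Nat.add (Nat.add (Nat.add C (Nat.mul x10207 (nat_lit 3))) x23329) x5833) x14581) x11665) x9721) x10209) x29889)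
    (Nat.add (Nat.add (Nat.add (Nat.add (Nat.add (Nat.add (Nat.add (Nat.add C (Nat.mul x10209 (nat_lit 3))) x23331) x5835) x14583) x11667) x9723) x10215) x10207)
    (Nat.add (Nat.add (Nat.add (Nat.add (Nat.add (Nat.add (Nat.add (Nat.add C (Nat.mul x10215 (nat_lit 3))) x23337) x5841) x14589) x11673) x9729) x10233) x10209)
    (Nat.add (Nat.add (Nat.add (Nat.add (Nat.add (Nat.add (Nat.add (Nat.add C (Nat.mul x10233 (nat_lit 3))) x23355) x5859) x14607) x11691) x9747) x10287) x10215)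
    (Nat.add (Nat.add (Nat.add (Nat.add (Nat.add (Nat.add (Nat.add (Nat.add C (Nat.mul x10287 (nat_lit 3))) x23409) x5913) x14661) x11745) x9801) x10449) x10233)
    (Nat.add (Nat.add (Nat.add (Nat.add (Nat.add (Nat.add (Nat.add C (Nat.mul x10449 (nat_lit 5))) x23571) x6075) x14823) x11907) x9963) x10287)
    (Nat.sub (Nat.add (Nat.add (Nat.add (Nat.add (Nat.add C (Nat.mul x10937 (nat_lit 2))) x24059) x15311) x9479) x10939) x30619)
    (Nat.sub (Nat.add (Nat.add (Nat.add (Nat.add (Nat.add (Nat.add (Nat.add C (Nat.mul x10939 (nat_lit 3))) x24061) x15313) x9481) x10945) x10937) x10941) x30621)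
    (Nat.add (Nat.add (Nat.add (Nat.add (Nat.add (Nat.add C (Nat.mul x10941 (nat_lit 2))) x24063) x15315) x9483) x10947) x10939)
    (Nat.sub (Nat.add (Nat.add (Nat.add (Nat.add (Nat.add (Nat.add (Nat.add C (Nat.mul x10945 (nat_lit 2))) x24067) x15319) x9487) x10963) x10939) x10947) x30627)
    (Nat.add (Nat.add (Nat.add (Nat.add (Nat.add (Nat.add (Nat.add (Nat.add C (Nat.mul x10947 (nat_lit 3))) x24069) x15321) x9489) x10965) x10941) x10953) x10945)
    (Nat.add (Nat.add (Nat.add (Nat.add (Nat.add (Nat.add C (Nat.mul x10953 (nat_lit 2))) x24075) x15327) x9495) x10971) x10947)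
    (Nat.sub (Nat.add (Nat.add (Nat.add (Nat.add (Nat.add (Nat.add (Nat.add C (Nat.mul x10963 (nat_lit 2))) x24085) x15337) x9505) x11017) x10945) x10965) x30645)
    (Nat.add (Nat.add (Nat.add (Nat.add (Nat.add (Nat.add (Nat.add (Nat.add C (Nat.mul x10965 (nat_lit 2))) x24087) x15339) x9507) x11019) x10947) x10971) x10963)
    (Nat.add (Nat.add (Nat.add (Nat.add (Nat.add (Nat.add (Nat.add (Nat.add C (Nat.mul x10971 (nat_lit 3))) x24093) x15345) x9513) x11025) x10953) x10989) x10965)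
    (Nat.add (Nat.add (Nat.add (Nat.add (Nat.add (Nat.add C (Nat.mul x10989 (nat_lit 2))) x24111) x15363) x9531) x11043) x10971)
    (Nat.sub (Nat.add (Nat.add (Nat.add (Nat.add (Nat.add (Nat.add (Nat.add C (Nat.mul x11017 (nat_lit 2))) x24139) x15391) x9559) x11179) x10963) x11019) x30699)
    (Nat.add (Nat.add (Nat.add (Nat.add (Nat.add (Nat.add (Nat.add (Nat.add C (Nat.mul x11019 (nat_lit 2))) x24141) x15393) x9561) x11181) x10965) x11025) x11017)
    (Nat.add (Nat.add (Nat.add (Nat.add (Nat.add (Nat.add (Nat.add (Nat.add C (Nat.mul x11025 (nat_lit 2))) x24147) x15399) x9567) x11187) x10971) x11043) x11019)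
    (Nat.add (Nat.add (Nat.add (Nat.add (Nat.add (Nat.add (Nat.add (Nat.add C (Nat.mul x11043 (nat_lit 3))) x24165) x15417) x9585) x11205) x10989) x11097) x11025)
    (Nat.add (Nat.add (Nat.add (Nat.add (Nat.add (Nat.add C (Nat.mul x11097 (nat_lit 2))) x24219) x15471) x9639) x11259) x11043)
    (Nat.sub (Nat.add (Nat.add (Nat.add (Nat.add (Nat.add (Nat.add (Nat.add C (Nat.mul x11179 (nat_lit 2))) x24301) x15553) x9721) x11665) x11017) x11181) x30861)
    (Nat.add (Nat.add (Nat.add (Nat.add (Nat.add (Nat.add (Nat.add (Nat.add C (Nat.mul x11181 (nat_lit 2))) x24303) x15555) x9723) x11667) x11019) x11187) x11179)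
    (Nat.add (Nat.add (Nat.add (Nat.add (Nat.add (Nat.add (Nat.add (Nat.add C (Nat.mul x11187 (nat_lit 2))) x24309) x15561) x9729) x11673) x11025) x11205) x11181)
    (Nat.add (Nat.add (Nat.add (Nat.add (Nat.add (Nat.add (Nat.add (Nat.add C (Nat.mul x11205 (nat_lit 2))) x24327) x15579) x9747) x11691) x11043) x11259) x11187)
    (Nat.add (Nat.add (Nat.add (Nat.add (Nat.add (Nat.add (Nat.add (Nat.add C (Nat.mul x11259 (nat_lit 3))) x24381) x15633) x9801) x11745) x11097) x11421) x11205)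
    (Nat.add (Nat.add (Nat.add (Nat.add (Nat.add (Nat.add C (Nat.mul x11421 (nat_lit 2))) x24543) x15795) x9963) x11907) x11259)
    (Nat.sub (Nat.add (Nat.add (Nat.add (Nat.add (Nat.add (Nat.add C (Nat.mul x11665 (nat_lit 4))) x24787) x16039) x10207) x11179) x11667) x31347)
    (Nat.add (Nat.add (Nat.add (Nat.add (Nat.add (Nat.add (Nat.add C (Nat.mul x11667 (nat_lit 4))) x24789) x16041) x10209) x11181) x11673) x11665)
    (Nat.add (Nat.add (Nat.add (Nat.add (Nat.add (Nat.add (Nat.add C (Nat.mul x11673 (nat_lit 4))) x24795) x16047) x10215) x11187) x11691) x11667)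
    (Nat.add (Nat.add (Nat.add (Nat.add (Nat.add (Nat.add (Nat.add C (Nat.mul x11691 (nat_lit 4))) x24813) x16065) x10233) x11205) x11745) x11673)
    (Nat.add (Nat.add (Nat.add (Nat.add (Nat.add (Nat.add (Nat.add C (Nat.mul x11745 (nat_lit 4))) x24867) x16119) x10287) x11259) x11907) x11691)
    (Nat.add (Nat.add (Nat.add (Nat.add (Nat.add (Nat.add (Nat.add C (Nat.mul x11907 (nat_lit 5))) x25029) x16281) x10449) x11421) x12393) x11745)
    (Nat.add (Nat.add (Nat.add (Nat.add C (Nat.mul x12393 (nat_lit 6))) x25515) x16767) x11907)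
    (Nat.sub (Nat.add (Nat.add (Nat.add (Nat.add (Nat.add C (Nat.mul x13127 (nat_lit 2))) x26249) x8753) x13133) x13129) x32809)
    (Nat.sub (Nat.add (Nat.add (Nat.add (Nat.add (Nat.add C (Nat.mul x13129 (nat_lit 2))) x26251) x8755) x13135) x13127) x32811)
    (Nat.sub (Nat.add (Nat.add (Nat.add (Nat.add (Nat.add C x26255) x8759) x13151) x13127) x13135) x32815)
    (Nat.sub (Nat.add (Nat.add (Nat.add (Nat.add (Nat.add (Nat.add (Nat.add (Nat.add C (Nat.mul x13135 (nat_lit 2))) x26257) x8761) x13153) x13129) x13141) x13133) x13137) x32817)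
    (Nat.add (Nat.add (Nat.add (Nat.add (Nat.add (Nat.add C (Nat.mul x13137 (nat_lit 2))) x26259) x8763) x13155) x13143) x13135)
    (Nat.sub (Nat.add (Nat.add (Nat.add (Nat.add (Nat.add C x26263) x8767) x13159) x13135) x13143) x32823)
    (Nat.add (Nat.add (Nat.add (Nat.add (Nat.add (Nat.add C (Nat.mul x13143 (nat_lit 2))) x26265) x8769) x13161) x13137) x13141)
    (Nat.sub (Nat.add (Nat.add (Nat.add (Nat.add (Nat.add C x26273) x8777) x13205) x13133) x13153) x32833)
    (Nat.sub (Nat.add (Nat.add (Nat.add (Nat.add (Nat.add (Nat.add (Nat.add (Nat.add C x13153) x26275) x8779) x13207) x13135) x13159) x13151) x13155) x32835)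
    (Nat.add (Nat.add (Nat.add (Nat.add (Nat.add (Nat.add C x26277) x8781) x13209) x13137) x13161) x13153)
    (Nat.sub (Nat.add (Nat.add (Nat.add (Nat.add (Nat.add (Nat.add (Nat.add (Nat.add C x13159) x26281) x8785) x13213) x13141) x13177) x13153) x13161) x32841)
    (Nat.add (Nat.add (Nat.add (Nat.add (Nat.add (Nat.add (Nat.add (Nat.add (Nat.add C (Nat.mul x13161 (nat_lit 2))) x26283) x8787) x13215) x13143) x13179) x13155) x13167) x13159)
    (Nat.add (Nat.add (Nat.add (Nat.add (Nat.add (Nat.add C (Nat.mul x13167 (nat_lit 2))) x26289) x8793) x13221) x13185) x13161)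
    (Nat.sub (Nat.add (Nat.add (Nat.add (Nat.add (Nat.add C x26299) x8803) x13231) x13159) x13179) x32859)
    (Nat.add (Nat.add (Nat.add (Nat.add (Nat.add (Nat.add C x26301) x8805) x13233) x13161) x13185) x13177)
    (Nat.add (Nat.add (Nat.add (Nat.add (Nat.add (Nat.add C (Nat.mul x13185 (nat_lit 2))) x26307) x8811) x13239) x13167) x13179)
    (Nat.sub (Nat.add (Nat.add (Nat.add (Nat.add (Nat.add C x26327) x8831) x13367) x13151) x13207) x32887)
    (Nat.sub (Nat.add (Nat.add (Nat.add (Nat.add (Nat.add (Nat.add (Nat.add (Nat.add C x13207) x26329) x8833) x13369) x13153) x13213) x13205) x13209) x32889)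
    (Nat.add (Nat.add (Nat.add (Nat.add (Nat.add (Nat.add C x26331) x8835) x13371) x13155) x13215) x13207)
    (Nat.sub (Nat.add (Nat.add (Nat.add (Nat.add (Nat.add (Nat.add (Nat.add C x26335) x8839) x13375) x13159) x13231) x13207) x13215) x32895)
    (Nat.add (Nat.add (Nat.add (Nat.add (Nat.add (Nat.add (Nat.add (Nat.add (Nat.add C x13215) x26337) x8841) x13377) x13161) x13233) x13209) x13221) x13213)
    (Nat.add (Nat.add (Nat.add (Nat.add (Nat.add (Nat.add C x26343) x8847) x13383) x13167) x13239) x13215)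
    (Nat.sub (Nat.add (Nat.add (Nat.add (Nat.add (Nat.add (Nat.add (Nat.add (Nat.add C x13231) x26353) x8857) x13393) x13177) x13285) x13213) x13233) x32913)
    (Nat.add (Nat.add (Nat.add (Nat.add (Nat.add (Nat.add (Nat.add (Nat.add (Nat.add C x13233) x26355) x8859) x13395) x13179) x13287) x13215) x13239) x13231)
    (Nat.add (Nat.add (Nat.add (Nat.add (Nat.add (Nat.add (Nat.add (Nat.add (Nat.add C (Nat.mul x13239 (nat_lit 2))) x26361) x8865) x13401) x13185) x13293) x13221) x13257) x13233)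
    (Nat.add (Nat.add (Nat.add (Nat.add (Nat.add (Nat.add C (Nat.mul x13257 (nat_lit 2))) x26379) x8883) x13419) x13311) x13239)
    (Nat.sub (Nat.add (Nat.add (Nat.add (Nat.add (Nat.add C x26407) x8911) x13447) x13231) x13287) x32967)
    (Nat.add (Nat.add (Nat.add (Nat.add (Nat.add (Nat.add C x26409) x8913) x13449) x13233) x13293) x13285)
    (Nat.add (Nat.add (Nat.add (Nat.add (Nat.add (Nat.add C x26415) x8919) x13455) x13239) x13311) x13287)
    (Nat.add (Nat.add (Nat.add (Nat.add (Nat.add (Nat.add C (Nat.mul x13311 (nat_lit 2))) x26433) x8937) x13473) x13257) x13293)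
    (Nat.sub (Nat.add (Nat.add (Nat.add (Nat.add (Nat.add C x26489) x8993) x13853) x13205) x13369) x33049)
    (Nat.sub (Nat.add (Nat.add (Nat.add (Nat.add (Nat.add (Nat.add (Nat.add (Nat.add C x13369) x26491) x8995) x13855) x13207) x13375) x13367) x13371) x33051)
    (Nat.add (Nat.add (Nat.add (Nat.add (Nat.add (Nat.add C x26493) x8997) x13857) x13209) x13377) x13369)
    (Nat.sub (Nat.add (Nat.add (Nat.add (Nat.add (Nat.add (Nat.add (Nat.add C x26497) x9001) x13861) x13213) x13393) x13369) x13377) x33057)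
    (Nat.add (Nat.add (Nat.add (Nat.add (Nat.add (Nat.add (Nat.add (Nat.add (Nat.add C x13377) x26499) x9003) x13863) x13215) x13395) x13371) x13383) x13375)
    (Nat.add (Nat.add (Nat.add (Nat.add (Nat.add (Nat.add C x26505) x9009) x13869) x13221) x13401) x13377)
    (Nat.sub (Nat.add (Nat.add (Nat.add (Nat.add (Nat.add (Nat.add (Nat.add C x26515) x9019) x13879) x13231) x13447) x13375) x13395) x33075)
    (Nat.add (Nat.add (Nat.add (Nat.add (Nat.add (Nat.add (Nat.add (Nat.add C x26517) x9021) x13881) x13233) x13449) x13377) x13401) x13393)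
    (Nat.add (Nat.add (Nat.add (Nat.add (Nat.add (Nat.add (Nat.add (Nat.add (Nat.add C x13401) x26523) x9027) x13887) x13239) x13455) x13383) x13419) x13395)
    (Nat.add (Nat.add (Nat.add (Nat.add (Nat.add (Nat.add C x26541) x9045) x13905) x13257) x13473) x13401)
    (Nat.sub (Nat.add (Nat.add (Nat.add (Nat.add (Nat.add (Nat.add (Nat.add (Nat.add C x13447) x26569) x9073) x13933) x13285) x13609) x13393) x13449) x33129)
    (Nat.add (Nat.add (Nat.add (Nat.add (Nat.add (Nat.add (Nat.add (Nat.add (Nat.add C x13449) x26571) x9075) x13935) x13287) x13611) x13395) x13455) x13447)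
    (Nat.add (Nat.add (Nat.add (Nat.add (Nat.add (Nat.add (Nat.add (Nat.add (Nat.add C x13455) x26577) x9081) x13941) x13293) x13617) x13401) x13473) x13449)
    (Nat.add (Nat.add (Nat.add (Nat.add (Nat.add (Nat.add (Nat.add (Nat.add (Nat.add C (Nat.mul x13473 (nat_lit 2))) x26595) x9099) x13959) x13311) x13635) x13419) x13527) x13455)
    (Nat.add (Nat.add (Nat.add (Nat.add (Nat.add (Nat.add C (Nat.mul x13527 (nat_lit 2))) x26649) x9153) x14013) x13689) x13473)
    (Nat.sub (Nat.add (Nat.add (Nat.add (Nat.add (Nat.add C x26731) x9235) x14095) x13447) x13611) x33291)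
    (Nat.add (Nat.add (Nat.add (Nat.add (Nat.add (Nat.add C x26733) x9237) x14097) x13449) x13617) x13609)
    (Nat.add (Nat.add (Nat.add (Nat.add (Nat.add (Nat.add C x26739) x9243) x14103) x13455) x13635) x13611)
    (Nat.add (Nat.add (Nat.add (Nat.add (Nat.add (Nat.add C x26757) x9261) x14121) x13473) x13689) x13617)
    (Nat.add (Nat.add (Nat.add (Nat.add (Nat.add (Nat.add C (Nat.mul x13689 (nat_lit 2))) x26811) x9315) x14175) x13527) x13635)
    (Nat.sub (Nat.add (Nat.add (Nat.add (Nat.add (Nat.add C x26975) x9479) x15311) x13367) x13855) x33535)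
    (Nat.sub (Nat.add (Nat.add (Nat.add (Nat.add (Nat.add (Nat.add (Nat.add (Nat.add C x13855) x26977) x9481) x15313) x13369) x13861) x13853) x13857) x33537)
    (Nat.add (Nat.add (Nat.add (Nat.add (Nat.add (Nat.add C x26979) x9483) x15315) x13371) x13863) x13855)
    (Nat.sub (Nat.add (Nat.add (Nat.add (Nat.add (Nat.add (Nat.add (Nat.add C x26983) x9487) x15319) x13375) x13879) x13855) x13863) x33543)
    (Nat.add (Nat.add (Nat.add (Nat.add (Nat.add (Nat.add (Nat.add (Nat.add (Nat.add C x13863) x26985) x9489) x15321) x13377) x13881) x13857) x13869) x13861)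
    (Nat.add (Nat.add (Nat.add (Nat.add (Nat.add (Nat.add C x26991) x9495) x15327) x13383) x13887) x13863)
    (Nat.sub (Nat.add (Nat.add (Nat.add (Nat.add (Nat.add (Nat.add (Nat.add C x27001) x9505) x15337) x13393) x13933) x13861) x13881) x33561)
    (Nat.add (Nat.add (Nat.add (Nat.add (Nat.add (Nat.add (Nat.add (Nat.add C x27003) x9507) x15339) x13395) x13935) x13863) x13887) x13879)
    (Nat.add (Nat.add (Nat.add (Nat.add (Nat.add (Nat.add (Nat.add (Nat.add (Nat.add C x13887) x27009) x9513) x15345) x13401) x13941) x13869) x13905) x13881)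
    (Nat.add (Nat.add (Nat.add (Nat.add (Nat.add (Nat.add C x27027) x9531) x15363) x13419) x13959) x13887)
    (Nat.sub (Nat.add (Nat.add (Nat.add (Nat.add (Nat.add (Nat.add (Nat.add C x27055) x9559) x15391) x13447) x14095) x13879) x13935) x33615)
    (Nat.add (Nat.add (Nat.add (Nat.add (Nat.add (Nat.add (Nat.add (Nat.add C x27057) x9561) x15393) x13449) x14097) x13881) x13941) x13933)
    (Nat.add (Nat.add (Nat.add (Nat.add (Nat.add (Nat.add (Nat.add (Nat.add C x27063) x9567) x15399) x13455) x14103) x13887) x13959) x13935)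
    (Nat.add (Nat.add (Nat.add (Nat.add (Nat.add (Nat.add (Nat.add (Nat.add (Nat.add C x13959) x27081) x9585) x15417) x13473) x14121) x13905) x14013) x13941)
    (Nat.add (Nat.add (Nat.add (Nat.add (Nat.add (Nat.add C x27135) x9639) x15471) x13527) x14175) x13959)
    (Nat.sub (Nat.add (Nat.add (Nat.add (Nat.add (Nat.add (Nat.add (Nat.add (Nat.add C x14095) x27217) x9721) x15553) x13609) x14581) x13933) x14097) x33777)
    (Nat.add (Nat.add (Nat.add (Nat.add (Nat.add (Nat.add (Nat.add (Nat.add (Nat.add C x14097) x27219) x9723) x15555) x13611) x14583) x13935) x14103) x14095)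
    (Nat.add (Nat.add (Nat.add (Nat.add (Nat.add (Nat.add (Nat.add (Nat.add (Nat.add C x14103) x27225) x9729) x15561) x13617) x14589) x13941) x14121) x14097)
    (Nat.add (Nat.add (Nat.add (Nat.add (Nat.add (Nat.add (Nat.add (Nat.add (Nat.add C x14121) x27243) x9747) x15579) x13635) x14607) x13959) x14175) x14103)
    (Nat.add (Nat.add (Nat.add (Nat.add (Nat.add (Nat.add (Nat.add (Nat.add (Nat.add C (Nat.mul x14175 (nat_lit 2))) x27297) x9801) x15633) x13689) x14661) x14013) x14337) x14121)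
    (Nat.add (Nat.add (Nat.add (Nat.add (Nat.add (Nat.add C (Nat.mul x14337 (nat_lit 2))) x27459) x9963) x15795) x14823) x14175)
    (Nat.sub (Nat.add (Nat.add (Nat.add (Nat.add (Nat.add C x27703) x10207) x16039) x14095) x14583) x34263)
    (Nat.add (Nat.add (Nat.add (Nat.add (Nat.add (Nat.add C x27705) x10209) x16041) x14097) x14589) x14581)
    (Nat.add (Nat.add (Nat.add (Nat.add (Nat.add (Nat.add C x27711) x10215) x16047) x14103) x14607) x14583)
    (Nat.add (Nat.add (Nat.add (Nat.add (Nat.add (Nat.add C x27729) x10233) x16065) x14121) x14661) x14589)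
    (Nat.add (Nat.add (Nat.add (Nat.add (Nat.add (Nat.add C x27783) x10287) x16119) x14175) x14823) x14607)
    (Nat.add (Nat.add (Nat.add (Nat.add (Nat.add (Nat.add C (Nat.mul x14823 (nat_lit 2))) x27945) x10449) x16281) x14337) x14661)
    (Nat.sub (Nat.add (Nat.add (Nat.add (Nat.add (Nat.add C (Nat.mul x15311 (nat_lit 2))) x28433) x10937) x13853) x15313) x34993)
    (Nat.sub (Nat.add (Nat.add (Nat.add (Nat.add (Nat.add (Nat.add (Nat.add C (Nat.mul x15313 (nat_lit 3))) x28435) x10939) x13855) x15319) x15311) x15315) x34995)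
    (Nat.add (Nat.add (Nat.add (Nat.add (Nat.add (Nat.add C (Nat.mul x15315 (nat_lit 2))) x28437) x10941) x13857) x15321) x15313)
    (Nat.sub (Nat.add (Nat.add (Nat.add (Nat.add (Nat.add (Nat.add (Nat.add C (Nat.mul x15319 (nat_lit 2))) x28441) x10945) x13861) x15337) x15313) x15321) x35001)
    (Nat.add (Nat.add (Nat.add (Nat.add (Nat.add (Nat.add (Nat.add (Nat.add C (Nat.mul x15321 (nat_lit 3))) x28443) x10947) x13863) x15339) x15315) x15327) x15319)
    (Nat.add (Nat.add (Nat.add (Nat.add (Nat.add (Nat.add C (Nat.mul x15327 (nat_lit 2))) x28449) x10953) x13869) x15345) x15321)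
    (Nat.sub (Nat.add (Nat.add (Nat.add (Nat.add (Nat.add (Nat.add (Nat.add C (Nat.mul x15337 (nat_lit 2))) x28459) x10963) x13879) x15391) x15319) x15339) x35019)
    (Nat.add (Nat.add (Nat.add (Nat.add (Nat.add (Nat.add (Nat.add (Nat.add C (Nat.mul x15339 (nat_lit 2))) x28461) x10965) x13881) x15393) x15321) x15345) x15337)
    (Nat.add (Nat.add (Nat.add (Nat.add (Nat.add (Nat.add (Nat.add (Nat.add C (Nat.mul x15345 (nat_lit 3))) x28467) x10971) x13887) x15399) x15327) x15363) x15339)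
    (Nat.add (Nat.add (Nat.add (Nat.add (Nat.add (Nat.add C (Nat.mul x15363 (nat_lit 2))) x28485) x10989) x13905) x15417) x15345)
    (Nat.sub (Nat.add (Nat.add (Nat.add (Nat.add (Nat.add (Nat.add (Nat.add C (Nat.mul x15391 (nat_lit 2))) x28513) x11017) x13933) x15553) x15337) x15393) x35073)
    (Nat.add (Nat.add (Nat.add (Nat.add (Nat.add (Nat.add (Nat.add (Nat.add C (Nat.mul x15393 (nat_lit 2))) x28515) x11019) x13935) x15555) x15339) x15399) x15391)
    (Nat.add (Nat.add (Nat.add (Nat.add (Nat.add (Nat.add (Nat.add (Nat.add C (Nat.mul x15399 (nat_lit 2))) x28521) x11025) x13941) x15561) x15345) x15417) x15393)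
    (Nat.add (Nat.add (Nat.add (Nat.add (Nat.add (Nat.add (Nat.add (Nat.add C (Nat.mul x15417 (nat_lit 3))) x28539) x11043) x13959) x15579) x15363) x15471) x15399)
    (Nat.add (Nat.add (Nat.add (Nat.add (Nat.add (Nat.add C (Nat.mul x15471 (nat_lit 2))) x28593) x11097) x14013) x15633) x15417)
    (Nat.sub (Nat.add (Nat.add (Nat.add (Nat.add (Nat.add (Nat.add (Nat.add C (Nat.mul x15553 (nat_lit 2))) x28675) x11179) x14095) x16039) x15391) x15555) x35235)
    (Nat.add (Nat.add (Nat.add (Nat.add (Nat.add (Nat.add (Nat.add (Nat.add C (Nat.mul x15555 (nat_lit 2))) x28677) x11181) x14097) x16041) x15393) x15561) x15553)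
    (Nat.add (Nat.add (Nat.add (Nat.add (Nat.add (Nat.add (Nat.add (Nat.add C (Nat.mul x15561 (nat_lit 2))) x28683) x11187) x14103) x16047) x15399) x15579) x15555)
    (Nat.add (Nat.add (Nat.add (Nat.add (Nat.add (Nat.add (Nat.add (Nat.add C (Nat.mul x15579 (nat_lit 2))) x28701) x11205) x14121) x16065) x15417) x15633) x15561)
    (Nat.add (Nat.add (Nat.add (Nat.add (Nat.add (Nat.add (Nat.add (Nat.add C (Nat.mul x15633 (nat_lit 3))) x28755) x11259) x14175) x16119) x15471) x15795) x15579)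
    (Nat.add (Nat.add (Nat.add (Nat.add (Nat.add (Nat.add C (Nat.mul x15795 (nat_lit 2))) x28917) x11421) x14337) x16281) x15633)
    (Nat.sub (Nat.add (Nat.add (Nat.add (Nat.add (Nat.add (Nat.add (Nat.add C (Nat.mul x16039 (nat_lit 3))) x29161) x11665) x14581) x17497) x15553) x16041) x35721)
    (Nat.add (Nat.add (Nat.add (Nat.add (Nat.add (Nat.add (Nat.add (Nat.add C (Nat.mul x16041 (nat_lit 3))) x29163) x11667) x14583) x17499) x15555) x16047) x16039)
    (Nat.add (Nat.add (Nat.add (Nat.add (Nat.add (Nat.add (Nat.add (Nat.add C (Nat.mul x16047 (nat_lit 3))) x29169) x11673) x14589) x17505) x15561) x16065) x16041)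
    (Nat.add (Nat.add (Nat.add (Nat.add (Nat.add (Nat.add (Nat.add (Nat.add C (Nat.mul x16065 (nat_lit 3))) x29187) x11691) x14607) x17523) x15579) x16119) x16047)
    (Nat.add (Nat.add (Nat.add (Nat.add (Nat.add (Nat.add (Nat.add (Nat.add C (Nat.mul x16119 (nat_lit 3))) x29241) x11745) x14661) x17577) x15633) x16281) x16065)
    (Nat.add (Nat.add (Nat.add (Nat.add (Nat.add (Nat.add (Nat.add (Nat.add C (Nat.mul x16281 (nat_lit 4))) x29403) x11907) x14823) x17739) x15795) x16767) x16119)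
    (Nat.add (Nat.add (Nat.add (Nat.add (Nat.add C (Nat.mul x16767 (nat_lit 4))) x29889) x12393) x18225) x16281)
    (Nat.sub (Nat.add (Nat.add (Nat.add (Nat.add C (Nat.mul x17497 (nat_lit 4))) x30619) x16039) x17499) x37179)
    (Nat.add (Nat.add (Nat.add (Nat.add (Nat.add C (Nat.mul x17499 (nat_lit 4))) x30621) x16041) x17505) x17497)
    (Nat.add (Nat.add (Nat.add (Nat.add (Nat.add C (Nat.mul x17505 (nat_lit 4))) x30627) x16047) x17523) x17499)
    (Nat.add (Nat.add (Nat.add (Nat.add (Nat.add C (Nat.mul x17523 (nat_lit 4))) x30645) x16065) x17577) x17505)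
    (Nat.add (Nat.add (Nat.add (Nat.add (Nat.add C (Nat.mul x17577 (nat_lit 4))) x30699) x16119) x17739) x17523)
    (Nat.add (Nat.add (Nat.add (Nat.add (Nat.add C (Nat.mul x17739 (nat_lit 4))) x30861) x16281) x18225) x17577)
    (Nat.add (Nat.add (Nat.add (Nat.add C (Nat.mul x18225 (nat_lit 6))) x31347) x16767) x17739)
    (Nat.sub (Nat.add (Nat.add (Nat.add C (Nat.mul x19691 (nat_lit 6))) x6569) x19697) x39373)
    (Nat.sub (Nat.add (Nat.add (Nat.add (Nat.add (Nat.add (Nat.add C (Nat.mul x19697 (nat_lit 5))) x6575) x19715) x19691) x19703) x19699) x39379)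
    (Nat.sub (Nat.sub (Nat.add (Nat.add (Nat.add (Nat.add (Nat.add C (Nat.mul x19699 (nat_lit 5))) x6577) x19717) x19705) x19697) x39381) x17)
    (Nat.sub (Nat.add (Nat.add (Nat.add (Nat.add (Nat.add C (Nat.mul x19703 (nat_lit 2))) x6581) x19721) x19697) x19705) x39385)
    (Nat.sub (Nat.sub (Nat.add (Nat.add (Nat.add (Nat.add (Nat.add (Nat.add C (Nat.mul x19705 (nat_lit 4))) x6583) x19723) x19699) x19703) x19707) x39387) x23)
    (Nat.sub (Nat.add (Nat.add (Nat.add (Nat.add C (Nat.mul x19707 (nat_lit 4))) x6585) x19725) x19705) x25)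
    (Nat.sub (Nat.add (Nat.add (Nat.add (Nat.add (Nat.add (Nat.add C (Nat.mul x19715 (nat_lit 4))) x6593) x19769) x19697) x19721) x19717) x39397)
    (Nat.sub (Nat.sub (Nat.add (Nat.add (Nat.add (Nat.add (Nat.add (Nat.add C (Nat.mul x19717 (nat_lit 3))) x6595) x19771) x19699) x19723) x19715) x39399) x35)
    (Nat.sub (Nat.add (Nat.add (Nat.add (Nat.add (Nat.add (Nat.add (Nat.add C (Nat.mul x19721 (nat_lit 3))) x6599) x19775) x19703) x19739) x19715) x19723) x39403)
    (Nat.sub (Nat.sub (Nat.add (Nat.add (Nat.add (Nat.add (Nat.add (Nat.add (Nat.add (Nat.add (Nat.add C (Nat.mul x19723 (nat_lit 4))) x6601) x19777) x19705) x19741) x19717) x19729) x19721) x19725) x39405) x41)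
    (Nat.sub (Nat.add (Nat.add (Nat.add (Nat.add (Nat.add (Nat.add (Nat.add C (Nat.mul x19725 (nat_lit 3))) x6603) x19779) x19707) x19743) x19731) x19723) x43)
    (Nat.sub (Nat.sub (Nat.add (Nat.add (Nat.add (Nat.add (Nat.add (Nat.add C (Nat.mul x19729 (nat_lit 3))) x6607) x19783) x19747) x19723) x19731) x39411) x47)
    (Nat.sub (Nat.add (Nat.add (Nat.add (Nat.add (Nat.add (Nat.add C (Nat.mul x19731 (nat_lit 4))) x6609) x19785) x19749) x19725) x19729) x49)
    (Nat.sub (Nat.add (Nat.add (Nat.add (Nat.add (Nat.add C (Nat.mul x19739 (nat_lit 2))) x6617) x19793) x19721) x19741) x39421)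
    (Nat.sub (Nat.sub (Nat.add (Nat.add (Nat.add (Nat.add (Nat.add (Nat.add (Nat.add C (Nat.mul x19741 (nat_lit 2))) x6619) x19795) x19723) x19747) x19739) x19743) x39423) x59)
    (Nat.sub (Nat.add (Nat.add (Nat.add (Nat.add (Nat.add C x6621) x19797) x19725) x19749) x19741) x61)
    (Nat.sub (Nat.sub (Nat.add (Nat.add (Nat.add (Nat.add (Nat.add (Nat.add C (Nat.mul x19747 (nat_lit 3))) x6625) x19801) x19729) x19741) x19749) x39429) x65)
    (Nat.sub (Nat.add (Nat.add (Nat.add (Nat.add (Nat.add (Nat.add (Nat.add C (Nat.mul x19749 (nat_lit 3))) x6627) x19803) x19731) x19743) x19755) x19747) x67)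
    (Nat.sub (Nat.add (Nat.add (Nat.add (Nat.add C (Nat.mul x19755 (nat_lit 4))) x6633) x19809) x19749) x73)
    (Nat.sub (Nat.add (Nat.add (Nat.add (Nat.add (Nat.add (Nat.add C (Nat.mul x19769 (nat_lit 4))) x6647) x19931) x19715) x19775) x19771) x39451)
    (Nat.sub (Nat.sub (Nat.add (Nat.add (Nat.add (Nat.add (Nat.add (Nat.add C (Nat.mul x19771 (nat_lit 3))) x6649) x19933) x19717) x19777) x19769) x39453) x89)
    (Nat.sub (Nat.add (Nat.add (Nat.add (Nat.add (Nat.add (Nat.add (Nat.add C (Nat.mul x19775 (nat_lit 2))) x6653) x19937) x19721) x19793) x19769) x19777) x39457)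
    (Nat.sub (Nat.sub (Nat.add (Nat.add (Nat.add (Nat.add (Nat.add (Nat.add (Nat.add (Nat.add (Nat.add C (Nat.mul x19777 (nat_lit 3))) x6655) x19939) x19723) x19795) x19771) x19783) x19775) x19779) x39459) x95)
    (Nat.sub (Nat.add (Nat.add (Nat.add (Nat.add (Nat.add (Nat.add (Nat.add C (Nat.mul x19779 (nat_lit 2))) x6657) x19941) x19725) x19797) x19785) x19777) x97)
    (Nat.sub (Nat.sub (Nat.add (Nat.add (Nat.add (Nat.add (Nat.add (Nat.add (Nat.add C x19783) x6661) x19945) x19729) x19801) x19777) x19785) x39465) x101)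
    (Nat.sub (Nat.add (Nat.add (Nat.add (Nat.add (Nat.add (Nat.add (Nat.add C (Nat.mul x19785 (nat_lit 2))) x6663) x19947) x19731) x19803) x19779) x19783) x103)
    (Nat.sub (Nat.add (Nat.add (Nat.add (Nat.add (Nat.add (Nat.add (Nat.add C (Nat.mul x19793 (nat_lit 3))) x6671) x19955) x19739) x19847) x19775) x19795) x39475)
    (Nat.sub (Nat.sub (Nat.add (Nat.add (Nat.add (Nat.add (Nat.add (Nat.add (Nat.add (Nat.add (Nat.add C (Nat.mul x19795 (nat_lit 3))) x6673) x19957) x19741) x19849) x19777) x19801) x19793) x19797) x39477) x113)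
    (Nat.sub (Nat.add (Nat.add (Nat.add (Nat.add (Nat.add (Nat.add (Nat.add (Nat.add C x19797) x6675) x19959) x19743) x19851) x19779) x19803) x19795) x115)
    (Nat.sub (Nat.sub (Nat.add (Nat.add (Nat.add (Nat.add (Nat.add (Nat.add (Nat.add (Nat.add (Nat.add C (Nat.mul x19801 (nat_lit 3))) x6679) x19963) x19747) x19855) x19783) x19819) x19795) x19803) x39483) x119)
    (Nat.sub (Nat.add (Nat.add (Nat.add (Nat.add (Nat.add (Nat.add (Nat.add (Nat.add (Nat.add (Nat.add C (Nat.mul x19803 (nat_lit 3))) x6681) x19965) x19749) x19857) x19785) x19821) x19797) x19809) x19801) x121)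
    (Nat.sub (Nat.add (Nat.add (Nat.add (Nat.add (Nat.add (Nat.add (Nat.add C (Nat.mul x19809 (nat_lit 3))) x6687) x19971) x19755) x19863) x19827) x19803) x127)
    (Nat.sub (Nat.sub (Nat.add (Nat.add (Nat.add (Nat.add (Nat.add (Nat.add C (Nat.mul x19819 (nat_lit 3))) x6697) x19981) x19873) x19801) x19821) x39501) x137)
    (Nat.sub (Nat.add (Nat.add (Nat.add (Nat.add (Nat.add (Nat.add (Nat.add C (Nat.mul x19821 (nat_lit 2))) x6699) x19983) x19875) x19803) x19827) x19819) x139)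
    (Nat.sub (Nat.add (Nat.add (Nat.add (Nat.add (Nat.add (Nat.add C (Nat.mul x19827 (nat_lit 4))) x6705) x19989) x19881) x19809) x19821) x145)
    (Nat.sub (Nat.add (Nat.add (Nat.add (Nat.add (Nat.add C (Nat.mul x19847 (nat_lit 2))) x6725) x20009) x19793) x19849) x39529)
    (Nat.sub (Nat.sub (Nat.add (Nat.add (Nat.add (Nat.add (Nat.add (Nat.add (Nat.add C (Nat.mul x19849 (nat_lit 2))) x6727) x20011) x19795) x19855) x19847) x19851) x39531) x167)
    (Nat.sub (Nat.add (Nat.add (Nat.add (Nat.add (Nat.add C x6729) x20013) x19797) x19857) x19849) x169)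
    (Nat.sub (Nat.sub (Nat.add (Nat.add (Nat.add (Nat.add (Nat.add (Nat.add (Nat.add C x19855) x6733) x20017) x19801) x19873) x19849) x19857) x39537) x173)
    (Nat.sub (Nat.add (Nat.add (Nat.add (Nat.add (Nat.add (Nat.add (Nat.add (Nat.add C x19857) x6735) x20019) x19803) x19875) x19851) x19863) x19855) x175)
    (Nat.sub (Nat.add (Nat.add (Nat.add (Nat.add (Nat.add C x6741) x20025) x19809) x19881) x19857) x181)
    (Nat.sub (Nat.sub (Nat.add (Nat.add (Nat.add (Nat.add (Nat.add (Nat.add C (Nat.mul x19873 (nat_lit 3))) x6751) x20035) x19819) x19855) x19875) x39555) x191)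
    (Nat.sub (Nat.add (Nat.add (Nat.add (Nat.add (Nat.add (Nat.add (Nat.add C (Nat.mul x19875 (nat_lit 2))) x6753) x20037) x19821) x19857) x19881) x19873) x193)
    (Nat.sub (Nat.add (Nat.add (Nat.add (Nat.add (Nat.add (Nat.add (Nat.add C (Nat.mul x19881 (nat_lit 3))) x6759) x20043) x19827) x19863) x19899) x19875) x199)
    (Nat.sub (Nat.add (Nat.add (Nat.add (Nat.add C (Nat.mul x19899 (nat_lit 4))) x6777) x20061) x19881) x217)
    (Nat.sub (Nat.add (Nat.add (Nat.add (Nat.add (Nat.add (Nat.add C (Nat.mul x19931 (nat_lit 4))) x6809) x20417) x19769) x19937) x19933) x39613)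
    (Nat.sub (Nat.sub (Nat.add (Nat.add (Nat.add (Nat.add (Nat.add (Nat.add C (Nat.mul x19933 (nat_lit 3))) x6811) x20419) x19771) x19939) x19931) x39615) x251)
    (Nat.sub (Nat.add (Nat.add (Nat.add (Nat.add (Nat.add (Nat.add (Nat.add C (Nat.mul x19937 (nat_lit 2))) x6815) x20423) x19775) x19955) x19931) x19939) x39619)
    (Nat.sub (Nat.sub (Nat.add (Nat.add (Nat.add (Nat.add (Nat.add (Nat.add (Nat.add (Nat.add (Nat.add C (Nat.mul x19939 (nat_lit 3))) x6817) x20425) x19777) x19957) x19933) x19945) x19937) x19941) x39621) x257)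
    (Nat.sub (Nat.add (Nat.add (Nat.add (Nat.add (Nat.add (Nat.add (Nat.add C (Nat.mul x19941 (nat_lit 2))) x6819) x20427) x19779) x19959) x19947) x19939) x259)
    (Nat.sub (Nat.sub (Nat.add (Nat.add (Nat.add (Nat.add (Nat.add (Nat.add (Nat.add C x19945) x6823) x20431) x19783) x19963) x19939) x19947) x39627) x263)
    (Nat.sub (Nat.add (Nat.add (Nat.add (Nat.add (Nat.add (Nat.add (Nat.add C (Nat.mul x19947 (nat_lit 2))) x6825) x20433) x19785) x19965) x19941) x19945) x265)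
    (Nat.sub (Nat.add (Nat.add (Nat.add (Nat.add (Nat.add (Nat.add (Nat.add C (Nat.mul x19955 (nat_lit 2))) x6833) x20441) x19793) x20009) x19937) x19957) x39637)
    (Nat.sub (Nat.sub (Nat.add (Nat.add (Nat.add (Nat.add (Nat.add (Nat.add (Nat.add (Nat.add (Nat.add C (Nat.mul x19957 (nat_lit 2))) x6835) x20443) x19795) x20011) x19939) x19963) x19955) x19959) x39639) x275)
    (Nat.sub (Nat.add (Nat.add (Nat.add (Nat.add (Nat.add (Nat.add (Nat.add C x6837) x20445) x19797) x20013) x19941) x19965) x19957) x277)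
    (Nat.sub (Nat.sub (Nat.add (Nat.add (Nat.add (Nat.add (Nat.add (Nat.add (Nat.add (Nat.add (Nat.add C (Nat.mul x19963 (nat_lit 2))) x6841) x20449) x19801) x20017) x19945) x19981) x19957) x19965) x39645) x281)
    (Nat.sub (Nat.add (Nat.add (Nat.add (Nat.add (Nat.add (Nat.add (Nat.add (Nat.add (Nat.add (Nat.add C (Nat.mul x19965 (nat_lit 2))) x6843) x20451) x19803) x20019) x19947) x19983) x19959) x19971) x19963) x283)
    (Nat.sub (Nat.add (Nat.add (Nat.add (Nat.add (Nat.add (Nat.add (Nat.add C (Nat.mul x19971 (nat_lit 2))) x6849) x20457) x19809) x20025) x19989) x19965) x289)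
    (Nat.sub (Nat.sub (Nat.add (Nat.add (Nat.add (Nat.add (Nat.add (Nat.add (Nat.add C x19981) x6859) x20467) x19819) x20035) x19963) x19983) x39663) x299)
    (Nat.sub (Nat.add (Nat.add (Nat.add (Nat.add (Nat.add (Nat.add (Nat.add C x6861) x20469) x19821) x20037) x19965) x19989) x19981) x301)
    (Nat.sub (Nat.add (Nat.add (Nat.add (Nat.add (Nat.add (Nat.add (Nat.add C (Nat.mul x19989 (nat_lit 2))) x6867) x20475) x19827) x20043) x19971) x19983) x307)
    (Nat.sub (Nat.add (Nat.add (Nat.add (Nat.add (Nat.add (Nat.add (Nat.add C (Nat.mul x20009 (nat_lit 3))) x6887) x20495) x19847) x20171) x19955) x20011) x39691)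
    (Nat.sub (Nat.sub (Nat.add (Nat.add (Nat.add (Nat.add (Nat.add (Nat.add (Nat.add (Nat.add (Nat.add C (Nat.mul x20011 (nat_lit 3))) x6889) x20497) x19849) x20173) x19957) x20017) x20009) x20013) x39693) x329)
    (Nat.sub (Nat.add (Nat.add (Nat.add (Nat.add (Nat.add (Nat.add (Nat.add (Nat.add C x20013) x6891) x20499) x19851) x20175) x19959) x20019) x20011) x331)
    (Nat.sub (Nat.sub (Nat.add (Nat.add (Nat.add (Nat.add (Nat.add (Nat.add (Nat.add (Nat.add (Nat.add C (Nat.mul x20017 (nat_lit 2))) x6895) x20503) x19855) x20179) x19963) x20035) x20011) x20019) x39699) x335)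
    (Nat.sub (Nat.add (Nat.add (Nat.add (Nat.add (Nat.add (Nat.add (Nat.add (Nat.add (Nat.add (Nat.add C (Nat.mul x20019 (nat_lit 2))) x6897) x20505) x19857) x20181) x19965) x20037) x20013) x20025) x20017) x337)
    (Nat.sub (Nat.add (Nat.add (Nat.add (Nat.add (Nat.add (Nat.add (Nat.add (Nat.add C x20025) x6903) x20511) x19863) x20187) x19971) x20043) x20019) x343)
    (Nat.sub (Nat.sub (Nat.add (Nat.add (Nat.add (Nat.add (Nat.add (Nat.add (Nat.add (Nat.add (Nat.add C (Nat.mul x20035 (nat_lit 3))) x6913) x20521) x19873) x20197) x19981) x20089) x20017) x20037) x39717) x353)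
    (Nat.sub (Nat.add (Nat.add (Nat.add (Nat.add (Nat.add (Nat.add (Nat.add (Nat.add (Nat.add (Nat.add C (Nat.mul x20037 (nat_lit 2))) x6915) x20523) x19875) x20199) x19983) x20091) x20019) x20043) x20035) x355)
    (Nat.sub (Nat.add (Nat.add (Nat.add (Nat.add (Nat.add (Nat.add (Nat.add (Nat.add (Nat.add (Nat.add C (Nat.mul x20043 (nat_lit 3))) x6921) x20529) x19881) x20205) x19989) x20097) x20025) x20061) x20037) x361)
    (Nat.sub (Nat.add (Nat.add (Nat.add (Nat.add (Nat.add (Nat.add (Nat.add C (Nat.mul x20061 (nat_lit 3))) x6939) x20547) x19899) x20223) x20115) x20043) x379)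
    (Nat.sub (Nat.sub (Nat.add (Nat.add (Nat.add (Nat.add (Nat.add (Nat.add C (Nat.mul x20089 (nat_lit 3))) x6967) x20575) x20251) x20035) x20091) x39771) x407)
    (Nat.sub (Nat.add (Nat.add (Nat.add (Nat.add (Nat.add (Nat.add (Nat.add C (Nat.mul x20091 (nat_lit 2))) x6969) x20577) x20253) x20037) x20097) x20089) x409)
    (Nat.sub (Nat.add (Nat.add (Nat.add (Nat.add (Nat.add (Nat.add (Nat.add C (Nat.mul x20097 (nat_lit 2))) x6975) x20583) x20259) x20043) x20115) x20091) x415)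
    (Nat.sub (Nat.add (Nat.add (Nat.add (Nat.add (Nat.add (Nat.add C (Nat.mul x20115 (nat_lit 4))) x6993) x20601) x20277) x20061) x20097) x433)
    (Nat.sub (Nat.add (Nat.add (Nat.add (Nat.add (Nat.add C (Nat.mul x20171 (nat_lit 2))) x7049) x20657) x20009) x20173) x39853)
    (Nat.sub (Nat.sub (Nat.add (Nat.add (Nat.add (Nat.add (Nat.add (Nat.add (Nat.add C (Nat.mul x20173 (nat_lit 2))) x7051) x20659) x20011) x20179) x20171) x20175) x39855) x491)
    (Nat.sub (Nat.add (Nat.add (Nat.add (Nat.add (Nat.add C x7053) x20661) x20013) x20181) x20173) x493)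
    (Nat.sub (Nat.sub (Nat.add (Nat.add (Nat.add (Nat.add (Nat.add (Nat.add (Nat.add C x20179) x7057) x20665) x20017) x20197) x20173) x20181) x39861) x497)
    (Nat.sub (Nat.add (Nat.add (Nat.add (Nat.add (Nat.add (Nat.add (Nat.add (Nat.add C x20181) x7059) x20667) x20019) x20199) x20175) x20187) x20179) x499)
    (Nat.sub (Nat.add (Nat.add (Nat.add (Nat.add (Nat.add C x7065) x20673) x20025) x20205) x20181) x505)
    (Nat.sub (Nat.sub (Nat.add (Nat.add (Nat.add (Nat.add (Nat.add (Nat.add (Nat.add C x20197) x7075) x20683) x20035) x20251) x20179) x20199) x39879) x515)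
    (Nat.sub (Nat.add (Nat.add (Nat.add (Nat.add (Nat.add (Nat.add (Nat.add C x7077) x20685) x20037) x20253) x20181) x20205) x20197) x517)
    (Nat.sub (Nat.add (Nat.add (Nat.add (Nat.add (Nat.add (Nat.add (Nat.add (Nat.add C x20205) x7083) x20691) x20043) x20259) x20187) x20223) x20199) x523)
    (Nat.sub (Nat.add (Nat.add (Nat.add (Nat.add (Nat.add C x7101) x20709) x20061) x20277) x20205) x541)
    (Nat.sub (Nat.sub (Nat.add (Nat.add (Nat.add (Nat.add (Nat.add (Nat.add C (Nat.mul x20251 (nat_lit 3))) x7129) x20737) x20089) x20197) x20253) x39933) x569)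
    (Nat.sub (Nat.add (Nat.add (Nat.add (Nat.add (Nat.add (Nat.add (Nat.add C (Nat.mul x20253 (nat_lit 2))) x7131) x20739) x20091) x20199) x20259) x20251) x571)
    (Nat.sub (Nat.add (Nat.add (Nat.add (Nat.add (Nat.add (Nat.add (Nat.add C (Nat.mul x20259 (nat_lit 2))) x7137) x20745) x20097) x20205) x20277) x20253) x577)
    (Nat.sub (Nat.add (Nat.add (Nat.add (Nat.add (Nat.add (Nat.add (Nat.add C (Nat.mul x20277 (nat_lit 3))) x7155) x20763) x20115) x20223) x20331) x20259) x595)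
    (Nat.sub (Nat.add (Nat.add (Nat.add (Nat.add C (Nat.mul x20331 (nat_lit 4))) x7209) x20817) x20277) x649)
    (Nat.sub (Nat.add (Nat.add (Nat.add (Nat.add (Nat.add (Nat.add C (Nat.mul x20417 (nat_lit 4))) x7295) x21875) x19931) x20423) x20419) x40099)
    (Nat.sub (Nat.sub (Nat.add (Nat.add (Nat.add (Nat.add (Nat.add (Nat.add C (Nat.mul x20419 (nat_lit 3))) x7297) x21877) x19933) x20425) x20417) x40101) x737)
    (Nat.sub (Nat.add (Nat.add (Nat.add (Nat.add (Nat.add (Nat.add (Nat.add C (Nat.mul x20423 (nat_lit 2))) x7301) x21881) x19937) x20441) x20417) x20425) x40105)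
    (Nat.sub (Nat.sub (Nat.add (Nat.add (Nat.add (Nat.add (Nat.add (Nat.add (Nat.add (Nat.add (Nat.add C (Nat.mul x20425 (nat_lit 3))) x7303) x21883) x19939) x20443) x20419) x20431) x20423) x20427) x40107) x743)
    (Nat.sub (Nat.add (Nat.add (Nat.add (Nat.add (Nat.add (Nat.add (Nat.add C (Nat.mul x20427 (nat_lit 2))) x7305) x21885) x19941) x20445) x20433) x20425) x745)
    (Nat.sub (Nat.sub (Nat.add (Nat.add (Nat.add (Nat.add (Nat.add (Nat.add (Nat.add C x20431) x7309) x21889) x19945) x20449) x20425) x20433) x40113) x749)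
    (Nat.sub (Nat.add (Nat.add (Nat.add (Nat.add (Nat.add (Nat.add (Nat.add C (Nat.mul x20433 (nat_lit 2))) x7311) x21891) x19947) x20451) x20427) x20431) x751)
    (Nat.sub (Nat.add (Nat.add (Nat.add (Nat.add (Nat.add (Nat.add (Nat.add C (Nat.mul x20441 (nat_lit 2))) x7319) x21899) x19955) x20495) x20423) x20443) x40123)
    (Nat.sub (Nat.sub (Nat.add (Nat.add (Nat.add (Nat.add (Nat.add (Nat.add (Nat.add (Nat.add (Nat.add C (Nat.mul x20443 (nat_lit 2))) x7321) x21901) x19957) x20497) x20425) x20449) x20441) x20445) x40125) x761)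
    (Nat.sub (Nat.add (Nat.add (Nat.add (Nat.add (Nat.add (Nat.add (Nat.add C x7323) x21903) x19959) x20499) x20427) x20451) x20443) x763)
    (Nat.sub (Nat.sub (Nat.add (Nat.add (Nat.add (Nat.add (Nat.add (Nat.add (Nat.add (Nat.add (Nat.add C (Nat.mul x20449 (nat_lit 2))) x7327) x21907) x19963) x20503) x20431) x20467) x20443) x20451) x40131) x767)
    (Nat.sub (Nat.add (Nat.add (Nat.add (Nat.add (Nat.add (Nat.add (Nat.add (Nat.add (Nat.add (Nat.add C (Nat.mul x20451 (nat_lit 2))) x7329) x21909) x19965) x20505) x20433) x20469) x20445) x20457) x20449) x769)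
    (Nat.sub (Nat.add (Nat.add (Nat.add (Nat.add (Nat.add (Nat.add (Nat.add C (Nat.mul x20457 (nat_lit 2))) x7335) x21915) x19971) x20511) x20475) x20451) x775)
    (Nat.sub (Nat.sub (Nat.add (Nat.add (Nat.add (Nat.add (Nat.add (Nat.add (Nat.add C x20467) x7345) x21925) x19981) x20521) x20449) x20469) x40149) x785)
    (Nat.sub (Nat.add (Nat.add (Nat.add (Nat.add (Nat.add (Nat.add (Nat.add C x7347) x21927) x19983) x20523) x20451) x20475) x20467) x787)
    (Nat.sub (Nat.add (Nat.add (Nat.add (Nat.add (Nat.add (Nat.add (Nat.add C (Nat.mul x20475 (nat_lit 2))) x7353) x21933) x19989) x20529) x20457) x20469) x793)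
    (Nat.sub (Nat.add (Nat.add (Nat.add (Nat.add (Nat.add (Nat.add (Nat.add C (Nat.mul x20495 (nat_lit 2))) x7373) x21953) x20009) x20657) x20441) x20497) x40177)
    (Nat.sub (Nat.sub (Nat.add (Nat.add (Nat.add (Nat.add (Nat.add (Nat.add (Nat.add (Nat.add (Nat.add C (Nat.mul x20497 (nat_lit 2))) x7375) x21955) x20011) x20659) x20443) x20503) x20495) x20499) x40179) x815)
    (Nat.sub (Nat.add (Nat.add (Nat.add (Nat.add (Nat.add (Nat.add (Nat.add C x7377) x21957) x20013) x20661) x20445) x20505) x20497) x817)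
    (Nat.sub (Nat.sub (Nat.add (Nat.add (Nat.add (Nat.add (Nat.add (Nat.add (Nat.add (Nat.add (Nat.add C x20503) x7381) x21961) x20017) x20665) x20449) x20521) x20497) x20505) x40185) x821)
    (Nat.sub (Nat.add (Nat.add (Nat.add (Nat.add (Nat.add (Nat.add (Nat.add (Nat.add (Nat.add (Nat.add C x20505) x7383) x21963) x20019) x20667) x20451) x20523) x20499) x20511) x20503) x823)
    (Nat.sub (Nat.add (Nat.add (Nat.add (Nat.add (Nat.add (Nat.add (Nat.add C x7389) x21969) x20025) x20673) x20457) x20529) x20505) x829)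
    (Nat.sub (Nat.sub (Nat.add (Nat.add (Nat.add (Nat.add (Nat.add (Nat.add (Nat.add (Nat.add (Nat.add C (Nat.mul x20521 (nat_lit 2))) x7399) x21979) x20035) x20683) x20467) x20575) x20503) x20523) x40203) x839)
    (Nat.sub (Nat.add (Nat.add (Nat.add (Nat.add (Nat.add (Nat.add (Nat.add (Nat.add (Nat.add (Nat.add C x20523) x7401) x21981) x20037) x20685) x20469) x20577) x20505) x20529) x20521) x841)
    (Nat.sub (Nat.add (Nat.add (Nat.add (Nat.add (Nat.add (Nat.add (Nat.add (Nat.add (Nat.add (Nat.add C (Nat.mul x20529 (nat_lit 2))) x7407) x21987) x20043) x20691) x20475) x20583) x20511) x20547) x20523) x847)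
    (Nat.sub (Nat.add (Nat.add (Nat.add (Nat.add (Nat.add (Nat.add (Nat.add C (Nat.mul x20547 (nat_lit 2))) x7425) x22005) x20061) x20709) x20601) x20529) x865)
    (Nat.sub (Nat.sub (Nat.add (Nat.add (Nat.add (Nat.add (Nat.add (Nat.add (Nat.add C x20575) x7453) x22033) x20089) x20737) x20521) x20577) x40257) x893)
    (Nat.sub (Nat.add (Nat.add (Nat.add (Nat.add (Nat.add (Nat.add (Nat.add C x7455) x22035) x20091) x20739) x20523) x20583) x20575) x895)
    (Nat.sub (Nat.add (Nat.add (Nat.add (Nat.add (Nat.add (Nat.add (Nat.add C x7461) x22041) x20097) x20745) x20529) x20601) x20577) x901)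
    (Nat.sub (Nat.add (Nat.add (Nat.add (Nat.add (Nat.add (Nat.add (Nat.add C (Nat.mul x20601 (nat_lit 2))) x7479) x22059) x20115) x20763) x20547) x20583) x919)
    (Nat.sub (Nat.add (Nat.add (Nat.add (Nat.add (Nat.add (Nat.add (Nat.add C (Nat.mul x20657 (nat_lit 3))) x7535) x22115) x20171) x21143) x20495) x20659) x40339)
    (Nat.sub (Nat.sub (Nat.add (Nat.add (Nat.add (Nat.add (Nat.add (Nat.add (Nat.add (Nat.add (Nat.add C (Nat.mul x20659 (nat_lit 3))) x7537) x22117) x20173) x21145) x20497) x20665) x20657) x20661) x40341) x977)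
    (Nat.sub (Nat.add (Nat.add (Nat.add (Nat.add (Nat.add (Nat.add (Nat.add (Nat.add C x20661) x7539) x22119) x20175) x21147) x20499) x20667) x20659) x979)
    (Nat.sub (Nat.sub (Nat.add (Nat.add (Nat.add (Nat.add (Nat.add (Nat.add (Nat.add (Nat.add (Nat.add C (Nat.mul x20665 (nat_lit 2))) x7543) x22123) x20179) x21151) x20503) x20683) x20659) x20667) x40347) x983)
    (Nat.sub (Nat.add (Nat.add (Nat.add (Nat.add (Nat.add (Nat.add (Nat.add (Nat.add (Nat.add (Nat.add C (Nat.mul x20667 (nat_lit 2))) x7545) x22125) x20181) x21153) x20505) x20685) x20661) x20673) x20665) x985)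
    (Nat.sub (Nat.add (Nat.add (Nat.add (Nat.add (Nat.add (Nat.add (Nat.add (Nat.add C x20673) x7551) x22131) x20187) x21159) x20511) x20691) x20667) x991)
    (Nat.sub (Nat.sub (Nat.add (Nat.add (Nat.add (Nat.add (Nat.add (Nat.add (Nat.add (Nat.add (Nat.add C (Nat.mul x20683 (nat_lit 2))) x7561) x22141) x20197) x21169) x20521) x20737) x20665) x20685) x40365) x1001)
    (Nat.sub (Nat.add (Nat.add (Nat.add (Nat.add (Nat.add (Nat.add (Nat.add (Nat.add (Nat.add (Nat.add C x20685) x7563) x22143) x20199) x21171) x20523) x20739) x20667) x20691) x20683) x1003)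
    (Nat.sub (Nat.add (Nat.add (Nat.add (Nat.add (Nat.add (Nat.add (Nat.add (Nat.add (Nat.add (Nat.add C (Nat.mul x20691 (nat_lit 2))) x7569) x22149) x20205) x21177) x20529) x20745) x20673) x20709) x20685) x1009)
    (Nat.sub (Nat.add (Nat.add (Nat.add (Nat.add (Nat.add (Nat.add (Nat.add (Nat.add C x20709) x7587) x22167) x20223) x21195) x20547) x20763) x20691) x1027)
    (Nat.sub (Nat.sub (Nat.add (Nat.add (Nat.add (Nat.add (Nat.add (Nat.add (Nat.add (Nat.add (Nat.add C (Nat.mul x20737 (nat_lit 3))) x7615) x22195) x20251) x21223) x20575) x20899) x20683) x20739) x40419) x1055)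
    (Nat.sub (Nat.add (Nat.add (Nat.add (Nat.add (Nat.add (Nat.add (Nat.add (Nat.add (Nat.add (Nat.add C (Nat.mul x20739 (nat_lit 2))) x7617) x22197) x20253) x21225) x20577) x20901) x20685) x20745) x20737) x1057)
    (Nat.sub (Nat.add (Nat.add (Nat.add (Nat.add (Nat.add (Nat.add (Nat.add (Nat.add (Nat.add (Nat.add C (Nat.mul x20745 (nat_lit 2))) x7623) x22203) x20259) x21231) x20583) x20907) x20691) x20763) x20739) x1063)
    (Nat.sub (Nat.add (Nat.add (Nat.add (Nat.add (Nat.add (Nat.add (Nat.add (Nat.add (Nat.add (Nat.add C (Nat.mul x20763 (nat_lit 3))) x7641) x22221) x20277) x21249) x20601) x20925) x20709) x20817) x20745) x1081)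
    (Nat.sub (Nat.add (Nat.add (Nat.add (Nat.add (Nat.add (Nat.add (Nat.add C (Nat.mul x20817 (nat_lit 3))) x7695) x22275) x20331) x21303) x20979) x20763) x1135)
    (Nat.sub (Nat.sub (Nat.add (Nat.add (Nat.add (Nat.add (Nat.add (Nat.add C (Nat.mul x20899 (nat_lit 3))) x7777) x22357) x21385) x20737) x20901) x40581) x1217)
    (Nat.sub (Nat.add (Nat.add (Nat.add (Nat.add (Nat.add (Nat.add (Nat.add C (Nat.mul x20901 (nat_lit 2))) x7779) x22359) x21387) x20739) x20907) x20899) x1219)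
    (Nat.sub (Nat.add (Nat.add (Nat.add (Nat.add (Nat.add (Nat.add (Nat.add C (Nat.mul x20907 (nat_lit 2))) x7785) x22365) x21393) x20745) x20925) x20901) x1225)
    (Nat.sub (Nat.add (Nat.add (Nat.add (Nat.add (Nat.add (Nat.add (Nat.add C (Nat.mul x20925 (nat_lit 2))) x7803) x22383) x21411) x20763) x20979) x20907) x1243)
    (Nat.sub (Nat.add (Nat.add (Nat.add (Nat.add (Nat.add (Nat.add C (Nat.mul x20979 (nat_lit 4))) x7857) x22437) x21465) x20817) x20925) x1297)
    (Nat.sub (Nat.add (Nat.add (Nat.add (Nat.add (Nat.add C (Nat.mul x21143 (nat_lit 2))) x8021) x22601) x20657) x21145) x40825)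
    (Nat.sub (Nat.sub (Nat.add (Nat.add (Nat.add (Nat.add (Nat.add (Nat.add (Nat.add C (Nat.mul x21145 (nat_lit 2))) x8023) x22603) x20659) x21151) x21143) x21147) x40827) x1463)
    (Nat.sub (Nat.add (Nat.add (Nat.add (Nat.add (Nat.add C x8025) x22605) x20661) x21153) x21145) x1465)
    (Nat.sub (Nat.sub (Nat.add (Nat.add (Nat.add (Nat.add (Nat.add (Nat.add (Nat.add C x21151) x8029) x22609) x20665) x21169) x21145) x21153) x40833) x1469)
    (Nat.sub (Nat.add (Nat.add (Nat.add (Nat.add (Nat.add (Nat.add (Nat.add (Nat.add C x21153) x8031) x22611) x20667) x21171) x21147) x21159) x21151) x1471)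
    (Nat.sub (Nat.add (Nat.add (Nat.add (Nat.add (Nat.add C x8037) x22617) x20673) x21177) x21153) x1477)
    (Nat.sub (Nat.sub (Nat.add (Nat.add (Nat.add (Nat.add (Nat.add (Nat.add (Nat.add C x21169) x8047) x22627) x20683) x21223) x21151) x21171) x40851) x1487)
    (Nat.sub (Nat.add (Nat.add (Nat.add (Nat.add (Nat.add (Nat.add (Nat.add C x8049) x22629) x20685) x21225) x21153) x21177) x21169) x1489)
    (Nat.sub (Nat.add (Nat.add (Nat.add (Nat.add (Nat.add (Nat.add (Nat.add (Nat.add C x21177) x8055) x22635) x20691) x21231) x21159) x21195) x21171) x1495)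
    (Nat.sub (Nat.add (Nat.add (Nat.add (Nat.add (Nat.add C x8073) x22653) x20709) x21249) x21177) x1513)
    (Nat.sub (Nat.sub (Nat.add (Nat.add (Nat.add (Nat.add (Nat.add (Nat.add (Nat.add C x21223) x8101) x22681) x20737) x21385) x21169) x21225) x40905) x1541)
    (Nat.sub (Nat.add (Nat.add (Nat.add (Nat.add (Nat.add (Nat.add (Nat.add C x8103) x22683) x20739) x21387) x21171) x21231) x21223) x1543)
    (Nat.sub (Nat.add (Nat.add (Nat.add (Nat.add (Nat.add (Nat.add (Nat.add C x8109) x22689) x20745) x21393) x21177) x21249) x21225) x1549)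
    (Nat.sub (Nat.add (Nat.add (Nat.add (Nat.add (Nat.add (Nat.add (Nat.add (Nat.add C x21249) x8127) x22707) x20763) x21411) x21195) x21303) x21231) x1567)
    (Nat.sub (Nat.add (Nat.add (Nat.add (Nat.add (Nat.add C x8181) x22761) x20817) x21465) x21249) x1621)
    (Nat.sub (Nat.sub (Nat.add (Nat.add (Nat.add (Nat.add (Nat.add (Nat.add C (Nat.mul x21385 (nat_lit 3))) x8263) x22843) x20899) x21223) x21387) x41067) x1703)
    (Nat.sub (Nat.add (Nat.add (Nat.add (Nat.add (Nat.add (Nat.add (Nat.add C (Nat.mul x21387 (nat_lit 2))) x8265) x22845) x20901) x21225) x21393) x21385) x1705)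
    (Nat.sub (Nat.add (Nat.add (Nat.add (Nat.add (Nat.add (Nat.add (Nat.add C (Nat.mul x21393 (nat_lit 2))) x8271) x22851) x20907) x21231) x21411) x21387) x1711)
    (Nat.sub (Nat.add (Nat.add (Nat.add (Nat.add (Nat.add (Nat.add (Nat.add C (Nat.mul x21411 (nat_lit 2))) x8289) x22869) x20925) x21249) x21465) x21393) x1729)
    (Nat.sub (Nat.add (Nat.add (Nat.add (Nat.add (Nat.add (Nat.add (Nat.add C (Nat.mul x21465 (nat_lit 3))) x8343) x22923) x20979) x21303) x21627) x21411) x1783)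
    (Nat.sub (Nat.add (Nat.add (Nat.add (Nat.add C (Nat.mul x21627 (nat_lit 4))) x8505) x23085) x21465) x1945)
    (Nat.sub (Nat.add (Nat.add (Nat.add (Nat.add (Nat.add (Nat.add C (Nat.mul x21875 (nat_lit 4))) x8753) x26249) x20417) x21881) x21877) x41557)
    (Nat.sub (Nat.sub (Nat.add (Nat.add (Nat.add (Nat.add (Nat.add (Nat.add C (Nat.mul x21877 (nat_lit 3))) x8755) x26251) x20419) x21883) x21875) x41559) x2195)
    (Nat.sub (Nat.add (Nat.add (Nat.add (Nat.add (Nat.add (Nat.add (Nat.add C (Nat.mul x21881 (nat_lit 2))) x8759) x26255) x20423) x21899) x21875) x21883) x41563)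
    (Nat.sub (Nat.sub (Nat.add (Nat.add (Nat.add (Nat.add (Nat.add (Nat.add (Nat.add (Nat.add (Nat.add C (Nat.mul x21883 (nat_lit 3))) x8761) x26257) x20425) x21901) x21877) x21889) x21881) x21885) x41565) x2201)
    (Nat.sub (Nat.add (Nat.add (Nat.add (Nat.add (Nat.add (Nat.add (Nat.add C (Nat.mul x21885 (nat_lit 2))) x8763) x26259) x20427) x21903) x21891) x21883) x2203)
    (Nat.sub (Nat.sub (Nat.add (Nat.add (Nat.add (Nat.add (Nat.add (Nat.add (Nat.add C x21889) x8767) x26263) x20431) x21907) x21883) x21891) x41571) x2207)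
    (Nat.sub (Nat.add (Nat.add (Nat.add (Nat.add (Nat.add (Nat.add (Nat.add C (Nat.mul x21891 (nat_lit 2))) x8769) x26265) x20433) x21909) x21885) x21889) x2209)
    (Nat.sub (Nat.add (Nat.add (Nat.add (Nat.add (Nat.add (Nat.add (Nat.add C (Nat.mul x21899 (nat_lit 2))) x8777) x26273) x20441) x21953) x21881) x21901) x41581)
    (Nat.sub (Nat.sub (Nat.add (Nat.add (Nat.add (Nat.add (Nat.add (Nat.add (Nat.add (Nat.add (Nat.add C (Nat.mul x21901 (nat_lit 2))) x8779) x26275) x20443) x21955) x21883) x21907) x21899) x21903) x41583) x2219)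
    (Nat.sub (Nat.add (Nat.add (Nat.add (Nat.add (Nat.add (Nat.add (Nat.add C x8781) x26277) x20445) x21957) x21885) x21909) x21901) x2221)
    (Nat.sub (Nat.sub (Nat.add (Nat.add (Nat.add (Nat.add (Nat.add (Nat.add (Nat.add (Nat.add (Nat.add C (Nat.mul x21907 (nat_lit 2))) x8785) x26281) x20449) x21961) x21889) x21925) x21901) x21909) x41589) x2225)
    (Nat.sub (Nat.add (Nat.add (Nat.add (Nat.add (Nat.add (Nat.add (Nat.add (Nat.add (Nat.add (Nat.add C (Nat.mul x21909 (nat_lit 2))) x8787) x26283) x20451) x21963) x21891) x21927) x21903) x21915) x21907) x2227)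
    (Nat.sub (Nat.add (Nat.add (Nat.add (Nat.add (Nat.add (Nat.add (Nat.add C (Nat.mul x21915 (nat_lit 2))) x8793) x26289) x20457) x21969) x21933) x21909) x2233)
    (Nat.sub (Nat.sub (Nat.add (Nat.add (Nat.add (Nat.add (Nat.add (Nat.add (Nat.add C x21925) x8803) x26299) x20467) x21979) x21907) x21927) x41607) x2243)
    (Nat.sub (Nat.add (Nat.add (Nat.add (Nat.add (Nat.add (Nat.add (Nat.add C x8805) x26301) x20469) x21981) x21909) x21933) x21925) x2245)
    (Nat.sub (Nat.add (Nat.add (Nat.add (Nat.add (Nat.add (Nat.add (Nat.add C (Nat.mul x21933 (nat_lit 2))) x8811) x26307) x20475) x21987) x21915) x21927) x2251)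
    (Nat.sub (Nat.add (Nat.add (Nat.add (Nat.add (Nat.add (Nat.add (Nat.add C (Nat.mul x21953 (nat_lit 2))) x8831) x26327) x20495) x22115) x21899) x21955) x41635)
    (Nat.sub (Nat.sub (Nat.add (Nat.add (Nat.add (Nat.add (Nat.add (Nat.add (Nat.add (Nat.add (Nat.add C (Nat.mul x21955 (nat_lit 2))) x8833) x26329) x20497) x22117) x21901) x21961) x21953) x21957) x41637) x2273)
    (Nat.sub (Nat.add (Nat.add (Nat.add (Nat.add (Nat.add (Nat.add (Nat.add C x8835) x26331) x20499) x22119) x21903) x21963) x21955) x2275)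
    (Nat.sub (Nat.sub (Nat.add (Nat.add (Nat.add (Nat.add (Nat.add (Nat.add (Nat.add (Nat.add (Nat.add C x21961) x8839) x26335) x20503) x22123) x21907) x21979) x21955) x21963) x41643) x2279)
    (Nat.sub (Nat.add (Nat.add (Nat.add (Nat.add (Nat.add (Nat.add (Nat.add (Nat.add (Nat.add (Nat.add C x21963) x8841) x26337) x20505) x22125) x21909) x21981) x21957) x21969) x21961) x2281)
    (Nat.sub (Nat.add (Nat.add (Nat.add (Nat.add (Nat.add (Nat.add (Nat.add C x8847) x26343) x20511) x22131) x21915) x21987) x21963) x2287)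
    (Nat.sub (Nat.sub (Nat.add (Nat.add (Nat.add (Nat.add (Nat.add (Nat.add (Nat.add (Nat.add (Nat.add C (Nat.mul x21979 (nat_lit 2))) x8857) x26353) x20521) x22141) x21925) x22033) x21961) x21981) x41661) x2297)
    (Nat.sub (Nat.add (Nat.add (Nat.add (Nat.add (Nat.add (Nat.add (Nat.add (Nat.add (Nat.add (Nat.add C x21981) x8859) x26355) x20523) x22143) x21927) x22035) x21963) x21987) x21979) x2299)
    (Nat.sub (Nat.add (Nat.add (Nat.add (Nat.add (Nat.add (Nat.add (Nat.add (Nat.add (Nat.add (Nat.add C (Nat.mul x21987 (nat_lit 2))) x8865) x26361) x20529) x22149) x21933) x22041) x21969) x22005) x21981) x2305)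
    (Nat.sub (Nat.add (Nat.add (Nat.add (Nat.add (Nat.add (Nat.add (Nat.add C (Nat.mul x22005 (nat_lit 2))) x8883) x26379) x20547) x22167) x22059) x21987) x2323)
    (Nat.sub (Nat.sub (Nat.add (Nat.add (Nat.add (Nat.add (Nat.add (Nat.add (Nat.add C x22033) x8911) x26407) x20575) x22195) x21979) x22035) x41715) x2351)
    (Nat.sub (Nat.add (Nat.add (Nat.add (Nat.add (Nat.add (Nat.add (Nat.add C x8913) x26409) x20577) x22197) x21981) x22041) x22033) x2353)
    (Nat.sub (Nat.add (Nat.add (Nat.add (Nat.add (Nat.add (Nat.add (Nat.add C x8919) x26415) x20583) x22203) x21987) x22059) x22035) x2359)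
    (Nat.sub (Nat.add (Nat.add (Nat.add (Nat.add (Nat.add (Nat.add (Nat.add C (Nat.mul x22059 (nat_lit 2))) x8937) x26433) x20601) x22221) x22005) x22041) x2377)
    (Nat.sub (Nat.add (Nat.add (Nat.add (Nat.add (Nat.add (Nat.add (Nat.add C (Nat.mul x22115 (nat_lit 2))) x8993) x26489) x20657) x22601) x21953) x22117) x41797)
    (Nat.sub (Nat.sub (Nat.add (Nat.add (Nat.add (Nat.add (Nat.add (Nat.add (Nat.add (Nat.add (Nat.add C (Nat.mul x22117 (nat_lit 2))) x8995) x26491) x20659) x22603) x21955) x22123) x22115) x22119) x41799) x2435)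
    (Nat.sub (Nat.add (Nat.add (Nat.add (Nat.add (Nat.add (Nat.add (Nat.add C x8997) x26493) x20661) x22605) x21957) x22125) x22117) x2437)
    (Nat.sub (Nat.sub (Nat.add (Nat.add (Nat.add (Nat.add (Nat.add (Nat.add (Nat.add (Nat.add (Nat.add C x22123) x9001) x26497) x20665) x22609) x21961) x22141) x22117) x22125) x41805) x2441)
    (Nat.sub (Nat.add (Nat.add (Nat.add (Nat.add (Nat.add (Nat.add (Nat.add (Nat.add (Nat.add (Nat.add C x22125) x9003) x26499) x20667) x22611) x21963) x22143) x22119) x22131) x22123) x2443)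
    (Nat.sub (Nat.add (Nat.add (Nat.add (Nat.add (Nat.add (Nat.add (Nat.add C x9009) x26505) x20673) x22617) x21969) x22149) x22125) x2449)
    (Nat.sub (Nat.sub (Nat.add (Nat.add (Nat.add (Nat.add (Nat.add (Nat.add (Nat.add (Nat.add (Nat.add C x22141) x9019) x26515) x20683) x22627) x21979) x22195) x22123) x22143) x41823) x2459)
    (Nat.sub (Nat.add (Nat.add (Nat.add (Nat.add (Nat.add (Nat.add (Nat.add (Nat.add (Nat.add C x9021) x26517) x20685) x22629) x21981) x22197) x22125) x22149) x22141) x2461)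
    (Nat.sub (Nat.add (Nat.add (Nat.add (Nat.add (Nat.add (Nat.add (Nat.add (Nat.add (Nat.add (Nat.add C x22149) x9027) x26523) x20691) x22635) x21987) x22203) x22131) x22167) x22143) x2467)
    (Nat.sub (Nat.add (Nat.add (Nat.add (Nat.add (Nat.add (Nat.add (Nat.add C x9045) x26541) x20709) x22653) x22005) x22221) x22149) x2485)
    (Nat.sub (Nat.sub (Nat.add (Nat.add (Nat.add (Nat.add (Nat.add (Nat.add (Nat.add (Nat.add (Nat.add C (Nat.mul x22195 (nat_lit 2))) x9073) x26569) x20737) x22681) x22033) x22357) x22141) x22197) x41877) x2513)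
    (Nat.sub (Nat.add (Nat.add (Nat.add (Nat.add (Nat.add (Nat.add (Nat.add (Nat.add (Nat.add (Nat.add C x22197) x9075) x26571) x20739) x22683) x22035) x22359) x22143) x22203) x22195) x2515)
    (Nat.sub (Nat.add (Nat.add (Nat.add (Nat.add (Nat.add (Nat.add (Nat.add (Nat.add (Nat.add (Nat.add C x22203) x9081) x26577) x20745) x22689) x22041) x22365) x22149) x22221) x22197) x2521)
    (Nat.sub (Nat.add (Nat.add (Nat.add (Nat.add (Nat.add (Nat.add (Nat.add (Nat.add (Nat.add (Nat.add C (Nat.mul x22221 (nat_lit 2))) x9099) x26595) x20763) x22707) x22059) x22383) x22167) x22275) x22203) x2539)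
    (Nat.sub (Nat.add (Nat.add (Nat.add (Nat.add (Nat.add (Nat.add (Nat.add C (Nat.mul x22275 (nat_lit 2))) x9153) x26649) x20817) x22761) x22437) x22221) x2593)
    (Nat.sub (Nat.sub (Nat.add (Nat.add (Nat.add (Nat.add (Nat.add (Nat.add (Nat.add C x22357) x9235) x26731) x20899) x22843) x22195) x22359) x42039) x2675)
    (Nat.sub (Nat.add (Nat.add (Nat.add (Nat.add (Nat.add (Nat.add (Nat.add C x9237) x26733) x20901) x22845) x22197) x22365) x22357) x2677)
    (Nat.sub (Nat.add (Nat.add (Nat.add (Nat.add (Nat.add (Nat.add (Nat.add C x9243) x26739) x20907) x22851) x22203) x22383) x22359) x2683)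
    (Nat.sub (Nat.add (Nat.add (Nat.add (Nat.add (Nat.add (Nat.add (Nat.add C x9261) x26757) x20925) x22869) x22221) x22437) x22365) x2701)
    (Nat.sub (Nat.add (Nat.add (Nat.add (Nat.add (Nat.add (Nat.add (Nat.add C (Nat.mul x22437 (nat_lit 2))) x9315) x26811) x20979) x22923) x22275) x22383) x2755)
    (Nat.sub (Nat.add (Nat.add (Nat.add (Nat.add (Nat.add (Nat.add (Nat.add C (Nat.mul x22601 (nat_lit 3))) x9479) x26975) x21143) x24059) x22115) x22603) x42283)
    (Nat.sub (Nat.sub (Nat.add (Nat.add (Nat.add (Nat.add (Nat.add (Nat.add (Nat.add (Nat.add (Nat.add C (Nat.mul x22603 (nat_lit 3))) x9481) x26977) x21145) x24061) x22117) x22609) x22601) x22605) x42285) x2921)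
    (Nat.sub (Nat.add (Nat.add (Nat.add (Nat.add (Nat.add (Nat.add (Nat.add (Nat.add C x22605) x9483) x26979) x21147) x24063) x22119) x22611) x22603) x2923)
    (Nat.sub (Nat.sub (Nat.add (Nat.add (Nat.add (Nat.add (Nat.add (Nat.add (Nat.add (Nat.add (Nat.add C (Nat.mul x22609 (nat_lit 2))) x9487) x26983) x21151) x24067) x22123) x22627) x22603) x22611) x42291) x2927)
    (Nat.sub (Nat.add (Nat.add (Nat.add (Nat.add (Nat.add (Nat.add (Nat.add (Nat.add (Nat.add (Nat.add C (Nat.mul x22611 (nat_lit 2))) x9489) x26985) x21153) x24069) x22125) x22629) x22605) x22617) x22609) x2929)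
    (Nat.sub (Nat.add (Nat.add (Nat.add (Nat.add (Nat.add (Nat.add (Nat.add (Nat.add C x22617) x9495) x26991) x21159) x24075) x22131) x22635) x22611) x2935)
    (Nat.sub (Nat.sub (Nat.add (Nat.add (Nat.add (Nat.add (Nat.add (Nat.add (Nat.add (Nat.add (Nat.add C (Nat.mul x22627 (nat_lit 2))) x9505) x27001) x21169) x24085) x22141) x22681) x22609) x22629) x42309) x2945)
    (Nat.sub (Nat.add (Nat.add (Nat.add (Nat.add (Nat.add (Nat.add (Nat.add (Nat.add (Nat.add (Nat.add C x22629) x9507) x27003) x21171) x24087) x22143) x22683) x22611) x22635) x22627) x2947)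
    (Nat.sub (Nat.add (Nat.add (Nat.add (Nat.add (Nat.add (Nat.add (Nat.add (Nat.add (Nat.add (Nat.add C (Nat.mul x22635 (nat_lit 2))) x9513) x27009) x21177) x24093) x22149) x22689) x22617) x22653) x22629) x2953)
    (Nat.sub (Nat.add (Nat.add (Nat.add (Nat.add (Nat.add (Nat.add (Nat.add (Nat.add C x22653) x9531) x27027) x21195) x24111) x22167) x22707) x22635) x2971)
    (Nat.sub (Nat.sub (Nat.add (Nat.add (Nat.add (Nat.add (Nat.add (Nat.add (Nat.add (Nat.add (Nat.add C (Nat.mul x22681 (nat_lit 2))) x9559) x27055) x21223) x24139) x22195) x22843) x22627) x22683) x42363) x2999)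
    (Nat.sub (Nat.add (Nat.add (Nat.add (Nat.add (Nat.add (Nat.add (Nat.add (Nat.add (Nat.add (Nat.add C x22683) x9561) x27057) x21225) x24141) x22197) x22845) x22629) x22689) x22681) x3001)
    (Nat.sub (Nat.add (Nat.add (Nat.add (Nat.add (Nat.add (Nat.add (Nat.add (Nat.add (Nat.add (Nat.add C x22689) x9567) x27063) x21231) x24147) x22203) x22851) x22635) x22707) x22683) x3007)
    (Nat.sub (Nat.add (Nat.add (Nat.add (Nat.add (Nat.add (Nat.add (Nat.add (Nat.add (Nat.add (Nat.add C (Nat.mul x22707 (nat_lit 2))) x9585) x27081) x21249) x24165) x22221) x22869) x22653) x22761) x22689) x3025)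
    (Nat.sub (Nat.add (Nat.add (Nat.add (Nat.add (Nat.add (Nat.add (Nat.add (Nat.add C x22761) x9639) x27135) x21303) x24219) x22275) x22923) x22707) x3079)
    (Nat.sub (Nat.sub (Nat.add (Nat.add (Nat.add (Nat.add (Nat.add (Nat.add (Nat.add (Nat.add (Nat.add C (Nat.mul x22843 (nat_lit 3))) x9721) x27217) x21385) x24301) x22357) x23329) x22681) x22845) x42525) x3161)
    (Nat.sub (Nat.add (Nat.add (Nat.add (Nat.add (Nat.add (Nat.add (Nat.add (Nat.add (Nat.add (Nat.add C (Nat.mul x22845 (nat_lit 2))) x9723) x27219) x21387) x24303) x22359) x23331) x22683) x22851) x22843) x3163)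
    (Nat.sub (Nat.add (Nat.add (Nat.add (Nat.add (Nat.add (Nat.add (Nat.add (Nat.add (Nat.add (Nat.add C (Nat.mul x22851 (nat_lit 2))) x9729) x27225) x21393) x24309) x22365) x23337) x22689) x22869) x22845) x3169)
    (Nat.sub (Nat.add (Nat.add (Nat.add (Nat.add (Nat.add (Nat.add (Nat.add (Nat.add (Nat.add (Nat.add C (Nat.mul x22869 (nat_lit 2))) x9747) x27243) x21411) x24327) x22383) x23355) x22707) x22923) x22851) x3187)
    (Nat.sub (Nat.add (Nat.add (Nat.add (Nat.add (Nat.add (Nat.add (Nat.add (Nat.add (Nat.add (Nat.add C (Nat.mul x22923 (nat_lit 3))) x9801) x27297) x21465) x24381) x22437) x23409) x22761) x23085) x22869) x3241)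
    (Nat.sub (Nat.add (Nat.add (Nat.add (Nat.add (Nat.add (Nat.add (Nat.add C (Nat.mul x23085 (nat_lit 3))) x9963) x27459) x21627) x24543) x23571) x22923) x3403)
    (Nat.sub (Nat.sub (Nat.add (Nat.add (Nat.add (Nat.add (Nat.add (Nat.add C (Nat.mul x23329 (nat_lit 3))) x10207) x27703) x24787) x22843) x23331) x43011) x3647)
    (Nat.sub (Nat.add (Nat.add (Nat.add (Nat.add (Nat.add (Nat.add (Nat.add C (Nat.mul x23331 (nat_lit 2))) x10209) x27705) x24789) x22845) x23337) x23329) x3649)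
    (Nat.sub (Nat.add (Nat.add (Nat.add (Nat.add (Nat.add (Nat.add (Nat.add C (Nat.mul x23337 (nat_lit 2))) x10215) x27711) x24795) x22851) x23355) x23331) x3655)
    (Nat.sub (Nat.add (Nat.add (Nat.add (Nat.add (Nat.add (Nat.add (Nat.add C (Nat.mul x23355 (nat_lit 2))) x10233) x27729) x24813) x22869) x23409) x23337) x3673)
    (Nat.sub (Nat.add (Nat.add (Nat.add (Nat.add (Nat.add (Nat.add (Nat.add C (Nat.mul x23409 (nat_lit 2))) x10287) x27783) x24867) x22923) x23571) x23355) x3727)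
    (Nat.sub (Nat.add (Nat.add (Nat.add (Nat.add (Nat.add (Nat.add C (Nat.mul x23571 (nat_lit 4))) x10449) x27945) x25029) x23085) x23409) x3889)
    (Nat.sub (Nat.add (Nat.add (Nat.add (Nat.add (Nat.add C (Nat.mul x24059 (nat_lit 2))) x10937) x28433) x22601) x24061) x43741)
    (Nat.sub (Nat.sub (Nat.add (Nat.add (Nat.add (Nat.add (Nat.add (Nat.add (Nat.add C (Nat.mul x24061 (nat_lit 2))) x10939) x28435) x22603) x24067) x24059) x24063) x43743) x4379)
    (Nat.sub (Nat.add (Nat.add (Nat.add (Nat.add (Nat.add C x10941) x28437) x22605) x24069) x24061) x4381)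
    (Nat.sub (Nat.sub (Nat.add (Nat.add (Nat.add (Nat.add (Nat.add (Nat.add (Nat.add C x24067) x10945) x28441) x22609) x24085) x24061) x24069) x43749) x4385)
    (Nat.sub (Nat.add (Nat.add (Nat.add (Nat.add (Nat.add (Nat.add (Nat.add (Nat.add C x24069) x10947) x28443) x22611) x24087) x24063) x24075) x24067) x4387)
    (Nat.sub (Nat.add (Nat.add (Nat.add (Nat.add (Nat.add C x10953) x28449) x22617) x24093) x24069) x4393)
    (Nat.sub (Nat.sub (Nat.add (Nat.add (Nat.add (Nat.add (Nat.add (Nat.add (Nat.add C x24085) x10963) x28459) x22627) x24139) x24067) x24087) x43767) x4403)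
    (Nat.sub (Nat.add (Nat.add (Nat.add (Nat.add (Nat.add (Nat.add (Nat.add C x10965) x28461) x22629) x24141) x24069) x24093) x24085) x4405)
    (Nat.sub (Nat.add (Nat.add (Nat.add (Nat.add (Nat.add (Nat.add (Nat.add (Nat.add C x24093) x10971) x28467) x22635) x24147) x24075) x24111) x24087) x4411)
    (Nat.sub (Nat.add (Nat.add (Nat.add (Nat.add (Nat.add C x10989) x28485) x22653) x24165) x24093) x4429)
    (Nat.sub (Nat.sub (Nat.add (Nat.add (Nat.add (Nat.add (Nat.add (Nat.add (Nat.add C x24139) x11017) x28513) x22681) x24301) x24085) x24141) x43821) x4457)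
    (Nat.sub (Nat.add (Nat.add (Nat.add (Nat.add (Nat.add (Nat.add (Nat.add C x11019) x28515) x22683) x24303) x24087) x24147) x24139) x4459)
    (Nat.sub (Nat.add (Nat.add (Nat.add (Nat.add (Nat.add (Nat.add (Nat.add C x11025) x28521) x22689) x24309) x24093) x24165) x24141) x4465)
    (Nat.sub (Nat.add (Nat.add (Nat.add (Nat.add (Nat.add (Nat.add (Nat.add (Nat.add C x24165) x11043) x28539) x22707) x24327) x24111) x24219) x24147) x4483)
    (Nat.sub (Nat.add (Nat.add (Nat.add (Nat.add (Nat.add C x11097) x28593) x22761) x24381) x24165) x4537)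
    (Nat.sub (Nat.sub (Nat.add (Nat.add (Nat.add (Nat.add (Nat.add (Nat.add (Nat.add C x24301) x11179) x28675) x22843) x24787) x24139) x24303) x43983) x4619)
    (Nat.sub (Nat.add (Nat.add (Nat.add (Nat.add (Nat.add (Nat.add (Nat.add C x11181) x28677) x22845) x24789) x24141) x24309) x24301) x4621)
    (Nat.sub (Nat.add (Nat.add (Nat.add (Nat.add (Nat.add (Nat.add (Nat.add C x11187) x28683) x22851) x24795) x24147) x24327) x24303) x4627)
    (Nat.sub (Nat.add (Nat.add (Nat.add (Nat.add (Nat.add (Nat.add (Nat.add C x11205) x28701) x22869) x24813) x24165) x24381) x24309) x4645)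
    (Nat.sub (Nat.add (Nat.add (Nat.add (Nat.add (Nat.add (Nat.add (Nat.add (Nat.add C x24381) x11259) x28755) x22923) x24867) x24219) x24543) x24327) x4699)
    (Nat.sub (Nat.add (Nat.add (Nat.add (Nat.add (Nat.add C x11421) x28917) x23085) x25029) x24381) x4861)
    (Nat.sub (Nat.sub (Nat.add (Nat.add (Nat.add (Nat.add (Nat.add (Nat.add C (Nat.mul x24787 (nat_lit 3))) x11665) x29161) x23329) x24301) x24789) x44469) x5105)
    (Nat.sub (Nat.add (Nat.add (Nat.add (Nat.add (Nat.add (Nat.add (Nat.add C (Nat.mul x24789 (nat_lit 2))) x11667) x29163) x23331) x24303) x24795) x24787) x5107)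
    (Nat.sub (Nat.add (Nat.add (Nat.add (Nat.add (Nat.add (Nat.add (Nat.add C (Nat.mul x24795 (nat_lit 2))) x11673) x29169) x23337) x24309) x24813) x24789) x5113)
    (Nat.sub (Nat.add (Nat.add (Nat.add (Nat.add (Nat.add (Nat.add (Nat.add C (Nat.mul x24813 (nat_lit 2))) x11691) x29187) x23355) x24327) x24867) x24795) x5131)
    (Nat.sub (Nat.add (Nat.add (Nat.add (Nat.add (Nat.add (Nat.add (Nat.add C (Nat.mul x24867 (nat_lit 2))) x11745) x29241) x23409) x24381) x25029) x24813) x5185)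
    (Nat.sub (Nat.add (Nat.add (Nat.add (Nat.add (Nat.add (Nat.add (Nat.add C (Nat.mul x25029 (nat_lit 3))) x11907) x29403) x23571) x24543) x25515) x24867) x5347)
    (Nat.sub (Nat.add (Nat.add (Nat.add (Nat.add C (Nat.mul x25515 (nat_lit 4))) x12393) x29889) x25029) x5833)
    (Nat.sub (Nat.add (Nat.add (Nat.add (Nat.add (Nat.add (Nat.add C (Nat.mul x26249 (nat_lit 5))) x13127) x39371) x21875) x26255) x26251) x45931)
    (Nat.sub (Nat.sub (Nat.add (Nat.add (Nat.add (Nat.add (Nat.add (Nat.add C (Nat.mul x26251 (nat_lit 4))) x13129) x39373) x21877) x26257) x26249) x45933) x6569)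
    (Nat.sub (Nat.add (Nat.add (Nat.add (Nat.add (Nat.add (Nat.add (Nat.add C (Nat.mul x26255 (nat_lit 3))) x13133) x39377) x21881) x26273) x26249) x26257) x45937)
    (Nat.sub (Nat.sub (Nat.add (Nat.add (Nat.add (Nat.add (Nat.add (Nat.add (Nat.add (Nat.add (Nat.add C (Nat.mul x26257 (nat_lit 4))) x13135) x39379) x21883) x26275) x26251) x26263) x26255) x26259) x45939) x6575)
    (Nat.sub (Nat.add (Nat.add (Nat.add (Nat.add (Nat.add (Nat.add (Nat.add C (Nat.mul x26259 (nat_lit 3))) x13137) x39381) x21885) x26277) x26265) x26257) x6577)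
    (Nat.sub (Nat.sub (Nat.add (Nat.add (Nat.add (Nat.add (Nat.add (Nat.add (Nat.add C (Nat.mul x26263 (nat_lit 2))) x13141) x39385) x21889) x26281) x26257) x26265) x45945) x6581)
    (Nat.sub (Nat.add (Nat.add (Nat.add (Nat.add (Nat.add (Nat.add (Nat.add C (Nat.mul x26265 (nat_lit 3))) x13143) x39387) x21891) x26283) x26259) x26263) x6583)
    (Nat.sub (Nat.add (Nat.add (Nat.add (Nat.add (Nat.add (Nat.add (Nat.add C (Nat.mul x26273 (nat_lit 3))) x13151) x39395) x21899) x26327) x26255) x26275) x45955)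
    (Nat.sub (Nat.sub (Nat.add (Nat.add (Nat.add (Nat.add (Nat.add (Nat.add (Nat.add (Nat.add (Nat.add C (Nat.mul x26275 (nat_lit 3))) x13153) x39397) x21901) x26329) x26257) x26281) x26273) x26277) x45957) x6593)
    (Nat.sub (Nat.add (Nat.add (Nat.add (Nat.add (Nat.add (Nat.add (Nat.add (Nat.add C x26277) x13155) x39399) x21903) x26331) x26259) x26283) x26275) x6595)
    (Nat.sub (Nat.sub (Nat.add (Nat.add (Nat.add (Nat.add (Nat.add (Nat.add (Nat.add (Nat.add (Nat.add C (Nat.mul x26281 (nat_lit 3))) x13159) x39403) x21907) x26335) x26263) x26299) x26275) x26283) x45963) x6599)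
    (Nat.sub (Nat.add (Nat.add (Nat.add (Nat.add (Nat.add (Nat.add (Nat.add (Nat.add (Nat.add (Nat.add C (Nat.mul x26283 (nat_lit 3))) x13161) x39405) x21909) x26337) x26265) x26301) x26277) x26289) x26281) x6601)
    (Nat.sub (Nat.add (Nat.add (Nat.add (Nat.add (Nat.add (Nat.add (Nat.add C (Nat.mul x26289 (nat_lit 3))) x13167) x39411) x21915) x26343) x26307) x26283) x6607)
    (Nat.sub (Nat.sub (Nat.add (Nat.add (Nat.add (Nat.add (Nat.add (Nat.add (Nat.add C (Nat.mul x26299 (nat_lit 2))) x13177) x39421) x21925) x26353) x26281) x26301) x45981) x6617)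
    (Nat.sub (Nat.add (Nat.add (Nat.add (Nat.add (Nat.add (Nat.add (Nat.add (Nat.add C x26301) x13179) x39423) x21927) x26355) x26283) x26307) x26299) x6619)
    (Nat.sub (Nat.add (Nat.add (Nat.add (Nat.add (Nat.add (Nat.add (Nat.add C (Nat.mul x26307 (nat_lit 3))) x13185) x39429) x21933) x26361) x26289) x26301) x6625)
    (Nat.sub (Nat.add (Nat.add (Nat.add (Nat.add (Nat.add (Nat.add (Nat.add C (Nat.mul x26327 (nat_lit 3))) x13205) x39449) x21953) x26489) x26273) x26329) x46009)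
    (Nat.sub (Nat.sub (Nat.add (Nat.add (Nat.add (Nat.add (Nat.add (Nat.add (Nat.add (Nat.add (Nat.add C (Nat.mul x26329 (nat_lit 3))) x13207) x39451) x21955) x26491) x26275) x26335) x26327) x26331) x46011) x6647)
    (Nat.sub (Nat.add (Nat.add (Nat.add (Nat.add (Nat.add (Nat.add (Nat.add (Nat.add C x26331) x13209) x39453) x21957) x26493) x26277) x26337) x26329) x6649)
    (Nat.sub (Nat.sub (Nat.add (Nat.add (Nat.add (Nat.add (Nat.add (Nat.add (Nat.add (Nat.add (Nat.add C (Nat.mul x26335 (nat_lit 2))) x13213) x39457) x21961) x26497) x26281) x26353) x26329) x26337) x46017) x6653)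
    (Nat.sub (Nat.add (Nat.add (Nat.add (Nat.add (Nat.add (Nat.add (Nat.add (Nat.add (Nat.add (Nat.add C (Nat.mul x26337 (nat_lit 2))) x13215) x39459) x21963) x26499) x26283) x26355) x26331) x26343) x26335) x6655)
    (Nat.sub (Nat.add (Nat.add (Nat.add (Nat.add (Nat.add (Nat.add (Nat.add (Nat.add C x26343) x13221) x39465) x21969) x26505) x26289) x26361) x26337) x6661)
    (Nat.sub (Nat.sub (Nat.add (Nat.add (Nat.add (Nat.add (Nat.add (Nat.add (Nat.add (Nat.add (Nat.add C (Nat.mul x26353 (nat_lit 3))) x13231) x39475) x21979) x26515) x26299) x26407) x26335) x26355) x46035) x6671)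
    (Nat.sub (Nat.add (Nat.add (Nat.add (Nat.add (Nat.add (Nat.add (Nat.add (Nat.add (Nat.add (Nat.add C (Nat.mul x26355 (nat_lit 2))) x13233) x39477) x21981) x26517) x26301) x26409) x26337) x26361) x26353) x6673)
    (Nat.sub (Nat.add (Nat.add (Nat.add (Nat.add (Nat.add (Nat.add (Nat.add (Nat.add (Nat.add (Nat.add C (Nat.mul x26361 (nat_lit 3))) x13239) x39483) x21987) x26523) x26307) x26415) x26343) x26379) x26355) x6679)
    (Nat.sub (Nat.add (Nat.add (Nat.add (Nat.add (Nat.add (Nat.add (Nat.add C (Nat.mul x26379 (nat_lit 3))) x13257) x39501) x22005) x26541) x26433) x26361) x6697)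
    (Nat.sub (Nat.sub (Nat.add (Nat.add (Nat.add (Nat.add (Nat.add (Nat.add (Nat.add C (Nat.mul x26407 (nat_lit 2))) x13285) x39529) x22033) x26569) x26353) x26409) x46089) x6725)
    (Nat.sub (Nat.add (Nat.add (Nat.add (Nat.add (Nat.add (Nat.add (Nat.add (Nat.add C x26409) x13287) x39531) x22035) x26571) x26355) x26415) x26407) x6727)
    (Nat.sub (Nat.add (Nat.add (Nat.add (Nat.add (Nat.add (Nat.add (Nat.add (Nat.add C x26415) x13293) x39537) x22041) x26577) x26361) x26433) x26409) x6733)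
    (Nat.sub (Nat.add (Nat.add (Nat.add (Nat.add (Nat.add (Nat.add (Nat.add C (Nat.mul x26433 (nat_lit 3))) x13311) x39555) x22059) x26595) x26379) x26415) x6751)
    (Nat.sub (Nat.add (Nat.add (Nat.add (Nat.add (Nat.add (Nat.add (Nat.add C (Nat.mul x26489 (nat_lit 3))) x13367) x39611) x22115) x26975) x26327) x26491) x46171)
    (Nat.sub (Nat.sub (Nat.add (Nat.add (Nat.add (Nat.add (Nat.add (Nat.add (Nat.add (Nat.add (Nat.add C (Nat.mul x26491 (nat_lit 3))) x13369) x39613) x22117) x26977) x26329) x26497) x26489) x26493) x46173) x6809)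
    (Nat.sub (Nat.add (Nat.add (Nat.add (Nat.add (Nat.add (Nat.add (Nat.add (Nat.add C x26493) x13371) x39615) x22119) x26979) x26331) x26499) x26491) x6811)
    (Nat.sub (Nat.sub (Nat.add (Nat.add (Nat.add (Nat.add (Nat.add (Nat.add (Nat.add (Nat.add (Nat.add C (Nat.mul x26497 (nat_lit 2))) x13375) x39619) x22123) x26983) x26335) x26515) x26491) x26499) x46179) x6815)
    (Nat.sub (Nat.add (Nat.add (Nat.add (Nat.add (Nat.add (Nat.add (Nat.add (Nat.add (Nat.add (Nat.add C (Nat.mul x26499 (nat_lit 2))) x13377) x39621) x22125) x26985) x26337) x26517) x26493) x26505) x26497) x6817)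
    (Nat.sub (Nat.add (Nat.add (Nat.add (Nat.add (Nat.add (Nat.add (Nat.add (Nat.add C x26505) x13383) x39627) x22131) x26991) x26343) x26523) x26499) x6823)
    (Nat.sub (Nat.sub (Nat.add (Nat.add (Nat.add (Nat.add (Nat.add (Nat.add (Nat.add (Nat.add (Nat.add C (Nat.mul x26515 (nat_lit 2))) x13393) x39637) x22141) x27001) x26353) x26569) x26497) x26517) x46197) x6833)
    (Nat.sub (Nat.add (Nat.add (Nat.add (Nat.add (Nat.add (Nat.add (Nat.add (Nat.add (Nat.add (Nat.add C x26517) x13395) x39639) x22143) x27003) x26355) x26571) x26499) x26523) x26515) x6835)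
    (Nat.sub (Nat.add (Nat.add (Nat.add (Nat.add (Nat.add (Nat.add (Nat.add (Nat.add (Nat.add (Nat.add C (Nat.mul x26523 (nat_lit 2))) x13401) x39645) x22149) x27009) x26361) x26577) x26505) x26541) x26517) x6841)
    (Nat.sub (Nat.add (Nat.add (Nat.add (Nat.add (Nat.add (Nat.add (Nat.add (Nat.add C x26541) x13419) x39663) x22167) x27027) x26379) x26595) x26523) x6859)
    (Nat.sub (Nat.sub (Nat.add (Nat.add (Nat.add (Nat.add (Nat.add (Nat.add (Nat.add (Nat.add (Nat.add C (Nat.mul x26569 (nat_lit 3))) x13447) x39691) x22195) x27055) x26407) x26731) x26515) x26571) x46251) x6887)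
    (Nat.sub (Nat.add (Nat.add (Nat.add (Nat.add (Nat.add (Nat.add (Nat.add (Nat.add (Nat.add (Nat.add C (Nat.mul x26571 (nat_lit 2))) x13449) x39693) x22197) x27057) x26409) x26733) x26517) x26577) x26569) x6889)
    (Nat.sub (Nat.add (Nat.add (Nat.add (Nat.add (Nat.add (Nat.add (Nat.add (Nat.add (Nat.add (Nat.add C (Nat.mul x26577 (nat_lit 2))) x13455) x39699) x22203) x27063) x26415) x26739) x26523) x26595) x26571) x6895)
    (Nat.sub (Nat.add (Nat.add (Nat.add (Nat.add (Nat.add (Nat.add (Nat.add (Nat.add (Nat.add (Nat.add C (Nat.mul x26595 (nat_lit 3))) x13473) x39717) x22221) x27081) x26433) x26757) x26541) x26649) x26577) x6913)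
    (Nat.sub (Nat.add (Nat.add (Nat.add (Nat.add (Nat.add (Nat.add (Nat.add C (Nat.mul x26649 (nat_lit 3))) x13527) x39771) x22275) x27135) x26811) x26595) x6967)
    (Nat.sub (Nat.sub (Nat.add (Nat.add (Nat.add (Nat.add (Nat.add (Nat.add (Nat.add C (Nat.mul x26731 (nat_lit 2))) x13609) x39853) x22357) x27217) x26569) x26733) x46413) x7049)
    (Nat.sub (Nat.add (Nat.add (Nat.add (Nat.add (Nat.add (Nat.add (Nat.add (Nat.add C x26733) x13611) x39855) x22359) x27219) x26571) x26739) x26731) x7051)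
    (Nat.sub (Nat.add (Nat.add (Nat.add (Nat.add (Nat.add (Nat.add (Nat.add (Nat.add C x26739) x13617) x39861) x22365) x27225) x26577) x26757) x26733) x7057)
    (Nat.sub (Nat.add (Nat.add (Nat.add (Nat.add (Nat.add (Nat.add (Nat.add (Nat.add C x26757) x13635) x39879) x22383) x27243) x26595) x26811) x26739) x7075)
    (Nat.sub (Nat.add (Nat.add (Nat.add (Nat.add (Nat.add (Nat.add (Nat.add C (Nat.mul x26811 (nat_lit 3))) x13689) x39933) x22437) x27297) x26649) x26757) x7129)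
    (Nat.sub (Nat.add (Nat.add (Nat.add (Nat.add (Nat.add (Nat.add (Nat.add C (Nat.mul x26975 (nat_lit 3))) x13853) x40097) x22601) x28433) x26489) x26977) x46657)
    (Nat.sub (Nat.sub (Nat.add (Nat.add (Nat.add (Nat.add (Nat.add (Nat.add (Nat.add (Nat.add (Nat.add C (Nat.mul x26977 (nat_lit 3))) x13855) x40099) x22603) x28435) x26491) x26983) x26975) x26979) x46659) x7295)
    (Nat.sub (Nat.add (Nat.add (Nat.add (Nat.add (Nat.add (Nat.add (Nat.add (Nat.add C x26979) x13857) x40101) x22605) x28437) x26493) x26985) x26977) x7297)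
    (Nat.sub (Nat.sub (Nat.add (Nat.add (Nat.add (Nat.add (Nat.add (Nat.add (Nat.add (Nat.add (Nat.add C (Nat.mul x26983 (nat_lit 2))) x13861) x40105) x22609) x28441) x26497) x27001) x26977) x26985) x46665) x7301)
    (Nat.sub (Nat.add (Nat.add (Nat.add (Nat.add (Nat.add (Nat.add (Nat.add (Nat.add (Nat.add (Nat.add C (Nat.mul x26985 (nat_lit 2))) x13863) x40107) x22611) x28443) x26499) x27003) x26979) x26991) x26983) x7303)
    (Nat.sub (Nat.add (Nat.add (Nat.add (Nat.add (Nat.add (Nat.add (Nat.add (Nat.add C x26991) x13869) x40113) x22617) x28449) x26505) x27009) x26985) x7309)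
    (Nat.sub (Nat.sub (Nat.add (Nat.add (Nat.add (Nat.add (Nat.add (Nat.add (Nat.add (Nat.add (Nat.add C (Nat.mul x27001 (nat_lit 2))) x13879) x40123) x22627) x28459) x26515) x27055) x26983) x27003) x46683) x7319)
    (Nat.sub (Nat.add (Nat.add (Nat.add (Nat.add (Nat.add (Nat.add (Nat.add (Nat.add (Nat.add (Nat.add C x27003) x13881) x40125) x22629) x28461) x26517) x27057) x26985) x27009) x27001) x7321)
    (Nat.sub (Nat.add (Nat.add (Nat.add (Nat.add (Nat.add (Nat.add (Nat.add (Nat.add (Nat.add (Nat.add C (Nat.mul x27009 (nat_lit 2))) x13887) x40131) x22635) x28467) x26523) x27063) x26991) x27027) x27003) x7327)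
    (Nat.sub (Nat.add (Nat.add (Nat.add (Nat.add (Nat.add (Nat.add (Nat.add (Nat.add C x27027) x13905) x40149) x22653) x28485) x26541) x27081) x27009) x7345)
    (Nat.sub (Nat.sub (Nat.add (Nat.add (Nat.add (Nat.add (Nat.add (Nat.add (Nat.add (Nat.add (Nat.add C (Nat.mul x27055 (nat_lit 2))) x13933) x40177) x22681) x28513) x26569) x27217) x27001) x27057) x46737) x7373)
    (Nat.sub (Nat.add (Nat.add (Nat.add (Nat.add (Nat.add (Nat.add (Nat.add (Nat.add (Nat.add (Nat.add C x27057) x13935) x40179) x22683) x28515) x26571) x27219) x27003) x27063) x27055) x7375)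
    (Nat.sub (Nat.add (Nat.add (Nat.add (Nat.add (Nat.add (Nat.add (Nat.add (Nat.add (Nat.add (Nat.add C x27063) x13941) x40185) x22689) x28521) x26577) x27225) x27009) x27081) x27057) x7381)
    (Nat.sub (Nat.add (Nat.add (Nat.add (Nat.add (Nat.add (Nat.add (Nat.add (Nat.add (Nat.add (Nat.add C (Nat.mul x27081 (nat_lit 2))) x13959) x40203) x22707) x28539) x26595) x27243) x27027) x27135) x27063) x7399)
    (Nat.sub (Nat.add (Nat.add (Nat.add (Nat.add (Nat.add (Nat.add (Nat.add (Nat.add C x27135) x14013) x40257) x22761) x28593) x26649) x27297) x27081) x7453)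
    (Nat.sub (Nat.sub (Nat.add (Nat.add (Nat.add (Nat.add (Nat.add (Nat.add (Nat.add (Nat.add (Nat.add C (Nat.mul x27217 (nat_lit 3))) x14095) x40339) x22843) x28675) x26731) x27703) x27055) x27219) x46899) x7535)
    (Nat.sub (Nat.add (Nat.add (Nat.add (Nat.add (Nat.add (Nat.add (Nat.add (Nat.add (Nat.add (Nat.add C (Nat.mul x27219 (nat_lit 2))) x14097) x40341) x22845) x28677) x26733) x27705) x27057) x27225) x27217) x7537)
    (Nat.sub (Nat.add (Nat.add (Nat.add (Nat.add (Nat.add (Nat.add (Nat.add (Nat.add (Nat.add (Nat.add C (Nat.mul x27225 (nat_lit 2))) x14103) x40347) x22851) x28683) x26739) x27711) x27063) x27243) x27219) x7543)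
    (Nat.sub (Nat.add (Nat.add (Nat.add (Nat.add (Nat.add (Nat.add (Nat.add (Nat.add (Nat.add (Nat.add C (Nat.mul x27243 (nat_lit 2))) x14121) x40365) x22869) x28701) x26757) x27729) x27081) x27297) x27225) x7561)
    (Nat.sub (Nat.add (Nat.add (Nat.add (Nat.add (Nat.add (Nat.add (Nat.add (Nat.add (Nat.add (Nat.add C (Nat.mul x27297 (nat_lit 3))) x14175) x40419) x22923) x28755) x26811) x27783) x27135) x27459) x27243) x7615)
    (Nat.sub (Nat.add (Nat.add (Nat.add (Nat.add (Nat.add (Nat.add (Nat.add C (Nat.mul x27459 (nat_lit 3))) x14337) x40581) x23085) x28917) x27945) x27297) x7777)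
    (Nat.sub (Nat.sub (Nat.add (Nat.add (Nat.add (Nat.add (Nat.add (Nat.add (Nat.add C (Nat.mul x27703 (nat_lit 2))) x14581) x40825) x23329) x29161) x27217) x27705) x47385) x8021)
    (Nat.sub (Nat.add (Nat.add (Nat.add (Nat.add (Nat.add (Nat.add (Nat.add (Nat.add C x27705) x14583) x40827) x23331) x29163) x27219) x27711) x27703) x8023)
    (Nat.sub (Nat.add (Nat.add (Nat.add (Nat.add (Nat.add (Nat.add (Nat.add (Nat.add C x27711) x14589) x40833) x23337) x29169) x27225) x27729) x27705) x8029)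
    (Nat.sub (Nat.add (Nat.add (Nat.add (Nat.add (Nat.add (Nat.add (Nat.add (Nat.add C x27729) x14607) x40851) x23355) x29187) x27243) x27783) x27711) x8047)
    (Nat.sub (Nat.add (Nat.add (Nat.add (Nat.add (Nat.add (Nat.add (Nat.add (Nat.add C x27783) x14661) x40905) x23409) x29241) x27297) x27945) x27729) x8101)
    (Nat.sub (Nat.add (Nat.add (Nat.add (Nat.add (Nat.add (Nat.add (Nat.add C (Nat.mul x27945 (nat_lit 3))) x14823) x41067) x23571) x29403) x27459) x27783) x8263)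
    (Nat.sub (Nat.add (Nat.add (Nat.add (Nat.add (Nat.add (Nat.add (Nat.add C (Nat.mul x28433 (nat_lit 4))) x15311) x41555) x24059) x32807) x26975) x28435) x48115)
    (Nat.sub (Nat.sub (Nat.add (Nat.add (Nat.add (Nat.add (Nat.add (Nat.add (Nat.add (Nat.add (Nat.add C (Nat.mul x28435 (nat_lit 4))) x15313) x41557) x24061) x32809) x26977) x28441) x28433) x28437) x48117) x8753)
    (Nat.sub (Nat.add (Nat.add (Nat.add (Nat.add (Nat.add (Nat.add (Nat.add (Nat.add C (Nat.mul x28437 (nat_lit 2))) x15315) x41559) x24063) x32811) x26979) x28443) x28435) x8755)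
    (Nat.sub (Nat.sub (Nat.add (Nat.add (Nat.add (Nat.add (Nat.add (Nat.add (Nat.add (Nat.add (Nat.add C (Nat.mul x28441 (nat_lit 3))) x15319) x41563) x24067) x32815) x26983) x28459) x28435) x28443) x48123) x8759)
    (Nat.sub (Nat.add (Nat.add (Nat.add (Nat.add (Nat.add (Nat.add (Nat.add (Nat.add (Nat.add (Nat.add C (Nat.mul x28443 (nat_lit 3))) x15321) x41565) x24069) x32817) x26985) x28461) x28437) x28449) x28441) x8761)
    (Nat.sub (Nat.add (Nat.add (Nat.add (Nat.add (Nat.add (Nat.add (Nat.add (Nat.add C (Nat.mul x28449 (nat_lit 2))) x15327) x41571) x24075) x32823) x26991) x28467) x28443) x8767)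
    (Nat.sub (Nat.sub (Nat.add (Nat.add (Nat.add (Nat.add (Nat.add (Nat.add (Nat.add (Nat.add (Nat.add C (Nat.mul x28459 (nat_lit 3))) x15337) x41581) x24085) x32833) x27001) x28513) x28441) x28461) x48141) x8777)
    (Nat.sub (Nat.add (Nat.add (Nat.add (Nat.add (Nat.add (Nat.add (Nat.add (Nat.add (Nat.add (Nat.add C (Nat.mul x28461 (nat_lit 2))) x15339) x41583) x24087) x32835) x27003) x28515) x28443) x28467) x28459) x8779)
    (Nat.sub (Nat.add (Nat.add (Nat.add (Nat.add (Nat.add (Nat.add (Nat.add (Nat.add (Nat.add (Nat.add C (Nat.mul x28467 (nat_lit 3))) x15345) x41589) x24093) x32841) x27009) x28521) x28449) x28485) x28461) x8785)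
    (Nat.sub (Nat.add (Nat.add (Nat.add (Nat.add (Nat.add (Nat.add (Nat.add (Nat.add C (Nat.mul x28485 (nat_lit 2))) x15363) x41607) x24111) x32859) x27027) x28539) x28467) x8803)
    (Nat.sub (Nat.sub (Nat.add (Nat.add (Nat.add (Nat.add (Nat.add (Nat.add (Nat.add (Nat.add (Nat.add C (Nat.mul x28513 (nat_lit 3))) x15391) x41635) x24139) x32887) x27055) x28675) x28459) x28515) x48195) x8831)
    (Nat.sub (Nat.add (Nat.add (Nat.add (Nat.add (Nat.add (Nat.add (Nat.add (Nat.add (Nat.add (Nat.add C (Nat.mul x28515 (nat_lit 2))) x15393) x41637) x24141) x32889) x27057) x28677) x28461) x28521) x28513) x8833)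
    (Nat.sub (Nat.add (Nat.add (Nat.add (Nat.add (Nat.add (Nat.add (Nat.add (Nat.add (Nat.add (Nat.add C (Nat.mul x28521 (nat_lit 2))) x15399) x41643) x24147) x32895) x27063) x28683) x28467) x28539) x28515) x8839)
    (Nat.sub (Nat.add (Nat.add (Nat.add (Nat.add (Nat.add (Nat.add (Nat.add (Nat.add (Nat.add (Nat.add C (Nat.mul x28539 (nat_lit 3))) x15417) x41661) x24165) x32913) x27081) x28701) x28485) x28593) x28521) x8857)
    (Nat.sub (Nat.add (Nat.add (Nat.add (Nat.add (Nat.add (Nat.add (Nat.add (Nat.add C (Nat.mul x28593 (nat_lit 2))) x15471) x41715) x24219) x32967) x27135) x28755) x28539) x8911)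
    (Nat.sub (Nat.sub (Nat.add (Nat.add (Nat.add (Nat.add (Nat.add (Nat.add (Nat.add (Nat.add (Nat.add C (Nat.mul x28675 (nat_lit 3))) x15553) x41797) x24301) x33049) x27217) x29161) x28513) x28677) x48357) x8993)
    (Nat.sub (Nat.add (Nat.add (Nat.add (Nat.add (Nat.add (Nat.add (Nat.add (Nat.add (Nat.add (Nat.add C (Nat.mul x28677 (nat_lit 2))) x15555) x41799) x24303) x33051) x27219) x29163) x28515) x28683) x28675) x8995)
    (Nat.sub (Nat.add (Nat.add (Nat.add (Nat.add (Nat.add (Nat.add (Nat.add (Nat.add (Nat.add (Nat.add C (Nat.mul x28683 (nat_lit 2))) x15561) x41805) x24309) x33057) x27225) x29169) x28521) x28701) x28677) x9001)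
    (Nat.sub (Nat.add (Nat.add (Nat.add (Nat.add (Nat.add (Nat.add (Nat.add (Nat.add (Nat.add (Nat.add C (Nat.mul x28701 (nat_lit 2))) x15579) x41823) x24327) x33075) x27243) x29187) x28539) x28755) x28683) x9019)
    (Nat.sub (Nat.add (Nat.add (Nat.add (Nat.add (Nat.add (Nat.add (Nat.add (Nat.add (Nat.add (Nat.add C (Nat.mul x28755 (nat_lit 3))) x15633) x41877) x24381) x33129) x27297) x29241) x28593) x28917) x28701) x9073)
    (Nat.sub (Nat.add (Nat.add (Nat.add (Nat.add (Nat.add (Nat.add (Nat.add (Nat.add C (Nat.mul x28917 (nat_lit 2))) x15795) x42039) x24543) x33291) x27459) x29403) x28755) x9235)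
    (Nat.sub (Nat.sub (Nat.add (Nat.add (Nat.add (Nat.add (Nat.add (Nat.add (Nat.add (Nat.add (Nat.add C (Nat.mul x29161 (nat_lit 4))) x16039) x42283) x24787) x33535) x27703) x30619) x28675) x29163) x48843) x9479)
    (Nat.sub (Nat.add (Nat.add (Nat.add (Nat.add (Nat.add (Nat.add (Nat.add (Nat.add (Nat.add (Nat.add C (Nat.mul x29163 (nat_lit 3))) x16041) x42285) x24789) x33537) x27705) x30621) x28677) x29169) x29161) x9481)
    (Nat.sub (Nat.add (Nat.add (Nat.add (Nat.add (Nat.add (Nat.add (Nat.add (Nat.add (Nat.add (Nat.add C (Nat.mul x29169 (nat_lit 3))) x16047) x42291) x24795) x33543) x27711) x30627) x28683) x29187) x29163) x9487)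
    (Nat.sub (Nat.add (Nat.add (Nat.add (Nat.add (Nat.add (Nat.add (Nat.add (Nat.add (Nat.add (Nat.add C (Nat.mul x29187 (nat_lit 3))) x16065) x42309) x24813) x33561) x27729) x30645) x28701) x29241) x29169) x9505)
    (Nat.sub (Nat.add (Nat.add (Nat.add (Nat.add (Nat.add (Nat.add (Nat.add (Nat.add (Nat.add (Nat.add C (Nat.mul x29241 (nat_lit 3))) x16119) x42363) x24867) x33615) x27783) x30699) x28755) x29403) x29187) x9559)
    (Nat.sub (Nat.add (Nat.add (Nat.add (Nat.add (Nat.add (Nat.add (Nat.add (Nat.add (Nat.add (Nat.add C (Nat.mul x29403 (nat_lit 4))) x16281) x42525) x25029) x33777) x27945) x30861) x28917) x29889) x29241) x9721)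
    (Nat.sub (Nat.add (Nat.add (Nat.add (Nat.add (Nat.add (Nat.add (Nat.add C (Nat.mul x29889 (nat_lit 4))) x16767) x43011) x25515) x34263) x31347) x29403) x10207)
    (Nat.sub (Nat.sub (Nat.add (Nat.add (Nat.add (Nat.add (Nat.add (Nat.add C (Nat.mul x30619 (nat_lit 4))) x17497) x43741) x34993) x29161) x30621) x50301) x10937)
    (Nat.sub (Nat.add (Nat.add (Nat.add (Nat.add (Nat.add (Nat.add (Nat.add C (Nat.mul x30621 (nat_lit 3))) x17499) x43743) x34995) x29163) x30627) x30619) x10939)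
    (Nat.sub (Nat.add (Nat.add (Nat.add (Nat.add (Nat.add (Nat.add (Nat.add C (Nat.mul x30627 (nat_lit 3))) x17505) x43749) x35001) x29169) x30645) x30621) x10945)
    (Nat.sub (Nat.add (Nat.add (Nat.add (Nat.add (Nat.add (Nat.add (Nat.add C (Nat.mul x30645 (nat_lit 3))) x17523) x43767) x35019) x29187) x30699) x30627) x10963)
    (Nat.sub (Nat.add (Nat.add (Nat.add (Nat.add (Nat.add (Nat.add (Nat.add C (Nat.mul x30699 (nat_lit 3))) x17577) x43821) x35073) x29241) x30861) x30645) x11017)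
    (Nat.sub (Nat.add (Nat.add (Nat.add (Nat.add (Nat.add (Nat.add (Nat.add C (Nat.mul x30861 (nat_lit 3))) x17739) x43983) x35235) x29403) x31347) x30699) x11179)
    (Nat.sub (Nat.add (Nat.add (Nat.add (Nat.add (Nat.add (Nat.add C (Nat.mul x31347 (nat_lit 5))) x18225) x44469) x35721) x29889) x30861) x11665)
    (Nat.sub (Nat.add (Nat.add (Nat.add (Nat.add C (Nat.mul x32807 (nat_lit 4))) x45929) x28433) x32809) x52489)
    (Nat.sub (Nat.sub (Nat.add (Nat.add (Nat.add (Nat.add (Nat.add (Nat.add C (Nat.mul x32809 (nat_lit 4))) x45931) x28435) x32815) x32807) x32811) x52491) x13127)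
    (Nat.sub (Nat.add (Nat.add (Nat.add (Nat.add (Nat.add C (Nat.mul x32811 (nat_lit 2))) x45933) x28437) x32817) x32809) x13129)
    (Nat.sub (Nat.sub (Nat.add (Nat.add (Nat.add (Nat.add (Nat.add (Nat.add C (Nat.mul x32815 (nat_lit 3))) x45937) x28441) x32833) x32809) x32817) x52497) x13133)
    (Nat.sub (Nat.add (Nat.add (Nat.add (Nat.add (Nat.add (Nat.add (Nat.add C (Nat.mul x32817 (nat_lit 3))) x45939) x28443) x32835) x32811) x32823) x32815) x13135)
    (Nat.sub (Nat.add (Nat.add (Nat.add (Nat.add (Nat.add C (Nat.mul x32823 (nat_lit 2))) x45945) x28449) x32841) x32817) x13141)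
    (Nat.sub (Nat.sub (Nat.add (Nat.add (Nat.add (Nat.add (Nat.add (Nat.add C (Nat.mul x32833 (nat_lit 3))) x45955) x28459) x32887) x32815) x32835) x52515) x13151)
    (Nat.sub (Nat.add (Nat.add (Nat.add (Nat.add (Nat.add (Nat.add (Nat.add C (Nat.mul x32835 (nat_lit 2))) x45957) x28461) x32889) x32817) x32841) x32833) x13153)
    (Nat.sub (Nat.add (Nat.add (Nat.add (Nat.add (Nat.add (Nat.add (Nat.add C (Nat.mul x32841 (nat_lit 3))) x45963) x28467) x32895) x32823) x32859) x32835) x13159)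
    (Nat.sub (Nat.add (Nat.add (Nat.add (Nat.add (Nat.add C (Nat.mul x32859 (nat_lit 2))) x45981) x28485) x32913) x32841) x13177)
    (Nat.sub (Nat.sub (Nat.add (Nat.add (Nat.add (Nat.add (Nat.add (Nat.add C (Nat.mul x32887 (nat_lit 3))) x46009) x28513) x33049) x32833) x32889) x52569) x13205)
    (Nat.sub (Nat.add (Nat.add (Nat.add (Nat.add (Nat.add (Nat.add (Nat.add C (Nat.mul x32889 (nat_lit 2))) x46011) x28515) x33051) x32835) x32895) x32887) x13207)
    (Nat.sub (Nat.add (Nat.add (Nat.add (Nat.add (Nat.add (Nat.add (Nat.add C (Nat.mul x32895 (nat_lit 2))) x46017) x28521) x33057) x32841) x32913) x32889) x13213)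
    (Nat.sub (Nat.add (Nat.add (Nat.add (Nat.add (Nat.add (Nat.add (Nat.add C (Nat.mul x32913 (nat_lit 3))) x46035) x28539) x33075) x32859) x32967) x32895) x13231)
    (Nat.sub (Nat.add (Nat.add (Nat.add (Nat.add (Nat.add C (Nat.mul x32967 (nat_lit 2))) x46089) x28593) x33129) x32913) x13285)
    (Nat.sub (Nat.sub (Nat.add (Nat.add (Nat.add (Nat.add (Nat.add (Nat.add C (Nat.mul x33049 (nat_lit 3))) x46171) x28675) x33535) x32887) x33051) x52731) x13367)
    (Nat.sub (Nat.add (Nat.add (Nat.add (Nat.add (Nat.add (Nat.add (Nat.add C (Nat.mul x33051 (nat_lit 2))) x46173) x28677) x33537) x32889) x33057) x33049) x13369)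
    (Nat.sub (Nat.add (Nat.add (Nat.add (Nat.add (Nat.add (Nat.add (Nat.add C (Nat.mul x33057 (nat_lit 2))) x46179) x28683) x33543) x32895) x33075) x33051) x13375)
    (Nat.sub (Nat.add (Nat.add (Nat.add (Nat.add (Nat.add (Nat.add (Nat.add C (Nat.mul x33075 (nat_lit 2))) x46197) x28701) x33561) x32913) x33129) x33057) x13393)
    (Nat.sub (Nat.add (Nat.add (Nat.add (Nat.add (Nat.add (Nat.add (Nat.add C (Nat.mul x33129 (nat_lit 3))) x46251) x28755) x33615) x32967) x33291) x33075) x13447)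
    (Nat.sub (Nat.add (Nat.add (Nat.add (Nat.add (Nat.add C (Nat.mul x33291 (nat_lit 2))) x46413) x28917) x33777) x33129) x13609)
    (Nat.sub (Nat.sub (Nat.add (Nat.add (Nat.add (Nat.add (Nat.add (Nat.add C (Nat.mul x33535 (nat_lit 3))) x46657) x29161) x34993) x33049) x33537) x53217) x13853)
    (Nat.sub (Nat.add (Nat.add (Nat.add (Nat.add (Nat.add (Nat.add (Nat.add C (Nat.mul x33537 (nat_lit 2))) x46659) x29163) x34995) x33051) x33543) x33535) x13855)
    (Nat.sub (Nat.add (Nat.add (Nat.add (Nat.add (Nat.add (Nat.add (Nat.add C (Nat.mul x33543 (nat_lit 2))) x46665) x29169) x35001) x33057) x33561) x33537) x13861)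
    (Nat.sub (Nat.add (Nat.add (Nat.add (Nat.add (Nat.add (Nat.add (Nat.add C (Nat.mul x33561 (nat_lit 2))) x46683) x29187) x35019) x33075) x33615) x33543) x13879)
    (Nat.sub (Nat.add (Nat.add (Nat.add (Nat.add (Nat.add (Nat.add (Nat.add C (Nat.mul x33615 (nat_lit 2))) x46737) x29241) x35073) x33129) x33777) x33561) x13933)
    (Nat.sub (Nat.add (Nat.add (Nat.add (Nat.add (Nat.add (Nat.add (Nat.add C (Nat.mul x33777 (nat_lit 3))) x46899) x29403) x35235) x33291) x34263) x33615) x14095)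
    (Nat.sub (Nat.add (Nat.add (Nat.add (Nat.add (Nat.add C (Nat.mul x34263 (nat_lit 2))) x47385) x29889) x35721) x33777) x14581)
    (Nat.sub (Nat.sub (Nat.add (Nat.add (Nat.add (Nat.add (Nat.add C (Nat.mul x34993 (nat_lit 5))) x48115) x30619) x33535) x34995) x54675) x15311)
    (Nat.sub (Nat.add (Nat.add (Nat.add (Nat.add (Nat.add (Nat.add C (Nat.mul x34995 (nat_lit 4))) x48117) x30621) x33537) x35001) x34993) x15313)
    (Nat.sub (Nat.add (Nat.add (Nat.add (Nat.add (Nat.add (Nat.add C (Nat.mul x35001 (nat_lit 4))) x48123) x30627) x33543) x35019) x34995) x15319)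
    (Nat.sub (Nat.add (Nat.add (Nat.add (Nat.add (Nat.add (Nat.add C (Nat.mul x35019 (nat_lit 4))) x48141) x30645) x33561) x35073) x35001) x15337)
    (Nat.sub (Nat.add (Nat.add (Nat.add (Nat.add (Nat.add (Nat.add C (Nat.mul x35073 (nat_lit 4))) x48195) x30699) x33615) x35235) x35019) x15391)
    (Nat.sub (Nat.add (Nat.add (Nat.add (Nat.add (Nat.add (Nat.add C (Nat.mul x35235 (nat_lit 4))) x48357) x30861) x33777) x35721) x35073) x15553)
    (Nat.sub (Nat.add (Nat.add (Nat.add (Nat.add (Nat.add (Nat.add C (Nat.mul x35721 (nat_lit 5))) x48843) x31347) x34263) x37179) x35235) x16039)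
    (Nat.sub (Nat.add (Nat.add (Nat.add C (Nat.mul x37179 (nat_lit 6))) x50301) x35721) x17497)
    (Nat.add (Nat.add (Nat.add (Nat.add C (Nat.mul x39371 (nat_lit 6))) x26249) x39377) x39373)
    (Nat.sub (Nat.add (Nat.add (Nat.add (Nat.add C (Nat.mul x39373 (nat_lit 4))) x26251) x39379) x39371) x19691)
    (Nat.add (Nat.add (Nat.add (Nat.add (Nat.add C (Nat.mul x39377 (nat_lit 4))) x26255) x39395) x39371) x39379)
    (Nat.sub (Nat.add (Nat.add (Nat.add (Nat.add (Nat.add (Nat.add (Nat.add C (Nat.mul x39379 (nat_lit 4))) x26257) x39397) x39373) x39385) x39377) x39381) x19697)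
    (Nat.sub (Nat.add (Nat.add (Nat.add (Nat.add (Nat.add C (Nat.mul x39381 (nat_lit 2))) x26259) x39399) x39387) x39379) x19699)
    (Nat.sub (Nat.add (Nat.add (Nat.add (Nat.add (Nat.add C (Nat.mul x39385 (nat_lit 2))) x26263) x39403) x39379) x39387) x19703)
    (Nat.sub (Nat.add (Nat.add (Nat.add (Nat.add (Nat.add C (Nat.mul x39387 (nat_lit 2))) x26265) x39405) x39381) x39385) x19705)
    (Nat.add (Nat.add (Nat.add (Nat.add (Nat.add C (Nat.mul x39395 (nat_lit 4))) x26273) x39449) x39377) x39397)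
    (Nat.sub (Nat.add (Nat.add (Nat.add (Nat.add (Nat.add (Nat.add (Nat.add C (Nat.mul x39397 (nat_lit 3))) x26275) x39451) x39379) x39403) x39395) x39399) x19715)
    (Nat.sub (Nat.add (Nat.add (Nat.add (Nat.add (Nat.add C x26277) x39453) x39381) x39405) x39397) x19717)
    (Nat.sub (Nat.add (Nat.add (Nat.add (Nat.add (Nat.add (Nat.add (Nat.add C (Nat.mul x39403 (nat_lit 3))) x26281) x39457) x39385) x39421) x39397) x39405) x19721)
    (Nat.sub (Nat.add (Nat.add (Nat.add (Nat.add (Nat.add (Nat.add (Nat.add (Nat.add C (Nat.mul x39405 (nat_lit 2))) x26283) x39459) x39387) x39423) x39399) x39411) x39403) x19723)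
    (Nat.sub (Nat.add (Nat.add (Nat.add (Nat.add (Nat.add C (Nat.mul x39411 (nat_lit 2))) x26289) x39465) x39429) x39405) x19729)
    (Nat.sub (Nat.add (Nat.add (Nat.add (Nat.add (Nat.add C (Nat.mul x39421 (nat_lit 2))) x26299) x39475) x39403) x39423) x19739)
    (Nat.sub (Nat.add (Nat.add (Nat.add (Nat.add (Nat.add C x26301) x39477) x39405) x39429) x39421) x19741)
    (Nat.sub (Nat.add (Nat.add (Nat.add (Nat.add (Nat.add C (Nat.mul x39429 (nat_lit 2))) x26307) x39483) x39411) x39423) x19747)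
    (Nat.add (Nat.add (Nat.add (Nat.add (Nat.add C (Nat.mul x39449 (nat_lit 4))) x26327) x39611) x39395) x39451)
    (Nat.sub (Nat.add (Nat.add (Nat.add (Nat.add (Nat.add (Nat.add (Nat.add C (Nat.mul x39451 (nat_lit 3))) x26329) x39613) x39397) x39457) x39449) x39453) x19769)
    (Nat.sub (Nat.add (Nat.add (Nat.add (Nat.add (Nat.add C x26331) x39615) x39399) x39459) x39451) x19771)
    (Nat.sub (Nat.add (Nat.add (Nat.add (Nat.add (Nat.add (Nat.add (Nat.add C (Nat.mul x39457 (nat_lit 2))) x26335) x39619) x39403) x39475) x39451) x39459) x19775)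
    (Nat.sub (Nat.add (Nat.add (Nat.add (Nat.add (Nat.add (Nat.add (Nat.add (Nat.add C x39459) x26337) x39621) x39405) x39477) x39453) x39465) x39457) x19777)
    (Nat.sub (Nat.add (Nat.add (Nat.add (Nat.add (Nat.add C x26343) x39627) x39411) x39483) x39459) x19783)
    (Nat.sub (Nat.add (Nat.add (Nat.add (Nat.add (Nat.add (Nat.add (Nat.add C (Nat.mul x39475 (nat_lit 3))) x26353) x39637) x39421) x39529) x39457) x39477) x19793)
    (Nat.sub (Nat.add (Nat.add (Nat.add (Nat.add (Nat.add (Nat.add (Nat.add (Nat.add C x39477) x26355) x39639) x39423) x39531) x39459) x39483) x39475) x19795)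
    (Nat.sub (Nat.add (Nat.add (Nat.add (Nat.add (Nat.add (Nat.add (Nat.add (Nat.add C (Nat.mul x39483 (nat_lit 2))) x26361) x39645) x39429) x39537) x39465) x39501) x39477) x19801)
    (Nat.sub (Nat.add (Nat.add (Nat.add (Nat.add (Nat.add C (Nat.mul x39501 (nat_lit 2))) x26379) x39663) x39555) x39483) x19819)
    (Nat.sub (Nat.add (Nat.add (Nat.add (Nat.add (Nat.add C (Nat.mul x39529 (nat_lit 2))) x26407) x39691) x39475) x39531) x19847)
    (Nat.sub (Nat.add (Nat.add (Nat.add (Nat.add (Nat.add C x26409) x39693) x39477) x39537) x39529) x19849)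
    (Nat.sub (Nat.add (Nat.add (Nat.add (Nat.add (Nat.add C x26415) x39699) x39483) x39555) x39531) x19855)
    (Nat.sub (Nat.add (Nat.add (Nat.add (Nat.add (Nat.add C (Nat.mul x39555 (nat_lit 2))) x26433) x39717) x39501) x39537) x19873)
    (Nat.add (Nat.add (Nat.add (Nat.add (Nat.add C (Nat.mul x39611 (nat_lit 4))) x26489) x40097) x39449) x39613)
    (Nat.sub (Nat.add (Nat.add (Nat.add (Nat.add (Nat.add (Nat.add (Nat.add C (Nat.mul x39613 (nat_lit 3))) x26491) x40099) x39451) x39619) x39611) x39615) x19931)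
    (Nat.sub (Nat.add (Nat.add (Nat.add (Nat.add (Nat.add C x26493) x40101) x39453) x39621) x39613) x19933)
    (Nat.sub (Nat.add (Nat.add (Nat.add (Nat.add (Nat.add (Nat.add (Nat.add C (Nat.mul x39619 (nat_lit 2))) x26497) x40105) x39457) x39637) x39613) x39621) x19937)
    (Nat.sub (Nat.add (Nat.add (Nat.add (Nat.add (Nat.add (Nat.add (Nat.add (Nat.add C x39621) x26499) x40107) x39459) x39639) x39615) x39627) x39619) x19939)
    (Nat.sub (Nat.add (Nat.add (Nat.add (Nat.add (Nat.add C x26505) x40113) x39465) x39645) x39621) x19945)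
    (Nat.sub (Nat.add (Nat.add (Nat.add (Nat.add (Nat.add (Nat.add (Nat.add C (Nat.mul x39637 (nat_lit 2))) x26515) x40123) x39475) x39691) x39619) x39639) x19955)
    (Nat.sub (Nat.add (Nat.add (Nat.add (Nat.add (Nat.add (Nat.add (Nat.add C x26517) x40125) x39477) x39693) x39621) x39645) x39637) x19957)
    (Nat.sub (Nat.add (Nat.add (Nat.add (Nat.add (Nat.add (Nat.add (Nat.add (Nat.add C x39645) x26523) x40131) x39483) x39699) x39627) x39663) x39639) x19963)
    (Nat.sub (Nat.add (Nat.add (Nat.add (Nat.add (Nat.add C x26541) x40149) x39501) x39717) x39645) x19981)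
    (Nat.sub (Nat.add (Nat.add (Nat.add (Nat.add (Nat.add (Nat.add (Nat.add C (Nat.mul x39691 (nat_lit 3))) x26569) x40177) x39529) x39853) x39637) x39693) x20009)
    (Nat.sub (Nat.add (Nat.add (Nat.add (Nat.add (Nat.add (Nat.add (Nat.add (Nat.add C x39693) x26571) x40179) x39531) x39855) x39639) x39699) x39691) x20011)
    (Nat.sub (Nat.add (Nat.add (Nat.add (Nat.add (Nat.add (Nat.add (Nat.add (Nat.add C x39699) x26577) x40185) x39537) x39861) x39645) x39717) x39693) x20017)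
    (Nat.sub (Nat.add (Nat.add (Nat.add (Nat.add (Nat.add (Nat.add (Nat.add (Nat.add C (Nat.mul x39717 (nat_lit 2))) x26595) x40203) x39555) x39879) x39663) x39771) x39699) x20035)
    (Nat.sub (Nat.add (Nat.add (Nat.add (Nat.add (Nat.add C (Nat.mul x39771 (nat_lit 2))) x26649) x40257) x39933) x39717) x20089)
    (Nat.sub (Nat.add (Nat.add (Nat.add (Nat.add (Nat.add C (Nat.mul x39853 (nat_lit 2))) x26731) x40339) x39691) x39855) x20171)
    (Nat.sub (Nat.add (Nat.add (Nat.add (Nat.add (Nat.add C x26733) x40341) x39693) x39861) x39853) x20173)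
    (Nat.sub (Nat.add (Nat.add (Nat.add (Nat.add (Nat.add C x26739) x40347) x39699) x39879) x39855) x20179)
    (Nat.sub (Nat.add (Nat.add (Nat.add (Nat.add (Nat.add C x26757) x40365) x39717) x39933) x39861) x20197)
    (Nat.sub (Nat.add (Nat.add (Nat.add (Nat.add (Nat.add C (Nat.mul x39933 (nat_lit 2))) x26811) x40419) x39771) x39879) x20251)
    (Nat.add (Nat.add (Nat.add (Nat.add (Nat.add C (Nat.mul x40097 (nat_lit 4))) x26975) x41555) x39611) x40099)
    (Nat.sub (Nat.add (Nat.add (Nat.add (Nat.add (Nat.add (Nat.add (Nat.add C (Nat.mul x40099 (nat_lit 3))) x26977) x41557) x39613) x40105) x40097) x40101) x20417)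
    (Nat.sub (Nat.add (Nat.add (Nat.add (Nat.add (Nat.add C x26979) x41559) x39615) x40107) x40099) x20419)
    (Nat.sub (Nat.add (Nat.add (Nat.add (Nat.add (Nat.add (Nat.add (Nat.add C (Nat.mul x40105 (nat_lit 2))) x26983) x41563) x39619) x40123) x40099) x40107) x20423)
    (Nat.sub (Nat.add (Nat.add (Nat.add (Nat.add (Nat.add (Nat.add (Nat.add (Nat.add C x40107) x26985) x41565) x39621) x40125) x40101) x40113) x40105) x20425)
    (Nat.sub (Nat.add (Nat.add (Nat.add (Nat.add (Nat.add C x26991) x41571) x39627) x40131) x40107) x20431)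
    (Nat.sub (Nat.add (Nat.add (Nat.add (Nat.add (Nat.add (Nat.add (Nat.add C (Nat.mul x40123 (nat_lit 2))) x27001) x41581) x39637) x40177) x40105) x40125) x20441)
    (Nat.sub (Nat.add (Nat.add (Nat.add (Nat.add (Nat.add (Nat.add (Nat.add C x27003) x41583) x39639) x40179) x40107) x40131) x40123) x20443)
    (Nat.sub (Nat.add (Nat.add (Nat.add (Nat.add (Nat.add (Nat.add (Nat.add (Nat.add C x40131) x27009) x41589) x39645) x40185) x40113) x40149) x40125) x20449)
    (Nat.sub (Nat.add (Nat.add (Nat.add (Nat.add (Nat.add C x27027) x41607) x39663) x40203) x40131) x20467)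
    (Nat.sub (Nat.add (Nat.add (Nat.add (Nat.add (Nat.add (Nat.add (Nat.add C (Nat.mul x40177 (nat_lit 2))) x27055) x41635) x39691) x40339) x40123) x40179) x20495)
    (Nat.sub (Nat.add (Nat.add (Nat.add (Nat.add (Nat.add (Nat.add (Nat.add C x27057) x41637) x39693) x40341) x40125) x40185) x40177) x20497)
    (Nat.sub (Nat.add (Nat.add (Nat.add (Nat.add (Nat.add (Nat.add (Nat.add C x27063) x41643) x39699) x40347) x40131) x40203) x40179) x20503)
    (Nat.sub (Nat.add (Nat.add (Nat.add (Nat.add (Nat.add (Nat.add (Nat.add (Nat.add C x40203) x27081) x41661) x39717) x40365) x40149) x40257) x40185) x20521)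
    (Nat.sub (Nat.add (Nat.add (Nat.add (Nat.add (Nat.add C x27135) x41715) x39771) x40419) x40203) x20575)
    (Nat.sub (Nat.add (Nat.add (Nat.add (Nat.add (Nat.add (Nat.add (Nat.add C (Nat.mul x40339 (nat_lit 3))) x27217) x41797) x39853) x40825) x40177) x40341) x20657)
    (Nat.sub (Nat.add (Nat.add (Nat.add (Nat.add (Nat.add (Nat.add (Nat.add (Nat.add C x40341) x27219) x41799) x39855) x40827) x40179) x40347) x40339) x20659)
    (Nat.sub (Nat.add (Nat.add (Nat.add (Nat.add (Nat.add (Nat.add (Nat.add (Nat.add C x40347) x27225) x41805) x39861) x40833) x40185) x40365) x40341) x20665)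
    (Nat.sub (Nat.add (Nat.add (Nat.add (Nat.add (Nat.add (Nat.add (Nat.add (Nat.add C x40365) x27243) x41823) x39879) x40851) x40203) x40419) x40347) x20683)
    (Nat.sub (Nat.add (Nat.add (Nat.add (Nat.add (Nat.add (Nat.add (Nat.add (Nat.add C (Nat.mul x40419 (nat_lit 2))) x27297) x41877) x39933) x40905) x40257) x40581) x40365) x20737)
    (Nat.sub (Nat.add (Nat.add (Nat.add (Nat.add (Nat.add C (Nat.mul x40581 (nat_lit 2))) x27459) x42039) x41067) x40419) x20899)
    (Nat.sub (Nat.add (Nat.add (Nat.add (Nat.add (Nat.add C (Nat.mul x40825 (nat_lit 2))) x27703) x42283) x40339) x40827) x21143)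
    (Nat.sub (Nat.add (Nat.add (Nat.add (Nat.add (Nat.add C x27705) x42285) x40341) x40833) x40825) x21145)
    (Nat.sub (Nat.add (Nat.add (Nat.add (Nat.add (Nat.add C x27711) x42291) x40347) x40851) x40827) x21151)
    (Nat.sub (Nat.add (Nat.add (Nat.add (Nat.add (Nat.add C x27729) x42309) x40365) x40905) x40833) x21169)
    (Nat.sub (Nat.add (Nat.add (Nat.add (Nat.add (Nat.add C x27783) x42363) x40419) x41067) x40851) x21223)
    (Nat.sub (Nat.add (Nat.add (Nat.add (Nat.add (Nat.add C (Nat.mul x41067 (nat_lit 2))) x27945) x42525) x40581) x40905) x21385)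
    (Nat.add (Nat.add (Nat.add (Nat.add (Nat.add C (Nat.mul x41555 (nat_lit 4))) x28433) x45929) x40097) x41557)
    (Nat.sub (Nat.add (Nat.add (Nat.add (Nat.add (Nat.add (Nat.add (Nat.add C (Nat.mul x41557 (nat_lit 3))) x28435) x45931) x40099) x41563) x41555) x41559) x21875)
    (Nat.sub (Nat.add (Nat.add (Nat.add (Nat.add (Nat.add C x28437) x45933) x40101) x41565) x41557) x21877)
    (Nat.sub (Nat.add (Nat.add (Nat.add (Nat.add (Nat.add (Nat.add (Nat.add C (Nat.mul x41563 (nat_lit 2))) x28441) x45937) x40105) x41581) x41557) x41565) x21881)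
    (Nat.sub (Nat.add (Nat.add (Nat.add (Nat.add (Nat.add (Nat.add (Nat.add (Nat.add C x41565) x28443) x45939) x40107) x41583) x41559) x41571) x41563) x21883)
    (Nat.sub (Nat.add (Nat.add (Nat.add (Nat.add (Nat.add C x28449) x45945) x40113) x41589) x41565) x21889)
    (Nat.sub (Nat.add (Nat.add (Nat.add (Nat.add (Nat.add (Nat.add (Nat.add C (Nat.mul x41581 (nat_lit 2))) x28459) x45955) x40123) x41635) x41563) x41583) x21899)
    (Nat.sub (Nat.add (Nat.add (Nat.add (Nat.add (Nat.add (Nat.add (Nat.add C x28461) x45957) x40125) x41637) x41565) x41589) x41581) x21901)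
    (Nat.sub (Nat.add (Nat.add (Nat.add (Nat.add (Nat.add (Nat.add (Nat.add (Nat.add C x41589) x28467) x45963) x40131) x41643) x41571) x41607) x41583) x21907)
    (Nat.sub (Nat.add (Nat.add (Nat.add (Nat.add (Nat.add C x28485) x45981) x40149) x41661) x41589) x21925)
    (Nat.sub (Nat.add (Nat.add (Nat.add (Nat.add (Nat.add (Nat.add (Nat.add C (Nat.mul x41635 (nat_lit 2))) x28513) x46009) x40177) x41797) x41581) x41637) x21953)
    (Nat.sub (Nat.add (Nat.add (Nat.add (Nat.add (Nat.add (Nat.add (Nat.add C x28515) x46011) x40179) x41799) x41583) x41643) x41635) x21955)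
    (Nat.sub (Nat.add (Nat.add (Nat.add (Nat.add (Nat.add (Nat.add (Nat.add C x28521) x46017) x40185) x41805) x41589) x41661) x41637) x21961)
    (Nat.sub (Nat.add (Nat.add (Nat.add (Nat.add (Nat.add (Nat.add (Nat.add (Nat.add C x41661) x28539) x46035) x40203) x41823) x41607) x41715) x41643) x21979)
    (Nat.sub (Nat.add (Nat.add (Nat.add (Nat.add (Nat.add C x28593) x46089) x40257) x41877) x41661) x22033)
    (Nat.sub (Nat.add (Nat.add (Nat.add (Nat.add (Nat.add (Nat.add (Nat.add C (Nat.mul x41797 (nat_lit 2))) x28675) x46171) x40339) x42283) x41635) x41799) x22115)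
    (Nat.sub (Nat.add (Nat.add (Nat.add (Nat.add (Nat.add (Nat.add (Nat.add C x28677) x46173) x40341) x42285) x41637) x41805) x41797) x22117)
    (Nat.sub (Nat.add (Nat.add (Nat.add (Nat.add (Nat.add (Nat.add (Nat.add C x28683) x46179) x40347) x42291) x41643) x41823) x41799) x22123)
    (Nat.sub (Nat.add (Nat.add (Nat.add (Nat.add (Nat.add (Nat.add (Nat.add C x28701) x46197) x40365) x42309) x41661) x41877) x41805) x22141)
    (Nat.sub (Nat.add (Nat.add (Nat.add (Nat.add (Nat.add (Nat.add (Nat.add (Nat.add C x41877) x28755) x46251) x40419) x42363) x41715) x42039) x41823) x22195)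
    (Nat.sub (Nat.add (Nat.add (Nat.add (Nat.add (Nat.add C x28917) x46413) x40581) x42525) x41877) x22357)
    (Nat.sub (Nat.add (Nat.add (Nat.add (Nat.add (Nat.add (Nat.add (Nat.add C (Nat.mul x42283 (nat_lit 3))) x29161) x46657) x40825) x43741) x41797) x42285) x22601)
    (Nat.sub (Nat.add (Nat.add (Nat.add (Nat.add (Nat.add (Nat.add (Nat.add (Nat.add C x42285) x29163) x46659) x40827) x43743) x41799) x42291) x42283) x22603)
    (Nat.sub (Nat.add (Nat.add (Nat.add (Nat.add (Nat.add (Nat.add (Nat.add (Nat.add C x42291) x29169) x46665) x40833) x43749) x41805) x42309) x42285) x22609)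
    (Nat.sub (Nat.add (Nat.add (Nat.add (Nat.add (Nat.add (Nat.add (Nat.add (Nat.add C x42309) x29187) x46683) x40851) x43767) x41823) x42363) x42291) x22627)
    (Nat.sub (Nat.add (Nat.add (Nat.add (Nat.add (Nat.add (Nat.add (Nat.add (Nat.add C x42363) x29241) x46737) x40905) x43821) x41877) x42525) x42309) x22681)
    (Nat.sub (Nat.add (Nat.add (Nat.add (Nat.add (Nat.add (Nat.add (Nat.add (Nat.add C (Nat.mul x42525 (nat_lit 2))) x29403) x46899) x41067) x43983) x42039) x43011) x42363) x22843)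
    (Nat.sub (Nat.add (Nat.add (Nat.add (Nat.add (Nat.add C (Nat.mul x43011 (nat_lit 2))) x29889) x47385) x44469) x42525) x23329)
    (Nat.sub (Nat.add (Nat.add (Nat.add (Nat.add (Nat.add C (Nat.mul x43741 (nat_lit 2))) x30619) x48115) x42283) x43743) x24059)
    (Nat.sub (Nat.add (Nat.add (Nat.add (Nat.add (Nat.add C x30621) x48117) x42285) x43749) x43741) x24061)
    (Nat.sub (Nat.add (Nat.add (Nat.add (Nat.add (Nat.add C x30627) x48123) x42291) x43767) x43743) x24067)
    (Nat.sub (Nat.add (Nat.add (Nat.add (Nat.add (Nat.add C x30645) x48141) x42309) x43821) x43749) x24085)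
    (Nat.sub (Nat.add (Nat.add (Nat.add (Nat.add (Nat.add C x30699) x48195) x42363) x43983) x43767) x24139)
    (Nat.sub (Nat.add (Nat.add (Nat.add (Nat.add (Nat.add C x30861) x48357) x42525) x44469) x43821) x24301)
    (Nat.sub (Nat.add (Nat.add (Nat.add (Nat.add (Nat.add C (Nat.mul x44469 (nat_lit 2))) x31347) x48843) x43011) x43983) x24787)
    (Nat.add (Nat.add (Nat.add (Nat.add C (Nat.mul x45929 (nat_lit 6))) x32807) x41555) x45931)
    (Nat.sub (Nat.add (Nat.add (Nat.add (Nat.add (Nat.add (Nat.add C (Nat.mul x45931 (nat_lit 5))) x32809) x41557) x45937) x45929) x45933) x26249)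
    (Nat.sub (Nat.add (Nat.add (Nat.add (Nat.add (Nat.add C (Nat.mul x45933 (nat_lit 2))) x32811) x41559) x45939) x45931) x26251)
    (Nat.sub (Nat.add (Nat.add (Nat.add (Nat.add (Nat.add (Nat.add C (Nat.mul x45937 (nat_lit 4))) x32815) x41563) x45955) x45931) x45939) x26255)
    (Nat.sub (Nat.add (Nat.add (Nat.add (Nat.add (Nat.add (Nat.add (Nat.add C (Nat.mul x45939 (nat_lit 3))) x32817) x41565) x45957) x45933) x45945) x45937) x26257)
    (Nat.sub (Nat.add (Nat.add (Nat.add (Nat.add (Nat.add C (Nat.mul x45945 (nat_lit 2))) x32823) x41571) x45963) x45939) x26263)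
    (Nat.sub (Nat.add (Nat.add (Nat.add (Nat.add (Nat.add (Nat.add C (Nat.mul x45955 (nat_lit 4))) x32833) x41581) x46009) x45937) x45957) x26273)
    (Nat.sub (Nat.add (Nat.add (Nat.add (Nat.add (Nat.add (Nat.add (Nat.add C (Nat.mul x45957 (nat_lit 2))) x32835) x41583) x46011) x45939) x45963) x45955) x26275)
    (Nat.sub (Nat.add (Nat.add (Nat.add (Nat.add (Nat.add (Nat.add (Nat.add C (Nat.mul x45963 (nat_lit 3))) x32841) x41589) x46017) x45945) x45981) x45957) x26281)
    (Nat.sub (Nat.add (Nat.add (Nat.add (Nat.add (Nat.add C (Nat.mul x45981 (nat_lit 2))) x32859) x41607) x46035) x45963) x26299)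
    (Nat.sub (Nat.add (Nat.add (Nat.add (Nat.add (Nat.add (Nat.add C (Nat.mul x46009 (nat_lit 4))) x32887) x41635) x46171) x45955) x46011) x26327)
    (Nat.sub (Nat.add (Nat.add (Nat.add (Nat.add (Nat.add (Nat.add (Nat.add C (Nat.mul x46011 (nat_lit 2))) x32889) x41637) x46173) x45957) x46017) x46009) x26329)
    (Nat.sub (Nat.add (Nat.add (Nat.add (Nat.add (Nat.add (Nat.add (Nat.add C (Nat.mul x46017 (nat_lit 2))) x32895) x41643) x46179) x45963) x46035) x46011) x26335)
    (Nat.sub (Nat.add (Nat.add (Nat.add (Nat.add (Nat.add (Nat.add (Nat.add C (Nat.mul x46035 (nat_lit 3))) x32913) x41661) x46197) x45981) x46089) x46017) x26353)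
    (Nat.sub (Nat.add (Nat.add (Nat.add (Nat.add (Nat.add C (Nat.mul x46089 (nat_lit 2))) x32967) x41715) x46251) x46035) x26407)
    (Nat.sub (Nat.add (Nat.add (Nat.add (Nat.add (Nat.add (Nat.add C (Nat.mul x46171 (nat_lit 4))) x33049) x41797) x46657) x46009) x46173) x26489)
    (Nat.sub (Nat.add (Nat.add (Nat.add (Nat.add (Nat.add (Nat.add (Nat.add C (Nat.mul x46173 (nat_lit 2))) x33051) x41799) x46659) x46011) x46179) x46171) x26491)
    (Nat.sub (Nat.add (Nat.add (Nat.add (Nat.add (Nat.add (Nat.add (Nat.add C (Nat.mul x46179 (nat_lit 2))) x33057) x41805) x46665) x46017) x46197) x46173) x26497)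
    (Nat.sub (Nat.add (Nat.add (Nat.add (Nat.add (Nat.add (Nat.add (Nat.add C (Nat.mul x46197 (nat_lit 2))) x33075) x41823) x46683) x46035) x46251) x46179) x26515)
    (Nat.sub (Nat.add (Nat.add (Nat.add (Nat.add (Nat.add (Nat.add (Nat.add C (Nat.mul x46251 (nat_lit 3))) x33129) x41877) x46737) x46089) x46413) x46197) x26569)
    (Nat.sub (Nat.add (Nat.add (Nat.add (Nat.add (Nat.add C (Nat.mul x46413 (nat_lit 2))) x33291) x42039) x46899) x46251) x26731)
    (Nat.sub (Nat.add (Nat.add (Nat.add (Nat.add (Nat.add (Nat.add C (Nat.mul x46657 (nat_lit 4))) x33535) x42283) x48115) x46171) x46659) x26975)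
    (Nat.sub (Nat.add (Nat.add (Nat.add (Nat.add (Nat.add (Nat.add (Nat.add C (Nat.mul x46659 (nat_lit 2))) x33537) x42285) x48117) x46173) x46665) x46657) x26977)
    (Nat.sub (Nat.add (Nat.add (Nat.add (Nat.add (Nat.add (Nat.add (Nat.add C (Nat.mul x46665 (nat_lit 2))) x33543) x42291) x48123) x46179) x46683) x46659) x26983)
    (Nat.sub (Nat.add (Nat.add (Nat.add (Nat.add (Nat.add (Nat.add (Nat.add C (Nat.mul x46683 (nat_lit 2))) x33561) x42309) x48141) x46197) x46737) x46665) x27001)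
    (Nat.sub (Nat.add (Nat.add (Nat.add (Nat.add (Nat.add (Nat.add (Nat.add C (Nat.mul x46737 (nat_lit 2))) x33615) x42363) x48195) x46251) x46899) x46683) x27055)
    (Nat.sub (Nat.add (Nat.add (Nat.add (Nat.add (Nat.add (Nat.add (Nat.add C (Nat.mul x46899 (nat_lit 3))) x33777) x42525) x48357) x46413) x47385) x46737) x27217)
    (Nat.sub (Nat.add (Nat.add (Nat.add (Nat.add (Nat.add C (Nat.mul x47385 (nat_lit 2))) x34263) x43011) x48843) x46899) x27703)
    (Nat.sub (Nat.add (Nat.add (Nat.add (Nat.add (Nat.add (Nat.add C (Nat.mul x48115 (nat_lit 5))) x34993) x43741) x52489) x46657) x48117) x28433)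
    (Nat.sub (Nat.add (Nat.add (Nat.add (Nat.add (Nat.add (Nat.add (Nat.add C (Nat.mul x48117 (nat_lit 3))) x34995) x43743) x52491) x46659) x48123) x48115) x28435)
    (Nat.sub (Nat.add (Nat.add (Nat.add (Nat.add (Nat.add (Nat.add (Nat.add C (Nat.mul x48123 (nat_lit 3))) x35001) x43749) x52497) x46665) x48141) x48117) x28441)
    (Nat.sub (Nat.add (Nat.add (Nat.add (Nat.add (Nat.add (Nat.add (Nat.add C (Nat.mul x48141 (nat_lit 3))) x35019) x43767) x52515) x46683) x48195) x48123) x28459)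
    (Nat.sub (Nat.add (Nat.add (Nat.add (Nat.add (Nat.add (Nat.add (Nat.add C (Nat.mul x48195 (nat_lit 3))) x35073) x43821) x52569) x46737) x48357) x48141) x28513)
    (Nat.sub (Nat.add (Nat.add (Nat.add (Nat.add (Nat.add (Nat.add (Nat.add C (Nat.mul x48357 (nat_lit 3))) x35235) x43983) x52731) x46899) x48843) x48195) x28675)
    (Nat.sub (Nat.add (Nat.add (Nat.add (Nat.add (Nat.add (Nat.add (Nat.add C (Nat.mul x48843 (nat_lit 4))) x35721) x44469) x53217) x47385) x50301) x48357) x29161)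
    (Nat.sub (Nat.add (Nat.add (Nat.add (Nat.add C (Nat.mul x50301 (nat_lit 4))) x37179) x54675) x48843) x30619)
    (Nat.sub (Nat.add (Nat.add (Nat.add C (Nat.mul x52489 (nat_lit 6))) x48115) x52491) x32807)
    (Nat.sub (Nat.add (Nat.add (Nat.add (Nat.add C (Nat.mul x52491 (nat_lit 4))) x48117) x52497) x52489) x32809)
    (Nat.sub (Nat.add (Nat.add (Nat.add (Nat.add C (Nat.mul x52497 (nat_lit 4))) x48123) x52515) x52491) x32815)
    (Nat.sub (Nat.add (Nat.add (Nat.add (Nat.add C (Nat.mul x52515 (nat_lit 4))) x48141) x52569) x52497) x32833)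
    (Nat.sub (Nat.add (Nat.add (Nat.add (Nat.add C (Nat.mul x52569 (nat_lit 4))) x48195) x52731) x52515) x32887)
    (Nat.sub (Nat.add (Nat.add (Nat.add (Nat.add C (Nat.mul x52731 (nat_lit 4))) x48357) x53217) x52569) x33049)
    (Nat.sub (Nat.add (Nat.add (Nat.add (Nat.add C (Nat.mul x53217 (nat_lit 4))) x48843) x54675) x52731) x33535)
    (Nat.sub (Nat.add (Nat.add (Nat.add C (Nat.mul x54675 (nat_lit 6))) x50301) x53217) x34993)

theorem ap_eq (x : Nat → Nat) (k : FnLL specs) : apLL (fun t => x t.cd) specs k = A10_5.ap x k :=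
  Eq.refl (A10_5.ap x k)

theorem step_eq0 (e : Nat → Nat) (C p r : Nat) (k : FnLL specs) (x : Nat → Nat) :
    A10_5.ap x (step e C p r k) = apLL (interp e C p r x) specs k :=
  Eq.refl (A10_5.ap x (step e C p r k))

theorem spec_ok : specOK 9 true A10_5.mask specs = true := by decide +kernel

theorem step_eq (e : Nat → Nat) (C p r : Nat) (k : A10_5.KK) (x : Nat → Nat) :
    A10_5.ap x (step e C p r k) = A10_5.ap (row 9 true A10_5.mask e C p r x) k :=
  ((step_eq0 e C p r k x).trans (apLL_row 9 true A10_5.mask specs spec_ok e C p r x k)).trans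
    (ap_eq (row 9 true A10_5.mask e C p r x) k)

end Vale.Agent.P348.G10_5_1
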